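import Vale.Agent.Lib.P154.PChain.BU.R5_0

set_option linter.all false

namespace Vale.Agent.Lib.P154.PChain.BU.S6

open Vale.Agent.Lib.P154.Chain

noncomputable def pc0 : PT := (PT.nd (nat_lit 3425604) (PT.nd (nat_lit 3303690) (PT.nd (nat_lit 3182010) (PT.nd (nat_lit 3141372) (PT.nd (nat_lit 3141294) (PT.nd (nat_lit 3100734) PT.nil (PT.lf (nat_lit 76) (nat_lit 3) (nat_lit 1) (nat_lit 1) (nat_lit 157) (nat_lit 76) (nat_lit 157))) (PT.lf (nat_lit 152) (nat_lit 6) (nat_lit 2) (nat_lit 3) (nat_lit 156) (nat_lit 77) (nat_lit 157))) (PT.nd (nat_lit 40482) (PT.lf (nat_lit 152) (nat_lit 6) (nat_lit 2) (nat_lit 1) (nat_lit 157) (nat_lit 77) (nat_lit 156)) (PT.nd (nat_lit 78) (PT.lf (nat_lit 228) (nat_lit 6) (nat_lit 3) (nat_lit 3) (nat_lit 155) (nat_lit 78) (nat_lit 157)) (PT.lf (nat_lit 304) (nat_lit 3) (nat_lit 4) (nat_lit 1) (nat_lit 156) (nat_lit 78) (nat_lit 156))))) (PT.nd (nat_lit 81042) (PT.nd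 (nat_lit 40482) (PT.lf (nat_lit 228) (nat_lit 6) (nat_lit 3) (nat_lit 1) (nat_lit 157) (nat_lit 78) (nat_lit 155)) (PT.nd (nat_lit 78) (PT.lf (nat_lit 380) (nat_lit 6) (nat_lit 5) (nat_lit 3) (nat_lit 155) (nat_lit 79) (nat_lit 156)) (PT.lf (nat_lit 380) (nat_lit 6) (nat_lit 5) (nat_lit 1) (nat_lit 156) (nat_lit 79) (nat_lit 155)))) (PT.nd (nat_lit 78) (PT.lf (nat_lit 456) (nat_lit 6) (nat_lit 6) (nat_lit 3) (nat_lit 154) (nat_lit 80) (nat_lit 156)) (PT.nd (nat_lit 78) (PT.lf (nat_lit 532) (nat_lit 3) (nat_lit 7) (nat_lit 1) (nat_lit 155) (nat_lit 80) (nat_lit 155)) (PT.lf (nat_lit 456) (nat_lit 6) (nat_lit 6) (nat_lit 1) (nat_lit 156) (nat_lit 80) (nat_lit 154)))))) (PT.nd (nat_lit 81120) (PT.nd (nat_lit 40560) (PT.nd (nat_lit 78) (PT.lf (nat_lit 608) (nat_lit 6) (nat_lit 8) (nat_lit 3) (nat_lit 154) (nat_lit 81) (nat_lit 155)) (PT.lf (nat_lit 608) (nat_lit 6) (nat_lit 8) (nat_lit 1) (nat_lit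 155) (nat_lit 81) (nat_lit 154))) (PT.nd (nat_lit 78) (PT.lf (nat_lit 684) (nat_lit 6) (nat_lit 9) (nat_lit 3) (nat_lit 153) (nat_lit 82) (nat_lit 155)) (PT.nd (nat_lit 78) (PT.lf (nat_lit 760) (nat_lit 3) (nat_lit 10) (nat_lit 1) (nat_lit 154) (nat_lit 82) (nat_lit 154)) (PT.lf (nat_lit 684) (nat_lit 6) (nat_lit 9) (nat_lit 1) (nat_lit 155) (nat_lit 82) (nat_lit 153))))) (PT.nd (nat_lit 234) (PT.nd (nat_lit 78) (PT.lf (nat_lit 836) (nat_lit 6) (nat_lit 11) (nat_lit 3) (nat_lit 152) (nat_lit 83) (nat_lit 155)) (PT.nd (nat_lit 78) (PT.lf (nat_lit 912) (nat_lit 6) (nat_lit 12) (nat_lit 3) (nat_lit 153) (nat_lit 83) (nat_lit 154)) (PT.lf (nat_lit 912) (nat_lit 6) (nat_lit 12) (nat_lit 1) (nat_lit 154) (nat_lit 83) (nat_lit 153)))) (PT.nd (nat_lit 40404) (PT.lf (nat_lit 836) (nat_lit 6) (nat_lit 11) (nat_lit 1) (nat_lit 155) (nat_lit 83) (nat_lit 152)) (PT.nd (nat_lit 78) (PT.lf (nat_lit 988) (nat_lit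 6) (nat_lit 13) (nat_lit 3) (nat_lit 152) (nat_lit 84) (nat_lit 154)) (PT.lf (nat_lit 1064) (nat_lit 3) (nat_lit 14) (nat_lit 1) (nat_lit 153) (nat_lit 84) (nat_lit 153))))))) (PT.nd (nat_lit 121836) (PT.nd (nat_lit 81042) (PT.nd (nat_lit 40482) (PT.nd (nat_lit 40404) (PT.lf (nat_lit 988) (nat_lit 6) (nat_lit 13) (nat_lit 1) (nat_lit 154) (nat_lit 84) (nat_lit 152)) (PT.lf (nat_lit 1140) (nat_lit 6) (nat_lit 15) (nat_lit 3) (nat_lit 151) (nat_lit 85) (nat_lit 154))) (PT.nd (nat_lit 78) (PT.lf (nat_lit 1216) (nat_lit 6) (nat_lit 16) (nat_lit 3) (nat_lit 152) (nat_lit 85) (nat_lit 153)) (PT.nd (nat_lit 78) (PT.lf (nat_lit 1216) (nat_lit 6) (nat_lit 16) (nat_lit 1) (nat_lit 153) (nat_lit 85) (nat_lit 152)) (PT.lf (nat_lit 1140) (nat_lit 6) (nat_lit 15) (nat_lit 1) (nat_lit 154) (nat_lit 85) (nat_lit 151))))) (PT.nd (nat_lit 40560) (PT.nd (nat_lit 78) (PT.lf (nat_lit 1292) (nat_lit 6) (nat_lit 17)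 (nat_lit 3) (nat_lit 151) (nat_lit 86) (nat_lit 153)) (PT.nd (nat_lit 78) (PT.lf (nat_lit 1368) (nat_lit 3) (nat_lit 18) (nat_lit 1) (nat_lit 152) (nat_lit 86) (nat_lit 152)) (PT.lf (nat_lit 1292) (nat_lit 6) (nat_lit 17) (nat_lit 1) (nat_lit 153) (nat_lit 86) (nat_lit 151)))) (PT.nd (nat_lit 78) (PT.lf (nat_lit 1444) (nat_lit 6) (nat_lit 19) (nat_lit 3) (nat_lit 150) (nat_lit 87) (nat_lit 153)) (PT.nd (nat_lit 78) (PT.lf (nat_lit 1520) (nat_lit 6) (nat_lit 20) (nat_lit 3) (nat_lit 151) (nat_lit 87) (nat_lit 152)) (PT.lf (nat_lit 1520) (nat_lit 6) (nat_lit 20) (nat_lit 1) (nat_lit 152) (nat_lit 87) (nat_lit 151)))))) (PT.nd (nat_lit 81120) (PT.nd (nat_lit 40560) (PT.nd (nat_lit 40404) (PT.lf (nat_lit 1444) (nat_lit 6) (nat_lit 19) (nat_lit 1) (nat_lit 153) (nat_lit 87) (nat_lit 150)) (PT.nd (nat_lit 78) (PT.lf (nat_lit 1596) (nat_lit 6) (nat_lit 21) (nat_lit 3) (nat_lit 150) (nat_lit 88) (nat_lit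 152)) (PT.lf (nat_lit 1672) (nat_lit 3) (nat_lit 22) (nat_lit 1) (nat_lit 151) (nat_lit 88) (nat_lit 151)))) (PT.nd (nat_lit 40404) (PT.lf (nat_lit 1596) (nat_lit 6) (nat_lit 21) (nat_lit 1) (nat_lit 152) (nat_lit 88) (nat_lit 150)) (PT.nd (nat_lit 78) (PT.lf (nat_lit 1748) (nat_lit 6) (nat_lit 23) (nat_lit 3) (nat_lit 149) (nat_lit 89) (nat_lit 152)) (PT.lf (nat_lit 1824) (nat_lit 6) (nat_lit 24) (nat_lit 3) (nat_lit 150) (nat_lit 89) (nat_lit 151))))) (PT.nd (nat_lit 40482) (PT.nd (nat_lit 78) (PT.lf (nat_lit 1824) (nat_lit 6) (nat_lit 24) (nat_lit 1) (nat_lit 151) (nat_lit 89) (nat_lit 150)) (PT.nd (nat_lit 40326) (PT.lf (nat_lit 1748) (nat_lit 6) (nat_lit 23) (nat_lit 1) (nat_lit 152) (nat_lit 89) (nat_lit 149)) (PT.lf (nat_lit 1900) (nat_lit 6) (nat_lit 25) (nat_lit 3) (nat_lit 148) (nat_lit 90) (nat_lit 152)))) (PT.nd (nat_lit 78) (PT.lf (nat_lit 1976) (nat_lit 6) (nat_lit 26) (nat_lit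 3) (nat_lit 149) (nat_lit 90) (nat_lit 151)) (PT.nd (nat_lit 78) (PT.lf (nat_lit 2052) (nat_lit 3) (nat_lit 27) (nat_lit 1) (nat_lit 150) (nat_lit 90) (nat_lit 150)) (PT.lf (nat_lit 1976) (nat_lit 6) (nat_lit 26) (nat_lit 1) (nat_lit 151) (nat_lit 90) (nat_lit 149))))))))
noncomputable def pc1 : PT := (PT.nd (nat_lit 202800) (PT.nd (nat_lit 121524) (PT.nd (nat_lit 80886) (PT.nd (nat_lit 40404) (PT.nd (nat_lit 40326) (PT.lf (nat_lit 1900) (nat_lit 6) (nat_lit 25) (nat_lit 1) (nat_lit 152) (nat_lit 90) (nat_lit 148)) (PT.lf (nat_lit 2128) (nat_lit 6) (nat_lit 28) (nat_lit 3) (nat_lit 148) (nat_lit 91) (nat_lit 151))) (PT.nd (nat_lit 78) (PT.lf (nat_lit 2204) (nat_lit 6) (nat_lit 29) (nat_lit 3) (nat_lit 149) (nat_lit 91) (nat_lit 150)) (PT.nd (nat_lit 78) (PT.lf (nat_lit 2204) (nat_lit 6) (nat_lit 29) (nat_lit 1) (nat_lit 150) (nat_lit 91) (nat_lit 149)) (PT.lf (nat_lit 2128) (nat_lit 6) (nat_lit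 28) (nat_lit 1) (nat_lit 151) (nat_lit 91) (nat_lit 148))))) (PT.nd (nat_lit 234) (PT.nd (nat_lit 78) (PT.lf (nat_lit 2280) (nat_lit 6) (nat_lit 30) (nat_lit 3) (nat_lit 147) (nat_lit 92) (nat_lit 151)) (PT.nd (nat_lit 78) (PT.lf (nat_lit 2356) (nat_lit 6) (nat_lit 31) (nat_lit 3) (nat_lit 148) (nat_lit 92) (nat_lit 150)) (PT.lf (nat_lit 2432) (nat_lit 3) (nat_lit 32) (nat_lit 1) (nat_lit 149) (nat_lit 92) (nat_lit 149)))) (PT.nd (nat_lit 78) (PT.lf (nat_lit 2356) (nat_lit 6) (nat_lit 31) (nat_lit 1) (nat_lit 150) (nat_lit 92) (nat_lit 148)) (PT.nd (nat_lit 40248) (PT.lf (nat_lit 2280) (nat_lit 6) (nat_lit 30) (nat_lit 1) (nat_lit 151) (nat_lit 92) (nat_lit 147)) (PT.lf (nat_lit 2508) (nat_lit 6) (nat_lit 33) (nat_lit 3) (nat_lit 146) (nat_lit 93) (nat_lit 151)))))) (PT.nd (nat_lit 40638) (PT.nd (nat_lit 234) (PT.nd (nat_lit 78) (PT.lf (nat_lit 2584) (nat_lit 6) (nat_lit 34) (nat_lit 3) (nat_lit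 147) (nat_lit 93) (nat_lit 150)) (PT.nd (nat_lit 78) (PT.lf (nat_lit 2660) (nat_lit 6) (nat_lit 35) (nat_lit 3) (nat_lit 148) (nat_lit 93) (nat_lit 149)) (PT.lf (nat_lit 2660) (nat_lit 6) (nat_lit 35) (nat_lit 1) (nat_lit 149) (nat_lit 93) (nat_lit 148)))) (PT.nd (nat_lit 78) (PT.lf (nat_lit 2584) (nat_lit 6) (nat_lit 34) (nat_lit 1) (nat_lit 150) (nat_lit 93) (nat_lit 147)) (PT.nd (nat_lit 40248) (PT.lf (nat_lit 2508) (nat_lit 6) (nat_lit 33) (nat_lit 1) (nat_lit 151) (nat_lit 93) (nat_lit 146)) (PT.lf (nat_lit 2736) (nat_lit 6) (nat_lit 36) (nat_lit 3) (nat_lit 146) (nat_lit 94) (nat_lit 150))))) (PT.nd (nat_lit 234) (PT.nd (nat_lit 78) (PT.lf (nat_lit 2812) (nat_lit 6) (nat_lit 37) (nat_lit 3) (nat_lit 147) (nat_lit 94) (nat_lit 149)) (PT.nd (nat_lit 78) (PT.lf (nat_lit 2888) (nat_lit 3) (nat_lit 38) (nat_lit 1) (nat_lit 148) (nat_lit 94) (nat_lit 148)) (PT.lf (nat_lit 2812) (nat_lit 6) (nat_lit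 37) (nat_lit 1) (nat_lit 149) (nat_lit 94) (nat_lit 147)))) (PT.nd (nat_lit 40248) (PT.lf (nat_lit 2736) (nat_lit 6) (nat_lit 36) (nat_lit 1) (nat_lit 150) (nat_lit 94) (nat_lit 146)) (PT.nd (nat_lit 78) (PT.lf (nat_lit 2964) (nat_lit 6) (nat_lit 39) (nat_lit 3) (nat_lit 145) (nat_lit 95) (nat_lit 150)) (PT.lf (nat_lit 3040) (nat_lit 6) (nat_lit 40) (nat_lit 3) (nat_lit 146) (nat_lit 95) (nat_lit 149))))))) (PT.nd (nat_lit 81042) (PT.nd (nat_lit 40482) (PT.nd (nat_lit 156) (PT.nd (nat_lit 78) (PT.lf (nat_lit 3116) (nat_lit 6) (nat_lit 41) (nat_lit 3) (nat_lit 147) (nat_lit 95) (nat_lit 148)) (PT.lf (nat_lit 3116) (nat_lit 6) (nat_lit 41) (nat_lit 1) (nat_lit 148) (nat_lit 95) (nat_lit 147))) (PT.nd (nat_lit 78) (PT.lf (nat_lit 3040) (nat_lit 6) (nat_lit 40) (nat_lit 1) (nat_lit 149) (nat_lit 95) (nat_lit 146)) (PT.nd (nat_lit 40170) (PT.lf (nat_lit 2964) (nat_lit 6) (nat_lit 39) (nat_lit 1)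 (nat_lit 150) (nat_lit 95) (nat_lit 145)) (PT.lf (nat_lit 3192) (nat_lit 6) (nat_lit 42) (nat_lit 3) (nat_lit 144) (nat_lit 96) (nat_lit 150))))) (PT.nd (nat_lit 234) (PT.nd (nat_lit 78) (PT.lf (nat_lit 3268) (nat_lit 6) (nat_lit 43) (nat_lit 3) (nat_lit 145) (nat_lit 96) (nat_lit 149)) (PT.nd (nat_lit 78) (PT.lf (nat_lit 3344) (nat_lit 6) (nat_lit 44) (nat_lit 3) (nat_lit 146) (nat_lit 96) (nat_lit 148)) (PT.lf (nat_lit 3420) (nat_lit 3) (nat_lit 45) (nat_lit 1) (nat_lit 147) (nat_lit 96) (nat_lit 147)))) (PT.nd (nat_lit 78) (PT.lf (nat_lit 3344) (nat_lit 6) (nat_lit 44) (nat_lit 1) (nat_lit 148) (nat_lit 96) (nat_lit 146)) (PT.nd (nat_lit 78) (PT.lf (nat_lit 3268) (nat_lit 6) (nat_lit 43) (nat_lit 1) (nat_lit 149) (nat_lit 96) (nat_lit 145)) (PT.lf (nat_lit 3192) (nat_lit 6) (nat_lit 42) (nat_lit 1) (nat_lit 150) (nat_lit 96) (nat_lit 144)))))) (PT.nd (nat_lit 40560) (PT.nd (nat_lit 234) (PT.nd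 (nat_lit 78) (PT.lf (nat_lit 3496) (nat_lit 6) (nat_lit 46) (nat_lit 3) (nat_lit 144) (nat_lit 97) (nat_lit 149)) (PT.nd (nat_lit 78) (PT.lf (nat_lit 3572) (nat_lit 6) (nat_lit 47) (nat_lit 3) (nat_lit 145) (nat_lit 97) (nat_lit 148)) (PT.lf (nat_lit 3648) (nat_lit 6) (nat_lit 48) (nat_lit 3) (nat_lit 146) (nat_lit 97) (nat_lit 147)))) (PT.nd (nat_lit 78) (PT.lf (nat_lit 3648) (nat_lit 6) (nat_lit 48) (nat_lit 1) (nat_lit 147) (nat_lit 97) (nat_lit 146)) (PT.nd (nat_lit 78) (PT.lf (nat_lit 3572) (nat_lit 6) (nat_lit 47) (nat_lit 1) (nat_lit 148) (nat_lit 97) (nat_lit 145)) (PT.lf (nat_lit 3496) (nat_lit 6) (nat_lit 46) (nat_lit 1) (nat_lit 149) (nat_lit 97) (nat_lit 144))))) (PT.nd (nat_lit 234) (PT.nd (nat_lit 78) (PT.lf (nat_lit 3724) (nat_lit 6) (nat_lit 49) (nat_lit 3) (nat_lit 143) (nat_lit 98) (nat_lit 149)) (PT.nd (nat_lit 78) (PT.lf (nat_lit 3800) (nat_lit 6) (nat_lit 50) (nat_lit 3)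 (nat_lit 144) (nat_lit 98) (nat_lit 148)) (PT.lf (nat_lit 3876) (nat_lit 6) (nat_lit 51) (nat_lit 3) (nat_lit 145) (nat_lit 98) (nat_lit 147)))) (PT.nd (nat_lit 78) (PT.lf (nat_lit 3952) (nat_lit 3) (nat_lit 52) (nat_lit 1) (nat_lit 146) (nat_lit 98) (nat_lit 146)) (PT.nd (nat_lit 78) (PT.lf (nat_lit 3876) (nat_lit 6) (nat_lit 51) (nat_lit 1) (nat_lit 147) (nat_lit 98) (nat_lit 145)) (PT.lf (nat_lit 3800) (nat_lit 6) (nat_lit 50) (nat_lit 1) (nat_lit 148) (nat_lit 98) (nat_lit 144))))))))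
noncomputable def pc2 : PT := (PT.nd (nat_lit 121836) (PT.nd (nat_lit 80886) (PT.nd (nat_lit 40404) (PT.nd (nat_lit 40170) (PT.nd (nat_lit 40092) (PT.lf (nat_lit 3724) (nat_lit 6) (nat_lit 49) (nat_lit 1) (nat_lit 149) (nat_lit 98) (nat_lit 143)) (PT.lf (nat_lit 4028) (nat_lit 6) (nat_lit 53) (nat_lit 3) (nat_lit 142) (nat_lit 99) (nat_lit 149))) (PT.nd (nat_lit 78) (PT.lf (nat_lit 4104) (nat_lit 6) (nat_lit 54) (nat_lit 3) (nat_lit 143) (nat_lit 99) (nat_lit 148)) (PT.nd (nat_lit 78) (PT.lf (nat_lit 4180) (nat_lit 6) (nat_lit 55) (nat_lit 3) (nat_lit 144) (nat_lit 99) (nat_lit 147)) (PT.lf (nat_lit 4256) (nat_lit 6) (nat_lit 56) (nat_lit 3) (nat_lit 145) (nat_lit 99) (nat_lit 146))))) (PT.nd (nat_lit 234) (PT.nd (nat_lit 78) (PT.lf (nat_lit 4256) (nat_lit 6) (nat_lit 56) (nat_lit 1) (nat_lit 146) (nat_lit 99) (nat_lit 145)) (PT.nd (nat_lit 78) (PT.lf (nat_lit 4180) (nat_lit 6) (nat_lit 55)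 (nat_lit 1) (nat_lit 147) (nat_lit 99) (nat_lit 144)) (PT.lf (nat_lit 4104) (nat_lit 6) (nat_lit 54) (nat_lit 1) (nat_lit 148) (nat_lit 99) (nat_lit 143)))) (PT.nd (nat_lit 40092) (PT.lf (nat_lit 4028) (nat_lit 6) (nat_lit 53) (nat_lit 1) (nat_lit 149) (nat_lit 99) (nat_lit 142)) (PT.nd (nat_lit 78) (PT.lf (nat_lit 4332) (nat_lit 6) (nat_lit 57) (nat_lit 3) (nat_lit 142) (nat_lit 100) (nat_lit 148)) (PT.lf (nat_lit 4408) (nat_lit 6) (nat_lit 58) (nat_lit 3) (nat_lit 143) (nat_lit 100) (nat_lit 147)))))) (PT.nd (nat_lit 40482) (PT.nd (nat_lit 234) (PT.nd (nat_lit 78) (PT.lf (nat_lit 4484) (nat_lit 6) (nat_lit 59) (nat_lit 3) (nat_lit 144) (nat_lit 100) (nat_lit 146)) (PT.nd (nat_lit 78) (PT.lf (nat_lit 4560) (nat_lit 3) (nat_lit 60) (nat_lit 1) (nat_lit 145) (nat_lit 100) (nat_lit 145)) (PT.lf (nat_lit 4484) (nat_lit 6) (nat_lit 59) (nat_lit 1) (nat_lit 146) (nat_lit 100) (nat_lit 144)))) (PT.nd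 (nat_lit 78) (PT.lf (nat_lit 4408) (nat_lit 6) (nat_lit 58) (nat_lit 1) (nat_lit 147) (nat_lit 100) (nat_lit 143)) (PT.nd (nat_lit 40092) (PT.lf (nat_lit 4332) (nat_lit 6) (nat_lit 57) (nat_lit 1) (nat_lit 148) (nat_lit 100) (nat_lit 142)) (PT.lf (nat_lit 4636) (nat_lit 6) (nat_lit 61) (nat_lit 3) (nat_lit 141) (nat_lit 101) (nat_lit 148))))) (PT.nd (nat_lit 234) (PT.nd (nat_lit 78) (PT.lf (nat_lit 4712) (nat_lit 6) (nat_lit 62) (nat_lit 3) (nat_lit 142) (nat_lit 101) (nat_lit 147)) (PT.nd (nat_lit 78) (PT.lf (nat_lit 4788) (nat_lit 6) (nat_lit 63) (nat_lit 3) (nat_lit 143) (nat_lit 101) (nat_lit 146)) (PT.lf (nat_lit 4864) (nat_lit 6) (nat_lit 64) (nat_lit 3) (nat_lit 144) (nat_lit 101) (nat_lit 145)))) (PT.nd (nat_lit 78) (PT.lf (nat_lit 4864) (nat_lit 6) (nat_lit 64) (nat_lit 1) (nat_lit 145) (nat_lit 101) (nat_lit 144)) (PT.nd (nat_lit 78) (PT.lf (nat_lit 4788) (nat_lit 6) (nat_lit 63) (nat_lit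 1) (nat_lit 146) (nat_lit 101) (nat_lit 143)) (PT.lf (nat_lit 4712) (nat_lit 6) (nat_lit 62) (nat_lit 1) (nat_lit 147) (nat_lit 101) (nat_lit 142))))))) (PT.nd (nat_lit 80730) (PT.nd (nat_lit 40326) (PT.nd (nat_lit 40092) (PT.nd (nat_lit 40014) (PT.lf (nat_lit 4636) (nat_lit 6) (nat_lit 61) (nat_lit 1) (nat_lit 148) (nat_lit 101) (nat_lit 141)) (PT.lf (nat_lit 4940) (nat_lit 6) (nat_lit 65) (nat_lit 3) (nat_lit 140) (nat_lit 102) (nat_lit 148))) (PT.nd (nat_lit 78) (PT.lf (nat_lit 5016) (nat_lit 6) (nat_lit 66) (nat_lit 3) (nat_lit 141) (nat_lit 102) (nat_lit 147)) (PT.nd (nat_lit 78) (PT.lf (nat_lit 5092) (nat_lit 6) (nat_lit 67) (nat_lit 3) (nat_lit 142) (nat_lit 102) (nat_lit 146)) (PT.lf (nat_lit 5168) (nat_lit 6) (nat_lit 68) (nat_lit 3) (nat_lit 143) (nat_lit 102) (nat_lit 145))))) (PT.nd (nat_lit 234) (PT.nd (nat_lit 78) (PT.lf (nat_lit 5244) (nat_lit 3) (nat_lit 69) (nat_lit 1) (nat_lit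 144) (nat_lit 102) (nat_lit 144)) (PT.nd (nat_lit 78) (PT.lf (nat_lit 5168) (nat_lit 6) (nat_lit 68) (nat_lit 1) (nat_lit 145) (nat_lit 102) (nat_lit 143)) (PT.lf (nat_lit 5092) (nat_lit 6) (nat_lit 67) (nat_lit 1) (nat_lit 146) (nat_lit 102) (nat_lit 142)))) (PT.nd (nat_lit 78) (PT.lf (nat_lit 5016) (nat_lit 6) (nat_lit 66) (nat_lit 1) (nat_lit 147) (nat_lit 102) (nat_lit 141)) (PT.nd (nat_lit 40014) (PT.lf (nat_lit 4940) (nat_lit 6) (nat_lit 65) (nat_lit 1) (nat_lit 148) (nat_lit 102) (nat_lit 140)) (PT.lf (nat_lit 5320) (nat_lit 6) (nat_lit 70) (nat_lit 3) (nat_lit 140) (nat_lit 103) (nat_lit 147)))))) (PT.nd (nat_lit 468) (PT.nd (nat_lit 234) (PT.nd (nat_lit 78) (PT.lf (nat_lit 5396) (nat_lit 6) (nat_lit 71) (nat_lit 3) (nat_lit 141) (nat_lit 103) (nat_lit 146)) (PT.nd (nat_lit 78) (PT.lf (nat_lit 5472) (nat_lit 6) (nat_lit 72) (nat_lit 3) (nat_lit 142) (nat_lit 103) (nat_lit 145)) (PT.lf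 (nat_lit 5548) (nat_lit 6) (nat_lit 73) (nat_lit 3) (nat_lit 143) (nat_lit 103) (nat_lit 144)))) (PT.nd (nat_lit 78) (PT.lf (nat_lit 5548) (nat_lit 6) (nat_lit 73) (nat_lit 1) (nat_lit 144) (nat_lit 103) (nat_lit 143)) (PT.nd (nat_lit 78) (PT.lf (nat_lit 5472) (nat_lit 6) (nat_lit 72) (nat_lit 1) (nat_lit 145) (nat_lit 103) (nat_lit 142)) (PT.lf (nat_lit 5396) (nat_lit 6) (nat_lit 71) (nat_lit 1) (nat_lit 146) (nat_lit 103) (nat_lit 141))))) (PT.nd (nat_lit 40170) (PT.nd (nat_lit 40014) (PT.lf (nat_lit 5320) (nat_lit 6) (nat_lit 70) (nat_lit 1) (nat_lit 147) (nat_lit 103) (nat_lit 140)) (PT.nd (nat_lit 78) (PT.lf (nat_lit 5624) (nat_lit 6) (nat_lit 74) (nat_lit 3) (nat_lit 139) (nat_lit 104) (nat_lit 147)) (PT.lf (nat_lit 5700) (nat_lit 6) (nat_lit 75) (nat_lit 3) (nat_lit 140) (nat_lit 104) (nat_lit 146)))) (PT.nd (nat_lit 78) (PT.lf (nat_lit 5776) (nat_lit 6) (nat_lit 76) (nat_lit 3) (nat_lit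 141) (nat_lit 104) (nat_lit 145)) (PT.nd (nat_lit 78) (PT.lf (nat_lit 5852) (nat_lit 6) (nat_lit 77) (nat_lit 3) (nat_lit 142) (nat_lit 104) (nat_lit 144)) (PT.lf (nat_lit 5928) (nat_lit 3) (nat_lit 78) (nat_lit 1) (nat_lit 143) (nat_lit 104) (nat_lit 143))))))))
noncomputable def pc3 : PT := (PT.nd (nat_lit 81432) (PT.nd (nat_lit 40716) (PT.nd (nat_lit 40248) (PT.nd (nat_lit 156) (PT.nd (nat_lit 78) (PT.lf (nat_lit 5852) (nat_lit 6) (nat_lit 77) (nat_lit 1) (nat_lit 144) (nat_lit 104) (nat_lit 142)) (PT.lf (nat_lit 5776) (nat_lit 6) (nat_lit 76) (nat_lit 1) (nat_lit 145) (nat_lit 104) (nat_lit 141))) (PT.nd (nat_lit 78) (PT.lf (nat_lit 5700) (nat_lit 6) (nat_lit 75) (nat_lit 1) (nat_lit 146) (nat_lit 104) (nat_lit 140)) (PT.nd (nat_lit 39936) (PT.lf (nat_lit 5624) (nat_lit 6) (nat_lit 74) (nat_lit 1) (nat_lit 147) (nat_lit 104) (nat_lit 139)) (PT.lf (nat_lit 6004) (nat_lit 6) (nat_lit 79) (nat_lit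 3) (nat_lit 138) (nat_lit 105) (nat_lit 147))))) (PT.nd (nat_lit 234) (PT.nd (nat_lit 78) (PT.lf (nat_lit 6080) (nat_lit 6) (nat_lit 80) (nat_lit 3) (nat_lit 139) (nat_lit 105) (nat_lit 146)) (PT.nd (nat_lit 78) (PT.lf (nat_lit 6156) (nat_lit 6) (nat_lit 81) (nat_lit 3) (nat_lit 140) (nat_lit 105) (nat_lit 145)) (PT.lf (nat_lit 6232) (nat_lit 6) (nat_lit 82) (nat_lit 3) (nat_lit 141) (nat_lit 105) (nat_lit 144)))) (PT.nd (nat_lit 78) (PT.lf (nat_lit 6308) (nat_lit 6) (nat_lit 83) (nat_lit 3) (nat_lit 142) (nat_lit 105) (nat_lit 143)) (PT.nd (nat_lit 78) (PT.lf (nat_lit 6308) (nat_lit 6) (nat_lit 83) (nat_lit 1) (nat_lit 143) (nat_lit 105) (nat_lit 142)) (PT.lf (nat_lit 6232) (nat_lit 6) (nat_lit 82) (nat_lit 1) (nat_lit 144) (nat_lit 105) (nat_lit 141)))))) (PT.nd (nat_lit 40248) (PT.nd (nat_lit 40014) (PT.nd (nat_lit 78) (PT.lf (nat_lit 6156) (nat_lit 6) (nat_lit 81) (nat_lit 1) (nat_lit 145)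 (nat_lit 105) (nat_lit 140)) (PT.nd (nat_lit 78) (PT.lf (nat_lit 6080) (nat_lit 6) (nat_lit 80) (nat_lit 1) (nat_lit 146) (nat_lit 105) (nat_lit 139)) (PT.lf (nat_lit 6004) (nat_lit 6) (nat_lit 79) (nat_lit 1) (nat_lit 147) (nat_lit 105) (nat_lit 138)))) (PT.nd (nat_lit 78) (PT.lf (nat_lit 6384) (nat_lit 6) (nat_lit 84) (nat_lit 3) (nat_lit 137) (nat_lit 106) (nat_lit 147)) (PT.nd (nat_lit 78) (PT.lf (nat_lit 6460) (nat_lit 6) (nat_lit 85) (nat_lit 3) (nat_lit 138) (nat_lit 106) (nat_lit 146)) (PT.lf (nat_lit 6536) (nat_lit 6) (nat_lit 86) (nat_lit 3) (nat_lit 139) (nat_lit 106) (nat_lit 145))))) (PT.nd (nat_lit 234) (PT.nd (nat_lit 78) (PT.lf (nat_lit 6612) (nat_lit 6) (nat_lit 87) (nat_lit 3) (nat_lit 140) (nat_lit 106) (nat_lit 144)) (PT.nd (nat_lit 78) (PT.lf (nat_lit 6688) (nat_lit 6) (nat_lit 88) (nat_lit 3) (nat_lit 141) (nat_lit 106) (nat_lit 143)) (PT.lf (nat_lit 6764) (nat_lit 3) (nat_lit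 89) (nat_lit 1) (nat_lit 142) (nat_lit 106) (nat_lit 142)))) (PT.nd (nat_lit 78) (PT.lf (nat_lit 6688) (nat_lit 6) (nat_lit 88) (nat_lit 1) (nat_lit 143) (nat_lit 106) (nat_lit 141)) (PT.nd (nat_lit 78) (PT.lf (nat_lit 6612) (nat_lit 6) (nat_lit 87) (nat_lit 1) (nat_lit 144) (nat_lit 106) (nat_lit 140)) (PT.lf (nat_lit 6536) (nat_lit 6) (nat_lit 86) (nat_lit 1) (nat_lit 145) (nat_lit 106) (nat_lit 139))))))) (PT.nd (nat_lit 40638) (PT.nd (nat_lit 40170) (PT.nd (nat_lit 39936) (PT.nd (nat_lit 78) (PT.lf (nat_lit 6460) (nat_lit 6) (nat_lit 85) (nat_lit 1) (nat_lit 146) (nat_lit 106) (nat_lit 138)) (PT.lf (nat_lit 6384) (nat_lit 6) (nat_lit 84) (nat_lit 1) (nat_lit 147) (nat_lit 106) (nat_lit 137))) (PT.nd (nat_lit 78) (PT.lf (nat_lit 6840) (nat_lit 6) (nat_lit 90) (nat_lit 3) (nat_lit 137) (nat_lit 107) (nat_lit 146)) (PT.nd (nat_lit 78) (PT.lf (nat_lit 6916) (nat_lit 6) (nat_lit 91) (nat_lit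 3) (nat_lit 138) (nat_lit 107) (nat_lit 145)) (PT.lf (nat_lit 6992) (nat_lit 6) (nat_lit 92) (nat_lit 3) (nat_lit 139) (nat_lit 107) (nat_lit 144))))) (PT.nd (nat_lit 234) (PT.nd (nat_lit 78) (PT.lf (nat_lit 7068) (nat_lit 6) (nat_lit 93) (nat_lit 3) (nat_lit 140) (nat_lit 107) (nat_lit 143)) (PT.nd (nat_lit 78) (PT.lf (nat_lit 7144) (nat_lit 6) (nat_lit 94) (nat_lit 3) (nat_lit 141) (nat_lit 107) (nat_lit 142)) (PT.lf (nat_lit 7144) (nat_lit 6) (nat_lit 94) (nat_lit 1) (nat_lit 142) (nat_lit 107) (nat_lit 141)))) (PT.nd (nat_lit 78) (PT.lf (nat_lit 7068) (nat_lit 6) (nat_lit 93) (nat_lit 1) (nat_lit 143) (nat_lit 107) (nat_lit 140)) (PT.nd (nat_lit 78) (PT.lf (nat_lit 6992) (nat_lit 6) (nat_lit 92) (nat_lit 1) (nat_lit 144) (nat_lit 107) (nat_lit 139)) (PT.lf (nat_lit 6916) (nat_lit 6) (nat_lit 91) (nat_lit 1) (nat_lit 145) (nat_lit 107) (nat_lit 138)))))) (PT.nd (nat_lit 40248) (PT.nd (nat_lit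 40014) (PT.nd (nat_lit 39858) (PT.lf (nat_lit 6840) (nat_lit 6) (nat_lit 90) (nat_lit 1) (nat_lit 146) (nat_lit 107) (nat_lit 137)) (PT.nd (nat_lit 78) (PT.lf (nat_lit 7220) (nat_lit 6) (nat_lit 95) (nat_lit 3) (nat_lit 136) (nat_lit 108) (nat_lit 146)) (PT.lf (nat_lit 7296) (nat_lit 6) (nat_lit 96) (nat_lit 3) (nat_lit 137) (nat_lit 108) (nat_lit 145)))) (PT.nd (nat_lit 78) (PT.lf (nat_lit 7372) (nat_lit 6) (nat_lit 97) (nat_lit 3) (nat_lit 138) (nat_lit 108) (nat_lit 144)) (PT.nd (nat_lit 78) (PT.lf (nat_lit 7448) (nat_lit 6) (nat_lit 98) (nat_lit 3) (nat_lit 139) (nat_lit 108) (nat_lit 143)) (PT.lf (nat_lit 7524) (nat_lit 6) (nat_lit 99) (nat_lit 3) (nat_lit 140) (nat_lit 108) (nat_lit 142))))) (PT.nd (nat_lit 234) (PT.nd (nat_lit 78) (PT.lf (nat_lit 7600) (nat_lit 3) (nat_lit 100) (nat_lit 1) (nat_lit 141) (nat_lit 108) (nat_lit 141)) (PT.nd (nat_lit 78) (PT.lf (nat_lit 7524) (nat_lit 6)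 (nat_lit 99) (nat_lit 1) (nat_lit 142) (nat_lit 108) (nat_lit 140)) (PT.lf (nat_lit 7448) (nat_lit 6) (nat_lit 98) (nat_lit 1) (nat_lit 143) (nat_lit 108) (nat_lit 139)))) (PT.nd (nat_lit 78) (PT.lf (nat_lit 7372) (nat_lit 6) (nat_lit 97) (nat_lit 1) (nat_lit 144) (nat_lit 108) (nat_lit 138)) (PT.nd (nat_lit 78) (PT.lf (nat_lit 7296) (nat_lit 6) (nat_lit 96) (nat_lit 1) (nat_lit 145) (nat_lit 108) (nat_lit 137)) (PT.lf (nat_lit 7220) (nat_lit 6) (nat_lit 95) (nat_lit 1) (nat_lit 146) (nat_lit 108) (nat_lit 136))))))))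
noncomputable def pc4 : PT := (PT.nd (nat_lit 41418) (PT.nd (nat_lit 858) (PT.nd (nat_lit 390) (PT.nd (nat_lit 156) (PT.nd (nat_lit 78) (PT.lf (nat_lit 7676) (nat_lit 6) (nat_lit 101) (nat_lit 3) (nat_lit 135) (nat_lit 109) (nat_lit 146)) (PT.lf (nat_lit 7752) (nat_lit 6) (nat_lit 102) (nat_lit 3) (nat_lit 136) (nat_lit 109) (nat_lit 145))) (PT.nd (nat_lit 78) (PT.lf (nat_lit 7828) (nat_lit 6) (nat_lit 103) (nat_lit 3) (nat_lit 137) (nat_lit 109) (nat_lit 144)) (PT.nd (nat_lit 78) (PT.lf (nat_lit 7904) (nat_lit 6) (nat_lit 104) (nat_lit 3) (nat_lit 138) (nat_lit 109) (nat_lit 143)) (PT.lf (nat_lit 7980) (nat_lit 6) (nat_lit 105) (nat_lit 3) (nat_lit 139) (nat_lit 109) (nat_lit 142))))) (PT.nd (nat_lit 234) (PT.nd (nat_lit 78) (PT.lf (nat_lit 8056) (nat_lit 6) (nat_lit 106) (nat_lit 3) (nat_lit 140) (nat_lit 109) (nat_lit 141)) (PT.nd (nat_lit 78) (PT.lf (nat_lit 8056) (nat_lit 6) (nat_lit 106)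 (nat_lit 1) (nat_lit 141) (nat_lit 109) (nat_lit 140)) (PT.lf (nat_lit 7980) (nat_lit 6) (nat_lit 105) (nat_lit 1) (nat_lit 142) (nat_lit 109) (nat_lit 139)))) (PT.nd (nat_lit 78) (PT.lf (nat_lit 7904) (nat_lit 6) (nat_lit 104) (nat_lit 1) (nat_lit 143) (nat_lit 109) (nat_lit 138)) (PT.nd (nat_lit 78) (PT.lf (nat_lit 7828) (nat_lit 6) (nat_lit 103) (nat_lit 1) (nat_lit 144) (nat_lit 109) (nat_lit 137)) (PT.lf (nat_lit 7752) (nat_lit 6) (nat_lit 102) (nat_lit 1) (nat_lit 145) (nat_lit 109) (nat_lit 136)))))) (PT.nd (nat_lit 40092) (PT.nd (nat_lit 39858) (PT.nd (nat_lit 39702) (PT.lf (nat_lit 7676) (nat_lit 6) (nat_lit 101) (nat_lit 1) (nat_lit 146) (nat_lit 109) (nat_lit 135)) (PT.nd (nat_lit 78) (PT.lf (nat_lit 8132) (nat_lit 6) (nat_lit 107) (nat_lit 3) (nat_lit 134) (nat_lit 110) (nat_lit 146)) (PT.lf (nat_lit 8208) (nat_lit 6) (nat_lit 108) (nat_lit 3) (nat_lit 135) (nat_lit 110) (nat_lit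 145)))) (PT.nd (nat_lit 78) (PT.lf (nat_lit 8284) (nat_lit 6) (nat_lit 109) (nat_lit 3) (nat_lit 136) (nat_lit 110) (nat_lit 144)) (PT.nd (nat_lit 78) (PT.lf (nat_lit 8360) (nat_lit 6) (nat_lit 110) (nat_lit 3) (nat_lit 137) (nat_lit 110) (nat_lit 143)) (PT.lf (nat_lit 8436) (nat_lit 6) (nat_lit 111) (nat_lit 3) (nat_lit 138) (nat_lit 110) (nat_lit 142))))) (PT.nd (nat_lit 234) (PT.nd (nat_lit 78) (PT.lf (nat_lit 8512) (nat_lit 6) (nat_lit 112) (nat_lit 3) (nat_lit 139) (nat_lit 110) (nat_lit 141)) (PT.nd (nat_lit 78) (PT.lf (nat_lit 8588) (nat_lit 3) (nat_lit 113) (nat_lit 1) (nat_lit 140) (nat_lit 110) (nat_lit 140)) (PT.lf (nat_lit 8512) (nat_lit 6) (nat_lit 112) (nat_lit 1) (nat_lit 141) (nat_lit 110) (nat_lit 139)))) (PT.nd (nat_lit 78) (PT.lf (nat_lit 8436) (nat_lit 6) (nat_lit 111) (nat_lit 1) (nat_lit 142) (nat_lit 110) (nat_lit 138)) (PT.nd (nat_lit 78) (PT.lf (nat_lit 8360) (nat_lit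 6) (nat_lit 110) (nat_lit 1) (nat_lit 143) (nat_lit 110) (nat_lit 137)) (PT.lf (nat_lit 8284) (nat_lit 6) (nat_lit 109) (nat_lit 1) (nat_lit 144) (nat_lit 110) (nat_lit 136))))))) (PT.nd (nat_lit 40482) (PT.nd (nat_lit 40014) (PT.nd (nat_lit 39780) (PT.nd (nat_lit 78) (PT.lf (nat_lit 8208) (nat_lit 6) (nat_lit 108) (nat_lit 1) (nat_lit 145) (nat_lit 110) (nat_lit 135)) (PT.lf (nat_lit 8132) (nat_lit 6) (nat_lit 107) (nat_lit 1) (nat_lit 146) (nat_lit 110) (nat_lit 134))) (PT.nd (nat_lit 78) (PT.lf (nat_lit 8664) (nat_lit 6) (nat_lit 114) (nat_lit 3) (nat_lit 134) (nat_lit 111) (nat_lit 145)) (PT.nd (nat_lit 78) (PT.lf (nat_lit 8740) (nat_lit 6) (nat_lit 115) (nat_lit 3) (nat_lit 135) (nat_lit 111) (nat_lit 144)) (PT.lf (nat_lit 8816) (nat_lit 6) (nat_lit 116) (nat_lit 3) (nat_lit 136) (nat_lit 111) (nat_lit 143))))) (PT.nd (nat_lit 234) (PT.nd (nat_lit 78) (PT.lf (nat_lit 8892) (nat_lit 6) (nat_lit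 117) (nat_lit 3) (nat_lit 137) (nat_lit 111) (nat_lit 142)) (PT.nd (nat_lit 78) (PT.lf (nat_lit 8968) (nat_lit 6) (nat_lit 118) (nat_lit 3) (nat_lit 138) (nat_lit 111) (nat_lit 141)) (PT.lf (nat_lit 9044) (nat_lit 6) (nat_lit 119) (nat_lit 3) (nat_lit 139) (nat_lit 111) (nat_lit 140)))) (PT.nd (nat_lit 78) (PT.lf (nat_lit 9044) (nat_lit 6) (nat_lit 119) (nat_lit 1) (nat_lit 140) (nat_lit 111) (nat_lit 139)) (PT.nd (nat_lit 78) (PT.lf (nat_lit 8968) (nat_lit 6) (nat_lit 118) (nat_lit 1) (nat_lit 141) (nat_lit 111) (nat_lit 138)) (PT.lf (nat_lit 8892) (nat_lit 6) (nat_lit 117) (nat_lit 1) (nat_lit 142) (nat_lit 111) (nat_lit 137)))))) (PT.nd (nat_lit 40092) (PT.nd (nat_lit 39858) (PT.nd (nat_lit 78) (PT.lf (nat_lit 8816) (nat_lit 6) (nat_lit 116) (nat_lit 1) (nat_lit 143) (nat_lit 111) (nat_lit 136)) (PT.nd (nat_lit 78) (PT.lf (nat_lit 8740) (nat_lit 6) (nat_lit 115) (nat_lit 1) (nat_lit 144)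 (nat_lit 111) (nat_lit 135)) (PT.lf (nat_lit 8664) (nat_lit 6) (nat_lit 114) (nat_lit 1) (nat_lit 145) (nat_lit 111) (nat_lit 134)))) (PT.nd (nat_lit 78) (PT.lf (nat_lit 9120) (nat_lit 6) (nat_lit 120) (nat_lit 3) (nat_lit 133) (nat_lit 112) (nat_lit 145)) (PT.nd (nat_lit 78) (PT.lf (nat_lit 9196) (nat_lit 6) (nat_lit 121) (nat_lit 3) (nat_lit 134) (nat_lit 112) (nat_lit 144)) (PT.lf (nat_lit 9272) (nat_lit 6) (nat_lit 122) (nat_lit 3) (nat_lit 135) (nat_lit 112) (nat_lit 143))))) (PT.nd (nat_lit 234) (PT.nd (nat_lit 78) (PT.lf (nat_lit 9348) (nat_lit 6) (nat_lit 123) (nat_lit 3) (nat_lit 136) (nat_lit 112) (nat_lit 142)) (PT.nd (nat_lit 78) (PT.lf (nat_lit 9424) (nat_lit 6) (nat_lit 124) (nat_lit 3) (nat_lit 137) (nat_lit 112) (nat_lit 141)) (PT.lf (nat_lit 9500) (nat_lit 6) (nat_lit 125) (nat_lit 3) (nat_lit 138) (nat_lit 112) (nat_lit 140)))) (PT.nd (nat_lit 78) (PT.lf (nat_lit 9576) (nat_lit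 3) (nat_lit 126) (nat_lit 1) (nat_lit 139) (nat_lit 112) (nat_lit 139)) (PT.nd (nat_lit 78) (PT.lf (nat_lit 9500) (nat_lit 6) (nat_lit 125) (nat_lit 1) (nat_lit 140) (nat_lit 112) (nat_lit 138)) (PT.lf (nat_lit 9424) (nat_lit 6) (nat_lit 124) (nat_lit 1) (nat_lit 141) (nat_lit 112) (nat_lit 137))))))))
noncomputable def pc5 : PT := (PT.nd (nat_lit 80808) (PT.nd (nat_lit 40404) (PT.nd (nat_lit 39936) (PT.nd (nat_lit 156) (PT.nd (nat_lit 78) (PT.lf (nat_lit 9348) (nat_lit 6) (nat_lit 123) (nat_lit 1) (nat_lit 142) (nat_lit 112) (nat_lit 136)) (PT.lf (nat_lit 9272) (nat_lit 6) (nat_lit 122) (nat_lit 1) (nat_lit 143) (nat_lit 112) (nat_lit 135))) (PT.nd (nat_lit 78) (PT.lf (nat_lit 9196) (nat_lit 6) (nat_lit 121) (nat_lit 1) (nat_lit 144) (nat_lit 112) (nat_lit 134)) (PT.nd (nat_lit 39624) (PT.lf (nat_lit 9120) (nat_lit 6) (nat_lit 120) (nat_lit 1) (nat_lit 145) (nat_lit 112) (nat_lit 133)) (PT.lf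 (nat_lit 9652) (nat_lit 6) (nat_lit 127) (nat_lit 3) (nat_lit 132) (nat_lit 113) (nat_lit 145))))) (PT.nd (nat_lit 234) (PT.nd (nat_lit 78) (PT.lf (nat_lit 9728) (nat_lit 6) (nat_lit 128) (nat_lit 3) (nat_lit 133) (nat_lit 113) (nat_lit 144)) (PT.nd (nat_lit 78) (PT.lf (nat_lit 9804) (nat_lit 6) (nat_lit 129) (nat_lit 3) (nat_lit 134) (nat_lit 113) (nat_lit 143)) (PT.lf (nat_lit 9880) (nat_lit 6) (nat_lit 130) (nat_lit 3) (nat_lit 135) (nat_lit 113) (nat_lit 142)))) (PT.nd (nat_lit 78) (PT.lf (nat_lit 9956) (nat_lit 6) (nat_lit 131) (nat_lit 3) (nat_lit 136) (nat_lit 113) (nat_lit 141)) (PT.nd (nat_lit 78) (PT.lf (nat_lit 10032) (nat_lit 6) (nat_lit 132) (nat_lit 3) (nat_lit 137) (nat_lit 113) (nat_lit 140)) (PT.lf (nat_lit 10108) (nat_lit 6) (nat_lit 133) (nat_lit 3) (nat_lit 138) (nat_lit 113) (nat_lit 139)))))) (PT.nd (nat_lit 468) (PT.nd (nat_lit 234) (PT.nd (nat_lit 78) (PT.lf (nat_lit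 10108) (nat_lit 6) (nat_lit 133) (nat_lit 1) (nat_lit 139) (nat_lit 113) (nat_lit 138)) (PT.nd (nat_lit 78) (PT.lf (nat_lit 10032) (nat_lit 6) (nat_lit 132) (nat_lit 1) (nat_lit 140) (nat_lit 113) (nat_lit 137)) (PT.lf (nat_lit 9956) (nat_lit 6) (nat_lit 131) (nat_lit 1) (nat_lit 141) (nat_lit 113) (nat_lit 136)))) (PT.nd (nat_lit 78) (PT.lf (nat_lit 9880) (nat_lit 6) (nat_lit 130) (nat_lit 1) (nat_lit 142) (nat_lit 113) (nat_lit 135)) (PT.nd (nat_lit 78) (PT.lf (nat_lit 9804) (nat_lit 6) (nat_lit 129) (nat_lit 1) (nat_lit 143) (nat_lit 113) (nat_lit 134)) (PT.lf (nat_lit 9728) (nat_lit 6) (nat_lit 128) (nat_lit 1) (nat_lit 144) (nat_lit 113) (nat_lit 133))))) (PT.nd (nat_lit 39702) (PT.nd (nat_lit 39546) (PT.lf (nat_lit 9652) (nat_lit 6) (nat_lit 127) (nat_lit 1) (nat_lit 145) (nat_lit 113) (nat_lit 132)) (PT.nd (nat_lit 78) (PT.lf (nat_lit 10184) (nat_lit 6) (nat_lit 134) (nat_lit 3) (nat_lit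 131) (nat_lit 114) (nat_lit 145)) (PT.lf (nat_lit 10260) (nat_lit 6) (nat_lit 135) (nat_lit 3) (nat_lit 132) (nat_lit 114) (nat_lit 144)))) (PT.nd (nat_lit 78) (PT.lf (nat_lit 10336) (nat_lit 6) (nat_lit 136) (nat_lit 3) (nat_lit 133) (nat_lit 114) (nat_lit 143)) (PT.nd (nat_lit 78) (PT.lf (nat_lit 10412) (nat_lit 6) (nat_lit 137) (nat_lit 3) (nat_lit 134) (nat_lit 114) (nat_lit 142)) (PT.lf (nat_lit 10488) (nat_lit 6) (nat_lit 138) (nat_lit 3) (nat_lit 135) (nat_lit 114) (nat_lit 141))))))) (PT.nd (nat_lit 40248) (PT.nd (nat_lit 390) (PT.nd (nat_lit 156) (PT.nd (nat_lit 78) (PT.lf (nat_lit 10564) (nat_lit 6) (nat_lit 139) (nat_lit 3) (nat_lit 136) (nat_lit 114) (nat_lit 140)) (PT.lf (nat_lit 10640) (nat_lit 6) (nat_lit 140) (nat_lit 3) (nat_lit 137) (nat_lit 114) (nat_lit 139))) (PT.nd (nat_lit 78) (PT.lf (nat_lit 10716) (nat_lit 3) (nat_lit 141) (nat_lit 1) (nat_lit 138) (nat_lit 114) (nat_lit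 138)) (PT.nd (nat_lit 78) (PT.lf (nat_lit 10640) (nat_lit 6) (nat_lit 140) (nat_lit 1) (nat_lit 139) (nat_lit 114) (nat_lit 137)) (PT.lf (nat_lit 10564) (nat_lit 6) (nat_lit 139) (nat_lit 1) (nat_lit 140) (nat_lit 114) (nat_lit 136))))) (PT.nd (nat_lit 234) (PT.nd (nat_lit 78) (PT.lf (nat_lit 10488) (nat_lit 6) (nat_lit 138) (nat_lit 1) (nat_lit 141) (nat_lit 114) (nat_lit 135)) (PT.nd (nat_lit 78) (PT.lf (nat_lit 10412) (nat_lit 6) (nat_lit 137) (nat_lit 1) (nat_lit 142) (nat_lit 114) (nat_lit 134)) (PT.lf (nat_lit 10336) (nat_lit 6) (nat_lit 136) (nat_lit 1) (nat_lit 143) (nat_lit 114) (nat_lit 133)))) (PT.nd (nat_lit 78) (PT.lf (nat_lit 10260) (nat_lit 6) (nat_lit 135) (nat_lit 1) (nat_lit 144) (nat_lit 114) (nat_lit 132)) (PT.nd (nat_lit 39468) (PT.lf (nat_lit 10184) (nat_lit 6) (nat_lit 134) (nat_lit 1) (nat_lit 145) (nat_lit 114) (nat_lit 131)) (PT.lf (nat_lit 10868) (nat_lit 6) (nat_lit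 143) (nat_lit 3) (nat_lit 130) (nat_lit 115) (nat_lit 145)))))) (PT.nd (nat_lit 468) (PT.nd (nat_lit 234) (PT.nd (nat_lit 78) (PT.lf (nat_lit 10944) (nat_lit 6) (nat_lit 144) (nat_lit 3) (nat_lit 131) (nat_lit 115) (nat_lit 144)) (PT.nd (nat_lit 78) (PT.lf (nat_lit 11020) (nat_lit 6) (nat_lit 145) (nat_lit 3) (nat_lit 132) (nat_lit 115) (nat_lit 143)) (PT.lf (nat_lit 11096) (nat_lit 6) (nat_lit 146) (nat_lit 3) (nat_lit 133) (nat_lit 115) (nat_lit 142)))) (PT.nd (nat_lit 78) (PT.lf (nat_lit 11172) (nat_lit 6) (nat_lit 147) (nat_lit 3) (nat_lit 134) (nat_lit 115) (nat_lit 141)) (PT.nd (nat_lit 78) (PT.lf (nat_lit 11248) (nat_lit 6) (nat_lit 148) (nat_lit 3) (nat_lit 135) (nat_lit 115) (nat_lit 140)) (PT.lf (nat_lit 11324) (nat_lit 6) (nat_lit 149) (nat_lit 3) (nat_lit 136) (nat_lit 115) (nat_lit 139))))) (PT.nd (nat_lit 234) (PT.nd (nat_lit 78) (PT.lf (nat_lit 11400) (nat_lit 6) (nat_lit 150)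 (nat_lit 3) (nat_lit 137) (nat_lit 115) (nat_lit 138)) (PT.nd (nat_lit 78) (PT.lf (nat_lit 11400) (nat_lit 6) (nat_lit 150) (nat_lit 1) (nat_lit 138) (nat_lit 115) (nat_lit 137)) (PT.lf (nat_lit 11324) (nat_lit 6) (nat_lit 149) (nat_lit 1) (nat_lit 139) (nat_lit 115) (nat_lit 136)))) (PT.nd (nat_lit 78) (PT.lf (nat_lit 11248) (nat_lit 6) (nat_lit 148) (nat_lit 1) (nat_lit 140) (nat_lit 115) (nat_lit 135)) (PT.nd (nat_lit 78) (PT.lf (nat_lit 11172) (nat_lit 6) (nat_lit 147) (nat_lit 1) (nat_lit 141) (nat_lit 115) (nat_lit 134)) (PT.lf (nat_lit 11096) (nat_lit 6) (nat_lit 146) (nat_lit 1) (nat_lit 142) (nat_lit 115) (nat_lit 133))))))))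
noncomputable def pc6 : PT := (PT.nd (nat_lit 80418) (PT.nd (nat_lit 40170) (PT.nd (nat_lit 39702) (PT.nd (nat_lit 156) (PT.nd (nat_lit 78) (PT.lf (nat_lit 11020) (nat_lit 6) (nat_lit 145) (nat_lit 1) (nat_lit 143) (nat_lit 115) (nat_lit 132)) (PT.lf (nat_lit 10944) (nat_lit 6) (nat_lit 144) (nat_lit 1) (nat_lit 144) (nat_lit 115) (nat_lit 131))) (PT.nd (nat_lit 39390) (PT.lf (nat_lit 10868) (nat_lit 6) (nat_lit 143) (nat_lit 1) (nat_lit 145) (nat_lit 115) (nat_lit 130)) (PT.nd (nat_lit 78) (PT.lf (nat_lit 10792) (nat_lit 6) (nat_lit 142) (nat_lit 3) (nat_lit 129) (nat_lit 116) (nat_lit 145)) (PT.lf (nat_lit 12008) (nat_lit 6) (nat_lit 158) (nat_lit 3) (nat_lit 130) (nat_lit 116) (nat_lit 144))))) (PT.nd (nat_lit 234) (PT.nd (nat_lit 78) (PT.lf (nat_lit 12084) (nat_lit 6) (nat_lit 159) (nat_lit 3) (nat_lit 131) (nat_lit 116) (nat_lit 143)) (PT.nd (nat_lit 78) (PT.lf (nat_lit 12160) (nat_lit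 6) (nat_lit 160) (nat_lit 3) (nat_lit 132) (nat_lit 116) (nat_lit 142)) (PT.lf (nat_lit 12236) (nat_lit 6) (nat_lit 161) (nat_lit 3) (nat_lit 133) (nat_lit 116) (nat_lit 141)))) (PT.nd (nat_lit 78) (PT.lf (nat_lit 12312) (nat_lit 6) (nat_lit 162) (nat_lit 3) (nat_lit 134) (nat_lit 116) (nat_lit 140)) (PT.nd (nat_lit 78) (PT.lf (nat_lit 12388) (nat_lit 6) (nat_lit 163) (nat_lit 3) (nat_lit 135) (nat_lit 116) (nat_lit 139)) (PT.lf (nat_lit 12464) (nat_lit 6) (nat_lit 164) (nat_lit 3) (nat_lit 136) (nat_lit 116) (nat_lit 138)))))) (PT.nd (nat_lit 468) (PT.nd (nat_lit 234) (PT.nd (nat_lit 78) (PT.lf (nat_lit 12540) (nat_lit 3) (nat_lit 165) (nat_lit 1) (nat_lit 137) (nat_lit 116) (nat_lit 137)) (PT.nd (nat_lit 78) (PT.lf (nat_lit 12464) (nat_lit 6) (nat_lit 164) (nat_lit 1) (nat_lit 138) (nat_lit 116) (nat_lit 136)) (PT.lf (nat_lit 12388) (nat_lit 6) (nat_lit 163) (nat_lit 1) (nat_lit 139) (nat_lit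 116) (nat_lit 135)))) (PT.nd (nat_lit 78) (PT.lf (nat_lit 12312) (nat_lit 6) (nat_lit 162) (nat_lit 1) (nat_lit 140) (nat_lit 116) (nat_lit 134)) (PT.nd (nat_lit 78) (PT.lf (nat_lit 12236) (nat_lit 6) (nat_lit 161) (nat_lit 1) (nat_lit 141) (nat_lit 116) (nat_lit 133)) (PT.lf (nat_lit 12160) (nat_lit 6) (nat_lit 160) (nat_lit 1) (nat_lit 142) (nat_lit 116) (nat_lit 132))))) (PT.nd (nat_lit 39546) (PT.nd (nat_lit 78) (PT.lf (nat_lit 12084) (nat_lit 6) (nat_lit 159) (nat_lit 1) (nat_lit 143) (nat_lit 116) (nat_lit 131)) (PT.nd (nat_lit 78) (PT.lf (nat_lit 12008) (nat_lit 6) (nat_lit 158) (nat_lit 1) (nat_lit 144) (nat_lit 116) (nat_lit 130)) (PT.lf (nat_lit 10792) (nat_lit 6) (nat_lit 142) (nat_lit 1) (nat_lit 145) (nat_lit 116) (nat_lit 129)))) (PT.nd (nat_lit 78) (PT.lf (nat_lit 11932) (nat_lit 6) (nat_lit 157) (nat_lit 3) (nat_lit 129) (nat_lit 117) (nat_lit 144)) (PT.nd (nat_lit 78) (PT.lf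 (nat_lit 13072) (nat_lit 6) (nat_lit 172) (nat_lit 3) (nat_lit 130) (nat_lit 117) (nat_lit 143)) (PT.lf (nat_lit 13148) (nat_lit 6) (nat_lit 173) (nat_lit 3) (nat_lit 131) (nat_lit 117) (nat_lit 142))))))) (PT.nd (nat_lit 858) (PT.nd (nat_lit 390) (PT.nd (nat_lit 156) (PT.nd (nat_lit 78) (PT.lf (nat_lit 13224) (nat_lit 6) (nat_lit 174) (nat_lit 3) (nat_lit 132) (nat_lit 117) (nat_lit 141)) (PT.lf (nat_lit 13300) (nat_lit 6) (nat_lit 175) (nat_lit 3) (nat_lit 133) (nat_lit 117) (nat_lit 140))) (PT.nd (nat_lit 78) (PT.lf (nat_lit 13376) (nat_lit 6) (nat_lit 176) (nat_lit 3) (nat_lit 134) (nat_lit 117) (nat_lit 139)) (PT.nd (nat_lit 78) (PT.lf (nat_lit 13452) (nat_lit 6) (nat_lit 177) (nat_lit 3) (nat_lit 135) (nat_lit 117) (nat_lit 138)) (PT.lf (nat_lit 13528) (nat_lit 6) (nat_lit 178) (nat_lit 3) (nat_lit 136) (nat_lit 117) (nat_lit 137))))) (PT.nd (nat_lit 234) (PT.nd (nat_lit 78) (PT.lf (nat_lit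 13528) (nat_lit 6) (nat_lit 178) (nat_lit 1) (nat_lit 137) (nat_lit 117) (nat_lit 136)) (PT.nd (nat_lit 78) (PT.lf (nat_lit 13452) (nat_lit 6) (nat_lit 177) (nat_lit 1) (nat_lit 138) (nat_lit 117) (nat_lit 135)) (PT.lf (nat_lit 13376) (nat_lit 6) (nat_lit 176) (nat_lit 1) (nat_lit 139) (nat_lit 117) (nat_lit 134)))) (PT.nd (nat_lit 78) (PT.lf (nat_lit 13300) (nat_lit 6) (nat_lit 175) (nat_lit 1) (nat_lit 140) (nat_lit 117) (nat_lit 133)) (PT.nd (nat_lit 78) (PT.lf (nat_lit 13224) (nat_lit 6) (nat_lit 174) (nat_lit 1) (nat_lit 141) (nat_lit 117) (nat_lit 132)) (PT.lf (nat_lit 13148) (nat_lit 6) (nat_lit 173) (nat_lit 1) (nat_lit 142) (nat_lit 117) (nat_lit 131)))))) (PT.nd (nat_lit 39780) (PT.nd (nat_lit 39546) (PT.nd (nat_lit 78) (PT.lf (nat_lit 13072) (nat_lit 6) (nat_lit 172) (nat_lit 1) (nat_lit 143) (nat_lit 117) (nat_lit 130)) (PT.nd (nat_lit 39390) (PT.lf (nat_lit 11932) (nat_lit 6) (nat_lit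 157) (nat_lit 1) (nat_lit 144) (nat_lit 117) (nat_lit 129)) (PT.lf (nat_lit 11856) (nat_lit 6) (nat_lit 156) (nat_lit 3) (nat_lit 128) (nat_lit 118) (nat_lit 144)))) (PT.nd (nat_lit 78) (PT.lf (nat_lit 12996) (nat_lit 6) (nat_lit 171) (nat_lit 3) (nat_lit 129) (nat_lit 118) (nat_lit 143)) (PT.nd (nat_lit 78) (PT.lf (nat_lit 14060) (nat_lit 6) (nat_lit 185) (nat_lit 3) (nat_lit 130) (nat_lit 118) (nat_lit 142)) (PT.lf (nat_lit 14136) (nat_lit 6) (nat_lit 186) (nat_lit 3) (nat_lit 131) (nat_lit 118) (nat_lit 141))))) (PT.nd (nat_lit 234) (PT.nd (nat_lit 78) (PT.lf (nat_lit 14212) (nat_lit 6) (nat_lit 187) (nat_lit 3) (nat_lit 132) (nat_lit 118) (nat_lit 140)) (PT.nd (nat_lit 78) (PT.lf (nat_lit 14288) (nat_lit 6) (nat_lit 188) (nat_lit 3) (nat_lit 133) (nat_lit 118) (nat_lit 139)) (PT.lf (nat_lit 14364) (nat_lit 6) (nat_lit 189) (nat_lit 3) (nat_lit 134) (nat_lit 118) (nat_lit 138)))) (PT.nd (nat_lit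 78) (PT.lf (nat_lit 14440) (nat_lit 6) (nat_lit 190) (nat_lit 3) (nat_lit 135) (nat_lit 118) (nat_lit 137)) (PT.nd (nat_lit 78) (PT.lf (nat_lit 14516) (nat_lit 3) (nat_lit 191) (nat_lit 1) (nat_lit 136) (nat_lit 118) (nat_lit 136)) (PT.lf (nat_lit 14440) (nat_lit 6) (nat_lit 190) (nat_lit 1) (nat_lit 137) (nat_lit 118) (nat_lit 135))))))))
noncomputable def pc7 : PT := (PT.nd (nat_lit 41028) (PT.nd (nat_lit 40092) (PT.nd (nat_lit 390) (PT.nd (nat_lit 156) (PT.nd (nat_lit 78) (PT.lf (nat_lit 14364) (nat_lit 6) (nat_lit 189) (nat_lit 1) (nat_lit 138) (nat_lit 118) (nat_lit 134)) (PT.lf (nat_lit 14288) (nat_lit 6) (nat_lit 188) (nat_lit 1) (nat_lit 139) (nat_lit 118) (nat_lit 133))) (PT.nd (nat_lit 78) (PT.lf (nat_lit 14212) (nat_lit 6) (nat_lit 187) (nat_lit 1) (nat_lit 140) (nat_lit 118) (nat_lit 132)) (PT.nd (nat_lit 78) (PT.lf (nat_lit 14136) (nat_lit 6) (nat_lit 186) (nat_lit 1) (nat_lit 141)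 (nat_lit 118) (nat_lit 131)) (PT.lf (nat_lit 14060) (nat_lit 6) (nat_lit 185) (nat_lit 1) (nat_lit 142) (nat_lit 118) (nat_lit 130))))) (PT.nd (nat_lit 39468) (PT.nd (nat_lit 78) (PT.lf (nat_lit 12996) (nat_lit 6) (nat_lit 171) (nat_lit 1) (nat_lit 143) (nat_lit 118) (nat_lit 129)) (PT.nd (nat_lit 39312) (PT.lf (nat_lit 11856) (nat_lit 6) (nat_lit 156) (nat_lit 1) (nat_lit 144) (nat_lit 118) (nat_lit 128)) (PT.lf (nat_lit 11780) (nat_lit 6) (nat_lit 155) (nat_lit 3) (nat_lit 127) (nat_lit 119) (nat_lit 144)))) (PT.nd (nat_lit 78) (PT.lf (nat_lit 12920) (nat_lit 6) (nat_lit 170) (nat_lit 3) (nat_lit 128) (nat_lit 119) (nat_lit 143)) (PT.nd (nat_lit 78) (PT.lf (nat_lit 13984) (nat_lit 6) (nat_lit 184) (nat_lit 3) (nat_lit 129) (nat_lit 119) (nat_lit 142)) (PT.lf (nat_lit 14972) (nat_lit 6) (nat_lit 197) (nat_lit 3) (nat_lit 130) (nat_lit 119) (nat_lit 141)))))) (PT.nd (nat_lit 468) (PT.nd (nat_lit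 234) (PT.nd (nat_lit 78) (PT.lf (nat_lit 15048) (nat_lit 6) (nat_lit 198) (nat_lit 3) (nat_lit 131) (nat_lit 119) (nat_lit 140)) (PT.nd (nat_lit 78) (PT.lf (nat_lit 15124) (nat_lit 6) (nat_lit 199) (nat_lit 3) (nat_lit 132) (nat_lit 119) (nat_lit 139)) (PT.lf (nat_lit 15200) (nat_lit 6) (nat_lit 200) (nat_lit 3) (nat_lit 133) (nat_lit 119) (nat_lit 138)))) (PT.nd (nat_lit 78) (PT.lf (nat_lit 15276) (nat_lit 6) (nat_lit 201) (nat_lit 3) (nat_lit 134) (nat_lit 119) (nat_lit 137)) (PT.nd (nat_lit 78) (PT.lf (nat_lit 15352) (nat_lit 6) (nat_lit 202) (nat_lit 3) (nat_lit 135) (nat_lit 119) (nat_lit 136)) (PT.lf (nat_lit 15352) (nat_lit 6) (nat_lit 202) (nat_lit 1) (nat_lit 136) (nat_lit 119) (nat_lit 135))))) (PT.nd (nat_lit 234) (PT.nd (nat_lit 78) (PT.lf (nat_lit 15276) (nat_lit 6) (nat_lit 201) (nat_lit 1) (nat_lit 137) (nat_lit 119) (nat_lit 134)) (PT.nd (nat_lit 78) (PT.lf (nat_lit 15200) (nat_lit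 6) (nat_lit 200) (nat_lit 1) (nat_lit 138) (nat_lit 119) (nat_lit 133)) (PT.lf (nat_lit 15124) (nat_lit 6) (nat_lit 199) (nat_lit 1) (nat_lit 139) (nat_lit 119) (nat_lit 132)))) (PT.nd (nat_lit 78) (PT.lf (nat_lit 15048) (nat_lit 6) (nat_lit 198) (nat_lit 1) (nat_lit 140) (nat_lit 119) (nat_lit 131)) (PT.nd (nat_lit 78) (PT.lf (nat_lit 14972) (nat_lit 6) (nat_lit 197) (nat_lit 1) (nat_lit 141) (nat_lit 119) (nat_lit 130)) (PT.lf (nat_lit 13984) (nat_lit 6) (nat_lit 184) (nat_lit 1) (nat_lit 142) (nat_lit 119) (nat_lit 129))))))) (PT.nd (nat_lit 40014) (PT.nd (nat_lit 39546) (PT.nd (nat_lit 39312) (PT.nd (nat_lit 78) (PT.lf (nat_lit 12920) (nat_lit 6) (nat_lit 170) (nat_lit 1) (nat_lit 143) (nat_lit 119) (nat_lit 128)) (PT.lf (nat_lit 11780) (nat_lit 6) (nat_lit 155) (nat_lit 1) (nat_lit 144) (nat_lit 119) (nat_lit 127))) (PT.nd (nat_lit 78) (PT.lf (nat_lit 11704) (nat_lit 6) (nat_lit 154) (nat_lit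 3) (nat_lit 126) (nat_lit 120) (nat_lit 144)) (PT.nd (nat_lit 78) (PT.lf (nat_lit 12844) (nat_lit 6) (nat_lit 169) (nat_lit 3) (nat_lit 127) (nat_lit 120) (nat_lit 143)) (PT.lf (nat_lit 13908) (nat_lit 6) (nat_lit 183) (nat_lit 3) (nat_lit 128) (nat_lit 120) (nat_lit 142))))) (PT.nd (nat_lit 234) (PT.nd (nat_lit 78) (PT.lf (nat_lit 14896) (nat_lit 6) (nat_lit 196) (nat_lit 3) (nat_lit 129) (nat_lit 120) (nat_lit 141)) (PT.nd (nat_lit 78) (PT.lf (nat_lit 15808) (nat_lit 6) (nat_lit 208) (nat_lit 3) (nat_lit 130) (nat_lit 120) (nat_lit 140)) (PT.lf (nat_lit 15884) (nat_lit 6) (nat_lit 209) (nat_lit 3) (nat_lit 131) (nat_lit 120) (nat_lit 139)))) (PT.nd (nat_lit 78) (PT.lf (nat_lit 15960) (nat_lit 6) (nat_lit 210) (nat_lit 3) (nat_lit 132) (nat_lit 120) (nat_lit 138)) (PT.nd (nat_lit 78) (PT.lf (nat_lit 16036) (nat_lit 6) (nat_lit 211) (nat_lit 3) (nat_lit 133) (nat_lit 120) (nat_lit 137)) (PT.lf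 (nat_lit 16112) (nat_lit 6) (nat_lit 212) (nat_lit 3) (nat_lit 134) (nat_lit 120) (nat_lit 136)))))) (PT.nd (nat_lit 468) (PT.nd (nat_lit 234) (PT.nd (nat_lit 78) (PT.lf (nat_lit 16188) (nat_lit 3) (nat_lit 213) (nat_lit 1) (nat_lit 135) (nat_lit 120) (nat_lit 135)) (PT.nd (nat_lit 78) (PT.lf (nat_lit 16112) (nat_lit 6) (nat_lit 212) (nat_lit 1) (nat_lit 136) (nat_lit 120) (nat_lit 134)) (PT.lf (nat_lit 16036) (nat_lit 6) (nat_lit 211) (nat_lit 1) (nat_lit 137) (nat_lit 120) (nat_lit 133)))) (PT.nd (nat_lit 78) (PT.lf (nat_lit 15960) (nat_lit 6) (nat_lit 210) (nat_lit 1) (nat_lit 138) (nat_lit 120) (nat_lit 132)) (PT.nd (nat_lit 78) (PT.lf (nat_lit 15884) (nat_lit 6) (nat_lit 209) (nat_lit 1) (nat_lit 139) (nat_lit 120) (nat_lit 131)) (PT.lf (nat_lit 15808) (nat_lit 6) (nat_lit 208) (nat_lit 1) (nat_lit 140) (nat_lit 120) (nat_lit 130))))) (PT.nd (nat_lit 234) (PT.nd (nat_lit 78) (PT.lf (nat_lit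 14896) (nat_lit 6) (nat_lit 196) (nat_lit 1) (nat_lit 141) (nat_lit 120) (nat_lit 129)) (PT.nd (nat_lit 78) (PT.lf (nat_lit 13908) (nat_lit 6) (nat_lit 183) (nat_lit 1) (nat_lit 142) (nat_lit 120) (nat_lit 128)) (PT.lf (nat_lit 12844) (nat_lit 6) (nat_lit 169) (nat_lit 1) (nat_lit 143) (nat_lit 120) (nat_lit 127)))) (PT.nd (nat_lit 39156) (PT.lf (nat_lit 11704) (nat_lit 6) (nat_lit 154) (nat_lit 1) (nat_lit 144) (nat_lit 120) (nat_lit 126)) (PT.nd (nat_lit 78) (PT.lf (nat_lit 11628) (nat_lit 6) (nat_lit 153) (nat_lit 3) (nat_lit 125) (nat_lit 121) (nat_lit 144)) (PT.lf (nat_lit 12768) (nat_lit 6) (nat_lit 168) (nat_lit 3) (nat_lit 126) (nat_lit 121) (nat_lit 143))))))))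
noncomputable def pc8 : PT := (PT.nd (nat_lit 40794) (PT.nd (nat_lit 858) (PT.nd (nat_lit 390) (PT.nd (nat_lit 156) (PT.nd (nat_lit 78) (PT.lf (nat_lit 13832) (nat_lit 6) (nat_lit 182) (nat_lit 3) (nat_lit 127) (nat_lit 121) (nat_lit 142)) (PT.lf (nat_lit 14820) (nat_lit 6) (nat_lit 195) (nat_lit 3) (nat_lit 128) (nat_lit 121) (nat_lit 141))) (PT.nd (nat_lit 78) (PT.lf (nat_lit 15732) (nat_lit 6) (nat_lit 207) (nat_lit 3) (nat_lit 129) (nat_lit 121) (nat_lit 140)) (PT.nd (nat_lit 78) (PT.lf (nat_lit 16568) (nat_lit 6) (nat_lit 218) (nat_lit 3) (nat_lit 130) (nat_lit 121) (nat_lit 139)) (PT.lf (nat_lit 16644) (nat_lit 6) (nat_lit 219) (nat_lit 3) (nat_lit 131) (nat_lit 121) (nat_lit 138))))) (PT.nd (nat_lit 234) (PT.nd (nat_lit 78) (PT.lf (nat_lit 16720) (nat_lit 6) (nat_lit 220) (nat_lit 3) (nat_lit 132) (nat_lit 121) (nat_lit 137)) (PT.nd (nat_lit 78) (PT.lf (nat_lit 16796) (nat_lit 6) (nat_lit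 221) (nat_lit 3) (nat_lit 133) (nat_lit 121) (nat_lit 136)) (PT.lf (nat_lit 16872) (nat_lit 6) (nat_lit 222) (nat_lit 3) (nat_lit 134) (nat_lit 121) (nat_lit 135)))) (PT.nd (nat_lit 78) (PT.lf (nat_lit 16872) (nat_lit 6) (nat_lit 222) (nat_lit 1) (nat_lit 135) (nat_lit 121) (nat_lit 134)) (PT.nd (nat_lit 78) (PT.lf (nat_lit 16796) (nat_lit 6) (nat_lit 221) (nat_lit 1) (nat_lit 136) (nat_lit 121) (nat_lit 133)) (PT.lf (nat_lit 16720) (nat_lit 6) (nat_lit 220) (nat_lit 1) (nat_lit 137) (nat_lit 121) (nat_lit 132)))))) (PT.nd (nat_lit 468) (PT.nd (nat_lit 234) (PT.nd (nat_lit 78) (PT.lf (nat_lit 16644) (nat_lit 6) (nat_lit 219) (nat_lit 1) (nat_lit 138) (nat_lit 121) (nat_lit 131)) (PT.nd (nat_lit 78) (PT.lf (nat_lit 16568) (nat_lit 6) (nat_lit 218) (nat_lit 1) (nat_lit 139) (nat_lit 121) (nat_lit 130)) (PT.lf (nat_lit 15732) (nat_lit 6) (nat_lit 207) (nat_lit 1) (nat_lit 140) (nat_lit 121) (nat_lit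 129)))) (PT.nd (nat_lit 78) (PT.lf (nat_lit 14820) (nat_lit 6) (nat_lit 195) (nat_lit 1) (nat_lit 141) (nat_lit 121) (nat_lit 128)) (PT.nd (nat_lit 78) (PT.lf (nat_lit 13832) (nat_lit 6) (nat_lit 182) (nat_lit 1) (nat_lit 142) (nat_lit 121) (nat_lit 127)) (PT.lf (nat_lit 12768) (nat_lit 6) (nat_lit 168) (nat_lit 1) (nat_lit 143) (nat_lit 121) (nat_lit 126))))) (PT.nd (nat_lit 39234) (PT.nd (nat_lit 39078) (PT.lf (nat_lit 11628) (nat_lit 6) (nat_lit 153) (nat_lit 1) (nat_lit 144) (nat_lit 121) (nat_lit 125)) (PT.nd (nat_lit 78) (PT.lf (nat_lit 11552) (nat_lit 6) (nat_lit 152) (nat_lit 3) (nat_lit 124) (nat_lit 122) (nat_lit 144)) (PT.lf (nat_lit 12692) (nat_lit 6) (nat_lit 167) (nat_lit 3) (nat_lit 125) (nat_lit 122) (nat_lit 143)))) (PT.nd (nat_lit 78) (PT.lf (nat_lit 13756) (nat_lit 6) (nat_lit 181) (nat_lit 3) (nat_lit 126) (nat_lit 122) (nat_lit 142)) (PT.nd (nat_lit 78) (PT.lf (nat_lit 14744)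 (nat_lit 6) (nat_lit 194) (nat_lit 3) (nat_lit 127) (nat_lit 122) (nat_lit 141)) (PT.lf (nat_lit 15656) (nat_lit 6) (nat_lit 206) (nat_lit 3) (nat_lit 128) (nat_lit 122) (nat_lit 140))))))) (PT.nd (nat_lit 858) (PT.nd (nat_lit 390) (PT.nd (nat_lit 156) (PT.nd (nat_lit 78) (PT.lf (nat_lit 16492) (nat_lit 6) (nat_lit 217) (nat_lit 3) (nat_lit 129) (nat_lit 122) (nat_lit 139)) (PT.lf (nat_lit 17252) (nat_lit 6) (nat_lit 227) (nat_lit 3) (nat_lit 130) (nat_lit 122) (nat_lit 138))) (PT.nd (nat_lit 78) (PT.lf (nat_lit 17328) (nat_lit 6) (nat_lit 228) (nat_lit 3) (nat_lit 131) (nat_lit 122) (nat_lit 137)) (PT.nd (nat_lit 78) (PT.lf (nat_lit 17404) (nat_lit 6) (nat_lit 229) (nat_lit 3) (nat_lit 132) (nat_lit 122) (nat_lit 136)) (PT.lf (nat_lit 17480) (nat_lit 6) (nat_lit 230) (nat_lit 3) (nat_lit 133) (nat_lit 122) (nat_lit 135))))) (PT.nd (nat_lit 234) (PT.nd (nat_lit 78) (PT.lf (nat_lit 17556) (nat_lit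 3) (nat_lit 231) (nat_lit 1) (nat_lit 134) (nat_lit 122) (nat_lit 134)) (PT.nd (nat_lit 78) (PT.lf (nat_lit 17480) (nat_lit 6) (nat_lit 230) (nat_lit 1) (nat_lit 135) (nat_lit 122) (nat_lit 133)) (PT.lf (nat_lit 17404) (nat_lit 6) (nat_lit 229) (nat_lit 1) (nat_lit 136) (nat_lit 122) (nat_lit 132)))) (PT.nd (nat_lit 78) (PT.lf (nat_lit 17328) (nat_lit 6) (nat_lit 228) (nat_lit 1) (nat_lit 137) (nat_lit 122) (nat_lit 131)) (PT.nd (nat_lit 78) (PT.lf (nat_lit 17252) (nat_lit 6) (nat_lit 227) (nat_lit 1) (nat_lit 138) (nat_lit 122) (nat_lit 130)) (PT.lf (nat_lit 16492) (nat_lit 6) (nat_lit 217) (nat_lit 1) (nat_lit 139) (nat_lit 122) (nat_lit 129)))))) (PT.nd (nat_lit 39390) (PT.nd (nat_lit 234) (PT.nd (nat_lit 78) (PT.lf (nat_lit 15656) (nat_lit 6) (nat_lit 206) (nat_lit 1) (nat_lit 140) (nat_lit 122) (nat_lit 128)) (PT.nd (nat_lit 78) (PT.lf (nat_lit 14744) (nat_lit 6) (nat_lit 194) (nat_lit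 1) (nat_lit 141) (nat_lit 122) (nat_lit 127)) (PT.lf (nat_lit 13756) (nat_lit 6) (nat_lit 181) (nat_lit 1) (nat_lit 142) (nat_lit 122) (nat_lit 126)))) (PT.nd (nat_lit 78) (PT.lf (nat_lit 12692) (nat_lit 6) (nat_lit 167) (nat_lit 1) (nat_lit 143) (nat_lit 122) (nat_lit 125)) (PT.nd (nat_lit 39000) (PT.lf (nat_lit 11552) (nat_lit 6) (nat_lit 152) (nat_lit 1) (nat_lit 144) (nat_lit 122) (nat_lit 124)) (PT.lf (nat_lit 11476) (nat_lit 3) (nat_lit 151) (nat_lit 3) (nat_lit 123) (nat_lit 123) (nat_lit 144))))) (PT.nd (nat_lit 234) (PT.nd (nat_lit 78) (PT.lf (nat_lit 12616) (nat_lit 6) (nat_lit 166) (nat_lit 3) (nat_lit 124) (nat_lit 123) (nat_lit 143)) (PT.nd (nat_lit 78) (PT.lf (nat_lit 13680) (nat_lit 6) (nat_lit 180) (nat_lit 3) (nat_lit 125) (nat_lit 123) (nat_lit 142)) (PT.lf (nat_lit 14668) (nat_lit 6) (nat_lit 193) (nat_lit 3) (nat_lit 126) (nat_lit 123) (nat_lit 141)))) (PT.nd (nat_lit 78)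 (PT.lf (nat_lit 15580) (nat_lit 6) (nat_lit 205) (nat_lit 3) (nat_lit 127) (nat_lit 123) (nat_lit 140)) (PT.nd (nat_lit 78) (PT.lf (nat_lit 16416) (nat_lit 6) (nat_lit 216) (nat_lit 3) (nat_lit 128) (nat_lit 123) (nat_lit 139)) (PT.lf (nat_lit 17176) (nat_lit 6) (nat_lit 226) (nat_lit 3) (nat_lit 129) (nat_lit 123) (nat_lit 138))))))))
noncomputable def pc9 : PT := (PT.nd (nat_lit 40638) (PT.nd (nat_lit 858) (PT.nd (nat_lit 390) (PT.nd (nat_lit 156) (PT.nd (nat_lit 78) (PT.lf (nat_lit 17860) (nat_lit 6) (nat_lit 235) (nat_lit 3) (nat_lit 130) (nat_lit 123) (nat_lit 137)) (PT.lf (nat_lit 17936) (nat_lit 6) (nat_lit 236) (nat_lit 3) (nat_lit 131) (nat_lit 123) (nat_lit 136))) (PT.nd (nat_lit 78) (PT.lf (nat_lit 18012) (nat_lit 6) (nat_lit 237) (nat_lit 3) (nat_lit 132) (nat_lit 123) (nat_lit 135)) (PT.nd (nat_lit 78) (PT.lf (nat_lit 18088) (nat_lit 6) (nat_lit 238) (nat_lit 3) (nat_lit 133) (nat_lit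 123) (nat_lit 134)) (PT.lf (nat_lit 18088) (nat_lit 6) (nat_lit 238) (nat_lit 1) (nat_lit 134) (nat_lit 123) (nat_lit 133))))) (PT.nd (nat_lit 234) (PT.nd (nat_lit 78) (PT.lf (nat_lit 18012) (nat_lit 6) (nat_lit 237) (nat_lit 1) (nat_lit 135) (nat_lit 123) (nat_lit 132)) (PT.nd (nat_lit 78) (PT.lf (nat_lit 17936) (nat_lit 6) (nat_lit 236) (nat_lit 1) (nat_lit 136) (nat_lit 123) (nat_lit 131)) (PT.lf (nat_lit 17860) (nat_lit 6) (nat_lit 235) (nat_lit 1) (nat_lit 137) (nat_lit 123) (nat_lit 130)))) (PT.nd (nat_lit 78) (PT.lf (nat_lit 17176) (nat_lit 6) (nat_lit 226) (nat_lit 1) (nat_lit 138) (nat_lit 123) (nat_lit 129)) (PT.nd (nat_lit 78) (PT.lf (nat_lit 16416) (nat_lit 6) (nat_lit 216) (nat_lit 1) (nat_lit 139) (nat_lit 123) (nat_lit 128)) (PT.lf (nat_lit 15580) (nat_lit 6) (nat_lit 205) (nat_lit 1) (nat_lit 140) (nat_lit 123) (nat_lit 127)))))) (PT.nd (nat_lit 39312) (PT.nd (nat_lit 234) (PT.nd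 (nat_lit 78) (PT.lf (nat_lit 14668) (nat_lit 6) (nat_lit 193) (nat_lit 1) (nat_lit 141) (nat_lit 123) (nat_lit 126)) (PT.nd (nat_lit 78) (PT.lf (nat_lit 13680) (nat_lit 6) (nat_lit 180) (nat_lit 1) (nat_lit 142) (nat_lit 123) (nat_lit 125)) (PT.lf (nat_lit 12616) (nat_lit 6) (nat_lit 166) (nat_lit 1) (nat_lit 143) (nat_lit 123) (nat_lit 124)))) (PT.nd (nat_lit 38922) (PT.lf (nat_lit 11476) (nat_lit 3) (nat_lit 151) (nat_lit 0) (nat_lit 144) (nat_lit 123) (nat_lit 123)) (PT.nd (nat_lit 78) (PT.lf (nat_lit 11552) (nat_lit 6) (nat_lit 152) (nat_lit 5) (nat_lit 122) (nat_lit 124) (nat_lit 144)) (PT.lf (nat_lit 12616) (nat_lit 6) (nat_lit 166) (nat_lit 5) (nat_lit 123) (nat_lit 124) (nat_lit 143))))) (PT.nd (nat_lit 234) (PT.nd (nat_lit 78) (PT.lf (nat_lit 13604) (nat_lit 3) (nat_lit 179) (nat_lit 3) (nat_lit 124) (nat_lit 124) (nat_lit 142)) (PT.nd (nat_lit 78) (PT.lf (nat_lit 14592) (nat_lit 6)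 (nat_lit 192) (nat_lit 3) (nat_lit 125) (nat_lit 124) (nat_lit 141)) (PT.lf (nat_lit 15504) (nat_lit 6) (nat_lit 204) (nat_lit 3) (nat_lit 126) (nat_lit 124) (nat_lit 140)))) (PT.nd (nat_lit 78) (PT.lf (nat_lit 16340) (nat_lit 6) (nat_lit 215) (nat_lit 3) (nat_lit 127) (nat_lit 124) (nat_lit 139)) (PT.nd (nat_lit 78) (PT.lf (nat_lit 17100) (nat_lit 6) (nat_lit 225) (nat_lit 3) (nat_lit 128) (nat_lit 124) (nat_lit 138)) (PT.lf (nat_lit 17784) (nat_lit 6) (nat_lit 234) (nat_lit 3) (nat_lit 129) (nat_lit 124) (nat_lit 137))))))) (PT.nd (nat_lit 858) (PT.nd (nat_lit 390) (PT.nd (nat_lit 156) (PT.nd (nat_lit 78) (PT.lf (nat_lit 18392) (nat_lit 6) (nat_lit 242) (nat_lit 3) (nat_lit 130) (nat_lit 124) (nat_lit 136)) (PT.lf (nat_lit 18468) (nat_lit 6) (nat_lit 243) (nat_lit 3) (nat_lit 131) (nat_lit 124) (nat_lit 135))) (PT.nd (nat_lit 78) (PT.lf (nat_lit 18544) (nat_lit 6) (nat_lit 244) (nat_lit 3)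 (nat_lit 132) (nat_lit 124) (nat_lit 134)) (PT.nd (nat_lit 78) (PT.lf (nat_lit 18620) (nat_lit 3) (nat_lit 245) (nat_lit 1) (nat_lit 133) (nat_lit 124) (nat_lit 133)) (PT.lf (nat_lit 18544) (nat_lit 6) (nat_lit 244) (nat_lit 1) (nat_lit 134) (nat_lit 124) (nat_lit 132))))) (PT.nd (nat_lit 234) (PT.nd (nat_lit 78) (PT.lf (nat_lit 18468) (nat_lit 6) (nat_lit 243) (nat_lit 1) (nat_lit 135) (nat_lit 124) (nat_lit 131)) (PT.nd (nat_lit 78) (PT.lf (nat_lit 18392) (nat_lit 6) (nat_lit 242) (nat_lit 1) (nat_lit 136) (nat_lit 124) (nat_lit 130)) (PT.lf (nat_lit 17784) (nat_lit 6) (nat_lit 234) (nat_lit 1) (nat_lit 137) (nat_lit 124) (nat_lit 129)))) (PT.nd (nat_lit 78) (PT.lf (nat_lit 17100) (nat_lit 6) (nat_lit 225) (nat_lit 1) (nat_lit 138) (nat_lit 124) (nat_lit 128)) (PT.nd (nat_lit 78) (PT.lf (nat_lit 16340) (nat_lit 6) (nat_lit 215) (nat_lit 1) (nat_lit 139) (nat_lit 124) (nat_lit 127)) (PT.lf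 (nat_lit 15504) (nat_lit 6) (nat_lit 204) (nat_lit 1) (nat_lit 140) (nat_lit 124) (nat_lit 126)))))) (PT.nd (nat_lit 39234) (PT.nd (nat_lit 234) (PT.nd (nat_lit 78) (PT.lf (nat_lit 14592) (nat_lit 6) (nat_lit 192) (nat_lit 1) (nat_lit 141) (nat_lit 124) (nat_lit 125)) (PT.nd (nat_lit 78) (PT.lf (nat_lit 13604) (nat_lit 3) (nat_lit 179) (nat_lit 0) (nat_lit 142) (nat_lit 124) (nat_lit 124)) (PT.lf (nat_lit 12616) (nat_lit 6) (nat_lit 166) (nat_lit 0) (nat_lit 143) (nat_lit 124) (nat_lit 123)))) (PT.nd (nat_lit 38844) (PT.lf (nat_lit 11552) (nat_lit 6) (nat_lit 152) (nat_lit 0) (nat_lit 144) (nat_lit 124) (nat_lit 122)) (PT.nd (nat_lit 78) (PT.lf (nat_lit 11628) (nat_lit 6) (nat_lit 153) (nat_lit 5) (nat_lit 121) (nat_lit 125) (nat_lit 144)) (PT.lf (nat_lit 12692) (nat_lit 6) (nat_lit 167) (nat_lit 5) (nat_lit 122) (nat_lit 125) (nat_lit 143))))) (PT.nd (nat_lit 234) (PT.nd (nat_lit 78) (PT.lf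 (nat_lit 13680) (nat_lit 6) (nat_lit 180) (nat_lit 5) (nat_lit 123) (nat_lit 125) (nat_lit 142)) (PT.nd (nat_lit 78) (PT.lf (nat_lit 14592) (nat_lit 6) (nat_lit 192) (nat_lit 5) (nat_lit 124) (nat_lit 125) (nat_lit 141)) (PT.lf (nat_lit 15428) (nat_lit 3) (nat_lit 203) (nat_lit 3) (nat_lit 125) (nat_lit 125) (nat_lit 140)))) (PT.nd (nat_lit 78) (PT.lf (nat_lit 16264) (nat_lit 6) (nat_lit 214) (nat_lit 3) (nat_lit 126) (nat_lit 125) (nat_lit 139)) (PT.nd (nat_lit 78) (PT.lf (nat_lit 17024) (nat_lit 6) (nat_lit 224) (nat_lit 3) (nat_lit 127) (nat_lit 125) (nat_lit 138)) (PT.lf (nat_lit 17708) (nat_lit 6) (nat_lit 233) (nat_lit 3) (nat_lit 128) (nat_lit 125) (nat_lit 137))))))))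
noncomputable def pc10 : PT := (PT.nd (nat_lit 40482) (PT.nd (nat_lit 858) (PT.nd (nat_lit 390) (PT.nd (nat_lit 156) (PT.nd (nat_lit 78) (PT.lf (nat_lit 18316) (nat_lit 6) (nat_lit 241) (nat_lit 3) (nat_lit 129) (nat_lit 125) (nat_lit 136)) (PT.lf (nat_lit 18848) (nat_lit 6) (nat_lit 248) (nat_lit 3) (nat_lit 130) (nat_lit 125) (nat_lit 135))) (PT.nd (nat_lit 78) (PT.lf (nat_lit 18924) (nat_lit 6) (nat_lit 249) (nat_lit 3) (nat_lit 131) (nat_lit 125) (nat_lit 134)) (PT.nd (nat_lit 78) (PT.lf (nat_lit 19000) (nat_lit 6) (nat_lit 250) (nat_lit 3) (nat_lit 132) (nat_lit 125) (nat_lit 133)) (PT.lf (nat_lit 19000) (nat_lit 6) (nat_lit 250) (nat_lit 1) (nat_lit 133) (nat_lit 125) (nat_lit 132))))) (PT.nd (nat_lit 234) (PT.nd (nat_lit 78) (PT.lf (nat_lit 18924) (nat_lit 6) (nat_lit 249) (nat_lit 1) (nat_lit 134) (nat_lit 125) (nat_lit 131)) (PT.nd (nat_lit 78) (PT.lf (nat_lit 18848) (nat_lit 6) (nat_lit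 248) (nat_lit 1) (nat_lit 135) (nat_lit 125) (nat_lit 130)) (PT.lf (nat_lit 18316) (nat_lit 6) (nat_lit 241) (nat_lit 1) (nat_lit 136) (nat_lit 125) (nat_lit 129)))) (PT.nd (nat_lit 78) (PT.lf (nat_lit 17708) (nat_lit 6) (nat_lit 233) (nat_lit 1) (nat_lit 137) (nat_lit 125) (nat_lit 128)) (PT.nd (nat_lit 78) (PT.lf (nat_lit 17024) (nat_lit 6) (nat_lit 224) (nat_lit 1) (nat_lit 138) (nat_lit 125) (nat_lit 127)) (PT.lf (nat_lit 16264) (nat_lit 6) (nat_lit 214) (nat_lit 1) (nat_lit 139) (nat_lit 125) (nat_lit 126)))))) (PT.nd (nat_lit 39156) (PT.nd (nat_lit 234) (PT.nd (nat_lit 78) (PT.lf (nat_lit 15428) (nat_lit 3) (nat_lit 203) (nat_lit 0) (nat_lit 140) (nat_lit 125) (nat_lit 125)) (PT.nd (nat_lit 78) (PT.lf (nat_lit 14592) (nat_lit 6) (nat_lit 192) (nat_lit 0) (nat_lit 141) (nat_lit 125) (nat_lit 124)) (PT.lf (nat_lit 13680) (nat_lit 6) (nat_lit 180) (nat_lit 0) (nat_lit 142) (nat_lit 125) (nat_lit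 123)))) (PT.nd (nat_lit 78) (PT.lf (nat_lit 12692) (nat_lit 6) (nat_lit 167) (nat_lit 0) (nat_lit 143) (nat_lit 125) (nat_lit 122)) (PT.nd (nat_lit 38766) (PT.lf (nat_lit 11628) (nat_lit 6) (nat_lit 153) (nat_lit 0) (nat_lit 144) (nat_lit 125) (nat_lit 121)) (PT.lf (nat_lit 11704) (nat_lit 6) (nat_lit 154) (nat_lit 5) (nat_lit 120) (nat_lit 126) (nat_lit 144))))) (PT.nd (nat_lit 234) (PT.nd (nat_lit 78) (PT.lf (nat_lit 12768) (nat_lit 6) (nat_lit 168) (nat_lit 5) (nat_lit 121) (nat_lit 126) (nat_lit 143)) (PT.nd (nat_lit 78) (PT.lf (nat_lit 13756) (nat_lit 6) (nat_lit 181) (nat_lit 5) (nat_lit 122) (nat_lit 126) (nat_lit 142)) (PT.lf (nat_lit 14668) (nat_lit 6) (nat_lit 193) (nat_lit 5) (nat_lit 123) (nat_lit 126) (nat_lit 141)))) (PT.nd (nat_lit 78) (PT.lf (nat_lit 15504) (nat_lit 6) (nat_lit 204) (nat_lit 5) (nat_lit 124) (nat_lit 126) (nat_lit 140)) (PT.nd (nat_lit 78) (PT.lf (nat_lit 16264)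 (nat_lit 6) (nat_lit 214) (nat_lit 5) (nat_lit 125) (nat_lit 126) (nat_lit 139)) (PT.lf (nat_lit 16948) (nat_lit 3) (nat_lit 223) (nat_lit 3) (nat_lit 126) (nat_lit 126) (nat_lit 138))))))) (PT.nd (nat_lit 858) (PT.nd (nat_lit 390) (PT.nd (nat_lit 156) (PT.nd (nat_lit 78) (PT.lf (nat_lit 17632) (nat_lit 6) (nat_lit 232) (nat_lit 3) (nat_lit 127) (nat_lit 126) (nat_lit 137)) (PT.lf (nat_lit 18240) (nat_lit 6) (nat_lit 240) (nat_lit 3) (nat_lit 128) (nat_lit 126) (nat_lit 136))) (PT.nd (nat_lit 78) (PT.lf (nat_lit 18772) (nat_lit 6) (nat_lit 247) (nat_lit 3) (nat_lit 129) (nat_lit 126) (nat_lit 135)) (PT.nd (nat_lit 78) (PT.lf (nat_lit 19228) (nat_lit 6) (nat_lit 253) (nat_lit 3) (nat_lit 130) (nat_lit 126) (nat_lit 134)) (PT.lf (nat_lit 19304) (nat_lit 6) (nat_lit 254) (nat_lit 3) (nat_lit 131) (nat_lit 126) (nat_lit 133))))) (PT.nd (nat_lit 234) (PT.nd (nat_lit 78) (PT.lf (nat_lit 19380) (nat_lit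 3) (nat_lit 255) (nat_lit 1) (nat_lit 132) (nat_lit 126) (nat_lit 132)) (PT.nd (nat_lit 78) (PT.lf (nat_lit 19304) (nat_lit 6) (nat_lit 254) (nat_lit 1) (nat_lit 133) (nat_lit 126) (nat_lit 131)) (PT.lf (nat_lit 19228) (nat_lit 6) (nat_lit 253) (nat_lit 1) (nat_lit 134) (nat_lit 126) (nat_lit 130)))) (PT.nd (nat_lit 78) (PT.lf (nat_lit 18772) (nat_lit 6) (nat_lit 247) (nat_lit 1) (nat_lit 135) (nat_lit 126) (nat_lit 129)) (PT.nd (nat_lit 78) (PT.lf (nat_lit 18240) (nat_lit 6) (nat_lit 240) (nat_lit 1) (nat_lit 136) (nat_lit 126) (nat_lit 128)) (PT.lf (nat_lit 17632) (nat_lit 6) (nat_lit 232) (nat_lit 1) (nat_lit 137) (nat_lit 126) (nat_lit 127)))))) (PT.nd (nat_lit 468) (PT.nd (nat_lit 234) (PT.nd (nat_lit 78) (PT.lf (nat_lit 16948) (nat_lit 3) (nat_lit 223) (nat_lit 0) (nat_lit 138) (nat_lit 126) (nat_lit 126)) (PT.nd (nat_lit 78) (PT.lf (nat_lit 16264) (nat_lit 6) (nat_lit 214) (nat_lit 0)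 (nat_lit 139) (nat_lit 126) (nat_lit 125)) (PT.lf (nat_lit 15504) (nat_lit 6) (nat_lit 204) (nat_lit 0) (nat_lit 140) (nat_lit 126) (nat_lit 124)))) (PT.nd (nat_lit 78) (PT.lf (nat_lit 14668) (nat_lit 6) (nat_lit 193) (nat_lit 0) (nat_lit 141) (nat_lit 126) (nat_lit 123)) (PT.nd (nat_lit 78) (PT.lf (nat_lit 13756) (nat_lit 6) (nat_lit 181) (nat_lit 0) (nat_lit 142) (nat_lit 126) (nat_lit 122)) (PT.lf (nat_lit 12768) (nat_lit 6) (nat_lit 168) (nat_lit 0) (nat_lit 143) (nat_lit 126) (nat_lit 121))))) (PT.nd (nat_lit 38844) (PT.nd (nat_lit 38688) (PT.lf (nat_lit 11704) (nat_lit 6) (nat_lit 154) (nat_lit 0) (nat_lit 144) (nat_lit 126) (nat_lit 120)) (PT.nd (nat_lit 78) (PT.lf (nat_lit 11780) (nat_lit 6) (nat_lit 155) (nat_lit 5) (nat_lit 119) (nat_lit 127) (nat_lit 144)) (PT.lf (nat_lit 12844) (nat_lit 6) (nat_lit 169) (nat_lit 5) (nat_lit 120) (nat_lit 127) (nat_lit 143)))) (PT.nd (nat_lit 78)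 (PT.lf (nat_lit 13832) (nat_lit 6) (nat_lit 182) (nat_lit 5) (nat_lit 121) (nat_lit 127) (nat_lit 142)) (PT.nd (nat_lit 78) (PT.lf (nat_lit 14744) (nat_lit 6) (nat_lit 194) (nat_lit 5) (nat_lit 122) (nat_lit 127) (nat_lit 141)) (PT.lf (nat_lit 15580) (nat_lit 6) (nat_lit 205) (nat_lit 5) (nat_lit 123) (nat_lit 127) (nat_lit 140))))))))
noncomputable def pc11 : PT := (PT.nd (nat_lit 40326) (PT.nd (nat_lit 858) (PT.nd (nat_lit 390) (PT.nd (nat_lit 156) (PT.nd (nat_lit 78) (PT.lf (nat_lit 16340) (nat_lit 6) (nat_lit 215) (nat_lit 5) (nat_lit 124) (nat_lit 127) (nat_lit 139)) (PT.lf (nat_lit 17024) (nat_lit 6) (nat_lit 224) (nat_lit 5) (nat_lit 125) (nat_lit 127) (nat_lit 138))) (PT.nd (nat_lit 78) (PT.lf (nat_lit 17632) (nat_lit 6) (nat_lit 232) (nat_lit 5) (nat_lit 126) (nat_lit 127) (nat_lit 137)) (PT.nd (nat_lit 78) (PT.lf (nat_lit 18164) (nat_lit 3) (nat_lit 239) (nat_lit 3) (nat_lit 127) (nat_lit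 127) (nat_lit 136)) (PT.lf (nat_lit 18696) (nat_lit 6) (nat_lit 246) (nat_lit 3) (nat_lit 128) (nat_lit 127) (nat_lit 135))))) (PT.nd (nat_lit 234) (PT.nd (nat_lit 78) (PT.lf (nat_lit 19152) (nat_lit 6) (nat_lit 252) (nat_lit 3) (nat_lit 129) (nat_lit 127) (nat_lit 134)) (PT.nd (nat_lit 78) (PT.lf (nat_lit 19532) (nat_lit 6) (nat_lit 257) (nat_lit 3) (nat_lit 130) (nat_lit 127) (nat_lit 133)) (PT.lf (nat_lit 19608) (nat_lit 6) (nat_lit 258) (nat_lit 3) (nat_lit 131) (nat_lit 127) (nat_lit 132)))) (PT.nd (nat_lit 78) (PT.lf (nat_lit 19608) (nat_lit 6) (nat_lit 258) (nat_lit 1) (nat_lit 132) (nat_lit 127) (nat_lit 131)) (PT.nd (nat_lit 78) (PT.lf (nat_lit 19532) (nat_lit 6) (nat_lit 257) (nat_lit 1) (nat_lit 133) (nat_lit 127) (nat_lit 130)) (PT.lf (nat_lit 19152) (nat_lit 6) (nat_lit 252) (nat_lit 1) (nat_lit 134) (nat_lit 127) (nat_lit 129)))))) (PT.nd (nat_lit 468) (PT.nd (nat_lit 234) (PT.nd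 (nat_lit 78) (PT.lf (nat_lit 18696) (nat_lit 6) (nat_lit 246) (nat_lit 1) (nat_lit 135) (nat_lit 127) (nat_lit 128)) (PT.nd (nat_lit 78) (PT.lf (nat_lit 18164) (nat_lit 3) (nat_lit 239) (nat_lit 0) (nat_lit 136) (nat_lit 127) (nat_lit 127)) (PT.lf (nat_lit 17632) (nat_lit 6) (nat_lit 232) (nat_lit 0) (nat_lit 137) (nat_lit 127) (nat_lit 126)))) (PT.nd (nat_lit 78) (PT.lf (nat_lit 17024) (nat_lit 6) (nat_lit 224) (nat_lit 0) (nat_lit 138) (nat_lit 127) (nat_lit 125)) (PT.nd (nat_lit 78) (PT.lf (nat_lit 16340) (nat_lit 6) (nat_lit 215) (nat_lit 0) (nat_lit 139) (nat_lit 127) (nat_lit 124)) (PT.lf (nat_lit 15580) (nat_lit 6) (nat_lit 205) (nat_lit 0) (nat_lit 140) (nat_lit 127) (nat_lit 123))))) (PT.nd (nat_lit 234) (PT.nd (nat_lit 78) (PT.lf (nat_lit 14744) (nat_lit 6) (nat_lit 194) (nat_lit 0) (nat_lit 141) (nat_lit 127) (nat_lit 122)) (PT.nd (nat_lit 78) (PT.lf (nat_lit 13832) (nat_lit 6) (nat_lit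 182) (nat_lit 0) (nat_lit 142) (nat_lit 127) (nat_lit 121)) (PT.lf (nat_lit 12844) (nat_lit 6) (nat_lit 169) (nat_lit 0) (nat_lit 143) (nat_lit 127) (nat_lit 120)))) (PT.nd (nat_lit 38610) (PT.lf (nat_lit 11780) (nat_lit 6) (nat_lit 155) (nat_lit 0) (nat_lit 144) (nat_lit 127) (nat_lit 119)) (PT.nd (nat_lit 78) (PT.lf (nat_lit 11856) (nat_lit 6) (nat_lit 156) (nat_lit 5) (nat_lit 118) (nat_lit 128) (nat_lit 144)) (PT.lf (nat_lit 12920) (nat_lit 6) (nat_lit 170) (nat_lit 5) (nat_lit 119) (nat_lit 128) (nat_lit 143))))))) (PT.nd (nat_lit 858) (PT.nd (nat_lit 390) (PT.nd (nat_lit 156) (PT.nd (nat_lit 78) (PT.lf (nat_lit 13908) (nat_lit 6) (nat_lit 183) (nat_lit 5) (nat_lit 120) (nat_lit 128) (nat_lit 142)) (PT.lf (nat_lit 14820) (nat_lit 6) (nat_lit 195) (nat_lit 5) (nat_lit 121) (nat_lit 128) (nat_lit 141))) (PT.nd (nat_lit 78) (PT.lf (nat_lit 15656) (nat_lit 6) (nat_lit 206) (nat_lit 5) (nat_lit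 122) (nat_lit 128) (nat_lit 140)) (PT.nd (nat_lit 78) (PT.lf (nat_lit 16416) (nat_lit 6) (nat_lit 216) (nat_lit 5) (nat_lit 123) (nat_lit 128) (nat_lit 139)) (PT.lf (nat_lit 17100) (nat_lit 6) (nat_lit 225) (nat_lit 5) (nat_lit 124) (nat_lit 128) (nat_lit 138))))) (PT.nd (nat_lit 234) (PT.nd (nat_lit 78) (PT.lf (nat_lit 17708) (nat_lit 6) (nat_lit 233) (nat_lit 5) (nat_lit 125) (nat_lit 128) (nat_lit 137)) (PT.nd (nat_lit 78) (PT.lf (nat_lit 18240) (nat_lit 6) (nat_lit 240) (nat_lit 5) (nat_lit 126) (nat_lit 128) (nat_lit 136)) (PT.lf (nat_lit 18696) (nat_lit 6) (nat_lit 246) (nat_lit 5) (nat_lit 127) (nat_lit 128) (nat_lit 135)))) (PT.nd (nat_lit 78) (PT.lf (nat_lit 19076) (nat_lit 3) (nat_lit 251) (nat_lit 3) (nat_lit 128) (nat_lit 128) (nat_lit 134)) (PT.nd (nat_lit 78) (PT.lf (nat_lit 19456) (nat_lit 6) (nat_lit 256) (nat_lit 3) (nat_lit 129) (nat_lit 128) (nat_lit 133)) (PT.lf (nat_lit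 19760) (nat_lit 6) (nat_lit 260) (nat_lit 3) (nat_lit 130) (nat_lit 128) (nat_lit 132)))))) (PT.nd (nat_lit 468) (PT.nd (nat_lit 234) (PT.nd (nat_lit 78) (PT.lf (nat_lit 19836) (nat_lit 3) (nat_lit 261) (nat_lit 1) (nat_lit 131) (nat_lit 128) (nat_lit 131)) (PT.nd (nat_lit 78) (PT.lf (nat_lit 19760) (nat_lit 6) (nat_lit 260) (nat_lit 1) (nat_lit 132) (nat_lit 128) (nat_lit 130)) (PT.lf (nat_lit 19456) (nat_lit 6) (nat_lit 256) (nat_lit 1) (nat_lit 133) (nat_lit 128) (nat_lit 129)))) (PT.nd (nat_lit 78) (PT.lf (nat_lit 19076) (nat_lit 3) (nat_lit 251) (nat_lit 0) (nat_lit 134) (nat_lit 128) (nat_lit 128)) (PT.nd (nat_lit 78) (PT.lf (nat_lit 18696) (nat_lit 6) (nat_lit 246) (nat_lit 0) (nat_lit 135) (nat_lit 128) (nat_lit 127)) (PT.lf (nat_lit 18240) (nat_lit 6) (nat_lit 240) (nat_lit 0) (nat_lit 136) (nat_lit 128) (nat_lit 126))))) (PT.nd (nat_lit 234) (PT.nd (nat_lit 78) (PT.lf (nat_lit 17708)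 (nat_lit 6) (nat_lit 233) (nat_lit 0) (nat_lit 137) (nat_lit 128) (nat_lit 125)) (PT.nd (nat_lit 78) (PT.lf (nat_lit 17100) (nat_lit 6) (nat_lit 225) (nat_lit 0) (nat_lit 138) (nat_lit 128) (nat_lit 124)) (PT.lf (nat_lit 16416) (nat_lit 6) (nat_lit 216) (nat_lit 0) (nat_lit 139) (nat_lit 128) (nat_lit 123)))) (PT.nd (nat_lit 78) (PT.lf (nat_lit 15656) (nat_lit 6) (nat_lit 206) (nat_lit 0) (nat_lit 140) (nat_lit 128) (nat_lit 122)) (PT.nd (nat_lit 78) (PT.lf (nat_lit 14820) (nat_lit 6) (nat_lit 195) (nat_lit 0) (nat_lit 141) (nat_lit 128) (nat_lit 121)) (PT.lf (nat_lit 13908) (nat_lit 6) (nat_lit 183) (nat_lit 0) (nat_lit 142) (nat_lit 128) (nat_lit 120))))))))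
noncomputable def pc12 : PT := (PT.nd (nat_lit 40170) (PT.nd (nat_lit 39234) (PT.nd (nat_lit 38766) (PT.nd (nat_lit 38532) (PT.nd (nat_lit 78) (PT.lf (nat_lit 12920) (nat_lit 6) (nat_lit 170) (nat_lit 0) (nat_lit 143) (nat_lit 128) (nat_lit 119)) (PT.lf (nat_lit 11856) (nat_lit 6) (nat_lit 156) (nat_lit 0) (nat_lit 144) (nat_lit 128) (nat_lit 118))) (PT.nd (nat_lit 78) (PT.lf (nat_lit 10792) (nat_lit 6) (nat_lit 142) (nat_lit 5) (nat_lit 116) (nat_lit 129) (nat_lit 145)) (PT.nd (nat_lit 78) (PT.lf (nat_lit 11932) (nat_lit 6) (nat_lit 157) (nat_lit 5) (nat_lit 117) (nat_lit 129) (nat_lit 144)) (PT.lf (nat_lit 12996) (nat_lit 6) (nat_lit 171) (nat_lit 5) (nat_lit 118) (nat_lit 129) (nat_lit 143))))) (PT.nd (nat_lit 234) (PT.nd (nat_lit 78) (PT.lf (nat_lit 13984) (nat_lit 6) (nat_lit 184) (nat_lit 5) (nat_lit 119) (nat_lit 129) (nat_lit 142)) (PT.nd (nat_lit 78) (PT.lf (nat_lit 14896) (nat_lit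 6) (nat_lit 196) (nat_lit 5) (nat_lit 120) (nat_lit 129) (nat_lit 141)) (PT.lf (nat_lit 15732) (nat_lit 6) (nat_lit 207) (nat_lit 5) (nat_lit 121) (nat_lit 129) (nat_lit 140)))) (PT.nd (nat_lit 78) (PT.lf (nat_lit 16492) (nat_lit 6) (nat_lit 217) (nat_lit 5) (nat_lit 122) (nat_lit 129) (nat_lit 139)) (PT.nd (nat_lit 78) (PT.lf (nat_lit 17176) (nat_lit 6) (nat_lit 226) (nat_lit 5) (nat_lit 123) (nat_lit 129) (nat_lit 138)) (PT.lf (nat_lit 17784) (nat_lit 6) (nat_lit 234) (nat_lit 5) (nat_lit 124) (nat_lit 129) (nat_lit 137)))))) (PT.nd (nat_lit 468) (PT.nd (nat_lit 234) (PT.nd (nat_lit 78) (PT.lf (nat_lit 18316) (nat_lit 6) (nat_lit 241) (nat_lit 5) (nat_lit 125) (nat_lit 129) (nat_lit 136)) (PT.nd (nat_lit 78) (PT.lf (nat_lit 18772) (nat_lit 6) (nat_lit 247) (nat_lit 5) (nat_lit 126) (nat_lit 129) (nat_lit 135)) (PT.lf (nat_lit 19152) (nat_lit 6) (nat_lit 252) (nat_lit 5) (nat_lit 127) (nat_lit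 129) (nat_lit 134)))) (PT.nd (nat_lit 78) (PT.lf (nat_lit 19456) (nat_lit 6) (nat_lit 256) (nat_lit 5) (nat_lit 128) (nat_lit 129) (nat_lit 133)) (PT.nd (nat_lit 78) (PT.lf (nat_lit 19684) (nat_lit 3) (nat_lit 259) (nat_lit 3) (nat_lit 129) (nat_lit 129) (nat_lit 132)) (PT.lf (nat_lit 19912) (nat_lit 6) (nat_lit 262) (nat_lit 3) (nat_lit 130) (nat_lit 129) (nat_lit 131))))) (PT.nd (nat_lit 234) (PT.nd (nat_lit 78) (PT.lf (nat_lit 19912) (nat_lit 6) (nat_lit 262) (nat_lit 1) (nat_lit 131) (nat_lit 129) (nat_lit 130)) (PT.nd (nat_lit 78) (PT.lf (nat_lit 19684) (nat_lit 3) (nat_lit 259) (nat_lit 0) (nat_lit 132) (nat_lit 129) (nat_lit 129)) (PT.lf (nat_lit 19456) (nat_lit 6) (nat_lit 256) (nat_lit 0) (nat_lit 133) (nat_lit 129) (nat_lit 128)))) (PT.nd (nat_lit 78) (PT.lf (nat_lit 19152) (nat_lit 6) (nat_lit 252) (nat_lit 0) (nat_lit 134) (nat_lit 129) (nat_lit 127)) (PT.nd (nat_lit 78) (PT.lf (nat_lit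 18772) (nat_lit 6) (nat_lit 247) (nat_lit 0) (nat_lit 135) (nat_lit 129) (nat_lit 126)) (PT.lf (nat_lit 18316) (nat_lit 6) (nat_lit 241) (nat_lit 0) (nat_lit 136) (nat_lit 129) (nat_lit 125))))))) (PT.nd (nat_lit 39078) (PT.nd (nat_lit 390) (PT.nd (nat_lit 156) (PT.nd (nat_lit 78) (PT.lf (nat_lit 17784) (nat_lit 6) (nat_lit 234) (nat_lit 0) (nat_lit 137) (nat_lit 129) (nat_lit 124)) (PT.lf (nat_lit 17176) (nat_lit 6) (nat_lit 226) (nat_lit 0) (nat_lit 138) (nat_lit 129) (nat_lit 123))) (PT.nd (nat_lit 78) (PT.lf (nat_lit 16492) (nat_lit 6) (nat_lit 217) (nat_lit 0) (nat_lit 139) (nat_lit 129) (nat_lit 122)) (PT.nd (nat_lit 78) (PT.lf (nat_lit 15732) (nat_lit 6) (nat_lit 207) (nat_lit 0) (nat_lit 140) (nat_lit 129) (nat_lit 121)) (PT.lf (nat_lit 14896) (nat_lit 6) (nat_lit 196) (nat_lit 0) (nat_lit 141) (nat_lit 129) (nat_lit 120))))) (PT.nd (nat_lit 234) (PT.nd (nat_lit 78) (PT.lf (nat_lit 13984)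 (nat_lit 6) (nat_lit 184) (nat_lit 0) (nat_lit 142) (nat_lit 129) (nat_lit 119)) (PT.nd (nat_lit 78) (PT.lf (nat_lit 12996) (nat_lit 6) (nat_lit 171) (nat_lit 0) (nat_lit 143) (nat_lit 129) (nat_lit 118)) (PT.lf (nat_lit 11932) (nat_lit 6) (nat_lit 157) (nat_lit 0) (nat_lit 144) (nat_lit 129) (nat_lit 117)))) (PT.nd (nat_lit 38298) (PT.lf (nat_lit 10792) (nat_lit 6) (nat_lit 142) (nat_lit 0) (nat_lit 145) (nat_lit 129) (nat_lit 116)) (PT.nd (nat_lit 78) (PT.lf (nat_lit 10868) (nat_lit 6) (nat_lit 143) (nat_lit 5) (nat_lit 115) (nat_lit 130) (nat_lit 145)) (PT.lf (nat_lit 12008) (nat_lit 6) (nat_lit 158) (nat_lit 5) (nat_lit 116) (nat_lit 130) (nat_lit 144)))))) (PT.nd (nat_lit 468) (PT.nd (nat_lit 234) (PT.nd (nat_lit 78) (PT.lf (nat_lit 13072) (nat_lit 6) (nat_lit 172) (nat_lit 5) (nat_lit 117) (nat_lit 130) (nat_lit 143)) (PT.nd (nat_lit 78) (PT.lf (nat_lit 14060) (nat_lit 6) (nat_lit 185)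 (nat_lit 5) (nat_lit 118) (nat_lit 130) (nat_lit 142)) (PT.lf (nat_lit 14972) (nat_lit 6) (nat_lit 197) (nat_lit 5) (nat_lit 119) (nat_lit 130) (nat_lit 141)))) (PT.nd (nat_lit 78) (PT.lf (nat_lit 15808) (nat_lit 6) (nat_lit 208) (nat_lit 5) (nat_lit 120) (nat_lit 130) (nat_lit 140)) (PT.nd (nat_lit 78) (PT.lf (nat_lit 16568) (nat_lit 6) (nat_lit 218) (nat_lit 5) (nat_lit 121) (nat_lit 130) (nat_lit 139)) (PT.lf (nat_lit 17252) (nat_lit 6) (nat_lit 227) (nat_lit 5) (nat_lit 122) (nat_lit 130) (nat_lit 138))))) (PT.nd (nat_lit 234) (PT.nd (nat_lit 78) (PT.lf (nat_lit 17860) (nat_lit 6) (nat_lit 235) (nat_lit 5) (nat_lit 123) (nat_lit 130) (nat_lit 137)) (PT.nd (nat_lit 78) (PT.lf (nat_lit 18392) (nat_lit 6) (nat_lit 242) (nat_lit 5) (nat_lit 124) (nat_lit 130) (nat_lit 136)) (PT.lf (nat_lit 18848) (nat_lit 6) (nat_lit 248) (nat_lit 5) (nat_lit 125) (nat_lit 130) (nat_lit 135)))) (PT.nd (nat_lit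 78) (PT.lf (nat_lit 19228) (nat_lit 6) (nat_lit 253) (nat_lit 5) (nat_lit 126) (nat_lit 130) (nat_lit 134)) (PT.nd (nat_lit 78) (PT.lf (nat_lit 19532) (nat_lit 6) (nat_lit 257) (nat_lit 5) (nat_lit 127) (nat_lit 130) (nat_lit 133)) (PT.lf (nat_lit 19760) (nat_lit 6) (nat_lit 260) (nat_lit 5) (nat_lit 128) (nat_lit 130) (nat_lit 132))))))))
noncomputable def pc13 : PT := (PT.nd (nat_lit 39936) (PT.nd (nat_lit 858) (PT.nd (nat_lit 390) (PT.nd (nat_lit 156) (PT.nd (nat_lit 78) (PT.lf (nat_lit 19912) (nat_lit 6) (nat_lit 262) (nat_lit 5) (nat_lit 129) (nat_lit 130) (nat_lit 131)) (PT.lf (nat_lit 19988) (nat_lit 1) (nat_lit 263) (nat_lit 0) (nat_lit 130) (nat_lit 130) (nat_lit 130))) (PT.nd (nat_lit 78) (PT.lf (nat_lit 19912) (nat_lit 6) (nat_lit 262) (nat_lit 0) (nat_lit 131) (nat_lit 130) (nat_lit 129)) (PT.nd (nat_lit 78) (PT.lf (nat_lit 19760) (nat_lit 6) (nat_lit 260) (nat_lit 0) (nat_lit 132)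 (nat_lit 130) (nat_lit 128)) (PT.lf (nat_lit 19532) (nat_lit 6) (nat_lit 257) (nat_lit 0) (nat_lit 133) (nat_lit 130) (nat_lit 127))))) (PT.nd (nat_lit 234) (PT.nd (nat_lit 78) (PT.lf (nat_lit 19228) (nat_lit 6) (nat_lit 253) (nat_lit 0) (nat_lit 134) (nat_lit 130) (nat_lit 126)) (PT.nd (nat_lit 78) (PT.lf (nat_lit 18848) (nat_lit 6) (nat_lit 248) (nat_lit 0) (nat_lit 135) (nat_lit 130) (nat_lit 125)) (PT.lf (nat_lit 18392) (nat_lit 6) (nat_lit 242) (nat_lit 0) (nat_lit 136) (nat_lit 130) (nat_lit 124)))) (PT.nd (nat_lit 78) (PT.lf (nat_lit 17860) (nat_lit 6) (nat_lit 235) (nat_lit 0) (nat_lit 137) (nat_lit 130) (nat_lit 123)) (PT.nd (nat_lit 78) (PT.lf (nat_lit 17252) (nat_lit 6) (nat_lit 227) (nat_lit 0) (nat_lit 138) (nat_lit 130) (nat_lit 122)) (PT.lf (nat_lit 16568) (nat_lit 6) (nat_lit 218) (nat_lit 0) (nat_lit 139) (nat_lit 130) (nat_lit 121)))))) (PT.nd (nat_lit 38610) (PT.nd (nat_lit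 234) (PT.nd (nat_lit 78) (PT.lf (nat_lit 15808) (nat_lit 6) (nat_lit 208) (nat_lit 0) (nat_lit 140) (nat_lit 130) (nat_lit 120)) (PT.nd (nat_lit 78) (PT.lf (nat_lit 14972) (nat_lit 6) (nat_lit 197) (nat_lit 0) (nat_lit 141) (nat_lit 130) (nat_lit 119)) (PT.lf (nat_lit 14060) (nat_lit 6) (nat_lit 185) (nat_lit 0) (nat_lit 142) (nat_lit 130) (nat_lit 118)))) (PT.nd (nat_lit 78) (PT.lf (nat_lit 13072) (nat_lit 6) (nat_lit 172) (nat_lit 0) (nat_lit 143) (nat_lit 130) (nat_lit 117)) (PT.nd (nat_lit 78) (PT.lf (nat_lit 12008) (nat_lit 6) (nat_lit 158) (nat_lit 0) (nat_lit 144) (nat_lit 130) (nat_lit 116)) (PT.lf (nat_lit 10868) (nat_lit 6) (nat_lit 143) (nat_lit 0) (nat_lit 145) (nat_lit 130) (nat_lit 115))))) (PT.nd (nat_lit 234) (PT.nd (nat_lit 78) (PT.lf (nat_lit 10184) (nat_lit 6) (nat_lit 134) (nat_lit 5) (nat_lit 114) (nat_lit 131) (nat_lit 145)) (PT.nd (nat_lit 78) (PT.lf (nat_lit 10944) (nat_lit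 6) (nat_lit 144) (nat_lit 5) (nat_lit 115) (nat_lit 131) (nat_lit 144)) (PT.lf (nat_lit 12084) (nat_lit 6) (nat_lit 159) (nat_lit 5) (nat_lit 116) (nat_lit 131) (nat_lit 143)))) (PT.nd (nat_lit 78) (PT.lf (nat_lit 13148) (nat_lit 6) (nat_lit 173) (nat_lit 5) (nat_lit 117) (nat_lit 131) (nat_lit 142)) (PT.nd (nat_lit 78) (PT.lf (nat_lit 14136) (nat_lit 6) (nat_lit 186) (nat_lit 5) (nat_lit 118) (nat_lit 131) (nat_lit 141)) (PT.lf (nat_lit 15048) (nat_lit 6) (nat_lit 198) (nat_lit 5) (nat_lit 119) (nat_lit 131) (nat_lit 140))))))) (PT.nd (nat_lit 858) (PT.nd (nat_lit 390) (PT.nd (nat_lit 156) (PT.nd (nat_lit 78) (PT.lf (nat_lit 15884) (nat_lit 6) (nat_lit 209) (nat_lit 5) (nat_lit 120) (nat_lit 131) (nat_lit 139)) (PT.lf (nat_lit 16644) (nat_lit 6) (nat_lit 219) (nat_lit 5) (nat_lit 121) (nat_lit 131) (nat_lit 138))) (PT.nd (nat_lit 78) (PT.lf (nat_lit 17328) (nat_lit 6) (nat_lit 228) (nat_lit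 5) (nat_lit 122) (nat_lit 131) (nat_lit 137)) (PT.nd (nat_lit 78) (PT.lf (nat_lit 17936) (nat_lit 6) (nat_lit 236) (nat_lit 5) (nat_lit 123) (nat_lit 131) (nat_lit 136)) (PT.lf (nat_lit 18468) (nat_lit 6) (nat_lit 243) (nat_lit 5) (nat_lit 124) (nat_lit 131) (nat_lit 135))))) (PT.nd (nat_lit 234) (PT.nd (nat_lit 78) (PT.lf (nat_lit 18924) (nat_lit 6) (nat_lit 249) (nat_lit 5) (nat_lit 125) (nat_lit 131) (nat_lit 134)) (PT.nd (nat_lit 78) (PT.lf (nat_lit 19304) (nat_lit 6) (nat_lit 254) (nat_lit 5) (nat_lit 126) (nat_lit 131) (nat_lit 133)) (PT.lf (nat_lit 19608) (nat_lit 6) (nat_lit 258) (nat_lit 5) (nat_lit 127) (nat_lit 131) (nat_lit 132)))) (PT.nd (nat_lit 78) (PT.lf (nat_lit 19836) (nat_lit 3) (nat_lit 261) (nat_lit 4) (nat_lit 128) (nat_lit 131) (nat_lit 131)) (PT.nd (nat_lit 78) (PT.lf (nat_lit 19912) (nat_lit 6) (nat_lit 262) (nat_lit 4) (nat_lit 129) (nat_lit 131) (nat_lit 130)) (PT.lf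 (nat_lit 19912) (nat_lit 6) (nat_lit 262) (nat_lit 2) (nat_lit 130) (nat_lit 131) (nat_lit 129)))))) (PT.nd (nat_lit 468) (PT.nd (nat_lit 234) (PT.nd (nat_lit 78) (PT.lf (nat_lit 19836) (nat_lit 3) (nat_lit 261) (nat_lit 0) (nat_lit 131) (nat_lit 131) (nat_lit 128)) (PT.nd (nat_lit 78) (PT.lf (nat_lit 19608) (nat_lit 6) (nat_lit 258) (nat_lit 0) (nat_lit 132) (nat_lit 131) (nat_lit 127)) (PT.lf (nat_lit 19304) (nat_lit 6) (nat_lit 254) (nat_lit 0) (nat_lit 133) (nat_lit 131) (nat_lit 126)))) (PT.nd (nat_lit 78) (PT.lf (nat_lit 18924) (nat_lit 6) (nat_lit 249) (nat_lit 0) (nat_lit 134) (nat_lit 131) (nat_lit 125)) (PT.nd (nat_lit 78) (PT.lf (nat_lit 18468) (nat_lit 6) (nat_lit 243) (nat_lit 0) (nat_lit 135) (nat_lit 131) (nat_lit 124)) (PT.lf (nat_lit 17936) (nat_lit 6) (nat_lit 236) (nat_lit 0) (nat_lit 136) (nat_lit 131) (nat_lit 123))))) (PT.nd (nat_lit 234) (PT.nd (nat_lit 78) (PT.lf (nat_lit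 17328) (nat_lit 6) (nat_lit 228) (nat_lit 0) (nat_lit 137) (nat_lit 131) (nat_lit 122)) (PT.nd (nat_lit 78) (PT.lf (nat_lit 16644) (nat_lit 6) (nat_lit 219) (nat_lit 0) (nat_lit 138) (nat_lit 131) (nat_lit 121)) (PT.lf (nat_lit 15884) (nat_lit 6) (nat_lit 209) (nat_lit 0) (nat_lit 139) (nat_lit 131) (nat_lit 120)))) (PT.nd (nat_lit 78) (PT.lf (nat_lit 15048) (nat_lit 6) (nat_lit 198) (nat_lit 0) (nat_lit 140) (nat_lit 131) (nat_lit 119)) (PT.nd (nat_lit 78) (PT.lf (nat_lit 14136) (nat_lit 6) (nat_lit 186) (nat_lit 0) (nat_lit 141) (nat_lit 131) (nat_lit 118)) (PT.lf (nat_lit 13148) (nat_lit 6) (nat_lit 173) (nat_lit 0) (nat_lit 142) (nat_lit 131) (nat_lit 117))))))))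
noncomputable def pc14 : PT := (PT.nd (nat_lit 39858) (PT.nd (nat_lit 38922) (PT.nd (nat_lit 38454) (PT.nd (nat_lit 156) (PT.nd (nat_lit 78) (PT.lf (nat_lit 12084) (nat_lit 6) (nat_lit 159) (nat_lit 0) (nat_lit 143) (nat_lit 131) (nat_lit 116)) (PT.lf (nat_lit 10944) (nat_lit 6) (nat_lit 144) (nat_lit 0) (nat_lit 144) (nat_lit 131) (nat_lit 115))) (PT.nd (nat_lit 38142) (PT.lf (nat_lit 10184) (nat_lit 6) (nat_lit 134) (nat_lit 0) (nat_lit 145) (nat_lit 131) (nat_lit 114)) (PT.nd (nat_lit 78) (PT.lf (nat_lit 9652) (nat_lit 6) (nat_lit 127) (nat_lit 5) (nat_lit 113) (nat_lit 132) (nat_lit 145)) (PT.lf (nat_lit 10260) (nat_lit 6) (nat_lit 135) (nat_lit 5) (nat_lit 114) (nat_lit 132) (nat_lit 144))))) (PT.nd (nat_lit 234) (PT.nd (nat_lit 78) (PT.lf (nat_lit 11020) (nat_lit 6) (nat_lit 145) (nat_lit 5) (nat_lit 115) (nat_lit 132) (nat_lit 143)) (PT.nd (nat_lit 78) (PT.lf (nat_lit 12160) (nat_lit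 6) (nat_lit 160) (nat_lit 5) (nat_lit 116) (nat_lit 132) (nat_lit 142)) (PT.lf (nat_lit 13224) (nat_lit 6) (nat_lit 174) (nat_lit 5) (nat_lit 117) (nat_lit 132) (nat_lit 141)))) (PT.nd (nat_lit 78) (PT.lf (nat_lit 14212) (nat_lit 6) (nat_lit 187) (nat_lit 5) (nat_lit 118) (nat_lit 132) (nat_lit 140)) (PT.nd (nat_lit 78) (PT.lf (nat_lit 15124) (nat_lit 6) (nat_lit 199) (nat_lit 5) (nat_lit 119) (nat_lit 132) (nat_lit 139)) (PT.lf (nat_lit 15960) (nat_lit 6) (nat_lit 210) (nat_lit 5) (nat_lit 120) (nat_lit 132) (nat_lit 138)))))) (PT.nd (nat_lit 468) (PT.nd (nat_lit 234) (PT.nd (nat_lit 78) (PT.lf (nat_lit 16720) (nat_lit 6) (nat_lit 220) (nat_lit 5) (nat_lit 121) (nat_lit 132) (nat_lit 137)) (PT.nd (nat_lit 78) (PT.lf (nat_lit 17404) (nat_lit 6) (nat_lit 229) (nat_lit 5) (nat_lit 122) (nat_lit 132) (nat_lit 136)) (PT.lf (nat_lit 18012) (nat_lit 6) (nat_lit 237) (nat_lit 5) (nat_lit 123) (nat_lit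 132) (nat_lit 135)))) (PT.nd (nat_lit 78) (PT.lf (nat_lit 18544) (nat_lit 6) (nat_lit 244) (nat_lit 5) (nat_lit 124) (nat_lit 132) (nat_lit 134)) (PT.nd (nat_lit 78) (PT.lf (nat_lit 19000) (nat_lit 6) (nat_lit 250) (nat_lit 5) (nat_lit 125) (nat_lit 132) (nat_lit 133)) (PT.lf (nat_lit 19380) (nat_lit 3) (nat_lit 255) (nat_lit 4) (nat_lit 126) (nat_lit 132) (nat_lit 132))))) (PT.nd (nat_lit 234) (PT.nd (nat_lit 78) (PT.lf (nat_lit 19608) (nat_lit 6) (nat_lit 258) (nat_lit 4) (nat_lit 127) (nat_lit 132) (nat_lit 131)) (PT.nd (nat_lit 78) (PT.lf (nat_lit 19760) (nat_lit 6) (nat_lit 260) (nat_lit 4) (nat_lit 128) (nat_lit 132) (nat_lit 130)) (PT.lf (nat_lit 19684) (nat_lit 3) (nat_lit 259) (nat_lit 2) (nat_lit 129) (nat_lit 132) (nat_lit 129)))) (PT.nd (nat_lit 78) (PT.lf (nat_lit 19760) (nat_lit 6) (nat_lit 260) (nat_lit 2) (nat_lit 130) (nat_lit 132) (nat_lit 128)) (PT.nd (nat_lit 78) (PT.lf (nat_lit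 19608) (nat_lit 6) (nat_lit 258) (nat_lit 2) (nat_lit 131) (nat_lit 132) (nat_lit 127)) (PT.lf (nat_lit 19380) (nat_lit 3) (nat_lit 255) (nat_lit 0) (nat_lit 132) (nat_lit 132) (nat_lit 126))))))) (PT.nd (nat_lit 858) (PT.nd (nat_lit 390) (PT.nd (nat_lit 156) (PT.nd (nat_lit 78) (PT.lf (nat_lit 19000) (nat_lit 6) (nat_lit 250) (nat_lit 0) (nat_lit 133) (nat_lit 132) (nat_lit 125)) (PT.lf (nat_lit 18544) (nat_lit 6) (nat_lit 244) (nat_lit 0) (nat_lit 134) (nat_lit 132) (nat_lit 124))) (PT.nd (nat_lit 78) (PT.lf (nat_lit 18012) (nat_lit 6) (nat_lit 237) (nat_lit 0) (nat_lit 135) (nat_lit 132) (nat_lit 123)) (PT.nd (nat_lit 78) (PT.lf (nat_lit 17404) (nat_lit 6) (nat_lit 229) (nat_lit 0) (nat_lit 136) (nat_lit 132) (nat_lit 122)) (PT.lf (nat_lit 16720) (nat_lit 6) (nat_lit 220) (nat_lit 0) (nat_lit 137) (nat_lit 132) (nat_lit 121))))) (PT.nd (nat_lit 234) (PT.nd (nat_lit 78) (PT.lf (nat_lit 15960)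 (nat_lit 6) (nat_lit 210) (nat_lit 0) (nat_lit 138) (nat_lit 132) (nat_lit 120)) (PT.nd (nat_lit 78) (PT.lf (nat_lit 15124) (nat_lit 6) (nat_lit 199) (nat_lit 0) (nat_lit 139) (nat_lit 132) (nat_lit 119)) (PT.lf (nat_lit 14212) (nat_lit 6) (nat_lit 187) (nat_lit 0) (nat_lit 140) (nat_lit 132) (nat_lit 118)))) (PT.nd (nat_lit 78) (PT.lf (nat_lit 13224) (nat_lit 6) (nat_lit 174) (nat_lit 0) (nat_lit 141) (nat_lit 132) (nat_lit 117)) (PT.nd (nat_lit 78) (PT.lf (nat_lit 12160) (nat_lit 6) (nat_lit 160) (nat_lit 0) (nat_lit 142) (nat_lit 132) (nat_lit 116)) (PT.lf (nat_lit 11020) (nat_lit 6) (nat_lit 145) (nat_lit 0) (nat_lit 143) (nat_lit 132) (nat_lit 115)))))) (PT.nd (nat_lit 38454) (PT.nd (nat_lit 38220) (PT.nd (nat_lit 78) (PT.lf (nat_lit 10260) (nat_lit 6) (nat_lit 135) (nat_lit 0) (nat_lit 144) (nat_lit 132) (nat_lit 114)) (PT.nd (nat_lit 38064) (PT.lf (nat_lit 9652) (nat_lit 6) (nat_lit 127)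 (nat_lit 0) (nat_lit 145) (nat_lit 132) (nat_lit 113)) (PT.lf (nat_lit 9120) (nat_lit 6) (nat_lit 120) (nat_lit 5) (nat_lit 112) (nat_lit 133) (nat_lit 145)))) (PT.nd (nat_lit 78) (PT.lf (nat_lit 9728) (nat_lit 6) (nat_lit 128) (nat_lit 5) (nat_lit 113) (nat_lit 133) (nat_lit 144)) (PT.nd (nat_lit 78) (PT.lf (nat_lit 10336) (nat_lit 6) (nat_lit 136) (nat_lit 5) (nat_lit 114) (nat_lit 133) (nat_lit 143)) (PT.lf (nat_lit 11096) (nat_lit 6) (nat_lit 146) (nat_lit 5) (nat_lit 115) (nat_lit 133) (nat_lit 142))))) (PT.nd (nat_lit 234) (PT.nd (nat_lit 78) (PT.lf (nat_lit 12236) (nat_lit 6) (nat_lit 161) (nat_lit 5) (nat_lit 116) (nat_lit 133) (nat_lit 141)) (PT.nd (nat_lit 78) (PT.lf (nat_lit 13300) (nat_lit 6) (nat_lit 175) (nat_lit 5) (nat_lit 117) (nat_lit 133) (nat_lit 140)) (PT.lf (nat_lit 14288) (nat_lit 6) (nat_lit 188) (nat_lit 5) (nat_lit 118) (nat_lit 133) (nat_lit 139)))) (PT.nd (nat_lit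 78) (PT.lf (nat_lit 15200) (nat_lit 6) (nat_lit 200) (nat_lit 5) (nat_lit 119) (nat_lit 133) (nat_lit 138)) (PT.nd (nat_lit 78) (PT.lf (nat_lit 16036) (nat_lit 6) (nat_lit 211) (nat_lit 5) (nat_lit 120) (nat_lit 133) (nat_lit 137)) (PT.lf (nat_lit 16796) (nat_lit 6) (nat_lit 221) (nat_lit 5) (nat_lit 121) (nat_lit 133) (nat_lit 136))))))))
noncomputable def pc15 : PT := (PT.nd (nat_lit 1794) (PT.nd (nat_lit 858) (PT.nd (nat_lit 390) (PT.nd (nat_lit 156) (PT.nd (nat_lit 78) (PT.lf (nat_lit 17480) (nat_lit 6) (nat_lit 230) (nat_lit 5) (nat_lit 122) (nat_lit 133) (nat_lit 135)) (PT.lf (nat_lit 18088) (nat_lit 6) (nat_lit 238) (nat_lit 5) (nat_lit 123) (nat_lit 133) (nat_lit 134))) (PT.nd (nat_lit 78) (PT.lf (nat_lit 18620) (nat_lit 3) (nat_lit 245) (nat_lit 4) (nat_lit 124) (nat_lit 133) (nat_lit 133)) (PT.nd (nat_lit 78) (PT.lf (nat_lit 19000) (nat_lit 6) (nat_lit 250) (nat_lit 4) (nat_lit 125)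 (nat_lit 133) (nat_lit 132)) (PT.lf (nat_lit 19304) (nat_lit 6) (nat_lit 254) (nat_lit 4) (nat_lit 126) (nat_lit 133) (nat_lit 131))))) (PT.nd (nat_lit 234) (PT.nd (nat_lit 78) (PT.lf (nat_lit 19532) (nat_lit 6) (nat_lit 257) (nat_lit 4) (nat_lit 127) (nat_lit 133) (nat_lit 130)) (PT.nd (nat_lit 78) (PT.lf (nat_lit 19456) (nat_lit 6) (nat_lit 256) (nat_lit 4) (nat_lit 128) (nat_lit 133) (nat_lit 129)) (PT.lf (nat_lit 19456) (nat_lit 6) (nat_lit 256) (nat_lit 2) (nat_lit 129) (nat_lit 133) (nat_lit 128)))) (PT.nd (nat_lit 78) (PT.lf (nat_lit 19532) (nat_lit 6) (nat_lit 257) (nat_lit 2) (nat_lit 130) (nat_lit 133) (nat_lit 127)) (PT.nd (nat_lit 78) (PT.lf (nat_lit 19304) (nat_lit 6) (nat_lit 254) (nat_lit 2) (nat_lit 131) (nat_lit 133) (nat_lit 126)) (PT.lf (nat_lit 19000) (nat_lit 6) (nat_lit 250) (nat_lit 2) (nat_lit 132) (nat_lit 133) (nat_lit 125)))))) (PT.nd (nat_lit 468) (PT.nd (nat_lit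 234) (PT.nd (nat_lit 78) (PT.lf (nat_lit 18620) (nat_lit 3) (nat_lit 245) (nat_lit 0) (nat_lit 133) (nat_lit 133) (nat_lit 124)) (PT.nd (nat_lit 78) (PT.lf (nat_lit 18088) (nat_lit 6) (nat_lit 238) (nat_lit 0) (nat_lit 134) (nat_lit 133) (nat_lit 123)) (PT.lf (nat_lit 17480) (nat_lit 6) (nat_lit 230) (nat_lit 0) (nat_lit 135) (nat_lit 133) (nat_lit 122)))) (PT.nd (nat_lit 78) (PT.lf (nat_lit 16796) (nat_lit 6) (nat_lit 221) (nat_lit 0) (nat_lit 136) (nat_lit 133) (nat_lit 121)) (PT.nd (nat_lit 78) (PT.lf (nat_lit 16036) (nat_lit 6) (nat_lit 211) (nat_lit 0) (nat_lit 137) (nat_lit 133) (nat_lit 120)) (PT.lf (nat_lit 15200) (nat_lit 6) (nat_lit 200) (nat_lit 0) (nat_lit 138) (nat_lit 133) (nat_lit 119))))) (PT.nd (nat_lit 234) (PT.nd (nat_lit 78) (PT.lf (nat_lit 14288) (nat_lit 6) (nat_lit 188) (nat_lit 0) (nat_lit 139) (nat_lit 133) (nat_lit 118)) (PT.nd (nat_lit 78) (PT.lf (nat_lit 13300) (nat_lit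 6) (nat_lit 175) (nat_lit 0) (nat_lit 140) (nat_lit 133) (nat_lit 117)) (PT.lf (nat_lit 12236) (nat_lit 6) (nat_lit 161) (nat_lit 0) (nat_lit 141) (nat_lit 133) (nat_lit 116)))) (PT.nd (nat_lit 78) (PT.lf (nat_lit 11096) (nat_lit 6) (nat_lit 146) (nat_lit 0) (nat_lit 142) (nat_lit 133) (nat_lit 115)) (PT.nd (nat_lit 78) (PT.lf (nat_lit 10336) (nat_lit 6) (nat_lit 136) (nat_lit 0) (nat_lit 143) (nat_lit 133) (nat_lit 114)) (PT.lf (nat_lit 9728) (nat_lit 6) (nat_lit 128) (nat_lit 0) (nat_lit 144) (nat_lit 133) (nat_lit 113))))))) (PT.nd (nat_lit 38688) (PT.nd (nat_lit 38220) (PT.nd (nat_lit 37986) (PT.nd (nat_lit 37908) (PT.lf (nat_lit 9120) (nat_lit 6) (nat_lit 120) (nat_lit 0) (nat_lit 145) (nat_lit 133) (nat_lit 112)) (PT.lf (nat_lit 8132) (nat_lit 6) (nat_lit 107) (nat_lit 5) (nat_lit 110) (nat_lit 134) (nat_lit 146))) (PT.nd (nat_lit 78) (PT.lf (nat_lit 8664) (nat_lit 6) (nat_lit 114) (nat_lit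 5) (nat_lit 111) (nat_lit 134) (nat_lit 145)) (PT.nd (nat_lit 78) (PT.lf (nat_lit 9196) (nat_lit 6) (nat_lit 121) (nat_lit 5) (nat_lit 112) (nat_lit 134) (nat_lit 144)) (PT.lf (nat_lit 9804) (nat_lit 6) (nat_lit 129) (nat_lit 5) (nat_lit 113) (nat_lit 134) (nat_lit 143))))) (PT.nd (nat_lit 234) (PT.nd (nat_lit 78) (PT.lf (nat_lit 10412) (nat_lit 6) (nat_lit 137) (nat_lit 5) (nat_lit 114) (nat_lit 134) (nat_lit 142)) (PT.nd (nat_lit 78) (PT.lf (nat_lit 11172) (nat_lit 6) (nat_lit 147) (nat_lit 5) (nat_lit 115) (nat_lit 134) (nat_lit 141)) (PT.lf (nat_lit 12312) (nat_lit 6) (nat_lit 162) (nat_lit 5) (nat_lit 116) (nat_lit 134) (nat_lit 140)))) (PT.nd (nat_lit 78) (PT.lf (nat_lit 13376) (nat_lit 6) (nat_lit 176) (nat_lit 5) (nat_lit 117) (nat_lit 134) (nat_lit 139)) (PT.nd (nat_lit 78) (PT.lf (nat_lit 14364) (nat_lit 6) (nat_lit 189) (nat_lit 5) (nat_lit 118) (nat_lit 134) (nat_lit 138)) (PT.lf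 (nat_lit 15276) (nat_lit 6) (nat_lit 201) (nat_lit 5) (nat_lit 119) (nat_lit 134) (nat_lit 137)))))) (PT.nd (nat_lit 468) (PT.nd (nat_lit 234) (PT.nd (nat_lit 78) (PT.lf (nat_lit 16112) (nat_lit 6) (nat_lit 212) (nat_lit 5) (nat_lit 120) (nat_lit 134) (nat_lit 136)) (PT.nd (nat_lit 78) (PT.lf (nat_lit 16872) (nat_lit 6) (nat_lit 222) (nat_lit 5) (nat_lit 121) (nat_lit 134) (nat_lit 135)) (PT.lf (nat_lit 17556) (nat_lit 3) (nat_lit 231) (nat_lit 4) (nat_lit 122) (nat_lit 134) (nat_lit 134)))) (PT.nd (nat_lit 78) (PT.lf (nat_lit 18088) (nat_lit 6) (nat_lit 238) (nat_lit 4) (nat_lit 123) (nat_lit 134) (nat_lit 133)) (PT.nd (nat_lit 78) (PT.lf (nat_lit 18544) (nat_lit 6) (nat_lit 244) (nat_lit 4) (nat_lit 124) (nat_lit 134) (nat_lit 132)) (PT.lf (nat_lit 18924) (nat_lit 6) (nat_lit 249) (nat_lit 4) (nat_lit 125) (nat_lit 134) (nat_lit 131))))) (PT.nd (nat_lit 234) (PT.nd (nat_lit 78) (PT.lf (nat_lit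 19228) (nat_lit 6) (nat_lit 253) (nat_lit 4) (nat_lit 126) (nat_lit 134) (nat_lit 130)) (PT.nd (nat_lit 78) (PT.lf (nat_lit 19152) (nat_lit 6) (nat_lit 252) (nat_lit 4) (nat_lit 127) (nat_lit 134) (nat_lit 129)) (PT.lf (nat_lit 19076) (nat_lit 3) (nat_lit 251) (nat_lit 2) (nat_lit 128) (nat_lit 134) (nat_lit 128)))) (PT.nd (nat_lit 78) (PT.lf (nat_lit 19152) (nat_lit 6) (nat_lit 252) (nat_lit 2) (nat_lit 129) (nat_lit 134) (nat_lit 127)) (PT.nd (nat_lit 78) (PT.lf (nat_lit 19228) (nat_lit 6) (nat_lit 253) (nat_lit 2) (nat_lit 130) (nat_lit 134) (nat_lit 126)) (PT.lf (nat_lit 18924) (nat_lit 6) (nat_lit 249) (nat_lit 2) (nat_lit 131) (nat_lit 134) (nat_lit 125))))))))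
noncomputable def pc16 : PT := (PT.nd (nat_lit 39468) (PT.nd (nat_lit 858) (PT.nd (nat_lit 390) (PT.nd (nat_lit 156) (PT.nd (nat_lit 78) (PT.lf (nat_lit 18544) (nat_lit 6) (nat_lit 244) (nat_lit 2) (nat_lit 132) (nat_lit 134) (nat_lit 124)) (PT.lf (nat_lit 18088) (nat_lit 6) (nat_lit 238) (nat_lit 2) (nat_lit 133) (nat_lit 134) (nat_lit 123))) (PT.nd (nat_lit 78) (PT.lf (nat_lit 17556) (nat_lit 3) (nat_lit 231) (nat_lit 0) (nat_lit 134) (nat_lit 134) (nat_lit 122)) (PT.nd (nat_lit 78) (PT.lf (nat_lit 16872) (nat_lit 6) (nat_lit 222) (nat_lit 0) (nat_lit 135) (nat_lit 134) (nat_lit 121)) (PT.lf (nat_lit 16112) (nat_lit 6) (nat_lit 212) (nat_lit 0) (nat_lit 136) (nat_lit 134) (nat_lit 120))))) (PT.nd (nat_lit 234) (PT.nd (nat_lit 78) (PT.lf (nat_lit 15276) (nat_lit 6) (nat_lit 201) (nat_lit 0) (nat_lit 137) (nat_lit 134) (nat_lit 119)) (PT.nd (nat_lit 78) (PT.lf (nat_lit 14364) (nat_lit 6) (nat_lit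 189) (nat_lit 0) (nat_lit 138) (nat_lit 134) (nat_lit 118)) (PT.lf (nat_lit 13376) (nat_lit 6) (nat_lit 176) (nat_lit 0) (nat_lit 139) (nat_lit 134) (nat_lit 117)))) (PT.nd (nat_lit 78) (PT.lf (nat_lit 12312) (nat_lit 6) (nat_lit 162) (nat_lit 0) (nat_lit 140) (nat_lit 134) (nat_lit 116)) (PT.nd (nat_lit 78) (PT.lf (nat_lit 11172) (nat_lit 6) (nat_lit 147) (nat_lit 0) (nat_lit 141) (nat_lit 134) (nat_lit 115)) (PT.lf (nat_lit 10412) (nat_lit 6) (nat_lit 137) (nat_lit 0) (nat_lit 142) (nat_lit 134) (nat_lit 114)))))) (PT.nd (nat_lit 38142) (PT.nd (nat_lit 234) (PT.nd (nat_lit 78) (PT.lf (nat_lit 9804) (nat_lit 6) (nat_lit 129) (nat_lit 0) (nat_lit 143) (nat_lit 134) (nat_lit 113)) (PT.nd (nat_lit 78) (PT.lf (nat_lit 9196) (nat_lit 6) (nat_lit 121) (nat_lit 0) (nat_lit 144) (nat_lit 134) (nat_lit 112)) (PT.lf (nat_lit 8664) (nat_lit 6) (nat_lit 114) (nat_lit 0) (nat_lit 145) (nat_lit 134) (nat_lit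 111)))) (PT.nd (nat_lit 37752) (PT.lf (nat_lit 8132) (nat_lit 6) (nat_lit 107) (nat_lit 0) (nat_lit 146) (nat_lit 134) (nat_lit 110)) (PT.nd (nat_lit 78) (PT.lf (nat_lit 7676) (nat_lit 6) (nat_lit 101) (nat_lit 5) (nat_lit 109) (nat_lit 135) (nat_lit 146)) (PT.lf (nat_lit 8208) (nat_lit 6) (nat_lit 108) (nat_lit 5) (nat_lit 110) (nat_lit 135) (nat_lit 145))))) (PT.nd (nat_lit 234) (PT.nd (nat_lit 78) (PT.lf (nat_lit 8740) (nat_lit 6) (nat_lit 115) (nat_lit 5) (nat_lit 111) (nat_lit 135) (nat_lit 144)) (PT.nd (nat_lit 78) (PT.lf (nat_lit 9272) (nat_lit 6) (nat_lit 122) (nat_lit 5) (nat_lit 112) (nat_lit 135) (nat_lit 143)) (PT.lf (nat_lit 9880) (nat_lit 6) (nat_lit 130) (nat_lit 5) (nat_lit 113) (nat_lit 135) (nat_lit 142)))) (PT.nd (nat_lit 78) (PT.lf (nat_lit 10488) (nat_lit 6) (nat_lit 138) (nat_lit 5) (nat_lit 114) (nat_lit 135) (nat_lit 141)) (PT.nd (nat_lit 78) (PT.lf (nat_lit 11248) (nat_lit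 6) (nat_lit 148) (nat_lit 5) (nat_lit 115) (nat_lit 135) (nat_lit 140)) (PT.lf (nat_lit 12388) (nat_lit 6) (nat_lit 163) (nat_lit 5) (nat_lit 116) (nat_lit 135) (nat_lit 139))))))) (PT.nd (nat_lit 858) (PT.nd (nat_lit 390) (PT.nd (nat_lit 156) (PT.nd (nat_lit 78) (PT.lf (nat_lit 13452) (nat_lit 6) (nat_lit 177) (nat_lit 5) (nat_lit 117) (nat_lit 135) (nat_lit 138)) (PT.lf (nat_lit 14440) (nat_lit 6) (nat_lit 190) (nat_lit 5) (nat_lit 118) (nat_lit 135) (nat_lit 137))) (PT.nd (nat_lit 78) (PT.lf (nat_lit 15352) (nat_lit 6) (nat_lit 202) (nat_lit 5) (nat_lit 119) (nat_lit 135) (nat_lit 136)) (PT.nd (nat_lit 78) (PT.lf (nat_lit 16188) (nat_lit 3) (nat_lit 213) (nat_lit 4) (nat_lit 120) (nat_lit 135) (nat_lit 135)) (PT.lf (nat_lit 16872) (nat_lit 6) (nat_lit 222) (nat_lit 4) (nat_lit 121) (nat_lit 135) (nat_lit 134))))) (PT.nd (nat_lit 234) (PT.nd (nat_lit 78) (PT.lf (nat_lit 17480) (nat_lit 6)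 (nat_lit 230) (nat_lit 4) (nat_lit 122) (nat_lit 135) (nat_lit 133)) (PT.nd (nat_lit 78) (PT.lf (nat_lit 18012) (nat_lit 6) (nat_lit 237) (nat_lit 4) (nat_lit 123) (nat_lit 135) (nat_lit 132)) (PT.lf (nat_lit 18468) (nat_lit 6) (nat_lit 243) (nat_lit 4) (nat_lit 124) (nat_lit 135) (nat_lit 131)))) (PT.nd (nat_lit 78) (PT.lf (nat_lit 18848) (nat_lit 6) (nat_lit 248) (nat_lit 4) (nat_lit 125) (nat_lit 135) (nat_lit 130)) (PT.nd (nat_lit 78) (PT.lf (nat_lit 18772) (nat_lit 6) (nat_lit 247) (nat_lit 4) (nat_lit 126) (nat_lit 135) (nat_lit 129)) (PT.lf (nat_lit 18696) (nat_lit 6) (nat_lit 246) (nat_lit 4) (nat_lit 127) (nat_lit 135) (nat_lit 128)))))) (PT.nd (nat_lit 468) (PT.nd (nat_lit 234) (PT.nd (nat_lit 78) (PT.lf (nat_lit 18696) (nat_lit 6) (nat_lit 246) (nat_lit 2) (nat_lit 128) (nat_lit 135) (nat_lit 127)) (PT.nd (nat_lit 78) (PT.lf (nat_lit 18772) (nat_lit 6) (nat_lit 247) (nat_lit 2) (nat_lit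 129) (nat_lit 135) (nat_lit 126)) (PT.lf (nat_lit 18848) (nat_lit 6) (nat_lit 248) (nat_lit 2) (nat_lit 130) (nat_lit 135) (nat_lit 125)))) (PT.nd (nat_lit 78) (PT.lf (nat_lit 18468) (nat_lit 6) (nat_lit 243) (nat_lit 2) (nat_lit 131) (nat_lit 135) (nat_lit 124)) (PT.nd (nat_lit 78) (PT.lf (nat_lit 18012) (nat_lit 6) (nat_lit 237) (nat_lit 2) (nat_lit 132) (nat_lit 135) (nat_lit 123)) (PT.lf (nat_lit 17480) (nat_lit 6) (nat_lit 230) (nat_lit 2) (nat_lit 133) (nat_lit 135) (nat_lit 122))))) (PT.nd (nat_lit 234) (PT.nd (nat_lit 78) (PT.lf (nat_lit 16872) (nat_lit 6) (nat_lit 222) (nat_lit 2) (nat_lit 134) (nat_lit 135) (nat_lit 121)) (PT.nd (nat_lit 78) (PT.lf (nat_lit 16188) (nat_lit 3) (nat_lit 213) (nat_lit 0) (nat_lit 135) (nat_lit 135) (nat_lit 120)) (PT.lf (nat_lit 15352) (nat_lit 6) (nat_lit 202) (nat_lit 0) (nat_lit 136) (nat_lit 135) (nat_lit 119)))) (PT.nd (nat_lit 78) (PT.lf (nat_lit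 14440) (nat_lit 6) (nat_lit 190) (nat_lit 0) (nat_lit 137) (nat_lit 135) (nat_lit 118)) (PT.nd (nat_lit 78) (PT.lf (nat_lit 13452) (nat_lit 6) (nat_lit 177) (nat_lit 0) (nat_lit 138) (nat_lit 135) (nat_lit 117)) (PT.lf (nat_lit 12388) (nat_lit 6) (nat_lit 163) (nat_lit 0) (nat_lit 139) (nat_lit 135) (nat_lit 116))))))))
noncomputable def pc17 : PT := (PT.nd (nat_lit 39390) (PT.nd (nat_lit 38454) (PT.nd (nat_lit 390) (PT.nd (nat_lit 156) (PT.nd (nat_lit 78) (PT.lf (nat_lit 11248) (nat_lit 6) (nat_lit 148) (nat_lit 0) (nat_lit 140) (nat_lit 135) (nat_lit 115)) (PT.lf (nat_lit 10488) (nat_lit 6) (nat_lit 138) (nat_lit 0) (nat_lit 141) (nat_lit 135) (nat_lit 114))) (PT.nd (nat_lit 78) (PT.lf (nat_lit 9880) (nat_lit 6) (nat_lit 130) (nat_lit 0) (nat_lit 142) (nat_lit 135) (nat_lit 113)) (PT.nd (nat_lit 78) (PT.lf (nat_lit 9272) (nat_lit 6) (nat_lit 122) (nat_lit 0) (nat_lit 143) (nat_lit 135) (nat_lit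 112)) (PT.lf (nat_lit 8740) (nat_lit 6) (nat_lit 115) (nat_lit 0) (nat_lit 144) (nat_lit 135) (nat_lit 111))))) (PT.nd (nat_lit 37830) (PT.nd (nat_lit 78) (PT.lf (nat_lit 8208) (nat_lit 6) (nat_lit 108) (nat_lit 0) (nat_lit 145) (nat_lit 135) (nat_lit 110)) (PT.nd (nat_lit 37674) (PT.lf (nat_lit 7676) (nat_lit 6) (nat_lit 101) (nat_lit 0) (nat_lit 146) (nat_lit 135) (nat_lit 109)) (PT.lf (nat_lit 7220) (nat_lit 6) (nat_lit 95) (nat_lit 5) (nat_lit 108) (nat_lit 136) (nat_lit 146)))) (PT.nd (nat_lit 78) (PT.lf (nat_lit 7752) (nat_lit 6) (nat_lit 102) (nat_lit 5) (nat_lit 109) (nat_lit 136) (nat_lit 145)) (PT.nd (nat_lit 78) (PT.lf (nat_lit 8284) (nat_lit 6) (nat_lit 109) (nat_lit 5) (nat_lit 110) (nat_lit 136) (nat_lit 144)) (PT.lf (nat_lit 8816) (nat_lit 6) (nat_lit 116) (nat_lit 5) (nat_lit 111) (nat_lit 136) (nat_lit 143)))))) (PT.nd (nat_lit 468) (PT.nd (nat_lit 234) (PT.nd (nat_lit 78) (PT.lf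 (nat_lit 9348) (nat_lit 6) (nat_lit 123) (nat_lit 5) (nat_lit 112) (nat_lit 136) (nat_lit 142)) (PT.nd (nat_lit 78) (PT.lf (nat_lit 9956) (nat_lit 6) (nat_lit 131) (nat_lit 5) (nat_lit 113) (nat_lit 136) (nat_lit 141)) (PT.lf (nat_lit 10564) (nat_lit 6) (nat_lit 139) (nat_lit 5) (nat_lit 114) (nat_lit 136) (nat_lit 140)))) (PT.nd (nat_lit 78) (PT.lf (nat_lit 11324) (nat_lit 6) (nat_lit 149) (nat_lit 5) (nat_lit 115) (nat_lit 136) (nat_lit 139)) (PT.nd (nat_lit 78) (PT.lf (nat_lit 12464) (nat_lit 6) (nat_lit 164) (nat_lit 5) (nat_lit 116) (nat_lit 136) (nat_lit 138)) (PT.lf (nat_lit 13528) (nat_lit 6) (nat_lit 178) (nat_lit 5) (nat_lit 117) (nat_lit 136) (nat_lit 137))))) (PT.nd (nat_lit 234) (PT.nd (nat_lit 78) (PT.lf (nat_lit 14516) (nat_lit 3) (nat_lit 191) (nat_lit 4) (nat_lit 118) (nat_lit 136) (nat_lit 136)) (PT.nd (nat_lit 78) (PT.lf (nat_lit 15352) (nat_lit 6) (nat_lit 202) (nat_lit 4)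 (nat_lit 119) (nat_lit 136) (nat_lit 135)) (PT.lf (nat_lit 16112) (nat_lit 6) (nat_lit 212) (nat_lit 4) (nat_lit 120) (nat_lit 136) (nat_lit 134)))) (PT.nd (nat_lit 78) (PT.lf (nat_lit 16796) (nat_lit 6) (nat_lit 221) (nat_lit 4) (nat_lit 121) (nat_lit 136) (nat_lit 133)) (PT.nd (nat_lit 78) (PT.lf (nat_lit 17404) (nat_lit 6) (nat_lit 229) (nat_lit 4) (nat_lit 122) (nat_lit 136) (nat_lit 132)) (PT.lf (nat_lit 17936) (nat_lit 6) (nat_lit 236) (nat_lit 4) (nat_lit 123) (nat_lit 136) (nat_lit 131))))))) (PT.nd (nat_lit 858) (PT.nd (nat_lit 390) (PT.nd (nat_lit 156) (PT.nd (nat_lit 78) (PT.lf (nat_lit 18392) (nat_lit 6) (nat_lit 242) (nat_lit 4) (nat_lit 124) (nat_lit 136) (nat_lit 130)) (PT.lf (nat_lit 18316) (nat_lit 6) (nat_lit 241) (nat_lit 4) (nat_lit 125) (nat_lit 136) (nat_lit 129))) (PT.nd (nat_lit 78) (PT.lf (nat_lit 18240) (nat_lit 6) (nat_lit 240) (nat_lit 4) (nat_lit 126) (nat_lit 136)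 (nat_lit 128)) (PT.nd (nat_lit 78) (PT.lf (nat_lit 18164) (nat_lit 3) (nat_lit 239) (nat_lit 2) (nat_lit 127) (nat_lit 136) (nat_lit 127)) (PT.lf (nat_lit 18240) (nat_lit 6) (nat_lit 240) (nat_lit 2) (nat_lit 128) (nat_lit 136) (nat_lit 126))))) (PT.nd (nat_lit 234) (PT.nd (nat_lit 78) (PT.lf (nat_lit 18316) (nat_lit 6) (nat_lit 241) (nat_lit 2) (nat_lit 129) (nat_lit 136) (nat_lit 125)) (PT.nd (nat_lit 78) (PT.lf (nat_lit 18392) (nat_lit 6) (nat_lit 242) (nat_lit 2) (nat_lit 130) (nat_lit 136) (nat_lit 124)) (PT.lf (nat_lit 17936) (nat_lit 6) (nat_lit 236) (nat_lit 2) (nat_lit 131) (nat_lit 136) (nat_lit 123)))) (PT.nd (nat_lit 78) (PT.lf (nat_lit 17404) (nat_lit 6) (nat_lit 229) (nat_lit 2) (nat_lit 132) (nat_lit 136) (nat_lit 122)) (PT.nd (nat_lit 78) (PT.lf (nat_lit 16796) (nat_lit 6) (nat_lit 221) (nat_lit 2) (nat_lit 133) (nat_lit 136) (nat_lit 121)) (PT.lf (nat_lit 16112) (nat_lit 6)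 (nat_lit 212) (nat_lit 2) (nat_lit 134) (nat_lit 136) (nat_lit 120)))))) (PT.nd (nat_lit 468) (PT.nd (nat_lit 234) (PT.nd (nat_lit 78) (PT.lf (nat_lit 15352) (nat_lit 6) (nat_lit 202) (nat_lit 2) (nat_lit 135) (nat_lit 136) (nat_lit 119)) (PT.nd (nat_lit 78) (PT.lf (nat_lit 14516) (nat_lit 3) (nat_lit 191) (nat_lit 0) (nat_lit 136) (nat_lit 136) (nat_lit 118)) (PT.lf (nat_lit 13528) (nat_lit 6) (nat_lit 178) (nat_lit 0) (nat_lit 137) (nat_lit 136) (nat_lit 117)))) (PT.nd (nat_lit 78) (PT.lf (nat_lit 12464) (nat_lit 6) (nat_lit 164) (nat_lit 0) (nat_lit 138) (nat_lit 136) (nat_lit 116)) (PT.nd (nat_lit 78) (PT.lf (nat_lit 11324) (nat_lit 6) (nat_lit 149) (nat_lit 0) (nat_lit 139) (nat_lit 136) (nat_lit 115)) (PT.lf (nat_lit 10564) (nat_lit 6) (nat_lit 139) (nat_lit 0) (nat_lit 140) (nat_lit 136) (nat_lit 114))))) (PT.nd (nat_lit 234) (PT.nd (nat_lit 78) (PT.lf (nat_lit 9956) (nat_lit 6) (nat_lit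 131) (nat_lit 0) (nat_lit 141) (nat_lit 136) (nat_lit 113)) (PT.nd (nat_lit 78) (PT.lf (nat_lit 9348) (nat_lit 6) (nat_lit 123) (nat_lit 0) (nat_lit 142) (nat_lit 136) (nat_lit 112)) (PT.lf (nat_lit 8816) (nat_lit 6) (nat_lit 116) (nat_lit 0) (nat_lit 143) (nat_lit 136) (nat_lit 111)))) (PT.nd (nat_lit 78) (PT.lf (nat_lit 8284) (nat_lit 6) (nat_lit 109) (nat_lit 0) (nat_lit 144) (nat_lit 136) (nat_lit 110)) (PT.nd (nat_lit 78) (PT.lf (nat_lit 7752) (nat_lit 6) (nat_lit 102) (nat_lit 0) (nat_lit 145) (nat_lit 136) (nat_lit 109)) (PT.lf (nat_lit 7220) (nat_lit 6) (nat_lit 95) (nat_lit 0) (nat_lit 146) (nat_lit 136) (nat_lit 108))))))))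
noncomputable def pc18 : PT := (PT.nd (nat_lit 1794) (PT.nd (nat_lit 858) (PT.nd (nat_lit 390) (PT.nd (nat_lit 156) (PT.nd (nat_lit 78) (PT.lf (nat_lit 6384) (nat_lit 6) (nat_lit 84) (nat_lit 5) (nat_lit 106) (nat_lit 137) (nat_lit 147)) (PT.lf (nat_lit 6840) (nat_lit 6) (nat_lit 90) (nat_lit 5) (nat_lit 107) (nat_lit 137) (nat_lit 146))) (PT.nd (nat_lit 78) (PT.lf (nat_lit 7296) (nat_lit 6) (nat_lit 96) (nat_lit 5) (nat_lit 108) (nat_lit 137) (nat_lit 145)) (PT.nd (nat_lit 78) (PT.lf (nat_lit 7828) (nat_lit 6) (nat_lit 103) (nat_lit 5) (nat_lit 109) (nat_lit 137) (nat_lit 144)) (PT.lf (nat_lit 8360) (nat_lit 6) (nat_lit 110) (nat_lit 5) (nat_lit 110) (nat_lit 137) (nat_lit 143))))) (PT.nd (nat_lit 234) (PT.nd (nat_lit 78) (PT.lf (nat_lit 8892) (nat_lit 6) (nat_lit 117) (nat_lit 5) (nat_lit 111) (nat_lit 137) (nat_lit 142)) (PT.nd (nat_lit 78) (PT.lf (nat_lit 9424) (nat_lit 6) (nat_lit 124)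 (nat_lit 5) (nat_lit 112) (nat_lit 137) (nat_lit 141)) (PT.lf (nat_lit 10032) (nat_lit 6) (nat_lit 132) (nat_lit 5) (nat_lit 113) (nat_lit 137) (nat_lit 140)))) (PT.nd (nat_lit 78) (PT.lf (nat_lit 10640) (nat_lit 6) (nat_lit 140) (nat_lit 5) (nat_lit 114) (nat_lit 137) (nat_lit 139)) (PT.nd (nat_lit 78) (PT.lf (nat_lit 11400) (nat_lit 6) (nat_lit 150) (nat_lit 5) (nat_lit 115) (nat_lit 137) (nat_lit 138)) (PT.lf (nat_lit 12540) (nat_lit 3) (nat_lit 165) (nat_lit 4) (nat_lit 116) (nat_lit 137) (nat_lit 137)))))) (PT.nd (nat_lit 468) (PT.nd (nat_lit 234) (PT.nd (nat_lit 78) (PT.lf (nat_lit 13528) (nat_lit 6) (nat_lit 178) (nat_lit 4) (nat_lit 117) (nat_lit 137) (nat_lit 136)) (PT.nd (nat_lit 78) (PT.lf (nat_lit 14440) (nat_lit 6) (nat_lit 190) (nat_lit 4) (nat_lit 118) (nat_lit 137) (nat_lit 135)) (PT.lf (nat_lit 15276) (nat_lit 6) (nat_lit 201) (nat_lit 4) (nat_lit 119) (nat_lit 137) (nat_lit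 134)))) (PT.nd (nat_lit 78) (PT.lf (nat_lit 16036) (nat_lit 6) (nat_lit 211) (nat_lit 4) (nat_lit 120) (nat_lit 137) (nat_lit 133)) (PT.nd (nat_lit 78) (PT.lf (nat_lit 16720) (nat_lit 6) (nat_lit 220) (nat_lit 4) (nat_lit 121) (nat_lit 137) (nat_lit 132)) (PT.lf (nat_lit 17328) (nat_lit 6) (nat_lit 228) (nat_lit 4) (nat_lit 122) (nat_lit 137) (nat_lit 131))))) (PT.nd (nat_lit 234) (PT.nd (nat_lit 78) (PT.lf (nat_lit 17860) (nat_lit 6) (nat_lit 235) (nat_lit 4) (nat_lit 123) (nat_lit 137) (nat_lit 130)) (PT.nd (nat_lit 78) (PT.lf (nat_lit 17784) (nat_lit 6) (nat_lit 234) (nat_lit 4) (nat_lit 124) (nat_lit 137) (nat_lit 129)) (PT.lf (nat_lit 17708) (nat_lit 6) (nat_lit 233) (nat_lit 4) (nat_lit 125) (nat_lit 137) (nat_lit 128)))) (PT.nd (nat_lit 78) (PT.lf (nat_lit 17632) (nat_lit 6) (nat_lit 232) (nat_lit 4) (nat_lit 126) (nat_lit 137) (nat_lit 127)) (PT.nd (nat_lit 78) (PT.lf (nat_lit 17632)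 (nat_lit 6) (nat_lit 232) (nat_lit 2) (nat_lit 127) (nat_lit 137) (nat_lit 126)) (PT.lf (nat_lit 17708) (nat_lit 6) (nat_lit 233) (nat_lit 2) (nat_lit 128) (nat_lit 137) (nat_lit 125))))))) (PT.nd (nat_lit 858) (PT.nd (nat_lit 390) (PT.nd (nat_lit 156) (PT.nd (nat_lit 78) (PT.lf (nat_lit 17784) (nat_lit 6) (nat_lit 234) (nat_lit 2) (nat_lit 129) (nat_lit 137) (nat_lit 124)) (PT.lf (nat_lit 17860) (nat_lit 6) (nat_lit 235) (nat_lit 2) (nat_lit 130) (nat_lit 137) (nat_lit 123))) (PT.nd (nat_lit 78) (PT.lf (nat_lit 17328) (nat_lit 6) (nat_lit 228) (nat_lit 2) (nat_lit 131) (nat_lit 137) (nat_lit 122)) (PT.nd (nat_lit 78) (PT.lf (nat_lit 16720) (nat_lit 6) (nat_lit 220) (nat_lit 2) (nat_lit 132) (nat_lit 137) (nat_lit 121)) (PT.lf (nat_lit 16036) (nat_lit 6) (nat_lit 211) (nat_lit 2) (nat_lit 133) (nat_lit 137) (nat_lit 120))))) (PT.nd (nat_lit 234) (PT.nd (nat_lit 78) (PT.lf (nat_lit 15276) (nat_lit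 6) (nat_lit 201) (nat_lit 2) (nat_lit 134) (nat_lit 137) (nat_lit 119)) (PT.nd (nat_lit 78) (PT.lf (nat_lit 14440) (nat_lit 6) (nat_lit 190) (nat_lit 2) (nat_lit 135) (nat_lit 137) (nat_lit 118)) (PT.lf (nat_lit 13528) (nat_lit 6) (nat_lit 178) (nat_lit 2) (nat_lit 136) (nat_lit 137) (nat_lit 117)))) (PT.nd (nat_lit 78) (PT.lf (nat_lit 12540) (nat_lit 3) (nat_lit 165) (nat_lit 0) (nat_lit 137) (nat_lit 137) (nat_lit 116)) (PT.nd (nat_lit 78) (PT.lf (nat_lit 11400) (nat_lit 6) (nat_lit 150) (nat_lit 0) (nat_lit 138) (nat_lit 137) (nat_lit 115)) (PT.lf (nat_lit 10640) (nat_lit 6) (nat_lit 140) (nat_lit 0) (nat_lit 139) (nat_lit 137) (nat_lit 114)))))) (PT.nd (nat_lit 468) (PT.nd (nat_lit 234) (PT.nd (nat_lit 78) (PT.lf (nat_lit 10032) (nat_lit 6) (nat_lit 132) (nat_lit 0) (nat_lit 140) (nat_lit 137) (nat_lit 113)) (PT.nd (nat_lit 78) (PT.lf (nat_lit 9424) (nat_lit 6) (nat_lit 124) (nat_lit 0)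 (nat_lit 141) (nat_lit 137) (nat_lit 112)) (PT.lf (nat_lit 8892) (nat_lit 6) (nat_lit 117) (nat_lit 0) (nat_lit 142) (nat_lit 137) (nat_lit 111)))) (PT.nd (nat_lit 78) (PT.lf (nat_lit 8360) (nat_lit 6) (nat_lit 110) (nat_lit 0) (nat_lit 143) (nat_lit 137) (nat_lit 110)) (PT.nd (nat_lit 78) (PT.lf (nat_lit 7828) (nat_lit 6) (nat_lit 103) (nat_lit 0) (nat_lit 144) (nat_lit 137) (nat_lit 109)) (PT.lf (nat_lit 7296) (nat_lit 6) (nat_lit 96) (nat_lit 0) (nat_lit 145) (nat_lit 137) (nat_lit 108))))) (PT.nd (nat_lit 37518) (PT.nd (nat_lit 78) (PT.lf (nat_lit 6840) (nat_lit 6) (nat_lit 90) (nat_lit 0) (nat_lit 146) (nat_lit 137) (nat_lit 107)) (PT.nd (nat_lit 37362) (PT.lf (nat_lit 6384) (nat_lit 6) (nat_lit 84) (nat_lit 0) (nat_lit 147) (nat_lit 137) (nat_lit 106)) (PT.lf (nat_lit 6004) (nat_lit 6) (nat_lit 79) (nat_lit 5) (nat_lit 105) (nat_lit 138) (nat_lit 147)))) (PT.nd (nat_lit 78) (PT.lf (nat_lit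 6460) (nat_lit 6) (nat_lit 85) (nat_lit 5) (nat_lit 106) (nat_lit 138) (nat_lit 146)) (PT.nd (nat_lit 78) (PT.lf (nat_lit 6916) (nat_lit 6) (nat_lit 91) (nat_lit 5) (nat_lit 107) (nat_lit 138) (nat_lit 145)) (PT.lf (nat_lit 7372) (nat_lit 6) (nat_lit 97) (nat_lit 5) (nat_lit 108) (nat_lit 138) (nat_lit 144))))))))
noncomputable def pc19 : PT := (PT.nd (nat_lit 1794) (PT.nd (nat_lit 858) (PT.nd (nat_lit 390) (PT.nd (nat_lit 156) (PT.nd (nat_lit 78) (PT.lf (nat_lit 7904) (nat_lit 6) (nat_lit 104) (nat_lit 5) (nat_lit 109) (nat_lit 138) (nat_lit 143)) (PT.lf (nat_lit 8436) (nat_lit 6) (nat_lit 111) (nat_lit 5) (nat_lit 110) (nat_lit 138) (nat_lit 142))) (PT.nd (nat_lit 78) (PT.lf (nat_lit 8968) (nat_lit 6) (nat_lit 118) (nat_lit 5) (nat_lit 111) (nat_lit 138) (nat_lit 141)) (PT.nd (nat_lit 78) (PT.lf (nat_lit 9500) (nat_lit 6) (nat_lit 125) (nat_lit 5) (nat_lit 112) (nat_lit 138) (nat_lit 140))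 (PT.lf (nat_lit 10108) (nat_lit 6) (nat_lit 133) (nat_lit 5) (nat_lit 113) (nat_lit 138) (nat_lit 139))))) (PT.nd (nat_lit 234) (PT.nd (nat_lit 78) (PT.lf (nat_lit 10716) (nat_lit 3) (nat_lit 141) (nat_lit 4) (nat_lit 114) (nat_lit 138) (nat_lit 138)) (PT.nd (nat_lit 78) (PT.lf (nat_lit 11400) (nat_lit 6) (nat_lit 150) (nat_lit 4) (nat_lit 115) (nat_lit 138) (nat_lit 137)) (PT.lf (nat_lit 12464) (nat_lit 6) (nat_lit 164) (nat_lit 4) (nat_lit 116) (nat_lit 138) (nat_lit 136)))) (PT.nd (nat_lit 78) (PT.lf (nat_lit 13452) (nat_lit 6) (nat_lit 177) (nat_lit 4) (nat_lit 117) (nat_lit 138) (nat_lit 135)) (PT.nd (nat_lit 78) (PT.lf (nat_lit 14364) (nat_lit 6) (nat_lit 189) (nat_lit 4) (nat_lit 118) (nat_lit 138) (nat_lit 134)) (PT.lf (nat_lit 15200) (nat_lit 6) (nat_lit 200) (nat_lit 4) (nat_lit 119) (nat_lit 138) (nat_lit 133)))))) (PT.nd (nat_lit 468) (PT.nd (nat_lit 234) (PT.nd (nat_lit 78) (PT.lf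 (nat_lit 15960) (nat_lit 6) (nat_lit 210) (nat_lit 4) (nat_lit 120) (nat_lit 138) (nat_lit 132)) (PT.nd (nat_lit 78) (PT.lf (nat_lit 16644) (nat_lit 6) (nat_lit 219) (nat_lit 4) (nat_lit 121) (nat_lit 138) (nat_lit 131)) (PT.lf (nat_lit 17252) (nat_lit 6) (nat_lit 227) (nat_lit 4) (nat_lit 122) (nat_lit 138) (nat_lit 130)))) (PT.nd (nat_lit 78) (PT.lf (nat_lit 17176) (nat_lit 6) (nat_lit 226) (nat_lit 4) (nat_lit 123) (nat_lit 138) (nat_lit 129)) (PT.nd (nat_lit 78) (PT.lf (nat_lit 17100) (nat_lit 6) (nat_lit 225) (nat_lit 4) (nat_lit 124) (nat_lit 138) (nat_lit 128)) (PT.lf (nat_lit 17024) (nat_lit 6) (nat_lit 224) (nat_lit 4) (nat_lit 125) (nat_lit 138) (nat_lit 127))))) (PT.nd (nat_lit 234) (PT.nd (nat_lit 78) (PT.lf (nat_lit 16948) (nat_lit 3) (nat_lit 223) (nat_lit 2) (nat_lit 126) (nat_lit 138) (nat_lit 126)) (PT.nd (nat_lit 78) (PT.lf (nat_lit 17024) (nat_lit 6) (nat_lit 224) (nat_lit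 2) (nat_lit 127) (nat_lit 138) (nat_lit 125)) (PT.lf (nat_lit 17100) (nat_lit 6) (nat_lit 225) (nat_lit 2) (nat_lit 128) (nat_lit 138) (nat_lit 124)))) (PT.nd (nat_lit 78) (PT.lf (nat_lit 17176) (nat_lit 6) (nat_lit 226) (nat_lit 2) (nat_lit 129) (nat_lit 138) (nat_lit 123)) (PT.nd (nat_lit 78) (PT.lf (nat_lit 17252) (nat_lit 6) (nat_lit 227) (nat_lit 2) (nat_lit 130) (nat_lit 138) (nat_lit 122)) (PT.lf (nat_lit 16644) (nat_lit 6) (nat_lit 219) (nat_lit 2) (nat_lit 131) (nat_lit 138) (nat_lit 121))))))) (PT.nd (nat_lit 858) (PT.nd (nat_lit 390) (PT.nd (nat_lit 156) (PT.nd (nat_lit 78) (PT.lf (nat_lit 15960) (nat_lit 6) (nat_lit 210) (nat_lit 2) (nat_lit 132) (nat_lit 138) (nat_lit 120)) (PT.lf (nat_lit 15200) (nat_lit 6) (nat_lit 200) (nat_lit 2) (nat_lit 133) (nat_lit 138) (nat_lit 119))) (PT.nd (nat_lit 78) (PT.lf (nat_lit 14364) (nat_lit 6) (nat_lit 189) (nat_lit 2) (nat_lit 134) (nat_lit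 138) (nat_lit 118)) (PT.nd (nat_lit 78) (PT.lf (nat_lit 13452) (nat_lit 6) (nat_lit 177) (nat_lit 2) (nat_lit 135) (nat_lit 138) (nat_lit 117)) (PT.lf (nat_lit 12464) (nat_lit 6) (nat_lit 164) (nat_lit 2) (nat_lit 136) (nat_lit 138) (nat_lit 116))))) (PT.nd (nat_lit 234) (PT.nd (nat_lit 78) (PT.lf (nat_lit 11400) (nat_lit 6) (nat_lit 150) (nat_lit 2) (nat_lit 137) (nat_lit 138) (nat_lit 115)) (PT.nd (nat_lit 78) (PT.lf (nat_lit 10716) (nat_lit 3) (nat_lit 141) (nat_lit 0) (nat_lit 138) (nat_lit 138) (nat_lit 114)) (PT.lf (nat_lit 10108) (nat_lit 6) (nat_lit 133) (nat_lit 0) (nat_lit 139) (nat_lit 138) (nat_lit 113)))) (PT.nd (nat_lit 78) (PT.lf (nat_lit 9500) (nat_lit 6) (nat_lit 125) (nat_lit 0) (nat_lit 140) (nat_lit 138) (nat_lit 112)) (PT.nd (nat_lit 78) (PT.lf (nat_lit 8968) (nat_lit 6) (nat_lit 118) (nat_lit 0) (nat_lit 141) (nat_lit 138) (nat_lit 111)) (PT.lf (nat_lit 8436) (nat_lit 6)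 (nat_lit 111) (nat_lit 0) (nat_lit 142) (nat_lit 138) (nat_lit 110)))))) (PT.nd (nat_lit 37674) (PT.nd (nat_lit 234) (PT.nd (nat_lit 78) (PT.lf (nat_lit 7904) (nat_lit 6) (nat_lit 104) (nat_lit 0) (nat_lit 143) (nat_lit 138) (nat_lit 109)) (PT.nd (nat_lit 78) (PT.lf (nat_lit 7372) (nat_lit 6) (nat_lit 97) (nat_lit 0) (nat_lit 144) (nat_lit 138) (nat_lit 108)) (PT.lf (nat_lit 6916) (nat_lit 6) (nat_lit 91) (nat_lit 0) (nat_lit 145) (nat_lit 138) (nat_lit 107)))) (PT.nd (nat_lit 78) (PT.lf (nat_lit 6460) (nat_lit 6) (nat_lit 85) (nat_lit 0) (nat_lit 146) (nat_lit 138) (nat_lit 106)) (PT.nd (nat_lit 37284) (PT.lf (nat_lit 6004) (nat_lit 6) (nat_lit 79) (nat_lit 0) (nat_lit 147) (nat_lit 138) (nat_lit 105)) (PT.lf (nat_lit 5624) (nat_lit 6) (nat_lit 74) (nat_lit 5) (nat_lit 104) (nat_lit 139) (nat_lit 147))))) (PT.nd (nat_lit 234) (PT.nd (nat_lit 78) (PT.lf (nat_lit 6080) (nat_lit 6) (nat_lit 80)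 (nat_lit 5) (nat_lit 105) (nat_lit 139) (nat_lit 146)) (PT.nd (nat_lit 78) (PT.lf (nat_lit 6536) (nat_lit 6) (nat_lit 86) (nat_lit 5) (nat_lit 106) (nat_lit 139) (nat_lit 145)) (PT.lf (nat_lit 6992) (nat_lit 6) (nat_lit 92) (nat_lit 5) (nat_lit 107) (nat_lit 139) (nat_lit 144)))) (PT.nd (nat_lit 78) (PT.lf (nat_lit 7448) (nat_lit 6) (nat_lit 98) (nat_lit 5) (nat_lit 108) (nat_lit 139) (nat_lit 143)) (PT.nd (nat_lit 78) (PT.lf (nat_lit 7980) (nat_lit 6) (nat_lit 105) (nat_lit 5) (nat_lit 109) (nat_lit 139) (nat_lit 142)) (PT.lf (nat_lit 8512) (nat_lit 6) (nat_lit 112) (nat_lit 5) (nat_lit 110) (nat_lit 139) (nat_lit 141))))))))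
noncomputable def pc20 : PT := (PT.nd (nat_lit 1794) (PT.nd (nat_lit 858) (PT.nd (nat_lit 390) (PT.nd (nat_lit 156) (PT.nd (nat_lit 78) (PT.lf (nat_lit 9044) (nat_lit 6) (nat_lit 119) (nat_lit 5) (nat_lit 111) (nat_lit 139) (nat_lit 140)) (PT.lf (nat_lit 9576) (nat_lit 3) (nat_lit 126) (nat_lit 4) (nat_lit 112) (nat_lit 139) (nat_lit 139))) (PT.nd (nat_lit 78) (PT.lf (nat_lit 10108) (nat_lit 6) (nat_lit 133) (nat_lit 4) (nat_lit 113) (nat_lit 139) (nat_lit 138)) (PT.nd (nat_lit 78) (PT.lf (nat_lit 10640) (nat_lit 6) (nat_lit 140) (nat_lit 4) (nat_lit 114) (nat_lit 139) (nat_lit 137)) (PT.lf (nat_lit 11324) (nat_lit 6) (nat_lit 149) (nat_lit 4) (nat_lit 115) (nat_lit 139) (nat_lit 136))))) (PT.nd (nat_lit 234) (PT.nd (nat_lit 78) (PT.lf (nat_lit 12388) (nat_lit 6) (nat_lit 163) (nat_lit 4) (nat_lit 116) (nat_lit 139) (nat_lit 135)) (PT.nd (nat_lit 78) (PT.lf (nat_lit 13376) (nat_lit 6) (nat_lit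 176) (nat_lit 4) (nat_lit 117) (nat_lit 139) (nat_lit 134)) (PT.lf (nat_lit 14288) (nat_lit 6) (nat_lit 188) (nat_lit 4) (nat_lit 118) (nat_lit 139) (nat_lit 133)))) (PT.nd (nat_lit 78) (PT.lf (nat_lit 15124) (nat_lit 6) (nat_lit 199) (nat_lit 4) (nat_lit 119) (nat_lit 139) (nat_lit 132)) (PT.nd (nat_lit 78) (PT.lf (nat_lit 15884) (nat_lit 6) (nat_lit 209) (nat_lit 4) (nat_lit 120) (nat_lit 139) (nat_lit 131)) (PT.lf (nat_lit 16568) (nat_lit 6) (nat_lit 218) (nat_lit 4) (nat_lit 121) (nat_lit 139) (nat_lit 130)))))) (PT.nd (nat_lit 468) (PT.nd (nat_lit 234) (PT.nd (nat_lit 78) (PT.lf (nat_lit 16492) (nat_lit 6) (nat_lit 217) (nat_lit 4) (nat_lit 122) (nat_lit 139) (nat_lit 129)) (PT.nd (nat_lit 78) (PT.lf (nat_lit 16416) (nat_lit 6) (nat_lit 216) (nat_lit 4) (nat_lit 123) (nat_lit 139) (nat_lit 128)) (PT.lf (nat_lit 16340) (nat_lit 6) (nat_lit 215) (nat_lit 4) (nat_lit 124) (nat_lit 139) (nat_lit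 127)))) (PT.nd (nat_lit 78) (PT.lf (nat_lit 16264) (nat_lit 6) (nat_lit 214) (nat_lit 4) (nat_lit 125) (nat_lit 139) (nat_lit 126)) (PT.nd (nat_lit 78) (PT.lf (nat_lit 16264) (nat_lit 6) (nat_lit 214) (nat_lit 2) (nat_lit 126) (nat_lit 139) (nat_lit 125)) (PT.lf (nat_lit 16340) (nat_lit 6) (nat_lit 215) (nat_lit 2) (nat_lit 127) (nat_lit 139) (nat_lit 124))))) (PT.nd (nat_lit 234) (PT.nd (nat_lit 78) (PT.lf (nat_lit 16416) (nat_lit 6) (nat_lit 216) (nat_lit 2) (nat_lit 128) (nat_lit 139) (nat_lit 123)) (PT.nd (nat_lit 78) (PT.lf (nat_lit 16492) (nat_lit 6) (nat_lit 217) (nat_lit 2) (nat_lit 129) (nat_lit 139) (nat_lit 122)) (PT.lf (nat_lit 16568) (nat_lit 6) (nat_lit 218) (nat_lit 2) (nat_lit 130) (nat_lit 139) (nat_lit 121)))) (PT.nd (nat_lit 78) (PT.lf (nat_lit 15884) (nat_lit 6) (nat_lit 209) (nat_lit 2) (nat_lit 131) (nat_lit 139) (nat_lit 120)) (PT.nd (nat_lit 78) (PT.lf (nat_lit 15124)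 (nat_lit 6) (nat_lit 199) (nat_lit 2) (nat_lit 132) (nat_lit 139) (nat_lit 119)) (PT.lf (nat_lit 14288) (nat_lit 6) (nat_lit 188) (nat_lit 2) (nat_lit 133) (nat_lit 139) (nat_lit 118))))))) (PT.nd (nat_lit 858) (PT.nd (nat_lit 390) (PT.nd (nat_lit 156) (PT.nd (nat_lit 78) (PT.lf (nat_lit 13376) (nat_lit 6) (nat_lit 176) (nat_lit 2) (nat_lit 134) (nat_lit 139) (nat_lit 117)) (PT.lf (nat_lit 12388) (nat_lit 6) (nat_lit 163) (nat_lit 2) (nat_lit 135) (nat_lit 139) (nat_lit 116))) (PT.nd (nat_lit 78) (PT.lf (nat_lit 11324) (nat_lit 6) (nat_lit 149) (nat_lit 2) (nat_lit 136) (nat_lit 139) (nat_lit 115)) (PT.nd (nat_lit 78) (PT.lf (nat_lit 10640) (nat_lit 6) (nat_lit 140) (nat_lit 2) (nat_lit 137) (nat_lit 139) (nat_lit 114)) (PT.lf (nat_lit 10108) (nat_lit 6) (nat_lit 133) (nat_lit 2) (nat_lit 138) (nat_lit 139) (nat_lit 113))))) (PT.nd (nat_lit 234) (PT.nd (nat_lit 78) (PT.lf (nat_lit 9576) (nat_lit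 3) (nat_lit 126) (nat_lit 0) (nat_lit 139) (nat_lit 139) (nat_lit 112)) (PT.nd (nat_lit 78) (PT.lf (nat_lit 9044) (nat_lit 6) (nat_lit 119) (nat_lit 0) (nat_lit 140) (nat_lit 139) (nat_lit 111)) (PT.lf (nat_lit 8512) (nat_lit 6) (nat_lit 112) (nat_lit 0) (nat_lit 141) (nat_lit 139) (nat_lit 110)))) (PT.nd (nat_lit 78) (PT.lf (nat_lit 7980) (nat_lit 6) (nat_lit 105) (nat_lit 0) (nat_lit 142) (nat_lit 139) (nat_lit 109)) (PT.nd (nat_lit 78) (PT.lf (nat_lit 7448) (nat_lit 6) (nat_lit 98) (nat_lit 0) (nat_lit 143) (nat_lit 139) (nat_lit 108)) (PT.lf (nat_lit 6992) (nat_lit 6) (nat_lit 92) (nat_lit 0) (nat_lit 144) (nat_lit 139) (nat_lit 107)))))) (PT.nd (nat_lit 37518) (PT.nd (nat_lit 37284) (PT.nd (nat_lit 78) (PT.lf (nat_lit 6536) (nat_lit 6) (nat_lit 86) (nat_lit 0) (nat_lit 145) (nat_lit 139) (nat_lit 106)) (PT.nd (nat_lit 78) (PT.lf (nat_lit 6080) (nat_lit 6) (nat_lit 80) (nat_lit 0) (nat_lit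 146) (nat_lit 139) (nat_lit 105)) (PT.lf (nat_lit 5624) (nat_lit 6) (nat_lit 74) (nat_lit 0) (nat_lit 147) (nat_lit 139) (nat_lit 104)))) (PT.nd (nat_lit 78) (PT.lf (nat_lit 4940) (nat_lit 6) (nat_lit 65) (nat_lit 5) (nat_lit 102) (nat_lit 140) (nat_lit 148)) (PT.nd (nat_lit 78) (PT.lf (nat_lit 5320) (nat_lit 6) (nat_lit 70) (nat_lit 5) (nat_lit 103) (nat_lit 140) (nat_lit 147)) (PT.lf (nat_lit 5700) (nat_lit 6) (nat_lit 75) (nat_lit 5) (nat_lit 104) (nat_lit 140) (nat_lit 146))))) (PT.nd (nat_lit 234) (PT.nd (nat_lit 78) (PT.lf (nat_lit 6156) (nat_lit 6) (nat_lit 81) (nat_lit 5) (nat_lit 105) (nat_lit 140) (nat_lit 145)) (PT.nd (nat_lit 78) (PT.lf (nat_lit 6612) (nat_lit 6) (nat_lit 87) (nat_lit 5) (nat_lit 106) (nat_lit 140) (nat_lit 144)) (PT.lf (nat_lit 7068) (nat_lit 6) (nat_lit 93) (nat_lit 5) (nat_lit 107) (nat_lit 140) (nat_lit 143)))) (PT.nd (nat_lit 78) (PT.lf (nat_lit 7524) (nat_lit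 6) (nat_lit 99) (nat_lit 5) (nat_lit 108) (nat_lit 140) (nat_lit 142)) (PT.nd (nat_lit 78) (PT.lf (nat_lit 8056) (nat_lit 6) (nat_lit 106) (nat_lit 5) (nat_lit 109) (nat_lit 140) (nat_lit 141)) (PT.lf (nat_lit 8588) (nat_lit 3) (nat_lit 113) (nat_lit 4) (nat_lit 110) (nat_lit 140) (nat_lit 140))))))))
noncomputable def pc21 : PT := (PT.nd (nat_lit 1794) (PT.nd (nat_lit 858) (PT.nd (nat_lit 390) (PT.nd (nat_lit 156) (PT.nd (nat_lit 78) (PT.lf (nat_lit 9044) (nat_lit 6) (nat_lit 119) (nat_lit 4) (nat_lit 111) (nat_lit 140) (nat_lit 139)) (PT.lf (nat_lit 9500) (nat_lit 6) (nat_lit 125) (nat_lit 4) (nat_lit 112) (nat_lit 140) (nat_lit 138))) (PT.nd (nat_lit 78) (PT.lf (nat_lit 10032) (nat_lit 6) (nat_lit 132) (nat_lit 4) (nat_lit 113) (nat_lit 140) (nat_lit 137)) (PT.nd (nat_lit 78) (PT.lf (nat_lit 10564) (nat_lit 6) (nat_lit 139) (nat_lit 4) (nat_lit 114) (nat_lit 140) (nat_lit 136)) (PT.lf (nat_lit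 11248) (nat_lit 6) (nat_lit 148) (nat_lit 4) (nat_lit 115) (nat_lit 140) (nat_lit 135))))) (PT.nd (nat_lit 234) (PT.nd (nat_lit 78) (PT.lf (nat_lit 12312) (nat_lit 6) (nat_lit 162) (nat_lit 4) (nat_lit 116) (nat_lit 140) (nat_lit 134)) (PT.nd (nat_lit 78) (PT.lf (nat_lit 13300) (nat_lit 6) (nat_lit 175) (nat_lit 4) (nat_lit 117) (nat_lit 140) (nat_lit 133)) (PT.lf (nat_lit 14212) (nat_lit 6) (nat_lit 187) (nat_lit 4) (nat_lit 118) (nat_lit 140) (nat_lit 132)))) (PT.nd (nat_lit 78) (PT.lf (nat_lit 15048) (nat_lit 6) (nat_lit 198) (nat_lit 4) (nat_lit 119) (nat_lit 140) (nat_lit 131)) (PT.nd (nat_lit 78) (PT.lf (nat_lit 15808) (nat_lit 6) (nat_lit 208) (nat_lit 4) (nat_lit 120) (nat_lit 140) (nat_lit 130)) (PT.lf (nat_lit 15732) (nat_lit 6) (nat_lit 207) (nat_lit 4) (nat_lit 121) (nat_lit 140) (nat_lit 129)))))) (PT.nd (nat_lit 468) (PT.nd (nat_lit 234) (PT.nd (nat_lit 78) (PT.lf (nat_lit 15656)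 (nat_lit 6) (nat_lit 206) (nat_lit 4) (nat_lit 122) (nat_lit 140) (nat_lit 128)) (PT.nd (nat_lit 78) (PT.lf (nat_lit 15580) (nat_lit 6) (nat_lit 205) (nat_lit 4) (nat_lit 123) (nat_lit 140) (nat_lit 127)) (PT.lf (nat_lit 15504) (nat_lit 6) (nat_lit 204) (nat_lit 4) (nat_lit 124) (nat_lit 140) (nat_lit 126)))) (PT.nd (nat_lit 78) (PT.lf (nat_lit 15428) (nat_lit 3) (nat_lit 203) (nat_lit 2) (nat_lit 125) (nat_lit 140) (nat_lit 125)) (PT.nd (nat_lit 78) (PT.lf (nat_lit 15504) (nat_lit 6) (nat_lit 204) (nat_lit 2) (nat_lit 126) (nat_lit 140) (nat_lit 124)) (PT.lf (nat_lit 15580) (nat_lit 6) (nat_lit 205) (nat_lit 2) (nat_lit 127) (nat_lit 140) (nat_lit 123))))) (PT.nd (nat_lit 234) (PT.nd (nat_lit 78) (PT.lf (nat_lit 15656) (nat_lit 6) (nat_lit 206) (nat_lit 2) (nat_lit 128) (nat_lit 140) (nat_lit 122)) (PT.nd (nat_lit 78) (PT.lf (nat_lit 15732) (nat_lit 6) (nat_lit 207) (nat_lit 2) (nat_lit 129)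 (nat_lit 140) (nat_lit 121)) (PT.lf (nat_lit 15808) (nat_lit 6) (nat_lit 208) (nat_lit 2) (nat_lit 130) (nat_lit 140) (nat_lit 120)))) (PT.nd (nat_lit 78) (PT.lf (nat_lit 15048) (nat_lit 6) (nat_lit 198) (nat_lit 2) (nat_lit 131) (nat_lit 140) (nat_lit 119)) (PT.nd (nat_lit 78) (PT.lf (nat_lit 14212) (nat_lit 6) (nat_lit 187) (nat_lit 2) (nat_lit 132) (nat_lit 140) (nat_lit 118)) (PT.lf (nat_lit 13300) (nat_lit 6) (nat_lit 175) (nat_lit 2) (nat_lit 133) (nat_lit 140) (nat_lit 117))))))) (PT.nd (nat_lit 858) (PT.nd (nat_lit 390) (PT.nd (nat_lit 156) (PT.nd (nat_lit 78) (PT.lf (nat_lit 12312) (nat_lit 6) (nat_lit 162) (nat_lit 2) (nat_lit 134) (nat_lit 140) (nat_lit 116)) (PT.lf (nat_lit 11248) (nat_lit 6) (nat_lit 148) (nat_lit 2) (nat_lit 135) (nat_lit 140) (nat_lit 115))) (PT.nd (nat_lit 78) (PT.lf (nat_lit 10564) (nat_lit 6) (nat_lit 139) (nat_lit 2) (nat_lit 136) (nat_lit 140) (nat_lit 114))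 (PT.nd (nat_lit 78) (PT.lf (nat_lit 10032) (nat_lit 6) (nat_lit 132) (nat_lit 2) (nat_lit 137) (nat_lit 140) (nat_lit 113)) (PT.lf (nat_lit 9500) (nat_lit 6) (nat_lit 125) (nat_lit 2) (nat_lit 138) (nat_lit 140) (nat_lit 112))))) (PT.nd (nat_lit 234) (PT.nd (nat_lit 78) (PT.lf (nat_lit 9044) (nat_lit 6) (nat_lit 119) (nat_lit 2) (nat_lit 139) (nat_lit 140) (nat_lit 111)) (PT.nd (nat_lit 78) (PT.lf (nat_lit 8588) (nat_lit 3) (nat_lit 113) (nat_lit 0) (nat_lit 140) (nat_lit 140) (nat_lit 110)) (PT.lf (nat_lit 8056) (nat_lit 6) (nat_lit 106) (nat_lit 0) (nat_lit 141) (nat_lit 140) (nat_lit 109)))) (PT.nd (nat_lit 78) (PT.lf (nat_lit 7524) (nat_lit 6) (nat_lit 99) (nat_lit 0) (nat_lit 142) (nat_lit 140) (nat_lit 108)) (PT.nd (nat_lit 78) (PT.lf (nat_lit 7068) (nat_lit 6) (nat_lit 93) (nat_lit 0) (nat_lit 143) (nat_lit 140) (nat_lit 107)) (PT.lf (nat_lit 6612) (nat_lit 6) (nat_lit 87) (nat_lit 0)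 (nat_lit 144) (nat_lit 140) (nat_lit 106)))))) (PT.nd (nat_lit 37362) (PT.nd (nat_lit 234) (PT.nd (nat_lit 78) (PT.lf (nat_lit 6156) (nat_lit 6) (nat_lit 81) (nat_lit 0) (nat_lit 145) (nat_lit 140) (nat_lit 105)) (PT.nd (nat_lit 78) (PT.lf (nat_lit 5700) (nat_lit 6) (nat_lit 75) (nat_lit 0) (nat_lit 146) (nat_lit 140) (nat_lit 104)) (PT.lf (nat_lit 5320) (nat_lit 6) (nat_lit 70) (nat_lit 0) (nat_lit 147) (nat_lit 140) (nat_lit 103)))) (PT.nd (nat_lit 36972) (PT.lf (nat_lit 4940) (nat_lit 6) (nat_lit 65) (nat_lit 0) (nat_lit 148) (nat_lit 140) (nat_lit 102)) (PT.nd (nat_lit 78) (PT.lf (nat_lit 4636) (nat_lit 6) (nat_lit 61) (nat_lit 5) (nat_lit 101) (nat_lit 141) (nat_lit 148)) (PT.lf (nat_lit 5016) (nat_lit 6) (nat_lit 66) (nat_lit 5) (nat_lit 102) (nat_lit 141) (nat_lit 147))))) (PT.nd (nat_lit 234) (PT.nd (nat_lit 78) (PT.lf (nat_lit 5396) (nat_lit 6) (nat_lit 71) (nat_lit 5) (nat_lit 103)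 (nat_lit 141) (nat_lit 146)) (PT.nd (nat_lit 78) (PT.lf (nat_lit 5776) (nat_lit 6) (nat_lit 76) (nat_lit 5) (nat_lit 104) (nat_lit 141) (nat_lit 145)) (PT.lf (nat_lit 6232) (nat_lit 6) (nat_lit 82) (nat_lit 5) (nat_lit 105) (nat_lit 141) (nat_lit 144)))) (PT.nd (nat_lit 78) (PT.lf (nat_lit 6688) (nat_lit 6) (nat_lit 88) (nat_lit 5) (nat_lit 106) (nat_lit 141) (nat_lit 143)) (PT.nd (nat_lit 78) (PT.lf (nat_lit 7144) (nat_lit 6) (nat_lit 94) (nat_lit 5) (nat_lit 107) (nat_lit 141) (nat_lit 142)) (PT.lf (nat_lit 7600) (nat_lit 3) (nat_lit 100) (nat_lit 4) (nat_lit 108) (nat_lit 141) (nat_lit 141))))))))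
noncomputable def pc22 : PT := (PT.nd (nat_lit 1794) (PT.nd (nat_lit 858) (PT.nd (nat_lit 390) (PT.nd (nat_lit 156) (PT.nd (nat_lit 78) (PT.lf (nat_lit 8056) (nat_lit 6) (nat_lit 106) (nat_lit 4) (nat_lit 109) (nat_lit 141) (nat_lit 140)) (PT.lf (nat_lit 8512) (nat_lit 6) (nat_lit 112) (nat_lit 4) (nat_lit 110) (nat_lit 141) (nat_lit 139))) (PT.nd (nat_lit 78) (PT.lf (nat_lit 8968) (nat_lit 6) (nat_lit 118) (nat_lit 4) (nat_lit 111) (nat_lit 141) (nat_lit 138)) (PT.nd (nat_lit 78) (PT.lf (nat_lit 9424) (nat_lit 6) (nat_lit 124) (nat_lit 4) (nat_lit 112) (nat_lit 141) (nat_lit 137)) (PT.lf (nat_lit 9956) (nat_lit 6) (nat_lit 131) (nat_lit 4) (nat_lit 113) (nat_lit 141) (nat_lit 136))))) (PT.nd (nat_lit 234) (PT.nd (nat_lit 78) (PT.lf (nat_lit 10488) (nat_lit 6) (nat_lit 138) (nat_lit 4) (nat_lit 114) (nat_lit 141) (nat_lit 135)) (PT.nd (nat_lit 78) (PT.lf (nat_lit 11172) (nat_lit 6) (nat_lit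 147) (nat_lit 4) (nat_lit 115) (nat_lit 141) (nat_lit 134)) (PT.lf (nat_lit 12236) (nat_lit 6) (nat_lit 161) (nat_lit 4) (nat_lit 116) (nat_lit 141) (nat_lit 133)))) (PT.nd (nat_lit 78) (PT.lf (nat_lit 13224) (nat_lit 6) (nat_lit 174) (nat_lit 4) (nat_lit 117) (nat_lit 141) (nat_lit 132)) (PT.nd (nat_lit 78) (PT.lf (nat_lit 14136) (nat_lit 6) (nat_lit 186) (nat_lit 4) (nat_lit 118) (nat_lit 141) (nat_lit 131)) (PT.lf (nat_lit 14972) (nat_lit 6) (nat_lit 197) (nat_lit 4) (nat_lit 119) (nat_lit 141) (nat_lit 130)))))) (PT.nd (nat_lit 468) (PT.nd (nat_lit 234) (PT.nd (nat_lit 78) (PT.lf (nat_lit 14896) (nat_lit 6) (nat_lit 196) (nat_lit 4) (nat_lit 120) (nat_lit 141) (nat_lit 129)) (PT.nd (nat_lit 78) (PT.lf (nat_lit 14820) (nat_lit 6) (nat_lit 195) (nat_lit 4) (nat_lit 121) (nat_lit 141) (nat_lit 128)) (PT.lf (nat_lit 14744) (nat_lit 6) (nat_lit 194) (nat_lit 4) (nat_lit 122) (nat_lit 141) (nat_lit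 127)))) (PT.nd (nat_lit 78) (PT.lf (nat_lit 14668) (nat_lit 6) (nat_lit 193) (nat_lit 4) (nat_lit 123) (nat_lit 141) (nat_lit 126)) (PT.nd (nat_lit 78) (PT.lf (nat_lit 14592) (nat_lit 6) (nat_lit 192) (nat_lit 4) (nat_lit 124) (nat_lit 141) (nat_lit 125)) (PT.lf (nat_lit 14592) (nat_lit 6) (nat_lit 192) (nat_lit 2) (nat_lit 125) (nat_lit 141) (nat_lit 124))))) (PT.nd (nat_lit 234) (PT.nd (nat_lit 78) (PT.lf (nat_lit 14668) (nat_lit 6) (nat_lit 193) (nat_lit 2) (nat_lit 126) (nat_lit 141) (nat_lit 123)) (PT.nd (nat_lit 78) (PT.lf (nat_lit 14744) (nat_lit 6) (nat_lit 194) (nat_lit 2) (nat_lit 127) (nat_lit 141) (nat_lit 122)) (PT.lf (nat_lit 14820) (nat_lit 6) (nat_lit 195) (nat_lit 2) (nat_lit 128) (nat_lit 141) (nat_lit 121)))) (PT.nd (nat_lit 78) (PT.lf (nat_lit 14896) (nat_lit 6) (nat_lit 196) (nat_lit 2) (nat_lit 129) (nat_lit 141) (nat_lit 120)) (PT.nd (nat_lit 78) (PT.lf (nat_lit 14972)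 (nat_lit 6) (nat_lit 197) (nat_lit 2) (nat_lit 130) (nat_lit 141) (nat_lit 119)) (PT.lf (nat_lit 14136) (nat_lit 6) (nat_lit 186) (nat_lit 2) (nat_lit 131) (nat_lit 141) (nat_lit 118))))))) (PT.nd (nat_lit 858) (PT.nd (nat_lit 390) (PT.nd (nat_lit 156) (PT.nd (nat_lit 78) (PT.lf (nat_lit 13224) (nat_lit 6) (nat_lit 174) (nat_lit 2) (nat_lit 132) (nat_lit 141) (nat_lit 117)) (PT.lf (nat_lit 12236) (nat_lit 6) (nat_lit 161) (nat_lit 2) (nat_lit 133) (nat_lit 141) (nat_lit 116))) (PT.nd (nat_lit 78) (PT.lf (nat_lit 11172) (nat_lit 6) (nat_lit 147) (nat_lit 2) (nat_lit 134) (nat_lit 141) (nat_lit 115)) (PT.nd (nat_lit 78) (PT.lf (nat_lit 10488) (nat_lit 6) (nat_lit 138) (nat_lit 2) (nat_lit 135) (nat_lit 141) (nat_lit 114)) (PT.lf (nat_lit 9956) (nat_lit 6) (nat_lit 131) (nat_lit 2) (nat_lit 136) (nat_lit 141) (nat_lit 113))))) (PT.nd (nat_lit 234) (PT.nd (nat_lit 78) (PT.lf (nat_lit 9424) (nat_lit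 6) (nat_lit 124) (nat_lit 2) (nat_lit 137) (nat_lit 141) (nat_lit 112)) (PT.nd (nat_lit 78) (PT.lf (nat_lit 8968) (nat_lit 6) (nat_lit 118) (nat_lit 2) (nat_lit 138) (nat_lit 141) (nat_lit 111)) (PT.lf (nat_lit 8512) (nat_lit 6) (nat_lit 112) (nat_lit 2) (nat_lit 139) (nat_lit 141) (nat_lit 110)))) (PT.nd (nat_lit 78) (PT.lf (nat_lit 8056) (nat_lit 6) (nat_lit 106) (nat_lit 2) (nat_lit 140) (nat_lit 141) (nat_lit 109)) (PT.nd (nat_lit 78) (PT.lf (nat_lit 7600) (nat_lit 3) (nat_lit 100) (nat_lit 0) (nat_lit 141) (nat_lit 141) (nat_lit 108)) (PT.lf (nat_lit 7144) (nat_lit 6) (nat_lit 94) (nat_lit 0) (nat_lit 142) (nat_lit 141) (nat_lit 107)))))) (PT.nd (nat_lit 37206) (PT.nd (nat_lit 234) (PT.nd (nat_lit 78) (PT.lf (nat_lit 6688) (nat_lit 6) (nat_lit 88) (nat_lit 0) (nat_lit 143) (nat_lit 141) (nat_lit 106)) (PT.nd (nat_lit 78) (PT.lf (nat_lit 6232) (nat_lit 6) (nat_lit 82) (nat_lit 0) (nat_lit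 144) (nat_lit 141) (nat_lit 105)) (PT.lf (nat_lit 5776) (nat_lit 6) (nat_lit 76) (nat_lit 0) (nat_lit 145) (nat_lit 141) (nat_lit 104)))) (PT.nd (nat_lit 78) (PT.lf (nat_lit 5396) (nat_lit 6) (nat_lit 71) (nat_lit 0) (nat_lit 146) (nat_lit 141) (nat_lit 103)) (PT.nd (nat_lit 78) (PT.lf (nat_lit 5016) (nat_lit 6) (nat_lit 66) (nat_lit 0) (nat_lit 147) (nat_lit 141) (nat_lit 102)) (PT.lf (nat_lit 4636) (nat_lit 6) (nat_lit 61) (nat_lit 0) (nat_lit 148) (nat_lit 141) (nat_lit 101))))) (PT.nd (nat_lit 234) (PT.nd (nat_lit 78) (PT.lf (nat_lit 4028) (nat_lit 6) (nat_lit 53) (nat_lit 5) (nat_lit 99) (nat_lit 142) (nat_lit 149)) (PT.nd (nat_lit 78) (PT.lf (nat_lit 4332) (nat_lit 6) (nat_lit 57) (nat_lit 5) (nat_lit 100) (nat_lit 142) (nat_lit 148)) (PT.lf (nat_lit 4712) (nat_lit 6) (nat_lit 62) (nat_lit 5) (nat_lit 101) (nat_lit 142) (nat_lit 147)))) (PT.nd (nat_lit 78) (PT.lf (nat_lit 5092) (nat_lit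 6) (nat_lit 67) (nat_lit 5) (nat_lit 102) (nat_lit 142) (nat_lit 146)) (PT.nd (nat_lit 78) (PT.lf (nat_lit 5472) (nat_lit 6) (nat_lit 72) (nat_lit 5) (nat_lit 103) (nat_lit 142) (nat_lit 145)) (PT.lf (nat_lit 5852) (nat_lit 6) (nat_lit 77) (nat_lit 5) (nat_lit 104) (nat_lit 142) (nat_lit 144))))))))
noncomputable def pc23 : PT := (PT.nd (nat_lit 1794) (PT.nd (nat_lit 858) (PT.nd (nat_lit 390) (PT.nd (nat_lit 156) (PT.nd (nat_lit 78) (PT.lf (nat_lit 6308) (nat_lit 6) (nat_lit 83) (nat_lit 5) (nat_lit 105) (nat_lit 142) (nat_lit 143)) (PT.lf (nat_lit 6764) (nat_lit 3) (nat_lit 89) (nat_lit 4) (nat_lit 106) (nat_lit 142) (nat_lit 142))) (PT.nd (nat_lit 78) (PT.lf (nat_lit 7144) (nat_lit 6) (nat_lit 94) (nat_lit 4) (nat_lit 107) (nat_lit 142) (nat_lit 141)) (PT.nd (nat_lit 78) (PT.lf (nat_lit 7524) (nat_lit 6) (nat_lit 99) (nat_lit 4) (nat_lit 108) (nat_lit 142) (nat_lit 140)) (PT.lf (nat_lit 7980)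 (nat_lit 6) (nat_lit 105) (nat_lit 4) (nat_lit 109) (nat_lit 142) (nat_lit 139))))) (PT.nd (nat_lit 234) (PT.nd (nat_lit 78) (PT.lf (nat_lit 8436) (nat_lit 6) (nat_lit 111) (nat_lit 4) (nat_lit 110) (nat_lit 142) (nat_lit 138)) (PT.nd (nat_lit 78) (PT.lf (nat_lit 8892) (nat_lit 6) (nat_lit 117) (nat_lit 4) (nat_lit 111) (nat_lit 142) (nat_lit 137)) (PT.lf (nat_lit 9348) (nat_lit 6) (nat_lit 123) (nat_lit 4) (nat_lit 112) (nat_lit 142) (nat_lit 136)))) (PT.nd (nat_lit 78) (PT.lf (nat_lit 9880) (nat_lit 6) (nat_lit 130) (nat_lit 4) (nat_lit 113) (nat_lit 142) (nat_lit 135)) (PT.nd (nat_lit 78) (PT.lf (nat_lit 10412) (nat_lit 6) (nat_lit 137) (nat_lit 4) (nat_lit 114) (nat_lit 142) (nat_lit 134)) (PT.lf (nat_lit 11096) (nat_lit 6) (nat_lit 146) (nat_lit 4) (nat_lit 115) (nat_lit 142) (nat_lit 133)))))) (PT.nd (nat_lit 468) (PT.nd (nat_lit 234) (PT.nd (nat_lit 78) (PT.lf (nat_lit 12160) (nat_lit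 6) (nat_lit 160) (nat_lit 4) (nat_lit 116) (nat_lit 142) (nat_lit 132)) (PT.nd (nat_lit 78) (PT.lf (nat_lit 13148) (nat_lit 6) (nat_lit 173) (nat_lit 4) (nat_lit 117) (nat_lit 142) (nat_lit 131)) (PT.lf (nat_lit 14060) (nat_lit 6) (nat_lit 185) (nat_lit 4) (nat_lit 118) (nat_lit 142) (nat_lit 130)))) (PT.nd (nat_lit 78) (PT.lf (nat_lit 13984) (nat_lit 6) (nat_lit 184) (nat_lit 4) (nat_lit 119) (nat_lit 142) (nat_lit 129)) (PT.nd (nat_lit 78) (PT.lf (nat_lit 13908) (nat_lit 6) (nat_lit 183) (nat_lit 4) (nat_lit 120) (nat_lit 142) (nat_lit 128)) (PT.lf (nat_lit 13832) (nat_lit 6) (nat_lit 182) (nat_lit 4) (nat_lit 121) (nat_lit 142) (nat_lit 127))))) (PT.nd (nat_lit 234) (PT.nd (nat_lit 78) (PT.lf (nat_lit 13756) (nat_lit 6) (nat_lit 181) (nat_lit 4) (nat_lit 122) (nat_lit 142) (nat_lit 126)) (PT.nd (nat_lit 78) (PT.lf (nat_lit 13680) (nat_lit 6) (nat_lit 180) (nat_lit 4) (nat_lit 123) (nat_lit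 142) (nat_lit 125)) (PT.lf (nat_lit 13604) (nat_lit 3) (nat_lit 179) (nat_lit 2) (nat_lit 124) (nat_lit 142) (nat_lit 124)))) (PT.nd (nat_lit 78) (PT.lf (nat_lit 13680) (nat_lit 6) (nat_lit 180) (nat_lit 2) (nat_lit 125) (nat_lit 142) (nat_lit 123)) (PT.nd (nat_lit 78) (PT.lf (nat_lit 13756) (nat_lit 6) (nat_lit 181) (nat_lit 2) (nat_lit 126) (nat_lit 142) (nat_lit 122)) (PT.lf (nat_lit 13832) (nat_lit 6) (nat_lit 182) (nat_lit 2) (nat_lit 127) (nat_lit 142) (nat_lit 121))))))) (PT.nd (nat_lit 858) (PT.nd (nat_lit 390) (PT.nd (nat_lit 156) (PT.nd (nat_lit 78) (PT.lf (nat_lit 13908) (nat_lit 6) (nat_lit 183) (nat_lit 2) (nat_lit 128) (nat_lit 142) (nat_lit 120)) (PT.lf (nat_lit 13984) (nat_lit 6) (nat_lit 184) (nat_lit 2) (nat_lit 129) (nat_lit 142) (nat_lit 119))) (PT.nd (nat_lit 78) (PT.lf (nat_lit 14060) (nat_lit 6) (nat_lit 185) (nat_lit 2) (nat_lit 130) (nat_lit 142) (nat_lit 118)) (PT.nd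 (nat_lit 78) (PT.lf (nat_lit 13148) (nat_lit 6) (nat_lit 173) (nat_lit 2) (nat_lit 131) (nat_lit 142) (nat_lit 117)) (PT.lf (nat_lit 12160) (nat_lit 6) (nat_lit 160) (nat_lit 2) (nat_lit 132) (nat_lit 142) (nat_lit 116))))) (PT.nd (nat_lit 234) (PT.nd (nat_lit 78) (PT.lf (nat_lit 11096) (nat_lit 6) (nat_lit 146) (nat_lit 2) (nat_lit 133) (nat_lit 142) (nat_lit 115)) (PT.nd (nat_lit 78) (PT.lf (nat_lit 10412) (nat_lit 6) (nat_lit 137) (nat_lit 2) (nat_lit 134) (nat_lit 142) (nat_lit 114)) (PT.lf (nat_lit 9880) (nat_lit 6) (nat_lit 130) (nat_lit 2) (nat_lit 135) (nat_lit 142) (nat_lit 113)))) (PT.nd (nat_lit 78) (PT.lf (nat_lit 9348) (nat_lit 6) (nat_lit 123) (nat_lit 2) (nat_lit 136) (nat_lit 142) (nat_lit 112)) (PT.nd (nat_lit 78) (PT.lf (nat_lit 8892) (nat_lit 6) (nat_lit 117) (nat_lit 2) (nat_lit 137) (nat_lit 142) (nat_lit 111)) (PT.lf (nat_lit 8436) (nat_lit 6) (nat_lit 111) (nat_lit 2)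 (nat_lit 138) (nat_lit 142) (nat_lit 110)))))) (PT.nd (nat_lit 468) (PT.nd (nat_lit 234) (PT.nd (nat_lit 78) (PT.lf (nat_lit 7980) (nat_lit 6) (nat_lit 105) (nat_lit 2) (nat_lit 139) (nat_lit 142) (nat_lit 109)) (PT.nd (nat_lit 78) (PT.lf (nat_lit 7524) (nat_lit 6) (nat_lit 99) (nat_lit 2) (nat_lit 140) (nat_lit 142) (nat_lit 108)) (PT.lf (nat_lit 7144) (nat_lit 6) (nat_lit 94) (nat_lit 2) (nat_lit 141) (nat_lit 142) (nat_lit 107)))) (PT.nd (nat_lit 78) (PT.lf (nat_lit 6764) (nat_lit 3) (nat_lit 89) (nat_lit 0) (nat_lit 142) (nat_lit 142) (nat_lit 106)) (PT.nd (nat_lit 78) (PT.lf (nat_lit 6308) (nat_lit 6) (nat_lit 83) (nat_lit 0) (nat_lit 143) (nat_lit 142) (nat_lit 105)) (PT.lf (nat_lit 5852) (nat_lit 6) (nat_lit 77) (nat_lit 0) (nat_lit 144) (nat_lit 142) (nat_lit 104))))) (PT.nd (nat_lit 234) (PT.nd (nat_lit 78) (PT.lf (nat_lit 5472) (nat_lit 6) (nat_lit 72) (nat_lit 0) (nat_lit 145) (nat_lit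 142) (nat_lit 103)) (PT.nd (nat_lit 78) (PT.lf (nat_lit 5092) (nat_lit 6) (nat_lit 67) (nat_lit 0) (nat_lit 146) (nat_lit 142) (nat_lit 102)) (PT.lf (nat_lit 4712) (nat_lit 6) (nat_lit 62) (nat_lit 0) (nat_lit 147) (nat_lit 142) (nat_lit 101)))) (PT.nd (nat_lit 78) (PT.lf (nat_lit 4332) (nat_lit 6) (nat_lit 57) (nat_lit 0) (nat_lit 148) (nat_lit 142) (nat_lit 100)) (PT.nd (nat_lit 36660) (PT.lf (nat_lit 4028) (nat_lit 6) (nat_lit 53) (nat_lit 0) (nat_lit 149) (nat_lit 142) (nat_lit 99)) (PT.lf (nat_lit 3724) (nat_lit 6) (nat_lit 49) (nat_lit 5) (nat_lit 98) (nat_lit 143) (nat_lit 149))))))))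
noncomputable def pc24 : PT := (PT.nd (nat_lit 1794) (PT.nd (nat_lit 858) (PT.nd (nat_lit 390) (PT.nd (nat_lit 156) (PT.nd (nat_lit 78) (PT.lf (nat_lit 4104) (nat_lit 6) (nat_lit 54) (nat_lit 5) (nat_lit 99) (nat_lit 143) (nat_lit 148)) (PT.lf (nat_lit 4408) (nat_lit 6) (nat_lit 58) (nat_lit 5) (nat_lit 100) (nat_lit 143) (nat_lit 147))) (PT.nd (nat_lit 78) (PT.lf (nat_lit 4788) (nat_lit 6) (nat_lit 63) (nat_lit 5) (nat_lit 101) (nat_lit 143) (nat_lit 146)) (PT.nd (nat_lit 78) (PT.lf (nat_lit 5168) (nat_lit 6) (nat_lit 68) (nat_lit 5) (nat_lit 102) (nat_lit 143) (nat_lit 145)) (PT.lf (nat_lit 5548) (nat_lit 6) (nat_lit 73) (nat_lit 5) (nat_lit 103) (nat_lit 143) (nat_lit 144))))) (PT.nd (nat_lit 234) (PT.nd (nat_lit 78) (PT.lf (nat_lit 5928) (nat_lit 3) (nat_lit 78) (nat_lit 4) (nat_lit 104) (nat_lit 143) (nat_lit 143)) (PT.nd (nat_lit 78) (PT.lf (nat_lit 6308) (nat_lit 6) (nat_lit 83) (nat_lit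 4) (nat_lit 105) (nat_lit 143) (nat_lit 142)) (PT.lf (nat_lit 6688) (nat_lit 6) (nat_lit 88) (nat_lit 4) (nat_lit 106) (nat_lit 143) (nat_lit 141)))) (PT.nd (nat_lit 78) (PT.lf (nat_lit 7068) (nat_lit 6) (nat_lit 93) (nat_lit 4) (nat_lit 107) (nat_lit 143) (nat_lit 140)) (PT.nd (nat_lit 78) (PT.lf (nat_lit 7448) (nat_lit 6) (nat_lit 98) (nat_lit 4) (nat_lit 108) (nat_lit 143) (nat_lit 139)) (PT.lf (nat_lit 7904) (nat_lit 6) (nat_lit 104) (nat_lit 4) (nat_lit 109) (nat_lit 143) (nat_lit 138)))))) (PT.nd (nat_lit 468) (PT.nd (nat_lit 234) (PT.nd (nat_lit 78) (PT.lf (nat_lit 8360) (nat_lit 6) (nat_lit 110) (nat_lit 4) (nat_lit 110) (nat_lit 143) (nat_lit 137)) (PT.nd (nat_lit 78) (PT.lf (nat_lit 8816) (nat_lit 6) (nat_lit 116) (nat_lit 4) (nat_lit 111) (nat_lit 143) (nat_lit 136)) (PT.lf (nat_lit 9272) (nat_lit 6) (nat_lit 122) (nat_lit 4) (nat_lit 112) (nat_lit 143) (nat_lit 135)))) (PT.nd (nat_lit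 78) (PT.lf (nat_lit 9804) (nat_lit 6) (nat_lit 129) (nat_lit 4) (nat_lit 113) (nat_lit 143) (nat_lit 134)) (PT.nd (nat_lit 78) (PT.lf (nat_lit 10336) (nat_lit 6) (nat_lit 136) (nat_lit 4) (nat_lit 114) (nat_lit 143) (nat_lit 133)) (PT.lf (nat_lit 11020) (nat_lit 6) (nat_lit 145) (nat_lit 4) (nat_lit 115) (nat_lit 143) (nat_lit 132))))) (PT.nd (nat_lit 234) (PT.nd (nat_lit 78) (PT.lf (nat_lit 12084) (nat_lit 6) (nat_lit 159) (nat_lit 4) (nat_lit 116) (nat_lit 143) (nat_lit 131)) (PT.nd (nat_lit 78) (PT.lf (nat_lit 13072) (nat_lit 6) (nat_lit 172) (nat_lit 4) (nat_lit 117) (nat_lit 143) (nat_lit 130)) (PT.lf (nat_lit 12996) (nat_lit 6) (nat_lit 171) (nat_lit 4) (nat_lit 118) (nat_lit 143) (nat_lit 129)))) (PT.nd (nat_lit 78) (PT.lf (nat_lit 12920) (nat_lit 6) (nat_lit 170) (nat_lit 4) (nat_lit 119) (nat_lit 143) (nat_lit 128)) (PT.nd (nat_lit 78) (PT.lf (nat_lit 12844) (nat_lit 6) (nat_lit 169)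 (nat_lit 4) (nat_lit 120) (nat_lit 143) (nat_lit 127)) (PT.lf (nat_lit 12768) (nat_lit 6) (nat_lit 168) (nat_lit 4) (nat_lit 121) (nat_lit 143) (nat_lit 126))))))) (PT.nd (nat_lit 858) (PT.nd (nat_lit 390) (PT.nd (nat_lit 156) (PT.nd (nat_lit 78) (PT.lf (nat_lit 12692) (nat_lit 6) (nat_lit 167) (nat_lit 4) (nat_lit 122) (nat_lit 143) (nat_lit 125)) (PT.lf (nat_lit 12616) (nat_lit 6) (nat_lit 166) (nat_lit 4) (nat_lit 123) (nat_lit 143) (nat_lit 124))) (PT.nd (nat_lit 78) (PT.lf (nat_lit 12616) (nat_lit 6) (nat_lit 166) (nat_lit 2) (nat_lit 124) (nat_lit 143) (nat_lit 123)) (PT.nd (nat_lit 78) (PT.lf (nat_lit 12692) (nat_lit 6) (nat_lit 167) (nat_lit 2) (nat_lit 125) (nat_lit 143) (nat_lit 122)) (PT.lf (nat_lit 12768) (nat_lit 6) (nat_lit 168) (nat_lit 2) (nat_lit 126) (nat_lit 143) (nat_lit 121))))) (PT.nd (nat_lit 234) (PT.nd (nat_lit 78) (PT.lf (nat_lit 12844) (nat_lit 6) (nat_lit 169) (nat_lit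 2) (nat_lit 127) (nat_lit 143) (nat_lit 120)) (PT.nd (nat_lit 78) (PT.lf (nat_lit 12920) (nat_lit 6) (nat_lit 170) (nat_lit 2) (nat_lit 128) (nat_lit 143) (nat_lit 119)) (PT.lf (nat_lit 12996) (nat_lit 6) (nat_lit 171) (nat_lit 2) (nat_lit 129) (nat_lit 143) (nat_lit 118)))) (PT.nd (nat_lit 78) (PT.lf (nat_lit 13072) (nat_lit 6) (nat_lit 172) (nat_lit 2) (nat_lit 130) (nat_lit 143) (nat_lit 117)) (PT.nd (nat_lit 78) (PT.lf (nat_lit 12084) (nat_lit 6) (nat_lit 159) (nat_lit 2) (nat_lit 131) (nat_lit 143) (nat_lit 116)) (PT.lf (nat_lit 11020) (nat_lit 6) (nat_lit 145) (nat_lit 2) (nat_lit 132) (nat_lit 143) (nat_lit 115)))))) (PT.nd (nat_lit 468) (PT.nd (nat_lit 234) (PT.nd (nat_lit 78) (PT.lf (nat_lit 10336) (nat_lit 6) (nat_lit 136) (nat_lit 2) (nat_lit 133) (nat_lit 143) (nat_lit 114)) (PT.nd (nat_lit 78) (PT.lf (nat_lit 9804) (nat_lit 6) (nat_lit 129) (nat_lit 2) (nat_lit 134) (nat_lit 143)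 (nat_lit 113)) (PT.lf (nat_lit 9272) (nat_lit 6) (nat_lit 122) (nat_lit 2) (nat_lit 135) (nat_lit 143) (nat_lit 112)))) (PT.nd (nat_lit 78) (PT.lf (nat_lit 8816) (nat_lit 6) (nat_lit 116) (nat_lit 2) (nat_lit 136) (nat_lit 143) (nat_lit 111)) (PT.nd (nat_lit 78) (PT.lf (nat_lit 8360) (nat_lit 6) (nat_lit 110) (nat_lit 2) (nat_lit 137) (nat_lit 143) (nat_lit 110)) (PT.lf (nat_lit 7904) (nat_lit 6) (nat_lit 104) (nat_lit 2) (nat_lit 138) (nat_lit 143) (nat_lit 109))))) (PT.nd (nat_lit 234) (PT.nd (nat_lit 78) (PT.lf (nat_lit 7448) (nat_lit 6) (nat_lit 98) (nat_lit 2) (nat_lit 139) (nat_lit 143) (nat_lit 108)) (PT.nd (nat_lit 78) (PT.lf (nat_lit 7068) (nat_lit 6) (nat_lit 93) (nat_lit 2) (nat_lit 140) (nat_lit 143) (nat_lit 107)) (PT.lf (nat_lit 6688) (nat_lit 6) (nat_lit 88) (nat_lit 2) (nat_lit 141) (nat_lit 143) (nat_lit 106)))) (PT.nd (nat_lit 78) (PT.lf (nat_lit 6308) (nat_lit 6) (nat_lit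 83) (nat_lit 2) (nat_lit 142) (nat_lit 143) (nat_lit 105)) (PT.nd (nat_lit 78) (PT.lf (nat_lit 5928) (nat_lit 3) (nat_lit 78) (nat_lit 0) (nat_lit 143) (nat_lit 143) (nat_lit 104)) (PT.lf (nat_lit 5548) (nat_lit 6) (nat_lit 73) (nat_lit 0) (nat_lit 144) (nat_lit 143) (nat_lit 103))))))))
noncomputable def pc25 : PT := (PT.nd (nat_lit 38220) (PT.nd (nat_lit 37284) (PT.nd (nat_lit 36816) (PT.nd (nat_lit 156) (PT.nd (nat_lit 78) (PT.lf (nat_lit 5168) (nat_lit 6) (nat_lit 68) (nat_lit 0) (nat_lit 145) (nat_lit 143) (nat_lit 102)) (PT.lf (nat_lit 4788) (nat_lit 6) (nat_lit 63) (nat_lit 0) (nat_lit 146) (nat_lit 143) (nat_lit 101))) (PT.nd (nat_lit 78) (PT.lf (nat_lit 4408) (nat_lit 6) (nat_lit 58) (nat_lit 0) (nat_lit 147) (nat_lit 143) (nat_lit 100)) (PT.nd (nat_lit 78) (PT.lf (nat_lit 4104) (nat_lit 6) (nat_lit 54) (nat_lit 0) (nat_lit 148) (nat_lit 143) (nat_lit 99)) (PT.lf (nat_lit 3724) (nat_lit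 6) (nat_lit 49) (nat_lit 0) (nat_lit 149) (nat_lit 143) (nat_lit 98))))) (PT.nd (nat_lit 234) (PT.nd (nat_lit 78) (PT.lf (nat_lit 3192) (nat_lit 6) (nat_lit 42) (nat_lit 5) (nat_lit 96) (nat_lit 144) (nat_lit 150)) (PT.nd (nat_lit 78) (PT.lf (nat_lit 3496) (nat_lit 6) (nat_lit 46) (nat_lit 5) (nat_lit 97) (nat_lit 144) (nat_lit 149)) (PT.lf (nat_lit 3800) (nat_lit 6) (nat_lit 50) (nat_lit 5) (nat_lit 98) (nat_lit 144) (nat_lit 148)))) (PT.nd (nat_lit 78) (PT.lf (nat_lit 4180) (nat_lit 6) (nat_lit 55) (nat_lit 5) (nat_lit 99) (nat_lit 144) (nat_lit 147)) (PT.nd (nat_lit 78) (PT.lf (nat_lit 4484) (nat_lit 6) (nat_lit 59) (nat_lit 5) (nat_lit 100) (nat_lit 144) (nat_lit 146)) (PT.lf (nat_lit 4864) (nat_lit 6) (nat_lit 64) (nat_lit 5) (nat_lit 101) (nat_lit 144) (nat_lit 145)))))) (PT.nd (nat_lit 468) (PT.nd (nat_lit 234) (PT.nd (nat_lit 78) (PT.lf (nat_lit 5244) (nat_lit 3) (nat_lit 69) (nat_lit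 4) (nat_lit 102) (nat_lit 144) (nat_lit 144)) (PT.nd (nat_lit 78) (PT.lf (nat_lit 5548) (nat_lit 6) (nat_lit 73) (nat_lit 4) (nat_lit 103) (nat_lit 144) (nat_lit 143)) (PT.lf (nat_lit 5852) (nat_lit 6) (nat_lit 77) (nat_lit 4) (nat_lit 104) (nat_lit 144) (nat_lit 142)))) (PT.nd (nat_lit 78) (PT.lf (nat_lit 6232) (nat_lit 6) (nat_lit 82) (nat_lit 4) (nat_lit 105) (nat_lit 144) (nat_lit 141)) (PT.nd (nat_lit 78) (PT.lf (nat_lit 6612) (nat_lit 6) (nat_lit 87) (nat_lit 4) (nat_lit 106) (nat_lit 144) (nat_lit 140)) (PT.lf (nat_lit 6992) (nat_lit 6) (nat_lit 92) (nat_lit 4) (nat_lit 107) (nat_lit 144) (nat_lit 139))))) (PT.nd (nat_lit 234) (PT.nd (nat_lit 78) (PT.lf (nat_lit 7372) (nat_lit 6) (nat_lit 97) (nat_lit 4) (nat_lit 108) (nat_lit 144) (nat_lit 138)) (PT.nd (nat_lit 78) (PT.lf (nat_lit 7828) (nat_lit 6) (nat_lit 103) (nat_lit 4) (nat_lit 109) (nat_lit 144) (nat_lit 137)) (PT.lf (nat_lit 8284)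 (nat_lit 6) (nat_lit 109) (nat_lit 4) (nat_lit 110) (nat_lit 144) (nat_lit 136)))) (PT.nd (nat_lit 78) (PT.lf (nat_lit 8740) (nat_lit 6) (nat_lit 115) (nat_lit 4) (nat_lit 111) (nat_lit 144) (nat_lit 135)) (PT.nd (nat_lit 78) (PT.lf (nat_lit 9196) (nat_lit 6) (nat_lit 121) (nat_lit 4) (nat_lit 112) (nat_lit 144) (nat_lit 134)) (PT.lf (nat_lit 9728) (nat_lit 6) (nat_lit 128) (nat_lit 4) (nat_lit 113) (nat_lit 144) (nat_lit 133))))))) (PT.nd (nat_lit 858) (PT.nd (nat_lit 390) (PT.nd (nat_lit 156) (PT.nd (nat_lit 78) (PT.lf (nat_lit 10260) (nat_lit 6) (nat_lit 135) (nat_lit 4) (nat_lit 114) (nat_lit 144) (nat_lit 132)) (PT.lf (nat_lit 10944) (nat_lit 6) (nat_lit 144) (nat_lit 4) (nat_lit 115) (nat_lit 144) (nat_lit 131))) (PT.nd (nat_lit 78) (PT.lf (nat_lit 12008) (nat_lit 6) (nat_lit 158) (nat_lit 4) (nat_lit 116) (nat_lit 144) (nat_lit 130)) (PT.nd (nat_lit 78) (PT.lf (nat_lit 11932) (nat_lit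 6) (nat_lit 157) (nat_lit 4) (nat_lit 117) (nat_lit 144) (nat_lit 129)) (PT.lf (nat_lit 11856) (nat_lit 6) (nat_lit 156) (nat_lit 4) (nat_lit 118) (nat_lit 144) (nat_lit 128))))) (PT.nd (nat_lit 234) (PT.nd (nat_lit 78) (PT.lf (nat_lit 11780) (nat_lit 6) (nat_lit 155) (nat_lit 4) (nat_lit 119) (nat_lit 144) (nat_lit 127)) (PT.nd (nat_lit 78) (PT.lf (nat_lit 11704) (nat_lit 6) (nat_lit 154) (nat_lit 4) (nat_lit 120) (nat_lit 144) (nat_lit 126)) (PT.lf (nat_lit 11628) (nat_lit 6) (nat_lit 153) (nat_lit 4) (nat_lit 121) (nat_lit 144) (nat_lit 125)))) (PT.nd (nat_lit 78) (PT.lf (nat_lit 11552) (nat_lit 6) (nat_lit 152) (nat_lit 4) (nat_lit 122) (nat_lit 144) (nat_lit 124)) (PT.nd (nat_lit 78) (PT.lf (nat_lit 11476) (nat_lit 3) (nat_lit 151) (nat_lit 2) (nat_lit 123) (nat_lit 144) (nat_lit 123)) (PT.lf (nat_lit 11552) (nat_lit 6) (nat_lit 152) (nat_lit 2) (nat_lit 124) (nat_lit 144) (nat_lit 122))))))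 (PT.nd (nat_lit 468) (PT.nd (nat_lit 234) (PT.nd (nat_lit 78) (PT.lf (nat_lit 11628) (nat_lit 6) (nat_lit 153) (nat_lit 2) (nat_lit 125) (nat_lit 144) (nat_lit 121)) (PT.nd (nat_lit 78) (PT.lf (nat_lit 11704) (nat_lit 6) (nat_lit 154) (nat_lit 2) (nat_lit 126) (nat_lit 144) (nat_lit 120)) (PT.lf (nat_lit 11780) (nat_lit 6) (nat_lit 155) (nat_lit 2) (nat_lit 127) (nat_lit 144) (nat_lit 119)))) (PT.nd (nat_lit 78) (PT.lf (nat_lit 11856) (nat_lit 6) (nat_lit 156) (nat_lit 2) (nat_lit 128) (nat_lit 144) (nat_lit 118)) (PT.nd (nat_lit 78) (PT.lf (nat_lit 11932) (nat_lit 6) (nat_lit 157) (nat_lit 2) (nat_lit 129) (nat_lit 144) (nat_lit 117)) (PT.lf (nat_lit 12008) (nat_lit 6) (nat_lit 158) (nat_lit 2) (nat_lit 130) (nat_lit 144) (nat_lit 116))))) (PT.nd (nat_lit 234) (PT.nd (nat_lit 78) (PT.lf (nat_lit 10944) (nat_lit 6) (nat_lit 144) (nat_lit 2) (nat_lit 131) (nat_lit 144) (nat_lit 115)) (PT.nd (nat_lit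 78) (PT.lf (nat_lit 10260) (nat_lit 6) (nat_lit 135) (nat_lit 2) (nat_lit 132) (nat_lit 144) (nat_lit 114)) (PT.lf (nat_lit 9728) (nat_lit 6) (nat_lit 128) (nat_lit 2) (nat_lit 133) (nat_lit 144) (nat_lit 113)))) (PT.nd (nat_lit 78) (PT.lf (nat_lit 9196) (nat_lit 6) (nat_lit 121) (nat_lit 2) (nat_lit 134) (nat_lit 144) (nat_lit 112)) (PT.nd (nat_lit 78) (PT.lf (nat_lit 8740) (nat_lit 6) (nat_lit 115) (nat_lit 2) (nat_lit 135) (nat_lit 144) (nat_lit 111)) (PT.lf (nat_lit 8284) (nat_lit 6) (nat_lit 109) (nat_lit 2) (nat_lit 136) (nat_lit 144) (nat_lit 110))))))))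
noncomputable def pc26 : PT := (PT.nd (nat_lit 38064) (PT.nd (nat_lit 858) (PT.nd (nat_lit 390) (PT.nd (nat_lit 156) (PT.nd (nat_lit 78) (PT.lf (nat_lit 7828) (nat_lit 6) (nat_lit 103) (nat_lit 2) (nat_lit 137) (nat_lit 144) (nat_lit 109)) (PT.lf (nat_lit 7372) (nat_lit 6) (nat_lit 97) (nat_lit 2) (nat_lit 138) (nat_lit 144) (nat_lit 108))) (PT.nd (nat_lit 78) (PT.lf (nat_lit 6992) (nat_lit 6) (nat_lit 92) (nat_lit 2) (nat_lit 139) (nat_lit 144) (nat_lit 107)) (PT.nd (nat_lit 78) (PT.lf (nat_lit 6612) (nat_lit 6) (nat_lit 87) (nat_lit 2) (nat_lit 140) (nat_lit 144) (nat_lit 106)) (PT.lf (nat_lit 6232) (nat_lit 6) (nat_lit 82) (nat_lit 2) (nat_lit 141) (nat_lit 144) (nat_lit 105))))) (PT.nd (nat_lit 234) (PT.nd (nat_lit 78) (PT.lf (nat_lit 5852) (nat_lit 6) (nat_lit 77) (nat_lit 2) (nat_lit 142) (nat_lit 144) (nat_lit 104)) (PT.nd (nat_lit 78) (PT.lf (nat_lit 5548) (nat_lit 6) (nat_lit 73) (nat_lit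 2) (nat_lit 143) (nat_lit 144) (nat_lit 103)) (PT.lf (nat_lit 5244) (nat_lit 3) (nat_lit 69) (nat_lit 0) (nat_lit 144) (nat_lit 144) (nat_lit 102)))) (PT.nd (nat_lit 78) (PT.lf (nat_lit 4864) (nat_lit 6) (nat_lit 64) (nat_lit 0) (nat_lit 145) (nat_lit 144) (nat_lit 101)) (PT.nd (nat_lit 78) (PT.lf (nat_lit 4484) (nat_lit 6) (nat_lit 59) (nat_lit 0) (nat_lit 146) (nat_lit 144) (nat_lit 100)) (PT.lf (nat_lit 4180) (nat_lit 6) (nat_lit 55) (nat_lit 0) (nat_lit 147) (nat_lit 144) (nat_lit 99)))))) (PT.nd (nat_lit 36738) (PT.nd (nat_lit 36504) (PT.nd (nat_lit 78) (PT.lf (nat_lit 3800) (nat_lit 6) (nat_lit 50) (nat_lit 0) (nat_lit 148) (nat_lit 144) (nat_lit 98)) (PT.nd (nat_lit 78) (PT.lf (nat_lit 3496) (nat_lit 6) (nat_lit 46) (nat_lit 0) (nat_lit 149) (nat_lit 144) (nat_lit 97)) (PT.lf (nat_lit 3192) (nat_lit 6) (nat_lit 42) (nat_lit 0) (nat_lit 150) (nat_lit 144) (nat_lit 96)))) (PT.nd (nat_lit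 78) (PT.lf (nat_lit 2964) (nat_lit 6) (nat_lit 39) (nat_lit 5) (nat_lit 95) (nat_lit 145) (nat_lit 150)) (PT.nd (nat_lit 78) (PT.lf (nat_lit 3268) (nat_lit 6) (nat_lit 43) (nat_lit 5) (nat_lit 96) (nat_lit 145) (nat_lit 149)) (PT.lf (nat_lit 3572) (nat_lit 6) (nat_lit 47) (nat_lit 5) (nat_lit 97) (nat_lit 145) (nat_lit 148))))) (PT.nd (nat_lit 234) (PT.nd (nat_lit 78) (PT.lf (nat_lit 3876) (nat_lit 6) (nat_lit 51) (nat_lit 5) (nat_lit 98) (nat_lit 145) (nat_lit 147)) (PT.nd (nat_lit 78) (PT.lf (nat_lit 4256) (nat_lit 6) (nat_lit 56) (nat_lit 5) (nat_lit 99) (nat_lit 145) (nat_lit 146)) (PT.lf (nat_lit 4560) (nat_lit 3) (nat_lit 60) (nat_lit 4) (nat_lit 100) (nat_lit 145) (nat_lit 145)))) (PT.nd (nat_lit 78) (PT.lf (nat_lit 4864) (nat_lit 6) (nat_lit 64) (nat_lit 4) (nat_lit 101) (nat_lit 145) (nat_lit 144)) (PT.nd (nat_lit 78) (PT.lf (nat_lit 5168) (nat_lit 6) (nat_lit 68) (nat_lit 4) (nat_lit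 102) (nat_lit 145) (nat_lit 143)) (PT.lf (nat_lit 5472) (nat_lit 6) (nat_lit 72) (nat_lit 4) (nat_lit 103) (nat_lit 145) (nat_lit 142))))))) (PT.nd (nat_lit 858) (PT.nd (nat_lit 390) (PT.nd (nat_lit 156) (PT.nd (nat_lit 78) (PT.lf (nat_lit 5776) (nat_lit 6) (nat_lit 76) (nat_lit 4) (nat_lit 104) (nat_lit 145) (nat_lit 141)) (PT.lf (nat_lit 6156) (nat_lit 6) (nat_lit 81) (nat_lit 4) (nat_lit 105) (nat_lit 145) (nat_lit 140))) (PT.nd (nat_lit 78) (PT.lf (nat_lit 6536) (nat_lit 6) (nat_lit 86) (nat_lit 4) (nat_lit 106) (nat_lit 145) (nat_lit 139)) (PT.nd (nat_lit 78) (PT.lf (nat_lit 6916) (nat_lit 6) (nat_lit 91) (nat_lit 4) (nat_lit 107) (nat_lit 145) (nat_lit 138)) (PT.lf (nat_lit 7296) (nat_lit 6) (nat_lit 96) (nat_lit 4) (nat_lit 108) (nat_lit 145) (nat_lit 137))))) (PT.nd (nat_lit 234) (PT.nd (nat_lit 78) (PT.lf (nat_lit 7752) (nat_lit 6) (nat_lit 102) (nat_lit 4) (nat_lit 109) (nat_lit 145)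 (nat_lit 136)) (PT.nd (nat_lit 78) (PT.lf (nat_lit 8208) (nat_lit 6) (nat_lit 108) (nat_lit 4) (nat_lit 110) (nat_lit 145) (nat_lit 135)) (PT.lf (nat_lit 8664) (nat_lit 6) (nat_lit 114) (nat_lit 4) (nat_lit 111) (nat_lit 145) (nat_lit 134)))) (PT.nd (nat_lit 78) (PT.lf (nat_lit 9120) (nat_lit 6) (nat_lit 120) (nat_lit 4) (nat_lit 112) (nat_lit 145) (nat_lit 133)) (PT.nd (nat_lit 78) (PT.lf (nat_lit 9652) (nat_lit 6) (nat_lit 127) (nat_lit 4) (nat_lit 113) (nat_lit 145) (nat_lit 132)) (PT.lf (nat_lit 10184) (nat_lit 6) (nat_lit 134) (nat_lit 4) (nat_lit 114) (nat_lit 145) (nat_lit 131)))))) (PT.nd (nat_lit 1404) (PT.nd (nat_lit 1170) (PT.nd (nat_lit 78) (PT.lf (nat_lit 10868) (nat_lit 6) (nat_lit 143) (nat_lit 4) (nat_lit 115) (nat_lit 145) (nat_lit 130)) (PT.nd (nat_lit 1014) (PT.lf (nat_lit 10792) (nat_lit 6) (nat_lit 142) (nat_lit 4) (nat_lit 116) (nat_lit 145) (nat_lit 129)) (PT.lf (nat_lit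 10792) (nat_lit 6) (nat_lit 142) (nat_lit 2) (nat_lit 129) (nat_lit 145) (nat_lit 116)))) (PT.nd (nat_lit 78) (PT.lf (nat_lit 10868) (nat_lit 6) (nat_lit 143) (nat_lit 2) (nat_lit 130) (nat_lit 145) (nat_lit 115)) (PT.nd (nat_lit 78) (PT.lf (nat_lit 10184) (nat_lit 6) (nat_lit 134) (nat_lit 2) (nat_lit 131) (nat_lit 145) (nat_lit 114)) (PT.lf (nat_lit 9652) (nat_lit 6) (nat_lit 127) (nat_lit 2) (nat_lit 132) (nat_lit 145) (nat_lit 113))))) (PT.nd (nat_lit 234) (PT.nd (nat_lit 78) (PT.lf (nat_lit 9120) (nat_lit 6) (nat_lit 120) (nat_lit 2) (nat_lit 133) (nat_lit 145) (nat_lit 112)) (PT.nd (nat_lit 78) (PT.lf (nat_lit 8664) (nat_lit 6) (nat_lit 114) (nat_lit 2) (nat_lit 134) (nat_lit 145) (nat_lit 111)) (PT.lf (nat_lit 8208) (nat_lit 6) (nat_lit 108) (nat_lit 2) (nat_lit 135) (nat_lit 145) (nat_lit 110)))) (PT.nd (nat_lit 78) (PT.lf (nat_lit 7752) (nat_lit 6) (nat_lit 102) (nat_lit 2) (nat_lit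 136) (nat_lit 145) (nat_lit 109)) (PT.nd (nat_lit 78) (PT.lf (nat_lit 7296) (nat_lit 6) (nat_lit 96) (nat_lit 2) (nat_lit 137) (nat_lit 145) (nat_lit 108)) (PT.lf (nat_lit 6916) (nat_lit 6) (nat_lit 91) (nat_lit 2) (nat_lit 138) (nat_lit 145) (nat_lit 107))))))))
noncomputable def pc27 : PT := (PT.nd (nat_lit 37908) (PT.nd (nat_lit 858) (PT.nd (nat_lit 390) (PT.nd (nat_lit 156) (PT.nd (nat_lit 78) (PT.lf (nat_lit 6536) (nat_lit 6) (nat_lit 86) (nat_lit 2) (nat_lit 139) (nat_lit 145) (nat_lit 106)) (PT.lf (nat_lit 6156) (nat_lit 6) (nat_lit 81) (nat_lit 2) (nat_lit 140) (nat_lit 145) (nat_lit 105))) (PT.nd (nat_lit 78) (PT.lf (nat_lit 5776) (nat_lit 6) (nat_lit 76) (nat_lit 2) (nat_lit 141) (nat_lit 145) (nat_lit 104)) (PT.nd (nat_lit 78) (PT.lf (nat_lit 5472) (nat_lit 6) (nat_lit 72) (nat_lit 2) (nat_lit 142) (nat_lit 145) (nat_lit 103)) (PT.lf (nat_lit 5168) (nat_lit 6) (nat_lit 68) (nat_lit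 2) (nat_lit 143) (nat_lit 145) (nat_lit 102))))) (PT.nd (nat_lit 234) (PT.nd (nat_lit 78) (PT.lf (nat_lit 4864) (nat_lit 6) (nat_lit 64) (nat_lit 2) (nat_lit 144) (nat_lit 145) (nat_lit 101)) (PT.nd (nat_lit 78) (PT.lf (nat_lit 4560) (nat_lit 3) (nat_lit 60) (nat_lit 0) (nat_lit 145) (nat_lit 145) (nat_lit 100)) (PT.lf (nat_lit 4256) (nat_lit 6) (nat_lit 56) (nat_lit 0) (nat_lit 146) (nat_lit 145) (nat_lit 99)))) (PT.nd (nat_lit 78) (PT.lf (nat_lit 3876) (nat_lit 6) (nat_lit 51) (nat_lit 0) (nat_lit 147) (nat_lit 145) (nat_lit 98)) (PT.nd (nat_lit 78) (PT.lf (nat_lit 3572) (nat_lit 6) (nat_lit 47) (nat_lit 0) (nat_lit 148) (nat_lit 145) (nat_lit 97)) (PT.lf (nat_lit 3268) (nat_lit 6) (nat_lit 43) (nat_lit 0) (nat_lit 149) (nat_lit 145) (nat_lit 96)))))) (PT.nd (nat_lit 36582) (PT.nd (nat_lit 36348) (PT.nd (nat_lit 36192) (PT.lf (nat_lit 2964) (nat_lit 6) (nat_lit 39) (nat_lit 0) (nat_lit 150)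 (nat_lit 145) (nat_lit 95)) (PT.nd (nat_lit 78) (PT.lf (nat_lit 2508) (nat_lit 6) (nat_lit 33) (nat_lit 5) (nat_lit 93) (nat_lit 146) (nat_lit 151)) (PT.lf (nat_lit 2736) (nat_lit 6) (nat_lit 36) (nat_lit 5) (nat_lit 94) (nat_lit 146) (nat_lit 150)))) (PT.nd (nat_lit 78) (PT.lf (nat_lit 3040) (nat_lit 6) (nat_lit 40) (nat_lit 5) (nat_lit 95) (nat_lit 146) (nat_lit 149)) (PT.nd (nat_lit 78) (PT.lf (nat_lit 3344) (nat_lit 6) (nat_lit 44) (nat_lit 5) (nat_lit 96) (nat_lit 146) (nat_lit 148)) (PT.lf (nat_lit 3648) (nat_lit 6) (nat_lit 48) (nat_lit 5) (nat_lit 97) (nat_lit 146) (nat_lit 147))))) (PT.nd (nat_lit 234) (PT.nd (nat_lit 78) (PT.lf (nat_lit 3952) (nat_lit 3) (nat_lit 52) (nat_lit 4) (nat_lit 98) (nat_lit 146) (nat_lit 146)) (PT.nd (nat_lit 78) (PT.lf (nat_lit 4256) (nat_lit 6) (nat_lit 56) (nat_lit 4) (nat_lit 99) (nat_lit 146) (nat_lit 145)) (PT.lf (nat_lit 4484) (nat_lit 6) (nat_lit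 59) (nat_lit 4) (nat_lit 100) (nat_lit 146) (nat_lit 144)))) (PT.nd (nat_lit 78) (PT.lf (nat_lit 4788) (nat_lit 6) (nat_lit 63) (nat_lit 4) (nat_lit 101) (nat_lit 146) (nat_lit 143)) (PT.nd (nat_lit 78) (PT.lf (nat_lit 5092) (nat_lit 6) (nat_lit 67) (nat_lit 4) (nat_lit 102) (nat_lit 146) (nat_lit 142)) (PT.lf (nat_lit 5396) (nat_lit 6) (nat_lit 71) (nat_lit 4) (nat_lit 103) (nat_lit 146) (nat_lit 141))))))) (PT.nd (nat_lit 2652) (PT.nd (nat_lit 390) (PT.nd (nat_lit 156) (PT.nd (nat_lit 78) (PT.lf (nat_lit 5700) (nat_lit 6) (nat_lit 75) (nat_lit 4) (nat_lit 104) (nat_lit 146) (nat_lit 140)) (PT.lf (nat_lit 6080) (nat_lit 6) (nat_lit 80) (nat_lit 4) (nat_lit 105) (nat_lit 146) (nat_lit 139))) (PT.nd (nat_lit 78) (PT.lf (nat_lit 6460) (nat_lit 6) (nat_lit 85) (nat_lit 4) (nat_lit 106) (nat_lit 146) (nat_lit 138)) (PT.nd (nat_lit 78) (PT.lf (nat_lit 6840) (nat_lit 6) (nat_lit 90) (nat_lit 4) (nat_lit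 107) (nat_lit 146) (nat_lit 137)) (PT.lf (nat_lit 7220) (nat_lit 6) (nat_lit 95) (nat_lit 4) (nat_lit 108) (nat_lit 146) (nat_lit 136))))) (PT.nd (nat_lit 2028) (PT.nd (nat_lit 78) (PT.lf (nat_lit 7676) (nat_lit 6) (nat_lit 101) (nat_lit 4) (nat_lit 109) (nat_lit 146) (nat_lit 135)) (PT.nd (nat_lit 1872) (PT.lf (nat_lit 8132) (nat_lit 6) (nat_lit 107) (nat_lit 4) (nat_lit 110) (nat_lit 146) (nat_lit 134)) (PT.lf (nat_lit 8132) (nat_lit 6) (nat_lit 107) (nat_lit 2) (nat_lit 134) (nat_lit 146) (nat_lit 110)))) (PT.nd (nat_lit 78) (PT.lf (nat_lit 7676) (nat_lit 6) (nat_lit 101) (nat_lit 2) (nat_lit 135) (nat_lit 146) (nat_lit 109)) (PT.nd (nat_lit 78) (PT.lf (nat_lit 7220) (nat_lit 6) (nat_lit 95) (nat_lit 2) (nat_lit 136) (nat_lit 146) (nat_lit 108)) (PT.lf (nat_lit 6840) (nat_lit 6) (nat_lit 90) (nat_lit 2) (nat_lit 137) (nat_lit 146) (nat_lit 107)))))) (PT.nd (nat_lit 468) (PT.nd (nat_lit 234)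 (PT.nd (nat_lit 78) (PT.lf (nat_lit 6460) (nat_lit 6) (nat_lit 85) (nat_lit 2) (nat_lit 138) (nat_lit 146) (nat_lit 106)) (PT.nd (nat_lit 78) (PT.lf (nat_lit 6080) (nat_lit 6) (nat_lit 80) (nat_lit 2) (nat_lit 139) (nat_lit 146) (nat_lit 105)) (PT.lf (nat_lit 5700) (nat_lit 6) (nat_lit 75) (nat_lit 2) (nat_lit 140) (nat_lit 146) (nat_lit 104)))) (PT.nd (nat_lit 78) (PT.lf (nat_lit 5396) (nat_lit 6) (nat_lit 71) (nat_lit 2) (nat_lit 141) (nat_lit 146) (nat_lit 103)) (PT.nd (nat_lit 78) (PT.lf (nat_lit 5092) (nat_lit 6) (nat_lit 67) (nat_lit 2) (nat_lit 142) (nat_lit 146) (nat_lit 102)) (PT.lf (nat_lit 4788) (nat_lit 6) (nat_lit 63) (nat_lit 2) (nat_lit 143) (nat_lit 146) (nat_lit 101))))) (PT.nd (nat_lit 234) (PT.nd (nat_lit 78) (PT.lf (nat_lit 4484) (nat_lit 6) (nat_lit 59) (nat_lit 2) (nat_lit 144) (nat_lit 146) (nat_lit 100)) (PT.nd (nat_lit 78) (PT.lf (nat_lit 4256) (nat_lit 6) (nat_lit 56)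 (nat_lit 2) (nat_lit 145) (nat_lit 146) (nat_lit 99)) (PT.lf (nat_lit 3952) (nat_lit 3) (nat_lit 52) (nat_lit 0) (nat_lit 146) (nat_lit 146) (nat_lit 98)))) (PT.nd (nat_lit 78) (PT.lf (nat_lit 3648) (nat_lit 6) (nat_lit 48) (nat_lit 0) (nat_lit 147) (nat_lit 146) (nat_lit 97)) (PT.nd (nat_lit 78) (PT.lf (nat_lit 3344) (nat_lit 6) (nat_lit 44) (nat_lit 0) (nat_lit 148) (nat_lit 146) (nat_lit 96)) (PT.lf (nat_lit 3040) (nat_lit 6) (nat_lit 40) (nat_lit 0) (nat_lit 149) (nat_lit 146) (nat_lit 95))))))))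
noncomputable def pc28 : PT := (PT.nd (nat_lit 40092) (PT.nd (nat_lit 36816) (PT.nd (nat_lit 36348) (PT.nd (nat_lit 36114) (PT.nd (nat_lit 78) (PT.lf (nat_lit 2736) (nat_lit 6) (nat_lit 36) (nat_lit 0) (nat_lit 150) (nat_lit 146) (nat_lit 94)) (PT.lf (nat_lit 2508) (nat_lit 6) (nat_lit 33) (nat_lit 0) (nat_lit 151) (nat_lit 146) (nat_lit 93))) (PT.nd (nat_lit 78) (PT.lf (nat_lit 2280) (nat_lit 6) (nat_lit 30) (nat_lit 5) (nat_lit 92) (nat_lit 147) (nat_lit 151)) (PT.nd (nat_lit 78) (PT.lf (nat_lit 2584) (nat_lit 6) (nat_lit 34) (nat_lit 5) (nat_lit 93) (nat_lit 147) (nat_lit 150)) (PT.lf (nat_lit 2812) (nat_lit 6) (nat_lit 37) (nat_lit 5) (nat_lit 94) (nat_lit 147) (nat_lit 149))))) (PT.nd (nat_lit 234) (PT.nd (nat_lit 78) (PT.lf (nat_lit 3116) (nat_lit 6) (nat_lit 41) (nat_lit 5) (nat_lit 95) (nat_lit 147) (nat_lit 148)) (PT.nd (nat_lit 78) (PT.lf (nat_lit 3420) (nat_lit 3) (nat_lit 45) (nat_lit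 4) (nat_lit 96) (nat_lit 147) (nat_lit 147)) (PT.lf (nat_lit 3648) (nat_lit 6) (nat_lit 48) (nat_lit 4) (nat_lit 97) (nat_lit 147) (nat_lit 146)))) (PT.nd (nat_lit 78) (PT.lf (nat_lit 3876) (nat_lit 6) (nat_lit 51) (nat_lit 4) (nat_lit 98) (nat_lit 147) (nat_lit 145)) (PT.nd (nat_lit 78) (PT.lf (nat_lit 4180) (nat_lit 6) (nat_lit 55) (nat_lit 4) (nat_lit 99) (nat_lit 147) (nat_lit 144)) (PT.lf (nat_lit 4408) (nat_lit 6) (nat_lit 58) (nat_lit 4) (nat_lit 100) (nat_lit 147) (nat_lit 143)))))) (PT.nd (nat_lit 2808) (PT.nd (nat_lit 234) (PT.nd (nat_lit 78) (PT.lf (nat_lit 4712) (nat_lit 6) (nat_lit 62) (nat_lit 4) (nat_lit 101) (nat_lit 147) (nat_lit 142)) (PT.nd (nat_lit 78) (PT.lf (nat_lit 5016) (nat_lit 6) (nat_lit 66) (nat_lit 4) (nat_lit 102) (nat_lit 147) (nat_lit 141)) (PT.lf (nat_lit 5320) (nat_lit 6) (nat_lit 70) (nat_lit 4) (nat_lit 103) (nat_lit 147) (nat_lit 140)))) (PT.nd (nat_lit 78)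 (PT.lf (nat_lit 5624) (nat_lit 6) (nat_lit 74) (nat_lit 4) (nat_lit 104) (nat_lit 147) (nat_lit 139)) (PT.nd (nat_lit 78) (PT.lf (nat_lit 6004) (nat_lit 6) (nat_lit 79) (nat_lit 4) (nat_lit 105) (nat_lit 147) (nat_lit 138)) (PT.lf (nat_lit 6384) (nat_lit 6) (nat_lit 84) (nat_lit 4) (nat_lit 106) (nat_lit 147) (nat_lit 137))))) (PT.nd (nat_lit 234) (PT.nd (nat_lit 78) (PT.lf (nat_lit 6384) (nat_lit 6) (nat_lit 84) (nat_lit 2) (nat_lit 137) (nat_lit 147) (nat_lit 106)) (PT.nd (nat_lit 78) (PT.lf (nat_lit 6004) (nat_lit 6) (nat_lit 79) (nat_lit 2) (nat_lit 138) (nat_lit 147) (nat_lit 105)) (PT.lf (nat_lit 5624) (nat_lit 6) (nat_lit 74) (nat_lit 2) (nat_lit 139) (nat_lit 147) (nat_lit 104)))) (PT.nd (nat_lit 78) (PT.lf (nat_lit 5320) (nat_lit 6) (nat_lit 70) (nat_lit 2) (nat_lit 140) (nat_lit 147) (nat_lit 103)) (PT.nd (nat_lit 78) (PT.lf (nat_lit 5016) (nat_lit 6) (nat_lit 66) (nat_lit 2) (nat_lit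 141) (nat_lit 147) (nat_lit 102)) (PT.lf (nat_lit 4712) (nat_lit 6) (nat_lit 62) (nat_lit 2) (nat_lit 142) (nat_lit 147) (nat_lit 101))))))) (PT.nd (nat_lit 36660) (PT.nd (nat_lit 390) (PT.nd (nat_lit 156) (PT.nd (nat_lit 78) (PT.lf (nat_lit 4408) (nat_lit 6) (nat_lit 58) (nat_lit 2) (nat_lit 143) (nat_lit 147) (nat_lit 100)) (PT.lf (nat_lit 4180) (nat_lit 6) (nat_lit 55) (nat_lit 2) (nat_lit 144) (nat_lit 147) (nat_lit 99))) (PT.nd (nat_lit 78) (PT.lf (nat_lit 3876) (nat_lit 6) (nat_lit 51) (nat_lit 2) (nat_lit 145) (nat_lit 147) (nat_lit 98)) (PT.nd (nat_lit 78) (PT.lf (nat_lit 3648) (nat_lit 6) (nat_lit 48) (nat_lit 2) (nat_lit 146) (nat_lit 147) (nat_lit 97)) (PT.lf (nat_lit 3420) (nat_lit 3) (nat_lit 45) (nat_lit 0) (nat_lit 147) (nat_lit 147) (nat_lit 96))))) (PT.nd (nat_lit 234) (PT.nd (nat_lit 78) (PT.lf (nat_lit 3116) (nat_lit 6) (nat_lit 41) (nat_lit 0) (nat_lit 148) (nat_lit 147)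 (nat_lit 95)) (PT.nd (nat_lit 78) (PT.lf (nat_lit 2812) (nat_lit 6) (nat_lit 37) (nat_lit 0) (nat_lit 149) (nat_lit 147) (nat_lit 94)) (PT.lf (nat_lit 2584) (nat_lit 6) (nat_lit 34) (nat_lit 0) (nat_lit 150) (nat_lit 147) (nat_lit 93)))) (PT.nd (nat_lit 35880) (PT.lf (nat_lit 2280) (nat_lit 6) (nat_lit 30) (nat_lit 0) (nat_lit 151) (nat_lit 147) (nat_lit 92)) (PT.nd (nat_lit 78) (PT.lf (nat_lit 1900) (nat_lit 6) (nat_lit 25) (nat_lit 5) (nat_lit 90) (nat_lit 148) (nat_lit 152)) (PT.lf (nat_lit 2128) (nat_lit 6) (nat_lit 28) (nat_lit 5) (nat_lit 91) (nat_lit 148) (nat_lit 151)))))) (PT.nd (nat_lit 468) (PT.nd (nat_lit 234) (PT.nd (nat_lit 78) (PT.lf (nat_lit 2356) (nat_lit 6) (nat_lit 31) (nat_lit 5) (nat_lit 92) (nat_lit 148) (nat_lit 150)) (PT.nd (nat_lit 78) (PT.lf (nat_lit 2660) (nat_lit 6) (nat_lit 35) (nat_lit 5) (nat_lit 93) (nat_lit 148) (nat_lit 149)) (PT.lf (nat_lit 2888) (nat_lit 3)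 (nat_lit 38) (nat_lit 4) (nat_lit 94) (nat_lit 148) (nat_lit 148)))) (PT.nd (nat_lit 78) (PT.lf (nat_lit 3116) (nat_lit 6) (nat_lit 41) (nat_lit 4) (nat_lit 95) (nat_lit 148) (nat_lit 147)) (PT.nd (nat_lit 78) (PT.lf (nat_lit 3344) (nat_lit 6) (nat_lit 44) (nat_lit 4) (nat_lit 96) (nat_lit 148) (nat_lit 146)) (PT.lf (nat_lit 3572) (nat_lit 6) (nat_lit 47) (nat_lit 4) (nat_lit 97) (nat_lit 148) (nat_lit 145))))) (PT.nd (nat_lit 234) (PT.nd (nat_lit 78) (PT.lf (nat_lit 3800) (nat_lit 6) (nat_lit 50) (nat_lit 4) (nat_lit 98) (nat_lit 148) (nat_lit 144)) (PT.nd (nat_lit 78) (PT.lf (nat_lit 4104) (nat_lit 6) (nat_lit 54) (nat_lit 4) (nat_lit 99) (nat_lit 148) (nat_lit 143)) (PT.lf (nat_lit 4332) (nat_lit 6) (nat_lit 57) (nat_lit 4) (nat_lit 100) (nat_lit 148) (nat_lit 142)))) (PT.nd (nat_lit 78) (PT.lf (nat_lit 4636) (nat_lit 6) (nat_lit 61) (nat_lit 4) (nat_lit 101) (nat_lit 148) (nat_lit 141))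 (PT.nd (nat_lit 2964) (PT.lf (nat_lit 4940) (nat_lit 6) (nat_lit 65) (nat_lit 4) (nat_lit 102) (nat_lit 148) (nat_lit 140)) (PT.lf (nat_lit 4940) (nat_lit 6) (nat_lit 65) (nat_lit 2) (nat_lit 140) (nat_lit 148) (nat_lit 102))))))))
noncomputable def pc29 : PT := (PT.nd (nat_lit 40716) (PT.nd (nat_lit 858) (PT.nd (nat_lit 390) (PT.nd (nat_lit 156) (PT.nd (nat_lit 78) (PT.lf (nat_lit 4636) (nat_lit 6) (nat_lit 61) (nat_lit 2) (nat_lit 141) (nat_lit 148) (nat_lit 101)) (PT.lf (nat_lit 4332) (nat_lit 6) (nat_lit 57) (nat_lit 2) (nat_lit 142) (nat_lit 148) (nat_lit 100))) (PT.nd (nat_lit 78) (PT.lf (nat_lit 4104) (nat_lit 6) (nat_lit 54) (nat_lit 2) (nat_lit 143) (nat_lit 148) (nat_lit 99)) (PT.nd (nat_lit 78) (PT.lf (nat_lit 3800) (nat_lit 6) (nat_lit 50) (nat_lit 2) (nat_lit 144) (nat_lit 148) (nat_lit 98)) (PT.lf (nat_lit 3572) (nat_lit 6) (nat_lit 47) (nat_lit 2) (nat_lit 145) (nat_lit 148) (nat_lit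 97))))) (PT.nd (nat_lit 234) (PT.nd (nat_lit 78) (PT.lf (nat_lit 3344) (nat_lit 6) (nat_lit 44) (nat_lit 2) (nat_lit 146) (nat_lit 148) (nat_lit 96)) (PT.nd (nat_lit 78) (PT.lf (nat_lit 3116) (nat_lit 6) (nat_lit 41) (nat_lit 2) (nat_lit 147) (nat_lit 148) (nat_lit 95)) (PT.lf (nat_lit 2888) (nat_lit 3) (nat_lit 38) (nat_lit 0) (nat_lit 148) (nat_lit 148) (nat_lit 94)))) (PT.nd (nat_lit 78) (PT.lf (nat_lit 2660) (nat_lit 6) (nat_lit 35) (nat_lit 0) (nat_lit 149) (nat_lit 148) (nat_lit 93)) (PT.nd (nat_lit 78) (PT.lf (nat_lit 2356) (nat_lit 6) (nat_lit 31) (nat_lit 0) (nat_lit 150) (nat_lit 148) (nat_lit 92)) (PT.lf (nat_lit 2128) (nat_lit 6) (nat_lit 28) (nat_lit 0) (nat_lit 151) (nat_lit 148) (nat_lit 91)))))) (PT.nd (nat_lit 36114) (PT.nd (nat_lit 35880) (PT.nd (nat_lit 35724) (PT.lf (nat_lit 1900) (nat_lit 6) (nat_lit 25) (nat_lit 0) (nat_lit 152) (nat_lit 148) (nat_lit 90)) (PT.nd (nat_lit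 78) (PT.lf (nat_lit 1748) (nat_lit 6) (nat_lit 23) (nat_lit 5) (nat_lit 89) (nat_lit 149) (nat_lit 152)) (PT.lf (nat_lit 1976) (nat_lit 6) (nat_lit 26) (nat_lit 5) (nat_lit 90) (nat_lit 149) (nat_lit 151)))) (PT.nd (nat_lit 78) (PT.lf (nat_lit 2204) (nat_lit 6) (nat_lit 29) (nat_lit 5) (nat_lit 91) (nat_lit 149) (nat_lit 150)) (PT.nd (nat_lit 78) (PT.lf (nat_lit 2432) (nat_lit 3) (nat_lit 32) (nat_lit 4) (nat_lit 92) (nat_lit 149) (nat_lit 149)) (PT.lf (nat_lit 2660) (nat_lit 6) (nat_lit 35) (nat_lit 4) (nat_lit 93) (nat_lit 149) (nat_lit 148))))) (PT.nd (nat_lit 234) (PT.nd (nat_lit 78) (PT.lf (nat_lit 2812) (nat_lit 6) (nat_lit 37) (nat_lit 4) (nat_lit 94) (nat_lit 149) (nat_lit 147)) (PT.nd (nat_lit 78) (PT.lf (nat_lit 3040) (nat_lit 6) (nat_lit 40) (nat_lit 4) (nat_lit 95) (nat_lit 149) (nat_lit 146)) (PT.lf (nat_lit 3268) (nat_lit 6) (nat_lit 43) (nat_lit 4) (nat_lit 96) (nat_lit 149) (nat_lit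 145)))) (PT.nd (nat_lit 78) (PT.lf (nat_lit 3496) (nat_lit 6) (nat_lit 46) (nat_lit 4) (nat_lit 97) (nat_lit 149) (nat_lit 144)) (PT.nd (nat_lit 78) (PT.lf (nat_lit 3724) (nat_lit 6) (nat_lit 49) (nat_lit 4) (nat_lit 98) (nat_lit 149) (nat_lit 143)) (PT.lf (nat_lit 4028) (nat_lit 6) (nat_lit 53) (nat_lit 4) (nat_lit 99) (nat_lit 149) (nat_lit 142))))))) (PT.nd (nat_lit 36348) (PT.nd (nat_lit 390) (PT.nd (nat_lit 156) (PT.nd (nat_lit 78) (PT.lf (nat_lit 4028) (nat_lit 6) (nat_lit 53) (nat_lit 2) (nat_lit 142) (nat_lit 149) (nat_lit 99)) (PT.lf (nat_lit 3724) (nat_lit 6) (nat_lit 49) (nat_lit 2) (nat_lit 143) (nat_lit 149) (nat_lit 98))) (PT.nd (nat_lit 78) (PT.lf (nat_lit 3496) (nat_lit 6) (nat_lit 46) (nat_lit 2) (nat_lit 144) (nat_lit 149) (nat_lit 97)) (PT.nd (nat_lit 78) (PT.lf (nat_lit 3268) (nat_lit 6) (nat_lit 43) (nat_lit 2) (nat_lit 145) (nat_lit 149) (nat_lit 96)) (PT.lf (nat_lit 3040)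 (nat_lit 6) (nat_lit 40) (nat_lit 2) (nat_lit 146) (nat_lit 149) (nat_lit 95))))) (PT.nd (nat_lit 234) (PT.nd (nat_lit 78) (PT.lf (nat_lit 2812) (nat_lit 6) (nat_lit 37) (nat_lit 2) (nat_lit 147) (nat_lit 149) (nat_lit 94)) (PT.nd (nat_lit 78) (PT.lf (nat_lit 2660) (nat_lit 6) (nat_lit 35) (nat_lit 2) (nat_lit 148) (nat_lit 149) (nat_lit 93)) (PT.lf (nat_lit 2432) (nat_lit 3) (nat_lit 32) (nat_lit 0) (nat_lit 149) (nat_lit 149) (nat_lit 92)))) (PT.nd (nat_lit 78) (PT.lf (nat_lit 2204) (nat_lit 6) (nat_lit 29) (nat_lit 0) (nat_lit 150) (nat_lit 149) (nat_lit 91)) (PT.nd (nat_lit 78) (PT.lf (nat_lit 1976) (nat_lit 6) (nat_lit 26) (nat_lit 0) (nat_lit 151) (nat_lit 149) (nat_lit 90)) (PT.lf (nat_lit 1748) (nat_lit 6) (nat_lit 23) (nat_lit 0) (nat_lit 152) (nat_lit 149) (nat_lit 89)))))) (PT.nd (nat_lit 468) (PT.nd (nat_lit 234) (PT.nd (nat_lit 78) (PT.lf (nat_lit 1444) (nat_lit 6) (nat_lit 19)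 (nat_lit 5) (nat_lit 87) (nat_lit 150) (nat_lit 153)) (PT.nd (nat_lit 78) (PT.lf (nat_lit 1596) (nat_lit 6) (nat_lit 21) (nat_lit 5) (nat_lit 88) (nat_lit 150) (nat_lit 152)) (PT.lf (nat_lit 1824) (nat_lit 6) (nat_lit 24) (nat_lit 5) (nat_lit 89) (nat_lit 150) (nat_lit 151)))) (PT.nd (nat_lit 78) (PT.lf (nat_lit 2052) (nat_lit 3) (nat_lit 27) (nat_lit 4) (nat_lit 90) (nat_lit 150) (nat_lit 150)) (PT.nd (nat_lit 78) (PT.lf (nat_lit 2204) (nat_lit 6) (nat_lit 29) (nat_lit 4) (nat_lit 91) (nat_lit 150) (nat_lit 149)) (PT.lf (nat_lit 2356) (nat_lit 6) (nat_lit 31) (nat_lit 4) (nat_lit 92) (nat_lit 150) (nat_lit 148))))) (PT.nd (nat_lit 234) (PT.nd (nat_lit 78) (PT.lf (nat_lit 2584) (nat_lit 6) (nat_lit 34) (nat_lit 4) (nat_lit 93) (nat_lit 150) (nat_lit 147)) (PT.nd (nat_lit 78) (PT.lf (nat_lit 2736) (nat_lit 6) (nat_lit 36) (nat_lit 4) (nat_lit 94) (nat_lit 150) (nat_lit 146)) (PT.lf (nat_lit 2964)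 (nat_lit 6) (nat_lit 39) (nat_lit 4) (nat_lit 95) (nat_lit 150) (nat_lit 145)))) (PT.nd (nat_lit 3744) (PT.lf (nat_lit 3192) (nat_lit 6) (nat_lit 42) (nat_lit 4) (nat_lit 96) (nat_lit 150) (nat_lit 144)) (PT.nd (nat_lit 78) (PT.lf (nat_lit 3192) (nat_lit 6) (nat_lit 42) (nat_lit 2) (nat_lit 144) (nat_lit 150) (nat_lit 96)) (PT.lf (nat_lit 2964) (nat_lit 6) (nat_lit 39) (nat_lit 2) (nat_lit 145) (nat_lit 150) (nat_lit 95))))))))
noncomputable def pc30 : PT := (PT.nd (nat_lit 41106) (PT.nd (nat_lit 36114) (PT.nd (nat_lit 390) (PT.nd (nat_lit 156) (PT.nd (nat_lit 78) (PT.lf (nat_lit 2736) (nat_lit 6) (nat_lit 36) (nat_lit 2) (nat_lit 146) (nat_lit 150) (nat_lit 94)) (PT.lf (nat_lit 2584) (nat_lit 6) (nat_lit 34) (nat_lit 2) (nat_lit 147) (nat_lit 150) (nat_lit 93))) (PT.nd (nat_lit 78) (PT.lf (nat_lit 2356) (nat_lit 6) (nat_lit 31) (nat_lit 2) (nat_lit 148) (nat_lit 150) (nat_lit 92)) (PT.nd (nat_lit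 78) (PT.lf (nat_lit 2204) (nat_lit 6) (nat_lit 29) (nat_lit 2) (nat_lit 149) (nat_lit 150) (nat_lit 91)) (PT.lf (nat_lit 2052) (nat_lit 3) (nat_lit 27) (nat_lit 0) (nat_lit 150) (nat_lit 150) (nat_lit 90))))) (PT.nd (nat_lit 35490) (PT.nd (nat_lit 78) (PT.lf (nat_lit 1824) (nat_lit 6) (nat_lit 24) (nat_lit 0) (nat_lit 151) (nat_lit 150) (nat_lit 89)) (PT.nd (nat_lit 78) (PT.lf (nat_lit 1596) (nat_lit 6) (nat_lit 21) (nat_lit 0) (nat_lit 152) (nat_lit 150) (nat_lit 88)) (PT.lf (nat_lit 1444) (nat_lit 6) (nat_lit 19) (nat_lit 0) (nat_lit 153) (nat_lit 150) (nat_lit 87)))) (PT.nd (nat_lit 78) (PT.lf (nat_lit 1140) (nat_lit 6) (nat_lit 15) (nat_lit 5) (nat_lit 85) (nat_lit 151) (nat_lit 154)) (PT.nd (nat_lit 78) (PT.lf (nat_lit 1292) (nat_lit 6) (nat_lit 17) (nat_lit 5) (nat_lit 86) (nat_lit 151) (nat_lit 153)) (PT.lf (nat_lit 1520) (nat_lit 6) (nat_lit 20) (nat_lit 5) (nat_lit 87) (nat_lit 151)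 (nat_lit 152)))))) (PT.nd (nat_lit 4524) (PT.nd (nat_lit 234) (PT.nd (nat_lit 78) (PT.lf (nat_lit 1672) (nat_lit 3) (nat_lit 22) (nat_lit 4) (nat_lit 88) (nat_lit 151) (nat_lit 151)) (PT.nd (nat_lit 78) (PT.lf (nat_lit 1824) (nat_lit 6) (nat_lit 24) (nat_lit 4) (nat_lit 89) (nat_lit 151) (nat_lit 150)) (PT.lf (nat_lit 1976) (nat_lit 6) (nat_lit 26) (nat_lit 4) (nat_lit 90) (nat_lit 151) (nat_lit 149)))) (PT.nd (nat_lit 78) (PT.lf (nat_lit 2128) (nat_lit 6) (nat_lit 28) (nat_lit 4) (nat_lit 91) (nat_lit 151) (nat_lit 148)) (PT.nd (nat_lit 78) (PT.lf (nat_lit 2280) (nat_lit 6) (nat_lit 30) (nat_lit 4) (nat_lit 92) (nat_lit 151) (nat_lit 147)) (PT.lf (nat_lit 2508) (nat_lit 6) (nat_lit 33) (nat_lit 4) (nat_lit 93) (nat_lit 151) (nat_lit 146))))) (PT.nd (nat_lit 234) (PT.nd (nat_lit 78) (PT.lf (nat_lit 2508) (nat_lit 6) (nat_lit 33) (nat_lit 2) (nat_lit 146) (nat_lit 151) (nat_lit 93)) (PT.nd (nat_lit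 78) (PT.lf (nat_lit 2280) (nat_lit 6) (nat_lit 30) (nat_lit 2) (nat_lit 147) (nat_lit 151) (nat_lit 92)) (PT.lf (nat_lit 2128) (nat_lit 6) (nat_lit 28) (nat_lit 2) (nat_lit 148) (nat_lit 151) (nat_lit 91)))) (PT.nd (nat_lit 78) (PT.lf (nat_lit 1976) (nat_lit 6) (nat_lit 26) (nat_lit 2) (nat_lit 149) (nat_lit 151) (nat_lit 90)) (PT.nd (nat_lit 78) (PT.lf (nat_lit 1824) (nat_lit 6) (nat_lit 24) (nat_lit 2) (nat_lit 150) (nat_lit 151) (nat_lit 89)) (PT.lf (nat_lit 1672) (nat_lit 3) (nat_lit 22) (nat_lit 0) (nat_lit 151) (nat_lit 151) (nat_lit 88))))))) (PT.nd (nat_lit 40326) (PT.nd (nat_lit 35412) (PT.nd (nat_lit 156) (PT.nd (nat_lit 78) (PT.lf (nat_lit 1520) (nat_lit 6) (nat_lit 20) (nat_lit 0) (nat_lit 152) (nat_lit 151) (nat_lit 87)) (PT.lf (nat_lit 1292) (nat_lit 6) (nat_lit 17) (nat_lit 0) (nat_lit 153) (nat_lit 151) (nat_lit 86))) (PT.nd (nat_lit 35100) (PT.lf (nat_lit 1140) (nat_lit 6) (nat_lit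 15) (nat_lit 0) (nat_lit 154) (nat_lit 151) (nat_lit 85)) (PT.nd (nat_lit 78) (PT.lf (nat_lit 836) (nat_lit 6) (nat_lit 11) (nat_lit 5) (nat_lit 83) (nat_lit 152) (nat_lit 155)) (PT.lf (nat_lit 988) (nat_lit 6) (nat_lit 13) (nat_lit 5) (nat_lit 84) (nat_lit 152) (nat_lit 154))))) (PT.nd (nat_lit 234) (PT.nd (nat_lit 78) (PT.lf (nat_lit 1216) (nat_lit 6) (nat_lit 16) (nat_lit 5) (nat_lit 85) (nat_lit 152) (nat_lit 153)) (PT.nd (nat_lit 78) (PT.lf (nat_lit 1368) (nat_lit 3) (nat_lit 18) (nat_lit 4) (nat_lit 86) (nat_lit 152) (nat_lit 152)) (PT.lf (nat_lit 1520) (nat_lit 6) (nat_lit 20) (nat_lit 4) (nat_lit 87) (nat_lit 152) (nat_lit 151)))) (PT.nd (nat_lit 78) (PT.lf (nat_lit 1596) (nat_lit 6) (nat_lit 21) (nat_lit 4) (nat_lit 88) (nat_lit 152) (nat_lit 150)) (PT.nd (nat_lit 78) (PT.lf (nat_lit 1748) (nat_lit 6) (nat_lit 23) (nat_lit 4) (nat_lit 89) (nat_lit 152) (nat_lit 149)) (PT.lf (nat_lit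 1900) (nat_lit 6) (nat_lit 25) (nat_lit 4) (nat_lit 90) (nat_lit 152) (nat_lit 148)))))) (PT.nd (nat_lit 468) (PT.nd (nat_lit 234) (PT.nd (nat_lit 78) (PT.lf (nat_lit 1900) (nat_lit 6) (nat_lit 25) (nat_lit 2) (nat_lit 148) (nat_lit 152) (nat_lit 90)) (PT.nd (nat_lit 78) (PT.lf (nat_lit 1748) (nat_lit 6) (nat_lit 23) (nat_lit 2) (nat_lit 149) (nat_lit 152) (nat_lit 89)) (PT.lf (nat_lit 1596) (nat_lit 6) (nat_lit 21) (nat_lit 2) (nat_lit 150) (nat_lit 152) (nat_lit 88)))) (PT.nd (nat_lit 78) (PT.lf (nat_lit 1520) (nat_lit 6) (nat_lit 20) (nat_lit 2) (nat_lit 151) (nat_lit 152) (nat_lit 87)) (PT.nd (nat_lit 78) (PT.lf (nat_lit 1368) (nat_lit 3) (nat_lit 18) (nat_lit 0) (nat_lit 152) (nat_lit 152) (nat_lit 86)) (PT.lf (nat_lit 1216) (nat_lit 6) (nat_lit 16) (nat_lit 0) (nat_lit 153) (nat_lit 152) (nat_lit 85))))) (PT.nd (nat_lit 35100) (PT.nd (nat_lit 78) (PT.lf (nat_lit 988) (nat_lit 6) (nat_lit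 13) (nat_lit 0) (nat_lit 154) (nat_lit 152) (nat_lit 84)) (PT.nd (nat_lit 34944) (PT.lf (nat_lit 836) (nat_lit 6) (nat_lit 11) (nat_lit 0) (nat_lit 155) (nat_lit 152) (nat_lit 83)) (PT.lf (nat_lit 684) (nat_lit 6) (nat_lit 9) (nat_lit 5) (nat_lit 82) (nat_lit 153) (nat_lit 155)))) (PT.nd (nat_lit 78) (PT.lf (nat_lit 912) (nat_lit 6) (nat_lit 12) (nat_lit 5) (nat_lit 83) (nat_lit 153) (nat_lit 154)) (PT.nd (nat_lit 78) (PT.lf (nat_lit 1064) (nat_lit 3) (nat_lit 14) (nat_lit 4) (nat_lit 84) (nat_lit 153) (nat_lit 153)) (PT.lf (nat_lit 1216) (nat_lit 6) (nat_lit 16) (nat_lit 4) (nat_lit 85) (nat_lit 153) (nat_lit 152))))))))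
noncomputable def pc31 : PT := (PT.nd (nat_lit 80886) (PT.nd (nat_lit 40404) (PT.nd (nat_lit 5226) (PT.nd (nat_lit 4992) (PT.nd (nat_lit 78) (PT.lf (nat_lit 1292) (nat_lit 6) (nat_lit 17) (nat_lit 4) (nat_lit 86) (nat_lit 153) (nat_lit 151)) (PT.lf (nat_lit 1444) (nat_lit 6) (nat_lit 19) (nat_lit 4) (nat_lit 87) (nat_lit 153) (nat_lit 150))) (PT.nd (nat_lit 78) (PT.lf (nat_lit 1444) (nat_lit 6) (nat_lit 19) (nat_lit 2) (nat_lit 150) (nat_lit 153) (nat_lit 87)) (PT.nd (nat_lit 78) (PT.lf (nat_lit 1292) (nat_lit 6) (nat_lit 17) (nat_lit 2) (nat_lit 151) (nat_lit 153) (nat_lit 86)) (PT.lf (nat_lit 1216) (nat_lit 6) (nat_lit 16) (nat_lit 2) (nat_lit 152) (nat_lit 153) (nat_lit 85))))) (PT.nd (nat_lit 34944) (PT.nd (nat_lit 78) (PT.lf (nat_lit 1064) (nat_lit 3) (nat_lit 14) (nat_lit 0) (nat_lit 153) (nat_lit 153) (nat_lit 84)) (PT.nd (nat_lit 78) (PT.lf (nat_lit 912) (nat_lit 6) (nat_lit 12) (nat_lit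 0) (nat_lit 154) (nat_lit 153) (nat_lit 83)) (PT.lf (nat_lit 684) (nat_lit 6) (nat_lit 9) (nat_lit 0) (nat_lit 155) (nat_lit 153) (nat_lit 82)))) (PT.nd (nat_lit 78) (PT.lf (nat_lit 456) (nat_lit 6) (nat_lit 6) (nat_lit 5) (nat_lit 80) (nat_lit 154) (nat_lit 156)) (PT.nd (nat_lit 78) (PT.lf (nat_lit 608) (nat_lit 6) (nat_lit 8) (nat_lit 5) (nat_lit 81) (nat_lit 154) (nat_lit 155)) (PT.lf (nat_lit 760) (nat_lit 3) (nat_lit 10) (nat_lit 4) (nat_lit 82) (nat_lit 154) (nat_lit 154)))))) (PT.nd (nat_lit 5538) (PT.nd (nat_lit 5304) (PT.nd (nat_lit 78) (PT.lf (nat_lit 912) (nat_lit 6) (nat_lit 12) (nat_lit 4) (nat_lit 83) (nat_lit 154) (nat_lit 153)) (PT.nd (nat_lit 78) (PT.lf (nat_lit 988) (nat_lit 6) (nat_lit 13) (nat_lit 4) (nat_lit 84) (nat_lit 154) (nat_lit 152)) (PT.lf (nat_lit 1140) (nat_lit 6) (nat_lit 15) (nat_lit 4) (nat_lit 85) (nat_lit 154) (nat_lit 151)))) (PT.nd (nat_lit 78) (PT.lf (nat_lit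 1140) (nat_lit 6) (nat_lit 15) (nat_lit 2) (nat_lit 151) (nat_lit 154) (nat_lit 85)) (PT.nd (nat_lit 78) (PT.lf (nat_lit 988) (nat_lit 6) (nat_lit 13) (nat_lit 2) (nat_lit 152) (nat_lit 154) (nat_lit 84)) (PT.lf (nat_lit 912) (nat_lit 6) (nat_lit 12) (nat_lit 2) (nat_lit 153) (nat_lit 154) (nat_lit 83))))) (PT.nd (nat_lit 34710) (PT.nd (nat_lit 78) (PT.lf (nat_lit 760) (nat_lit 3) (nat_lit 10) (nat_lit 0) (nat_lit 154) (nat_lit 154) (nat_lit 82)) (PT.nd (nat_lit 78) (PT.lf (nat_lit 608) (nat_lit 6) (nat_lit 8) (nat_lit 0) (nat_lit 155) (nat_lit 154) (nat_lit 81)) (PT.lf (nat_lit 456) (nat_lit 6) (nat_lit 6) (nat_lit 0) (nat_lit 156) (nat_lit 154) (nat_lit 80)))) (PT.nd (nat_lit 78) (PT.lf (nat_lit 228) (nat_lit 6) (nat_lit 3) (nat_lit 5) (nat_lit 78) (nat_lit 155) (nat_lit 157)) (PT.nd (nat_lit 78) (PT.lf (nat_lit 380) (nat_lit 6) (nat_lit 5) (nat_lit 5) (nat_lit 79) (nat_lit 155) (nat_lit 156))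 (PT.lf (nat_lit 532) (nat_lit 3) (nat_lit 7) (nat_lit 4) (nat_lit 80) (nat_lit 155) (nat_lit 155))))))) (PT.nd (nat_lit 40482) (PT.nd (nat_lit 5694) (PT.nd (nat_lit 156) (PT.nd (nat_lit 78) (PT.lf (nat_lit 608) (nat_lit 6) (nat_lit 8) (nat_lit 4) (nat_lit 81) (nat_lit 155) (nat_lit 154)) (PT.lf (nat_lit 684) (nat_lit 6) (nat_lit 9) (nat_lit 4) (nat_lit 82) (nat_lit 155) (nat_lit 153))) (PT.nd (nat_lit 5382) (PT.lf (nat_lit 836) (nat_lit 6) (nat_lit 11) (nat_lit 4) (nat_lit 83) (nat_lit 155) (nat_lit 152)) (PT.nd (nat_lit 78) (PT.lf (nat_lit 836) (nat_lit 6) (nat_lit 11) (nat_lit 2) (nat_lit 152) (nat_lit 155) (nat_lit 83)) (PT.lf (nat_lit 684) (nat_lit 6) (nat_lit 9) (nat_lit 2) (nat_lit 153) (nat_lit 155) (nat_lit 82))))) (PT.nd (nat_lit 234) (PT.nd (nat_lit 78) (PT.lf (nat_lit 608) (nat_lit 6) (nat_lit 8) (nat_lit 2) (nat_lit 154) (nat_lit 155) (nat_lit 81)) (PT.nd (nat_lit 78) (PT.lf (nat_lit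 532) (nat_lit 3) (nat_lit 7) (nat_lit 0) (nat_lit 155) (nat_lit 155) (nat_lit 80)) (PT.lf (nat_lit 380) (nat_lit 6) (nat_lit 5) (nat_lit 0) (nat_lit 156) (nat_lit 155) (nat_lit 79)))) (PT.nd (nat_lit 34398) (PT.lf (nat_lit 228) (nat_lit 6) (nat_lit 3) (nat_lit 0) (nat_lit 157) (nat_lit 155) (nat_lit 78)) (PT.nd (nat_lit 78) (PT.lf (nat_lit 152) (nat_lit 6) (nat_lit 2) (nat_lit 5) (nat_lit 77) (nat_lit 156) (nat_lit 157)) (PT.lf (nat_lit 304) (nat_lit 3) (nat_lit 4) (nat_lit 4) (nat_lit 78) (nat_lit 156) (nat_lit 156)))))) (PT.nd (nat_lit 40404) (PT.nd (nat_lit 5928) (PT.nd (nat_lit 78) (PT.lf (nat_lit 380) (nat_lit 6) (nat_lit 5) (nat_lit 4) (nat_lit 79) (nat_lit 156) (nat_lit 155)) (PT.nd (nat_lit 5772) (PT.lf (nat_lit 456) (nat_lit 6) (nat_lit 6) (nat_lit 4) (nat_lit 80) (nat_lit 156) (nat_lit 154)) (PT.lf (nat_lit 456) (nat_lit 6) (nat_lit 6) (nat_lit 2) (nat_lit 154) (nat_lit 156) (nat_lit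 80)))) (PT.nd (nat_lit 78) (PT.lf (nat_lit 380) (nat_lit 6) (nat_lit 5) (nat_lit 2) (nat_lit 155) (nat_lit 156) (nat_lit 79)) (PT.nd (nat_lit 78) (PT.lf (nat_lit 304) (nat_lit 3) (nat_lit 4) (nat_lit 0) (nat_lit 156) (nat_lit 156) (nat_lit 78)) (PT.lf (nat_lit 152) (nat_lit 6) (nat_lit 2) (nat_lit 0) (nat_lit 157) (nat_lit 156) (nat_lit 77))))) (PT.nd (nat_lit 6162) (PT.nd (nat_lit 78) (PT.lf (nat_lit 76) (nat_lit 3) (nat_lit 1) (nat_lit 4) (nat_lit 76) (nat_lit 157) (nat_lit 157)) (PT.nd (nat_lit 78) (PT.lf (nat_lit 152) (nat_lit 6) (nat_lit 2) (nat_lit 4) (nat_lit 77) (nat_lit 157) (nat_lit 156)) (PT.lf (nat_lit 228) (nat_lit 6) (nat_lit 3) (nat_lit 4) (nat_lit 78) (nat_lit 157) (nat_lit 155)))) (PT.nd (nat_lit 78) (PT.lf (nat_lit 228) (nat_lit 6) (nat_lit 3) (nat_lit 2) (nat_lit 155) (nat_lit 157) (nat_lit 78)) (PT.nd (nat_lit 78) (PT.lf (nat_lit 152) (nat_lit 6) (nat_lit 2) (nat_lit 2) (nat_lit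 156) (nat_lit 157) (nat_lit 77)) (PT.lf (nat_lit 76) (nat_lit 3) (nat_lit 1) (nat_lit 0) (nat_lit 157) (nat_lit 157) (nat_lit 76))))))))
noncomputable def xc0 : XT := (XT.nd (nat_lit 162084) (nat_lit 0) (nat_lit 0) (XT.nd (nat_lit 121368) (nat_lit 0) (nat_lit 0) (XT.nd (nat_lit 80886) (nat_lit 0) (nat_lit 0) (XT.nd (nat_lit 40482) (nat_lit 0) (nat_lit 0) (XT.nd (nat_lit 40404) (nat_lit 0) (nat_lit 0) (XT.lf (nat_lit 0) (nat_lit 48043275059) (nat_lit 152) (nat_lit 638734994) (nat_lit 0) (nat_lit 47888929965) (nat_lit 2) (nat_lit 5) (nat_lit 4) (nat_lit 4) (nat_lit 2) (nat_lit 4) (nat_lit 403) (nat_lit 189) (nat_lit 188)) (XT.lf (nat_lit 0) (nat_lit 19535907122) (nat_lit 152) (nat_lit 5200845564) (nat_lit 0) (nat_lit 19535907122) (nat_lit 2) (nat_lit 5) (nat_lit 4) (nat_lit 4) (nat_lit 2) (nat_lit 4) (nat_lit 400) (nat_lit 190) (nat_lit 190))) (XT.nd (nat_lit 78) (nat_lit 0) (nat_lit 0) (XT.lf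 (nat_lit 0) (nat_lit 42050794613) (nat_lit 152) (nat_lit 7198468735) (nat_lit 0) (nat_lit 41891819166) (nat_lit 2) (nat_lit 5) (nat_lit 4) (nat_lit 4) (nat_lit 2) (nat_lit 4) (nat_lit 401) (nat_lit 190) (nat_lit 189)) (XT.nd (nat_lit 78) (nat_lit 0) (nat_lit 0) (XT.lf (nat_lit 0) (nat_lit 45081068452) (nat_lit 152) (nat_lit 3967072804) (nat_lit 0) (nat_lit 44767747911) (nat_lit 2) (nat_lit 5) (nat_lit 4) (nat_lit 4) (nat_lit 2) (nat_lit 4) (nat_lit 402) (nat_lit 190) (nat_lit 188)) (XT.lf (nat_lit 0) (nat_lit 48165283572) (nat_lit 152) (nat_lit 704679784) (nat_lit 0) (nat_lit 47702113426) (nat_lit 2) (nat_lit 5) (nat_lit 4) (nat_lit 4) (nat_lit 2) (nat_lit 4) (nat_lit 403) (nat_lit 190) (nat_lit 187))))) (XT.nd (nat_lit 234) (nat_lit 0) (nat_lit 0) (XT.nd (nat_lit 78) (nat_lit 0) (nat_lit 0) (XT.lf (nat_lit 0) (nat_lit 16720504049) (nat_lit 152) (nat_lit 8349645746) (nat_lit 0) (nat_lit 16720504049)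 (nat_lit 2) (nat_lit 5) (nat_lit 4) (nat_lit 4) (nat_lit 2) (nat_lit 4) (nat_lit 398) (nat_lit 191) (nat_lit 191)) (XT.nd (nat_lit 78) (nat_lit 0) (nat_lit 0) (XT.lf (nat_lit 0) (nat_lit 36305269061) (nat_lit 152) (nat_lit 13579538917) (nat_lit 0) (nat_lit 36141524351) (nat_lit 2) (nat_lit 5) (nat_lit 4) (nat_lit 4) (nat_lit 2) (nat_lit 4) (nat_lit 399) (nat_lit 191) (nat_lit 190)) (XT.lf (nat_lit 0) (nat_lit 39216239633) (nat_lit 152) (nat_lit 10436154591) (nat_lit 0) (nat_lit 38893519477) (nat_lit 2) (nat_lit 5) (nat_lit 4) (nat_lit 4) (nat_lit 2) (nat_lit 4) (nat_lit 400) (nat_lit 191) (nat_lit 189)))) (XT.nd (nat_lit 78) (nat_lit 0) (nat_lit 0) (XT.lf (nat_lit 0) (nat_lit 42176463381) (nat_lit 152) (nat_lit 7266391869) (nat_lit 0) (nat_lit 41699398131) (nat_lit 2) (nat_lit 5) (nat_lit 4) (nat_lit 4) (nat_lit 2) (nat_lit 4) (nat_lit 401) (nat_lit 191) (nat_lit 188)) (XT.nd (nat_lit 78) (nat_lit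 0) (nat_lit 0) (XT.lf (nat_lit 0) (nat_lit 45188526908) (nat_lit 152) (nat_lit 4067481056) (nat_lit 0) (nat_lit 44561612052) (nat_lit 2) (nat_lit 5) (nat_lit 4) (nat_lit 4) (nat_lit 2) (nat_lit 4) (nat_lit 402) (nat_lit 191) (nat_lit 187)) (XT.lf (nat_lit 0) (nat_lit 48255062113) (nat_lit 152) (nat_lit 836626987) (nat_lit 0) (nat_lit 47482662204) (nat_lit 2) (nat_lit 5) (nat_lit 4) (nat_lit 4) (nat_lit 2) (nat_lit 4) (nat_lit 403) (nat_lit 191) (nat_lit 186)))))) (XT.nd (nat_lit 390) (nat_lit 0) (nat_lit 0) (XT.nd (nat_lit 156) (nat_lit 0) (nat_lit 0) (XT.nd (nat_lit 78) (nat_lit 0) (nat_lit 0) (XT.lf (nat_lit 0) (nat_lit 14015897767) (nat_lit 152) (nat_lit 11421112417) (nat_lit 0) (nat_lit 14015897767) (nat_lit 2) (nat_lit 5) (nat_lit 4) (nat_lit 4) (nat_lit 2) (nat_lit 4) (nat_lit 396) (nat_lit 192) (nat_lit 192)) (XT.lf (nat_lit 0) (nat_lit 30789611043) (nat_lit 152) (nat_lit 19798138318)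 (nat_lit 0) (nat_lit 30620953992) (nat_lit 2) (nat_lit 5) (nat_lit 4) (nat_lit 4) (nat_lit 2) (nat_lit 4) (nat_lit 397) (nat_lit 192) (nat_lit 191))) (XT.nd (nat_lit 78) (nat_lit 0) (nat_lit 0) (XT.lf (nat_lit 0) (nat_lit 33589766249) (nat_lit 152) (nat_lit 16734788859) (nat_lit 0) (nat_lit 33257364488) (nat_lit 2) (nat_lit 5) (nat_lit 4) (nat_lit 4) (nat_lit 2) (nat_lit 4) (nat_lit 398) (nat_lit 192) (nat_lit 190)) (XT.nd (nat_lit 78) (nat_lit 0) (nat_lit 0) (XT.lf (nat_lit 0) (nat_lit 36434707892) (nat_lit 152) (nat_lit 13649499745) (nat_lit 0) (nat_lit 35943330685) (nat_lit 2) (nat_lit 5) (nat_lit 4) (nat_lit 4) (nat_lit 2) (nat_lit 4) (nat_lit 399) (nat_lit 192) (nat_lit 189)) (XT.lf (nat_lit 0) (nat_lit 39326921843) (nat_lit 152) (nat_lit 10539575091) (nat_lit 0) (nat_lit 38681199542) (nat_lit 2) (nat_lit 5) (nat_lit 4) (nat_lit 4) (nat_lit 2) (nat_lit 4) (nat_lit 400) (nat_lit 192) (nat_lit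 188))))) (XT.nd (nat_lit 40092) (nat_lit 0) (nat_lit 0) (XT.nd (nat_lit 78) (nat_lit 0) (nat_lit 0) (XT.lf (nat_lit 0) (nat_lit 42268935279) (nat_lit 152) (nat_lit 7402297487) (nat_lit 0) (nat_lit 41473363372) (nat_lit 2) (nat_lit 5) (nat_lit 4) (nat_lit 4) (nat_lit 2) (nat_lit 4) (nat_lit 401) (nat_lit 192) (nat_lit 187)) (XT.nd (nat_lit 78) (nat_lit 0) (nat_lit 0) (XT.lf (nat_lit 0) (nat_lit 45263318891) (nat_lit 152) (nat_lit 4234925624) (nat_lit 0) (nat_lit 44322261930) (nat_lit 2) (nat_lit 5) (nat_lit 4) (nat_lit 4) (nat_lit 2) (nat_lit 4) (nat_lit 402) (nat_lit 192) (nat_lit 186)) (XT.lf (nat_lit 0) (nat_lit 48312689131) (nat_lit 152) (nat_lit 1034691894) (nat_lit 0) (nat_lit 47230384545) (nat_lit 2) (nat_lit 5) (nat_lit 4) (nat_lit 4) (nat_lit 2) (nat_lit 4) (nat_lit 403) (nat_lit 192) (nat_lit 185)))) (XT.nd (nat_lit 78) (nat_lit 0) (nat_lit 0) (XT.lf (nat_lit 0) (nat_lit 11414203522)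 (nat_lit 152) (nat_lit 14422787450) (nat_lit 0) (nat_lit 11414203522) (nat_lit 2) (nat_lit 5) (nat_lit 4) (nat_lit 4) (nat_lit 2) (nat_lit 4) (nat_lit 394) (nat_lit 193) (nat_lit 193)) (XT.nd (nat_lit 78) (nat_lit 0) (nat_lit 0) (XT.lf (nat_lit 0) (nat_lit 25487626747) (nat_lit 152) (nat_lit 25869708288) (nat_lit 0) (nat_lit 25313909984) (nat_lit 2) (nat_lit 5) (nat_lit 4) (nat_lit 4) (nat_lit 2) (nat_lit 4) (nat_lit 395) (nat_lit 193) (nat_lit 192)) (XT.lf (nat_lit 0) (nat_lit 28185016431) (nat_lit 152) (nat_lit 22878787121) (nat_lit 0) (nat_lit 27842642617) (nat_lit 2) (nat_lit 5) (nat_lit 4) (nat_lit 4) (nat_lit 2) (nat_lit 4) (nat_lit 396) (nat_lit 193) (nat_lit 191))))))) (XT.nd (nat_lit 40560) (nat_lit 0) (nat_lit 0) (XT.nd (nat_lit 390) (nat_lit 0) (nat_lit 0) (XT.nd (nat_lit 156) (nat_lit 0) (nat_lit 0) (XT.nd (nat_lit 78) (nat_lit 0) (nat_lit 0) (XT.lf (nat_lit 0) (nat_lit 30922933039)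 (nat_lit 152) (nat_lit 19870197971) (nat_lit 0) (nat_lit 30416814515) (nat_lit 2) (nat_lit 5) (nat_lit 4) (nat_lit 4) (nat_lit 2) (nat_lit 4) (nat_lit 397) (nat_lit 193) (nat_lit 190)) (XT.lf (nat_lit 0) (nat_lit 33703768926) (nat_lit 152) (nat_lit 16841311974) (nat_lit 0) (nat_lit 33038674955) (nat_lit 2) (nat_lit 5) (nat_lit 4) (nat_lit 4) (nat_lit 2) (nat_lit 4) (nat_lit 398) (nat_lit 193) (nat_lit 189))) (XT.nd (nat_lit 78) (nat_lit 0) (nat_lit 0) (XT.lf (nat_lit 0) (nat_lit 36529953947) (nat_lit 152) (nat_lit 13789482531) (nat_lit 0) (nat_lit 35710514883) (nat_lit 2) (nat_lit 5) (nat_lit 4) (nat_lit 4) (nat_lit 2) (nat_lit 4) (nat_lit 399) (nat_lit 193) (nat_lit 188)) (XT.nd (nat_lit 78) (nat_lit 0) (nat_lit 0) (XT.lf (nat_lit 0) (nat_lit 39403957586) (nat_lit 152) (nat_lit 10712042996) (nat_lit 0) (nat_lit 38434668916) (nat_lit 2) (nat_lit 5) (nat_lit 4) (nat_lit 4) (nat_lit 2) (nat_lit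 4) (nat_lit 400) (nat_lit 193) (nat_lit 187)) (XT.lf (nat_lit 0) (nat_lit 42328291107) (nat_lit 152) (nat_lit 7606304342) (nat_lit 0) (nat_lit 41213517383) (nat_lit 2) (nat_lit 5) (nat_lit 4) (nat_lit 4) (nat_lit 2) (nat_lit 4) (nat_lit 401) (nat_lit 193) (nat_lit 186))))) (XT.nd (nat_lit 39936) (nat_lit 0) (nat_lit 0) (XT.nd (nat_lit 78) (nat_lit 0) (nat_lit 0) (XT.lf (nat_lit 0) (nat_lit 45305509753) (nat_lit 152) (nat_lit 4469552818) (nat_lit 0) (nat_lit 44049488404) (nat_lit 2) (nat_lit 5) (nat_lit 4) (nat_lit 4) (nat_lit 2) (nat_lit 4) (nat_lit 402) (nat_lit 193) (nat_lit 185)) (XT.nd (nat_lit 39780) (nat_lit 0) (nat_lit 0) (XT.lf (nat_lit 0) (nat_lit 48338214978) (nat_lit 152) (nat_lit 1299047574) (nat_lit 0) (nat_lit 46945060013) (nat_lit 2) (nat_lit 5) (nat_lit 4) (nat_lit 4) (nat_lit 2) (nat_lit 4) (nat_lit 403) (nat_lit 193) (nat_lit 184)) (XT.lf (nat_lit 0) (nat_lit 8907943438) (nat_lit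 152) (nat_lit 17361872865) (nat_lit 0) (nat_lit 8907943438) (nat_lit 2) (nat_lit 5) (nat_lit 4) (nat_lit 4) (nat_lit 2) (nat_lit 4) (nat_lit 392) (nat_lit 194) (nat_lit 194)))) (XT.nd (nat_lit 78) (nat_lit 0) (nat_lit 0) (XT.lf (nat_lit 0) (nat_lit 20383961999) (nat_lit 152) (nat_lit 31808987228) (nat_lit 0) (nat_lit 20205033734) (nat_lit 2) (nat_lit 5) (nat_lit 4) (nat_lit 4) (nat_lit 2) (nat_lit 4) (nat_lit 393) (nat_lit 194) (nat_lit 193)) (XT.nd (nat_lit 78) (nat_lit 0) (nat_lit 0) (XT.lf (nat_lit 0) (nat_lit 22986224567) (nat_lit 152) (nat_lit 28883234056) (nat_lit 0) (nat_lit 22633579539) (nat_lit 2) (nat_lit 5) (nat_lit 4) (nat_lit 4) (nat_lit 2) (nat_lit 4) (nat_lit 394) (nat_lit 194) (nat_lit 192)) (XT.lf (nat_lit 0) (nat_lit 25624948403) (nat_lit 152) (nat_lit 25943929731) (nat_lit 0) (nat_lit 25103646324) (nat_lit 2) (nat_lit 5) (nat_lit 4) (nat_lit 4) (nat_lit 2) (nat_lit 4) (nat_lit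 395) (nat_lit 194) (nat_lit 191)))))) (XT.nd (nat_lit 468) (nat_lit 0) (nat_lit 0) (XT.nd (nat_lit 234) (nat_lit 0) (nat_lit 0) (XT.nd (nat_lit 78) (nat_lit 0) (nat_lit 0) (XT.lf (nat_lit 0) (nat_lit 28302439187) (nat_lit 152) (nat_lit 22988505929) (nat_lit 0) (nat_lit 27617392398) (nat_lit 2) (nat_lit 5) (nat_lit 4) (nat_lit 4) (nat_lit 2) (nat_lit 4) (nat_lit 396) (nat_lit 194) (nat_lit 190)) (XT.nd (nat_lit 78) (nat_lit 0) (nat_lit 0) (XT.lf (nat_lit 0) (nat_lit 31021036475) (nat_lit 152) (nat_lit 20014380241) (nat_lit 0) (nat_lit 30177014239) (nat_lit 2) (nat_lit 5) (nat_lit 4) (nat_lit 4) (nat_lit 2) (nat_lit 4) (nat_lit 397) (nat_lit 194) (nat_lit 189)) (XT.lf (nat_lit 0) (nat_lit 33783115740) (nat_lit 152) (nat_lit 17018953916) (nat_lit 0) (nat_lit 32784748411) (nat_lit 2) (nat_lit 5) (nat_lit 4) (nat_lit 4) (nat_lit 2) (nat_lit 4) (nat_lit 398) (nat_lit 194) (nat_lit 188)))) (XT.nd (nat_lit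 78) (nat_lit 0) (nat_lit 0) (XT.lf (nat_lit 0) (nat_lit 36591090450) (nat_lit 152) (nat_lit 13999609592) (nat_lit 0) (nat_lit 35442873515) (nat_lit 2) (nat_lit 5) (nat_lit 4) (nat_lit 4) (nat_lit 2) (nat_lit 4) (nat_lit 399) (nat_lit 194) (nat_lit 187)) (XT.nd (nat_lit 78) (nat_lit 0) (nat_lit 0) (XT.lf (nat_lit 0) (nat_lit 39447414174) (nat_lit 152) (nat_lit 10953709006) (nat_lit 0) (nat_lit 38153712185) (nat_lit 2) (nat_lit 5) (nat_lit 4) (nat_lit 4) (nat_lit 2) (nat_lit 4) (nat_lit 400) (nat_lit 194) (nat_lit 186)) (XT.lf (nat_lit 0) (nat_lit 42354582729) (nat_lit 152) (nat_lit 7878590692) (nat_lit 0) (nat_lit 40919633115) (nat_lit 2) (nat_lit 5) (nat_lit 4) (nat_lit 4) (nat_lit 2) (nat_lit 4) (nat_lit 401) (nat_lit 194) (nat_lit 185))))) (XT.nd (nat_lit 39780) (nat_lit 0) (nat_lit 0) (XT.nd (nat_lit 78) (nat_lit 0) (nat_lit 0) (XT.lf (nat_lit 0) (nat_lit 45315136360) (nat_lit 152) (nat_lit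 4771567653) (nat_lit 0) (nat_lit 43743053129) (nat_lit 2) (nat_lit 5) (nat_lit 4) (nat_lit 4) (nat_lit 2) (nat_lit 4) (nat_lit 402) (nat_lit 194) (nat_lit 184)) (XT.nd (nat_lit 39624) (nat_lit 0) (nat_lit 0) (XT.lf (nat_lit 0) (nat_lit 48331661958) (nat_lit 152) (nat_lit 1629925016) (nat_lit 0) (nat_lit 46626439294) (nat_lit 2) (nat_lit 5) (nat_lit 4) (nat_lit 4) (nat_lit 2) (nat_lit 4) (nat_lit 403) (nat_lit 194) (nat_lit 183)) (XT.lf (nat_lit 0) (nat_lit 6490021793) (nat_lit 152) (nat_lit 20245253126) (nat_lit 0) (nat_lit 6490021793) (nat_lit 2) (nat_lit 5) (nat_lit 4) (nat_lit 4) (nat_lit 2) (nat_lit 4) (nat_lit 390) (nat_lit 195) (nat_lit 195)))) (XT.nd (nat_lit 78) (nat_lit 0) (nat_lit 0) (XT.lf (nat_lit 0) (nat_lit 15464051365) (nat_lit 152) (nat_lit 37630056440) (nat_lit 0) (nat_lit 15279755252) (nat_lit 2) (nat_lit 5) (nat_lit 4) (nat_lit 4) (nat_lit 2) (nat_lit 4) (nat_lit 391) (nat_lit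 195) (nat_lit 194)) (XT.nd (nat_lit 78) (nat_lit 0) (nat_lit 0) (XT.lf (nat_lit 0) (nat_lit 17978438926) (nat_lit 152) (nat_lit 34762534660) (nat_lit 0) (nat_lit 17615214547) (nat_lit 2) (nat_lit 5) (nat_lit 4) (nat_lit 4) (nat_lit 2) (nat_lit 4) (nat_lit 392) (nat_lit 195) (nat_lit 193)) (XT.lf (nat_lit 0) (nat_lit 20525403305) (nat_lit 152) (nat_lit 31885435313) (nat_lit 0) (nat_lit 19988462163) (nat_lit 2) (nat_lit 5) (nat_lit 4) (nat_lit 4) (nat_lit 2) (nat_lit 4) (nat_lit 393) (nat_lit 195) (nat_lit 192))))))))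
noncomputable def xc1 : XT := (XT.nd (nat_lit 41106) (nat_lit 0) (nat_lit 0) (XT.nd (nat_lit 40248) (nat_lit 0) (nat_lit 0) (XT.nd (nat_lit 390) (nat_lit 0) (nat_lit 0) (XT.nd (nat_lit 156) (nat_lit 0) (nat_lit 0) (XT.nd (nat_lit 78) (nat_lit 0) (nat_lit 0) (XT.lf (nat_lit 0) (nat_lit 23107170007) (nat_lit 152) (nat_lit 28996244428) (nat_lit 0) (nat_lit 22401571813) (nat_lit 2) (nat_lit 5) (nat_lit 4) (nat_lit 4) (nat_lit 2) (nat_lit 4) (nat_lit 394) (nat_lit 195) (nat_lit 191)) (XT.lf (nat_lit 0) (nat_lit 25725994942) (nat_lit 152) (nat_lit 26092437469) (nat_lit 0) (nat_lit 24856652039) (nat_lit 2) (nat_lit 5) (nat_lit 4) (nat_lit 4) (nat_lit 2) (nat_lit 4) (nat_lit 395) (nat_lit 195) (nat_lit 190))) (XT.nd (nat_lit 78) (nat_lit 0) (nat_lit 0) (XT.lf (nat_lit 0) (nat_lit 28384166407) (nat_lit 152) (nat_lit 23171477129) (nat_lit 0) (nat_lit 27355848057) (nat_lit 2) (nat_lit 5) (nat_lit 4) (nat_lit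 4) (nat_lit 2) (nat_lit 4) (nat_lit 396) (nat_lit 195) (nat_lit 189)) (XT.nd (nat_lit 78) (nat_lit 0) (nat_lit 0) (XT.lf (nat_lit 0) (nat_lit 31084007073) (nat_lit 152) (nat_lit 20230811113) (nat_lit 0) (nat_lit 29901343630) (nat_lit 2) (nat_lit 5) (nat_lit 4) (nat_lit 4) (nat_lit 2) (nat_lit 4) (nat_lit 397) (nat_lit 195) (nat_lit 188)) (XT.lf (nat_lit 0) (nat_lit 33827876026) (nat_lit 152) (nat_lit 17267869907) (nat_lit 0) (nat_lit 32495362978) (nat_lit 2) (nat_lit 5) (nat_lit 4) (nat_lit 4) (nat_lit 2) (nat_lit 4) (nat_lit 398) (nat_lit 195) (nat_lit 187))))) (XT.nd (nat_lit 234) (nat_lit 0) (nat_lit 0) (XT.nd (nat_lit 78) (nat_lit 0) (nat_lit 0) (XT.lf (nat_lit 0) (nat_lit 36618170821) (nat_lit 152) (nat_lit 14280064532) (nat_lit 0) (nat_lit 35140172718) (nat_lit 2) (nat_lit 5) (nat_lit 4) (nat_lit 4) (nat_lit 2) (nat_lit 4) (nat_lit 399) (nat_lit 195) (nat_lit 186)) (XT.nd (nat_lit 78)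 (nat_lit 0) (nat_lit 0) (XT.lf (nat_lit 0) (nat_lit 39457329579) (nat_lit 152) (nat_lit 11264784286) (nat_lit 0) (nat_lit 37838083852) (nat_lit 2) (nat_lit 5) (nat_lit 4) (nat_lit 4) (nat_lit 2) (nat_lit 4) (nat_lit 400) (nat_lit 195) (nat_lit 185)) (XT.lf (nat_lit 0) (nat_lit 42347833119) (nat_lit 152) (nat_lit 8219394457) (nat_lit 0) (nat_lit 40591453775) (nat_lit 2) (nat_lit 5) (nat_lit 4) (nat_lit 4) (nat_lit 2) (nat_lit 4) (nat_lit 401) (nat_lit 195) (nat_lit 184)))) (XT.nd (nat_lit 78) (nat_lit 0) (nat_lit 0) (XT.lf (nat_lit 0) (nat_lit 45292207124) (nat_lit 152) (nat_lit 5141234026) (nat_lit 0) (nat_lit 43402688346) (nat_lit 2) (nat_lit 5) (nat_lit 4) (nat_lit 4) (nat_lit 2) (nat_lit 4) (nat_lit 402) (nat_lit 195) (nat_lit 183)) (XT.nd (nat_lit 39468) (nat_lit 0) (nat_lit 0) (XT.lf (nat_lit 0) (nat_lit 48293024347) (nat_lit 152) (nat_lit 2027613336) (nat_lit 0) (nat_lit 46274243983) (nat_lit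 2) (nat_lit 5) (nat_lit 4) (nat_lit 4) (nat_lit 2) (nat_lit 4) (nat_lit 403) (nat_lit 195) (nat_lit 182)) (XT.lf (nat_lit 0) (nat_lit 4153701664) (nat_lit 152) (nat_lit 23079516249) (nat_lit 0) (nat_lit 4153701664) (nat_lit 2) (nat_lit 5) (nat_lit 4) (nat_lit 4) (nat_lit 2) (nat_lit 4) (nat_lit 388) (nat_lit 196) (nat_lit 196)))))) (XT.nd (nat_lit 390) (nat_lit 0) (nat_lit 0) (XT.nd (nat_lit 156) (nat_lit 0) (nat_lit 0) (XT.nd (nat_lit 78) (nat_lit 0) (nat_lit 0) (XT.lf (nat_lit 0) (nat_lit 10714070094) (nat_lit 152) (nat_lit 43346383522) (nat_lit 0) (nat_lit 10524245097) (nat_lit 2) (nat_lit 5) (nat_lit 4) (nat_lit 4) (nat_lit 2) (nat_lit 4) (nat_lit 389) (nat_lit 196) (nat_lit 195)) (XT.lf (nat_lit 0) (nat_lit 13147472197) (nat_lit 152) (nat_lit 40530458851) (nat_lit 0) (nat_lit 12773351086) (nat_lit 2) (nat_lit 5) (nat_lit 4) (nat_lit 4) (nat_lit 2) (nat_lit 4) (nat_lit 390) (nat_lit 196)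 (nat_lit 194))) (XT.nd (nat_lit 78) (nat_lit 0) (nat_lit 0) (XT.lf (nat_lit 0) (nat_lit 15609735910) (nat_lit 152) (nat_lit 37708797968) (nat_lit 0) (nat_lit 15056686534) (nat_lit 2) (nat_lit 5) (nat_lit 4) (nat_lit 4) (nat_lit 2) (nat_lit 4) (nat_lit 391) (nat_lit 196) (nat_lit 193)) (XT.nd (nat_lit 78) (nat_lit 0) (nat_lit 0) (XT.lf (nat_lit 0) (nat_lit 18103012728) (nat_lit 152) (nat_lit 34878935344) (nat_lit 0) (nat_lit 17376246589) (nat_lit 2) (nat_lit 5) (nat_lit 4) (nat_lit 4) (nat_lit 2) (nat_lit 4) (nat_lit 392) (nat_lit 196) (nat_lit 192)) (XT.lf (nat_lit 0) (nat_lit 20629481241) (nat_lit 152) (nat_lit 32038398284) (nat_lit 0) (nat_lit 19734058051) (nat_lit 2) (nat_lit 5) (nat_lit 4) (nat_lit 4) (nat_lit 2) (nat_lit 4) (nat_lit 393) (nat_lit 196) (nat_lit 191))))) (XT.nd (nat_lit 234) (nat_lit 0) (nat_lit 0) (XT.nd (nat_lit 78) (nat_lit 0) (nat_lit 0) (XT.lf (nat_lit 0) (nat_lit 23191349042)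 (nat_lit 152) (nat_lit 29184704764) (nat_lit 0) (nat_lit 22132181142) (nat_lit 2) (nat_lit 5) (nat_lit 4) (nat_lit 4) (nat_lit 2) (nat_lit 4) (nat_lit 394) (nat_lit 196) (nat_lit 190)) (XT.nd (nat_lit 78) (nat_lit 0) (nat_lit 0) (XT.lf (nat_lit 0) (nat_lit 25790854658) (nat_lit 152) (nat_lit 26315361267) (nat_lit 0) (nat_lit 24572711312) (nat_lit 2) (nat_lit 5) (nat_lit 4) (nat_lit 4) (nat_lit 2) (nat_lit 4) (nat_lit 395) (nat_lit 196) (nat_lit 189)) (XT.lf (nat_lit 0) (nat_lit 28430269501) (nat_lit 152) (nat_lit 23427860600) (nat_lit 0) (nat_lit 27057781061) (nat_lit 2) (nat_lit 5) (nat_lit 4) (nat_lit 4) (nat_lit 2) (nat_lit 4) (nat_lit 396) (nat_lit 196) (nat_lit 188)))) (XT.nd (nat_lit 78) (nat_lit 0) (nat_lit 0) (XT.lf (nat_lit 0) (nat_lit 31111899855) (nat_lit 152) (nat_lit 20519679702) (nat_lit 0) (nat_lit 29589561810) (nat_lit 2) (nat_lit 5) (nat_lit 4) (nat_lit 4) (nat_lit 2) (nat_lit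 4) (nat_lit 397) (nat_lit 196) (nat_lit 187)) (XT.nd (nat_lit 78) (nat_lit 0) (nat_lit 0) (XT.lf (nat_lit 0) (nat_lit 33838088894) (nat_lit 152) (nat_lit 17588277445) (nat_lit 0) (nat_lit 32170265794) (nat_lit 2) (nat_lit 5) (nat_lit 4) (nat_lit 4) (nat_lit 2) (nat_lit 4) (nat_lit 398) (nat_lit 196) (nat_lit 186)) (XT.lf (nat_lit 0) (nat_lit 36611218723) (nat_lit 152) (nat_lit 14631092410) (nat_lit 0) (nat_lit 34802147998) (nat_lit 2) (nat_lit 5) (nat_lit 4) (nat_lit 4) (nat_lit 2) (nat_lit 4) (nat_lit 399) (nat_lit 196) (nat_lit 185))))))) (XT.nd (nat_lit 40092) (nat_lit 0) (nat_lit 0) (XT.nd (nat_lit 39624) (nat_lit 0) (nat_lit 0) (XT.nd (nat_lit 156) (nat_lit 0) (nat_lit 0) (XT.nd (nat_lit 78) (nat_lit 0) (nat_lit 0) (XT.lf (nat_lit 0) (nat_lit 39433712466) (nat_lit 152) (nat_lit 11645540649) (nat_lit 0) (nat_lit 37487508124) (nat_lit 2) (nat_lit 5) (nat_lit 4) (nat_lit 4) (nat_lit 2) (nat_lit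 4) (nat_lit 400) (nat_lit 196) (nat_lit 184)) (XT.lf (nat_lit 0) (nat_lit 42308036379) (nat_lit 152) (nat_lit 8629013427) (nat_lit 0) (nat_lit 40228692604) (nat_lit 2) (nat_lit 5) (nat_lit 4) (nat_lit 4) (nat_lit 2) (nat_lit 4) (nat_lit 401) (nat_lit 196) (nat_lit 183))) (XT.nd (nat_lit 78) (nat_lit 0) (nat_lit 0) (XT.lf (nat_lit 0) (nat_lit 45236702009) (nat_lit 152) (nat_lit 5578874944) (nat_lit 0) (nat_lit 43028096648) (nat_lit 2) (nat_lit 5) (nat_lit 4) (nat_lit 4) (nat_lit 2) (nat_lit 4) (nat_lit 402) (nat_lit 196) (nat_lit 182)) (XT.nd (nat_lit 39312) (nat_lit 0) (nat_lit 0) (XT.lf (nat_lit 0) (nat_lit 48222268382) (nat_lit 152) (nat_lit 2492460030) (nat_lit 0) (nat_lit 45888166336) (nat_lit 2) (nat_lit 5) (nat_lit 4) (nat_lit 4) (nat_lit 2) (nat_lit 4) (nat_lit 403) (nat_lit 196) (nat_lit 181)) (XT.lf (nat_lit 0) (nat_lit 1892582878) (nat_lit 152) (nat_lit 25870973778) (nat_lit 0) (nat_lit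 1892582878) (nat_lit 2) (nat_lit 5) (nat_lit 4) (nat_lit 4) (nat_lit 2) (nat_lit 4) (nat_lit 386) (nat_lit 197) (nat_lit 197))))) (XT.nd (nat_lit 234) (nat_lit 0) (nat_lit 0) (XT.nd (nat_lit 78) (nat_lit 0) (nat_lit 0) (XT.lf (nat_lit 0) (nat_lit 6120888735) (nat_lit 152) (nat_lit 48970863433) (nat_lit 0) (nat_lit 5925368988) (nat_lit 2) (nat_lit 5) (nat_lit 4) (nat_lit 4) (nat_lit 2) (nat_lit 4) (nat_lit 387) (nat_lit 197) (nat_lit 196)) (XT.nd (nat_lit 78) (nat_lit 0) (nat_lit 0) (XT.lf (nat_lit 0) (nat_lit 8479854797) (nat_lit 152) (nat_lit 46200183674) (nat_lit 0) (nat_lit 8094510053) (nat_lit 2) (nat_lit 5) (nat_lit 4) (nat_lit 4) (nat_lit 2) (nat_lit 4) (nat_lit 388) (nat_lit 197) (nat_lit 195)) (XT.lf (nat_lit 0) (nat_lit 10864125175) (nat_lit 152) (nat_lit 43427487296) (nat_lit 0) (nat_lit 10294484318) (nat_lit 2) (nat_lit 5) (nat_lit 4) (nat_lit 4) (nat_lit 2) (nat_lit 4) (nat_lit 389)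 (nat_lit 197) (nat_lit 194)))) (XT.nd (nat_lit 78) (nat_lit 0) (nat_lit 0) (XT.lf (nat_lit 0) (nat_lit 13275783213) (nat_lit 152) (nat_lit 40650351555) (nat_lit 0) (nat_lit 12527214090) (nat_lit 2) (nat_lit 5) (nat_lit 4) (nat_lit 4) (nat_lit 2) (nat_lit 4) (nat_lit 390) (nat_lit 197) (nat_lit 193)) (XT.nd (nat_lit 78) (nat_lit 0) (nat_lit 0) (XT.lf (nat_lit 0) (nat_lit 15716936184) (nat_lit 152) (nat_lit 37866349828) (nat_lit 0) (nat_lit 14794650298) (nat_lit 2) (nat_lit 5) (nat_lit 4) (nat_lit 4) (nat_lit 2) (nat_lit 4) (nat_lit 391) (nat_lit 197) (nat_lit 192)) (XT.lf (nat_lit 0) (nat_lit 18189717135) (nat_lit 152) (nat_lit 35073049491) (nat_lit 0) (nat_lit 17098774198) (nat_lit 2) (nat_lit 5) (nat_lit 4) (nat_lit 4) (nat_lit 2) (nat_lit 4) (nat_lit 392) (nat_lit 197) (nat_lit 191)))))) (XT.nd (nat_lit 468) (nat_lit 0) (nat_lit 0) (XT.nd (nat_lit 234) (nat_lit 0) (nat_lit 0) (XT.nd (nat_lit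 78) (nat_lit 0) (nat_lit 0) (XT.lf (nat_lit 0) (nat_lit 20696286748) (nat_lit 152) (nat_lit 32268009796) (nat_lit 0) (nat_lit 19441599101) (nat_lit 2) (nat_lit 5) (nat_lit 4) (nat_lit 4) (nat_lit 2) (nat_lit 4) (nat_lit 393) (nat_lit 197) (nat_lit 190)) (XT.nd (nat_lit 78) (nat_lit 0) (nat_lit 0) (XT.lf (nat_lit 0) (nat_lit 23238835230) (nat_lit 152) (nat_lit 29448779739) (nat_lit 0) (nat_lit 21825172136) (nat_lit 2) (nat_lit 5) (nat_lit 4) (nat_lit 4) (nat_lit 2) (nat_lit 4) (nat_lit 394) (nat_lit 197) (nat_lit 189)) (XT.lf (nat_lit 0) (nat_lit 25819584224) (nat_lit 152) (nat_lit 26612895914) (nat_lit 0) (nat_lit 24251576037) (nat_lit 2) (nat_lit 5) (nat_lit 4) (nat_lit 4) (nat_lit 2) (nat_lit 4) (nat_lit 395) (nat_lit 197) (nat_lit 188)))) (XT.nd (nat_lit 78) (nat_lit 0) (nat_lit 0) (XT.lf (nat_lit 0) (nat_lit 28440788755) (nat_lit 152) (nat_lit 23757880364) (nat_lit 0) (nat_lit 26722930962)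 (nat_lit 2) (nat_lit 5) (nat_lit 4) (nat_lit 4) (nat_lit 2) (nat_lit 4) (nat_lit 396) (nat_lit 197) (nat_lit 187)) (XT.nd (nat_lit 78) (nat_lit 0) (nat_lit 0) (XT.lf (nat_lit 0) (nat_lit 31104739194) (nat_lit 152) (nat_lit 20881238416) (nat_lit 0) (nat_lit 29241396348) (nat_lit 2) (nat_lit 5) (nat_lit 4) (nat_lit 4) (nat_lit 2) (nat_lit 4) (nat_lit 397) (nat_lit 197) (nat_lit 186)) (XT.lf (nat_lit 0) (nat_lit 33813763267) (nat_lit 152) (nat_lit 17980456499) (nat_lit 0) (nat_lit 31809172795) (nat_lit 2) (nat_lit 5) (nat_lit 4) (nat_lit 4) (nat_lit 2) (nat_lit 4) (nat_lit 398) (nat_lit 197) (nat_lit 185))))) (XT.nd (nat_lit 234) (nat_lit 0) (nat_lit 0) (XT.nd (nat_lit 78) (nat_lit 0) (nat_lit 0) (XT.lf (nat_lit 0) (nat_lit 36570228081) (nat_lit 152) (nat_lit 15052999950) (nat_lit 0) (nat_lit 34428503993) (nat_lit 2) (nat_lit 5) (nat_lit 4) (nat_lit 4) (nat_lit 2) (nat_lit 4) (nat_lit 399) (nat_lit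 197) (nat_lit 184)) (XT.nd (nat_lit 78) (nat_lit 0) (nat_lit 0) (XT.lf (nat_lit 0) (nat_lit 39376542197) (nat_lit 152) (nat_lit 12096310795) (nat_lit 0) (nat_lit 37101678675) (nat_lit 2) (nat_lit 5) (nat_lit 4) (nat_lit 4) (nat_lit 2) (nat_lit 4) (nat_lit 400) (nat_lit 197) (nat_lit 183)) (XT.lf (nat_lit 0) (nat_lit 42235157736) (nat_lit 152) (nat_lit 9107805522) (nat_lit 0) (nat_lit 39831032628) (nat_lit 2) (nat_lit 5) (nat_lit 4) (nat_lit 4) (nat_lit 2) (nat_lit 4) (nat_lit 401) (nat_lit 197) (nat_lit 182)))) (XT.nd (nat_lit 78) (nat_lit 0) (nat_lit 0) (XT.lf (nat_lit 0) (nat_lit 45148572515) (nat_lit 152) (nat_lit 6084872814) (nat_lit 0) (nat_lit 42618950722) (nat_lit 2) (nat_lit 5) (nat_lit 4) (nat_lit 4) (nat_lit 2) (nat_lit 4) (nat_lit 402) (nat_lit 197) (nat_lit 181)) (XT.nd (nat_lit 39156) (nat_lit 0) (nat_lit 152) (XT.lf (nat_lit 0) (nat_lit 48119332239) (nat_lit 152) (nat_lit 3024871274)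 (nat_lit 0) (nat_lit 45467869003) (nat_lit 2) (nat_lit 5) (nat_lit 4) (nat_lit 4) (nat_lit 2) (nat_lit 4) (nat_lit 403) (nat_lit 197) (nat_lit 180)) (XT.lf (nat_lit 0) (nat_lit 27433528266) (nat_lit 76) (nat_lit 296483339) (nat_lit 76) (nat_lit 296483339) (nat_lit 4) (nat_lit 4) (nat_lit 5) (nat_lit 5) (nat_lit 5) (nat_lit 4) (nat_lit 384) (nat_lit 198) (nat_lit 198))))))))
noncomputable def xc2 : XT := (XT.nd (nat_lit 40638) (nat_lit 0) (nat_lit 0) (XT.nd (nat_lit 858) (nat_lit 0) (nat_lit 0) (XT.nd (nat_lit 390) (nat_lit 0) (nat_lit 0) (XT.nd (nat_lit 156) (nat_lit 0) (nat_lit 0) (XT.nd (nat_lit 78) (nat_lit 0) (nat_lit 0) (XT.lf (nat_lit 0) (nat_lit 1672030279) (nat_lit 152) (nat_lit 54515857377) (nat_lit 0) (nat_lit 1470644940) (nat_lit 2) (nat_lit 5) (nat_lit 4) (nat_lit 4) (nat_lit 2) (nat_lit 4) (nat_lit 385) (nat_lit 198) (nat_lit 197)) (XT.lf (nat_lit 0) (nat_lit 3962790769) (nat_lit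 152) (nat_lit 51784333267) (nat_lit 0) (nat_lit 3565885683) (nat_lit 2) (nat_lit 5) (nat_lit 4) (nat_lit 4) (nat_lit 2) (nat_lit 4) (nat_lit 386) (nat_lit 198) (nat_lit 196))) (XT.nd (nat_lit 78) (nat_lit 0) (nat_lit 0) (XT.lf (nat_lit 0) (nat_lit 6275445469) (nat_lit 152) (nat_lit 49054400320) (nat_lit 0) (nat_lit 5688715386) (nat_lit 2) (nat_lit 5) (nat_lit 4) (nat_lit 4) (nat_lit 2) (nat_lit 4) (nat_lit 387) (nat_lit 198) (nat_lit 195)) (XT.nd (nat_lit 78) (nat_lit 0) (nat_lit 0) (XT.lf (nat_lit 0) (nat_lit 8612015144) (nat_lit 152) (nat_lit 46323673159) (nat_lit 0) (nat_lit 7840988947) (nat_lit 2) (nat_lit 5) (nat_lit 4) (nat_lit 4) (nat_lit 2) (nat_lit 4) (nat_lit 388) (nat_lit 198) (nat_lit 194)) (XT.lf (nat_lit 0) (nat_lit 10974541457) (nat_lit 152) (nat_lit 43589765712) (nat_lit 0) (nat_lit 10024586995) (nat_lit 2) (nat_lit 5) (nat_lit 4) (nat_lit 4) (nat_lit 2) (nat_lit 4) (nat_lit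 389) (nat_lit 198) (nat_lit 193))))) (XT.nd (nat_lit 234) (nat_lit 0) (nat_lit 0) (XT.nd (nat_lit 78) (nat_lit 0) (nat_lit 0) (XT.lf (nat_lit 0) (nat_lit 13365088752) (nat_lit 152) (nat_lit 40850289126) (nat_lit 0) (nat_lit 12241417527) (nat_lit 2) (nat_lit 5) (nat_lit 4) (nat_lit 4) (nat_lit 2) (nat_lit 4) (nat_lit 390) (nat_lit 198) (nat_lit 192)) (XT.nd (nat_lit 78) (nat_lit 0) (nat_lit 0) (XT.lf (nat_lit 0) (nat_lit 15785745857) (nat_lit 152) (nat_lit 38102849685) (nat_lit 0) (nat_lit 14493417580) (nat_lit 2) (nat_lit 5) (nat_lit 4) (nat_lit 4) (nat_lit 2) (nat_lit 4) (nat_lit 391) (nat_lit 198) (nat_lit 191)) (XT.lf (nat_lit 0) (nat_lit 18238627908) (nat_lit 152) (nat_lit 35345046714) (nat_lit 0) (nat_lit 16782554922) (nat_lit 2) (nat_lit 5) (nat_lit 4) (nat_lit 4) (nat_lit 2) (nat_lit 4) (nat_lit 392) (nat_lit 198) (nat_lit 190)))) (XT.nd (nat_lit 78) (nat_lit 0) (nat_lit 0) (XT.lf (nat_lit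 0) (nat_lit 20725878201) (nat_lit 152) (nat_lit 32574470482) (nat_lit 0) (nat_lit 19110829768) (nat_lit 2) (nat_lit 5) (nat_lit 4) (nat_lit 4) (nat_lit 2) (nat_lit 4) (nat_lit 393) (nat_lit 198) (nat_lit 189)) (XT.nd (nat_lit 78) (nat_lit 0) (nat_lit 0) (XT.lf (nat_lit 0) (nat_lit 23249670061) (nat_lit 152) (nat_lit 29788700097) (nat_lit 0) (nat_lit 21480276534) (nat_lit 2) (nat_lit 5) (nat_lit 4) (nat_lit 4) (nat_lit 2) (nat_lit 4) (nat_lit 394) (nat_lit 198) (nat_lit 188)) (XT.lf (nat_lit 0) (nat_lit 25812208743) (nat_lit 152) (nat_lit 26985301390) (nat_lit 0) (nat_lit 23892965611) (nat_lit 2) (nat_lit 5) (nat_lit 4) (nat_lit 4) (nat_lit 2) (nat_lit 4) (nat_lit 395) (nat_lit 198) (nat_lit 187)))))) (XT.nd (nat_lit 390) (nat_lit 0) (nat_lit 0) (XT.nd (nat_lit 156) (nat_lit 0) (nat_lit 0) (XT.nd (nat_lit 78) (nat_lit 0) (nat_lit 0) (XT.lf (nat_lit 0) (nat_lit 28415733359) (nat_lit 152) (nat_lit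 24161824790) (nat_lit 0) (nat_lit 26351005173) (nat_lit 2) (nat_lit 5) (nat_lit 4) (nat_lit 4) (nat_lit 2) (nat_lit 4) (nat_lit 396) (nat_lit 198) (nat_lit 186)) (XT.lf (nat_lit 0) (nat_lit 31062518833) (nat_lit 152) (nat_lit 21315803182) (nat_lit 0) (nat_lit 28856543022) (nat_lit 2) (nat_lit 5) (nat_lit 4) (nat_lit 4) (nat_lit 2) (nat_lit 4) (nat_lit 397) (nat_lit 198) (nat_lit 185))) (XT.nd (nat_lit 78) (nat_lit 0) (nat_lit 0) (XT.lf (nat_lit 0) (nat_lit 33754877890) (nat_lit 152) (nat_lit 18444749750) (nat_lit 0) (nat_lit 31411768463) (nat_lit 2) (nat_lit 5) (nat_lit 4) (nat_lit 4) (nat_lit 2) (nat_lit 4) (nat_lit 398) (nat_lit 198) (nat_lit 184)) (XT.nd (nat_lit 78) (nat_lit 0) (nat_lit 0) (XT.lf (nat_lit 0) (nat_lit 36495163078) (nat_lit 152) (nat_lit 15546155807) (nat_lit 0) (nat_lit 34018914217) (nat_lit 2) (nat_lit 5) (nat_lit 4) (nat_lit 4) (nat_lit 2) (nat_lit 4) (nat_lit 399) (nat_lit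 198) (nat_lit 183)) (XT.lf (nat_lit 0) (nat_lit 39285768819) (nat_lit 152) (nat_lit 12617488601) (nat_lit 0) (nat_lit 36680258372) (nat_lit 2) (nat_lit 5) (nat_lit 4) (nat_lit 4) (nat_lit 2) (nat_lit 4) (nat_lit 400) (nat_lit 198) (nat_lit 182))))) (XT.nd (nat_lit 39156) (nat_lit 0) (nat_lit 152) (XT.nd (nat_lit 78) (nat_lit 0) (nat_lit 0) (XT.lf (nat_lit 0) (nat_lit 42129133508) (nat_lit 152) (nat_lit 9656189103) (nat_lit 0) (nat_lit 39398126375) (nat_lit 2) (nat_lit 5) (nat_lit 4) (nat_lit 4) (nat_lit 2) (nat_lit 4) (nat_lit 401) (nat_lit 198) (nat_lit 181)) (XT.nd (nat_lit 78) (nat_lit 0) (nat_lit 0) (XT.lf (nat_lit 0) (nat_lit 45027741637) (nat_lit 152) (nat_lit 6659669769) (nat_lit 0) (nat_lit 42174893062) (nat_lit 2) (nat_lit 5) (nat_lit 4) (nat_lit 4) (nat_lit 2) (nat_lit 4) (nat_lit 402) (nat_lit 198) (nat_lit 180)) (XT.lf (nat_lit 0) (nat_lit 47984125972) (nat_lit 152) (nat_lit 3625312281)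 (nat_lit 0) (nat_lit 45012984735) (nat_lit 2) (nat_lit 5) (nat_lit 4) (nat_lit 4) (nat_lit 2) (nat_lit 4) (nat_lit 403) (nat_lit 198) (nat_lit 179)))) (XT.nd (nat_lit 78) (nat_lit 0) (nat_lit 0) (XT.lf (nat_lit 0) (nat_lit 21681877314) (nat_lit 76) (nat_lit 2404286623) (nat_lit 76) (nat_lit 2404286623) (nat_lit 4) (nat_lit 4) (nat_lit 5) (nat_lit 5) (nat_lit 5) (nat_lit 4) (nat_lit 382) (nat_lit 199) (nat_lit 199)) (XT.nd (nat_lit 78) (nat_lit 0) (nat_lit 0) (XT.lf (nat_lit 0) (nat_lit 49051592547) (nat_lit 76) (nat_lit 2827966638) (nat_lit 76) (nat_lit 2614316932) (nat_lit 4) (nat_lit 4) (nat_lit 5) (nat_lit 5) (nat_lit 5) (nat_lit 4) (nat_lit 383) (nat_lit 199) (nat_lit 198)) (XT.lf (nat_lit 0) (nat_lit 54825300153) (nat_lit 76) (nat_lit 824747022) (nat_lit 76) (nat_lit 403670416) (nat_lit 4) (nat_lit 4) (nat_lit 5) (nat_lit 5) (nat_lit 5) (nat_lit 4) (nat_lit 384) (nat_lit 199) (nat_lit 197)))))))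 (XT.nd (nat_lit 858) (nat_lit 0) (nat_lit 0) (XT.nd (nat_lit 390) (nat_lit 0) (nat_lit 0) (XT.nd (nat_lit 156) (nat_lit 0) (nat_lit 0) (XT.nd (nat_lit 78) (nat_lit 0) (nat_lit 0) (XT.lf (nat_lit 0) (nat_lit 1831223715) (nat_lit 152) (nat_lit 54601900371) (nat_lit 0) (nat_lit 1226891729) (nat_lit 2) (nat_lit 5) (nat_lit 4) (nat_lit 4) (nat_lit 2) (nat_lit 4) (nat_lit 385) (nat_lit 199) (nat_lit 196)) (XT.lf (nat_lit 0) (nat_lit 4098915927) (nat_lit 152) (nat_lit 51911527437) (nat_lit 0) (nat_lit 3304758944) (nat_lit 2) (nat_lit 5) (nat_lit 4) (nat_lit 4) (nat_lit 2) (nat_lit 4) (nat_lit 386) (nat_lit 199) (nat_lit 195))) (XT.nd (nat_lit 78) (nat_lit 0) (nat_lit 0) (XT.lf (nat_lit 0) (nat_lit 6389174239) (nat_lit 152) (nat_lit 49221547088) (nat_lit 0) (nat_lit 5410721143) (nat_lit 2) (nat_lit 5) (nat_lit 4) (nat_lit 4) (nat_lit 2) (nat_lit 4) (nat_lit 387) (nat_lit 199) (nat_lit 194)) (XT.nd (nat_lit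 78) (nat_lit 0) (nat_lit 0) (XT.lf (nat_lit 0) (nat_lit 8703999849) (nat_lit 152) (nat_lit 46529608857) (nat_lit 0) (nat_lit 7546618487) (nat_lit 2) (nat_lit 5) (nat_lit 4) (nat_lit 4) (nat_lit 2) (nat_lit 4) (nat_lit 388) (nat_lit 199) (nat_lit 193)) (XT.lf (nat_lit 0) (nat_lit 11045415420) (nat_lit 152) (nat_lit 43833360565) (nat_lit 0) (nat_lit 9714317295) (nat_lit 2) (nat_lit 5) (nat_lit 4) (nat_lit 4) (nat_lit 2) (nat_lit 4) (nat_lit 389) (nat_lit 199) (nat_lit 192))))) (XT.nd (nat_lit 234) (nat_lit 0) (nat_lit 0) (XT.nd (nat_lit 78) (nat_lit 0) (nat_lit 0) (XT.lf (nat_lit 0) (nat_lit 13415466848) (nat_lit 152) (nat_lit 41130446266) (nat_lit 0) (nat_lit 11915711672) (nat_lit 2) (nat_lit 5) (nat_lit 4) (nat_lit 4) (nat_lit 2) (nat_lit 4) (nat_lit 390) (nat_lit 199) (nat_lit 191)) (XT.nd (nat_lit 78) (nat_lit 0) (nat_lit 0) (XT.lf (nat_lit 0) (nat_lit 15816225053) (nat_lit 152) (nat_lit 38418504192)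 (nat_lit 0) (nat_lit 14152725167) (nat_lit 2) (nat_lit 5) (nat_lit 4) (nat_lit 4) (nat_lit 2) (nat_lit 4) (nat_lit 391) (nat_lit 199) (nat_lit 190)) (XT.lf (nat_lit 0) (nat_lit 18249787784) (nat_lit 152) (nat_lit 35695164683) (nat_lit 0) (nat_lit 16427312452) (nat_lit 2) (nat_lit 5) (nat_lit 4) (nat_lit 4) (nat_lit 2) (nat_lit 4) (nat_lit 392) (nat_lit 199) (nat_lit 189)))) (XT.nd (nat_lit 78) (nat_lit 0) (nat_lit 0) (XT.lf (nat_lit 0) (nat_lit 20718281455) (nat_lit 152) (nat_lit 32958048122) (nat_lit 0) (nat_lit 18741461029) (nat_lit 2) (nat_lit 5) (nat_lit 4) (nat_lit 4) (nat_lit 2) (nat_lit 4) (nat_lit 393) (nat_lit 199) (nat_lit 188)) (XT.nd (nat_lit 78) (nat_lit 0) (nat_lit 0) (XT.lf (nat_lit 0) (nat_lit 23223863003) (nat_lit 152) (nat_lit 30204762855) (nat_lit 0) (nat_lit 21097192972) (nat_lit 2) (nat_lit 5) (nat_lit 4) (nat_lit 4) (nat_lit 2) (nat_lit 4) (nat_lit 394) (nat_lit 199) (nat_lit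 187)) (XT.lf (nat_lit 0) (nat_lit 25768721771) (nat_lit 152) (nat_lit 27432903098) (nat_lit 0) (nat_lit 23496566686) (nat_lit 2) (nat_lit 5) (nat_lit 4) (nat_lit 4) (nat_lit 2) (nat_lit 4) (nat_lit 395) (nat_lit 199) (nat_lit 186)))))) (XT.nd (nat_lit 468) (nat_lit 0) (nat_lit 0) (XT.nd (nat_lit 234) (nat_lit 0) (nat_lit 0) (XT.nd (nat_lit 78) (nat_lit 0) (nat_lit 0) (XT.lf (nat_lit 0) (nat_lit 28355081421) (nat_lit 152) (nat_lit 24640046838) (nat_lit 0) (nat_lit 25941678711) (nat_lit 2) (nat_lit 5) (nat_lit 4) (nat_lit 4) (nat_lit 2) (nat_lit 4) (nat_lit 396) (nat_lit 199) (nat_lit 185)) (XT.nd (nat_lit 78) (nat_lit 0) (nat_lit 0) (XT.lf (nat_lit 0) (nat_lit 30985201880) (nat_lit 152) (nat_lit 21823753715) (nat_lit 0) (nat_lit 28434665553) (nat_lit 2) (nat_lit 5) (nat_lit 4) (nat_lit 4) (nat_lit 2) (nat_lit 4) (nat_lit 397) (nat_lit 199) (nat_lit 184)) (XT.lf (nat_lit 0) (nat_lit 33661381311)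 (nat_lit 152) (nat_lit 18981562890) (nat_lit 0) (nat_lit 30977705550) (nat_lit 2) (nat_lit 5) (nat_lit 4) (nat_lit 4) (nat_lit 2) (nat_lit 4) (nat_lit 398) (nat_lit 199) (nat_lit 183)))) (XT.nd (nat_lit 78) (nat_lit 0) (nat_lit 0) (XT.lf (nat_lit 0) (nat_lit 36385958123) (nat_lit 152) (nat_lit 16110990895) (nat_lit 0) (nat_lit 33573020776) (nat_lit 2) (nat_lit 5) (nat_lit 4) (nat_lit 4) (nat_lit 2) (nat_lit 4) (nat_lit 399) (nat_lit 199) (nat_lit 182)) (XT.nd (nat_lit 78) (nat_lit 0) (nat_lit 0) (XT.lf (nat_lit 0) (nat_lit 39161313015) (nat_lit 152) (nat_lit 13209529465) (nat_lit 0) (nat_lit 36222878983) (nat_lit 2) (nat_lit 5) (nat_lit 4) (nat_lit 4) (nat_lit 2) (nat_lit 4) (nat_lit 400) (nat_lit 199) (nat_lit 181)) (XT.lf (nat_lit 0) (nat_lit 41989871053) (nat_lit 152) (nat_lit 10274643340) (nat_lit 0) (nat_lit 38929595579) (nat_lit 2) (nat_lit 5) (nat_lit 4) (nat_lit 4) (nat_lit 2) (nat_lit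 4) (nat_lit 401) (nat_lit 199) (nat_lit 180))))) (XT.nd (nat_lit 39000) (nat_lit 0) (nat_lit 152) (XT.nd (nat_lit 78) (nat_lit 0) (nat_lit 0) (XT.lf (nat_lit 0) (nat_lit 44874103794) (nat_lit 152) (nat_lit 7303768059) (nat_lit 0) (nat_lit 41695535657) (nat_lit 2) (nat_lit 5) (nat_lit 4) (nat_lit 4) (nat_lit 2) (nat_lit 4) (nat_lit 402) (nat_lit 199) (nat_lit 179)) (XT.nd (nat_lit 38844) (nat_lit 0) (nat_lit 152) (XT.lf (nat_lit 0) (nat_lit 47816531441) (nat_lit 152) (nat_lit 4294307709) (nat_lit 0) (nat_lit 44523116059) (nat_lit 2) (nat_lit 5) (nat_lit 4) (nat_lit 4) (nat_lit 2) (nat_lit 4) (nat_lit 403) (nat_lit 199) (nat_lit 178)) (XT.lf (nat_lit 0) (nat_lit 16135089029) (nat_lit 76) (nat_lit 4454838055) (nat_lit 76) (nat_lit 4454838055) (nat_lit 4) (nat_lit 4) (nat_lit 5) (nat_lit 5) (nat_lit 5) (nat_lit 4) (nat_lit 380) (nat_lit 200) (nat_lit 200)))) (XT.nd (nat_lit 78) (nat_lit 0) (nat_lit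 0) (XT.lf (nat_lit 0) (nat_lit 37756816439) (nat_lit 76) (nat_lit 6988356674) (nat_lit 76) (nat_lit 6768297476) (nat_lit 4) (nat_lit 4) (nat_lit 5) (nat_lit 5) (nat_lit 5) (nat_lit 4) (nat_lit 381) (nat_lit 200) (nat_lit 199)) (XT.nd (nat_lit 78) (nat_lit 0) (nat_lit 0) (XT.lf (nat_lit 0) (nat_lit 43320745557) (nat_lit 76) (nat_lit 5047307000) (nat_lit 76) (nat_lit 4613598096) (nat_lit 4) (nat_lit 4) (nat_lit 5) (nat_lit 5) (nat_lit 5) (nat_lit 4) (nat_lit 382) (nat_lit 200) (nat_lit 198)) (XT.lf (nat_lit 0) (nat_lit 48966827096) (nat_lit 76) (nat_lit 3084831027) (nat_lit 76) (nat_lit 2443695223) (nat_lit 4) (nat_lit 4) (nat_lit 5) (nat_lit 5) (nat_lit 5) (nat_lit 4) (nat_lit 383) (nat_lit 200) (nat_lit 197))))))))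
noncomputable def xc3 : XT := (XT.nd (nat_lit 40326) (nat_lit 0) (nat_lit 0) (XT.nd (nat_lit 858) (nat_lit 0) (nat_lit 0) (XT.nd (nat_lit 390) (nat_lit 0) (nat_lit 0) (XT.nd (nat_lit 156) (nat_lit 0) (nat_lit 0) (XT.nd (nat_lit 78) (nat_lit 152) (nat_lit 0) (XT.lf (nat_lit 0) (nat_lit 54699994527) (nat_lit 76) (nat_lit 1099213969) (nat_lit 76) (nat_lit 256692826) (nat_lit 4) (nat_lit 4) (nat_lit 5) (nat_lit 5) (nat_lit 5) (nat_lit 4) (nat_lit 384) (nat_lit 200) (nat_lit 196)) (XT.lf (nat_lit 0) (nat_lit 1948364348) (nat_lit 152) (nat_lit 54774061542) (nat_lit 0) (nat_lit 940557659) (nat_lit 2) (nat_lit 5) (nat_lit 4) (nat_lit 4) (nat_lit 2) (nat_lit 4) (nat_lit 385) (nat_lit 200) (nat_lit 195))) (XT.nd (nat_lit 78) (nat_lit 0) (nat_lit 0) (XT.lf (nat_lit 0) (nat_lit 4193660173) (nat_lit 152) (nat_lit 52123641206) (nat_lit 0) (nat_lit 3001557370) (nat_lit 2) (nat_lit 5) (nat_lit 4) (nat_lit 4)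 (nat_lit 2) (nat_lit 4) (nat_lit 386) (nat_lit 200) (nat_lit 194)) (XT.nd (nat_lit 78) (nat_lit 0) (nat_lit 0) (XT.lf (nat_lit 0) (nat_lit 6462174421) (nat_lit 152) (nat_lit 49472449787) (nat_lit 0) (nat_lit 5091143352) (nat_lit 2) (nat_lit 5) (nat_lit 4) (nat_lit 4) (nat_lit 2) (nat_lit 4) (nat_lit 387) (nat_lit 200) (nat_lit 193)) (XT.lf (nat_lit 0) (nat_lit 8755889288) (nat_lit 152) (nat_lit 46818170712) (nat_lit 0) (nat_lit 7211141457) (nat_lit 2) (nat_lit 5) (nat_lit 4) (nat_lit 4) (nat_lit 2) (nat_lit 4) (nat_lit 388) (nat_lit 200) (nat_lit 192))))) (XT.nd (nat_lit 234) (nat_lit 0) (nat_lit 0) (XT.nd (nat_lit 78) (nat_lit 0) (nat_lit 0) (XT.lf (nat_lit 0) (nat_lit 11076808992) (nat_lit 152) (nat_lit 44158484707) (nat_lit 0) (nat_lit 9363404110) (nat_lit 2) (nat_lit 5) (nat_lit 4) (nat_lit 4) (nat_lit 2) (nat_lit 4) (nat_lit 389) (nat_lit 200) (nat_lit 191)) (XT.nd (nat_lit 78) (nat_lit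 0) (nat_lit 0) (XT.lf (nat_lit 0) (nat_lit 13426961521) (nat_lit 152) (nat_lit 41491067774) (nat_lit 0) (nat_lit 11549811928) (nat_lit 2) (nat_lit 5) (nat_lit 4) (nat_lit 4) (nat_lit 2) (nat_lit 4) (nat_lit 390) (nat_lit 200) (nat_lit 190)) (XT.lf (nat_lit 0) (nat_lit 15808400405) (nat_lit 152) (nat_lit 38813589161) (nat_lit 0) (nat_lit 13772275367) (nat_lit 2) (nat_lit 5) (nat_lit 4) (nat_lit 4) (nat_lit 2) (nat_lit 4) (nat_lit 391) (nat_lit 200) (nat_lit 189)))) (XT.nd (nat_lit 78) (nat_lit 0) (nat_lit 0) (XT.lf (nat_lit 0) (nat_lit 18223206515) (nat_lit 152) (nat_lit 36123709324) (nat_lit 0) (nat_lit 16032736382) (nat_lit 2) (nat_lit 5) (nat_lit 4) (nat_lit 4) (nat_lit 2) (nat_lit 4) (nat_lit 392) (nat_lit 200) (nat_lit 188)) (XT.nd (nat_lit 78) (nat_lit 0) (nat_lit 0) (XT.lf (nat_lit 0) (nat_lit 20673489874) (nat_lit 152) (nat_lit 33419077882) (nat_lit 0) (nat_lit 18333170136) (nat_lit 2)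 (nat_lit 5) (nat_lit 4) (nat_lit 4) (nat_lit 2) (nat_lit 4) (nat_lit 393) (nat_lit 200) (nat_lit 187)) (XT.lf (nat_lit 0) (nat_lit 23161391507) (nat_lit 152) (nat_lit 30697331565) (nat_lit 0) (nat_lit 20675586716) (nat_lit 2) (nat_lit 5) (nat_lit 4) (nat_lit 4) (nat_lit 2) (nat_lit 4) (nat_lit 394) (nat_lit 200) (nat_lit 186)))))) (XT.nd (nat_lit 390) (nat_lit 0) (nat_lit 0) (XT.nd (nat_lit 156) (nat_lit 0) (nat_lit 0) (XT.nd (nat_lit 78) (nat_lit 0) (nat_lit 0) (XT.lf (nat_lit 0) (nat_lit 25689085309) (nat_lit 152) (nat_lit 27956092147) (nat_lit 0) (nat_lit 23062032892) (nat_lit 2) (nat_lit 5) (nat_lit 4) (nat_lit 4) (nat_lit 2) (nat_lit 4) (nat_lit 395) (nat_lit 200) (nat_lit 185)) (XT.lf (nat_lit 0) (nat_lit 28258779944) (nat_lit 152) (nat_lit 25192964372) (nat_lit 0) (nat_lit 25494593911) (nat_lit 2) (nat_lit 5) (nat_lit 4) (nat_lit 4) (nat_lit 2) (nat_lit 4) (nat_lit 396) (nat_lit 200)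 (nat_lit 184))) (XT.nd (nat_lit 78) (nat_lit 0) (nat_lit 0) (XT.lf (nat_lit 0) (nat_lit 30872720777) (nat_lit 152) (nat_lit 22405533856) (nat_lit 0) (nat_lit 27975395309) (nat_lit 2) (nat_lit 5) (nat_lit 4) (nat_lit 4) (nat_lit 2) (nat_lit 4) (nat_lit 397) (nat_lit 200) (nat_lit 183)) (XT.nd (nat_lit 78) (nat_lit 0) (nat_lit 0) (XT.lf (nat_lit 0) (nat_lit 33533191832) (nat_lit 152) (nat_lit 19591364979) (nat_lit 0) (nat_lit 30506604779) (nat_lit 2) (nat_lit 5) (nat_lit 4) (nat_lit 4) (nat_lit 2) (nat_lit 4) (nat_lit 398) (nat_lit 200) (nat_lit 182)) (XT.lf (nat_lit 0) (nat_lit 36242517795) (nat_lit 152) (nat_lit 16747998760) (nat_lit 0) (nat_lit 33090434056) (nat_lit 2) (nat_lit 5) (nat_lit 4) (nat_lit 4) (nat_lit 2) (nat_lit 4) (nat_lit 399) (nat_lit 200) (nat_lit 181))))) (XT.nd (nat_lit 234) (nat_lit 0) (nat_lit 0) (XT.nd (nat_lit 78) (nat_lit 0) (nat_lit 0) (XT.lf (nat_lit 0) (nat_lit 39003066036)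 (nat_lit 152) (nat_lit 13872950703) (nat_lit 0) (nat_lit 35729140855) (nat_lit 2) (nat_lit 5) (nat_lit 4) (nat_lit 4) (nat_lit 2) (nat_lit 4) (nat_lit 400) (nat_lit 200) (nat_lit 180)) (XT.nd (nat_lit 78) (nat_lit 0) (nat_lit 0) (XT.lf (nat_lit 0) (nat_lit 41817248686) (nat_lit 152) (nat_lit 10963708631) (nat_lit 0) (nat_lit 38425030843) (nat_lit 2) (nat_lit 5) (nat_lit 4) (nat_lit 4) (nat_lit 2) (nat_lit 4) (nat_lit 401) (nat_lit 200) (nat_lit 179)) (XT.lf (nat_lit 0) (nat_lit 44687524739) (nat_lit 152) (nat_lit 8017730488) (nat_lit 0) (nat_lit 41180459651) (nat_lit 2) (nat_lit 5) (nat_lit 4) (nat_lit 4) (nat_lit 2) (nat_lit 4) (nat_lit 402) (nat_lit 200) (nat_lit 178)))) (XT.nd (nat_lit 38688) (nat_lit 0) (nat_lit 152) (XT.lf (nat_lit 0) (nat_lit 47616402204) (nat_lit 152) (nat_lit 5032442117) (nat_lit 0) (nat_lit 43997834936) (nat_lit 2) (nat_lit 5) (nat_lit 4) (nat_lit 4) (nat_lit 2) (nat_lit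 4) (nat_lit 403) (nat_lit 200) (nat_lit 177)) (XT.nd (nat_lit 78) (nat_lit 0) (nat_lit 0) (XT.lf (nat_lit 0) (nat_lit 10777644289) (nat_lit 76) (nat_lit 6453336466) (nat_lit 76) (nat_lit 6453336466) (nat_lit 4) (nat_lit 4) (nat_lit 5) (nat_lit 5) (nat_lit 5) (nat_lit 4) (nat_lit 378) (nat_lit 201) (nat_lit 201)) (XT.lf (nat_lit 0) (nat_lit 26856036265) (nat_lit 76) (nat_lit 11039605109) (nat_lit 76) (nat_lit 10812944135) (nat_lit 4) (nat_lit 4) (nat_lit 5) (nat_lit 5) (nat_lit 5) (nat_lit 4) (nat_lit 379) (nat_lit 201) (nat_lit 200))))))) (XT.nd (nat_lit 858) (nat_lit 0) (nat_lit 0) (XT.nd (nat_lit 390) (nat_lit 152) (nat_lit 0) (XT.nd (nat_lit 156) (nat_lit 0) (nat_lit 0) (XT.nd (nat_lit 78) (nat_lit 0) (nat_lit 0) (XT.lf (nat_lit 0) (nat_lit 32225878715) (nat_lit 76) (nat_lit 9155571876) (nat_lit 76) (nat_lit 8708851705) (nat_lit 4) (nat_lit 4) (nat_lit 5) (nat_lit 5) (nat_lit 5) (nat_lit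 4) (nat_lit 380) (nat_lit 201) (nat_lit 199)) (XT.lf (nat_lit 0) (nat_lit 37669508025) (nat_lit 76) (nat_lit 7252926994) (nat_lit 76) (nat_lit 6592557116) (nat_lit 4) (nat_lit 4) (nat_lit 5) (nat_lit 5) (nat_lit 5) (nat_lit 4) (nat_lit 381) (nat_lit 201) (nat_lit 198))) (XT.nd (nat_lit 78) (nat_lit 0) (nat_lit 0) (XT.lf (nat_lit 0) (nat_lit 43191680762) (nat_lit 76) (nat_lit 5330007956) (nat_lit 76) (nat_lit 4462211179) (nat_lit 4) (nat_lit 4) (nat_lit 5) (nat_lit 5) (nat_lit 5) (nat_lit 4) (nat_lit 382) (nat_lit 201) (nat_lit 197)) (XT.nd (nat_lit 78) (nat_lit 0) (nat_lit 0) (XT.lf (nat_lit 0) (nat_lit 48797222126) (nat_lit 76) (nat_lit 3385134542) (nat_lit 76) (nat_lit 2315952425) (nat_lit 4) (nat_lit 4) (nat_lit 5) (nat_lit 5) (nat_lit 5) (nat_lit 4) (nat_lit 383) (nat_lit 201) (nat_lit 196)) (XT.lf (nat_lit 0) (nat_lit 54491030164) (nat_lit 76) (nat_lit 1416607348) (nat_lit 76) (nat_lit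 151905484) (nat_lit 4) (nat_lit 4) (nat_lit 5) (nat_lit 5) (nat_lit 5) (nat_lit 4) (nat_lit 384) (nat_lit 201) (nat_lit 195))))) (XT.nd (nat_lit 234) (nat_lit 0) (nat_lit 0) (XT.nd (nat_lit 78) (nat_lit 0) (nat_lit 0) (XT.lf (nat_lit 0) (nat_lit 2023554535) (nat_lit 152) (nat_lit 55032491322) (nat_lit 0) (nat_lit 611392535) (nat_lit 2) (nat_lit 5) (nat_lit 4) (nat_lit 4) (nat_lit 2) (nat_lit 4) (nat_lit 385) (nat_lit 201) (nat_lit 194)) (XT.nd (nat_lit 78) (nat_lit 0) (nat_lit 0) (XT.lf (nat_lit 0) (nat_lit 4247106295) (nat_lit 152) (nat_lit 52420859916) (nat_lit 0) (nat_lit 2656016029) (nat_lit 2) (nat_lit 5) (nat_lit 4) (nat_lit 4) (nat_lit 2) (nat_lit 4) (nat_lit 386) (nat_lit 201) (nat_lit 193)) (XT.lf (nat_lit 0) (nat_lit 6494509800) (nat_lit 152) (nat_lit 49807327653) (nat_lit 0) (nat_lit 4729702771) (nat_lit 2) (nat_lit 5) (nat_lit 4) (nat_lit 4) (nat_lit 2) (nat_lit 4) (nat_lit 387)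 (nat_lit 201) (nat_lit 192)))) (XT.nd (nat_lit 78) (nat_lit 0) (nat_lit 0) (XT.lf (nat_lit 0) (nat_lit 8767728801) (nat_lit 152) (nat_lit 47189610864) (nat_lit 0) (nat_lit 6834264721) (nat_lit 2) (nat_lit 5) (nat_lit 4) (nat_lit 4) (nat_lit 2) (nat_lit 4) (nat_lit 388) (nat_lit 201) (nat_lit 191)) (XT.nd (nat_lit 78) (nat_lit 0) (nat_lit 0) (XT.lf (nat_lit 0) (nat_lit 11068749605) (nat_lit 152) (nat_lit 44565422225) (nat_lit 0) (nat_lit 8971540815) (nat_lit 2) (nat_lit 5) (nat_lit 4) (nat_lit 4) (nat_lit 2) (nat_lit 4) (nat_lit 389) (nat_lit 201) (nat_lit 190)) (XT.lf (nat_lit 0) (nat_lit 13399582813) (nat_lit 152) (nat_lit 41932468754) (nat_lit 0) (nat_lit 11143398577) (nat_lit 2) (nat_lit 5) (nat_lit 4) (nat_lit 4) (nat_lit 2) (nat_lit 4) (nat_lit 390) (nat_lit 201) (nat_lit 189)))))) (XT.nd (nat_lit 468) (nat_lit 0) (nat_lit 0) (XT.nd (nat_lit 234) (nat_lit 0) (nat_lit 0) (XT.nd (nat_lit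 78) (nat_lit 0) (nat_lit 0) (XT.lf (nat_lit 0) (nat_lit 15762265076) (nat_lit 152) (nat_lit 39288449814) (nat_lit 0) (nat_lit 13351735746) (nat_lit 2) (nat_lit 5) (nat_lit 4) (nat_lit 4) (nat_lit 2) (nat_lit 4) (nat_lit 391) (nat_lit 201) (nat_lit 188)) (XT.nd (nat_lit 78) (nat_lit 0) (nat_lit 0) (XT.lf (nat_lit 0) (nat_lit 18158860874) (nat_lit 152) (nat_lit 36631055095) (nat_lit 0) (nat_lit 15598481938) (nat_lit 2) (nat_lit 5) (nat_lit 4) (nat_lit 4) (nat_lit 2) (nat_lit 4) (nat_lit 392) (nat_lit 201) (nat_lit 187)) (XT.lf (nat_lit 0) (nat_lit 20591464318) (nat_lit 152) (nat_lit 33957962602) (nat_lit 0) (nat_lit 17885600329) (nat_lit 2) (nat_lit 5) (nat_lit 4) (nat_lit 4) (nat_lit 2) (nat_lit 4) (nat_lit 393) (nat_lit 201) (nat_lit 186)))) (XT.nd (nat_lit 78) (nat_lit 0) (nat_lit 0) (XT.lf (nat_lit 0) (nat_lit 23062200986) (nat_lit 152) (nat_lit 31266836625) (nat_lit 0) (nat_lit 20215089372)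 (nat_lit 2) (nat_lit 5) (nat_lit 4) (nat_lit 4) (nat_lit 2) (nat_lit 4) (nat_lit 394) (nat_lit 201) (nat_lit 185)) (XT.nd (nat_lit 78) (nat_lit 0) (nat_lit 0) (XT.lf (nat_lit 0) (nat_lit 25573229773) (nat_lit 152) (nat_lit 28555325693) (nat_lit 0) (nat_lit 22588984542) (nat_lit 2) (nat_lit 5) (nat_lit 4) (nat_lit 4) (nat_lit 2) (nat_lit 4) (nat_lit 395) (nat_lit 201) (nat_lit 184)) (XT.lf (nat_lit 0) (nat_lit 28126744781) (nat_lit 152) (nat_lit 25821060524) (nat_lit 0) (nat_lit 25009360117) (nat_lit 2) (nat_lit 5) (nat_lit 4) (nat_lit 4) (nat_lit 2) (nat_lit 4) (nat_lit 396) (nat_lit 201) (nat_lit 183))))) (XT.nd (nat_lit 234) (nat_lit 0) (nat_lit 0) (XT.nd (nat_lit 78) (nat_lit 0) (nat_lit 0) (XT.lf (nat_lit 0) (nat_lit 30724977238) (nat_lit 152) (nat_lit 23061651956) (nat_lit 0) (nat_lit 27478330988) (nat_lit 2) (nat_lit 5) (nat_lit 4) (nat_lit 4) (nat_lit 2) (nat_lit 4) (nat_lit 397) (nat_lit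 201) (nat_lit 182)) (XT.nd (nat_lit 78) (nat_lit 0) (nat_lit 0) (XT.lf (nat_lit 0) (nat_lit 33370197445) (nat_lit 152) (nat_lit 20274688855) (nat_lit 0) (nat_lit 29998054508) (nat_lit 2) (nat_lit 5) (nat_lit 4) (nat_lit 4) (nat_lit 2) (nat_lit 4) (nat_lit 398) (nat_lit 201) (nat_lit 181)) (XT.lf (nat_lit 0) (nat_lit 36064716757) (nat_lit 152) (nat_lit 17457736010) (nat_lit 0) (nat_lit 32570732378) (nat_lit 2) (nat_lit 5) (nat_lit 4) (nat_lit 4) (nat_lit 2) (nat_lit 4) (nat_lit 399) (nat_lit 201) (nat_lit 180)))) (XT.nd (nat_lit 78) (nat_lit 0) (nat_lit 0) (XT.lf (nat_lit 0) (nat_lit 38810889610) (nat_lit 152) (nat_lit 14608332006) (nat_lit 0) (nat_lit 35198612569) (nat_lit 2) (nat_lit 5) (nat_lit 4) (nat_lit 4) (nat_lit 2) (nat_lit 4) (nat_lit 400) (nat_lit 201) (nat_lit 179)) (XT.nd (nat_lit 78) (nat_lit 0) (nat_lit 0) (XT.lf (nat_lit 0) (nat_lit 41611115572) (nat_lit 152) (nat_lit 11723987072)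 (nat_lit 0) (nat_lit 37883991286) (nat_lit 2) (nat_lit 5) (nat_lit 4) (nat_lit 4) (nat_lit 2) (nat_lit 4) (nat_lit 401) (nat_lit 201) (nat_lit 178)) (XT.lf (nat_lit 0) (nat_lit 44467841442) (nat_lit 152) (nat_lit 8802180907) (nat_lit 0) (nat_lit 40629214977) (nat_lit 2) (nat_lit 5) (nat_lit 4) (nat_lit 4) (nat_lit 2) (nat_lit 4) (nat_lit 402) (nat_lit 201) (nat_lit 177))))))))
noncomputable def xc4 : XT := (XT.nd (nat_lit 40170) (nat_lit 0) (nat_lit 0) (XT.nd (nat_lit 39312) (nat_lit 0) (nat_lit 0) (XT.nd (nat_lit 38844) (nat_lit 0) (nat_lit 0) (XT.nd (nat_lit 38610) (nat_lit 0) (nat_lit 152) (XT.nd (nat_lit 38532) (nat_lit 0) (nat_lit 152) (XT.lf (nat_lit 0) (nat_lit 47383563390) (nat_lit 152) (nat_lit 5840360477) (nat_lit 0) (nat_lit 43436682381) (nat_lit 2) (nat_lit 5) (nat_lit 4) (nat_lit 4) (nat_lit 2) (nat_lit 4) (nat_lit 403) (nat_lit 201) (nat_lit 176)) (XT.lf (nat_lit 0) (nat_lit 5594802054)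 (nat_lit 76) (nat_lit 8404739623) (nat_lit 76) (nat_lit 8404739623) (nat_lit 4) (nat_lit 4) (nat_lit 5) (nat_lit 5) (nat_lit 5) (nat_lit 4) (nat_lit 376) (nat_lit 202) (nat_lit 202))) (XT.nd (nat_lit 78) (nat_lit 0) (nat_lit 0) (XT.lf (nat_lit 0) (nat_lit 16319003932) (nat_lit 76) (nat_lit 14991867571) (nat_lit 76) (nat_lit 14758406768) (nat_lit 4) (nat_lit 4) (nat_lit 5) (nat_lit 5) (nat_lit 5) (nat_lit 4) (nat_lit 377) (nat_lit 202) (nat_lit 201)) (XT.nd (nat_lit 78) (nat_lit 0) (nat_lit 0) (XT.lf (nat_lit 0) (nat_lit 21509660254) (nat_lit 76) (nat_lit 13159945571) (nat_lit 76) (nat_lit 12699823795) (nat_lit 4) (nat_lit 4) (nat_lit 5) (nat_lit 5) (nat_lit 5) (nat_lit 4) (nat_lit 378) (nat_lit 202) (nat_lit 200)) (XT.lf (nat_lit 0) (nat_lit 26766108597) (nat_lit 76) (nat_lit 11312112538) (nat_lit 76) (nat_lit 10631931564) (nat_lit 4) (nat_lit 4) (nat_lit 5) (nat_lit 5) (nat_lit 5) (nat_lit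 4) (nat_lit 379) (nat_lit 202) (nat_lit 199))))) (XT.nd (nat_lit 234) (nat_lit 152) (nat_lit 0) (XT.nd (nat_lit 78) (nat_lit 0) (nat_lit 0) (XT.lf (nat_lit 0) (nat_lit 32092941977) (nat_lit 76) (nat_lit 9446753861) (nat_lit 76) (nat_lit 8552923181) (nat_lit 4) (nat_lit 4) (nat_lit 5) (nat_lit 5) (nat_lit 5) (nat_lit 4) (nat_lit 380) (nat_lit 202) (nat_lit 198)) (XT.nd (nat_lit 78) (nat_lit 0) (nat_lit 0) (XT.lf (nat_lit 0) (nat_lit 37494814906) (nat_lit 76) (nat_lit 7562239615) (nat_lit 76) (nat_lit 6460982035) (nat_lit 4) (nat_lit 4) (nat_lit 5) (nat_lit 5) (nat_lit 5) (nat_lit 4) (nat_lit 381) (nat_lit 202) (nat_lit 197)) (XT.lf (nat_lit 0) (nat_lit 42976447468) (nat_lit 76) (nat_lit 5656923136) (nat_lit 76) (nat_lit 4354280217) (nat_lit 4) (nat_lit 4) (nat_lit 5) (nat_lit 5) (nat_lit 5) (nat_lit 4) (nat_lit 382) (nat_lit 202) (nat_lit 196)))) (XT.nd (nat_lit 78) (nat_lit 152) (nat_lit 0)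 (XT.lf (nat_lit 0) (nat_lit 48542629440) (nat_lit 76) (nat_lit 3729139585) (nat_lit 76) (nat_lit 2230976919) (nat_lit 4) (nat_lit 4) (nat_lit 5) (nat_lit 5) (nat_lit 5) (nat_lit 4) (nat_lit 383) (nat_lit 202) (nat_lit 195)) (XT.nd (nat_lit 78) (nat_lit 152) (nat_lit 0) (XT.lf (nat_lit 0) (nat_lit 54198224475) (nat_lit 76) (nat_lit 1777204491) (nat_lit 76) (nat_lit 89216828) (nat_lit 4) (nat_lit 4) (nat_lit 5) (nat_lit 5) (nat_lit 5) (nat_lit 4) (nat_lit 384) (nat_lit 202) (nat_lit 194)) (XT.lf (nat_lit 0) (nat_lit 2056859976) (nat_lit 152) (nat_lit 55377415524) (nat_lit 0) (nat_lit 239108736) (nat_lit 2) (nat_lit 5) (nat_lit 4) (nat_lit 4) (nat_lit 2) (nat_lit 4) (nat_lit 385) (nat_lit 202) (nat_lit 193)))))) (XT.nd (nat_lit 390) (nat_lit 0) (nat_lit 0) (XT.nd (nat_lit 156) (nat_lit 0) (nat_lit 0) (XT.nd (nat_lit 78) (nat_lit 0) (nat_lit 0) (XT.lf (nat_lit 0) (nat_lit 4259300993) (nat_lit 152)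 (nat_lit 52803443273) (nat_lit 0) (nat_lit 2267832991) (nat_lit 2) (nat_lit 5) (nat_lit 4) (nat_lit 4) (nat_lit 2) (nat_lit 4) (nat_lit 386) (nat_lit 202) (nat_lit 192)) (XT.lf (nat_lit 0) (nat_lit 6486208631) (nat_lit 152) (nat_lit 50226473297) (nat_lit 0) (nat_lit 4326083578) (nat_lit 2) (nat_lit 5) (nat_lit 4) (nat_lit 4) (nat_lit 2) (nat_lit 4) (nat_lit 387) (nat_lit 202) (nat_lit 191))) (XT.nd (nat_lit 78) (nat_lit 0) (nat_lit 0) (XT.lf (nat_lit 0) (nat_lit 8739528732) (nat_lit 152) (nat_lit 47644253874) (nat_lit 0) (nat_lit 6415658969) (nat_lit 2) (nat_lit 5) (nat_lit 4) (nat_lit 4) (nat_lit 2) (nat_lit 4) (nat_lit 388) (nat_lit 202) (nat_lit 190)) (XT.nd (nat_lit 78) (nat_lit 0) (nat_lit 0) (XT.lf (nat_lit 0) (nat_lit 11021230216) (nat_lit 152) (nat_lit 45054528697) (nat_lit 0) (nat_lit 8538385006) (nat_lit 2) (nat_lit 5) (nat_lit 4) (nat_lit 4) (nat_lit 2) (nat_lit 4) (nat_lit 389) (nat_lit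 202) (nat_lit 189)) (XT.lf (nat_lit 0) (nat_lit 13333306803) (nat_lit 152) (nat_lit 42455034898) (nat_lit 0) (nat_lit 10696116500) (nat_lit 2) (nat_lit 5) (nat_lit 4) (nat_lit 4) (nat_lit 2) (nat_lit 4) (nat_lit 390) (nat_lit 202) (nat_lit 188))))) (XT.nd (nat_lit 234) (nat_lit 0) (nat_lit 0) (XT.nd (nat_lit 78) (nat_lit 0) (nat_lit 0) (XT.lf (nat_lit 0) (nat_lit 15677778754) (nat_lit 152) (nat_lit 39843501076) (nat_lit 0) (nat_lit 12890738845) (nat_lit 2) (nat_lit 5) (nat_lit 4) (nat_lit 4) (nat_lit 2) (nat_lit 4) (nat_lit 391) (nat_lit 202) (nat_lit 187)) (XT.nd (nat_lit 78) (nat_lit 0) (nat_lit 0) (XT.lf (nat_lit 0) (nat_lit 18056694637) (nat_lit 152) (nat_lit 37217645307) (nat_lit 0) (nat_lit 15124169674) (nat_lit 2) (nat_lit 5) (nat_lit 4) (nat_lit 4) (nat_lit 2) (nat_lit 4) (nat_lit 392) (nat_lit 202) (nat_lit 186)) (XT.lf (nat_lit 0) (nat_lit 20472133116) (nat_lit 152) (nat_lit 34575173154)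 (nat_lit 0) (nat_lit 17398360528) (nat_lit 2) (nat_lit 5) (nat_lit 4) (nat_lit 4) (nat_lit 2) (nat_lit 4) (nat_lit 393) (nat_lit 202) (nat_lit 185)))) (XT.nd (nat_lit 78) (nat_lit 0) (nat_lit 0) (XT.lf (nat_lit 0) (nat_lit 22926204768) (nat_lit 152) (nat_lit 31913775661) (nat_lit 0) (nat_lit 19715298564) (nat_lit 2) (nat_lit 5) (nat_lit 4) (nat_lit 4) (nat_lit 2) (nat_lit 4) (nat_lit 394) (nat_lit 202) (nat_lit 184)) (XT.nd (nat_lit 78) (nat_lit 0) (nat_lit 0) (XT.lf (nat_lit 0) (nat_lit 25421053928) (nat_lit 152) (nat_lit 29231127336) (nat_lit 0) (nat_lit 22077008290) (nat_lit 2) (nat_lit 5) (nat_lit 4) (nat_lit 4) (nat_lit 2) (nat_lit 4) (nat_lit 395) (nat_lit 202) (nat_lit 183)) (XT.lf (nat_lit 0) (nat_lit 27958860562) (nat_lit 152) (nat_lit 26524884116) (nat_lit 0) (nat_lit 24485553337) (nat_lit 2) (nat_lit 5) (nat_lit 4) (nat_lit 4) (nat_lit 2) (nat_lit 4) (nat_lit 396) (nat_lit 202) (nat_lit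 182))))))) (XT.nd (nat_lit 39156) (nat_lit 0) (nat_lit 0) (XT.nd (nat_lit 390) (nat_lit 0) (nat_lit 0) (XT.nd (nat_lit 156) (nat_lit 0) (nat_lit 0) (XT.nd (nat_lit 78) (nat_lit 0) (nat_lit 0) (XT.lf (nat_lit 0) (nat_lit 30541842169) (nat_lit 152) (nat_lit 23792681324) (nat_lit 0) (nat_lit 26943038259) (nat_lit 2) (nat_lit 5) (nat_lit 4) (nat_lit 4) (nat_lit 2) (nat_lit 4) (nat_lit 397) (nat_lit 202) (nat_lit 181)) (XT.lf (nat_lit 0) (nat_lit 33172255725) (nat_lit 152) (nat_lit 21032131596) (nat_lit 0) (nat_lit 29451610373) (nat_lit 2) (nat_lit 5) (nat_lit 4) (nat_lit 4) (nat_lit 2) (nat_lit 4) (nat_lit 398) (nat_lit 202) (nat_lit 180))) (XT.nd (nat_lit 78) (nat_lit 0) (nat_lit 0) (XT.lf (nat_lit 0) (nat_lit 35852399649) (nat_lit 152) (nat_lit 18240822803) (nat_lit 0) (nat_lit 32013461634) (nat_lit 2) (nat_lit 5) (nat_lit 4) (nat_lit 4) (nat_lit 2) (nat_lit 4) (nat_lit 399) (nat_lit 202) (nat_lit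 179)) (XT.nd (nat_lit 78) (nat_lit 0) (nat_lit 0) (XT.lf (nat_lit 0) (nat_lit 38584615814) (nat_lit 152) (nat_lit 15416315937) (nat_lit 0) (nat_lit 34630830554) (nat_lit 2) (nat_lit 5) (nat_lit 4) (nat_lit 4) (nat_lit 2) (nat_lit 4) (nat_lit 400) (nat_lit 202) (nat_lit 178)) (XT.lf (nat_lit 0) (nat_lit 41371291594) (nat_lit 152) (nat_lit 12556142983) (nat_lit 0) (nat_lit 37306004155) (nat_lit 2) (nat_lit 5) (nat_lit 4) (nat_lit 4) (nat_lit 2) (nat_lit 4) (nat_lit 401) (nat_lit 202) (nat_lit 177))))) (XT.nd (nat_lit 38532) (nat_lit 0) (nat_lit 152) (XT.nd (nat_lit 78) (nat_lit 0) (nat_lit 0) (XT.lf (nat_lit 0) (nat_lit 44214861947) (nat_lit 152) (nat_lit 9657804759) (nat_lit 0) (nat_lit 40041319965) (nat_lit 2) (nat_lit 5) (nat_lit 4) (nat_lit 4) (nat_lit 2) (nat_lit 4) (nat_lit 402) (nat_lit 202) (nat_lit 176)) (XT.nd (nat_lit 38376) (nat_lit 0) (nat_lit 152) (XT.lf (nat_lit 0) (nat_lit 47117811548)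 (nat_lit 152) (nat_lit 6718768737) (nat_lit 0) (nat_lit 42839168067) (nat_lit 2) (nat_lit 5) (nat_lit 4) (nat_lit 4) (nat_lit 2) (nat_lit 4) (nat_lit 403) (nat_lit 202) (nat_lit 175)) (XT.lf (nat_lit 0) (nat_lit 572551325) (nat_lit 76) (nat_lit 10313779788) (nat_lit 76) (nat_lit 10313779788) (nat_lit 4) (nat_lit 4) (nat_lit 5) (nat_lit 5) (nat_lit 5) (nat_lit 4) (nat_lit 374) (nat_lit 203) (nat_lit 203)))) (XT.nd (nat_lit 78) (nat_lit 0) (nat_lit 0) (XT.lf (nat_lit 0) (nat_lit 6116978782) (nat_lit 76) (nat_lit 18854833429) (nat_lit 76) (nat_lit 18614368802) (nat_lit 4) (nat_lit 4) (nat_lit 5) (nat_lit 5) (nat_lit 5) (nat_lit 4) (nat_lit 375) (nat_lit 203) (nat_lit 202)) (XT.nd (nat_lit 78) (nat_lit 0) (nat_lit 0) (XT.lf (nat_lit 0) (nat_lit 11142606935) (nat_lit 76) (nat_lit 17070350064) (nat_lit 76) (nat_lit 16596424634) (nat_lit 4) (nat_lit 4) (nat_lit 5) (nat_lit 5) (nat_lit 5) (nat_lit 4)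 (nat_lit 376) (nat_lit 203) (nat_lit 201)) (XT.lf (nat_lit 0) (nat_lit 16226378435) (nat_lit 76) (nat_lit 15272550224) (nat_lit 76) (nat_lit 14571963820) (nat_lit 4) (nat_lit 4) (nat_lit 5) (nat_lit 5) (nat_lit 5) (nat_lit 4) (nat_lit 377) (nat_lit 203) (nat_lit 200)))))) (XT.nd (nat_lit 468) (nat_lit 152) (nat_lit 0) (XT.nd (nat_lit 234) (nat_lit 0) (nat_lit 0) (XT.nd (nat_lit 78) (nat_lit 0) (nat_lit 0) (XT.lf (nat_lit 0) (nat_lit 21372735413) (nat_lit 76) (nat_lit 13459863015) (nat_lit 76) (nat_lit 12539217415) (nat_lit 4) (nat_lit 4) (nat_lit 5) (nat_lit 5) (nat_lit 5) (nat_lit 4) (nat_lit 378) (nat_lit 203) (nat_lit 199)) (XT.nd (nat_lit 78) (nat_lit 0) (nat_lit 0) (XT.lf (nat_lit 0) (nat_lit 26586174685) (nat_lit 76) (nat_lit 11630704538) (nat_lit 76) (nat_lit 10496409230) (nat_lit 4) (nat_lit 4) (nat_lit 5) (nat_lit 5) (nat_lit 5) (nat_lit 4) (nat_lit 379) (nat_lit 203) (nat_lit 198))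 (XT.lf (nat_lit 0) (nat_lit 31871251684) (nat_lit 76) (nat_lit 9783476496) (nat_lit 76) (nat_lit 8441754290) (nat_lit 4) (nat_lit 4) (nat_lit 5) (nat_lit 5) (nat_lit 5) (nat_lit 4) (nat_lit 380) (nat_lit 203) (nat_lit 197)))) (XT.nd (nat_lit 78) (nat_lit 0) (nat_lit 0) (XT.lf (nat_lit 0) (nat_lit 37232584439) (nat_lit 76) (nat_lit 7916564809) (nat_lit 76) (nat_lit 6373457263) (nat_lit 4) (nat_lit 4) (nat_lit 5) (nat_lit 5) (nat_lit 5) (nat_lit 4) (nat_lit 381) (nat_lit 203) (nat_lit 196)) (XT.nd (nat_lit 78) (nat_lit 0) (nat_lit 0) (XT.lf (nat_lit 0) (nat_lit 42674857608) (nat_lit 76) (nat_lit 6028338193) (nat_lit 76) (nat_lit 4289710900) (nat_lit 4) (nat_lit 4) (nat_lit 5) (nat_lit 5) (nat_lit 5) (nat_lit 4) (nat_lit 382) (nat_lit 203) (nat_lit 195)) (XT.lf (nat_lit 0) (nat_lit 48202826577) (nat_lit 76) (nat_lit 4117146743) (nat_lit 76) (nat_lit 2188694453) (nat_lit 4) (nat_lit 4) (nat_lit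 5) (nat_lit 5) (nat_lit 5) (nat_lit 4) (nat_lit 383) (nat_lit 203) (nat_lit 194))))) (XT.nd (nat_lit 234) (nat_lit 0) (nat_lit 0) (XT.nd (nat_lit 78) (nat_lit 152) (nat_lit 0) (XT.lf (nat_lit 0) (nat_lit 53821321609) (nat_lit 76) (nat_lit 2181320484) (nat_lit 76) (nat_lit 68572081) (nat_lit 4) (nat_lit 4) (nat_lit 5) (nat_lit 5) (nat_lit 5) (nat_lit 4) (nat_lit 384) (nat_lit 203) (nat_lit 193)) (XT.nd (nat_lit 78) (nat_lit 0) (nat_lit 0) (XT.lf (nat_lit 0) (nat_lit 1869907234) (nat_lit 76) (nat_lit 180134097) (nat_lit 152) (nat_lit 55630732999) (nat_lit 2) (nat_lit 5) (nat_lit 3) (nat_lit 5) (nat_lit 4) (nat_lit 4) (nat_lit 385) (nat_lit 203) (nat_lit 192)) (XT.lf (nat_lit 0) (nat_lit 4230254923) (nat_lit 152) (nat_lit 53271725573) (nat_lit 0) (nat_lit 1836669066) (nat_lit 2) (nat_lit 5) (nat_lit 4) (nat_lit 4) (nat_lit 2) (nat_lit 4) (nat_lit 386) (nat_lit 203) (nat_lit 191)))) (XT.nd (nat_lit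 78) (nat_lit 0) (nat_lit 0) (XT.lf (nat_lit 0) (nat_lit 6437263661) (nat_lit 152) (nat_lit 50730252963) (nat_lit 0) (nat_lit 3879933095) (nat_lit 2) (nat_lit 5) (nat_lit 4) (nat_lit 4) (nat_lit 2) (nat_lit 4) (nat_lit 387) (nat_lit 203) (nat_lit 190)) (XT.nd (nat_lit 78) (nat_lit 0) (nat_lit 0) (XT.lf (nat_lit 0) (nat_lit 8671264442) (nat_lit 152) (nat_lit 48182497003) (nat_lit 0) (nat_lit 5954958429) (nat_lit 2) (nat_lit 5) (nat_lit 4) (nat_lit 4) (nat_lit 2) (nat_lit 4) (nat_lit 388) (nat_lit 203) (nat_lit 189)) (XT.lf (nat_lit 0) (nat_lit 10934209304) (nat_lit 152) (nat_lit 45626231497) (nat_lit 0) (nat_lit 8063558198) (nat_lit 2) (nat_lit 5) (nat_lit 4) (nat_lit 4) (nat_lit 2) (nat_lit 4) (nat_lit 389) (nat_lit 203) (nat_lit 188))))))))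
noncomputable def xc5 : XT := (XT.nd (nat_lit 39858) (nat_lit 0) (nat_lit 0) (XT.nd (nat_lit 858) (nat_lit 0) (nat_lit 0) (XT.nd (nat_lit 390) (nat_lit 0) (nat_lit 0) (XT.nd (nat_lit 156) (nat_lit 0) (nat_lit 0) (XT.nd (nat_lit 78) (nat_lit 0) (nat_lit 0) (XT.lf (nat_lit 0) (nat_lit 13228075579) (nat_lit 152) (nat_lit 43059222817) (nat_lit 0) (nat_lit 10207574867) (nat_lit 2) (nat_lit 5) (nat_lit 4) (nat_lit 4) (nat_lit 2) (nat_lit 4) (nat_lit 390) (nat_lit 203) (nat_lit 187)) (XT.lf (nat_lit 0) (nat_lit 15554867616) (nat_lit 152) (nat_lit 40479227944) (nat_lit 0) (nat_lit 12388881850) (nat_lit 2) (nat_lit 5) (nat_lit 4) (nat_lit 4) (nat_lit 2) (nat_lit 4) (nat_lit 391) (nat_lit 203) (nat_lit 186))) (XT.nd (nat_lit 78) (nat_lit 0) (nat_lit 0) (XT.lf (nat_lit 0) (nat_lit 17916618533) (nat_lit 152) (nat_lit 37883992514) (nat_lit 0) (nat_lit 14609385142) (nat_lit 2) (nat_lit 5) (nat_lit 4) (nat_lit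 4) (nat_lit 2) (nat_lit 4) (nat_lit 392) (nat_lit 203) (nat_lit 185)) (XT.nd (nat_lit 78) (nat_lit 0) (nat_lit 0) (XT.lf (nat_lit 0) (nat_lit 20315391996) (nat_lit 152) (nat_lit 35271248847) (nat_lit 0) (nat_lit 16871024989) (nat_lit 2) (nat_lit 5) (nat_lit 4) (nat_lit 4) (nat_lit 2) (nat_lit 4) (nat_lit 393) (nat_lit 203) (nat_lit 184)) (XT.lf (nat_lit 0) (nat_lit 22753284022) (nat_lit 152) (nat_lit 32638713961) (nat_lit 0) (nat_lit 19175777581) (nat_lit 2) (nat_lit 5) (nat_lit 4) (nat_lit 4) (nat_lit 2) (nat_lit 4) (nat_lit 394) (nat_lit 203) (nat_lit 183))))) (XT.nd (nat_lit 234) (nat_lit 0) (nat_lit 0) (XT.nd (nat_lit 78) (nat_lit 0) (nat_lit 0) (XT.lf (nat_lit 0) (nat_lit 25232424807) (nat_lit 152) (nat_lit 29984087584) (nat_lit 0) (nat_lit 21525656780) (nat_lit 2) (nat_lit 5) (nat_lit 4) (nat_lit 4) (nat_lit 2) (nat_lit 4) (nat_lit 395) (nat_lit 203) (nat_lit 182)) (XT.nd (nat_lit 78)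 (nat_lit 0) (nat_lit 0) (XT.lf (nat_lit 0) (nat_lit 27754980591) (nat_lit 152) (nat_lit 27305050140) (nat_lit 0) (nat_lit 23922715878) (nat_lit 2) (nat_lit 5) (nat_lit 4) (nat_lit 4) (nat_lit 2) (nat_lit 4) (nat_lit 396) (nat_lit 203) (nat_lit 181)) (XT.lf (nat_lit 0) (nat_lit 30323155548) (nat_lit 152) (nat_lit 24599260721) (nat_lit 0) (nat_lit 26369049393) (nat_lit 2) (nat_lit 5) (nat_lit 4) (nat_lit 4) (nat_lit 2) (nat_lit 4) (nat_lit 397) (nat_lit 203) (nat_lit 180)))) (XT.nd (nat_lit 78) (nat_lit 0) (nat_lit 0) (XT.lf (nat_lit 0) (nat_lit 32939193716) (nat_lit 152) (nat_lit 21864355046) (nat_lit 0) (nat_lit 28866794898) (nat_lit 2) (nat_lit 5) (nat_lit 4) (nat_lit 4) (nat_lit 2) (nat_lit 4) (nat_lit 398) (nat_lit 203) (nat_lit 179)) (XT.nd (nat_lit 78) (nat_lit 0) (nat_lit 0) (XT.lf (nat_lit 0) (nat_lit 35605380951) (nat_lit 152) (nat_lit 19097943391) (nat_lit 0) (nat_lit 31418134889) (nat_lit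 2) (nat_lit 5) (nat_lit 4) (nat_lit 4) (nat_lit 2) (nat_lit 4) (nat_lit 399) (nat_lit 203) (nat_lit 178)) (XT.lf (nat_lit 0) (nat_lit 38324046934) (nat_lit 152) (nat_lit 16297608504) (nat_lit 0) (nat_lit 34025298692) (nat_lit 2) (nat_lit 5) (nat_lit 4) (nat_lit 4) (nat_lit 2) (nat_lit 4) (nat_lit 400) (nat_lit 203) (nat_lit 177)))))) (XT.nd (nat_lit 38532) (nat_lit 0) (nat_lit 152) (XT.nd (nat_lit 156) (nat_lit 0) (nat_lit 0) (XT.nd (nat_lit 78) (nat_lit 0) (nat_lit 0) (XT.lf (nat_lit 0) (nat_lit 41097567197) (nat_lit 152) (nat_lit 13460903490) (nat_lit 0) (nat_lit 36690564412) (nat_lit 2) (nat_lit 5) (nat_lit 4) (nat_lit 4) (nat_lit 2) (nat_lit 4) (nat_lit 401) (nat_lit 203) (nat_lit 176)) (XT.lf (nat_lit 0) (nat_lit 43928365204) (nat_lit 152) (nat_lit 10585349675) (nat_lit 0) (nat_lit 39416260920) (nat_lit 2) (nat_lit 5) (nat_lit 4) (nat_lit 4) (nat_lit 2) (nat_lit 4) (nat_lit 402) (nat_lit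 203) (nat_lit 175))) (XT.nd (nat_lit 38220) (nat_lit 0) (nat_lit 228) (XT.lf (nat_lit 0) (nat_lit 46818914468) (nat_lit 152) (nat_lit 7668434438) (nat_lit 0) (nat_lit 42204769895) (nat_lit 2) (nat_lit 5) (nat_lit 4) (nat_lit 4) (nat_lit 2) (nat_lit 4) (nat_lit 403) (nat_lit 203) (nat_lit 174)) (XT.nd (nat_lit 78) (nat_lit 0) (nat_lit 0) (XT.lf (nat_lit 0) (nat_lit 7923901813) (nat_lit 152) (nat_lit 4218478263) (nat_lit 0) (nat_lit 7923901813) (nat_lit 5) (nat_lit 5) (nat_lit 7) (nat_lit 4) (nat_lit 5) (nat_lit 4) (nat_lit 372) (nat_lit 204) (nat_lit 204)) (XT.lf (nat_lit 0) (nat_lit 18896700589) (nat_lit 152) (nat_lit 3703655804) (nat_lit 0) (nat_lit 18649022023) (nat_lit 5) (nat_lit 5) (nat_lit 7) (nat_lit 4) (nat_lit 5) (nat_lit 4) (nat_lit 373) (nat_lit 204) (nat_lit 203))))) (XT.nd (nat_lit 234) (nat_lit 0) (nat_lit 0) (XT.nd (nat_lit 78) (nat_lit 0) (nat_lit 0) (XT.lf (nat_lit 0) (nat_lit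 1096695561) (nat_lit 76) (nat_lit 20896256517) (nat_lit 76) (nat_lit 20408113325) (nat_lit 4) (nat_lit 4) (nat_lit 5) (nat_lit 5) (nat_lit 5) (nat_lit 4) (nat_lit 374) (nat_lit 204) (nat_lit 202)) (XT.nd (nat_lit 78) (nat_lit 0) (nat_lit 0) (XT.lf (nat_lit 0) (nat_lit 6021574519) (nat_lit 76) (nat_lit 19143936561) (nat_lit 76) (nat_lit 18422332565) (nat_lit 4) (nat_lit 4) (nat_lit 5) (nat_lit 5) (nat_lit 5) (nat_lit 4) (nat_lit 375) (nat_lit 204) (nat_lit 201)) (XT.lf (nat_lit 0) (nat_lit 11001574348) (nat_lit 76) (nat_lit 17379265031) (nat_lit 76) (nat_lit 16431000062) (nat_lit 4) (nat_lit 4) (nat_lit 5) (nat_lit 5) (nat_lit 5) (nat_lit 4) (nat_lit 376) (nat_lit 204) (nat_lit 200)))) (XT.nd (nat_lit 78) (nat_lit 0) (nat_lit 0) (XT.lf (nat_lit 0) (nat_lit 16041046505) (nat_lit 76) (nat_lit 15600699983) (nat_lit 76) (nat_lit 14432375816) (nat_lit 4) (nat_lit 4) (nat_lit 5) (nat_lit 5) (nat_lit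 5) (nat_lit 4) (nat_lit 377) (nat_lit 204) (nat_lit 199)) (XT.nd (nat_lit 78) (nat_lit 0) (nat_lit 0) (XT.lf (nat_lit 0) (nat_lit 21144394412) (nat_lit 76) (nat_lit 13806687330) (nat_lit 76) (nat_lit 12424713457) (nat_lit 4) (nat_lit 4) (nat_lit 5) (nat_lit 5) (nat_lit 5) (nat_lit 4) (nat_lit 378) (nat_lit 204) (nat_lit 198)) (XT.lf (nat_lit 0) (nat_lit 26316077304) (nat_lit 76) (nat_lit 11995659488) (nat_lit 76) (nat_lit 10406258715) (nat_lit 4) (nat_lit 4) (nat_lit 5) (nat_lit 5) (nat_lit 5) (nat_lit 4) (nat_lit 379) (nat_lit 204) (nat_lit 197))))))) (XT.nd (nat_lit 858) (nat_lit 0) (nat_lit 0) (XT.nd (nat_lit 390) (nat_lit 152) (nat_lit 0) (XT.nd (nat_lit 156) (nat_lit 0) (nat_lit 0) (XT.nd (nat_lit 78) (nat_lit 0) (nat_lit 0) (XT.lf (nat_lit 0) (nat_lit 31560614129) (nat_lit 76) (nat_lit 10166034006) (nat_lit 76) (nat_lit 8375247894) (nat_lit 4) (nat_lit 4) (nat_lit 5) (nat_lit 5) (nat_lit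 5) (nat_lit 4) (nat_lit 380) (nat_lit 204) (nat_lit 196)) (XT.lf (nat_lit 0) (nat_lit 36882587490) (nat_lit 76) (nat_lit 8316212182) (nat_lit 76) (nat_lit 6329906323) (nat_lit 4) (nat_lit 4) (nat_lit 5) (nat_lit 5) (nat_lit 5) (nat_lit 4) (nat_lit 381) (nat_lit 204) (nat_lit 195))) (XT.nd (nat_lit 78) (nat_lit 0) (nat_lit 0) (XT.lf (nat_lit 0) (nat_lit 42286647657) (nat_lit 76) (nat_lit 6444577666) (nat_lit 76) (nat_lit 4268446811) (nat_lit 4) (nat_lit 4) (nat_lit 5) (nat_lit 5) (nat_lit 5) (nat_lit 4) (nat_lit 382) (nat_lit 204) (nat_lit 194)) (XT.nd (nat_lit 78) (nat_lit 0) (nat_lit 0) (XT.lf (nat_lit 0) (nat_lit 47777516623) (nat_lit 76) (nat_lit 4549495051) (nat_lit 76) (nat_lit 2189068082) (nat_lit 4) (nat_lit 4) (nat_lit 5) (nat_lit 5) (nat_lit 5) (nat_lit 4) (nat_lit 383) (nat_lit 204) (nat_lit 193)) (XT.lf (nat_lit 0) (nat_lit 53359992235) (nat_lit 76) (nat_lit 2629308438) (nat_lit 76)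 (nat_lit 89953203) (nat_lit 4) (nat_lit 4) (nat_lit 5) (nat_lit 5) (nat_lit 5) (nat_lit 4) (nat_lit 384) (nat_lit 204) (nat_lit 192))))) (XT.nd (nat_lit 234) (nat_lit 0) (nat_lit 0) (XT.nd (nat_lit 78) (nat_lit 0) (nat_lit 0) (XT.lf (nat_lit 0) (nat_lit 1355318515) (nat_lit 76) (nat_lit 648814742) (nat_lit 152) (nat_lit 55685450655) (nat_lit 2) (nat_lit 5) (nat_lit 3) (nat_lit 5) (nat_lit 4) (nat_lit 4) (nat_lit 385) (nat_lit 204) (nat_lit 191)) (XT.nd (nat_lit 78) (nat_lit 0) (nat_lit 0) (XT.lf (nat_lit 0) (nat_lit 4159942703) (nat_lit 152) (nat_lit 53826115995) (nat_lit 0) (nat_lit 1362147510) (nat_lit 2) (nat_lit 5) (nat_lit 4) (nat_lit 4) (nat_lit 2) (nat_lit 4) (nat_lit 386) (nat_lit 204) (nat_lit 190)) (XT.lf (nat_lit 0) (nat_lit 6347632122) (nat_lit 152) (nat_lit 51319106847) (nat_lit 0) (nat_lit 3390861482) (nat_lit 2) (nat_lit 5) (nat_lit 4) (nat_lit 4) (nat_lit 2) (nat_lit 4) (nat_lit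 387) (nat_lit 204) (nat_lit 189)))) (XT.nd (nat_lit 78) (nat_lit 0) (nat_lit 0) (XT.lf (nat_lit 0) (nat_lit 8562876281) (nat_lit 152) (nat_lit 48804810559) (nat_lit 0) (nat_lit 5451760548) (nat_lit 2) (nat_lit 5) (nat_lit 4) (nat_lit 4) (nat_lit 2) (nat_lit 4) (nat_lit 388) (nat_lit 204) (nat_lit 188)) (XT.nd (nat_lit 78) (nat_lit 0) (nat_lit 0) (XT.lf (nat_lit 0) (nat_lit 10807610832) (nat_lit 152) (nat_lit 46281030171) (nat_lit 0) (nat_lit 7546645493) (nat_lit 2) (nat_lit 5) (nat_lit 4) (nat_lit 4) (nat_lit 2) (nat_lit 4) (nat_lit 389) (nat_lit 204) (nat_lit 187)) (XT.lf (nat_lit 0) (nat_lit 13083797192) (nat_lit 152) (nat_lit 43745560441) (nat_lit 0) (nat_lit 9677346799) (nat_lit 2) (nat_lit 5) (nat_lit 4) (nat_lit 4) (nat_lit 2) (nat_lit 4) (nat_lit 390) (nat_lit 204) (nat_lit 186)))))) (XT.nd (nat_lit 468) (nat_lit 0) (nat_lit 0) (XT.nd (nat_lit 234) (nat_lit 0) (nat_lit 0) (XT.nd (nat_lit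 78) (nat_lit 0) (nat_lit 0) (XT.lf (nat_lit 0) (nat_lit 15393424262) (nat_lit 152) (nat_lit 41196185908) (nat_lit 0) (nat_lit 11845726245) (nat_lit 2) (nat_lit 5) (nat_lit 4) (nat_lit 4) (nat_lit 2) (nat_lit 4) (nat_lit 391) (nat_lit 204) (nat_lit 185)) (XT.nd (nat_lit 78) (nat_lit 0) (nat_lit 0) (XT.lf (nat_lit 0) (nat_lit 17738510164) (nat_lit 152) (nat_lit 38630678963) (nat_lit 0) (nat_lit 14053678530) (nat_lit 2) (nat_lit 5) (nat_lit 4) (nat_lit 4) (nat_lit 2) (nat_lit 4) (nat_lit 392) (nat_lit 204) (nat_lit 184)) (XT.lf (nat_lit 0) (nat_lit 20121104001) (nat_lit 152) (nat_lit 36046797903) (nat_lit 0) (nat_lit 16303132933) (nat_lit 2) (nat_lit 5) (nat_lit 4) (nat_lit 4) (nat_lit 2) (nat_lit 4) (nat_lit 393) (nat_lit 204) (nat_lit 183)))) (XT.nd (nat_lit 78) (nat_lit 0) (nat_lit 0) (XT.lf (nat_lit 0) (nat_lit 22543287652) (nat_lit 152) (nat_lit 33442284965) (nat_lit 0) (nat_lit 18596054998)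 (nat_lit 2) (nat_lit 5) (nat_lit 4) (nat_lit 4) (nat_lit 2) (nat_lit 4) (nat_lit 394) (nat_lit 204) (nat_lit 182)) (XT.nd (nat_lit 78) (nat_lit 0) (nat_lit 0) (XT.lf (nat_lit 0) (nat_lit 25007177588) (nat_lit 152) (nat_lit 30814864364) (nat_lit 0) (nat_lit 20934448248) (nat_lit 2) (nat_lit 5) (nat_lit 4) (nat_lit 4) (nat_lit 2) (nat_lit 4) (nat_lit 395) (nat_lit 204) (nat_lit 181)) (XT.lf (nat_lit 0) (nat_lit 27514926721) (nat_lit 152) (nat_lit 28162240293) (nat_lit 0) (nat_lit 23320355939) (nat_lit 2) (nat_lit 5) (nat_lit 4) (nat_lit 4) (nat_lit 2) (nat_lit 4) (nat_lit 396) (nat_lit 204) (nat_lit 180))))) (XT.nd (nat_lit 234) (nat_lit 0) (nat_lit 0) (XT.nd (nat_lit 78) (nat_lit 0) (nat_lit 0) (XT.lf (nat_lit 0) (nat_lit 30068726290) (nat_lit 152) (nat_lit 25482094927) (nat_lit 0) (nat_lit 25755862846) (nat_lit 2) (nat_lit 5) (nat_lit 4) (nat_lit 4) (nat_lit 2) (nat_lit 4) (nat_lit 397) (nat_lit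 204) (nat_lit 179)) (XT.nd (nat_lit 78) (nat_lit 0) (nat_lit 0) (XT.lf (nat_lit 0) (nat_lit 32670807769) (nat_lit 152) (nat_lit 22772086390) (nat_lit 0) (nat_lit 28243097080) (nat_lit 2) (nat_lit 5) (nat_lit 4) (nat_lit 4) (nat_lit 2) (nat_lit 4) (nat_lit 398) (nat_lit 204) (nat_lit 178)) (XT.lf (nat_lit 0) (nat_lit 35323444823) (nat_lit 152) (nat_lit 20029846714) (nat_lit 0) (nat_lit 30784231954) (nat_lit 2) (nat_lit 5) (nat_lit 4) (nat_lit 4) (nat_lit 2) (nat_lit 4) (nat_lit 399) (nat_lit 204) (nat_lit 177)))) (XT.nd (nat_lit 78) (nat_lit 0) (nat_lit 0) (XT.lf (nat_lit 0) (nat_lit 38028955288) (nat_lit 152) (nat_lit 17252979768) (nat_lit 0) (nat_lit 33381487876) (nat_lit 2) (nat_lit 5) (nat_lit 4) (nat_lit 4) (nat_lit 2) (nat_lit 4) (nat_lit 400) (nat_lit 204) (nat_lit 176)) (XT.nd (nat_lit 78) (nat_lit 0) (nat_lit 0) (XT.lf (nat_lit 0) (nat_lit 40789703205) (nat_lit 152) (nat_lit 14439059162)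 (nat_lit 0) (nat_lit 36037134294) (nat_lit 2) (nat_lit 5) (nat_lit 4) (nat_lit 4) (nat_lit 2) (nat_lit 4) (nat_lit 401) (nat_lit 204) (nat_lit 175)) (XT.lf (nat_lit 0) (nat_lit 43608100875) (nat_lit 152) (nat_lit 11585626131) (nat_lit 0) (nat_lit 38753491675) (nat_lit 2) (nat_lit 5) (nat_lit 4) (nat_lit 4) (nat_lit 2) (nat_lit 4) (nat_lit 402) (nat_lit 204) (nat_lit 174))))))))
noncomputable def xc6 : XT := (XT.nd (nat_lit 1716) (nat_lit 0) (nat_lit 0) (XT.nd (nat_lit 858) (nat_lit 152) (nat_lit 0) (XT.nd (nat_lit 390) (nat_lit 0) (nat_lit 0) (XT.nd (nat_lit 156) (nat_lit 76) (nat_lit 0) (XT.nd (nat_lit 78) (nat_lit 0) (nat_lit 0) (XT.lf (nat_lit 0) (nat_lit 5066746204) (nat_lit 152) (nat_lit 8866380913) (nat_lit 0) (nat_lit 5066746204) (nat_lit 5) (nat_lit 5) (nat_lit 7) (nat_lit 4) (nat_lit 5) (nat_lit 4) (nat_lit 370) (nat_lit 205) (nat_lit 205)) (XT.lf (nat_lit 0) (nat_lit 13088163920) (nat_lit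 152) (nat_lit 13128742981) (nat_lit 0) (nat_lit 12833054997) (nat_lit 5) (nat_lit 5) (nat_lit 7) (nat_lit 4) (nat_lit 5) (nat_lit 4) (nat_lit 371) (nat_lit 205) (nat_lit 204))) (XT.nd (nat_lit 78) (nat_lit 76) (nat_lit 0) (XT.lf (nat_lit 0) (nat_lit 16075181453) (nat_lit 152) (nat_lit 8485842894) (nat_lit 0) (nat_lit 15572393964) (nat_lit 5) (nat_lit 5) (nat_lit 7) (nat_lit 4) (nat_lit 5) (nat_lit 4) (nat_lit 372) (nat_lit 205) (nat_lit 203)) (XT.nd (nat_lit 78) (nat_lit 76) (nat_lit 0) (XT.lf (nat_lit 0) (nat_lit 19097155021) (nat_lit 152) (nat_lit 3800004663) (nat_lit 0) (nat_lit 18353902906) (nat_lit 5) (nat_lit 5) (nat_lit 7) (nat_lit 4) (nat_lit 5) (nat_lit 4) (nat_lit 373) (nat_lit 205) (nat_lit 202)) (XT.lf (nat_lit 0) (nat_lit 951431998) (nat_lit 76) (nat_lit 21214438934) (nat_lit 76) (nat_lit 20237726016) (nat_lit 4) (nat_lit 4) (nat_lit 5) (nat_lit 5) (nat_lit 5) (nat_lit 4) (nat_lit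 374) (nat_lit 205) (nat_lit 201))))) (XT.nd (nat_lit 234) (nat_lit 0) (nat_lit 0) (XT.nd (nat_lit 78) (nat_lit 0) (nat_lit 0) (XT.lf (nat_lit 0) (nat_lit 5830682632) (nat_lit 76) (nat_lit 19481930813) (nat_lit 76) (nat_lit 18278556921) (nat_lit 4) (nat_lit 4) (nat_lit 5) (nat_lit 5) (nat_lit 5) (nat_lit 4) (nat_lit 375) (nat_lit 205) (nat_lit 200)) (XT.nd (nat_lit 78) (nat_lit 0) (nat_lit 0) (XT.lf (nat_lit 0) (nat_lit 10766383117) (nat_lit 76) (nat_lit 17736494075) (nat_lit 76) (nat_lit 16313060986) (nat_lit 4) (nat_lit 4) (nat_lit 5) (nat_lit 5) (nat_lit 5) (nat_lit 4) (nat_lit 376) (nat_lit 205) (nat_lit 199)) (XT.lf (nat_lit 0) (nat_lit 15762846203) (nat_lit 76) (nat_lit 15976603582) (nat_lit 76) (nat_lit 14339520786) (nat_lit 4) (nat_lit 4) (nat_lit 5) (nat_lit 5) (nat_lit 5) (nat_lit 4) (nat_lit 377) (nat_lit 205) (nat_lit 198)))) (XT.nd (nat_lit 78) (nat_lit 0) (nat_lit 0) (XT.lf (nat_lit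 0) (nat_lit 20824437729) (nat_lit 76) (nat_lit 14200721564) (nat_lit 76) (nat_lit 12356211869) (nat_lit 4) (nat_lit 4) (nat_lit 5) (nat_lit 5) (nat_lit 5) (nat_lit 4) (nat_lit 378) (nat_lit 205) (nat_lit 197)) (XT.nd (nat_lit 78) (nat_lit 0) (nat_lit 0) (XT.lf (nat_lit 0) (nat_lit 25955580447) (nat_lit 76) (nat_lit 12407296282) (nat_lit 76) (nat_lit 10361401247) (nat_lit 4) (nat_lit 4) (nat_lit 5) (nat_lit 5) (nat_lit 5) (nat_lit 4) (nat_lit 379) (nat_lit 205) (nat_lit 196)) (XT.lf (nat_lit 0) (nat_lit 31160757879) (nat_lit 76) (nat_lit 10594760663) (nat_lit 76) (nat_lit 8353345882) (nat_lit 4) (nat_lit 4) (nat_lit 5) (nat_lit 5) (nat_lit 5) (nat_lit 4) (nat_lit 380) (nat_lit 205) (nat_lit 195)))))) (XT.nd (nat_lit 390) (nat_lit 0) (nat_lit 0) (XT.nd (nat_lit 156) (nat_lit 152) (nat_lit 0) (XT.nd (nat_lit 78) (nat_lit 0) (nat_lit 0) (XT.lf (nat_lit 0) (nat_lit 36444518237) (nat_lit 76) (nat_lit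 8761530939) (nat_lit 76) (nat_lit 6330291161) (nat_lit 4) (nat_lit 4) (nat_lit 5) (nat_lit 5) (nat_lit 5) (nat_lit 4) (nat_lit 381) (nat_lit 205) (nat_lit 194)) (XT.lf (nat_lit 0) (nat_lit 41811478401) (nat_lit 76) (nat_lit 6906005259) (nat_lit 76) (nat_lit 4290469367) (nat_lit 4) (nat_lit 4) (nat_lit 5) (nat_lit 5) (nat_lit 5) (nat_lit 4) (nat_lit 382) (nat_lit 205) (nat_lit 193))) (XT.nd (nat_lit 78) (nat_lit 152) (nat_lit 0) (XT.lf (nat_lit 0) (nat_lit 47266327947) (nat_lit 76) (nat_lit 5026562289) (nat_lit 76) (nat_lit 2232098132) (nat_lit 4) (nat_lit 4) (nat_lit 5) (nat_lit 5) (nat_lit 5) (nat_lit 4) (nat_lit 383) (nat_lit 205) (nat_lit 192)) (XT.nd (nat_lit 78) (nat_lit 152) (nat_lit 0) (XT.lf (nat_lit 0) (nat_lit 52813833248) (nat_lit 76) (nat_lit 3121559798) (nat_lit 76) (nat_lit 153378878) (nat_lit 4) (nat_lit 4) (nat_lit 5) (nat_lit 5) (nat_lit 5) (nat_lit 4) (nat_lit 384) (nat_lit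 205) (nat_lit 191)) (XT.lf (nat_lit 0) (nat_lit 754167444) (nat_lit 76) (nat_lit 1162583991) (nat_lit 152) (nat_lit 55783139571) (nat_lit 2) (nat_lit 5) (nat_lit 3) (nat_lit 5) (nat_lit 4) (nat_lit 4) (nat_lit 385) (nat_lit 205) (nat_lit 190))))) (XT.nd (nat_lit 234) (nat_lit 0) (nat_lit 0) (XT.nd (nat_lit 78) (nat_lit 0) (nat_lit 0) (XT.lf (nat_lit 0) (nat_lit 4048302898) (nat_lit 152) (nat_lit 54467098958) (nat_lit 0) (nat_lit 843853693) (nat_lit 2) (nat_lit 5) (nat_lit 4) (nat_lit 4) (nat_lit 2) (nat_lit 4) (nat_lit 386) (nat_lit 205) (nat_lit 189)) (XT.nd (nat_lit 78) (nat_lit 0) (nat_lit 0) (XT.lf (nat_lit 0) (nat_lit 6217235695) (nat_lit 152) (nat_lit 51993549482) (nat_lit 0) (nat_lit 2858441396) (nat_lit 2) (nat_lit 5) (nat_lit 4) (nat_lit 4) (nat_lit 2) (nat_lit 4) (nat_lit 387) (nat_lit 205) (nat_lit 188)) (XT.lf (nat_lit 0) (nat_lit 8414269542) (nat_lit 152) (nat_lit 49511738311) (nat_lit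 0) (nat_lit 4905625638) (nat_lit 2) (nat_lit 5) (nat_lit 4) (nat_lit 4) (nat_lit 2) (nat_lit 4) (nat_lit 388) (nat_lit 205) (nat_lit 187)))) (XT.nd (nat_lit 78) (nat_lit 0) (nat_lit 0) (XT.lf (nat_lit 0) (nat_lit 10641324178) (nat_lit 152) (nat_lit 47019496874) (nat_lit 0) (nat_lit 6987195220) (nat_lit 2) (nat_lit 5) (nat_lit 4) (nat_lit 4) (nat_lit 2) (nat_lit 4) (nat_lit 389) (nat_lit 205) (nat_lit 186)) (XT.nd (nat_lit 78) (nat_lit 0) (nat_lit 0) (XT.lf (nat_lit 0) (nat_lit 12900345572) (nat_lit 152) (nat_lit 44514647483) (nat_lit 0) (nat_lit 9104968989) (nat_lit 2) (nat_lit 5) (nat_lit 4) (nat_lit 4) (nat_lit 2) (nat_lit 4) (nat_lit 390) (nat_lit 205) (nat_lit 185)) (XT.lf (nat_lit 0) (nat_lit 15193307628) (nat_lit 152) (nat_lit 41995001435) (nat_lit 0) (nat_lit 11260797428) (nat_lit 2) (nat_lit 5) (nat_lit 4) (nat_lit 4) (nat_lit 2) (nat_lit 4) (nat_lit 391) (nat_lit 205) (nat_lit 184)))))))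 (XT.nd (nat_lit 38766) (nat_lit 0) (nat_lit 152) (XT.nd (nat_lit 390) (nat_lit 0) (nat_lit 0) (XT.nd (nat_lit 156) (nat_lit 0) (nat_lit 0) (XT.nd (nat_lit 78) (nat_lit 0) (nat_lit 0) (XT.lf (nat_lit 0) (nat_lit 17522213903) (nat_lit 152) (nat_lit 39458357098) (nat_lit 0) (nat_lit 13456564269) (nat_lit 2) (nat_lit 5) (nat_lit 4) (nat_lit 4) (nat_lit 2) (nat_lit 4) (nat_lit 392) (nat_lit 205) (nat_lit 183)) (XT.lf (nat_lit 0) (nat_lit 19889099365) (nat_lit 152) (nat_lit 36902497985) (nat_lit 0) (nat_lit 15694188145) (nat_lit 2) (nat_lit 5) (nat_lit 4) (nat_lit 4) (nat_lit 2) (nat_lit 4) (nat_lit 393) (nat_lit 205) (nat_lit 182))) (XT.nd (nat_lit 78) (nat_lit 0) (nat_lit 0) (XT.lf (nat_lit 0) (nat_lit 22296032166) (nat_lit 152) (nat_lit 34325190823) (nat_lit 0) (nat_lit 17975624261) (nat_lit 2) (nat_lit 5) (nat_lit 4) (nat_lit 4) (nat_lit 2) (nat_lit 4) (nat_lit 394) (nat_lit 205) (nat_lit 181))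 (XT.nd (nat_lit 78) (nat_lit 0) (nat_lit 0) (XT.lf (nat_lit 0) (nat_lit 24745115451) (nat_lit 152) (nat_lit 31724183596) (nat_lit 0) (nat_lit 20302866104) (nat_lit 2) (nat_lit 5) (nat_lit 4) (nat_lit 4) (nat_lit 2) (nat_lit 4) (nat_lit 395) (nat_lit 205) (nat_lit 180)) (XT.lf (nat_lit 0) (nat_lit 27238489196) (nat_lit 152) (nat_lit 29097203577) (nat_lit 0) (nat_lit 22677947186) (nat_lit 2) (nat_lit 5) (nat_lit 4) (nat_lit 4) (nat_lit 2) (nat_lit 4) (nat_lit 396) (nat_lit 205) (nat_lit 179))))) (XT.nd (nat_lit 234) (nat_lit 0) (nat_lit 0) (XT.nd (nat_lit 78) (nat_lit 0) (nat_lit 0) (XT.lf (nat_lit 0) (nat_lit 29778332077) (nat_lit 152) (nat_lit 26441955349) (nat_lit 0) (nat_lit 25102942822) (nat_lit 2) (nat_lit 5) (nat_lit 4) (nat_lit 4) (nat_lit 2) (nat_lit 4) (nat_lit 397) (nat_lit 205) (nat_lit 178)) (XT.nd (nat_lit 78) (nat_lit 0) (nat_lit 0) (XT.lf (nat_lit 0) (nat_lit 32366863374) (nat_lit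 152) (nat_lit 23756118791) (nat_lit 0) (nat_lit 27579971940) (nat_lit 2) (nat_lit 5) (nat_lit 4) (nat_lit 4) (nat_lit 2) (nat_lit 4) (nat_lit 398) (nat_lit 205) (nat_lit 177)) (XT.lf (nat_lit 0) (nat_lit 35006344911) (nat_lit 152) (nat_lit 21037347056) (nat_lit 0) (nat_lit 30111198933) (nat_lit 2) (nat_lit 5) (nat_lit 4) (nat_lit 4) (nat_lit 2) (nat_lit 4) (nat_lit 399) (nat_lit 205) (nat_lit 176)))) (XT.nd (nat_lit 78) (nat_lit 0) (nat_lit 0) (XT.lf (nat_lit 0) (nat_lit 37699083030) (nat_lit 152) (nat_lit 18283264518) (nat_lit 0) (nat_lit 32698835554) (nat_lit 2) (nat_lit 5) (nat_lit 4) (nat_lit 4) (nat_lit 2) (nat_lit 4) (nat_lit 400) (nat_lit 205) (nat_lit 175)) (XT.nd (nat_lit 78) (nat_lit 0) (nat_lit 0) (XT.lf (nat_lit 0) (nat_lit 40447430610) (nat_lit 152) (nat_lit 15491464697) (nat_lit 0) (nat_lit 35345142844) (nat_lit 2) (nat_lit 5) (nat_lit 4) (nat_lit 4) (nat_lit 2) (nat_lit 4) (nat_lit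 401) (nat_lit 205) (nat_lit 174)) (XT.lf (nat_lit 0) (nat_lit 43253789119) (nat_lit 152) (nat_lit 12659508157) (nat_lit 0) (nat_lit 38052433110) (nat_lit 2) (nat_lit 5) (nat_lit 4) (nat_lit 4) (nat_lit 2) (nat_lit 4) (nat_lit 402) (nat_lit 205) (nat_lit 173)))))) (XT.nd (nat_lit 468) (nat_lit 76) (nat_lit 0) (XT.nd (nat_lit 234) (nat_lit 0) (nat_lit 0) (XT.nd (nat_lit 78) (nat_lit 0) (nat_lit 0) (XT.lf (nat_lit 0) (nat_lit 2301534278) (nat_lit 152) (nat_lit 13394176754) (nat_lit 0) (nat_lit 2301534278) (nat_lit 5) (nat_lit 5) (nat_lit 7) (nat_lit 4) (nat_lit 5) (nat_lit 4) (nat_lit 368) (nat_lit 206) (nat_lit 206)) (XT.nd (nat_lit 78) (nat_lit 0) (nat_lit 0) (XT.lf (nat_lit 0) (nat_lit 7471347355) (nat_lit 152) (nat_lit 22301922362) (nat_lit 0) (nat_lit 7208585165) (nat_lit 5) (nat_lit 5) (nat_lit 7) (nat_lit 4) (nat_lit 5) (nat_lit 4) (nat_lit 369) (nat_lit 206) (nat_lit 205)) (XT.lf (nat_lit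 0) (nat_lit 10367691569) (nat_lit 152) (nat_lit 17783114785) (nat_lit 0) (nat_lit 9849820456) (nat_lit 5) (nat_lit 5) (nat_lit 7) (nat_lit 4) (nat_lit 5) (nat_lit 4) (nat_lit 370) (nat_lit 206) (nat_lit 204)))) (XT.nd (nat_lit 78) (nat_lit 0) (nat_lit 0) (XT.lf (nat_lit 0) (nat_lit 13294631985) (nat_lit 152) (nat_lit 13227982305) (nat_lit 0) (nat_lit 12529082307) (nat_lit 5) (nat_lit 5) (nat_lit 7) (nat_lit 4) (nat_lit 5) (nat_lit 4) (nat_lit 371) (nat_lit 206) (nat_lit 203)) (XT.nd (nat_lit 78) (nat_lit 0) (nat_lit 0) (XT.lf (nat_lit 0) (nat_lit 16254726124) (nat_lit 152) (nat_lit 8632544710) (nat_lit 0) (nat_lit 15248711819) (nat_lit 5) (nat_lit 5) (nat_lit 7) (nat_lit 4) (nat_lit 5) (nat_lit 4) (nat_lit 372) (nat_lit 206) (nat_lit 202)) (XT.lf (nat_lit 0) (nat_lit 19250560476) (nat_lit 152) (nat_lit 3992786569) (nat_lit 0) (nat_lit 18011085367) (nat_lit 5) (nat_lit 5) (nat_lit 7) (nat_lit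 4) (nat_lit 5) (nat_lit 4) (nat_lit 373) (nat_lit 206) (nat_lit 201))))) (XT.nd (nat_lit 234) (nat_lit 0) (nat_lit 0) (XT.nd (nat_lit 78) (nat_lit 0) (nat_lit 0) (XT.lf (nat_lit 0) (nat_lit 709185030) (nat_lit 76) (nat_lit 21582384849) (nat_lit 76) (nat_lit 20116248767) (nat_lit 4) (nat_lit 4) (nat_lit 5) (nat_lit 5) (nat_lit 5) (nat_lit 4) (nat_lit 374) (nat_lit 206) (nat_lit 200)) (XT.nd (nat_lit 78) (nat_lit 0) (nat_lit 0) (XT.lf (nat_lit 0) (nat_lit 5544136320) (nat_lit 76) (nat_lit 19869111520) (nat_lit 76) (nat_lit 18182916240) (nat_lit 4) (nat_lit 4) (nat_lit 5) (nat_lit 5) (nat_lit 5) (nat_lit 4) (nat_lit 375) (nat_lit 206) (nat_lit 199)) (XT.lf (nat_lit 0) (nat_lit 10436827735) (nat_lit 76) (nat_lit 18142349337) (nat_lit 76) (nat_lit 16242504351) (nat_lit 4) (nat_lit 4) (nat_lit 5) (nat_lit 5) (nat_lit 5) (nat_lit 4) (nat_lit 376) (nat_lit 206) (nat_lit 198)))) (XT.nd (nat_lit 78) (nat_lit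 0) (nat_lit 0) (XT.lf (nat_lit 0) (nat_lit 15391534440) (nat_lit 76) (nat_lit 16400589479) (nat_lit 76) (nat_lit 14293317594) (nat_lit 4) (nat_lit 4) (nat_lit 5) (nat_lit 5) (nat_lit 5) (nat_lit 4) (nat_lit 377) (nat_lit 206) (nat_lit 197)) (XT.nd (nat_lit 78) (nat_lit 0) (nat_lit 0) (XT.lf (nat_lit 0) (nat_lit 20412585792) (nat_lit 76) (nat_lit 14642310021) (nat_lit 76) (nat_lit 12333652796) (nat_lit 4) (nat_lit 4) (nat_lit 5) (nat_lit 5) (nat_lit 5) (nat_lit 4) (nat_lit 378) (nat_lit 206) (nat_lit 196)) (XT.lf (nat_lit 0) (nat_lit 25504369117) (nat_lit 76) (nat_lit 12865974602) (nat_lit 76) (nat_lit 10361797630) (nat_lit 4) (nat_lit 4) (nat_lit 5) (nat_lit 5) (nat_lit 5) (nat_lit 4) (nat_lit 379) (nat_lit 206) (nat_lit 195))))))))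
noncomputable def xc7 : XT := (XT.nd (nat_lit 1716) (nat_lit 0) (nat_lit 0) (XT.nd (nat_lit 858) (nat_lit 0) (nat_lit 0) (XT.nd (nat_lit 390) (nat_lit 152) (nat_lit 0) (XT.nd (nat_lit 156) (nat_lit 0) (nat_lit 0) (XT.nd (nat_lit 78) (nat_lit 0) (nat_lit 0) (XT.lf (nat_lit 0) (nat_lit 30671333545) (nat_lit 76) (nat_lit 11070031083) (nat_lit 76) (nat_lit 8376029114) (nat_lit 4) (nat_lit 4) (nat_lit 5) (nat_lit 5) (nat_lit 5) (nat_lit 4) (nat_lit 380) (nat_lit 206) (nat_lit 194)) (XT.lf (nat_lit 0) (nat_lit 35917993901) (nat_lit 76) (nat_lit 9252910194) (nat_lit 76) (nat_lit 6374612112) (nat_lit 4) (nat_lit 4) (nat_lit 5) (nat_lit 5) (nat_lit 5) (nat_lit 4) (nat_lit 381) (nat_lit 206) (nat_lit 193))) (XT.nd (nat_lit 78) (nat_lit 0) (nat_lit 0) (XT.lf (nat_lit 0) (nat_lit 41248934645) (nat_lit 76) (nat_lit 7413024160) (nat_lit 76) (nat_lit 4355797812) (nat_lit 4) (nat_lit 4) (nat_lit 5) (nat_lit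 5) (nat_lit 5) (nat_lit 4) (nat_lit 382) (nat_lit 206) (nat_lit 192)) (XT.nd (nat_lit 78) (nat_lit 0) (nat_lit 0) (XT.lf (nat_lit 0) (nat_lit 46668813880) (nat_lit 76) (nat_lit 5548765312) (nat_lit 76) (nat_lit 2317822202) (nat_lit 4) (nat_lit 4) (nat_lit 5) (nat_lit 5) (nat_lit 5) (nat_lit 4) (nat_lit 383) (nat_lit 206) (nat_lit 191)) (XT.lf (nat_lit 0) (nat_lit 52182367423) (nat_lit 76) (nat_lit 3658504688) (nat_lit 76) (nat_lit 258904526) (nat_lit 4) (nat_lit 4) (nat_lit 5) (nat_lit 5) (nat_lit 5) (nat_lit 4) (nat_lit 384) (nat_lit 206) (nat_lit 190))))) (XT.nd (nat_lit 234) (nat_lit 0) (nat_lit 0) (XT.nd (nat_lit 78) (nat_lit 0) (nat_lit 0) (XT.lf (nat_lit 0) (nat_lit 65928744) (nat_lit 76) (nat_lit 1721890770) (nat_lit 152) (nat_lit 55923885104) (nat_lit 2) (nat_lit 5) (nat_lit 3) (nat_lit 5) (nat_lit 4) (nat_lit 4) (nat_lit 385) (nat_lit 206) (nat_lit 189)) (XT.nd (nat_lit 78) (nat_lit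 0) (nat_lit 0) (XT.lf (nat_lit 0) (nat_lit 3895237957) (nat_lit 152) (nat_lit 55195234543) (nat_lit 0) (nat_lit 281334735) (nat_lit 2) (nat_lit 5) (nat_lit 4) (nat_lit 4) (nat_lit 2) (nat_lit 4) (nat_lit 386) (nat_lit 206) (nat_lit 188)) (XT.lf (nat_lit 0) (nat_lit 6045960441) (nat_lit 152) (nat_lit 52754170185) (nat_lit 0) (nat_lit 2282207614) (nat_lit 2) (nat_lit 5) (nat_lit 4) (nat_lit 4) (nat_lit 2) (nat_lit 4) (nat_lit 387) (nat_lit 206) (nat_lit 187)))) (XT.nd (nat_lit 78) (nat_lit 0) (nat_lit 0) (XT.lf (nat_lit 0) (nat_lit 8225314374) (nat_lit 152) (nat_lit 50303897965) (nat_lit 0) (nat_lit 4316076493) (nat_lit 2) (nat_lit 5) (nat_lit 4) (nat_lit 4) (nat_lit 2) (nat_lit 4) (nat_lit 388) (nat_lit 206) (nat_lit 186)) (XT.nd (nat_lit 78) (nat_lit 0) (nat_lit 0) (XT.lf (nat_lit 0) (nat_lit 10435204044) (nat_lit 152) (nat_lit 47842276867) (nat_lit 0) (nat_lit 6384718538) (nat_lit 2) (nat_lit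 5) (nat_lit 4) (nat_lit 4) (nat_lit 2) (nat_lit 4) (nat_lit 389) (nat_lit 206) (nat_lit 185)) (XT.lf (nat_lit 0) (nat_lit 12677560423) (nat_lit 152) (nat_lit 45367155961) (nat_lit 0) (nat_lit 8489941301) (nat_lit 2) (nat_lit 5) (nat_lit 4) (nat_lit 4) (nat_lit 2) (nat_lit 4) (nat_lit 390) (nat_lit 206) (nat_lit 184)))))) (XT.nd (nat_lit 390) (nat_lit 0) (nat_lit 0) (XT.nd (nat_lit 156) (nat_lit 0) (nat_lit 0) (XT.nd (nat_lit 78) (nat_lit 0) (nat_lit 0) (XT.lf (nat_lit 0) (nat_lit 14954342852) (nat_lit 152) (nat_lit 42876372520) (nat_lit 0) (nat_lit 10633584296) (nat_lit 2) (nat_lit 5) (nat_lit 4) (nat_lit 4) (nat_lit 2) (nat_lit 4) (nat_lit 391) (nat_lit 206) (nat_lit 183)) (XT.lf (nat_lit 0) (nat_lit 17267540753) (nat_lit 152) (nat_lit 40367750131) (nat_lit 0) (nat_lit 12817520610) (nat_lit 2) (nat_lit 5) (nat_lit 4) (nat_lit 4) (nat_lit 2) (nat_lit 4) (nat_lit 392) (nat_lit 206) (nat_lit 182)))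 (XT.nd (nat_lit 78) (nat_lit 0) (nat_lit 0) (XT.lf (nat_lit 0) (nat_lit 19619175365) (nat_lit 152) (nat_lit 37839096794) (nat_lit 0) (nat_lit 15043658537) (nat_lit 2) (nat_lit 5) (nat_lit 4) (nat_lit 4) (nat_lit 2) (nat_lit 4) (nat_lit 393) (nat_lit 206) (nat_lit 181)) (XT.nd (nat_lit 78) (nat_lit 0) (nat_lit 0) (XT.lf (nat_lit 0) (nat_lit 22011301516) (nat_lit 152) (nat_lit 35288203006) (nat_lit 0) (nat_lit 17313943246) (nat_lit 2) (nat_lit 5) (nat_lit 4) (nat_lit 4) (nat_lit 2) (nat_lit 4) (nat_lit 394) (nat_lit 206) (nat_lit 180)) (XT.lf (nat_lit 0) (nat_lit 24446009412) (nat_lit 152) (nat_lit 32712839831) (nat_lit 0) (nat_lit 19630358480) (nat_lit 2) (nat_lit 5) (nat_lit 4) (nat_lit 4) (nat_lit 2) (nat_lit 4) (nat_lit 395) (nat_lit 206) (nat_lit 179))))) (XT.nd (nat_lit 234) (nat_lit 0) (nat_lit 0) (XT.nd (nat_lit 78) (nat_lit 0) (nat_lit 0) (XT.lf (nat_lit 0) (nat_lit 26925426469) (nat_lit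 152) (nat_lit 30110756951) (nat_lit 0) (nat_lit 21994928292) (nat_lit 2) (nat_lit 5) (nat_lit 4) (nat_lit 4) (nat_lit 2) (nat_lit 4) (nat_lit 396) (nat_lit 206) (nat_lit 178)) (XT.nd (nat_lit 78) (nat_lit 0) (nat_lit 0) (XT.lf (nat_lit 0) (nat_lit 29451719168) (nat_lit 152) (nat_lit 27479680701) (nat_lit 0) (nat_lit 24409718811) (nat_lit 2) (nat_lit 5) (nat_lit 4) (nat_lit 4) (nat_lit 2) (nat_lit 4) (nat_lit 397) (nat_lit 206) (nat_lit 177)) (XT.lf (nat_lit 0) (nat_lit 32027094948) (nat_lit 152) (nat_lit 24817312084) (nat_lit 0) (nat_lit 26876840047) (nat_lit 2) (nat_lit 5) (nat_lit 4) (nat_lit 4) (nat_lit 2) (nat_lit 4) (nat_lit 398) (nat_lit 206) (nat_lit 176)))) (XT.nd (nat_lit 78) (nat_lit 0) (nat_lit 0) (XT.lf (nat_lit 0) (nat_lit 34653804138) (nat_lit 152) (nat_lit 22121324758) (nat_lit 0) (nat_lit 29398447739) (nat_lit 2) (nat_lit 5) (nat_lit 4) (nat_lit 4) (nat_lit 2) (nat_lit 4) (nat_lit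 399) (nat_lit 206) (nat_lit 175)) (XT.nd (nat_lit 78) (nat_lit 0) (nat_lit 0) (XT.lf (nat_lit 0) (nat_lit 37334141921) (nat_lit 152) (nat_lit 19389363004) (nat_lit 0) (nat_lit 31976745232) (nat_lit 2) (nat_lit 5) (nat_lit 4) (nat_lit 4) (nat_lit 2) (nat_lit 4) (nat_lit 400) (nat_lit 206) (nat_lit 174)) (XT.lf (nat_lit 0) (nat_lit 40070450339) (nat_lit 152) (nat_lit 16619039673) (nat_lit 0) (nat_lit 34613985408) (nat_lit 2) (nat_lit 5) (nat_lit 4) (nat_lit 4) (nat_lit 2) (nat_lit 4) (nat_lit 401) (nat_lit 206) (nat_lit 173))))))) (XT.nd (nat_lit 38610) (nat_lit 0) (nat_lit 0) (XT.nd (nat_lit 38142) (nat_lit 0) (nat_lit 152) (XT.nd (nat_lit 37908) (nat_lit 0) (nat_lit 228) (XT.nd (nat_lit 37830) (nat_lit 0) (nat_lit 380) (XT.lf (nat_lit 0) (nat_lit 42865120341) (nat_lit 152) (nat_lit 13807934094) (nat_lit 0) (nat_lit 37312472651) (nat_lit 2) (nat_lit 5) (nat_lit 4) (nat_lit 4) (nat_lit 2) (nat_lit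 4) (nat_lit 402) (nat_lit 206) (nat_lit 172)) (XT.lf (nat_lit 0) (nat_lit 16303460777) (nat_lit 76) (nat_lit 375456577) (nat_lit 76) (nat_lit 375456577) (nat_lit 7) (nat_lit 4) (nat_lit 8) (nat_lit 5) (nat_lit 8) (nat_lit 4) (nat_lit 366) (nat_lit 207) (nat_lit 207))) (XT.nd (nat_lit 78) (nat_lit 0) (nat_lit 0) (XT.lf (nat_lit 0) (nat_lit 2030993966) (nat_lit 152) (nat_lit 31246328409) (nat_lit 0) (nat_lit 1760348910) (nat_lit 5) (nat_lit 5) (nat_lit 7) (nat_lit 4) (nat_lit 5) (nat_lit 4) (nat_lit 367) (nat_lit 207) (nat_lit 206)) (XT.nd (nat_lit 78) (nat_lit 0) (nat_lit 0) (XT.lf (nat_lit 0) (nat_lit 4844293693) (nat_lit 152) (nat_lit 26840217056) (nat_lit 0) (nat_lit 4310886446) (nat_lit 5) (nat_lit 5) (nat_lit 7) (nat_lit 4) (nat_lit 5) (nat_lit 4) (nat_lit 368) (nat_lit 207) (nat_lit 205)) (XT.lf (nat_lit 0) (nat_lit 7684009463) (nat_lit 152) (nat_lit 22404138867) (nat_lit 0) (nat_lit 6895493294)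 (nat_lit 5) (nat_lit 5) (nat_lit 7) (nat_lit 4) (nat_lit 5) (nat_lit 4) (nat_lit 369) (nat_lit 207) (nat_lit 204))))) (XT.nd (nat_lit 234) (nat_lit 76) (nat_lit 0) (XT.nd (nat_lit 78) (nat_lit 0) (nat_lit 0) (XT.lf (nat_lit 0) (nat_lit 10552622581) (nat_lit 152) (nat_lit 17934217656) (nat_lit 0) (nat_lit 9516427846) (nat_lit 5) (nat_lit 5) (nat_lit 7) (nat_lit 4) (nat_lit 5) (nat_lit 4) (nat_lit 370) (nat_lit 207) (nat_lit 203)) (XT.nd (nat_lit 78) (nat_lit 0) (nat_lit 0) (XT.lf (nat_lit 0) (nat_lit 13452639603) (nat_lit 152) (nat_lit 13426547669) (nat_lit 0) (nat_lit 12175980242) (nat_lit 5) (nat_lit 5) (nat_lit 7) (nat_lit 4) (nat_lit 5) (nat_lit 4) (nat_lit 371) (nat_lit 207) (nat_lit 202)) (XT.lf (nat_lit 0) (nat_lit 16386594525) (nat_lit 152) (nat_lit 8877190163) (nat_lit 0) (nat_lit 14876474360) (nat_lit 5) (nat_lit 5) (nat_lit 7) (nat_lit 4) (nat_lit 5) (nat_lit 4) (nat_lit 372) (nat_lit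 207) (nat_lit 201)))) (XT.nd (nat_lit 78) (nat_lit 76) (nat_lit 0) (XT.lf (nat_lit 0) (nat_lit 19357050995) (nat_lit 152) (nat_lit 4282169973) (nat_lit 0) (nat_lit 17620269857) (nat_lit 5) (nat_lit 5) (nat_lit 7) (nat_lit 4) (nat_lit 5) (nat_lit 4) (nat_lit 373) (nat_lit 207) (nat_lit 200)) (XT.nd (nat_lit 78) (nat_lit 0) (nat_lit 0) (XT.lf (nat_lit 0) (nat_lit 369742985) (nat_lit 76) (nat_lit 22000415769) (nat_lit 76) (nat_lit 20043575433) (nat_lit 4) (nat_lit 4) (nat_lit 5) (nat_lit 5) (nat_lit 5) (nat_lit 4) (nat_lit 374) (nat_lit 207) (nat_lit 199)) (XT.lf (nat_lit 0) (nat_lit 5161685205) (nat_lit 76) (nat_lit 20305816994) (nat_lit 76) (nat_lit 18135326952) (nat_lit 4) (nat_lit 4) (nat_lit 5) (nat_lit 5) (nat_lit 5) (nat_lit 4) (nat_lit 375) (nat_lit 207) (nat_lit 198)))))) (XT.nd (nat_lit 468) (nat_lit 152) (nat_lit 0) (XT.nd (nat_lit 234) (nat_lit 0) (nat_lit 0) (XT.nd (nat_lit 78) (nat_lit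 0) (nat_lit 0) (XT.lf (nat_lit 0) (nat_lit 10012620239) (nat_lit 76) (nat_lit 18597185447) (nat_lit 76) (nat_lit 16219268506) (nat_lit 4) (nat_lit 4) (nat_lit 5) (nat_lit 5) (nat_lit 5) (nat_lit 4) (nat_lit 376) (nat_lit 207) (nat_lit 197)) (XT.nd (nat_lit 78) (nat_lit 0) (nat_lit 0) (XT.lf (nat_lit 0) (nat_lit 14926786770) (nat_lit 76) (nat_lit 16873028149) (nat_lit 76) (nat_lit 14293725868) (nat_lit 4) (nat_lit 4) (nat_lit 5) (nat_lit 5) (nat_lit 5) (nat_lit 4) (nat_lit 377) (nat_lit 207) (nat_lit 196)) (XT.lf (nat_lit 0) (nat_lit 19908478729) (nat_lit 76) (nat_lit 15131838554) (nat_lit 76) (nat_lit 12357016526) (nat_lit 4) (nat_lit 4) (nat_lit 5) (nat_lit 5) (nat_lit 5) (nat_lit 4) (nat_lit 378) (nat_lit 207) (nat_lit 195)))) (XT.nd (nat_lit 78) (nat_lit 0) (nat_lit 0) (XT.lf (nat_lit 0) (nat_lit 24962049050) (nat_lit 76) (nat_lit 13372095235) (nat_lit 76) (nat_lit 10407448210) (nat_lit 4)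 (nat_lit 4) (nat_lit 5) (nat_lit 5) (nat_lit 5) (nat_lit 4) (nat_lit 379) (nat_lit 207) (nat_lit 194)) (XT.nd (nat_lit 78) (nat_lit 0) (nat_lit 0) (XT.lf (nat_lit 0) (nat_lit 30091913476) (nat_lit 76) (nat_lit 11592260551) (nat_lit 76) (nat_lit 8443317413) (nat_lit 4) (nat_lit 4) (nat_lit 5) (nat_lit 5) (nat_lit 5) (nat_lit 4) (nat_lit 380) (nat_lit 207) (nat_lit 193)) (XT.lf (nat_lit 0) (nat_lit 35302554412) (nat_lit 76) (nat_lit 9790779308) (nat_lit 76) (nat_lit 6462907904) (nat_lit 4) (nat_lit 4) (nat_lit 5) (nat_lit 5) (nat_lit 5) (nat_lit 4) (nat_lit 381) (nat_lit 207) (nat_lit 192))))) (XT.nd (nat_lit 234) (nat_lit 152) (nat_lit 0) (XT.nd (nat_lit 78) (nat_lit 0) (nat_lit 0) (XT.lf (nat_lit 0) (nat_lit 40598524845) (nat_lit 76) (nat_lit 7966077396) (nat_lit 76) (nat_lit 4464489229) (nat_lit 4) (nat_lit 4) (nat_lit 5) (nat_lit 5) (nat_lit 5) (nat_lit 4) (nat_lit 382) (nat_lit 207) (nat_lit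 191)) (XT.nd (nat_lit 78) (nat_lit 0) (nat_lit 0) (XT.lf (nat_lit 0) (nat_lit 45984452322) (nat_lit 76) (nat_lit 6116560415) (nat_lit 76) (nat_lit 2446315197) (nat_lit 4) (nat_lit 4) (nat_lit 5) (nat_lit 5) (nat_lit 5) (nat_lit 4) (nat_lit 383) (nat_lit 207) (nat_lit 190)) (XT.lf (nat_lit 0) (nat_lit 51465042993) (nat_lit 76) (nat_lit 4240612282) (nat_lit 76) (nat_lit 406622354) (nat_lit 4) (nat_lit 4) (nat_lit 5) (nat_lit 5) (nat_lit 5) (nat_lit 4) (nat_lit 384) (nat_lit 207) (nat_lit 189)))) (XT.nd (nat_lit 78) (nat_lit 76) (nat_lit 0) (XT.lf (nat_lit 0) (nat_lit 1624049780) (nat_lit 152) (nat_lit 696144320) (nat_lit 76) (nat_lit 55404636225) (nat_lit 3) (nat_lit 5) (nat_lit 5) (nat_lit 5) (nat_lit 4) (nat_lit 4) (nat_lit 385) (nat_lit 207) (nat_lit 188)) (XT.nd (nat_lit 78) (nat_lit 0) (nat_lit 0) (XT.lf (nat_lit 0) (nat_lit 3371422290) (nat_lit 76) (nat_lit 332386949) (nat_lit 152) (nat_lit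 55681967143) (nat_lit 2) (nat_lit 5) (nat_lit 3) (nat_lit 5) (nat_lit 4) (nat_lit 4) (nat_lit 386) (nat_lit 207) (nat_lit 187)) (XT.lf (nat_lit 0) (nat_lit 5833656704) (nat_lit 152) (nat_lit 53601633578) (nat_lit 0) (nat_lit 1661656632) (nat_lit 2) (nat_lit 5) (nat_lit 4) (nat_lit 4) (nat_lit 2) (nat_lit 4) (nat_lit 387) (nat_lit 207) (nat_lit 186))))))))
noncomputable def xc8 : XT := (XT.nd (nat_lit 39312) (nat_lit 0) (nat_lit 0) (XT.nd (nat_lit 858) (nat_lit 0) (nat_lit 0) (XT.nd (nat_lit 390) (nat_lit 0) (nat_lit 0) (XT.nd (nat_lit 156) (nat_lit 0) (nat_lit 0) (XT.nd (nat_lit 78) (nat_lit 0) (nat_lit 0) (XT.lf (nat_lit 0) (nat_lit 7995845670) (nat_lit 152) (nat_lit 51181981698) (nat_lit 0) (nat_lit 3682597974) (nat_lit 2) (nat_lit 5) (nat_lit 4) (nat_lit 4) (nat_lit 2) (nat_lit 4) (nat_lit 388) (nat_lit 207) (nat_lit 185)) (XT.lf (nat_lit 0) (nat_lit 10189070325) (nat_lit 152) (nat_lit 48750089085)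 (nat_lit 0) (nat_lit 5738689012) (nat_lit 2) (nat_lit 5) (nat_lit 4) (nat_lit 4) (nat_lit 2) (nat_lit 4) (nat_lit 389) (nat_lit 207) (nat_lit 184))) (XT.nd (nat_lit 78) (nat_lit 0) (nat_lit 0) (XT.lf (nat_lit 0) (nat_lit 12415247078) (nat_lit 152) (nat_lit 46303830786) (nat_lit 0) (nat_lit 7831726332) (nat_lit 2) (nat_lit 5) (nat_lit 4) (nat_lit 4) (nat_lit 2) (nat_lit 4) (nat_lit 390) (nat_lit 207) (nat_lit 183)) (XT.nd (nat_lit 78) (nat_lit 0) (nat_lit 0) (XT.lf (nat_lit 0) (nat_lit 14676321132) (nat_lit 152) (nat_lit 43841069293) (nat_lit 0) (nat_lit 9963538799) (nat_lit 2) (nat_lit 5) (nat_lit 4) (nat_lit 4) (nat_lit 2) (nat_lit 4) (nat_lit 391) (nat_lit 207) (nat_lit 182)) (XT.lf (nat_lit 0) (nat_lit 16974268182) (nat_lit 152) (nat_lit 41359652679) (nat_lit 0) (nat_lit 12135989164) (nat_lit 2) (nat_lit 5) (nat_lit 4) (nat_lit 4) (nat_lit 2) (nat_lit 4) (nat_lit 392) (nat_lit 207) (nat_lit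 181))))) (XT.nd (nat_lit 234) (nat_lit 0) (nat_lit 0) (XT.nd (nat_lit 78) (nat_lit 0) (nat_lit 0) (XT.lf (nat_lit 0) (nat_lit 19311096145) (nat_lit 152) (nat_lit 38857412716) (nat_lit 0) (nat_lit 14350975684) (nat_lit 2) (nat_lit 5) (nat_lit 4) (nat_lit 4) (nat_lit 2) (nat_lit 4) (nat_lit 393) (nat_lit 207) (nat_lit 180)) (XT.nd (nat_lit 78) (nat_lit 0) (nat_lit 0) (XT.lf (nat_lit 0) (nat_lit 21688846907) (nat_lit 152) (nat_lit 36332162981) (nat_lit 0) (nat_lit 16610433784) (nat_lit 2) (nat_lit 5) (nat_lit 4) (nat_lit 4) (nat_lit 2) (nat_lit 4) (nat_lit 394) (nat_lit 207) (nat_lit 179)) (XT.lf (nat_lit 0) (nat_lit 24109598116) (nat_lit 152) (nat_lit 33781696944) (nat_lit 0) (nat_lit 18916337748) (nat_lit 2) (nat_lit 5) (nat_lit 4) (nat_lit 4) (nat_lit 2) (nat_lit 4) (nat_lit 395) (nat_lit 207) (nat_lit 178)))) (XT.nd (nat_lit 78) (nat_lit 0) (nat_lit 0) (XT.lf (nat_lit 0) (nat_lit 26575464990)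 (nat_lit 152) (nat_lit 31203786042) (nat_lit 0) (nat_lit 21270702443) (nat_lit 2) (nat_lit 5) (nat_lit 4) (nat_lit 4) (nat_lit 2) (nat_lit 4) (nat_lit 396) (nat_lit 207) (nat_lit 177)) (XT.nd (nat_lit 78) (nat_lit 0) (nat_lit 0) (XT.lf (nat_lit 0) (nat_lit 29088602172) (nat_lit 152) (nat_lit 28596177734) (nat_lit 0) (nat_lit 23675585081) (nat_lit 2) (nat_lit 5) (nat_lit 4) (nat_lit 4) (nat_lit 2) (nat_lit 4) (nat_lit 397) (nat_lit 207) (nat_lit 176)) (XT.lf (nat_lit 0) (nat_lit 31651205605) (nat_lit 152) (nat_lit 25956593525) (nat_lit 0) (nat_lit 26133087016) (nat_lit 2) (nat_lit 5) (nat_lit 4) (nat_lit 4) (nat_lit 2) (nat_lit 4) (nat_lit 398) (nat_lit 207) (nat_lit 175)))))) (XT.nd (nat_lit 37986) (nat_lit 0) (nat_lit 228) (XT.nd (nat_lit 156) (nat_lit 0) (nat_lit 0) (XT.nd (nat_lit 78) (nat_lit 0) (nat_lit 0) (XT.lf (nat_lit 0) (nat_lit 34265514459) (nat_lit 152) (nat_lit 23282726983) (nat_lit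 0) (nat_lit 28645355580) (nat_lit 2) (nat_lit 5) (nat_lit 4) (nat_lit 4) (nat_lit 2) (nat_lit 4) (nat_lit 399) (nat_lit 207) (nat_lit 174)) (XT.lf (nat_lit 0) (nat_lit 36933813080) (nat_lit 152) (nat_lit 20572241720) (nat_lit 0) (nat_lit 31214585959) (nat_lit 2) (nat_lit 5) (nat_lit 4) (nat_lit 4) (nat_lit 2) (nat_lit 4) (nat_lit 400) (nat_lit 207) (nat_lit 173))) (XT.nd (nat_lit 78) (nat_lit 0) (nat_lit 0) (XT.lf (nat_lit 0) (nat_lit 39658432992) (nat_lit 152) (nat_lit 17822769351) (nat_lit 0) (nat_lit 33843023111) (nat_lit 2) (nat_lit 5) (nat_lit 4) (nat_lit 4) (nat_lit 2) (nat_lit 4) (nat_lit 401) (nat_lit 207) (nat_lit 172)) (XT.nd (nat_lit 37674) (nat_lit 0) (nat_lit 380) (XT.lf (nat_lit 0) (nat_lit 42441754930) (nat_lit 152) (nat_lit 15031907423) (nat_lit 0) (nat_lit 36532963729) (nat_lit 2) (nat_lit 5) (nat_lit 4) (nat_lit 4) (nat_lit 2) (nat_lit 4) (nat_lit 402) (nat_lit 207) (nat_lit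 171)) (XT.lf (nat_lit 0) (nat_lit 10259310907) (nat_lit 76) (nat_lit 2953216553) (nat_lit 76) (nat_lit 2953216553) (nat_lit 7) (nat_lit 4) (nat_lit 8) (nat_lit 5) (nat_lit 8) (nat_lit 4) (nat_lit 364) (nat_lit 208) (nat_lit 208))))) (XT.nd (nat_lit 234) (nat_lit 0) (nat_lit 0) (XT.nd (nat_lit 78) (nat_lit 152) (nat_lit 0) (XT.lf (nat_lit 0) (nat_lit 26499360506) (nat_lit 76) (nat_lit 3497146985) (nat_lit 76) (nat_lit 3210019645) (nat_lit 7) (nat_lit 4) (nat_lit 8) (nat_lit 5) (nat_lit 8) (nat_lit 4) (nat_lit 365) (nat_lit 208) (nat_lit 207)) (XT.nd (nat_lit 78) (nat_lit 152) (nat_lit 0) (XT.lf (nat_lit 0) (nat_lit 32555853783) (nat_lit 76) (nat_lit 1059844588) (nat_lit 76) (nat_lit 493952840) (nat_lit 7) (nat_lit 4) (nat_lit 8) (nat_lit 5) (nat_lit 8) (nat_lit 4) (nat_lit 366) (nat_lit 208) (nat_lit 206)) (XT.lf (nat_lit 0) (nat_lit 2250035937) (nat_lit 152) (nat_lit 31351611408) (nat_lit 0)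 (nat_lit 1437864283) (nat_lit 5) (nat_lit 5) (nat_lit 7) (nat_lit 4) (nat_lit 5) (nat_lit 4) (nat_lit 367) (nat_lit 208) (nat_lit 205)))) (XT.nd (nat_lit 78) (nat_lit 0) (nat_lit 0) (XT.lf (nat_lit 0) (nat_lit 5034772635) (nat_lit 152) (nat_lit 26995853013) (nat_lit 0) (nat_lit 3967492058) (nat_lit 5) (nat_lit 5) (nat_lit 7) (nat_lit 4) (nat_lit 5) (nat_lit 4) (nat_lit 368) (nat_lit 208) (nat_lit 204)) (XT.nd (nat_lit 78) (nat_lit 0) (nat_lit 0) (XT.lf (nat_lit 0) (nat_lit 7846757309) (nat_lit 152) (nat_lit 22608661191) (nat_lit 0) (nat_lit 6531798167) (nat_lit 5) (nat_lit 5) (nat_lit 7) (nat_lit 4) (nat_lit 5) (nat_lit 4) (nat_lit 369) (nat_lit 208) (nat_lit 203)) (XT.lf (nat_lit 0) (nat_lit 10688447033) (nat_lit 152) (nat_lit 18186202473) (nat_lit 0) (nat_lit 9133023264) (nat_lit 5) (nat_lit 5) (nat_lit 7) (nat_lit 4) (nat_lit 5) (nat_lit 4) (nat_lit 370) (nat_lit 208) (nat_lit 202)))))))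 (XT.nd (nat_lit 858) (nat_lit 152) (nat_lit 0) (XT.nd (nat_lit 390) (nat_lit 0) (nat_lit 0) (XT.nd (nat_lit 156) (nat_lit 76) (nat_lit 0) (XT.nd (nat_lit 78) (nat_lit 0) (nat_lit 0) (XT.lf (nat_lit 0) (nat_lit 13562324838) (nat_lit 152) (nat_lit 13724612575) (nat_lit 0) (nat_lit 11773440266) (nat_lit 5) (nat_lit 5) (nat_lit 7) (nat_lit 4) (nat_lit 5) (nat_lit 4) (nat_lit 371) (nat_lit 208) (nat_lit 201)) (XT.lf (nat_lit 0) (nat_lit 16470901878) (nat_lit 152) (nat_lit 9219993020) (nat_lit 0) (nat_lit 14455356333) (nat_lit 5) (nat_lit 5) (nat_lit 7) (nat_lit 4) (nat_lit 5) (nat_lit 4) (nat_lit 372) (nat_lit 208) (nat_lit 200))) (XT.nd (nat_lit 78) (nat_lit 76) (nat_lit 0) (XT.lf (nat_lit 0) (nat_lit 19416719629) (nat_lit 152) (nat_lit 4668407733) (nat_lit 0) (nat_lit 17181114886) (nat_lit 5) (nat_lit 5) (nat_lit 7) (nat_lit 4) (nat_lit 5) (nat_lit 4) (nat_lit 373) (nat_lit 208) (nat_lit 199))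 (XT.nd (nat_lit 78) (nat_lit 76) (nat_lit 0) (XT.lf (nat_lit 0) (nat_lit 22402352106) (nat_lit 152) (nat_lit 65879601) (nat_lit 0) (nat_lit 19953097656) (nat_lit 5) (nat_lit 5) (nat_lit 7) (nat_lit 4) (nat_lit 5) (nat_lit 4) (nat_lit 374) (nat_lit 208) (nat_lit 198)) (XT.lf (nat_lit 0) (nat_lit 4682995104) (nat_lit 76) (nat_lit 20792428824) (nat_lit 76) (nat_lit 18135747475) (nat_lit 4) (nat_lit 4) (nat_lit 5) (nat_lit 5) (nat_lit 5) (nat_lit 4) (nat_lit 375) (nat_lit 208) (nat_lit 197))))) (XT.nd (nat_lit 234) (nat_lit 0) (nat_lit 0) (XT.nd (nat_lit 78) (nat_lit 0) (nat_lit 0) (XT.lf (nat_lit 0) (nat_lit 9493389964) (nat_lit 76) (nat_lit 19101399836) (nat_lit 76) (nat_lit 16243333147) (nat_lit 4) (nat_lit 4) (nat_lit 5) (nat_lit 5) (nat_lit 5) (nat_lit 4) (nat_lit 376) (nat_lit 208) (nat_lit 196)) (XT.nd (nat_lit 78) (nat_lit 0) (nat_lit 0) (XT.lf (nat_lit 0) (nat_lit 14368197101) (nat_lit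 76) (nat_lit 17394332401) (nat_lit 76) (nat_lit 14340745965) (nat_lit 4) (nat_lit 4) (nat_lit 5) (nat_lit 5) (nat_lit 5) (nat_lit 4) (nat_lit 377) (nat_lit 208) (nat_lit 195)) (XT.lf (nat_lit 0) (nat_lit 19311676057) (nat_lit 76) (nat_lit 15669734906) (nat_lit 76) (nat_lit 12426323474) (nat_lit 4) (nat_lit 4) (nat_lit 5) (nat_lit 5) (nat_lit 5) (nat_lit 4) (nat_lit 378) (nat_lit 208) (nat_lit 194)))) (XT.nd (nat_lit 78) (nat_lit 0) (nat_lit 0) (XT.lf (nat_lit 0) (nat_lit 24328146377) (nat_lit 76) (nat_lit 13926100422) (nat_lit 76) (nat_lit 10498392876) (nat_lit 4) (nat_lit 4) (nat_lit 5) (nat_lit 5) (nat_lit 5) (nat_lit 4) (nat_lit 379) (nat_lit 208) (nat_lit 193)) (XT.nd (nat_lit 78) (nat_lit 0) (nat_lit 0) (XT.lf (nat_lit 0) (nat_lit 29421991382) (nat_lit 76) (nat_lit 12161905385) (nat_lit 76) (nat_lit 8555269573) (nat_lit 4) (nat_lit 4) (nat_lit 5) (nat_lit 5) (nat_lit 5) (nat_lit 4) (nat_lit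 380) (nat_lit 208) (nat_lit 192)) (XT.lf (nat_lit 0) (nat_lit 34597662007) (nat_lit 76) (nat_lit 10375608264) (nat_lit 76) (nat_lit 6595255689) (nat_lit 4) (nat_lit 4) (nat_lit 5) (nat_lit 5) (nat_lit 5) (nat_lit 4) (nat_lit 381) (nat_lit 208) (nat_lit 191)))))) (XT.nd (nat_lit 468) (nat_lit 0) (nat_lit 0) (XT.nd (nat_lit 234) (nat_lit 152) (nat_lit 0) (XT.nd (nat_lit 78) (nat_lit 0) (nat_lit 0) (XT.lf (nat_lit 0) (nat_lit 39859680682) (nat_lit 76) (nat_lit 8565648218) (nat_lit 76) (nat_lit 4616638592) (nat_lit 4) (nat_lit 4) (nat_lit 5) (nat_lit 5) (nat_lit 5) (nat_lit 4) (nat_lit 382) (nat_lit 208) (nat_lit 190)) (XT.nd (nat_lit 78) (nat_lit 0) (nat_lit 0) (XT.lf (nat_lit 0) (nat_lit 45212645287) (nat_lit 76) (nat_lit 6730443728) (nat_lit 76) (nat_lit 2617689392) (nat_lit 4) (nat_lit 4) (nat_lit 5) (nat_lit 5) (nat_lit 5) (nat_lit 4) (nat_lit 383) (nat_lit 208) (nat_lit 189)) (XT.lf (nat_lit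 0) (nat_lit 50661233169) (nat_lit 76) (nat_lit 4868391217) (nat_lit 76) (nat_lit 596661435) (nat_lit 4) (nat_lit 4) (nat_lit 5) (nat_lit 5) (nat_lit 5) (nat_lit 4) (nat_lit 384) (nat_lit 208) (nat_lit 188)))) (XT.nd (nat_lit 78) (nat_lit 76) (nat_lit 0) (XT.lf (nat_lit 0) (nat_lit 1419951407) (nat_lit 152) (nat_lit 1543573517) (nat_lit 76) (nat_lit 54775915099) (nat_lit 3) (nat_lit 5) (nat_lit 5) (nat_lit 5) (nat_lit 4) (nat_lit 4) (nat_lit 385) (nat_lit 208) (nat_lit 187)) (XT.nd (nat_lit 78) (nat_lit 0) (nat_lit 0) (XT.lf (nat_lit 0) (nat_lit 2475997854) (nat_lit 76) (nat_lit 997855512) (nat_lit 152) (nat_lit 55927321716) (nat_lit 2) (nat_lit 5) (nat_lit 3) (nat_lit 5) (nat_lit 4) (nat_lit 4) (nat_lit 386) (nat_lit 208) (nat_lit 186)) (XT.lf (nat_lit 0) (nat_lit 5580138973) (nat_lit 152) (nat_lit 54536680163) (nat_lit 0) (nat_lit 996246221) (nat_lit 2) (nat_lit 5) (nat_lit 4) (nat_lit 4) (nat_lit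 2) (nat_lit 4) (nat_lit 387) (nat_lit 208) (nat_lit 185))))) (XT.nd (nat_lit 234) (nat_lit 0) (nat_lit 0) (XT.nd (nat_lit 78) (nat_lit 0) (nat_lit 0) (XT.lf (nat_lit 0) (nat_lit 7725662925) (nat_lit 152) (nat_lit 52146756767) (nat_lit 0) (nat_lit 3004636556) (nat_lit 2) (nat_lit 5) (nat_lit 4) (nat_lit 4) (nat_lit 2) (nat_lit 4) (nat_lit 388) (nat_lit 208) (nat_lit 184)) (XT.nd (nat_lit 78) (nat_lit 0) (nat_lit 0) (XT.lf (nat_lit 0) (nat_lit 9902707953) (nat_lit 152) (nat_lit 49743726761) (nat_lit 0) (nat_lit 5048542151) (nat_lit 2) (nat_lit 5) (nat_lit 4) (nat_lit 4) (nat_lit 2) (nat_lit 4) (nat_lit 389) (nat_lit 208) (nat_lit 183)) (XT.lf (nat_lit 0) (nat_lit 12113176331) (nat_lit 152) (nat_lit 47325490411) (nat_lit 0) (nat_lit 7129748942) (nat_lit 2) (nat_lit 5) (nat_lit 4) (nat_lit 4) (nat_lit 2) (nat_lit 4) (nat_lit 390) (nat_lit 208) (nat_lit 182)))) (XT.nd (nat_lit 78) (nat_lit 0) (nat_lit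 0) (XT.lf (nat_lit 0) (nat_lit 14358999535) (nat_lit 152) (nat_lit 44889934693) (nat_lit 0) (nat_lit 9250075461) (nat_lit 2) (nat_lit 5) (nat_lit 4) (nat_lit 4) (nat_lit 2) (nat_lit 4) (nat_lit 391) (nat_lit 208) (nat_lit 181)) (XT.nd (nat_lit 78) (nat_lit 0) (nat_lit 0) (XT.lf (nat_lit 0) (nat_lit 16642139935) (nat_lit 152) (nat_lit 42434931453) (nat_lit 0) (nat_lit 11411374419) (nat_lit 2) (nat_lit 5) (nat_lit 4) (nat_lit 4) (nat_lit 2) (nat_lit 4) (nat_lit 392) (nat_lit 208) (nat_lit 180)) (XT.lf (nat_lit 0) (nat_lit 18964592509) (nat_lit 152) (nat_lit 39958335543) (nat_lit 0) (nat_lit 13615534330) (nat_lit 2) (nat_lit 5) (nat_lit 4) (nat_lit 4) (nat_lit 2) (nat_lit 4) (nat_lit 393) (nat_lit 208) (nat_lit 179))))))))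
noncomputable def xc9 : XT := (XT.nd (nat_lit 39156) (nat_lit 0) (nat_lit 0) (XT.nd (nat_lit 38298) (nat_lit 0) (nat_lit 228) (XT.nd (nat_lit 390) (nat_lit 0) (nat_lit 0) (XT.nd (nat_lit 156) (nat_lit 0) (nat_lit 0) (XT.nd (nat_lit 78) (nat_lit 0) (nat_lit 0) (XT.lf (nat_lit 0) (nat_lit 21328386583) (nat_lit 152) (nat_lit 37457982945) (nat_lit 0) (nat_lit 15864481160) (nat_lit 2) (nat_lit 5) (nat_lit 4) (nat_lit 4) (nat_lit 2) (nat_lit 4) (nat_lit 394) (nat_lit 208) (nat_lit 178)) (XT.lf (nat_lit 0) (nat_lit 23735587610) (nat_lit 152) (nat_lit 34931688887) (nat_lit 0) (nat_lit 18160180006) (nat_lit 2) (nat_lit 5) (nat_lit 4) (nat_lit 4) (nat_lit 2) (nat_lit 4) (nat_lit 395) (nat_lit 208) (nat_lit 177))) (XT.nd (nat_lit 78) (nat_lit 0) (nat_lit 0) (XT.lf (nat_lit 0) (nat_lit 26188298967) (nat_lit 152) (nat_lit 32377245926) (nat_lit 0) (nat_lit 20504636821) (nat_lit 2) (nat_lit 5) (nat_lit 4)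 (nat_lit 4) (nat_lit 2) (nat_lit 4) (nat_lit 396) (nat_lit 208) (nat_lit 176)) (XT.nd (nat_lit 78) (nat_lit 0) (nat_lit 0) (XT.lf (nat_lit 0) (nat_lit 28688663802) (nat_lit 152) (nat_lit 29792422026) (nat_lit 0) (nat_lit 22899900157) (nat_lit 2) (nat_lit 5) (nat_lit 4) (nat_lit 4) (nat_lit 2) (nat_lit 4) (nat_lit 397) (nat_lit 208) (nat_lit 175)) (XT.lf (nat_lit 0) (nat_lit 31238866899) (nat_lit 152) (nat_lit 27174958602) (nat_lit 0) (nat_lit 25348062965) (nat_lit 2) (nat_lit 5) (nat_lit 4) (nat_lit 4) (nat_lit 2) (nat_lit 4) (nat_lit 398) (nat_lit 208) (nat_lit 174))))) (XT.nd (nat_lit 234) (nat_lit 0) (nat_lit 0) (XT.nd (nat_lit 78) (nat_lit 0) (nat_lit 0) (XT.lf (nat_lit 0) (nat_lit 33841136591) (nat_lit 152) (nat_lit 24522568551) (nat_lit 0) (nat_lit 27851264414) (nat_lit 2) (nat_lit 5) (nat_lit 4) (nat_lit 4) (nat_lit 2) (nat_lit 4) (nat_lit 399) (nat_lit 208) (nat_lit 173)) (XT.nd (nat_lit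 78) (nat_lit 0) (nat_lit 0) (XT.lf (nat_lit 0) (nat_lit 36497746706) (nat_lit 152) (nat_lit 21832934249) (nat_lit 0) (nat_lit 30411691769) (nat_lit 2) (nat_lit 5) (nat_lit 4) (nat_lit 4) (nat_lit 2) (nat_lit 4) (nat_lit 400) (nat_lit 208) (nat_lit 172)) (XT.lf (nat_lit 0) (nat_lit 39211018554) (nat_lit 152) (nat_lit 19103705531) (nat_lit 0) (nat_lit 33031582297) (nat_lit 2) (nat_lit 5) (nat_lit 4) (nat_lit 4) (nat_lit 2) (nat_lit 4) (nat_lit 401) (nat_lit 208) (nat_lit 171)))) (XT.nd (nat_lit 37518) (nat_lit 0) (nat_lit 380) (XT.lf (nat_lit 0) (nat_lit 41983322954) (nat_lit 152) (nat_lit 16332497634) (nat_lit 0) (nat_lit 35713225221) (nat_lit 2) (nat_lit 5) (nat_lit 4) (nat_lit 4) (nat_lit 2) (nat_lit 4) (nat_lit 402) (nat_lit 208) (nat_lit 170)) (XT.nd (nat_lit 78) (nat_lit 0) (nat_lit 0) (XT.lf (nat_lit 0) (nat_lit 4408872030) (nat_lit 76) (nat_lit 5460981941) (nat_lit 76) (nat_lit 5460981941)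 (nat_lit 7) (nat_lit 4) (nat_lit 8) (nat_lit 5) (nat_lit 8) (nat_lit 4) (nat_lit 362) (nat_lit 209) (nat_lit 209)) (XT.lf (nat_lit 0) (nat_lit 14608411821) (nat_lit 76) (nat_lit 8585549312) (nat_lit 76) (nat_lit 8289808152) (nat_lit 7) (nat_lit 4) (nat_lit 8) (nat_lit 5) (nat_lit 8) (nat_lit 4) (nat_lit 363) (nat_lit 209) (nat_lit 208)))))) (XT.nd (nat_lit 390) (nat_lit 0) (nat_lit 0) (XT.nd (nat_lit 156) (nat_lit 152) (nat_lit 0) (XT.nd (nat_lit 78) (nat_lit 0) (nat_lit 0) (XT.lf (nat_lit 0) (nat_lit 20466022011) (nat_lit 76) (nat_lit 6224632481) (nat_lit 76) (nat_lit 5641763981) (nat_lit 7) (nat_lit 4) (nat_lit 8) (nat_lit 5) (nat_lit 8) (nat_lit 4) (nat_lit 364) (nat_lit 209) (nat_lit 207)) (XT.lf (nat_lit 0) (nat_lit 26395692931) (nat_lit 76) (nat_lit 3837150452) (nat_lit 76) (nat_lit 2975517545) (nat_lit 7) (nat_lit 4) (nat_lit 8) (nat_lit 5) (nat_lit 8) (nat_lit 4) (nat_lit 365) (nat_lit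 209) (nat_lit 206))) (XT.nd (nat_lit 78) (nat_lit 152) (nat_lit 0) (XT.lf (nat_lit 0) (nat_lit 32402605847) (nat_lit 76) (nat_lit 1421017077) (nat_lit 76) (nat_lit 288739113) (nat_lit 7) (nat_lit 4) (nat_lit 8) (nat_lit 5) (nat_lit 8) (nat_lit 4) (nat_lit 366) (nat_lit 209) (nat_lit 205)) (XT.nd (nat_lit 78) (nat_lit 0) (nat_lit 0) (XT.lf (nat_lit 0) (nat_lit 2417666219) (nat_lit 152) (nat_lit 31562269402) (nat_lit 0) (nat_lit 1063258302) (nat_lit 5) (nat_lit 5) (nat_lit 7) (nat_lit 4) (nat_lit 5) (nat_lit 4) (nat_lit 367) (nat_lit 209) (nat_lit 204)) (XT.lf (nat_lit 0) (nat_lit 5174671821) (nat_lit 152) (nat_lit 27255397374) (nat_lit 0) (nat_lit 3572585338) (nat_lit 5) (nat_lit 5) (nat_lit 7) (nat_lit 4) (nat_lit 5) (nat_lit 4) (nat_lit 368) (nat_lit 209) (nat_lit 203))))) (XT.nd (nat_lit 234) (nat_lit 0) (nat_lit 0) (XT.nd (nat_lit 78) (nat_lit 0) (nat_lit 0) (XT.lf (nat_lit 0) (nat_lit 7959733101)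 (nat_lit 152) (nat_lit 22915668044) (nat_lit 0) (nat_lit 6117181992) (nat_lit 5) (nat_lit 5) (nat_lit 7) (nat_lit 4) (nat_lit 5) (nat_lit 4) (nat_lit 369) (nat_lit 209) (nat_lit 202)) (XT.nd (nat_lit 78) (nat_lit 0) (nat_lit 0) (XT.lf (nat_lit 0) (nat_lit 10775283608) (nat_lit 152) (nat_lit 18539289415) (nat_lit 0) (nat_lit 8699271696) (nat_lit 5) (nat_lit 5) (nat_lit 7) (nat_lit 4) (nat_lit 5) (nat_lit 4) (nat_lit 370) (nat_lit 209) (nat_lit 201)) (XT.lf (nat_lit 0) (nat_lit 13623783531) (nat_lit 152) (nat_lit 14122437468) (nat_lit 0) (nat_lit 11321110646) (nat_lit 5) (nat_lit 5) (nat_lit 7) (nat_lit 4) (nat_lit 5) (nat_lit 4) (nat_lit 371) (nat_lit 209) (nat_lit 200)))) (XT.nd (nat_lit 78) (nat_lit 0) (nat_lit 0) (XT.lf (nat_lit 0) (nat_lit 16507721852) (nat_lit 152) (nat_lit 9661252817) (nat_lit 0) (nat_lit 13984989769) (nat_lit 5) (nat_lit 5) (nat_lit 7) (nat_lit 4) (nat_lit 5) (nat_lit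 4) (nat_lit 372) (nat_lit 209) (nat_lit 199)) (XT.nd (nat_lit 78) (nat_lit 0) (nat_lit 0) (XT.lf (nat_lit 0) (nat_lit 19429618516) (nat_lit 152) (nat_lit 5151837340) (nat_lit 0) (nat_lit 16693236726) (nat_lit 5) (nat_lit 5) (nat_lit 7) (nat_lit 4) (nat_lit 5) (nat_lit 4) (nat_lit 373) (nat_lit 209) (nat_lit 198)) (XT.lf (nat_lit 0) (nat_lit 22392026637) (nat_lit 152) (nat_lit 590250770) (nat_lit 0) (nat_lit 19448217948) (nat_lit 5) (nat_lit 5) (nat_lit 7) (nat_lit 4) (nat_lit 5) (nat_lit 4) (nat_lit 374) (nat_lit 209) (nat_lit 197))))))) (XT.nd (nat_lit 858) (nat_lit 76) (nat_lit 0) (XT.nd (nat_lit 390) (nat_lit 76) (nat_lit 0) (XT.nd (nat_lit 156) (nat_lit 0) (nat_lit 0) (XT.nd (nat_lit 78) (nat_lit 0) (nat_lit 0) (XT.lf (nat_lit 0) (nat_lit 4107647746) (nat_lit 76) (nat_lit 21329372203) (nat_lit 76) (nat_lit 18184178175) (nat_lit 4) (nat_lit 4) (nat_lit 5) (nat_lit 5) (nat_lit 5) (nat_lit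 4) (nat_lit 375) (nat_lit 209) (nat_lit 196)) (XT.lf (nat_lit 0) (nat_lit 8878683212) (nat_lit 76) (nat_lit 19655433079) (nat_lit 76) (nat_lit 16314719303) (nat_lit 4) (nat_lit 4) (nat_lit 5) (nat_lit 5) (nat_lit 5) (nat_lit 4) (nat_lit 376) (nat_lit 209) (nat_lit 195))) (XT.nd (nat_lit 78) (nat_lit 0) (nat_lit 0) (XT.lf (nat_lit 0) (nat_lit 13715277347) (nat_lit 76) (nat_lit 17964957744) (nat_lit 76) (nat_lit 14434418972) (nat_lit 4) (nat_lit 4) (nat_lit 5) (nat_lit 5) (nat_lit 5) (nat_lit 4) (nat_lit 377) (nat_lit 209) (nat_lit 194)) (XT.nd (nat_lit 78) (nat_lit 0) (nat_lit 0) (XT.lf (nat_lit 0) (nat_lit 18621656301) (nat_lit 76) (nat_lit 16256469085) (nat_lit 76) (nat_lit 12541634199) (nat_lit 4) (nat_lit 4) (nat_lit 5) (nat_lit 5) (nat_lit 5) (nat_lit 4) (nat_lit 378) (nat_lit 209) (nat_lit 193)) (XT.lf (nat_lit 0) (nat_lit 23602107200) (nat_lit 76) (nat_lit 14528474246) (nat_lit 76) (nat_lit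 10634711095) (nat_lit 4) (nat_lit 4) (nat_lit 5) (nat_lit 5) (nat_lit 5) (nat_lit 4) (nat_lit 379) (nat_lit 209) (nat_lit 192))))) (XT.nd (nat_lit 234) (nat_lit 76) (nat_lit 0) (XT.nd (nat_lit 78) (nat_lit 0) (nat_lit 0) (XT.lf (nat_lit 0) (nat_lit 28660981894) (nat_lit 76) (nat_lit 12779463331) (nat_lit 76) (nat_lit 8711983416) (nat_lit 4) (nat_lit 4) (nat_lit 5) (nat_lit 5) (nat_lit 5) (nat_lit 4) (nat_lit 380) (nat_lit 209) (nat_lit 191)) (XT.nd (nat_lit 78) (nat_lit 0) (nat_lit 0) (XT.lf (nat_lit 0) (nat_lit 33802700761) (nat_lit 76) (nat_lit 11007908076) (nat_lit 76) (nat_lit 6771771111) (nat_lit 4) (nat_lit 4) (nat_lit 5) (nat_lit 5) (nat_lit 5) (nat_lit 4) (nat_lit 381) (nat_lit 209) (nat_lit 190)) (XT.lf (nat_lit 0) (nat_lit 39031756564) (nat_lit 76) (nat_lit 9212260521) (nat_lit 76) (nat_lit 4812378846) (nat_lit 4) (nat_lit 4) (nat_lit 5) (nat_lit 5) (nat_lit 5) (nat_lit 4) (nat_lit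 382) (nat_lit 209) (nat_lit 189)))) (XT.nd (nat_lit 78) (nat_lit 76) (nat_lit 0) (XT.lf (nat_lit 0) (nat_lit 44352718380) (nat_lit 76) (nat_lit 7390951654) (nat_lit 76) (nat_lit 2832094532) (nat_lit 4) (nat_lit 4) (nat_lit 5) (nat_lit 5) (nat_lit 5) (nat_lit 4) (nat_lit 383) (nat_lit 209) (nat_lit 188)) (XT.nd (nat_lit 78) (nat_lit 76) (nat_lit 0) (XT.lf (nat_lit 0) (nat_lit 49770235595) (nat_lit 76) (nat_lit 5542390040) (nat_lit 76) (nat_lit 829187824) (nat_lit 4) (nat_lit 4) (nat_lit 5) (nat_lit 5) (nat_lit 5) (nat_lit 4) (nat_lit 384) (nat_lit 209) (nat_lit 187)) (XT.lf (nat_lit 0) (nat_lit 1174712312) (nat_lit 152) (nat_lit 2478385826) (nat_lit 76) (nat_lit 54102467357) (nat_lit 3) (nat_lit 5) (nat_lit 5) (nat_lit 5) (nat_lit 4) (nat_lit 4) (nat_lit 385) (nat_lit 209) (nat_lit 186)))))) (XT.nd (nat_lit 468) (nat_lit 0) (nat_lit 0) (XT.nd (nat_lit 234) (nat_lit 0) (nat_lit 0) (XT.nd (nat_lit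 78) (nat_lit 0) (nat_lit 0) (XT.lf (nat_lit 0) (nat_lit 1492357902) (nat_lit 76) (nat_lit 1710053318) (nat_lit 152) (nat_lit 56215688313) (nat_lit 2) (nat_lit 5) (nat_lit 3) (nat_lit 5) (nat_lit 4) (nat_lit 4) (nat_lit 386) (nat_lit 209) (nat_lit 185)) (XT.nd (nat_lit 78) (nat_lit 0) (nat_lit 0) (XT.lf (nat_lit 0) (nat_lit 5285185730) (nat_lit 152) (nat_lit 55560126969) (nat_lit 0) (nat_lit 285394954) (nat_lit 2) (nat_lit 5) (nat_lit 4) (nat_lit 4) (nat_lit 2) (nat_lit 4) (nat_lit 387) (nat_lit 209) (nat_lit 184)) (XT.lf (nat_lit 0) (nat_lit 7414530055) (nat_lit 152) (nat_lit 53199066180) (nat_lit 0) (nat_lit 2281599845) (nat_lit 2) (nat_lit 5) (nat_lit 4) (nat_lit 4) (nat_lit 2) (nat_lit 4) (nat_lit 388) (nat_lit 209) (nat_lit 183)))) (XT.nd (nat_lit 78) (nat_lit 0) (nat_lit 0) (XT.lf (nat_lit 0) (nat_lit 9575866709) (nat_lit 152) (nat_lit 50824058123) (nat_lit 0) (nat_lit 4313674912) (nat_lit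 2) (nat_lit 5) (nat_lit 4) (nat_lit 4) (nat_lit 2) (nat_lit 4) (nat_lit 389) (nat_lit 209) (nat_lit 182)) (XT.nd (nat_lit 78) (nat_lit 0) (nat_lit 0) (XT.lf (nat_lit 0) (nat_lit 11771084237) (nat_lit 152) (nat_lit 48433027548) (nat_lit 0) (nat_lit 6383395755) (nat_lit 2) (nat_lit 5) (nat_lit 4) (nat_lit 4) (nat_lit 2) (nat_lit 4) (nat_lit 390) (nat_lit 209) (nat_lit 181)) (XT.lf (nat_lit 0) (nat_lit 14002100791) (nat_lit 152) (nat_lit 46023885204) (nat_lit 0) (nat_lit 8492570866) (nat_lit 2) (nat_lit 5) (nat_lit 4) (nat_lit 4) (nat_lit 2) (nat_lit 4) (nat_lit 391) (nat_lit 209) (nat_lit 180))))) (XT.nd (nat_lit 234) (nat_lit 0) (nat_lit 0) (XT.nd (nat_lit 78) (nat_lit 0) (nat_lit 0) (XT.lf (nat_lit 0) (nat_lit 16270865802) (nat_lit 152) (nat_lit 43594526017) (nat_lit 0) (nat_lit 10643043216) (nat_lit 2) (nat_lit 5) (nat_lit 4) (nat_lit 4) (nat_lit 2) (nat_lit 4) (nat_lit 392) (nat_lit 209) (nat_lit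 179)) (XT.nd (nat_lit 78) (nat_lit 0) (nat_lit 0) (XT.lf (nat_lit 0) (nat_lit 18579361688) (nat_lit 152) (nat_lit 41142827244) (nat_lit 0) (nat_lit 12836691856) (nat_lit 2) (nat_lit 5) (nat_lit 4) (nat_lit 4) (nat_lit 2) (nat_lit 4) (nat_lit 393) (nat_lit 209) (nat_lit 178)) (XT.lf (nat_lit 0) (nat_lit 20929605580) (nat_lit 152) (nat_lit 38666646626) (nat_lit 0) (nat_lit 15075433569) (nat_lit 2) (nat_lit 5) (nat_lit 4) (nat_lit 4) (nat_lit 2) (nat_lit 4) (nat_lit 394) (nat_lit 209) (nat_lit 177)))) (XT.nd (nat_lit 78) (nat_lit 0) (nat_lit 0) (XT.lf (nat_lit 0) (nat_lit 23323651089) (nat_lit 152) (nat_lit 36163820508) (nat_lit 0) (nat_lit 17361224535) (nat_lit 2) (nat_lit 5) (nat_lit 4) (nat_lit 4) (nat_lit 2) (nat_lit 4) (nat_lit 395) (nat_lit 209) (nat_lit 176)) (XT.nd (nat_lit 78) (nat_lit 0) (nat_lit 0) (XT.lf (nat_lit 0) (nat_lit 25763590100) (nat_lit 152) (nat_lit 33632161956) (nat_lit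 0) (nat_lit 19696062048) (nat_lit 2) (nat_lit 5) (nat_lit 4) (nat_lit 4) (nat_lit 2) (nat_lit 4) (nat_lit 396) (nat_lit 209) (nat_lit 175)) (XT.lf (nat_lit 0) (nat_lit 28251554599) (nat_lit 152) (nat_lit 31069458841) (nat_lit 0) (nat_lit 22081986256) (nat_lit 2) (nat_lit 5) (nat_lit 4) (nat_lit 4) (nat_lit 2) (nat_lit 4) (nat_lit 397) (nat_lit 209) (nat_lit 174))))))))
noncomputable def xc10 : XT := (XT.nd (nat_lit 39000) (nat_lit 0) (nat_lit 0) (XT.nd (nat_lit 38142) (nat_lit 0) (nat_lit 152) (XT.nd (nat_lit 37674) (nat_lit 0) (nat_lit 380) (XT.nd (nat_lit 156) (nat_lit 0) (nat_lit 0) (XT.nd (nat_lit 78) (nat_lit 0) (nat_lit 0) (XT.lf (nat_lit 0) (nat_lit 30789718535) (nat_lit 152) (nat_lit 28473471907) (nat_lit 0) (nat_lit 24521081950) (nat_lit 2) (nat_lit 5) (nat_lit 4) (nat_lit 4) (nat_lit 2) (nat_lit 4) (nat_lit 398) (nat_lit 209) (nat_lit 173)) (XT.lf (nat_lit 0) (nat_lit 33380299720)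 (nat_lit 152) (nat_lit 25841932816) (nat_lit 0) (nat_lit 27015480376) (nat_lit 2) (nat_lit 5) (nat_lit 4) (nat_lit 4) (nat_lit 2) (nat_lit 4) (nat_lit 399) (nat_lit 209) (nat_lit 172))) (XT.nd (nat_lit 78) (nat_lit 0) (nat_lit 0) (XT.lf (nat_lit 0) (nat_lit 36025561770) (nat_lit 152) (nat_lit 23172542166) (nat_lit 0) (nat_lit 29567361106) (nat_lit 2) (nat_lit 5) (nat_lit 4) (nat_lit 4) (nat_lit 2) (nat_lit 4) (nat_lit 400) (nat_lit 209) (nat_lit 171)) (XT.nd (nat_lit 78) (nat_lit 0) (nat_lit 0) (XT.lf (nat_lit 0) (nat_lit 38727816079) (nat_lit 152) (nat_lit 20462967479) (nat_lit 0) (nat_lit 32178953939) (nat_lit 2) (nat_lit 5) (nat_lit 4) (nat_lit 4) (nat_lit 2) (nat_lit 4) (nat_lit 401) (nat_lit 209) (nat_lit 170)) (XT.lf (nat_lit 0) (nat_lit 41489423840) (nat_lit 152) (nat_lit 17710841166) (nat_lit 0) (nat_lit 34852540850) (nat_lit 2) (nat_lit 5) (nat_lit 4) (nat_lit 4) (nat_lit 2) (nat_lit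 4) (nat_lit 402) (nat_lit 209) (nat_lit 169))))) (XT.nd (nat_lit 234) (nat_lit 0) (nat_lit 0) (XT.nd (nat_lit 78) (nat_lit 76) (nat_lit 0) (XT.lf (nat_lit 0) (nat_lit 6653683244) (nat_lit 152) (nat_lit 1238916232) (nat_lit 0) (nat_lit 6653683244) (nat_lit 8) (nat_lit 5) (nat_lit 10) (nat_lit 4) (nat_lit 8) (nat_lit 4) (nat_lit 360) (nat_lit 210) (nat_lit 210)) (XT.nd (nat_lit 78) (nat_lit 0) (nat_lit 0) (XT.lf (nat_lit 0) (nat_lit 3088958925) (nat_lit 76) (nat_lit 13540531117) (nat_lit 76) (nat_lit 13235917722) (nat_lit 7) (nat_lit 4) (nat_lit 8) (nat_lit 5) (nat_lit 8) (nat_lit 4) (nat_lit 361) (nat_lit 210) (nat_lit 209)) (XT.lf (nat_lit 0) (nat_lit 8763566263) (nat_lit 76) (nat_lit 11249709240) (nat_lit 76) (nat_lit 10649354685) (nat_lit 7) (nat_lit 4) (nat_lit 8) (nat_lit 5) (nat_lit 8) (nat_lit 4) (nat_lit 362) (nat_lit 210) (nat_lit 208)))) (XT.nd (nat_lit 78) (nat_lit 0) (nat_lit 0) (XT.lf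 (nat_lit 0) (nat_lit 14501634218) (nat_lit 76) (nat_lit 8935752884) (nat_lit 76) (nat_lit 8048270989) (nat_lit 7) (nat_lit 4) (nat_lit 8) (nat_lit 5) (nat_lit 8) (nat_lit 4) (nat_lit 363) (nat_lit 210) (nat_lit 207)) (XT.nd (nat_lit 78) (nat_lit 0) (nat_lit 0) (XT.lf (nat_lit 0) (nat_lit 20308176637) (nat_lit 76) (nat_lit 6596640145) (nat_lit 76) (nat_lit 5430393843) (nat_lit 7) (nat_lit 4) (nat_lit 8) (nat_lit 5) (nat_lit 8) (nat_lit 4) (nat_lit 364) (nat_lit 210) (nat_lit 206)) (XT.lf (nat_lit 0) (nat_lit 26188267197) (nat_lit 76) (nat_lit 4230327139) (nat_lit 76) (nat_lit 2793435780) (nat_lit 7) (nat_lit 4) (nat_lit 8) (nat_lit 5) (nat_lit 8) (nat_lit 4) (nat_lit 365) (nat_lit 210) (nat_lit 205)))))) (XT.nd (nat_lit 390) (nat_lit 76) (nat_lit 0) (XT.nd (nat_lit 156) (nat_lit 0) (nat_lit 0) (XT.nd (nat_lit 78) (nat_lit 152) (nat_lit 0) (XT.lf (nat_lit 0) (nat_lit 32147043841) (nat_lit 76)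 (nat_lit 1834746212) (nat_lit 76) (nat_lit 135092663) (nat_lit 7) (nat_lit 4) (nat_lit 8) (nat_lit 5) (nat_lit 8) (nat_lit 4) (nat_lit 366) (nat_lit 210) (nat_lit 204)) (XT.lf (nat_lit 0) (nat_lit 2534031284) (nat_lit 152) (nat_lit 31878486461) (nat_lit 0) (nat_lit 636203642) (nat_lit 5) (nat_lit 5) (nat_lit 7) (nat_lit 4) (nat_lit 5) (nat_lit 4) (nat_lit 367) (nat_lit 210) (nat_lit 203))) (XT.nd (nat_lit 78) (nat_lit 0) (nat_lit 0) (XT.lf (nat_lit 0) (nat_lit 5264113492) (nat_lit 152) (nat_lit 27619076925) (nat_lit 0) (nat_lit 3125821223) (nat_lit 5) (nat_lit 5) (nat_lit 7) (nat_lit 4) (nat_lit 5) (nat_lit 4) (nat_lit 368) (nat_lit 210) (nat_lit 202)) (XT.nd (nat_lit 78) (nat_lit 0) (nat_lit 0) (XT.lf (nat_lit 0) (nat_lit 8023035555) (nat_lit 152) (nat_lit 23325427684) (nat_lit 0) (nat_lit 5651282483) (nat_lit 5) (nat_lit 5) (nat_lit 7) (nat_lit 4) (nat_lit 5) (nat_lit 4) (nat_lit 369) (nat_lit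 210) (nat_lit 201)) (XT.lf (nat_lit 0) (nat_lit 10813208181) (nat_lit 152) (nat_lit 18993787006) (nat_lit 0) (nat_lit 8214794135) (nat_lit 5) (nat_lit 5) (nat_lit 7) (nat_lit 4) (nat_lit 5) (nat_lit 4) (nat_lit 370) (nat_lit 210) (nat_lit 200))))) (XT.nd (nat_lit 234) (nat_lit 76) (nat_lit 0) (XT.nd (nat_lit 78) (nat_lit 0) (nat_lit 0) (XT.lf (nat_lit 0) (nat_lit 13637069385) (nat_lit 152) (nat_lit 14620369963) (nat_lit 0) (nat_lit 10818596142) (nat_lit 5) (nat_lit 5) (nat_lit 7) (nat_lit 4) (nat_lit 5) (nat_lit 4) (nat_lit 371) (nat_lit 210) (nat_lit 199)) (XT.nd (nat_lit 78) (nat_lit 0) (nat_lit 0) (XT.lf (nat_lit 0) (nat_lit 16497086619) (nat_lit 152) (nat_lit 10201355121) (nat_lit 0) (nat_lit 13464963669) (nat_lit 5) (nat_lit 5) (nat_lit 7) (nat_lit 4) (nat_lit 5) (nat_lit 4) (nat_lit 372) (nat_lit 210) (nat_lit 198)) (XT.lf (nat_lit 0) (nat_lit 19395758927) (nat_lit 152) (nat_lit 5732881206)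 (nat_lit 0) (nat_lit 16156209077) (nat_lit 5) (nat_lit 5) (nat_lit 7) (nat_lit 4) (nat_lit 5) (nat_lit 4) (nat_lit 373) (nat_lit 210) (nat_lit 197)))) (XT.nd (nat_lit 78) (nat_lit 76) (nat_lit 0) (XT.lf (nat_lit 0) (nat_lit 22335619129) (nat_lit 152) (nat_lit 1211043727) (nat_lit 0) (nat_lit 18894683940) (nat_lit 5) (nat_lit 5) (nat_lit 7) (nat_lit 4) (nat_lit 5) (nat_lit 4) (nat_lit 374) (nat_lit 210) (nat_lit 196)) (XT.nd (nat_lit 78) (nat_lit 0) (nat_lit 0) (XT.lf (nat_lit 0) (nat_lit 3435140399) (nat_lit 76) (nat_lit 21917116307) (nat_lit 76) (nat_lit 18280661371) (nat_lit 4) (nat_lit 4) (nat_lit 5) (nat_lit 5) (nat_lit 5) (nat_lit 4) (nat_lit 375) (nat_lit 210) (nat_lit 195)) (XT.lf (nat_lit 0) (nat_lit 8167962863) (nat_lit 76) (nat_lit 20259769282) (nat_lit 76) (nat_lit 16433489350) (nat_lit 4) (nat_lit 4) (nat_lit 5) (nat_lit 5) (nat_lit 5) (nat_lit 4) (nat_lit 376) (nat_lit 210) (nat_lit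 194))))))) (XT.nd (nat_lit 858) (nat_lit 0) (nat_lit 0) (XT.nd (nat_lit 390) (nat_lit 152) (nat_lit 0) (XT.nd (nat_lit 156) (nat_lit 0) (nat_lit 0) (XT.nd (nat_lit 78) (nat_lit 0) (nat_lit 0) (XT.lf (nat_lit 0) (nat_lit 12967456995) (nat_lit 76) (nat_lit 18585402783) (nat_lit 76) (nat_lit 14574826737) (nat_lit 4) (nat_lit 4) (nat_lit 5) (nat_lit 5) (nat_lit 5) (nat_lit 4) (nat_lit 377) (nat_lit 210) (nat_lit 193)) (XT.lf (nat_lit 0) (nat_lit 17837816528) (nat_lit 76) (nat_lit 16892553769) (nat_lit 76) (nat_lit 12703049457) (nat_lit 4) (nat_lit 4) (nat_lit 5) (nat_lit 5) (nat_lit 5) (nat_lit 4) (nat_lit 378) (nat_lit 210) (nat_lit 192))) (XT.nd (nat_lit 78) (nat_lit 0) (nat_lit 0) (XT.lf (nat_lit 0) (nat_lit 22783297116) (nat_lit 76) (nat_lit 15179743053) (nat_lit 76) (nat_lit 10816521979) (nat_lit 4) (nat_lit 4) (nat_lit 5) (nat_lit 5) (nat_lit 5) (nat_lit 4) (nat_lit 379) (nat_lit 210) (nat_lit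 191)) (XT.nd (nat_lit 78) (nat_lit 0) (nat_lit 0) (XT.lf (nat_lit 0) (nat_lit 27808220053) (nat_lit 76) (nat_lit 13445474004) (nat_lit 76) (nat_lit 8913595878) (nat_lit 4) (nat_lit 4) (nat_lit 5) (nat_lit 5) (nat_lit 5) (nat_lit 4) (nat_lit 380) (nat_lit 210) (nat_lit 190)) (XT.lf (nat_lit 0) (nat_lit 32916976048) (nat_lit 76) (nat_lit 11688231240) (nat_lit 76) (nat_lit 6992608405) (nat_lit 4) (nat_lit 4) (nat_lit 5) (nat_lit 5) (nat_lit 5) (nat_lit 4) (nat_lit 381) (nat_lit 210) (nat_lit 189))))) (XT.nd (nat_lit 234) (nat_lit 152) (nat_lit 0) (XT.nd (nat_lit 78) (nat_lit 0) (nat_lit 0) (XT.lf (nat_lit 0) (nat_lit 38114029062) (nat_lit 76) (nat_lit 9906479308) (nat_lit 76) (nat_lit 5051881026) (nat_lit 4) (nat_lit 4) (nat_lit 5) (nat_lit 5) (nat_lit 5) (nat_lit 4) (nat_lit 382) (nat_lit 210) (nat_lit 188)) (XT.nd (nat_lit 78) (nat_lit 0) (nat_lit 0) (XT.lf (nat_lit 0) (nat_lit 43403920211) (nat_lit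 76) (nat_lit 8098661337) (nat_lit 76) (nat_lit 3089717961) (nat_lit 4) (nat_lit 4) (nat_lit 5) (nat_lit 5) (nat_lit 5) (nat_lit 4) (nat_lit 383) (nat_lit 210) (nat_lit 187)) (XT.lf (nat_lit 0) (nat_lit 48791271728) (nat_lit 76) (nat_lit 6263197680) (nat_lit 76) (nat_lit 1104404698) (nat_lit 4) (nat_lit 4) (nat_lit 5) (nat_lit 5) (nat_lit 5) (nat_lit 4) (nat_lit 384) (nat_lit 210) (nat_lit 186)))) (XT.nd (nat_lit 78) (nat_lit 76) (nat_lit 0) (XT.lf (nat_lit 0) (nat_lit 888118208) (nat_lit 152) (nat_lit 3501398072) (nat_lit 76) (nat_lit 53383704548) (nat_lit 3) (nat_lit 5) (nat_lit 5) (nat_lit 5) (nat_lit 4) (nat_lit 4) (nat_lit 385) (nat_lit 210) (nat_lit 185)) (XT.nd (nat_lit 78) (nat_lit 0) (nat_lit 0) (XT.lf (nat_lit 0) (nat_lit 419642943) (nat_lit 76) (nat_lit 2469602673) (nat_lit 152) (nat_lit 56547318906) (nat_lit 2) (nat_lit 5) (nat_lit 3) (nat_lit 5) (nat_lit 4) (nat_lit 4) (nat_lit 386)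 (nat_lit 210) (nat_lit 184)) (XT.lf (nat_lit 0) (nat_lit 4472259536) (nat_lit 76) (nat_lit 480902440) (nat_lit 152) (nat_lit 56196588560) (nat_lit 2) (nat_lit 5) (nat_lit 3) (nat_lit 5) (nat_lit 4) (nat_lit 4) (nat_lit 387) (nat_lit 210) (nat_lit 183)))))) (XT.nd (nat_lit 468) (nat_lit 0) (nat_lit 0) (XT.nd (nat_lit 234) (nat_lit 0) (nat_lit 0) (XT.nd (nat_lit 78) (nat_lit 0) (nat_lit 0) (XT.lf (nat_lit 0) (nat_lit 7062175198) (nat_lit 152) (nat_lit 54339829431) (nat_lit 0) (nat_lit 1512856062) (nat_lit 2) (nat_lit 5) (nat_lit 4) (nat_lit 4) (nat_lit 2) (nat_lit 4) (nat_lit 388) (nat_lit 210) (nat_lit 182)) (XT.nd (nat_lit 78) (nat_lit 0) (nat_lit 0) (XT.lf (nat_lit 0) (nat_lit 9208261002) (nat_lit 152) (nat_lit 51992027149) (nat_lit 0) (nat_lit 3533445180) (nat_lit 2) (nat_lit 5) (nat_lit 4) (nat_lit 4) (nat_lit 2) (nat_lit 4) (nat_lit 389) (nat_lit 210) (nat_lit 181)) (XT.lf (nat_lit 0) (nat_lit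 11388671879) (nat_lit 152) (nat_lit 49627409948) (nat_lit 0) (nat_lit 5592014615) (nat_lit 2) (nat_lit 5) (nat_lit 4) (nat_lit 4) (nat_lit 2) (nat_lit 4) (nat_lit 390) (nat_lit 210) (nat_lit 180)))) (XT.nd (nat_lit 78) (nat_lit 0) (nat_lit 0) (XT.lf (nat_lit 0) (nat_lit 13605313045) (nat_lit 152) (nat_lit 47243911657) (nat_lit 0) (nat_lit 7690363118) (nat_lit 2) (nat_lit 5) (nat_lit 4) (nat_lit 4) (nat_lit 2) (nat_lit 4) (nat_lit 391) (nat_lit 210) (nat_lit 179)) (XT.nd (nat_lit 78) (nat_lit 0) (nat_lit 0) (XT.lf (nat_lit 0) (nat_lit 15860121369) (nat_lit 152) (nat_lit 44839449608) (nat_lit 0) (nat_lit 9830324197) (nat_lit 2) (nat_lit 5) (nat_lit 4) (nat_lit 4) (nat_lit 2) (nat_lit 4) (nat_lit 392) (nat_lit 210) (nat_lit 178)) (XT.lf (nat_lit 0) (nat_lit 18155067072) (nat_lit 152) (nat_lit 42411922814) (nat_lit 0) (nat_lit 12013767721) (nat_lit 2) (nat_lit 5) (nat_lit 4) (nat_lit 4) (nat_lit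 2) (nat_lit 4) (nat_lit 393) (nat_lit 210) (nat_lit 177))))) (XT.nd (nat_lit 234) (nat_lit 0) (nat_lit 0) (XT.nd (nat_lit 78) (nat_lit 0) (nat_lit 0) (XT.lf (nat_lit 0) (nat_lit 20492155447) (nat_lit 152) (nat_lit 39959210136) (nat_lit 0) (nat_lit 14242601553) (nat_lit 2) (nat_lit 5) (nat_lit 4) (nat_lit 4) (nat_lit 2) (nat_lit 4) (nat_lit 394) (nat_lit 210) (nat_lit 176)) (XT.nd (nat_lit 78) (nat_lit 0) (nat_lit 0) (XT.lf (nat_lit 0) (nat_lit 22873428610) (nat_lit 152) (nat_lit 37479168427) (nat_lit 0) (nat_lit 16518773217) (nat_lit 2) (nat_lit 5) (nat_lit 4) (nat_lit 4) (nat_lit 2) (nat_lit 4) (nat_lit 395) (nat_lit 210) (nat_lit 175)) (XT.lf (nat_lit 0) (nat_lit 25300967285) (nat_lit 152) (nat_lit 34969630660) (nat_lit 0) (nat_lit 18844271602) (nat_lit 2) (nat_lit 5) (nat_lit 4) (nat_lit 4) (nat_lit 2) (nat_lit 4) (nat_lit 396) (nat_lit 210) (nat_lit 174)))) (XT.nd (nat_lit 78) (nat_lit 0)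 (nat_lit 0) (XT.lf (nat_lit 0) (nat_lit 27776892622) (nat_lit 152) (nat_lit 32428404034) (nat_lit 0) (nat_lit 21221128697) (nat_lit 2) (nat_lit 5) (nat_lit 4) (nat_lit 4) (nat_lit 2) (nat_lit 4) (nat_lit 397) (nat_lit 210) (nat_lit 173)) (XT.nd (nat_lit 78) (nat_lit 0) (nat_lit 0) (XT.lf (nat_lit 0) (nat_lit 30303368051) (nat_lit 152) (nat_lit 29853268062) (nat_lit 0) (nat_lit 23651421366) (nat_lit 2) (nat_lit 5) (nat_lit 4) (nat_lit 4) (nat_lit 2) (nat_lit 4) (nat_lit 398) (nat_lit 210) (nat_lit 172)) (XT.lf (nat_lit 0) (nat_lit 32882601172) (nat_lit 152) (nat_lit 27241972623) (nat_lit 0) (nat_lit 26137273167) (nat_lit 2) (nat_lit 5) (nat_lit 4) (nat_lit 4) (nat_lit 2) (nat_lit 4) (nat_lit 399) (nat_lit 210) (nat_lit 171))))))))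
noncomputable def xc11 : XT := (XT.nd (nat_lit 38844) (nat_lit 0) (nat_lit 0) (XT.nd (nat_lit 37986) (nat_lit 0) (nat_lit 152) (XT.nd (nat_lit 37518) (nat_lit 0) (nat_lit 380) (XT.nd (nat_lit 156) (nat_lit 0) (nat_lit 0) (XT.nd (nat_lit 78) (nat_lit 0) (nat_lit 0) (XT.lf (nat_lit 0) (nat_lit 35516845684) (nat_lit 152) (nat_lit 24592236004) (nat_lit 0) (nat_lit 28680856203) (nat_lit 2) (nat_lit 5) (nat_lit 4) (nat_lit 4) (nat_lit 2) (nat_lit 4) (nat_lit 400) (nat_lit 210) (nat_lit 170)) (XT.lf (nat_lit 0) (nat_lit 38208403354) (nat_lit 152) (nat_lit 21901742900) (nat_lit 0) (nat_lit 31284393023) (nat_lit 2) (nat_lit 5) (nat_lit 4) (nat_lit 4) (nat_lit 2) (nat_lit 4) (nat_lit 401) (nat_lit 210) (nat_lit 169))) (XT.nd (nat_lit 37206) (nat_lit 0) (nat_lit 456) (XT.lf (nat_lit 0) (nat_lit 40959626028) (nat_lit 152) (nat_lit 19168142396) (nat_lit 0) (nat_lit 33950158561) (nat_lit 2) (nat_lit 5) (nat_lit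 4) (nat_lit 4) (nat_lit 2) (nat_lit 4) (nat_lit 402) (nat_lit 210) (nat_lit 168)) (XT.nd (nat_lit 78) (nat_lit 0) (nat_lit 0) (XT.lf (nat_lit 0) (nat_lit 3583792233) (nat_lit 152) (nat_lit 6640812216) (nat_lit 0) (nat_lit 3583792233) (nat_lit 8) (nat_lit 5) (nat_lit 10) (nat_lit 4) (nat_lit 8) (nat_lit 4) (nat_lit 358) (nat_lit 211) (nat_lit 211)) (XT.lf (nat_lit 0) (nat_lit 10362617885) (nat_lit 152) (nat_lit 7931798025) (nat_lit 0) (nat_lit 10048866088) (nat_lit 8) (nat_lit 5) (nat_lit 10) (nat_lit 4) (nat_lit 8) (nat_lit 4) (nat_lit 359) (nat_lit 211) (nat_lit 210))))) (XT.nd (nat_lit 234) (nat_lit 0) (nat_lit 0) (XT.nd (nat_lit 78) (nat_lit 76) (nat_lit 0) (XT.lf (nat_lit 0) (nat_lit 13589677486) (nat_lit 152) (nat_lit 2532546677) (nat_lit 0) (nat_lit 12971312295) (nat_lit 8) (nat_lit 5) (nat_lit 10) (nat_lit 4) (nat_lit 8) (nat_lit 4) (nat_lit 360) (nat_lit 211) (nat_lit 209)) (XT.nd (nat_lit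 78) (nat_lit 0) (nat_lit 0) (XT.lf (nat_lit 0) (nat_lit 2978977994) (nat_lit 76) (nat_lit 13901240796) (nat_lit 76) (nat_lit 12987134444) (nat_lit 7) (nat_lit 4) (nat_lit 8) (nat_lit 5) (nat_lit 8) (nat_lit 4) (nat_lit 361) (nat_lit 211) (nat_lit 208)) (XT.lf (nat_lit 0) (nat_lit 8600985528) (nat_lit 76) (nat_lit 11632877134) (nat_lit 76) (nat_lit 10431643442) (nat_lit 7) (nat_lit 4) (nat_lit 8) (nat_lit 5) (nat_lit 8) (nat_lit 4) (nat_lit 362) (nat_lit 211) (nat_lit 207)))) (XT.nd (nat_lit 78) (nat_lit 0) (nat_lit 0) (XT.lf (nat_lit 0) (nat_lit 14287985712) (nat_lit 76) (nat_lit 9340724871) (nat_lit 76) (nat_lit 7860726771) (nat_lit 7) (nat_lit 4) (nat_lit 8) (nat_lit 5) (nat_lit 8) (nat_lit 4) (nat_lit 363) (nat_lit 211) (nat_lit 206)) (XT.nd (nat_lit 78) (nat_lit 0) (nat_lit 0) (XT.lf (nat_lit 0) (nat_lit 20044947770) (nat_lit 76) (nat_lit 7022781154) (nat_lit 76) (nat_lit 5272137998) (nat_lit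 7) (nat_lit 4) (nat_lit 8) (nat_lit 5) (nat_lit 8) (nat_lit 4) (nat_lit 364) (nat_lit 211) (nat_lit 205)) (XT.lf (nat_lit 0) (nat_lit 25876902058) (nat_lit 76) (nat_lit 4677020596) (nat_lit 76) (nat_lit 2663615250) (nat_lit 7) (nat_lit 4) (nat_lit 8) (nat_lit 5) (nat_lit 8) (nat_lit 4) (nat_lit 365) (nat_lit 211) (nat_lit 204)))))) (XT.nd (nat_lit 390) (nat_lit 76) (nat_lit 0) (XT.nd (nat_lit 156) (nat_lit 0) (nat_lit 0) (XT.nd (nat_lit 78) (nat_lit 152) (nat_lit 0) (XT.lf (nat_lit 0) (nat_lit 31788944457) (nat_lit 76) (nat_lit 2301393502) (nat_lit 76) (nat_lit 32879234) (nat_lit 7) (nat_lit 4) (nat_lit 8) (nat_lit 5) (nat_lit 8) (nat_lit 4) (nat_lit 366) (nat_lit 211) (nat_lit 203)) (XT.lf (nat_lit 0) (nat_lit 2599232812) (nat_lit 152) (nat_lit 32300538890) (nat_lit 0) (nat_lit 156327148) (nat_lit 5) (nat_lit 5) (nat_lit 7) (nat_lit 4) (nat_lit 5) (nat_lit 4) (nat_lit 367) (nat_lit 211) (nat_lit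 202))) (XT.nd (nat_lit 78) (nat_lit 0) (nat_lit 0) (XT.lf (nat_lit 0) (nat_lit 5303175803) (nat_lit 152) (nat_lit 28087209443) (nat_lit 0) (nat_lit 2626809335) (nat_lit 5) (nat_lit 5) (nat_lit 7) (nat_lit 4) (nat_lit 5) (nat_lit 4) (nat_lit 368) (nat_lit 211) (nat_lit 201)) (XT.nd (nat_lit 78) (nat_lit 0) (nat_lit 0) (XT.lf (nat_lit 0) (nat_lit 8036719984) (nat_lit 152) (nat_lit 23838298153) (nat_lit 0) (nat_lit 5133692543) (nat_lit 5) (nat_lit 5) (nat_lit 7) (nat_lit 4) (nat_lit 5) (nat_lit 4) (nat_lit 369) (nat_lit 211) (nat_lit 200)) (XT.lf (nat_lit 0) (nat_lit 10802253891) (nat_lit 152) (nat_lit 19550092379) (nat_lit 0) (nat_lit 7679167252) (nat_lit 5) (nat_lit 5) (nat_lit 7) (nat_lit 4) (nat_lit 5) (nat_lit 4) (nat_lit 370) (nat_lit 211) (nat_lit 199))))) (XT.nd (nat_lit 234) (nat_lit 76) (nat_lit 0) (XT.nd (nat_lit 78) (nat_lit 0) (nat_lit 0) (XT.lf (nat_lit 0) (nat_lit 13602194008) (nat_lit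 152) (nat_lit 15218845145) (nat_lit 0) (nat_lit 10265457663) (nat_lit 5) (nat_lit 5) (nat_lit 7) (nat_lit 4) (nat_lit 5) (nat_lit 4) (nat_lit 371) (nat_lit 211) (nat_lit 198)) (XT.nd (nat_lit 78) (nat_lit 0) (nat_lit 0) (XT.lf (nat_lit 0) (nat_lit 16438986885) (nat_lit 152) (nat_lit 10840771866) (nat_lit 0) (nat_lit 12894823641) (nat_lit 5) (nat_lit 5) (nat_lit 7) (nat_lit 4) (nat_lit 5) (nat_lit 4) (nat_lit 372) (nat_lit 211) (nat_lit 197)) (XT.lf (nat_lit 0) (nat_lit 19315111275) (nat_lit 152) (nat_lit 6412047042) (nat_lit 0) (nat_lit 15569562691) (nat_lit 5) (nat_lit 5) (nat_lit 7) (nat_lit 4) (nat_lit 5) (nat_lit 4) (nat_lit 373) (nat_lit 211) (nat_lit 196)))) (XT.nd (nat_lit 78) (nat_lit 76) (nat_lit 0) (XT.lf (nat_lit 0) (nat_lit 22233080294) (nat_lit 152) (nat_lit 1928800911) (nat_lit 0) (nat_lit 18292011963) (nat_lit 5) (nat_lit 5) (nat_lit 7) (nat_lit 4) (nat_lit 5) (nat_lit 4) (nat_lit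 374) (nat_lit 211) (nat_lit 195)) (XT.nd (nat_lit 78) (nat_lit 0) (nat_lit 0) (XT.lf (nat_lit 0) (nat_lit 2664885436) (nat_lit 76) (nat_lit 22556174697) (nat_lit 76) (nat_lit 18425281369) (nat_lit 4) (nat_lit 4) (nat_lit 5) (nat_lit 5) (nat_lit 5) (nat_lit 4) (nat_lit 375) (nat_lit 211) (nat_lit 194)) (XT.lf (nat_lit 0) (nat_lit 7360607897) (nat_lit 76) (nat_lit 20914936508) (nat_lit 76) (nat_lit 16599747066) (nat_lit 4) (nat_lit 4) (nat_lit 5) (nat_lit 5) (nat_lit 5) (nat_lit 4) (nat_lit 376) (nat_lit 211) (nat_lit 193))))))) (XT.nd (nat_lit 858) (nat_lit 0) (nat_lit 0) (XT.nd (nat_lit 390) (nat_lit 152) (nat_lit 0) (XT.nd (nat_lit 156) (nat_lit 0) (nat_lit 0) (XT.nd (nat_lit 78) (nat_lit 0) (nat_lit 0) (XT.lf (nat_lit 0) (nat_lit 12124082609) (nat_lit 76) (nat_lit 19256209654) (nat_lit 76) (nat_lit 14762091947) (nat_lit 4) (nat_lit 4) (nat_lit 5) (nat_lit 5) (nat_lit 5) (nat_lit 4) (nat_lit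 377) (nat_lit 211) (nat_lit 192)) (XT.lf (nat_lit 0) (nat_lit 16959471831) (nat_lit 76) (nat_lit 17578544762) (nat_lit 76) (nat_lit 12910710293) (nat_lit 4) (nat_lit 4) (nat_lit 5) (nat_lit 5) (nat_lit 5) (nat_lit 4) (nat_lit 378) (nat_lit 211) (nat_lit 191))) (XT.nd (nat_lit 78) (nat_lit 0) (nat_lit 0) (XT.lf (nat_lit 0) (nat_lit 21871000661) (nat_lit 76) (nat_lit 15880475912) (nat_lit 76) (nat_lit 11043984392) (nat_lit 4) (nat_lit 4) (nat_lit 5) (nat_lit 5) (nat_lit 5) (nat_lit 4) (nat_lit 379) (nat_lit 211) (nat_lit 190)) (XT.nd (nat_lit 78) (nat_lit 0) (nat_lit 0) (XT.lf (nat_lit 0) (nat_lit 26862960726) (nat_lit 76) (nat_lit 14160519354) (nat_lit 76) (nat_lit 9160283124) (nat_lit 4) (nat_lit 4) (nat_lit 5) (nat_lit 5) (nat_lit 5) (nat_lit 4) (nat_lit 380) (nat_lit 211) (nat_lit 189)) (XT.lf (nat_lit 0) (nat_lit 31939713933) (nat_lit 76) (nat_lit 12417172214) (nat_lit 76) (nat_lit 7257960537)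 (nat_lit 4) (nat_lit 4) (nat_lit 5) (nat_lit 5) (nat_lit 5) (nat_lit 4) (nat_lit 381) (nat_lit 211) (nat_lit 188))))) (XT.nd (nat_lit 234) (nat_lit 152) (nat_lit 0) (XT.nd (nat_lit 78) (nat_lit 0) (nat_lit 0) (XT.lf (nat_lit 0) (nat_lit 37105696279) (nat_lit 76) (nat_lit 10648911178) (nat_lit 76) (nat_lit 5335354407) (nat_lit 4) (nat_lit 4) (nat_lit 5) (nat_lit 5) (nat_lit 5) (nat_lit 4) (nat_lit 382) (nat_lit 211) (nat_lit 187)) (XT.nd (nat_lit 78) (nat_lit 0) (nat_lit 0) (XT.lf (nat_lit 0) (nat_lit 42365421730) (nat_lit 76) (nat_lit 8854191163) (nat_lit 76) (nat_lit 3390784787) (nat_lit 4) (nat_lit 4) (nat_lit 5) (nat_lit 5) (nat_lit 5) (nat_lit 4) (nat_lit 383) (nat_lit 211) (nat_lit 186)) (XT.lf (nat_lit 0) (nat_lit 47723486162) (nat_lit 76) (nat_lit 7031443969) (nat_lit 76) (nat_lit 1422552539) (nat_lit 4) (nat_lit 4) (nat_lit 5) (nat_lit 5) (nat_lit 5) (nat_lit 4) (nat_lit 384) (nat_lit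 211) (nat_lit 185)))) (XT.nd (nat_lit 78) (nat_lit 76) (nat_lit 0) (XT.lf (nat_lit 0) (nat_lit 559918672) (nat_lit 152) (nat_lit 4613504150) (nat_lit 76) (nat_lit 52618998627) (nat_lit 3) (nat_lit 5) (nat_lit 5) (nat_lit 5) (nat_lit 4) (nat_lit 4) (nat_lit 385) (nat_lit 211) (nat_lit 184)) (XT.nd (nat_lit 78) (nat_lit 76) (nat_lit 0) (XT.lf (nat_lit 0) (nat_lit 2541225900) (nat_lit 152) (nat_lit 728584092) (nat_lit 76) (nat_lit 56186561905) (nat_lit 3) (nat_lit 5) (nat_lit 5) (nat_lit 5) (nat_lit 4) (nat_lit 4) (nat_lit 386) (nat_lit 211) (nat_lit 183)) (XT.lf (nat_lit 0) (nat_lit 3281873880) (nat_lit 76) (nat_lit 1300533009) (nat_lit 152) (nat_lit 56587844879) (nat_lit 2) (nat_lit 5) (nat_lit 3) (nat_lit 5) (nat_lit 4) (nat_lit 4) (nat_lit 387) (nat_lit 211) (nat_lit 182)))))) (XT.nd (nat_lit 468) (nat_lit 0) (nat_lit 0) (XT.nd (nat_lit 234) (nat_lit 0) (nat_lit 0) (XT.nd (nat_lit 78) (nat_lit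 0) (nat_lit 0) (XT.lf (nat_lit 0) (nat_lit 6668290470) (nat_lit 152) (nat_lit 55570043304) (nat_lit 0) (nat_lit 697733488) (nat_lit 2) (nat_lit 5) (nat_lit 4) (nat_lit 4) (nat_lit 2) (nat_lit 4) (nat_lit 388) (nat_lit 211) (nat_lit 181)) (XT.nd (nat_lit 78) (nat_lit 0) (nat_lit 0) (XT.lf (nat_lit 0) (nat_lit 8799569624) (nat_lit 152) (nat_lit 53248654396) (nat_lit 0) (nat_lit 2707171199) (nat_lit 2) (nat_lit 5) (nat_lit 4) (nat_lit 4) (nat_lit 2) (nat_lit 4) (nat_lit 389) (nat_lit 211) (nat_lit 180)) (XT.lf (nat_lit 0) (nat_lit 10965605113) (nat_lit 152) (nat_lit 50909681247) (nat_lit 0) (nat_lit 4754914026) (nat_lit 2) (nat_lit 5) (nat_lit 4) (nat_lit 4) (nat_lit 2) (nat_lit 4) (nat_lit 390) (nat_lit 211) (nat_lit 179)))) (XT.nd (nat_lit 78) (nat_lit 0) (nat_lit 0) (XT.lf (nat_lit 0) (nat_lit 13168289590) (nat_lit 152) (nat_lit 48551080094) (nat_lit 0) (nat_lit 6842751259) (nat_lit 2) (nat_lit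 5) (nat_lit 4) (nat_lit 4) (nat_lit 2) (nat_lit 4) (nat_lit 391) (nat_lit 211) (nat_lit 178)) (XT.nd (nat_lit 78) (nat_lit 0) (nat_lit 0) (XT.lf (nat_lit 0) (nat_lit 15409547732) (nat_lit 152) (nat_lit 46170790023) (nat_lit 0) (nat_lit 8972507220) (nat_lit 2) (nat_lit 5) (nat_lit 4) (nat_lit 4) (nat_lit 2) (nat_lit 4) (nat_lit 392) (nat_lit 211) (nat_lit 177)) (XT.lf (nat_lit 0) (nat_lit 17691337918) (nat_lit 152) (nat_lit 43766731170) (nat_lit 0) (nat_lit 11146042864) (nat_lit 2) (nat_lit 5) (nat_lit 4) (nat_lit 4) (nat_lit 2) (nat_lit 4) (nat_lit 393) (nat_lit 211) (nat_lit 176))))) (XT.nd (nat_lit 234) (nat_lit 0) (nat_lit 0) (XT.nd (nat_lit 78) (nat_lit 0) (nat_lit 0) (XT.lf (nat_lit 0) (nat_lit 20015653947) (nat_lit 152) (nat_lit 41336802901) (nat_lit 0) (nat_lit 13365257394) (nat_lit 2) (nat_lit 5) (nat_lit 4) (nat_lit 4) (nat_lit 2) (nat_lit 4) (nat_lit 394) (nat_lit 211) (nat_lit 175))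 (XT.nd (nat_lit 78) (nat_lit 0) (nat_lit 0) (XT.lf (nat_lit 0) (nat_lit 22384526773) (nat_lit 152) (nat_lit 38878881976) (nat_lit 0) (nat_lit 15632089930) (nat_lit 2) (nat_lit 5) (nat_lit 4) (nat_lit 4) (nat_lit 2) (nat_lit 4) (nat_lit 395) (nat_lit 211) (nat_lit 174)) (XT.lf (nat_lit 0) (nat_lit 24800026286) (nat_lit 152) (nat_lit 36390820699) (nat_lit 0) (nat_lit 17948521201) (nat_lit 2) (nat_lit 5) (nat_lit 4) (nat_lit 4) (nat_lit 2) (nat_lit 4) (nat_lit 396) (nat_lit 211) (nat_lit 173)))) (XT.nd (nat_lit 78) (nat_lit 0) (nat_lit 0) (XT.lf (nat_lit 0) (nat_lit 27264263117) (nat_lit 152) (nat_lit 33870445035) (nat_lit 0) (nat_lit 20316575272) (nat_lit 2) (nat_lit 5) (nat_lit 4) (nat_lit 4) (nat_lit 2) (nat_lit 4) (nat_lit 397) (nat_lit 211) (nat_lit 172)) (XT.nd (nat_lit 78) (nat_lit 0) (nat_lit 0) (XT.lf (nat_lit 0) (nat_lit 29779390481) (nat_lit 152) (nat_lit 31315552715) (nat_lit 0) (nat_lit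 22738321317) (nat_lit 2) (nat_lit 5) (nat_lit 4) (nat_lit 4) (nat_lit 2) (nat_lit 4) (nat_lit 398) (nat_lit 211) (nat_lit 171)) (XT.lf (nat_lit 0) (nat_lit 32347606064) (nat_lit 152) (nat_lit 28723911307) (nat_lit 0) (nat_lit 25215875424) (nat_lit 2) (nat_lit 5) (nat_lit 4) (nat_lit 4) (nat_lit 2) (nat_lit 4) (nat_lit 399) (nat_lit 211) (nat_lit 170))))))))
noncomputable def xc12 : XT := (XT.nd (nat_lit 38688) (nat_lit 0) (nat_lit 0) (XT.nd (nat_lit 37830) (nat_lit 0) (nat_lit 228) (XT.nd (nat_lit 37362) (nat_lit 0) (nat_lit 380) (XT.nd (nat_lit 156) (nat_lit 0) (nat_lit 0) (XT.nd (nat_lit 78) (nat_lit 0) (nat_lit 0) (XT.lf (nat_lit 0) (nat_lit 34971153937) (nat_lit 152) (nat_lit 26093256271) (nat_lit 0) (nat_lit 27751402446) (nat_lit 2) (nat_lit 5) (nat_lit 4) (nat_lit 4) (nat_lit 2) (nat_lit 4) (nat_lit 400) (nat_lit 211) (nat_lit 169)) (XT.lf (nat_lit 0) (nat_lit 37652326520) (nat_lit 152)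 (nat_lit 23421288977) (nat_lit 0) (nat_lit 30347117894) (nat_lit 2) (nat_lit 5) (nat_lit 4) (nat_lit 4) (nat_lit 2) (nat_lit 4) (nat_lit 401) (nat_lit 211) (nat_lit 168))) (XT.nd (nat_lit 37050) (nat_lit 0) (nat_lit 456) (XT.lf (nat_lit 0) (nat_lit 40393466586) (nat_lit 152) (nat_lit 20705674695) (nat_lit 0) (nat_lit 33005289866) (nat_lit 2) (nat_lit 5) (nat_lit 4) (nat_lit 4) (nat_lit 2) (nat_lit 4) (nat_lit 402) (nat_lit 211) (nat_lit 167)) (XT.nd (nat_lit 78) (nat_lit 0) (nat_lit 0) (XT.lf (nat_lit 0) (nat_lit 609487254) (nat_lit 152) (nat_lit 11896807717) (nat_lit 0) (nat_lit 609487254) (nat_lit 8) (nat_lit 5) (nat_lit 10) (nat_lit 4) (nat_lit 8) (nat_lit 4) (nat_lit 356) (nat_lit 212) (nat_lit 212)) (XT.lf (nat_lit 0) (nat_lit 4324949805) (nat_lit 152) (nat_lit 18586700503) (nat_lit 0) (nat_lit 4001785454) (nat_lit 8) (nat_lit 5) (nat_lit 10) (nat_lit 4) (nat_lit 8) (nat_lit 4) (nat_lit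 357) (nat_lit 212) (nat_lit 211))))) (XT.nd (nat_lit 234) (nat_lit 76) (nat_lit 0) (XT.nd (nat_lit 78) (nat_lit 0) (nat_lit 0) (XT.lf (nat_lit 0) (nat_lit 7458364796) (nat_lit 152) (nat_lit 13337980071) (nat_lit 0) (nat_lit 6821448648) (nat_lit 8) (nat_lit 5) (nat_lit 10) (nat_lit 4) (nat_lit 8) (nat_lit 4) (nat_lit 358) (nat_lit 212) (nat_lit 210)) (XT.nd (nat_lit 78) (nat_lit 0) (nat_lit 0) (XT.lf (nat_lit 0) (nat_lit 10621957416) (nat_lit 152) (nat_lit 8042867876) (nat_lit 0) (nat_lit 9680427874) (nat_lit 8) (nat_lit 5) (nat_lit 10) (nat_lit 4) (nat_lit 8) (nat_lit 4) (nat_lit 359) (nat_lit 212) (nat_lit 209)) (XT.lf (nat_lit 0) (nat_lit 13818491971) (nat_lit 152) (nat_lit 2696737123) (nat_lit 0) (nat_lit 12581221268) (nat_lit 8) (nat_lit 5) (nat_lit 10) (nat_lit 4) (nat_lit 8) (nat_lit 4) (nat_lit 360) (nat_lit 212) (nat_lit 208)))) (XT.nd (nat_lit 78) (nat_lit 0) (nat_lit 0) (XT.lf (nat_lit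 0) (nat_lit 2758920032) (nat_lit 76) (nat_lit 14318361942) (nat_lit 76) (nat_lit 12793963899) (nat_lit 7) (nat_lit 4) (nat_lit 8) (nat_lit 5) (nat_lit 8) (nat_lit 4) (nat_lit 361) (nat_lit 212) (nat_lit 207)) (XT.nd (nat_lit 78) (nat_lit 0) (nat_lit 0) (XT.lf (nat_lit 0) (nat_lit 8329859795) (nat_lit 76) (nat_lit 12071802373) (nat_lit 76) (nat_lit 10268639923) (nat_lit 7) (nat_lit 4) (nat_lit 8) (nat_lit 5) (nat_lit 8) (nat_lit 4) (nat_lit 362) (nat_lit 212) (nat_lit 206)) (XT.lf (nat_lit 0) (nat_lit 13967279619) (nat_lit 76) (nat_lit 9800819132) (nat_lit 76) (nat_lit 7727011625) (nat_lit 7) (nat_lit 4) (nat_lit 8) (nat_lit 5) (nat_lit 8) (nat_lit 4) (nat_lit 363) (nat_lit 212) (nat_lit 205)))))) (XT.nd (nat_lit 390) (nat_lit 0) (nat_lit 0) (XT.nd (nat_lit 156) (nat_lit 152) (nat_lit 0) (XT.nd (nat_lit 78) (nat_lit 0) (nat_lit 0) (XT.lf (nat_lit 0) (nat_lit 19676105405) (nat_lit 76) (nat_lit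 7503427863) (nat_lit 76) (nat_lit 5166858166) (nat_lit 7) (nat_lit 4) (nat_lit 8) (nat_lit 5) (nat_lit 8) (nat_lit 4) (nat_lit 364) (nat_lit 212) (nat_lit 204)) (XT.lf (nat_lit 0) (nat_lit 25461325448) (nat_lit 76) (nat_lit 5177621138) (nat_lit 76) (nat_lit 2585942519) (nat_lit 7) (nat_lit 4) (nat_lit 8) (nat_lit 5) (nat_lit 8) (nat_lit 4) (nat_lit 365) (nat_lit 212) (nat_lit 203))) (XT.nd (nat_lit 78) (nat_lit 76) (nat_lit 0) (XT.lf (nat_lit 0) (nat_lit 17639427) (nat_lit 152) (nat_lit 2803549147) (nat_lit 76) (nat_lit 31310177243) (nat_lit 6) (nat_lit 5) (nat_lit 8) (nat_lit 5) (nat_lit 7) (nat_lit 4) (nat_lit 366) (nat_lit 212) (nat_lit 202)) (XT.nd (nat_lit 78) (nat_lit 0) (nat_lit 0) (XT.lf (nat_lit 0) (nat_lit 2232732440) (nat_lit 76) (nat_lit 384289358) (nat_lit 152) (nat_lit 32448200139) (nat_lit 5) (nat_lit 5) (nat_lit 6) (nat_lit 5) (nat_lit 7) (nat_lit 4) (nat_lit 367) (nat_lit 212)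 (nat_lit 201)) (XT.lf (nat_lit 0) (nat_lit 5291892884) (nat_lit 152) (nat_lit 28660203978) (nat_lit 0) (nat_lit 2075113646) (nat_lit 5) (nat_lit 5) (nat_lit 7) (nat_lit 4) (nat_lit 5) (nat_lit 4) (nat_lit 368) (nat_lit 212) (nat_lit 200))))) (XT.nd (nat_lit 234) (nat_lit 0) (nat_lit 0) (XT.nd (nat_lit 78) (nat_lit 0) (nat_lit 0) (XT.lf (nat_lit 0) (nat_lit 8000798346) (nat_lit 152) (nat_lit 24454727592) (nat_lit 0) (nat_lit 4563959910) (nat_lit 5) (nat_lit 5) (nat_lit 7) (nat_lit 4) (nat_lit 5) (nat_lit 4) (nat_lit 369) (nat_lit 212) (nat_lit 199)) (XT.nd (nat_lit 78) (nat_lit 0) (nat_lit 0) (XT.lf (nat_lit 0) (nat_lit 10742411165) (nat_lit 152) (nat_lit 20208691627) (nat_lit 0) (nat_lit 7091923023) (nat_lit 5) (nat_lit 5) (nat_lit 7) (nat_lit 4) (nat_lit 5) (nat_lit 4) (nat_lit 370) (nat_lit 212) (nat_lit 198)) (XT.lf (nat_lit 0) (nat_lit 13519126926) (nat_lit 152) (nat_lit 15918385956) (nat_lit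 0) (nat_lit 9661211885) (nat_lit 5) (nat_lit 5) (nat_lit 7) (nat_lit 4) (nat_lit 5) (nat_lit 4) (nat_lit 371) (nat_lit 212) (nat_lit 197)))) (XT.nd (nat_lit 78) (nat_lit 0) (nat_lit 0) (XT.lf (nat_lit 0) (nat_lit 16333371885) (nat_lit 152) (nat_lit 11580061767) (nat_lit 0) (nat_lit 12274071505) (nat_lit 5) (nat_lit 5) (nat_lit 7) (nat_lit 4) (nat_lit 5) (nat_lit 4) (nat_lit 372) (nat_lit 212) (nat_lit 196)) (XT.nd (nat_lit 78) (nat_lit 0) (nat_lit 0) (XT.lf (nat_lit 0) (nat_lit 19187605091) (nat_lit 152) (nat_lit 7189928291) (nat_lit 0) (nat_lit 14932784964) (nat_lit 5) (nat_lit 5) (nat_lit 7) (nat_lit 4) (nat_lit 5) (nat_lit 4) (nat_lit 373) (nat_lit 212) (nat_lit 195)) (XT.lf (nat_lit 0) (nat_lit 22084320534) (nat_lit 152) (nat_lit 2744149491) (nat_lit 0) (nat_lit 17639675410) (nat_lit 5) (nat_lit 5) (nat_lit 7) (nat_lit 4) (nat_lit 5) (nat_lit 4) (nat_lit 374) (nat_lit 212) (nat_lit 194)))))))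 (XT.nd (nat_lit 858) (nat_lit 76) (nat_lit 0) (XT.nd (nat_lit 390) (nat_lit 76) (nat_lit 0) (XT.nd (nat_lit 156) (nat_lit 0) (nat_lit 0) (XT.nd (nat_lit 78) (nat_lit 0) (nat_lit 0) (XT.lf (nat_lit 0) (nat_lit 1796209819) (nat_lit 76) (nat_lit 23247105774) (nat_lit 76) (nat_lit 18618164536) (nat_lit 4) (nat_lit 4) (nat_lit 5) (nat_lit 5) (nat_lit 5) (nat_lit 4) (nat_lit 375) (nat_lit 212) (nat_lit 193)) (XT.lf (nat_lit 0) (nat_lit 6455912860) (nat_lit 76) (nat_lit 21621507230) (nat_lit 76) (nat_lit 16813637727) (nat_lit 4) (nat_lit 4) (nat_lit 5) (nat_lit 5) (nat_lit 5) (nat_lit 4) (nat_lit 376) (nat_lit 212) (nat_lit 192))) (XT.nd (nat_lit 78) (nat_lit 0) (nat_lit 0) (XT.lf (nat_lit 0) (nat_lit 11184417261) (nat_lit 76) (nat_lit 19977964499) (nat_lit 76) (nat_lit 14996378232) (nat_lit 4) (nat_lit 4) (nat_lit 5) (nat_lit 5) (nat_lit 5) (nat_lit 4) (nat_lit 377) (nat_lit 212) (nat_lit 191)) (XT.nd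 (nat_lit 78) (nat_lit 0) (nat_lit 0) (XT.lf (nat_lit 0) (nat_lit 15985854725) (nat_lit 76) (nat_lit 18315041473) (nat_lit 76) (nat_lit 13164798156) (nat_lit 4) (nat_lit 4) (nat_lit 5) (nat_lit 5) (nat_lit 5) (nat_lit 4) (nat_lit 378) (nat_lit 212) (nat_lit 190)) (XT.lf (nat_lit 0) (nat_lit 20864420683) (nat_lit 76) (nat_lit 16631285115) (nat_lit 76) (nat_lit 11317297087) (nat_lit 4) (nat_lit 4) (nat_lit 5) (nat_lit 5) (nat_lit 5) (nat_lit 4) (nat_lit 379) (nat_lit 212) (nat_lit 189))))) (XT.nd (nat_lit 234) (nat_lit 76) (nat_lit 0) (XT.nd (nat_lit 78) (nat_lit 0) (nat_lit 0) (XT.lf (nat_lit 0) (nat_lit 25824377959) (nat_lit 76) (nat_lit 14925224180) (nat_lit 76) (nat_lit 9452260706) (nat_lit 4) (nat_lit 4) (nat_lit 5) (nat_lit 5) (nat_lit 5) (nat_lit 4) (nat_lit 380) (nat_lit 212) (nat_lit 188)) (XT.nd (nat_lit 78) (nat_lit 0) (nat_lit 0) (XT.lf (nat_lit 0) (nat_lit 30870060498) (nat_lit 76)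 (nat_lit 13195367935) (nat_lit 76) (nat_lit 7568059367) (nat_lit 4) (nat_lit 4) (nat_lit 5) (nat_lit 5) (nat_lit 5) (nat_lit 4) (nat_lit 381) (nat_lit 212) (nat_lit 187)) (XT.lf (nat_lit 0) (nat_lit 36005877147) (nat_lit 76) (nat_lit 11440204856) (nat_lit 76) (nat_lit 5663046683) (nat_lit 4) (nat_lit 4) (nat_lit 5) (nat_lit 5) (nat_lit 5) (nat_lit 4) (nat_lit 382) (nat_lit 212) (nat_lit 186)))) (XT.nd (nat_lit 78) (nat_lit 76) (nat_lit 0) (XT.lf (nat_lit 0) (nat_lit 41236315513) (nat_lit 76) (nat_lit 9658201305) (nat_lit 76) (nat_lit 3735558078) (nat_lit 4) (nat_lit 4) (nat_lit 5) (nat_lit 5) (nat_lit 5) (nat_lit 4) (nat_lit 383) (nat_lit 212) (nat_lit 185)) (XT.nd (nat_lit 78) (nat_lit 76) (nat_lit 0) (XT.lf (nat_lit 0) (nat_lit 46565945882) (nat_lit 76) (nat_lit 7847800192) (nat_lit 76) (nat_lit 1783909340) (nat_lit 4) (nat_lit 4) (nat_lit 5) (nat_lit 5) (nat_lit 5) (nat_lit 4) (nat_lit 384)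 (nat_lit 212) (nat_lit 184)) (XT.lf (nat_lit 0) (nat_lit 189826928) (nat_lit 152) (nat_lit 5815675804) (nat_lit 76) (nat_lit 51807681406) (nat_lit 3) (nat_lit 5) (nat_lit 5) (nat_lit 5) (nat_lit 4) (nat_lit 4) (nat_lit 385) (nat_lit 212) (nat_lit 183)))))) (XT.nd (nat_lit 468) (nat_lit 0) (nat_lit 0) (XT.nd (nat_lit 234) (nat_lit 0) (nat_lit 0) (XT.nd (nat_lit 78) (nat_lit 76) (nat_lit 0) (XT.lf (nat_lit 0) (nat_lit 2155807636) (nat_lit 152) (nat_lit 1957874399) (nat_lit 76) (nat_lit 55363924141) (nat_lit 3) (nat_lit 5) (nat_lit 5) (nat_lit 5) (nat_lit 4) (nat_lit 4) (nat_lit 386) (nat_lit 212) (nat_lit 182)) (XT.nd (nat_lit 78) (nat_lit 0) (nat_lit 0) (XT.lf (nat_lit 0) (nat_lit 2001265501) (nat_lit 76) (nat_lit 2168533015) (nat_lit 152) (nat_lit 57022514683) (nat_lit 2) (nat_lit 5) (nat_lit 3) (nat_lit 5) (nat_lit 4) (nat_lit 4) (nat_lit 387) (nat_lit 212) (nat_lit 181)) (XT.lf (nat_lit 0)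 (nat_lit 6066390656) (nat_lit 76) (nat_lit 167753594) (nat_lit 152) (nat_lit 56724641697) (nat_lit 2) (nat_lit 5) (nat_lit 3) (nat_lit 5) (nat_lit 4) (nat_lit 4) (nat_lit 388) (nat_lit 212) (nat_lit 180)))) (XT.nd (nat_lit 78) (nat_lit 0) (nat_lit 0) (XT.lf (nat_lit 0) (nat_lit 8349435466) (nat_lit 152) (nat_lit 54595037886) (nat_lit 0) (nat_lit 1834130984) (nat_lit 2) (nat_lit 5) (nat_lit 4) (nat_lit 4) (nat_lit 2) (nat_lit 4) (nat_lit 389) (nat_lit 212) (nat_lit 179)) (XT.nd (nat_lit 78) (nat_lit 0) (nat_lit 0) (XT.lf (nat_lit 0) (nat_lit 10501514267) (nat_lit 152) (nat_lit 52280961875) (nat_lit 0) (nat_lit 3871362540) (nat_lit 2) (nat_lit 5) (nat_lit 4) (nat_lit 4) (nat_lit 2) (nat_lit 4) (nat_lit 390) (nat_lit 212) (nat_lit 178)) (XT.lf (nat_lit 0) (nat_lit 12690648562) (nat_lit 152) (nat_lit 49946532701) (nat_lit 0) (nat_lit 5948994656) (nat_lit 2) (nat_lit 5) (nat_lit 4) (nat_lit 4) (nat_lit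 2) (nat_lit 4) (nat_lit 391) (nat_lit 212) (nat_lit 177))))) (XT.nd (nat_lit 234) (nat_lit 0) (nat_lit 0) (XT.nd (nat_lit 78) (nat_lit 0) (nat_lit 0) (XT.lf (nat_lit 0) (nat_lit 14918751186) (nat_lit 152) (nat_lit 47589710571) (nat_lit 0) (nat_lit 8068842737) (nat_lit 2) (nat_lit 5) (nat_lit 4) (nat_lit 4) (nat_lit 2) (nat_lit 4) (nat_lit 392) (nat_lit 212) (nat_lit 176)) (XT.nd (nat_lit 78) (nat_lit 0) (nat_lit 0) (XT.lf (nat_lit 0) (nat_lit 17187769026) (nat_lit 152) (nat_lit 45208436126) (nat_lit 0) (nat_lit 10232759078) (nat_lit 2) (nat_lit 5) (nat_lit 4) (nat_lit 4) (nat_lit 2) (nat_lit 4) (nat_lit 393) (nat_lit 212) (nat_lit 175)) (XT.lf (nat_lit 0) (nat_lit 19499684718) (nat_lit 152) (nat_lit 42800628642) (nat_lit 0) (nat_lit 12442634481) (nat_lit 2) (nat_lit 5) (nat_lit 4) (nat_lit 4) (nat_lit 2) (nat_lit 4) (nat_lit 394) (nat_lit 212) (nat_lit 174)))) (XT.nd (nat_lit 78) (nat_lit 0)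 (nat_lit 0) (XT.lf (nat_lit 0) (nat_lit 21856518383) (nat_lit 152) (nat_lit 40364184208) (nat_lit 0) (nat_lit 14700399903) (nat_lit 2) (nat_lit 5) (nat_lit 4) (nat_lit 4) (nat_lit 2) (nat_lit 4) (nat_lit 395) (nat_lit 212) (nat_lit 173)) (XT.nd (nat_lit 78) (nat_lit 0) (nat_lit 0) (XT.lf (nat_lit 0) (nat_lit 24260329390) (nat_lit 152) (nat_lit 37896973892) (nat_lit 0) (nat_lit 17008028150) (nat_lit 2) (nat_lit 5) (nat_lit 4) (nat_lit 4) (nat_lit 2) (nat_lit 4) (nat_lit 396) (nat_lit 212) (nat_lit 172)) (XT.lf (nat_lit 0) (nat_lit 26713218156) (nat_lit 152) (nat_lit 35396841880) (nat_lit 0) (nat_lit 19367535596) (nat_lit 2) (nat_lit 5) (nat_lit 4) (nat_lit 4) (nat_lit 2) (nat_lit 4) (nat_lit 397) (nat_lit 212) (nat_lit 171))))))))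
noncomputable def xc13 : XT := (XT.nd (nat_lit 38532) (nat_lit 0) (nat_lit 0) (XT.nd (nat_lit 37674) (nat_lit 0) (nat_lit 228) (XT.nd (nat_lit 37206) (nat_lit 0) (nat_lit 456) (XT.nd (nat_lit 156) (nat_lit 0) (nat_lit 0) (XT.nd (nat_lit 78) (nat_lit 0) (nat_lit 0) (XT.lf (nat_lit 0) (nat_lit 29217327982) (nat_lit 152) (nat_lit 32861603590) (nat_lit 0) (nat_lit 21780983947) (nat_lit 2) (nat_lit 5) (nat_lit 4) (nat_lit 4) (nat_lit 2) (nat_lit 4) (nat_lit 398) (nat_lit 212) (nat_lit 170)) (XT.lf (nat_lit 0) (nat_lit 31774846926) (nat_lit 152) (nat_lit 30289043765) (nat_lit 0) (nat_lit 24250482040) (nat_lit 2) (nat_lit 5) (nat_lit 4) (nat_lit 4) (nat_lit 2) (nat_lit 4) (nat_lit 399) (nat_lit 212) (nat_lit 169))) (XT.nd (nat_lit 78) (nat_lit 0) (nat_lit 0) (XT.lf (nat_lit 0) (nat_lit 34388009712) (nat_lit 152) (nat_lit 27676914539) (nat_lit 0) (nat_lit 26778187691) (nat_lit 2) (nat_lit 5) (nat_lit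 4) (nat_lit 4) (nat_lit 2) (nat_lit 4) (nat_lit 400) (nat_lit 212) (nat_lit 168)) (XT.nd (nat_lit 78) (nat_lit 0) (nat_lit 0) (XT.lf (nat_lit 0) (nat_lit 37059099687) (nat_lit 152) (nat_lit 25022933466) (nat_lit 0) (nat_lit 29366309572) (nat_lit 2) (nat_lit 5) (nat_lit 4) (nat_lit 4) (nat_lit 2) (nat_lit 4) (nat_lit 401) (nat_lit 212) (nat_lit 167)) (XT.lf (nat_lit 0) (nat_lit 39790450813) (nat_lit 152) (nat_lit 22324781536) (nat_lit 0) (nat_lit 32017109151) (nat_lit 2) (nat_lit 5) (nat_lit 4) (nat_lit 4) (nat_lit 2) (nat_lit 4) (nat_lit 402) (nat_lit 212) (nat_lit 166))))) (XT.nd (nat_lit 234) (nat_lit 0) (nat_lit 0) (XT.nd (nat_lit 78) (nat_lit 152) (nat_lit 0) (XT.lf (nat_lit 0) (nat_lit 7953662042) (nat_lit 152) (nat_lit 2254812989) (nat_lit 152) (nat_lit 2254812989) (nat_lit 10) (nat_lit 4) (nat_lit 12) (nat_lit 5) (nat_lit 12) (nat_lit 4) (nat_lit 354) (nat_lit 213) (nat_lit 213)) (XT.nd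 (nat_lit 78) (nat_lit 152) (nat_lit 0) (XT.lf (nat_lit 0) (nat_lit 22211178764) (nat_lit 152) (nat_lit 1850642005) (nat_lit 152) (nat_lit 1507796945) (nat_lit 10) (nat_lit 4) (nat_lit 12) (nat_lit 5) (nat_lit 12) (nat_lit 4) (nat_lit 355) (nat_lit 213) (nat_lit 212)) (XT.lf (nat_lit 0) (nat_lit 1518478247) (nat_lit 152) (nat_lit 23851661742) (nat_lit 0) (nat_lit 862454615) (nat_lit 8) (nat_lit 5) (nat_lit 10) (nat_lit 4) (nat_lit 8) (nat_lit 4) (nat_lit 356) (nat_lit 213) (nat_lit 211)))) (XT.nd (nat_lit 78) (nat_lit 0) (nat_lit 0) (XT.lf (nat_lit 0) (nat_lit 4592069522) (nat_lit 152) (nat_lit 18701102450) (nat_lit 0) (nat_lit 3622294093) (nat_lit 8) (nat_lit 5) (nat_lit 10) (nat_lit 4) (nat_lit 8) (nat_lit 4) (nat_lit 357) (nat_lit 213) (nat_lit 210)) (XT.nd (nat_lit 78) (nat_lit 0) (nat_lit 0) (XT.lf (nat_lit 0) (nat_lit 7694043714) (nat_lit 152) (nat_lit 13507096229) (nat_lit 0) (nat_lit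 6419654891) (nat_lit 8) (nat_lit 5) (nat_lit 10) (nat_lit 4) (nat_lit 8) (nat_lit 4) (nat_lit 358) (nat_lit 213) (nat_lit 209)) (XT.lf (nat_lit 0) (nat_lit 10827111288) (nat_lit 152) (nat_lit 8265104629) (nat_lit 0) (nat_lit 9256981304) (nat_lit 8) (nat_lit 5) (nat_lit 10) (nat_lit 4) (nat_lit 8) (nat_lit 4) (nat_lit 359) (nat_lit 213) (nat_lit 208)))))) (XT.nd (nat_lit 390) (nat_lit 152) (nat_lit 0) (XT.nd (nat_lit 156) (nat_lit 0) (nat_lit 0) (XT.nd (nat_lit 78) (nat_lit 76) (nat_lit 0) (XT.lf (nat_lit 0) (nat_lit 13994009875) (nat_lit 152) (nat_lit 2970547268) (nat_lit 0) (nat_lit 12136752552) (nat_lit 8) (nat_lit 5) (nat_lit 10) (nat_lit 4) (nat_lit 8) (nat_lit 4) (nat_lit 360) (nat_lit 213) (nat_lit 207)) (XT.lf (nat_lit 0) (nat_lit 2428592757) (nat_lit 76) (nat_lit 14792259030) (nat_lit 76) (nat_lit 12656237299) (nat_lit 7) (nat_lit 4) (nat_lit 8) (nat_lit 5) (nat_lit 8) (nat_lit 4) (nat_lit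 361) (nat_lit 213) (nat_lit 206))) (XT.nd (nat_lit 78) (nat_lit 0) (nat_lit 0) (XT.lf (nat_lit 0) (nat_lit 7949952159) (nat_lit 76) (nat_lit 12566868483) (nat_lit 76) (nat_lit 10160201696) (nat_lit 7) (nat_lit 4) (nat_lit 8) (nat_lit 5) (nat_lit 8) (nat_lit 4) (nat_lit 362) (nat_lit 213) (nat_lit 205)) (XT.nd (nat_lit 78) (nat_lit 0) (nat_lit 0) (XT.lf (nat_lit 0) (nat_lit 13539235711) (nat_lit 76) (nat_lit 10316437690) (nat_lit 76) (nat_lit 7647008712) (nat_lit 7) (nat_lit 4) (nat_lit 8) (nat_lit 5) (nat_lit 8) (nat_lit 4) (nat_lit 363) (nat_lit 213) (nat_lit 204)) (XT.lf (nat_lit 0) (nat_lit 19201327252) (nat_lit 76) (nat_lit 8039000255) (nat_lit 76) (nat_lit 5114462354) (nat_lit 7) (nat_lit 4) (nat_lit 8) (nat_lit 5) (nat_lit 8) (nat_lit 4) (nat_lit 364) (nat_lit 213) (nat_lit 203))))) (XT.nd (nat_lit 234) (nat_lit 0) (nat_lit 0) (XT.nd (nat_lit 78) (nat_lit 152) (nat_lit 0) (XT.lf (nat_lit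 0) (nat_lit 24941174242) (nat_lit 76) (nat_lit 5732566184) (nat_lit 76) (nat_lit 2560349717) (nat_lit 7) (nat_lit 4) (nat_lit 8) (nat_lit 5) (nat_lit 8) (nat_lit 4) (nat_lit 365) (nat_lit 213) (nat_lit 202)) (XT.nd (nat_lit 78) (nat_lit 76) (nat_lit 0) (XT.lf (nat_lit 0) (nat_lit 17218269) (nat_lit 152) (nat_lit 3377728005) (nat_lit 76) (nat_lit 30746399939) (nat_lit 6) (nat_lit 5) (nat_lit 8) (nat_lit 5) (nat_lit 7) (nat_lit 4) (nat_lit 366) (nat_lit 213) (nat_lit 201)) (XT.lf (nat_lit 0) (nat_lit 1602982762) (nat_lit 76) (nat_lit 982792931) (nat_lit 152) (nat_lit 32490372071) (nat_lit 5) (nat_lit 5) (nat_lit 6) (nat_lit 5) (nat_lit 7) (nat_lit 4) (nat_lit 367) (nat_lit 213) (nat_lit 200)))) (XT.nd (nat_lit 78) (nat_lit 0) (nat_lit 0) (XT.lf (nat_lit 0) (nat_lit 5230254876) (nat_lit 152) (nat_lit 29338561203) (nat_lit 0) (nat_lit 1470252090) (nat_lit 5) (nat_lit 5) (nat_lit 7) (nat_lit 4) (nat_lit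 5) (nat_lit 4) (nat_lit 368) (nat_lit 213) (nat_lit 199)) (XT.nd (nat_lit 78) (nat_lit 0) (nat_lit 0) (XT.lf (nat_lit 0) (nat_lit 7915239252) (nat_lit 152) (nat_lit 25175254626) (nat_lit 0) (nat_lit 3941586759) (nat_lit 5) (nat_lit 5) (nat_lit 7) (nat_lit 4) (nat_lit 5) (nat_lit 4) (nat_lit 369) (nat_lit 213) (nat_lit 198)) (XT.lf (nat_lit 0) (nat_lit 10633627715) (nat_lit 152) (nat_lit 20970160224) (nat_lit 0) (nat_lit 6452548323) (nat_lit 5) (nat_lit 5) (nat_lit 7) (nat_lit 4) (nat_lit 5) (nat_lit 4) (nat_lit 370) (nat_lit 213) (nat_lit 197))))))) (XT.nd (nat_lit 858) (nat_lit 152) (nat_lit 0) (XT.nd (nat_lit 390) (nat_lit 0) (nat_lit 0) (XT.nd (nat_lit 156) (nat_lit 76) (nat_lit 0) (XT.nd (nat_lit 78) (nat_lit 0) (nat_lit 0) (XT.lf (nat_lit 0) (nat_lit 13387795557) (nat_lit 152) (nat_lit 16719603643) (nat_lit 0) (nat_lit 9005330826) (nat_lit 5) (nat_lit 5) (nat_lit 7) (nat_lit 4) (nat_lit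 5) (nat_lit 4) (nat_lit 371) (nat_lit 213) (nat_lit 196)) (XT.lf (nat_lit 0) (nat_lit 16180149333) (nat_lit 152) (nat_lit 12419870803) (nat_lit 0) (nat_lit 11602164855) (nat_lit 5) (nat_lit 5) (nat_lit 7) (nat_lit 4) (nat_lit 5) (nat_lit 4) (nat_lit 372) (nat_lit 213) (nat_lit 195))) (XT.nd (nat_lit 78) (nat_lit 76) (nat_lit 0) (XT.lf (nat_lit 0) (nat_lit 19013128963) (nat_lit 152) (nat_lit 8067204657) (nat_lit 0) (nat_lit 14245319488) (nat_lit 5) (nat_lit 5) (nat_lit 7) (nat_lit 4) (nat_lit 5) (nat_lit 4) (nat_lit 373) (nat_lit 213) (nat_lit 194)) (XT.nd (nat_lit 78) (nat_lit 76) (nat_lit 0) (XT.lf (nat_lit 0) (nat_lit 21889209867) (nat_lit 152) (nat_lit 3657801905) (nat_lit 0) (nat_lit 16937104278) (nat_lit 5) (nat_lit 5) (nat_lit 7) (nat_lit 4) (nat_lit 5) (nat_lit 4) (nat_lit 374) (nat_lit 213) (nat_lit 193)) (XT.lf (nat_lit 0) (nat_lit 828354510) (nat_lit 76) (nat_lit 23990513264) (nat_lit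 76) (nat_lit 18859479410) (nat_lit 4) (nat_lit 4) (nat_lit 5) (nat_lit 5) (nat_lit 5) (nat_lit 4) (nat_lit 375) (nat_lit 213) (nat_lit 192))))) (XT.nd (nat_lit 234) (nat_lit 0) (nat_lit 0) (XT.nd (nat_lit 78) (nat_lit 0) (nat_lit 0) (XT.lf (nat_lit 0) (nat_lit 5453087240) (nat_lit 76) (nat_lit 22380098843) (nat_lit 76) (nat_lit 17075348226) (nat_lit 4) (nat_lit 4) (nat_lit 5) (nat_lit 5) (nat_lit 5) (nat_lit 4) (nat_lit 376) (nat_lit 213) (nat_lit 191)) (XT.nd (nat_lit 78) (nat_lit 0) (nat_lit 0) (XT.lf (nat_lit 0) (nat_lit 10147639883) (nat_lit 76) (nat_lit 20751297977) (nat_lit 76) (nat_lit 15277890309) (nat_lit 4) (nat_lit 4) (nat_lit 5) (nat_lit 5) (nat_lit 5) (nat_lit 4) (nat_lit 377) (nat_lit 213) (nat_lit 190)) (XT.lf (nat_lit 0) (nat_lit 14916114475) (nat_lit 76) (nat_lit 19102687443) (nat_lit 76) (nat_lit 13465535065) (nat_lit 4) (nat_lit 4) (nat_lit 5) (nat_lit 5) (nat_lit 5) (nat_lit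 4) (nat_lit 378) (nat_lit 213) (nat_lit 189)))) (XT.nd (nat_lit 78) (nat_lit 0) (nat_lit 0) (XT.lf (nat_lit 0) (nat_lit 19762677645) (nat_lit 76) (nat_lit 17432826708) (nat_lit 76) (nat_lit 11636698883) (nat_lit 4) (nat_lit 4) (nat_lit 5) (nat_lit 5) (nat_lit 5) (nat_lit 4) (nat_lit 379) (nat_lit 213) (nat_lit 188)) (XT.nd (nat_lit 78) (nat_lit 0) (nat_lit 0) (XT.lf (nat_lit 0) (nat_lit 24691564253) (nat_lit 76) (nat_lit 15740256668) (nat_lit 76) (nat_lit 9789783750) (nat_lit 4) (nat_lit 4) (nat_lit 5) (nat_lit 5) (nat_lit 5) (nat_lit 4) (nat_lit 380) (nat_lit 213) (nat_lit 187)) (XT.lf (nat_lit 0) (nat_lit 29707081094) (nat_lit 76) (nat_lit 14023498381) (nat_lit 76) (nat_lit 7923175857) (nat_lit 4) (nat_lit 4) (nat_lit 5) (nat_lit 5) (nat_lit 5) (nat_lit 4) (nat_lit 381) (nat_lit 213) (nat_lit 186)))))) (XT.nd (nat_lit 468) (nat_lit 0) (nat_lit 0) (XT.nd (nat_lit 234) (nat_lit 152) (nat_lit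 0) (XT.nd (nat_lit 78) (nat_lit 0) (nat_lit 0) (XT.lf (nat_lit 0) (nat_lit 34813610658) (nat_lit 76) (nat_lit 12281051765) (nat_lit 76) (nat_lit 6035244187) (nat_lit 4) (nat_lit 4) (nat_lit 5) (nat_lit 5) (nat_lit 5) (nat_lit 4) (nat_lit 382) (nat_lit 213) (nat_lit 185)) (XT.nd (nat_lit 78) (nat_lit 0) (nat_lit 0) (XT.lf (nat_lit 0) (nat_lit 40015614961) (nat_lit 76) (nat_lit 10511394295) (nat_lit 76) (nat_lit 4124339092) (nat_lit 4) (nat_lit 4) (nat_lit 5) (nat_lit 5) (nat_lit 5) (nat_lit 4) (nat_lit 383) (nat_lit 213) (nat_lit 184)) (XT.lf (nat_lit 0) (nat_lit 45317639445) (nat_lit 76) (nat_lit 8712979668) (nat_lit 76) (nat_lit 2188790848) (nat_lit 4) (nat_lit 4) (nat_lit 5) (nat_lit 5) (nat_lit 5) (nat_lit 4) (nat_lit 384) (nat_lit 213) (nat_lit 183)))) (XT.nd (nat_lit 78) (nat_lit 152) (nat_lit 0) (XT.lf (nat_lit 0) (nat_lit 50724316945) (nat_lit 76) (nat_lit 6884236453) (nat_lit 76) (nat_lit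 226908200) (nat_lit 4) (nat_lit 4) (nat_lit 5) (nat_lit 5) (nat_lit 5) (nat_lit 4) (nat_lit 385) (nat_lit 213) (nat_lit 182)) (XT.nd (nat_lit 78) (nat_lit 76) (nat_lit 0) (XT.lf (nat_lit 0) (nat_lit 1728620187) (nat_lit 152) (nat_lit 3277490859) (nat_lit 76) (nat_lit 54494295881) (nat_lit 3) (nat_lit 5) (nat_lit 5) (nat_lit 5) (nat_lit 4) (nat_lit 4) (nat_lit 386) (nat_lit 213) (nat_lit 181)) (XT.lf (nat_lit 0) (nat_lit 629315422) (nat_lit 76) (nat_lit 3085660906) (nat_lit 152) (nat_lit 57500977781) (nat_lit 2) (nat_lit 5) (nat_lit 3) (nat_lit 5) (nat_lit 4) (nat_lit 4) (nat_lit 387) (nat_lit 213) (nat_lit 180))))) (XT.nd (nat_lit 234) (nat_lit 0) (nat_lit 0) (XT.nd (nat_lit 78) (nat_lit 0) (nat_lit 0) (XT.lf (nat_lit 0) (nat_lit 4669129252) (nat_lit 76) (nat_lit 1095923564) (nat_lit 152) (nat_lit 57217812911) (nat_lit 2) (nat_lit 5) (nat_lit 3) (nat_lit 5) (nat_lit 4) (nat_lit 4) (nat_lit 388)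 (nat_lit 213) (nat_lit 179)) (XT.nd (nat_lit 78) (nat_lit 0) (nat_lit 0) (XT.lf (nat_lit 0) (nat_lit 7857465206) (nat_lit 152) (nat_lit 56032354071) (nat_lit 0) (nat_lit 913561683) (nat_lit 2) (nat_lit 5) (nat_lit 4) (nat_lit 4) (nat_lit 2) (nat_lit 4) (nat_lit 389) (nat_lit 213) (nat_lit 178)) (XT.lf (nat_lit 0) (nat_lit 9995993825) (nat_lit 152) (nat_lit 53742450039) (nat_lit 0) (nat_lit 2940588122) (nat_lit 2) (nat_lit 5) (nat_lit 4) (nat_lit 4) (nat_lit 2) (nat_lit 4) (nat_lit 390) (nat_lit 213) (nat_lit 177)))) (XT.nd (nat_lit 78) (nat_lit 0) (nat_lit 0) (XT.lf (nat_lit 0) (nat_lit 12171972603) (nat_lit 152) (nat_lit 51431488806) (nat_lit 0) (nat_lit 5008312357) (nat_lit 2) (nat_lit 5) (nat_lit 4) (nat_lit 4) (nat_lit 2) (nat_lit 4) (nat_lit 391) (nat_lit 213) (nat_lit 176)) (XT.nd (nat_lit 78) (nat_lit 0) (nat_lit 0) (XT.lf (nat_lit 0) (nat_lit 14387302881) (nat_lit 152) (nat_lit 49097451084)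 (nat_lit 0) (nat_lit 7118541136) (nat_lit 2) (nat_lit 5) (nat_lit 4) (nat_lit 4) (nat_lit 2) (nat_lit 4) (nat_lit 392) (nat_lit 213) (nat_lit 175)) (XT.lf (nat_lit 0) (nat_lit 16643920385) (nat_lit 152) (nat_lit 46738297424) (nat_lit 0) (nat_lit 9273118350) (nat_lit 2) (nat_lit 5) (nat_lit 4) (nat_lit 4) (nat_lit 2) (nat_lit 4) (nat_lit 393) (nat_lit 213) (nat_lit 174))))))))
noncomputable def xc14 : XT := (XT.nd (nat_lit 38376) (nat_lit 0) (nat_lit 76) (XT.nd (nat_lit 37518) (nat_lit 0) (nat_lit 380) (XT.nd (nat_lit 390) (nat_lit 0) (nat_lit 0) (XT.nd (nat_lit 156) (nat_lit 0) (nat_lit 0) (XT.nd (nat_lit 78) (nat_lit 0) (nat_lit 0) (XT.lf (nat_lit 0) (nat_lit 18943796915) (nat_lit 152) (nat_lit 44351966430) (nat_lit 0) (nat_lit 11473926638) (nat_lit 2) (nat_lit 5) (nat_lit 4) (nat_lit 4) (nat_lit 2) (nat_lit 4) (nat_lit 394) (nat_lit 213) (nat_lit 173)) (XT.lf (nat_lit 0) (nat_lit 21288942073)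 (nat_lit 152) (nat_lit 41936372957) (nat_lit 0) (nat_lit 13722889037) (nat_lit 2) (nat_lit 5) (nat_lit 4) (nat_lit 4) (nat_lit 2) (nat_lit 4) (nat_lit 395) (nat_lit 213) (nat_lit 172))) (XT.nd (nat_lit 78) (nat_lit 0) (nat_lit 0) (XT.lf (nat_lit 0) (nat_lit 23681405016) (nat_lit 152) (nat_lit 39489406293) (nat_lit 0) (nat_lit 16021970659) (nat_lit 2) (nat_lit 5) (nat_lit 4) (nat_lit 4) (nat_lit 2) (nat_lit 4) (nat_lit 396) (nat_lit 213) (nat_lit 171)) (XT.nd (nat_lit 78) (nat_lit 0) (nat_lit 0) (XT.lf (nat_lit 0) (nat_lit 26123276244) (nat_lit 152) (nat_lit 37008928312) (nat_lit 0) (nat_lit 18373180411) (nat_lit 2) (nat_lit 5) (nat_lit 4) (nat_lit 4) (nat_lit 2) (nat_lit 4) (nat_lit 397) (nat_lit 213) (nat_lit 170)) (XT.lf (nat_lit 0) (nat_lit 28616689431) (nat_lit 152) (nat_lit 34492771605) (nat_lit 0) (nat_lit 20778572748) (nat_lit 2) (nat_lit 5) (nat_lit 4) (nat_lit 4) (nat_lit 2) (nat_lit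 4) (nat_lit 398) (nat_lit 213) (nat_lit 169))))) (XT.nd (nat_lit 234) (nat_lit 0) (nat_lit 0) (XT.nd (nat_lit 78) (nat_lit 0) (nat_lit 0) (XT.lf (nat_lit 0) (nat_lit 31163823288) (nat_lit 152) (nat_lit 31938737590) (nat_lit 0) (nat_lit 23240249469) (nat_lit 2) (nat_lit 5) (nat_lit 4) (nat_lit 4) (nat_lit 2) (nat_lit 4) (nat_lit 399) (nat_lit 213) (nat_lit 168)) (XT.nd (nat_lit 78) (nat_lit 0) (nat_lit 0) (XT.lf (nat_lit 0) (nat_lit 33766903466) (nat_lit 152) (nat_lit 29344594585) (nat_lit 0) (nat_lit 25760361554) (nat_lit 2) (nat_lit 5) (nat_lit 4) (nat_lit 4) (nat_lit 2) (nat_lit 4) (nat_lit 400) (nat_lit 213) (nat_lit 167)) (XT.lf (nat_lit 0) (nat_lit 36428204501) (nat_lit 152) (nat_lit 26708075865) (nat_lit 0) (nat_lit 28341111042) (nat_lit 2) (nat_lit 5) (nat_lit 4) (nat_lit 4) (nat_lit 2) (nat_lit 4) (nat_lit 401) (nat_lit 213) (nat_lit 166)))) (XT.nd (nat_lit 36738) (nat_lit 0) (nat_lit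 608) (XT.lf (nat_lit 0) (nat_lit 39150051802) (nat_lit 152) (nat_lit 24026877675) (nat_lit 0) (nat_lit 30984752957) (nat_lit 2) (nat_lit 5) (nat_lit 4) (nat_lit 4) (nat_lit 2) (nat_lit 4) (nat_lit 402) (nat_lit 213) (nat_lit 165)) (XT.nd (nat_lit 78) (nat_lit 0) (nat_lit 0) (XT.lf (nat_lit 0) (nat_lit 1783038287) (nat_lit 152) (nat_lit 5033768752) (nat_lit 152) (nat_lit 5033768752) (nat_lit 10) (nat_lit 4) (nat_lit 12) (nat_lit 5) (nat_lit 12) (nat_lit 4) (nat_lit 352) (nat_lit 214) (nat_lit 214)) (XT.lf (nat_lit 0) (nat_lit 9674492879) (nat_lit 152) (nat_lit 7491462693) (nat_lit 152) (nat_lit 7138332282) (nat_lit 10) (nat_lit 4) (nat_lit 12) (nat_lit 5) (nat_lit 12) (nat_lit 4) (nat_lit 353) (nat_lit 214) (nat_lit 213)))))) (XT.nd (nat_lit 390) (nat_lit 76) (nat_lit 0) (XT.nd (nat_lit 156) (nat_lit 152) (nat_lit 0) (XT.nd (nat_lit 78) (nat_lit 0) (nat_lit 0) (XT.lf (nat_lit 0) (nat_lit 15850200212)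 (nat_lit 152) (nat_lit 4886689158) (nat_lit 152) (nat_lit 4190713687) (nat_lit 10) (nat_lit 4) (nat_lit 12) (nat_lit 5) (nat_lit 12) (nat_lit 4) (nat_lit 354) (nat_lit 214) (nat_lit 212)) (XT.lf (nat_lit 0) (nat_lit 22098594822) (nat_lit 152) (nat_lit 2250940882) (nat_lit 152) (nat_lit 1222106129) (nat_lit 10) (nat_lit 4) (nat_lit 12) (nat_lit 5) (nat_lit 12) (nat_lit 4) (nat_lit 355) (nat_lit 214) (nat_lit 211))) (XT.nd (nat_lit 78) (nat_lit 0) (nat_lit 0) (XT.lf (nat_lit 0) (nat_lit 1761227534) (nat_lit 152) (nat_lit 24025851385) (nat_lit 0) (nat_lit 448607045) (nat_lit 8) (nat_lit 5) (nat_lit 10) (nat_lit 4) (nat_lit 8) (nat_lit 4) (nat_lit 356) (nat_lit 214) (nat_lit 210)) (XT.nd (nat_lit 78) (nat_lit 0) (nat_lit 0) (XT.lf (nat_lit 0) (nat_lit 4803378010) (nat_lit 152) (nat_lit 18930006305) (nat_lit 0) (nat_lit 3186144127) (nat_lit 8) (nat_lit 5) (nat_lit 10) (nat_lit 4) (nat_lit 8) (nat_lit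 4) (nat_lit 357) (nat_lit 214) (nat_lit 209)) (XT.lf (nat_lit 0) (nat_lit 7874827156) (nat_lit 152) (nat_lit 13789120680) (nat_lit 0) (nat_lit 5961852113) (nat_lit 8) (nat_lit 5) (nat_lit 10) (nat_lit 4) (nat_lit 8) (nat_lit 4) (nat_lit 358) (nat_lit 214) (nat_lit 208))))) (XT.nd (nat_lit 234) (nat_lit 0) (nat_lit 0) (XT.nd (nat_lit 78) (nat_lit 76) (nat_lit 0) (XT.lf (nat_lit 0) (nat_lit 10978258763) (nat_lit 152) (nat_lit 8598702472) (nat_lit 0) (nat_lit 8778156379) (nat_lit 8) (nat_lit 5) (nat_lit 10) (nat_lit 4) (nat_lit 8) (nat_lit 4) (nat_lit 359) (nat_lit 214) (nat_lit 207)) (XT.nd (nat_lit 78) (nat_lit 76) (nat_lit 0) (XT.lf (nat_lit 0) (nat_lit 14116384566) (nat_lit 152) (nat_lit 3354216366) (nat_lit 0) (nat_lit 11637517774) (nat_lit 8) (nat_lit 5) (nat_lit 10) (nat_lit 4) (nat_lit 8) (nat_lit 4) (nat_lit 360) (nat_lit 214) (nat_lit 206)) (XT.lf (nat_lit 0) (nat_lit 1987707531) (nat_lit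 76) (nat_lit 15323346146) (nat_lit 76) (nat_lit 12573834298) (nat_lit 7) (nat_lit 4) (nat_lit 8) (nat_lit 5) (nat_lit 8) (nat_lit 4) (nat_lit 361) (nat_lit 214) (nat_lit 205)))) (XT.nd (nat_lit 78) (nat_lit 0) (nat_lit 0) (XT.lf (nat_lit 0) (nat_lit 7460930662) (nat_lit 76) (nat_lit 13118508047) (nat_lit 76) (nat_lit 10106234010) (nat_lit 7) (nat_lit 4) (nat_lit 8) (nat_lit 5) (nat_lit 8) (nat_lit 4) (nat_lit 362) (nat_lit 214) (nat_lit 204)) (XT.nd (nat_lit 78) (nat_lit 0) (nat_lit 0) (XT.lf (nat_lit 0) (nat_lit 13003479969) (nat_lit 76) (nat_lit 10888031087) (nat_lit 76) (nat_lit 7620648127) (nat_lit 7) (nat_lit 4) (nat_lit 8) (nat_lit 5) (nat_lit 8) (nat_lit 4) (nat_lit 363) (nat_lit 214) (nat_lit 203)) (XT.lf (nat_lit 0) (nat_lit 18620198457) (nat_lit 76) (nat_lit 8629966306) (nat_lit 76) (nat_lit 5114904780) (nat_lit 7) (nat_lit 4) (nat_lit 8) (nat_lit 5) (nat_lit 8) (nat_lit 4) (nat_lit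 364) (nat_lit 214) (nat_lit 202))))))) (XT.nd (nat_lit 858) (nat_lit 152) (nat_lit 0) (XT.nd (nat_lit 390) (nat_lit 0) (nat_lit 0) (XT.nd (nat_lit 156) (nat_lit 152) (nat_lit 0) (XT.nd (nat_lit 78) (nat_lit 0) (nat_lit 0) (XT.lf (nat_lit 0) (nat_lit 24315993938) (nat_lit 76) (nat_lit 6342340636) (nat_lit 76) (nat_lit 2586814483) (nat_lit 7) (nat_lit 4) (nat_lit 8) (nat_lit 5) (nat_lit 8) (nat_lit 4) (nat_lit 365) (nat_lit 214) (nat_lit 201)) (XT.lf (nat_lit 0) (nat_lit 30095843322) (nat_lit 76) (nat_lit 4023155182) (nat_lit 76) (nat_lit 34168227) (nat_lit 7) (nat_lit 4) (nat_lit 8) (nat_lit 5) (nat_lit 8) (nat_lit 4) (nat_lit 366) (nat_lit 214) (nat_lit 200))) (XT.nd (nat_lit 78) (nat_lit 0) (nat_lit 0) (XT.lf (nat_lit 0) (nat_lit 867339259) (nat_lit 76) (nat_lit 1636595316) (nat_lit 152) (nat_lit 32584997280) (nat_lit 5) (nat_lit 5) (nat_lit 6) (nat_lit 5) (nat_lit 7) (nat_lit 4) (nat_lit 367)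 (nat_lit 214) (nat_lit 199)) (XT.nd (nat_lit 78) (nat_lit 0) (nat_lit 0) (XT.lf (nat_lit 0) (nat_lit 5118207923) (nat_lit 152) (nat_lit 30122873858) (nat_lit 0) (nat_lit 811696149) (nat_lit 5) (nat_lit 5) (nat_lit 7) (nat_lit 4) (nat_lit 5) (nat_lit 4) (nat_lit 368) (nat_lit 214) (nat_lit 198)) (XT.lf (nat_lit 0) (nat_lit 7779967942) (nat_lit 152) (nat_lit 26000508844) (nat_lit 0) (nat_lit 3266029268) (nat_lit 5) (nat_lit 5) (nat_lit 7) (nat_lit 4) (nat_lit 5) (nat_lit 4) (nat_lit 369) (nat_lit 214) (nat_lit 197))))) (XT.nd (nat_lit 234) (nat_lit 0) (nat_lit 0) (XT.nd (nat_lit 78) (nat_lit 0) (nat_lit 0) (XT.lf (nat_lit 0) (nat_lit 10475808486) (nat_lit 152) (nat_lit 21835163532) (nat_lit 0) (nat_lit 5760484474) (nat_lit 5) (nat_lit 5) (nat_lit 7) (nat_lit 4) (nat_lit 5) (nat_lit 4) (nat_lit 370) (nat_lit 214) (nat_lit 196)) (XT.nd (nat_lit 78) (nat_lit 0) (nat_lit 0) (XT.lf (nat_lit 0) (nat_lit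 13208085145) (nat_lit 152) (nat_lit 17623198300) (nat_lit 0) (nat_lit 8297241386) (nat_lit 5) (nat_lit 5) (nat_lit 7) (nat_lit 4) (nat_lit 5) (nat_lit 4) (nat_lit 371) (nat_lit 214) (nat_lit 195)) (XT.lf (nat_lit 0) (nat_lit 15979185346) (nat_lit 152) (nat_lit 13360932790) (nat_lit 0) (nat_lit 10878516589) (nat_lit 5) (nat_lit 5) (nat_lit 7) (nat_lit 4) (nat_lit 5) (nat_lit 4) (nat_lit 372) (nat_lit 214) (nat_lit 194)))) (XT.nd (nat_lit 78) (nat_lit 0) (nat_lit 0) (XT.lf (nat_lit 0) (nat_lit 18791530436) (nat_lit 152) (nat_lit 9044642692) (nat_lit 0) (nat_lit 13506565566) (nat_lit 5) (nat_lit 5) (nat_lit 7) (nat_lit 4) (nat_lit 5) (nat_lit 4) (nat_lit 373) (nat_lit 214) (nat_lit 193)) (XT.nd (nat_lit 78) (nat_lit 0) (nat_lit 0) (XT.lf (nat_lit 0) (nat_lit 21647577806) (nat_lit 152) (nat_lit 4670556491) (nat_lit 0) (nat_lit 16183684670) (nat_lit 5) (nat_lit 5) (nat_lit 7) (nat_lit 4) (nat_lit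 5) (nat_lit 4) (nat_lit 374) (nat_lit 214) (nat_lit 192)) (XT.lf (nat_lit 0) (nat_lit 24549823030) (nat_lit 152) (nat_lit 234852170) (nat_lit 0) (nat_lit 18912213132) (nat_lit 5) (nat_lit 5) (nat_lit 7) (nat_lit 4) (nat_lit 5) (nat_lit 4) (nat_lit 375) (nat_lit 214) (nat_lit 191)))))) (XT.nd (nat_lit 468) (nat_lit 76) (nat_lit 0) (XT.nd (nat_lit 234) (nat_lit 0) (nat_lit 0) (XT.nd (nat_lit 78) (nat_lit 0) (nat_lit 0) (XT.lf (nat_lit 0) (nat_lit 4351254783) (nat_lit 76) (nat_lit 23191374192) (nat_lit 76) (nat_lit 17385107243) (nat_lit 4) (nat_lit 4) (nat_lit 5) (nat_lit 5) (nat_lit 5) (nat_lit 4) (nat_lit 376) (nat_lit 214) (nat_lit 190)) (XT.nd (nat_lit 78) (nat_lit 0) (nat_lit 0) (XT.lf (nat_lit 0) (nat_lit 9012844554) (nat_lit 76) (nat_lit 21576885818) (nat_lit 76) (nat_lit 15606874159) (nat_lit 4) (nat_lit 4) (nat_lit 5) (nat_lit 5) (nat_lit 5) (nat_lit 4) (nat_lit 377) (nat_lit 214) (nat_lit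 189)) (XT.lf (nat_lit 0) (nat_lit 13749316357) (nat_lit 76) (nat_lit 19942170907) (nat_lit 76) (nat_lit 13813183801) (nat_lit 4) (nat_lit 4) (nat_lit 5) (nat_lit 5) (nat_lit 5) (nat_lit 4) (nat_lit 378) (nat_lit 214) (nat_lit 188)))) (XT.nd (nat_lit 78) (nat_lit 0) (nat_lit 0) (XT.lf (nat_lit 0) (nat_lit 18564808859) (nat_lit 76) (nat_lit 18285801067) (nat_lit 76) (nat_lit 12002468867) (nat_lit 4) (nat_lit 4) (nat_lit 5) (nat_lit 5) (nat_lit 5) (nat_lit 4) (nat_lit 379) (nat_lit 214) (nat_lit 187)) (XT.nd (nat_lit 78) (nat_lit 0) (nat_lit 0) (XT.lf (nat_lit 0) (nat_lit 23463529770) (nat_lit 76) (nat_lit 16606328985) (nat_lit 76) (nat_lit 10173147180) (nat_lit 4) (nat_lit 4) (nat_lit 5) (nat_lit 5) (nat_lit 5) (nat_lit 4) (nat_lit 380) (nat_lit 214) (nat_lit 186)) (XT.lf (nat_lit 0) (nat_lit 28449759526) (nat_lit 76) (nat_lit 14902287160) (nat_lit 76) (nat_lit 8323620301) (nat_lit 4) (nat_lit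 4) (nat_lit 5) (nat_lit 5) (nat_lit 5) (nat_lit 4) (nat_lit 381) (nat_lit 214) (nat_lit 185))))) (XT.nd (nat_lit 234) (nat_lit 76) (nat_lit 0) (XT.nd (nat_lit 78) (nat_lit 0) (nat_lit 0) (XT.lf (nat_lit 0) (nat_lit 33527855027) (nat_lit 76) (nat_lit 13172186625) (nat_lit 76) (nat_lit 6452272141) (nat_lit 4) (nat_lit 4) (nat_lit 5) (nat_lit 5) (nat_lit 5) (nat_lit 4) (nat_lit 382) (nat_lit 214) (nat_lit 184)) (XT.nd (nat_lit 78) (nat_lit 0) (nat_lit 0) (XT.lf (nat_lit 0) (nat_lit 38702253444) (nat_lit 76) (nat_lit 11414515641) (nat_lit 76) (nat_lit 4557467541) (nat_lit 4) (nat_lit 4) (nat_lit 5) (nat_lit 5) (nat_lit 5) (nat_lit 4) (nat_lit 383) (nat_lit 214) (nat_lit 183)) (XT.lf (nat_lit 0) (nat_lit 43977476096) (nat_lit 76) (nat_lit 9627738379) (nat_lit 76) (nat_lit 2637550845) (nat_lit 4) (nat_lit 4) (nat_lit 5) (nat_lit 5) (nat_lit 5) (nat_lit 4) (nat_lit 384) (nat_lit 214) (nat_lit 182))))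 (XT.nd (nat_lit 78) (nat_lit 76) (nat_lit 0) (XT.lf (nat_lit 0) (nat_lit 49358132401) (nat_lit 76) (nat_lit 7810293578) (nat_lit 76) (nat_lit 690844458) (nat_lit 4) (nat_lit 4) (nat_lit 5) (nat_lit 5) (nat_lit 5) (nat_lit 4) (nat_lit 385) (nat_lit 214) (nat_lit 181)) (XT.nd (nat_lit 78) (nat_lit 0) (nat_lit 0) (XT.lf (nat_lit 0) (nat_lit 1259290281) (nat_lit 152) (nat_lit 4688586534) (nat_lit 76) (nat_lit 53576917258) (nat_lit 3) (nat_lit 5) (nat_lit 5) (nat_lit 5) (nat_lit 4) (nat_lit 4) (nat_lit 386) (nat_lit 214) (nat_lit 180)) (XT.lf (nat_lit 0) (nat_lit 3225571120) (nat_lit 152) (nat_lit 818877872) (nat_lit 76) (nat_lit 57196505315) (nat_lit 3) (nat_lit 5) (nat_lit 5) (nat_lit 5) (nat_lit 4) (nat_lit 4) (nat_lit 387) (nat_lit 214) (nat_lit 179))))))))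
noncomputable def xc15 : XT := (XT.nd (nat_lit 38298) (nat_lit 0) (nat_lit 152) (XT.nd (nat_lit 858) (nat_lit 0) (nat_lit 0) (XT.nd (nat_lit 390) (nat_lit 0) (nat_lit 0) (XT.nd (nat_lit 156) (nat_lit 0) (nat_lit 0) (XT.nd (nat_lit 78) (nat_lit 0) (nat_lit 0) (XT.lf (nat_lit 0) (nat_lit 3180064580) (nat_lit 76) (nat_lit 2073701178) (nat_lit 152) (nat_lit 57754767103) (nat_lit 2) (nat_lit 5) (nat_lit 3) (nat_lit 5) (nat_lit 4) (nat_lit 4) (nat_lit 388) (nat_lit 214) (nat_lit 178)) (XT.lf (nat_lit 0) (nat_lit 7267329048) (nat_lit 76) (nat_lit 56442480) (nat_lit 152) (nat_lit 57505958938) (nat_lit 2) (nat_lit 5) (nat_lit 3) (nat_lit 5) (nat_lit 4) (nat_lit 4) (nat_lit 389) (nat_lit 214) (nat_lit 177))) (XT.nd (nat_lit 78) (nat_lit 0) (nat_lit 0) (XT.lf (nat_lit 0) (nat_lit 9448602071) (nat_lit 152) (nat_lit 55295422767) (nat_lit 0) (nat_lit 1961777474) (nat_lit 2) (nat_lit 5) (nat_lit 4) (nat_lit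 4) (nat_lit 2) (nat_lit 4) (nat_lit 390) (nat_lit 214) (nat_lit 176)) (XT.nd (nat_lit 78) (nat_lit 0) (nat_lit 0) (XT.lf (nat_lit 0) (nat_lit 11611808502) (nat_lit 152) (nat_lit 53007245943) (nat_lit 0) (nat_lit 4019882407) (nat_lit 2) (nat_lit 5) (nat_lit 4) (nat_lit 4) (nat_lit 2) (nat_lit 4) (nat_lit 391) (nat_lit 214) (nat_lit 175)) (XT.lf (nat_lit 0) (nat_lit 13814738444) (nat_lit 152) (nat_lit 50695329006) (nat_lit 0) (nat_lit 6120772059) (nat_lit 2) (nat_lit 5) (nat_lit 4) (nat_lit 4) (nat_lit 2) (nat_lit 4) (nat_lit 392) (nat_lit 214) (nat_lit 174))))) (XT.nd (nat_lit 234) (nat_lit 0) (nat_lit 0) (XT.nd (nat_lit 78) (nat_lit 0) (nat_lit 0) (XT.lf (nat_lit 0) (nat_lit 16059316786) (nat_lit 152) (nat_lit 48357651836) (nat_lit 0) (nat_lit 8266282158) (nat_lit 2) (nat_lit 5) (nat_lit 4) (nat_lit 4) (nat_lit 2) (nat_lit 4) (nat_lit 393) (nat_lit 214) (nat_lit 173)) (XT.nd (nat_lit 78) (nat_lit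 0) (nat_lit 0) (XT.lf (nat_lit 0) (nat_lit 18347504810) (nat_lit 152) (nat_lit 45992171803) (nat_lit 0) (nat_lit 10458287423) (nat_lit 2) (nat_lit 5) (nat_lit 4) (nat_lit 4) (nat_lit 2) (nat_lit 4) (nat_lit 394) (nat_lit 214) (nat_lit 172)) (XT.lf (nat_lit 0) (nat_lit 20681301904) (nat_lit 152) (nat_lit 43596821982) (nat_lit 0) (nat_lit 12698703197) (nat_lit 2) (nat_lit 5) (nat_lit 4) (nat_lit 4) (nat_lit 2) (nat_lit 4) (nat_lit 395) (nat_lit 214) (nat_lit 171)))) (XT.nd (nat_lit 78) (nat_lit 0) (nat_lit 0) (XT.lf (nat_lit 0) (nat_lit 23062747308) (nat_lit 152) (nat_lit 41169509349) (nat_lit 0) (nat_lit 14989487125) (nat_lit 2) (nat_lit 5) (nat_lit 4) (nat_lit 4) (nat_lit 2) (nat_lit 4) (nat_lit 396) (nat_lit 214) (nat_lit 170)) (XT.nd (nat_lit 78) (nat_lit 0) (nat_lit 0) (XT.lf (nat_lit 0) (nat_lit 25493921896) (nat_lit 152) (nat_lit 38708112951) (nat_lit 0) (nat_lit 17332640863) (nat_lit 2)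 (nat_lit 5) (nat_lit 4) (nat_lit 4) (nat_lit 2) (nat_lit 4) (nat_lit 397) (nat_lit 214) (nat_lit 169)) (XT.lf (nat_lit 0) (nat_lit 27976949997) (nat_lit 152) (nat_lit 36210482054) (nat_lit 0) (nat_lit 19730211828) (nat_lit 2) (nat_lit 5) (nat_lit 4) (nat_lit 4) (nat_lit 2) (nat_lit 4) (nat_lit 398) (nat_lit 214) (nat_lit 168)))))) (XT.nd (nat_lit 36972) (nat_lit 0) (nat_lit 456) (XT.nd (nat_lit 234) (nat_lit 0) (nat_lit 0) (XT.nd (nat_lit 78) (nat_lit 0) (nat_lit 0) (XT.lf (nat_lit 0) (nat_lit 30514001246) (nat_lit 152) (nat_lit 33674434261) (nat_lit 0) (nat_lit 22184294983) (nat_lit 2) (nat_lit 5) (nat_lit 4) (nat_lit 4) (nat_lit 2) (nat_lit 4) (nat_lit 399) (nat_lit 214) (nat_lit 167)) (XT.nd (nat_lit 78) (nat_lit 0) (nat_lit 0) (XT.lf (nat_lit 0) (nat_lit 33107292484) (nat_lit 152) (nat_lit 31097753608) (nat_lit 0) (nat_lit 24697034674) (nat_lit 2) (nat_lit 5) (nat_lit 4) (nat_lit 4) (nat_lit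 2) (nat_lit 4) (nat_lit 400) (nat_lit 214) (nat_lit 166)) (XT.lf (nat_lit 0) (nat_lit 35759089694) (nat_lit 152) (nat_lit 28478188627) (nat_lit 0) (nat_lit 27270626499) (nat_lit 2) (nat_lit 5) (nat_lit 4) (nat_lit 4) (nat_lit 2) (nat_lit 4) (nat_lit 401) (nat_lit 214) (nat_lit 165)))) (XT.nd (nat_lit 36582) (nat_lit 0) (nat_lit 760) (XT.lf (nat_lit 0) (nat_lit 38471709979) (nat_lit 152) (nat_lit 25813450378) (nat_lit 0) (nat_lit 29907319226) (nat_lit 2) (nat_lit 5) (nat_lit 4) (nat_lit 4) (nat_lit 2) (nat_lit 4) (nat_lit 402) (nat_lit 214) (nat_lit 164)) (XT.nd (nat_lit 78) (nat_lit 0) (nat_lit 0) (XT.lf (nat_lit 0) (nat_lit 3576083867) (nat_lit 152) (nat_lit 4122737392) (nat_lit 0) (nat_lit 3576083867) (nat_lit 12) (nat_lit 5) (nat_lit 14) (nat_lit 4) (nat_lit 12) (nat_lit 4) (nat_lit 350) (nat_lit 215) (nat_lit 215)) (XT.lf (nat_lit 0) (nat_lit 10524345690) (nat_lit 152) (nat_lit 2431984882)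 (nat_lit 0) (nat_lit 10160621366) (nat_lit 12) (nat_lit 5) (nat_lit 14) (nat_lit 4) (nat_lit 12) (nat_lit 4) (nat_lit 351) (nat_lit 215) (nat_lit 214))))) (XT.nd (nat_lit 234) (nat_lit 152) (nat_lit 0) (XT.nd (nat_lit 78) (nat_lit 0) (nat_lit 0) (XT.lf (nat_lit 0) (nat_lit 3507238987) (nat_lit 152) (nat_lit 10455912578) (nat_lit 152) (nat_lit 9739057843) (nat_lit 10) (nat_lit 4) (nat_lit 12) (nat_lit 5) (nat_lit 12) (nat_lit 4) (nat_lit 352) (nat_lit 215) (nat_lit 213)) (XT.nd (nat_lit 78) (nat_lit 0) (nat_lit 0) (XT.lf (nat_lit 0) (nat_lit 9558531419) (nat_lit 152) (nat_lit 7903770536) (nat_lit 152) (nat_lit 6844070741) (nat_lit 10) (nat_lit 4) (nat_lit 12) (nat_lit 5) (nat_lit 12) (nat_lit 4) (nat_lit 353) (nat_lit 215) (nat_lit 212)) (XT.lf (nat_lit 0) (nat_lit 15678778681) (nat_lit 152) (nat_lit 5322232698) (nat_lit 152) (nat_lit 3929673622) (nat_lit 10) (nat_lit 4) (nat_lit 12) (nat_lit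 5) (nat_lit 12) (nat_lit 4) (nat_lit 354) (nat_lit 215) (nat_lit 211)))) (XT.nd (nat_lit 78) (nat_lit 152) (nat_lit 0) (XT.lf (nat_lit 0) (nat_lit 21873328563) (nat_lit 152) (nat_lit 2709043351) (nat_lit 152) (nat_lit 993319924) (nat_lit 10) (nat_lit 4) (nat_lit 12) (nat_lit 5) (nat_lit 12) (nat_lit 4) (nat_lit 355) (nat_lit 215) (nat_lit 210)) (XT.nd (nat_lit 78) (nat_lit 0) (nat_lit 0) (XT.lf (nat_lit 0) (nat_lit 1924273117) (nat_lit 76) (nat_lit 23386163) (nat_lit 152) (nat_lit 24293175207) (nat_lit 8) (nat_lit 5) (nat_lit 9) (nat_lit 5) (nat_lit 10) (nat_lit 4) (nat_lit 356) (nat_lit 215) (nat_lit 209)) (XT.lf (nat_lit 0) (nat_lit 4959059908) (nat_lit 152) (nat_lit 19273612083) (nat_lit 0) (nat_lit 2692954454) (nat_lit 8) (nat_lit 5) (nat_lit 10) (nat_lit 4) (nat_lit 8) (nat_lit 4) (nat_lit 357) (nat_lit 215) (nat_lit 208))))))) (XT.nd (nat_lit 858) (nat_lit 76) (nat_lit 0) (XT.nd (nat_lit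 390) (nat_lit 152) (nat_lit 0) (XT.nd (nat_lit 156) (nat_lit 76) (nat_lit 0) (XT.nd (nat_lit 78) (nat_lit 0) (nat_lit 0) (XT.lf (nat_lit 0) (nat_lit 8000873087) (nat_lit 152) (nat_lit 14184299850) (nat_lit 0) (nat_lit 5447640292) (nat_lit 8) (nat_lit 5) (nat_lit 10) (nat_lit 4) (nat_lit 8) (nat_lit 4) (nat_lit 358) (nat_lit 215) (nat_lit 207)) (XT.lf (nat_lit 0) (nat_lit 11075531909) (nat_lit 152) (nat_lit 9043952898) (nat_lit 0) (nat_lit 8243534707) (nat_lit 8) (nat_lit 5) (nat_lit 10) (nat_lit 4) (nat_lit 8) (nat_lit 4) (nat_lit 359) (nat_lit 215) (nat_lit 206))) (XT.nd (nat_lit 78) (nat_lit 76) (nat_lit 0) (XT.lf (nat_lit 0) (nat_lit 14185722971) (nat_lit 152) (nat_lit 3848079661) (nat_lit 0) (nat_lit 11083080712) (nat_lit 8) (nat_lit 5) (nat_lit 10) (nat_lit 4) (nat_lit 8) (nat_lit 4) (nat_lit 360) (nat_lit 215) (nat_lit 205)) (XT.nd (nat_lit 78) (nat_lit 0) (nat_lit 0) (XT.lf (nat_lit 0)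 (nat_lit 1435879117) (nat_lit 76) (nat_lit 15912087345) (nat_lit 76) (nat_lit 12546682896) (nat_lit 7) (nat_lit 4) (nat_lit 8) (nat_lit 5) (nat_lit 8) (nat_lit 4) (nat_lit 361) (nat_lit 215) (nat_lit 204)) (XT.lf (nat_lit 0) (nat_lit 6862368002) (nat_lit 76) (nat_lit 13727203079) (nat_lit 76) (nat_lit 10106689708) (nat_lit 7) (nat_lit 4) (nat_lit 8) (nat_lit 5) (nat_lit 8) (nat_lit 4) (nat_lit 362) (nat_lit 215) (nat_lit 203))))) (XT.nd (nat_lit 234) (nat_lit 152) (nat_lit 0) (XT.nd (nat_lit 78) (nat_lit 0) (nat_lit 0) (XT.lf (nat_lit 0) (nat_lit 12359544256) (nat_lit 76) (nat_lit 11516098773) (nat_lit 76) (nat_lit 7647906836) (nat_lit 7) (nat_lit 4) (nat_lit 8) (nat_lit 5) (nat_lit 8) (nat_lit 4) (nat_lit 363) (nat_lit 215) (nat_lit 202)) (XT.nd (nat_lit 78) (nat_lit 0) (nat_lit 0) (XT.lf (nat_lit 0) (nat_lit 17932211236) (nat_lit 76) (nat_lit 9276842393) (nat_lit 76) (nat_lit 5168185829) (nat_lit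 7) (nat_lit 4) (nat_lit 8) (nat_lit 5) (nat_lit 8) (nat_lit 4) (nat_lit 364) (nat_lit 215) (nat_lit 201)) (XT.lf (nat_lit 0) (nat_lit 23585238263) (nat_lit 76) (nat_lit 7007477308) (nat_lit 76) (nat_lit 2665359941) (nat_lit 7) (nat_lit 4) (nat_lit 8) (nat_lit 5) (nat_lit 8) (nat_lit 4) (nat_lit 365) (nat_lit 215) (nat_lit 200)))) (XT.nd (nat_lit 78) (nat_lit 152) (nat_lit 0) (XT.lf (nat_lit 0) (nat_lit 29323564876) (nat_lit 76) (nat_lit 4706020577) (nat_lit 76) (nat_lit 137242236) (nat_lit 7) (nat_lit 4) (nat_lit 8) (nat_lit 5) (nat_lit 8) (nat_lit 4) (nat_lit 366) (nat_lit 215) (nat_lit 199)) (XT.nd (nat_lit 78) (nat_lit 0) (nat_lit 0) (XT.lf (nat_lit 0) (nat_lit 25159134) (nat_lit 76) (nat_lit 2346267797) (nat_lit 152) (nat_lit 32732158449) (nat_lit 5) (nat_lit 5) (nat_lit 6) (nat_lit 5) (nat_lit 7) (nat_lit 4) (nat_lit 367) (nat_lit 215) (nat_lit 198)) (XT.lf (nat_lit 0) (nat_lit 4955654117)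 (nat_lit 152) (nat_lit 31013827265) (nat_lit 0) (nat_lit 98870384) (nat_lit 5) (nat_lit 5) (nat_lit 7) (nat_lit 4) (nat_lit 5) (nat_lit 4) (nat_lit 368) (nat_lit 215) (nat_lit 197)))))) (XT.nd (nat_lit 468) (nat_lit 76) (nat_lit 0) (XT.nd (nat_lit 234) (nat_lit 0) (nat_lit 0) (XT.nd (nat_lit 78) (nat_lit 0) (nat_lit 0) (XT.lf (nat_lit 0) (nat_lit 7594866217) (nat_lit 152) (nat_lit 26931211341) (nat_lit 0) (nat_lit 2536697145) (nat_lit 5) (nat_lit 5) (nat_lit 7) (nat_lit 4) (nat_lit 5) (nat_lit 4) (nat_lit 369) (nat_lit 215) (nat_lit 196)) (XT.nd (nat_lit 78) (nat_lit 0) (nat_lit 0) (XT.lf (nat_lit 0) (nat_lit 10268815579) (nat_lit 152) (nat_lit 22804457378) (nat_lit 0) (nat_lit 5015126760) (nat_lit 5) (nat_lit 5) (nat_lit 7) (nat_lit 4) (nat_lit 5) (nat_lit 4) (nat_lit 370) (nat_lit 215) (nat_lit 195)) (XT.lf (nat_lit 0) (nat_lit 12979838662) (nat_lit 152) (nat_lit 18629959476) (nat_lit 0) (nat_lit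 7536324847) (nat_lit 5) (nat_lit 5) (nat_lit 7) (nat_lit 4) (nat_lit 5) (nat_lit 4) (nat_lit 371) (nat_lit 215) (nat_lit 194)))) (XT.nd (nat_lit 78) (nat_lit 0) (nat_lit 0) (XT.lf (nat_lit 0) (nat_lit 15730304323) (nat_lit 152) (nat_lit 14404070014) (nat_lit 0) (nat_lit 10102494393) (nat_lit 5) (nat_lit 5) (nat_lit 7) (nat_lit 4) (nat_lit 5) (nat_lit 4) (nat_lit 372) (nat_lit 215) (nat_lit 193)) (XT.nd (nat_lit 78) (nat_lit 0) (nat_lit 0) (XT.lf (nat_lit 0) (nat_lit 18522615880) (nat_lit 152) (nat_lit 10123096468) (nat_lit 0) (nat_lit 12715877684) (nat_lit 5) (nat_lit 5) (nat_lit 7) (nat_lit 4) (nat_lit 5) (nat_lit 4) (nat_lit 373) (nat_lit 215) (nat_lit 192)) (XT.lf (nat_lit 0) (nat_lit 21359213217) (nat_lit 152) (nat_lit 5783298181) (nat_lit 0) (nat_lit 15378758259) (nat_lit 5) (nat_lit 5) (nat_lit 7) (nat_lit 4) (nat_lit 5) (nat_lit 4) (nat_lit 374) (nat_lit 215) (nat_lit 191))))) (XT.nd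 (nat_lit 234) (nat_lit 0) (nat_lit 0) (XT.nd (nat_lit 78) (nat_lit 76) (nat_lit 0) (XT.lf (nat_lit 0) (nat_lit 24242574914) (nat_lit 152) (nat_lit 1380883096) (nat_lit 0) (nat_lit 18093462905) (nat_lit 5) (nat_lit 5) (nat_lit 7) (nat_lit 4) (nat_lit 5) (nat_lit 4) (nat_lit 375) (nat_lit 215) (nat_lit 190)) (XT.nd (nat_lit 78) (nat_lit 0) (nat_lit 0) (XT.lf (nat_lit 0) (nat_lit 3149452721) (nat_lit 76) (nat_lit 24056042159) (nat_lit 76) (nat_lit 17743185440) (nat_lit 4) (nat_lit 4) (nat_lit 5) (nat_lit 5) (nat_lit 5) (nat_lit 4) (nat_lit 376) (nat_lit 215) (nat_lit 189)) (XT.lf (nat_lit 0) (nat_lit 7779039704) (nat_lit 76) (nat_lit 22455449408) (nat_lit 76) (nat_lit 15983617242) (nat_lit 4) (nat_lit 4) (nat_lit 5) (nat_lit 5) (nat_lit 5) (nat_lit 4) (nat_lit 377) (nat_lit 215) (nat_lit 188)))) (XT.nd (nat_lit 78) (nat_lit 0) (nat_lit 0) (XT.lf (nat_lit 0) (nat_lit 12484440840) (nat_lit 76) (nat_lit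 20834225392) (nat_lit 76) (nat_lit 14208048133) (nat_lit 4) (nat_lit 4) (nat_lit 5) (nat_lit 5) (nat_lit 5) (nat_lit 4) (nat_lit 378) (nat_lit 215) (nat_lit 187)) (XT.nd (nat_lit 78) (nat_lit 0) (nat_lit 0) (XT.lf (nat_lit 0) (nat_lit 17269767644) (nat_lit 76) (nat_lit 19190953510) (nat_lit 76) (nat_lit 12414926645) (nat_lit 4) (nat_lit 4) (nat_lit 5) (nat_lit 5) (nat_lit 5) (nat_lit 4) (nat_lit 379) (nat_lit 215) (nat_lit 186)) (XT.lf (nat_lit 0) (nat_lit 22139201470) (nat_lit 76) (nat_lit 17524197891) (nat_lit 76) (nat_lit 10602685972) (nat_lit 4) (nat_lit 4) (nat_lit 5) (nat_lit 5) (nat_lit 5) (nat_lit 4) (nat_lit 380) (nat_lit 215) (nat_lit 185))))))))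
noncomputable def xc16 : XT := (XT.nd (nat_lit 38064) (nat_lit 0) (nat_lit 228) (XT.nd (nat_lit 858) (nat_lit 0) (nat_lit 0) (XT.nd (nat_lit 390) (nat_lit 152) (nat_lit 0) (XT.nd (nat_lit 156) (nat_lit 0) (nat_lit 0) (XT.nd (nat_lit 78) (nat_lit 0) (nat_lit 0) (XT.lf (nat_lit 0) (nat_lit 27096997163) (nat_lit 76) (nat_lit 15832502147) (nat_lit 76) (nat_lit 8769742604) (nat_lit 4) (nat_lit 4) (nat_lit 5) (nat_lit 5) (nat_lit 5) (nat_lit 4) (nat_lit 381) (nat_lit 215) (nat_lit 184)) (XT.lf (nat_lit 0) (nat_lit 32147486778) (nat_lit 76) (nat_lit 14114388099) (nat_lit 76) (nat_lit 6914494938) (nat_lit 4) (nat_lit 4) (nat_lit 5) (nat_lit 5) (nat_lit 5) (nat_lit 4) (nat_lit 382) (nat_lit 215) (nat_lit 183))) (XT.nd (nat_lit 78) (nat_lit 0) (nat_lit 0) (XT.lf (nat_lit 0) (nat_lit 37295083364) (nat_lit 76) (nat_lit 12368354480) (nat_lit 76) (nat_lit 5035321886) (nat_lit 4) (nat_lit 4) (nat_lit 5) (nat_lit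 5) (nat_lit 5) (nat_lit 4) (nat_lit 383) (nat_lit 215) (nat_lit 182)) (XT.nd (nat_lit 78) (nat_lit 0) (nat_lit 0) (XT.lf (nat_lit 0) (nat_lit 42544284820) (nat_lit 76) (nat_lit 10592875631) (nat_lit 76) (nat_lit 3130581451) (nat_lit 4) (nat_lit 4) (nat_lit 5) (nat_lit 5) (nat_lit 5) (nat_lit 4) (nat_lit 384) (nat_lit 215) (nat_lit 181)) (XT.lf (nat_lit 0) (nat_lit 47899677828) (nat_lit 76) (nat_lit 8786400162) (nat_lit 76) (nat_lit 1198609297) (nat_lit 4) (nat_lit 4) (nat_lit 5) (nat_lit 5) (nat_lit 5) (nat_lit 4) (nat_lit 385) (nat_lit 215) (nat_lit 180))))) (XT.nd (nat_lit 234) (nat_lit 0) (nat_lit 0) (XT.nd (nat_lit 78) (nat_lit 76) (nat_lit 0) (XT.lf (nat_lit 0) (nat_lit 747407825) (nat_lit 152) (nat_lit 6192394421) (nat_lit 76) (nat_lit 52610986678) (nat_lit 3) (nat_lit 5) (nat_lit 5) (nat_lit 5) (nat_lit 4) (nat_lit 4) (nat_lit 386) (nat_lit 215) (nat_lit 179)) (XT.nd (nat_lit 78) (nat_lit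 76) (nat_lit 0) (XT.lf (nat_lit 0) (nat_lit 2700071250) (nat_lit 152) (nat_lit 2346780331) (nat_lit 76) (nat_lit 56220516579) (nat_lit 3) (nat_lit 5) (nat_lit 5) (nat_lit 5) (nat_lit 4) (nat_lit 4) (nat_lit 387) (nat_lit 215) (nat_lit 178)) (XT.lf (nat_lit 0) (nat_lit 1597895515) (nat_lit 76) (nat_lit 3101940804) (nat_lit 152) (nat_lit 58335973456) (nat_lit 2) (nat_lit 5) (nat_lit 3) (nat_lit 5) (nat_lit 4) (nat_lit 4) (nat_lit 388) (nat_lit 215) (nat_lit 177)))) (XT.nd (nat_lit 78) (nat_lit 0) (nat_lit 0) (XT.lf (nat_lit 0) (nat_lit 5661996535) (nat_lit 76) (nat_lit 1094787173) (nat_lit 152) (nat_lit 58100625300) (nat_lit 2) (nat_lit 5) (nat_lit 3) (nat_lit 5) (nat_lit 4) (nat_lit 4) (nat_lit 389) (nat_lit 215) (nat_lit 176)) (XT.nd (nat_lit 78) (nat_lit 0) (nat_lit 0) (XT.lf (nat_lit 0) (nat_lit 8858860700) (nat_lit 152) (nat_lit 56941237027) (nat_lit 0) (nat_lit 934075324) (nat_lit 2) (nat_lit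 5) (nat_lit 4) (nat_lit 4) (nat_lit 2) (nat_lit 4) (nat_lit 390) (nat_lit 215) (nat_lit 175)) (XT.lf (nat_lit 0) (nat_lit 11009666795) (nat_lit 152) (nat_lit 54675180987) (nat_lit 0) (nat_lit 2982841129) (nat_lit 2) (nat_lit 5) (nat_lit 4) (nat_lit 4) (nat_lit 2) (nat_lit 4) (nat_lit 391) (nat_lit 215) (nat_lit 174)))))) (XT.nd (nat_lit 390) (nat_lit 0) (nat_lit 0) (XT.nd (nat_lit 156) (nat_lit 0) (nat_lit 0) (XT.nd (nat_lit 78) (nat_lit 0) (nat_lit 0) (XT.lf (nat_lit 0) (nat_lit 13200557575) (nat_lit 152) (nat_lit 52384740541) (nat_lit 0) (nat_lit 5074663667) (nat_lit 2) (nat_lit 5) (nat_lit 4) (nat_lit 4) (nat_lit 2) (nat_lit 4) (nat_lit 392) (nat_lit 215) (nat_lit 173)) (XT.lf (nat_lit 0) (nat_lit 15433447411) (nat_lit 152) (nat_lit 50067914332) (nat_lit 0) (nat_lit 7211370743) (nat_lit 2) (nat_lit 5) (nat_lit 4) (nat_lit 4) (nat_lit 2) (nat_lit 4) (nat_lit 393) (nat_lit 215) (nat_lit 172)))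 (XT.nd (nat_lit 78) (nat_lit 0) (nat_lit 0) (XT.lf (nat_lit 0) (nat_lit 17710287370) (nat_lit 152) (nat_lit 47722677951) (nat_lit 0) (nat_lit 9394829382) (nat_lit 2) (nat_lit 5) (nat_lit 4) (nat_lit 4) (nat_lit 2) (nat_lit 4) (nat_lit 394) (nat_lit 215) (nat_lit 171)) (XT.nd (nat_lit 78) (nat_lit 0) (nat_lit 0) (XT.lf (nat_lit 0) (nat_lit 20033066926) (nat_lit 152) (nat_lit 45346982161) (nat_lit 0) (nat_lit 11626947462) (nat_lit 2) (nat_lit 5) (nat_lit 4) (nat_lit 4) (nat_lit 2) (nat_lit 4) (nat_lit 395) (nat_lit 215) (nat_lit 170)) (XT.lf (nat_lit 0) (nat_lit 22403815691) (nat_lit 152) (nat_lit 42938751111) (nat_lit 0) (nat_lit 13909675377) (nat_lit 2) (nat_lit 5) (nat_lit 4) (nat_lit 4) (nat_lit 2) (nat_lit 4) (nat_lit 396) (nat_lit 215) (nat_lit 169))))) (XT.nd (nat_lit 234) (nat_lit 0) (nat_lit 0) (XT.nd (nat_lit 78) (nat_lit 0) (nat_lit 0) (XT.lf (nat_lit 0) (nat_lit 24824605193) (nat_lit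 152) (nat_lit 40495880522) (nat_lit 0) (nat_lit 16245007743) (nat_lit 2) (nat_lit 5) (nat_lit 4) (nat_lit 4) (nat_lit 2) (nat_lit 4) (nat_lit 397) (nat_lit 215) (nat_lit 168)) (XT.nd (nat_lit 78) (nat_lit 0) (nat_lit 0) (XT.lf (nat_lit 0) (nat_lit 27297550686) (nat_lit 152) (nat_lit 38016235847) (nat_lit 0) (nat_lit 18634985142) (nat_lit 2) (nat_lit 5) (nat_lit 4) (nat_lit 4) (nat_lit 2) (nat_lit 4) (nat_lit 398) (nat_lit 215) (nat_lit 167)) (XT.lf (nat_lit 0) (nat_lit 29824812994) (nat_lit 152) (nat_lit 35497650406) (nat_lit 0) (nat_lit 21081695903) (nat_lit 2) (nat_lit 5) (nat_lit 4) (nat_lit 4) (nat_lit 2) (nat_lit 4) (nat_lit 399) (nat_lit 215) (nat_lit 166)))) (XT.nd (nat_lit 78) (nat_lit 0) (nat_lit 0) (XT.lf (nat_lit 0) (nat_lit 32408600407) (nat_lit 152) (nat_lit 32937923493) (nat_lit 0) (nat_lit 23587277931) (nat_lit 2) (nat_lit 5) (nat_lit 4) (nat_lit 4) (nat_lit 2) (nat_lit 4) (nat_lit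 400) (nat_lit 215) (nat_lit 165)) (XT.nd (nat_lit 78) (nat_lit 0) (nat_lit 0) (XT.lf (nat_lit 0) (nat_lit 35051170602) (nat_lit 152) (nat_lit 30334818453) (nat_lit 0) (nat_lit 26153920567) (nat_lit 2) (nat_lit 5) (nat_lit 4) (nat_lit 4) (nat_lit 2) (nat_lit 4) (nat_lit 401) (nat_lit 215) (nat_lit 164)) (XT.lf (nat_lit 0) (nat_lit 37754832621) (nat_lit 152) (nat_lit 27686060730) (nat_lit 0) (nat_lit 28783866509) (nat_lit 2) (nat_lit 5) (nat_lit 4) (nat_lit 4) (nat_lit 2) (nat_lit 4) (nat_lit 402) (nat_lit 215) (nat_lit 163))))))) (XT.nd (nat_lit 858) (nat_lit 228) (nat_lit 0) (XT.nd (nat_lit 390) (nat_lit 152) (nat_lit 0) (XT.nd (nat_lit 156) (nat_lit 152) (nat_lit 0) (XT.nd (nat_lit 78) (nat_lit 0) (nat_lit 0) (XT.lf (nat_lit 0) (nat_lit 452549586) (nat_lit 152) (nat_lit 9829819951) (nat_lit 0) (nat_lit 452549586) (nat_lit 12) (nat_lit 5) (nat_lit 14) (nat_lit 4) (nat_lit 12) (nat_lit 4) (nat_lit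 348) (nat_lit 216) (nat_lit 216)) (XT.lf (nat_lit 0) (nat_lit 4184593460) (nat_lit 152) (nat_lit 14006749330) (nat_lit 0) (nat_lit 3809957406) (nat_lit 12) (nat_lit 5) (nat_lit 14) (nat_lit 4) (nat_lit 12) (nat_lit 4) (nat_lit 349) (nat_lit 216) (nat_lit 215))) (XT.nd (nat_lit 78) (nat_lit 152) (nat_lit 0) (XT.lf (nat_lit 0) (nat_lit 7492173895) (nat_lit 152) (nat_lit 8304894922) (nat_lit 0) (nat_lit 6753813518) (nat_lit 12) (nat_lit 5) (nat_lit 14) (nat_lit 4) (nat_lit 12) (nat_lit 4) (nat_lit 350) (nat_lit 216) (nat_lit 214)) (XT.nd (nat_lit 78) (nat_lit 152) (nat_lit 0) (XT.lf (nat_lit 0) (nat_lit 10830730598) (nat_lit 152) (nat_lit 2549094476) (nat_lit 0) (nat_lit 9739239809) (nat_lit 12) (nat_lit 5) (nat_lit 14) (nat_lit 4) (nat_lit 12) (nat_lit 4) (nat_lit 351) (nat_lit 216) (nat_lit 213)) (XT.lf (nat_lit 0) (nat_lit 3330674811) (nat_lit 152) (nat_lit 10904522425) (nat_lit 152) (nat_lit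 9470186576) (nat_lit 10) (nat_lit 4) (nat_lit 12) (nat_lit 5) (nat_lit 12) (nat_lit 4) (nat_lit 352) (nat_lit 216) (nat_lit 212))))) (XT.nd (nat_lit 234) (nat_lit 152) (nat_lit 0) (XT.nd (nat_lit 78) (nat_lit 0) (nat_lit 0) (XT.lf (nat_lit 0) (nat_lit 9326507172) (nat_lit 152) (nat_lit 8375616080) (nat_lit 152) (nat_lit 6608420950) (nat_lit 10) (nat_lit 4) (nat_lit 12) (nat_lit 5) (nat_lit 12) (nat_lit 4) (nat_lit 353) (nat_lit 216) (nat_lit 211)) (XT.nd (nat_lit 78) (nat_lit 0) (nat_lit 0) (XT.lf (nat_lit 0) (nat_lit 15392909706) (nat_lit 152) (nat_lit 5816637171) (nat_lit 152) (nat_lit 3726277690) (nat_lit 10) (nat_lit 4) (nat_lit 12) (nat_lit 5) (nat_lit 12) (nat_lit 4) (nat_lit 354) (nat_lit 216) (nat_lit 210)) (XT.lf (nat_lit 0) (nat_lit 21535183153) (nat_lit 152) (nat_lit 3225349697) (nat_lit 152) (nat_lit 821238420) (nat_lit 10) (nat_lit 4) (nat_lit 12) (nat_lit 5) (nat_lit 12) (nat_lit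 4) (nat_lit 355) (nat_lit 216) (nat_lit 209)))) (XT.nd (nat_lit 78) (nat_lit 0) (nat_lit 0) (XT.lf (nat_lit 0) (nat_lit 1519113943) (nat_lit 76) (nat_lit 563565177) (nat_lit 152) (nat_lit 24165223271) (nat_lit 8) (nat_lit 5) (nat_lit 9) (nat_lit 5) (nat_lit 10) (nat_lit 4) (nat_lit 356) (nat_lit 216) (nat_lit 208)) (XT.nd (nat_lit 78) (nat_lit 0) (nat_lit 0) (XT.lf (nat_lit 0) (nat_lit 5059251250) (nat_lit 152) (nat_lit 19732220022) (nat_lit 0) (nat_lit 2142294131) (nat_lit 8) (nat_lit 5) (nat_lit 10) (nat_lit 4) (nat_lit 8) (nat_lit 4) (nat_lit 357) (nat_lit 216) (nat_lit 207)) (XT.lf (nat_lit 0) (nat_lit 8072291644) (nat_lit 152) (nat_lit 14692979044) (nat_lit 0) (nat_lit 4876570118) (nat_lit 8) (nat_lit 5) (nat_lit 10) (nat_lit 4) (nat_lit 8) (nat_lit 4) (nat_lit 358) (nat_lit 216) (nat_lit 206)))))) (XT.nd (nat_lit 468) (nat_lit 152) (nat_lit 0) (XT.nd (nat_lit 234) (nat_lit 0) (nat_lit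 0) (XT.nd (nat_lit 78) (nat_lit 76) (nat_lit 0) (XT.lf (nat_lit 0) (nat_lit 11119015725) (nat_lit 152) (nat_lit 9601244960) (nat_lit 0) (nat_lit 7652649142) (nat_lit 8) (nat_lit 5) (nat_lit 10) (nat_lit 4) (nat_lit 8) (nat_lit 4) (nat_lit 359) (nat_lit 216) (nat_lit 205)) (XT.nd (nat_lit 78) (nat_lit 76) (nat_lit 0) (XT.lf (nat_lit 0) (nat_lit 14202085678) (nat_lit 152) (nat_lit 4452568683) (nat_lit 0) (nat_lit 10472956905) (nat_lit 8) (nat_lit 5) (nat_lit 10) (nat_lit 4) (nat_lit 8) (nat_lit 4) (nat_lit 360) (nat_lit 216) (nat_lit 204)) (XT.lf (nat_lit 0) (nat_lit 772625333) (nat_lit 76) (nat_lit 16558997061) (nat_lit 76) (nat_lit 12574759366) (nat_lit 7) (nat_lit 4) (nat_lit 8) (nat_lit 5) (nat_lit 8) (nat_lit 4) (nat_lit 361) (nat_lit 216) (nat_lit 203)))) (XT.nd (nat_lit 78) (nat_lit 0) (nat_lit 0) (XT.lf (nat_lit 0) (nat_lit 6153741165) (nat_lit 76) (nat_lit 14393485450) (nat_lit 76) (nat_lit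 10161569189) (nat_lit 7) (nat_lit 4) (nat_lit 8) (nat_lit 5) (nat_lit 8) (nat_lit 4) (nat_lit 362) (nat_lit 216) (nat_lit 202)) (XT.nd (nat_lit 78) (nat_lit 0) (nat_lit 0) (XT.lf (nat_lit 0) (nat_lit 11606865910) (nat_lit 76) (nat_lit 12201189545) (nat_lit 76) (nat_lit 7728808657) (nat_lit 7) (nat_lit 4) (nat_lit 8) (nat_lit 5) (nat_lit 8) (nat_lit 4) (nat_lit 363) (nat_lit 216) (nat_lit 201)) (XT.lf (nat_lit 0) (nat_lit 17136764436) (nat_lit 76) (nat_lit 9980193750) (nat_lit 76) (nat_lit 5274352059) (nat_lit 7) (nat_lit 4) (nat_lit 8) (nat_lit 5) (nat_lit 8) (nat_lit 4) (nat_lit 364) (nat_lit 216) (nat_lit 200))))) (XT.nd (nat_lit 234) (nat_lit 76) (nat_lit 0) (XT.nd (nat_lit 78) (nat_lit 76) (nat_lit 0) (XT.lf (nat_lit 0) (nat_lit 22748268692) (nat_lit 76) (nat_lit 7728557387) (nat_lit 76) (nat_lit 2796054722) (nat_lit 7) (nat_lit 4) (nat_lit 8) (nat_lit 5) (nat_lit 8) (nat_lit 4) (nat_lit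 365) (nat_lit 216) (nat_lit 199)) (XT.nd (nat_lit 78) (nat_lit 76) (nat_lit 0) (XT.lf (nat_lit 0) (nat_lit 28446281935) (nat_lit 76) (nat_lit 5444313007) (nat_lit 76) (nat_lit 291751145) (nat_lit 7) (nat_lit 4) (nat_lit 8) (nat_lit 5) (nat_lit 8) (nat_lit 4) (nat_lit 366) (nat_lit 216) (nat_lit 198)) (XT.lf (nat_lit 0) (nat_lit 2197021855) (nat_lit 152) (nat_lit 906257202) (nat_lit 76) (nat_lit 32016575542) (nat_lit 6) (nat_lit 5) (nat_lit 8) (nat_lit 5) (nat_lit 7) (nat_lit 4) (nat_lit 367) (nat_lit 216) (nat_lit 197)))) (XT.nd (nat_lit 78) (nat_lit 0) (nat_lit 0) (XT.lf (nat_lit 0) (nat_lit 4066849308) (nat_lit 76) (nat_lit 682159448) (nat_lit 152) (nat_lit 31336597812) (nat_lit 5) (nat_lit 5) (nat_lit 6) (nat_lit 5) (nat_lit 7) (nat_lit 4) (nat_lit 368) (nat_lit 216) (nat_lit 196)) (XT.nd (nat_lit 78) (nat_lit 0) (nat_lit 0) (XT.lf (nat_lit 0) (nat_lit 7359772340) (nat_lit 152) (nat_lit 27968175352)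 (nat_lit 0) (nat_lit 1752953109) (nat_lit 5) (nat_lit 5) (nat_lit 7) (nat_lit 4) (nat_lit 5) (nat_lit 4) (nat_lit 369) (nat_lit 216) (nat_lit 195)) (XT.lf (nat_lit 0) (nat_lit 10012468126) (nat_lit 152) (nat_lit 23878888719) (nat_lit 0) (nat_lit 4215823898) (nat_lit 5) (nat_lit 5) (nat_lit 7) (nat_lit 4) (nat_lit 5) (nat_lit 4) (nat_lit 370) (nat_lit 216) (nat_lit 194))))))))
noncomputable def xc17 : XT := (XT.nd (nat_lit 1716) (nat_lit 0) (nat_lit 0) (XT.nd (nat_lit 858) (nat_lit 152) (nat_lit 0) (XT.nd (nat_lit 390) (nat_lit 76) (nat_lit 0) (XT.nd (nat_lit 156) (nat_lit 0) (nat_lit 0) (XT.nd (nat_lit 78) (nat_lit 0) (nat_lit 0) (XT.lf (nat_lit 0) (nat_lit 12702856669) (nat_lit 152) (nat_lit 19740766864) (nat_lit 0) (nat_lit 6721916328) (nat_lit 5) (nat_lit 5) (nat_lit 7) (nat_lit 4) (nat_lit 5) (nat_lit 4) (nat_lit 371) (nat_lit 216) (nat_lit 193)) (XT.lf (nat_lit 0) (nat_lit 15433288796)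 (nat_lit 152) (nat_lit 15550193954) (nat_lit 0) (nat_lit 9273420189) (nat_lit 5) (nat_lit 5) (nat_lit 7) (nat_lit 4) (nat_lit 5) (nat_lit 4) (nat_lit 372) (nat_lit 216) (nat_lit 192))) (XT.nd (nat_lit 78) (nat_lit 0) (nat_lit 0) (XT.lf (nat_lit 0) (nat_lit 18206150320) (nat_lit 152) (nat_lit 11303508322) (nat_lit 0) (nat_lit 11872564951) (nat_lit 5) (nat_lit 5) (nat_lit 7) (nat_lit 4) (nat_lit 5) (nat_lit 4) (nat_lit 373) (nat_lit 216) (nat_lit 191)) (XT.nd (nat_lit 78) (nat_lit 0) (nat_lit 0) (XT.lf (nat_lit 0) (nat_lit 21023864130) (nat_lit 152) (nat_lit 6996999272) (nat_lit 0) (nat_lit 14521621710) (nat_lit 5) (nat_lit 5) (nat_lit 7) (nat_lit 4) (nat_lit 5) (nat_lit 4) (nat_lit 374) (nat_lit 216) (nat_lit 190)) (XT.lf (nat_lit 0) (nat_lit 23888892307) (nat_lit 152) (nat_lit 2626903835) (nat_lit 0) (nat_lit 17222905176) (nat_lit 5) (nat_lit 5) (nat_lit 7) (nat_lit 4) (nat_lit 5) (nat_lit 4)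 (nat_lit 375) (nat_lit 216) (nat_lit 189))))) (XT.nd (nat_lit 234) (nat_lit 0) (nat_lit 0) (XT.nd (nat_lit 78) (nat_lit 0) (nat_lit 0) (XT.lf (nat_lit 0) (nat_lit 1846630938) (nat_lit 76) (nat_lit 24974858280) (nat_lit 76) (nat_lit 18149895703) (nat_lit 4) (nat_lit 4) (nat_lit 5) (nat_lit 5) (nat_lit 5) (nat_lit 4) (nat_lit 376) (nat_lit 216) (nat_lit 188)) (XT.nd (nat_lit 78) (nat_lit 0) (nat_lit 0) (XT.lf (nat_lit 0) (nat_lit 6445147253) (nat_lit 76) (nat_lit 23387756424) (nat_lit 76) (nat_lit 16408448754) (nat_lit 4) (nat_lit 4) (nat_lit 5) (nat_lit 5) (nat_lit 5) (nat_lit 4) (nat_lit 377) (nat_lit 216) (nat_lit 187)) (XT.lf (nat_lit 0) (nat_lit 11120382691) (nat_lit 76) (nat_lit 21779630366) (nat_lit 76) (nat_lit 14650473090) (nat_lit 4) (nat_lit 4) (nat_lit 5) (nat_lit 5) (nat_lit 5) (nat_lit 4) (nat_lit 378) (nat_lit 216) (nat_lit 186)))) (XT.nd (nat_lit 78) (nat_lit 0) (nat_lit 0) (XT.lf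 (nat_lit 0) (nat_lit 15876422411) (nat_lit 76) (nat_lit 20149074946) (nat_lit 76) (nat_lit 12874432616) (nat_lit 4) (nat_lit 4) (nat_lit 5) (nat_lit 5) (nat_lit 5) (nat_lit 4) (nat_lit 379) (nat_lit 216) (nat_lit 185)) (XT.nd (nat_lit 78) (nat_lit 0) (nat_lit 0) (XT.lf (nat_lit 0) (nat_lit 20717422174) (nat_lit 76) (nat_lit 18494665408) (nat_lit 76) (nat_lit 11078775453) (nat_lit 4) (nat_lit 4) (nat_lit 5) (nat_lit 5) (nat_lit 5) (nat_lit 4) (nat_lit 380) (nat_lit 216) (nat_lit 184)) (XT.lf (nat_lit 0) (nat_lit 25647611981) (nat_lit 76) (nat_lit 16814956151) (nat_lit 76) (nat_lit 9261932579) (nat_lit 4) (nat_lit 4) (nat_lit 5) (nat_lit 5) (nat_lit 5) (nat_lit 4) (nat_lit 381) (nat_lit 216) (nat_lit 183)))))) (XT.nd (nat_lit 390) (nat_lit 76) (nat_lit 0) (XT.nd (nat_lit 156) (nat_lit 76) (nat_lit 0) (XT.nd (nat_lit 78) (nat_lit 0) (nat_lit 0) (XT.lf (nat_lit 0) (nat_lit 30671299764) (nat_lit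 76) (nat_lit 15108479467) (nat_lit 76) (nat_lit 7422316462) (nat_lit 4) (nat_lit 4) (nat_lit 5) (nat_lit 5) (nat_lit 5) (nat_lit 4) (nat_lit 382) (nat_lit 216) (nat_lit 182)) (XT.lf (nat_lit 0) (nat_lit 35792875154) (nat_lit 76) (nat_lit 13373744262) (nat_lit 76) (nat_lit 5558319670) (nat_lit 4) (nat_lit 4) (nat_lit 5) (nat_lit 5) (nat_lit 5) (nat_lit 4) (nat_lit 383) (nat_lit 216) (nat_lit 181))) (XT.nd (nat_lit 78) (nat_lit 76) (nat_lit 0) (XT.lf (nat_lit 0) (nat_lit 41016813314) (nat_lit 76) (nat_lit 11609234746) (nat_lit 76) (nat_lit 3668313469) (nat_lit 4) (nat_lit 4) (nat_lit 5) (nat_lit 5) (nat_lit 5) (nat_lit 4) (nat_lit 384) (nat_lit 216) (nat_lit 180)) (XT.nd (nat_lit 78) (nat_lit 76) (nat_lit 0) (XT.lf (nat_lit 0) (nat_lit 46347678850) (nat_lit 76) (nat_lit 9813409115) (nat_lit 76) (nat_lit 1750646395) (nat_lit 4) (nat_lit 4) (nat_lit 5) (nat_lit 5) (nat_lit 5) (nat_lit 4) (nat_lit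 385) (nat_lit 216) (nat_lit 179)) (XT.lf (nat_lit 0) (nat_lit 192525544) (nat_lit 152) (nat_lit 7790228526) (nat_lit 76) (nat_lit 51595660124) (nat_lit 3) (nat_lit 5) (nat_lit 5) (nat_lit 5) (nat_lit 4) (nat_lit 4) (nat_lit 386) (nat_lit 216) (nat_lit 178))))) (XT.nd (nat_lit 234) (nat_lit 0) (nat_lit 0) (XT.nd (nat_lit 78) (nat_lit 76) (nat_lit 0) (XT.lf (nat_lit 0) (nat_lit 2131968177) (nat_lit 152) (nat_lit 3968007226) (nat_lit 76) (nat_lit 55195424825) (nat_lit 3) (nat_lit 5) (nat_lit 5) (nat_lit 5) (nat_lit 4) (nat_lit 4) (nat_lit 387) (nat_lit 216) (nat_lit 177)) (XT.nd (nat_lit 78) (nat_lit 76) (nat_lit 0) (XT.lf (nat_lit 0) (nat_lit 4103537578) (nat_lit 152) (nat_lit 77223521) (nat_lit 76) (nat_lit 58883936491) (nat_lit 3) (nat_lit 5) (nat_lit 5) (nat_lit 5) (nat_lit 4) (nat_lit 4) (nat_lit 388) (nat_lit 216) (nat_lit 176)) (XT.lf (nat_lit 0) (nat_lit 3962851815) (nat_lit 76) (nat_lit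 2184198019) (nat_lit 152) (nat_lit 58739659634) (nat_lit 2) (nat_lit 5) (nat_lit 3) (nat_lit 5) (nat_lit 4) (nat_lit 4) (nat_lit 389) (nat_lit 216) (nat_lit 175)))) (XT.nd (nat_lit 78) (nat_lit 0) (nat_lit 0) (XT.lf (nat_lit 0) (nat_lit 8081389863) (nat_lit 76) (nat_lit 146270585) (nat_lit 152) (nat_lit 58536466364) (nat_lit 2) (nat_lit 5) (nat_lit 3) (nat_lit 5) (nat_lit 4) (nat_lit 4) (nat_lit 390) (nat_lit 216) (nat_lit 174)) (XT.nd (nat_lit 78) (nat_lit 0) (nat_lit 0) (XT.lf (nat_lit 0) (nat_lit 10365021339) (nat_lit 152) (nat_lit 56436751358) (nat_lit 0) (nat_lit 1896282371) (nat_lit 2) (nat_lit 5) (nat_lit 4) (nat_lit 4) (nat_lit 2) (nat_lit 4) (nat_lit 391) (nat_lit 216) (nat_lit 173)) (XT.lf (nat_lit 0) (nat_lit 12544223613) (nat_lit 152) (nat_lit 54167161873) (nat_lit 0) (nat_lit 3979301885) (nat_lit 2) (nat_lit 5) (nat_lit 4) (nat_lit 4) (nat_lit 2) (nat_lit 4) (nat_lit 392) (nat_lit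 216) (nat_lit 172))))))) (XT.nd (nat_lit 37050) (nat_lit 0) (nat_lit 456) (XT.nd (nat_lit 390) (nat_lit 0) (nat_lit 0) (XT.nd (nat_lit 156) (nat_lit 0) (nat_lit 0) (XT.nd (nat_lit 78) (nat_lit 0) (nat_lit 0) (XT.lf (nat_lit 0) (nat_lit 14765765384) (nat_lit 152) (nat_lit 51870579316) (nat_lit 0) (nat_lit 6107462336) (nat_lit 2) (nat_lit 5) (nat_lit 4) (nat_lit 4) (nat_lit 2) (nat_lit 4) (nat_lit 393) (nat_lit 216) (nat_lit 171)) (XT.lf (nat_lit 0) (nat_lit 17031587805) (nat_lit 152) (nat_lit 49544996966) (nat_lit 0) (nat_lit 8282623281) (nat_lit 2) (nat_lit 5) (nat_lit 4) (nat_lit 4) (nat_lit 2) (nat_lit 4) (nat_lit 394) (nat_lit 216) (nat_lit 170))) (XT.nd (nat_lit 78) (nat_lit 0) (nat_lit 0) (XT.lf (nat_lit 0) (nat_lit 19343670722) (nat_lit 152) (nat_lit 47188382759) (nat_lit 0) (nat_lit 10506685348) (nat_lit 2) (nat_lit 5) (nat_lit 4) (nat_lit 4) (nat_lit 2) (nat_lit 4) (nat_lit 395) (nat_lit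 216) (nat_lit 169)) (XT.nd (nat_lit 78) (nat_lit 0) (nat_lit 0) (XT.lf (nat_lit 0) (nat_lit 21704034400) (nat_lit 152) (nat_lit 44798677518) (nat_lit 0) (nat_lit 12781591890) (nat_lit 2) (nat_lit 5) (nat_lit 4) (nat_lit 4) (nat_lit 2) (nat_lit 4) (nat_lit 396) (nat_lit 216) (nat_lit 168)) (XT.lf (nat_lit 0) (nat_lit 24114741294) (nat_lit 152) (nat_lit 42373793151) (nat_lit 0) (nat_lit 15109330690) (nat_lit 2) (nat_lit 5) (nat_lit 4) (nat_lit 4) (nat_lit 2) (nat_lit 4) (nat_lit 397) (nat_lit 216) (nat_lit 167))))) (XT.nd (nat_lit 234) (nat_lit 0) (nat_lit 0) (XT.nd (nat_lit 78) (nat_lit 0) (nat_lit 0) (XT.lf (nat_lit 0) (nat_lit 26577897846) (nat_lit 152) (nat_lit 39911610828) (nat_lit 0) (nat_lit 17491935696) (nat_lit 2) (nat_lit 5) (nat_lit 4) (nat_lit 4) (nat_lit 2) (nat_lit 4) (nat_lit 398) (nat_lit 216) (nat_lit 166)) (XT.nd (nat_lit 78) (nat_lit 0) (nat_lit 0) (XT.lf (nat_lit 0) (nat_lit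 29095656330) (nat_lit 152) (nat_lit 37409979126) (nat_lit 0) (nat_lit 19931488794) (nat_lit 2) (nat_lit 5) (nat_lit 4) (nat_lit 4) (nat_lit 2) (nat_lit 4) (nat_lit 399) (nat_lit 216) (nat_lit 165)) (XT.lf (nat_lit 0) (nat_lit 31670216727) (nat_lit 152) (nat_lit 34866712155) (nat_lit 0) (nat_lit 22430121633) (nat_lit 2) (nat_lit 5) (nat_lit 4) (nat_lit 4) (nat_lit 2) (nat_lit 4) (nat_lit 400) (nat_lit 216) (nat_lit 164)))) (XT.nd (nat_lit 78) (nat_lit 0) (nat_lit 0) (XT.lf (nat_lit 0) (nat_lit 34303828655) (nat_lit 152) (nat_lit 32279587641) (nat_lit 0) (nat_lit 24990017484) (nat_lit 2) (nat_lit 5) (nat_lit 4) (nat_lit 4) (nat_lit 2) (nat_lit 4) (nat_lit 401) (nat_lit 216) (nat_lit 163)) (XT.nd (nat_lit 36270) (nat_lit 0) (nat_lit 912) (XT.lf (nat_lit 0) (nat_lit 36998793328) (nat_lit 152) (nat_lit 29646344991) (nat_lit 0) (nat_lit 27613413151) (nat_lit 2) (nat_lit 5) (nat_lit 4) (nat_lit 4)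 (nat_lit 2) (nat_lit 4) (nat_lit 402) (nat_lit 216) (nat_lit 162)) (XT.lf (nat_lit 0) (nat_lit 5118273388) (nat_lit 152) (nat_lit 2553942066) (nat_lit 152) (nat_lit 2553942066) (nat_lit 14) (nat_lit 4) (nat_lit 16) (nat_lit 5) (nat_lit 16) (nat_lit 4) (nat_lit 346) (nat_lit 217) (nat_lit 217)))))) (XT.nd (nat_lit 468) (nat_lit 152) (nat_lit 0) (XT.nd (nat_lit 234) (nat_lit 152) (nat_lit 0) (XT.nd (nat_lit 78) (nat_lit 152) (nat_lit 0) (XT.lf (nat_lit 0) (nat_lit 16683337501) (nat_lit 152) (nat_lit 2333823093) (nat_lit 152) (nat_lit 1936371703) (nat_lit 14) (nat_lit 4) (nat_lit 16) (nat_lit 5) (nat_lit 16) (nat_lit 4) (nat_lit 347) (nat_lit 217) (nat_lit 216)) (XT.nd (nat_lit 78) (nat_lit 0) (nat_lit 0) (XT.lf (nat_lit 0) (nat_lit 1255305519) (nat_lit 152) (nat_lit 19720842646) (nat_lit 0) (nat_lit 494794330) (nat_lit 12) (nat_lit 5) (nat_lit 14) (nat_lit 4) (nat_lit 12) (nat_lit 4) (nat_lit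 348) (nat_lit 217) (nat_lit 215)) (XT.lf (nat_lit 0) (nat_lit 4500169914) (nat_lit 152) (nat_lit 14127372212) (nat_lit 0) (nat_lit 3375934402) (nat_lit 12) (nat_lit 5) (nat_lit 14) (nat_lit 4) (nat_lit 12) (nat_lit 4) (nat_lit 349) (nat_lit 217) (nat_lit 214)))) (XT.nd (nat_lit 78) (nat_lit 152) (nat_lit 0) (XT.lf (nat_lit 0) (nat_lit 7774129095) (nat_lit 152) (nat_lit 8483207259) (nat_lit 0) (nat_lit 6296763172) (nat_lit 12) (nat_lit 5) (nat_lit 14) (nat_lit 4) (nat_lit 12) (nat_lit 4) (nat_lit 350) (nat_lit 217) (nat_lit 213)) (XT.nd (nat_lit 78) (nat_lit 152) (nat_lit 0) (XT.lf (nat_lit 0) (nat_lit 11080043803) (nat_lit 152) (nat_lit 2783415992) (nat_lit 0) (nat_lit 9259832820) (nat_lit 12) (nat_lit 5) (nat_lit 14) (nat_lit 4) (nat_lit 12) (nat_lit 4) (nat_lit 351) (nat_lit 217) (nat_lit 212)) (XT.lf (nat_lit 0) (nat_lit 3036229767) (nat_lit 152) (nat_lit 11413759032) (nat_lit 152) (nat_lit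 9260688767) (nat_lit 10) (nat_lit 4) (nat_lit 12) (nat_lit 5) (nat_lit 12) (nat_lit 4) (nat_lit 352) (nat_lit 217) (nat_lit 211))))) (XT.nd (nat_lit 234) (nat_lit 152) (nat_lit 0) (XT.nd (nat_lit 78) (nat_lit 0) (nat_lit 0) (XT.lf (nat_lit 0) (nat_lit 8978217400) (nat_lit 152) (nat_lit 8907411616) (nat_lit 152) (nat_lit 6431177000) (nat_lit 10) (nat_lit 4) (nat_lit 12) (nat_lit 5) (nat_lit 12) (nat_lit 4) (nat_lit 353) (nat_lit 217) (nat_lit 210)) (XT.nd (nat_lit 78) (nat_lit 0) (nat_lit 0) (XT.lf (nat_lit 0) (nat_lit 14992343499) (nat_lit 152) (nat_lit 6370334580) (nat_lit 152) (nat_lit 3580348168) (nat_lit 10) (nat_lit 4) (nat_lit 12) (nat_lit 5) (nat_lit 12) (nat_lit 4) (nat_lit 354) (nat_lit 217) (nat_lit 209)) (XT.lf (nat_lit 0) (nat_lit 21083863126) (nat_lit 152) (nat_lit 3800311060) (nat_lit 152) (nat_lit 705711253) (nat_lit 10) (nat_lit 4) (nat_lit 12) (nat_lit 5) (nat_lit 12) (nat_lit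 4) (nat_lit 355) (nat_lit 217) (nat_lit 208)))) (XT.nd (nat_lit 78) (nat_lit 0) (nat_lit 0) (XT.lf (nat_lit 0) (nat_lit 998533088) (nat_lit 76) (nat_lit 1163473835) (nat_lit 152) (nat_lit 24095020871) (nat_lit 8) (nat_lit 5) (nat_lit 9) (nat_lit 5) (nat_lit 10) (nat_lit 4) (nat_lit 356) (nat_lit 217) (nat_lit 207)) (XT.nd (nat_lit 78) (nat_lit 0) (nat_lit 0) (XT.lf (nat_lit 0) (nat_lit 5104039580) (nat_lit 152) (nat_lit 20306230846) (nat_lit 0) (nat_lit 1533682000) (nat_lit 8) (nat_lit 5) (nat_lit 10) (nat_lit 4) (nat_lit 8) (nat_lit 4) (nat_lit 357) (nat_lit 217) (nat_lit 206)) (XT.lf (nat_lit 0) (nat_lit 8089145232) (nat_lit 152) (nat_lit 15315602737) (nat_lit 0) (nat_lit 4248142596) (nat_lit 8) (nat_lit 5) (nat_lit 10) (nat_lit 4) (nat_lit 8) (nat_lit 4) (nat_lit 358) (nat_lit 217) (nat_lit 205))))))))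
noncomputable def xc18 : XT := (XT.nd (nat_lit 1716) (nat_lit 152) (nat_lit 0) (XT.nd (nat_lit 858) (nat_lit 76) (nat_lit 0) (XT.nd (nat_lit 390) (nat_lit 152) (nat_lit 0) (XT.nd (nat_lit 156) (nat_lit 76) (nat_lit 0) (XT.nd (nat_lit 78) (nat_lit 0) (nat_lit 0) (XT.lf (nat_lit 0) (nat_lit 11108748205) (nat_lit 152) (nat_lit 10271065613) (nat_lit 0) (nat_lit 7004983378) (nat_lit 8) (nat_lit 5) (nat_lit 10) (nat_lit 4) (nat_lit 8) (nat_lit 4) (nat_lit 359) (nat_lit 217) (nat_lit 204)) (XT.lf (nat_lit 0) (nat_lit 14165486984) (nat_lit 152) (nat_lit 5168211628) (nat_lit 0) (nat_lit 9806613235) (nat_lit 8) (nat_lit 5) (nat_lit 10) (nat_lit 4) (nat_lit 8) (nat_lit 4) (nat_lit 360) (nat_lit 217) (nat_lit 203))) (XT.nd (nat_lit 78) (nat_lit 76) (nat_lit 0) (XT.lf (nat_lit 0) (nat_lit 17262032507) (nat_lit 152) (nat_lit 2581976) (nat_lit 0) (nat_lit 12655480193) (nat_lit 8) (nat_lit 5) (nat_lit 10) (nat_lit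 4) (nat_lit 8) (nat_lit 4) (nat_lit 361) (nat_lit 217) (nat_lit 202)) (XT.nd (nat_lit 78) (nat_lit 0) (nat_lit 0) (XT.lf (nat_lit 0) (nat_lit 5334430961) (nat_lit 76) (nat_lit 15117937347) (nat_lit 76) (nat_lit 10270920405) (nat_lit 7) (nat_lit 4) (nat_lit 8) (nat_lit 5) (nat_lit 8) (nat_lit 4) (nat_lit 362) (nat_lit 217) (nat_lit 201)) (XT.lf (nat_lit 0) (nat_lit 10744787252) (nat_lit 76) (nat_lit 12943902026) (nat_lit 76) (nat_lit 7863424282) (nat_lit 7) (nat_lit 4) (nat_lit 8) (nat_lit 5) (nat_lit 8) (nat_lit 4) (nat_lit 363) (nat_lit 217) (nat_lit 200))))) (XT.nd (nat_lit 234) (nat_lit 152) (nat_lit 0) (XT.nd (nat_lit 78) (nat_lit 0) (nat_lit 0) (XT.lf (nat_lit 0) (nat_lit 16233163007) (nat_lit 76) (nat_lit 10740634953) (nat_lit 76) (nat_lit 5433496235) (nat_lit 7) (nat_lit 4) (nat_lit 8) (nat_lit 5) (nat_lit 8) (nat_lit 4) (nat_lit 364) (nat_lit 217) (nat_lit 199)) (XT.nd (nat_lit 78) (nat_lit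 0) (nat_lit 0) (XT.lf (nat_lit 0) (nat_lit 21804353893) (nat_lit 76) (nat_lit 8506210942) (nat_lit 76) (nat_lit 2979013027) (nat_lit 7) (nat_lit 4) (nat_lit 8) (nat_lit 5) (nat_lit 8) (nat_lit 4) (nat_lit 365) (nat_lit 217) (nat_lit 198)) (XT.lf (nat_lit 0) (nat_lit 27463227941) (nat_lit 76) (nat_lit 6238677584) (nat_lit 76) (nat_lit 497829962) (nat_lit 7) (nat_lit 4) (nat_lit 8) (nat_lit 5) (nat_lit 8) (nat_lit 4) (nat_lit 366) (nat_lit 217) (nat_lit 197)))) (XT.nd (nat_lit 78) (nat_lit 76) (nat_lit 0) (XT.lf (nat_lit 0) (nat_lit 1972955302) (nat_lit 152) (nat_lit 1943175256) (nat_lit 76) (nat_lit 31221851516) (nat_lit 6) (nat_lit 5) (nat_lit 8) (nat_lit 5) (nat_lit 7) (nat_lit 4) (nat_lit 367) (nat_lit 217) (nat_lit 196)) (XT.nd (nat_lit 78) (nat_lit 0) (nat_lit 0) (XT.lf (nat_lit 0) (nat_lit 2971215950) (nat_lit 76) (nat_lit 1521826320) (nat_lit 152) (nat_lit 31611666612) (nat_lit 5) (nat_lit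 5) (nat_lit 6) (nat_lit 5) (nat_lit 7) (nat_lit 4) (nat_lit 368) (nat_lit 217) (nat_lit 195)) (XT.lf (nat_lit 0) (nat_lit 7074480887) (nat_lit 152) (nat_lit 29112306962) (nat_lit 0) (nat_lit 914112336) (nat_lit 5) (nat_lit 5) (nat_lit 7) (nat_lit 4) (nat_lit 5) (nat_lit 4) (nat_lit 369) (nat_lit 217) (nat_lit 194)))))) (XT.nd (nat_lit 390) (nat_lit 76) (nat_lit 0) (XT.nd (nat_lit 156) (nat_lit 0) (nat_lit 0) (XT.nd (nat_lit 78) (nat_lit 0) (nat_lit 0) (XT.lf (nat_lit 0) (nat_lit 9706542133) (nat_lit 152) (nat_lit 25059396377) (nat_lit 0) (nat_lit 3361877468) (nat_lit 5) (nat_lit 5) (nat_lit 7) (nat_lit 4) (nat_lit 5) (nat_lit 4) (nat_lit 370) (nat_lit 217) (nat_lit 193)) (XT.lf (nat_lit 0) (nat_lit 12376897143) (nat_lit 152) (nat_lit 20956591074) (nat_lit 0) (nat_lit 5853304213) (nat_lit 5) (nat_lit 5) (nat_lit 7) (nat_lit 4) (nat_lit 5) (nat_lit 4) (nat_lit 371) (nat_lit 217) (nat_lit 192)))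 (XT.nd (nat_lit 78) (nat_lit 0) (nat_lit 0) (XT.lf (nat_lit 0) (nat_lit 15087879237) (nat_lit 152) (nat_lit 16800306078) (nat_lit 0) (nat_lit 8390569544) (nat_lit 5) (nat_lit 5) (nat_lit 7) (nat_lit 4) (nat_lit 5) (nat_lit 4) (nat_lit 372) (nat_lit 217) (nat_lit 191)) (XT.nd (nat_lit 78) (nat_lit 0) (nat_lit 0) (XT.lf (nat_lit 0) (nat_lit 17841857234) (nat_lit 152) (nat_lit 12586909683) (nat_lit 0) (nat_lit 10975890490) (nat_lit 5) (nat_lit 5) (nat_lit 7) (nat_lit 4) (nat_lit 5) (nat_lit 4) (nat_lit 373) (nat_lit 217) (nat_lit 190)) (XT.lf (nat_lit 0) (nat_lit 20641237523) (nat_lit 152) (nat_lit 8312720281) (nat_lit 0) (nat_lit 13611526069) (nat_lit 5) (nat_lit 5) (nat_lit 7) (nat_lit 4) (nat_lit 5) (nat_lit 4) (nat_lit 374) (nat_lit 217) (nat_lit 189))))) (XT.nd (nat_lit 234) (nat_lit 0) (nat_lit 0) (XT.nd (nat_lit 78) (nat_lit 76) (nat_lit 0) (XT.lf (nat_lit 0) (nat_lit 23488466165) (nat_lit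 152) (nat_lit 3974003143) (nat_lit 0) (nat_lit 16299779264) (nat_lit 5) (nat_lit 5) (nat_lit 7) (nat_lit 4) (nat_lit 5) (nat_lit 4) (nat_lit 375) (nat_lit 217) (nat_lit 188)) (XT.nd (nat_lit 78) (nat_lit 0) (nat_lit 0) (XT.lf (nat_lit 0) (nat_lit 441651045) (nat_lit 76) (nat_lit 25948625402) (nat_lit 76) (nat_lit 18605593408) (nat_lit 4) (nat_lit 4) (nat_lit 5) (nat_lit 5) (nat_lit 5) (nat_lit 4) (nat_lit 376) (nat_lit 217) (nat_lit 187)) (XT.lf (nat_lit 0) (nat_lit 5010001662) (nat_lit 76) (nat_lit 24374621504) (nat_lit 76) (nat_lit 16881739904) (nat_lit 4) (nat_lit 4) (nat_lit 5) (nat_lit 5) (nat_lit 5) (nat_lit 4) (nat_lit 377) (nat_lit 217) (nat_lit 186)))) (XT.nd (nat_lit 78) (nat_lit 0) (nat_lit 0) (XT.lf (nat_lit 0) (nat_lit 9655950016) (nat_lit 76) (nat_lit 22779211909) (nat_lit 76) (nat_lit 15140845255) (nat_lit 4) (nat_lit 4) (nat_lit 5) (nat_lit 5) (nat_lit 5) (nat_lit 4) (nat_lit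 378) (nat_lit 217) (nat_lit 185)) (XT.nd (nat_lit 78) (nat_lit 0) (nat_lit 0) (XT.lf (nat_lit 0) (nat_lit 14383555672) (nat_lit 76) (nat_lit 21161002570) (nat_lit 76) (nat_lit 13381388291) (nat_lit 4) (nat_lit 4) (nat_lit 5) (nat_lit 5) (nat_lit 5) (nat_lit 4) (nat_lit 379) (nat_lit 217) (nat_lit 184)) (XT.lf (nat_lit 0) (nat_lit 19196949549) (nat_lit 76) (nat_lit 19518579518) (nat_lit 76) (nat_lit 11601831623) (nat_lit 4) (nat_lit 4) (nat_lit 5) (nat_lit 5) (nat_lit 5) (nat_lit 4) (nat_lit 380) (nat_lit 217) (nat_lit 183))))))) (XT.nd (nat_lit 858) (nat_lit 0) (nat_lit 0) (XT.nd (nat_lit 390) (nat_lit 152) (nat_lit 0) (XT.nd (nat_lit 156) (nat_lit 0) (nat_lit 0) (XT.nd (nat_lit 78) (nat_lit 0) (nat_lit 0) (XT.lf (nat_lit 0) (nat_lit 24100337525) (nat_lit 76) (nat_lit 17850507626) (nat_lit 76) (nat_lit 9800620297) (nat_lit 4) (nat_lit 4) (nat_lit 5) (nat_lit 5) (nat_lit 5) (nat_lit 4) (nat_lit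 381) (nat_lit 217) (nat_lit 182)) (XT.lf (nat_lit 0) (nat_lit 29098004113) (nat_lit 76) (nat_lit 16155329356) (nat_lit 76) (nat_lit 7976180440) (nat_lit 4) (nat_lit 4) (nat_lit 5) (nat_lit 5) (nat_lit 5) (nat_lit 4) (nat_lit 382) (nat_lit 217) (nat_lit 181))) (XT.nd (nat_lit 78) (nat_lit 0) (nat_lit 0) (XT.lf (nat_lit 0) (nat_lit 34194316206) (nat_lit 76) (nat_lit 14431563483) (nat_lit 76) (nat_lit 6126917882) (nat_lit 4) (nat_lit 4) (nat_lit 5) (nat_lit 5) (nat_lit 5) (nat_lit 4) (nat_lit 383) (nat_lit 217) (nat_lit 180)) (XT.nd (nat_lit 78) (nat_lit 0) (nat_lit 0) (XT.lf (nat_lit 0) (nat_lit 39393726894) (nat_lit 76) (nat_lit 12677703804) (nat_lit 76) (nat_lit 4251216761) (nat_lit 4) (nat_lit 4) (nat_lit 5) (nat_lit 5) (nat_lit 5) (nat_lit 4) (nat_lit 384) (nat_lit 217) (nat_lit 179)) (XT.lf (nat_lit 0) (nat_lit 44700779349) (nat_lit 76) (nat_lit 10892217822) (nat_lit 76) (nat_lit 2347438116)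 (nat_lit 4) (nat_lit 4) (nat_lit 5) (nat_lit 5) (nat_lit 5) (nat_lit 4) (nat_lit 385) (nat_lit 217) (nat_lit 178))))) (XT.nd (nat_lit 234) (nat_lit 76) (nat_lit 0) (XT.nd (nat_lit 78) (nat_lit 76) (nat_lit 0) (XT.lf (nat_lit 0) (nat_lit 50120110803) (nat_lit 76) (nat_lit 9073545401) (nat_lit 76) (nat_lit 413918451) (nat_lit 4) (nat_lit 4) (nat_lit 5) (nat_lit 5) (nat_lit 5) (nat_lit 4) (nat_lit 386) (nat_lit 217) (nat_lit 177)) (XT.nd (nat_lit 78) (nat_lit 0) (nat_lit 0) (XT.lf (nat_lit 0) (nat_lit 1520765501) (nat_lit 152) (nat_lit 5683975161) (nat_lit 76) (nat_lit 54120334342) (nat_lit 3) (nat_lit 5) (nat_lit 5) (nat_lit 5) (nat_lit 4) (nat_lit 4) (nat_lit 387) (nat_lit 217) (nat_lit 176)) (XT.lf (nat_lit 0) (nat_lit 3479873039) (nat_lit 152) (nat_lit 1815241403) (nat_lit 76) (nat_lit 57799641371) (nat_lit 3) (nat_lit 5) (nat_lit 5) (nat_lit 5) (nat_lit 4) (nat_lit 4) (nat_lit 388) (nat_lit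 217) (nat_lit 175)))) (XT.nd (nat_lit 78) (nat_lit 0) (nat_lit 0) (XT.lf (nat_lit 0) (nat_lit 2168410198) (nat_lit 76) (nat_lit 3325626929) (nat_lit 152) (nat_lit 59423620318) (nat_lit 2) (nat_lit 5) (nat_lit 3) (nat_lit 5) (nat_lit 4) (nat_lit 4) (nat_lit 389) (nat_lit 217) (nat_lit 174)) (XT.nd (nat_lit 78) (nat_lit 0) (nat_lit 0) (XT.lf (nat_lit 0) (nat_lit 6265750410) (nat_lit 76) (nat_lit 1296947063) (nat_lit 152) (nat_lit 59232744865) (nat_lit 2) (nat_lit 5) (nat_lit 3) (nat_lit 5) (nat_lit 4) (nat_lit 4) (nat_lit 390) (nat_lit 217) (nat_lit 173)) (XT.lf (nat_lit 0) (nat_lit 9677308852) (nat_lit 152) (nat_lit 58293496291) (nat_lit 0) (nat_lit 759256712) (nat_lit 2) (nat_lit 5) (nat_lit 4) (nat_lit 4) (nat_lit 2) (nat_lit 4) (nat_lit 391) (nat_lit 217) (nat_lit 172)))))) (XT.nd (nat_lit 468) (nat_lit 0) (nat_lit 0) (XT.nd (nat_lit 234) (nat_lit 0) (nat_lit 0) (XT.nd (nat_lit 78) (nat_lit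 0) (nat_lit 0) (XT.lf (nat_lit 0) (nat_lit 11845163061) (nat_lit 152) (nat_lit 56044150458) (nat_lit 0) (nat_lit 2833729601) (nat_lit 2) (nat_lit 5) (nat_lit 4) (nat_lit 4) (nat_lit 2) (nat_lit 4) (nat_lit 392) (nat_lit 217) (nat_lit 171)) (XT.nd (nat_lit 78) (nat_lit 0) (nat_lit 0) (XT.lf (nat_lit 0) (nat_lit 14055687293) (nat_lit 152) (nat_lit 53767221932) (nat_lit 0) (nat_lit 4953592358) (nat_lit 2) (nat_lit 5) (nat_lit 4) (nat_lit 4) (nat_lit 2) (nat_lit 4) (nat_lit 393) (nat_lit 217) (nat_lit 170)) (XT.lf (nat_lit 0) (nat_lit 16310813076) (nat_lit 152) (nat_lit 51460721165) (nat_lit 0) (nat_lit 7120697290) (nat_lit 2) (nat_lit 5) (nat_lit 4) (nat_lit 4) (nat_lit 2) (nat_lit 4) (nat_lit 394) (nat_lit 217) (nat_lit 169)))) (XT.nd (nat_lit 78) (nat_lit 0) (nat_lit 0) (XT.lf (nat_lit 0) (nat_lit 18612510906) (nat_lit 152) (nat_lit 49122632767) (nat_lit 0) (nat_lit 9336937984) (nat_lit 2) (nat_lit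 5) (nat_lit 4) (nat_lit 4) (nat_lit 2) (nat_lit 4) (nat_lit 395) (nat_lit 217) (nat_lit 168)) (XT.nd (nat_lit 78) (nat_lit 0) (nat_lit 0) (XT.lf (nat_lit 0) (nat_lit 20962791976) (nat_lit 152) (nat_lit 46750913748) (nat_lit 0) (nat_lit 11604250961) (nat_lit 2) (nat_lit 5) (nat_lit 4) (nat_lit 4) (nat_lit 2) (nat_lit 4) (nat_lit 396) (nat_lit 217) (nat_lit 167)) (XT.lf (nat_lit 0) (nat_lit 23363709929) (nat_lit 152) (nat_lit 44343491734) (nat_lit 0) (nat_lit 13924617367) (nat_lit 2) (nat_lit 5) (nat_lit 4) (nat_lit 4) (nat_lit 2) (nat_lit 4) (nat_lit 397) (nat_lit 217) (nat_lit 166))))) (XT.nd (nat_lit 234) (nat_lit 0) (nat_lit 0) (XT.nd (nat_lit 78) (nat_lit 0) (nat_lit 0) (XT.lf (nat_lit 0) (nat_lit 25817362656) (nat_lit 152) (nat_lit 41898263150) (nat_lit 0) (nat_lit 16300064709) (nat_lit 2) (nat_lit 5) (nat_lit 4) (nat_lit 4) (nat_lit 2) (nat_lit 4) (nat_lit 398) (nat_lit 217) (nat_lit 165))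 (XT.nd (nat_lit 78) (nat_lit 0) (nat_lit 0) (XT.lf (nat_lit 0) (nat_lit 28325894125) (nat_lit 152) (nat_lit 39413091390) (nat_lit 0) (nat_lit 18732668619) (nat_lit 2) (nat_lit 5) (nat_lit 4) (nat_lit 4) (nat_lit 2) (nat_lit 4) (nat_lit 399) (nat_lit 217) (nat_lit 164)) (XT.lf (nat_lit 0) (nat_lit 30891496256) (nat_lit 152) (nat_lit 36885804944) (nat_lit 0) (nat_lit 21224554673) (nat_lit 2) (nat_lit 5) (nat_lit 4) (nat_lit 4) (nat_lit 2) (nat_lit 4) (nat_lit 400) (nat_lit 217) (nat_lit 163)))) (XT.nd (nat_lit 78) (nat_lit 0) (nat_lit 0) (XT.lf (nat_lit 0) (nat_lit 33516410837) (nat_lit 152) (nat_lit 34314195504) (nat_lit 0) (nat_lit 23777900249) (nat_lit 2) (nat_lit 5) (nat_lit 4) (nat_lit 4) (nat_lit 2) (nat_lit 4) (nat_lit 401) (nat_lit 217) (nat_lit 162)) (XT.nd (nat_lit 36114) (nat_lit 0) (nat_lit 1064) (XT.lf (nat_lit 0) (nat_lit 36202931484) (nat_lit 152) (nat_lit 31696016032) (nat_lit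 0) (nat_lit 26394936423) (nat_lit 2) (nat_lit 5) (nat_lit 4) (nat_lit 4) (nat_lit 2) (nat_lit 4) (nat_lit 402) (nat_lit 217) (nat_lit 161)) (XT.lf (nat_lit 0) (nat_lit 4287861301) (nat_lit 152) (nat_lit 1173247864) (nat_lit 0) (nat_lit 4287861301) (nat_lit 16) (nat_lit 5) (nat_lit 18) (nat_lit 4) (nat_lit 16) (nat_lit 4) (nat_lit 344) (nat_lit 218) (nat_lit 218))))))))
noncomputable def xc19 : XT := (XT.nd (nat_lit 1716) (nat_lit 380) (nat_lit 0) (XT.nd (nat_lit 858) (nat_lit 228) (nat_lit 0) (XT.nd (nat_lit 390) (nat_lit 152) (nat_lit 0) (XT.nd (nat_lit 156) (nat_lit 152) (nat_lit 0) (XT.nd (nat_lit 78) (nat_lit 0) (nat_lit 0) (XT.lf (nat_lit 0) (nat_lit 3858893689) (nat_lit 152) (nat_lit 8259174246) (nat_lit 152) (nat_lit 7849799315) (nat_lit 14) (nat_lit 4) (nat_lit 16) (nat_lit 5) (nat_lit 16) (nat_lit 4) (nat_lit 345) (nat_lit 218) (nat_lit 217)) (XT.lf (nat_lit 0) (nat_lit 10176353695)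 (nat_lit 152) (nat_lit 5541944580) (nat_lit 152) (nat_lit 4735118260) (nat_lit 14) (nat_lit 4) (nat_lit 16) (nat_lit 5) (nat_lit 16) (nat_lit 4) (nat_lit 346) (nat_lit 218) (nat_lit 216))) (XT.nd (nat_lit 78) (nat_lit 152) (nat_lit 0) (XT.lf (nat_lit 0) (nat_lit 16564704535) (nat_lit 152) (nat_lit 2791850060) (nat_lit 152) (nat_lit 1599148605) (nat_lit 14) (nat_lit 4) (nat_lit 16) (nat_lit 5) (nat_lit 16) (nat_lit 4) (nat_lit 347) (nat_lit 218) (nat_lit 215)) (XT.nd (nat_lit 78) (nat_lit 0) (nat_lit 0) (XT.lf (nat_lit 0) (nat_lit 1545719375) (nat_lit 152) (nat_lit 19904504352) (nat_lit 0) (nat_lit 24032473) (nat_lit 12) (nat_lit 5) (nat_lit 14) (nat_lit 4) (nat_lit 12) (nat_lit 4) (nat_lit 348) (nat_lit 218) (nat_lit 214)) (XT.lf (nat_lit 0) (nat_lit 4756962516) (nat_lit 152) (nat_lit 14368723374) (nat_lit 0) (nat_lit 2882145203) (nat_lit 12) (nat_lit 5) (nat_lit 14) (nat_lit 4) (nat_lit 12)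 (nat_lit 4) (nat_lit 349) (nat_lit 218) (nat_lit 213))))) (XT.nd (nat_lit 234) (nat_lit 0) (nat_lit 0) (XT.nd (nat_lit 78) (nat_lit 152) (nat_lit 0) (XT.lf (nat_lit 0) (nat_lit 7998279703) (nat_lit 152) (nat_lit 8780567600) (nat_lit 0) (nat_lit 5780617330) (nat_lit 12) (nat_lit 5) (nat_lit 14) (nat_lit 4) (nat_lit 12) (nat_lit 4) (nat_lit 350) (nat_lit 218) (nat_lit 212)) (XT.nd (nat_lit 78) (nat_lit 152) (nat_lit 0) (XT.lf (nat_lit 0) (nat_lit 11272503154) (nat_lit 152) (nat_lit 3135154178) (nat_lit 0) (nat_lit 8721981500) (nat_lit 12) (nat_lit 5) (nat_lit 14) (nat_lit 4) (nat_lit 12) (nat_lit 4) (nat_lit 351) (nat_lit 218) (nat_lit 211)) (XT.lf (nat_lit 0) (nat_lit 2623646573) (nat_lit 152) (nat_lit 11984067363) (nat_lit 152) (nat_lit 9110381358) (nat_lit 10) (nat_lit 4) (nat_lit 12) (nat_lit 5) (nat_lit 12) (nat_lit 4) (nat_lit 352) (nat_lit 218) (nat_lit 210)))) (XT.nd (nat_lit 78) (nat_lit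 0) (nat_lit 0) (XT.lf (nat_lit 0) (nat_lit 8513357772) (nat_lit 152) (nat_lit 9499621820) (nat_lit 152) (nat_lit 6312184019) (nat_lit 10) (nat_lit 4) (nat_lit 12) (nat_lit 5) (nat_lit 12) (nat_lit 4) (nat_lit 353) (nat_lit 218) (nat_lit 209)) (XT.nd (nat_lit 78) (nat_lit 0) (nat_lit 0) (XT.lf (nat_lit 0) (nat_lit 14476730050) (nat_lit 152) (nat_lit 6983808739) (nat_lit 152) (nat_lit 3491757542) (nat_lit 10) (nat_lit 4) (nat_lit 12) (nat_lit 5) (nat_lit 12) (nat_lit 4) (nat_lit 354) (nat_lit 218) (nat_lit 208)) (XT.lf (nat_lit 0) (nat_lit 20518974123) (nat_lit 152) (nat_lit 4434429835) (nat_lit 152) (nat_lit 646637479) (nat_lit 10) (nat_lit 4) (nat_lit 12) (nat_lit 5) (nat_lit 12) (nat_lit 4) (nat_lit 355) (nat_lit 218) (nat_lit 207)))))) (XT.nd (nat_lit 390) (nat_lit 76) (nat_lit 0) (XT.nd (nat_lit 156) (nat_lit 0) (nat_lit 0) (XT.nd (nat_lit 78) (nat_lit 0) (nat_lit 0) (XT.lf (nat_lit 0) (nat_lit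 362075675) (nat_lit 76) (nat_lit 1823636330) (nat_lit 152) (nat_lit 24082506665) (nat_lit 8) (nat_lit 5) (nat_lit 9) (nat_lit 5) (nat_lit 10) (nat_lit 4) (nat_lit 356) (nat_lit 218) (nat_lit 206)) (XT.lf (nat_lit 0) (nat_lit 5093464034) (nat_lit 152) (nat_lit 20996146119) (nat_lit 0) (nat_lit 866586263) (nat_lit 8) (nat_lit 5) (nat_lit 10) (nat_lit 4) (nat_lit 8) (nat_lit 4) (nat_lit 357) (nat_lit 218) (nat_lit 205))) (XT.nd (nat_lit 78) (nat_lit 0) (nat_lit 0) (XT.lf (nat_lit 0) (nat_lit 8051448578) (nat_lit 152) (nat_lit 16052714970) (nat_lit 0) (nat_lit 3561808617) (nat_lit 8) (nat_lit 5) (nat_lit 10) (nat_lit 4) (nat_lit 8) (nat_lit 4) (nat_lit 358) (nat_lit 218) (nat_lit 204)) (XT.nd (nat_lit 78) (nat_lit 0) (nat_lit 0) (XT.lf (nat_lit 0) (nat_lit 11044720377) (nat_lit 152) (nat_lit 11054000138) (nat_lit 0) (nat_lit 6299971493) (nat_lit 8) (nat_lit 5) (nat_lit 10) (nat_lit 4) (nat_lit 8)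 (nat_lit 4) (nat_lit 359) (nat_lit 218) (nat_lit 203)) (XT.lf (nat_lit 0) (nat_lit 14075894910) (nat_lit 152) (nat_lit 5995633814) (nat_lit 0) (nat_lit 9083467460) (nat_lit 8) (nat_lit 5) (nat_lit 10) (nat_lit 4) (nat_lit 8) (nat_lit 4) (nat_lit 360) (nat_lit 218) (nat_lit 202))))) (XT.nd (nat_lit 234) (nat_lit 0) (nat_lit 0) (XT.nd (nat_lit 78) (nat_lit 76) (nat_lit 0) (XT.lf (nat_lit 0) (nat_lit 17147620777) (nat_lit 152) (nat_lit 873196066) (nat_lit 0) (nat_lit 11914728701) (nat_lit 8) (nat_lit 5) (nat_lit 10) (nat_lit 4) (nat_lit 8) (nat_lit 4) (nat_lit 361) (nat_lit 218) (nat_lit 201)) (XT.nd (nat_lit 78) (nat_lit 0) (nat_lit 0) (XT.lf (nat_lit 0) (nat_lit 4403721489) (nat_lit 76) (nat_lit 15901191786) (nat_lit 76) (nat_lit 10434838907) (nat_lit 7) (nat_lit 4) (nat_lit 8) (nat_lit 5) (nat_lit 8) (nat_lit 4) (nat_lit 362) (nat_lit 218) (nat_lit 200)) (XT.lf (nat_lit 0) (nat_lit 9772555009)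 (nat_lit 76) (nat_lit 13744885189) (nat_lit 76) (nat_lit 8051871336) (nat_lit 7) (nat_lit 4) (nat_lit 8) (nat_lit 5) (nat_lit 8) (nat_lit 4) (nat_lit 363) (nat_lit 218) (nat_lit 199)))) (XT.nd (nat_lit 78) (nat_lit 0) (nat_lit 0) (XT.lf (nat_lit 0) (nat_lit 15220617393) (nat_lit 76) (nat_lit 11558830467) (nat_lit 76) (nat_lit 5645757417) (nat_lit 7) (nat_lit 4) (nat_lit 8) (nat_lit 5) (nat_lit 8) (nat_lit 4) (nat_lit 364) (nat_lit 218) (nat_lit 198)) (XT.nd (nat_lit 78) (nat_lit 0) (nat_lit 0) (XT.lf (nat_lit 0) (nat_lit 20752669085) (nat_lit 76) (nat_lit 9341117478) (nat_lit 76) (nat_lit 3214394721) (nat_lit 7) (nat_lit 4) (nat_lit 8) (nat_lit 5) (nat_lit 8) (nat_lit 4) (nat_lit 365) (nat_lit 218) (nat_lit 197)) (XT.lf (nat_lit 0) (nat_lit 26373543915) (nat_lit 76) (nat_lit 7089808412) (nat_lit 76) (nat_lit 755658756) (nat_lit 7) (nat_lit 4) (nat_lit 8) (nat_lit 5) (nat_lit 8) (nat_lit 4) (nat_lit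 366) (nat_lit 218) (nat_lit 196))))))) (XT.nd (nat_lit 858) (nat_lit 152) (nat_lit 0) (XT.nd (nat_lit 390) (nat_lit 76) (nat_lit 0) (XT.nd (nat_lit 156) (nat_lit 0) (nat_lit 0) (XT.nd (nat_lit 78) (nat_lit 76) (nat_lit 0) (XT.lf (nat_lit 0) (nat_lit 1698789643) (nat_lit 152) (nat_lit 3086992020) (nat_lit 76) (nat_lit 30372209241) (nat_lit 6) (nat_lit 5) (nat_lit 8) (nat_lit 5) (nat_lit 7) (nat_lit 4) (nat_lit 367) (nat_lit 218) (nat_lit 195)) (XT.lf (nat_lit 0) (nat_lit 1767665475) (nat_lit 76) (nat_lit 2418896208) (nat_lit 152) (nat_lit 31939142797) (nat_lit 5) (nat_lit 5) (nat_lit 6) (nat_lit 5) (nat_lit 7) (nat_lit 4) (nat_lit 368) (nat_lit 218) (nat_lit 194))) (XT.nd (nat_lit 78) (nat_lit 0) (nat_lit 0) (XT.lf (nat_lit 0) (nat_lit 6738742575) (nat_lit 152) (nat_lit 30364605898) (nat_lit 0) (nat_lit 19441857) (nat_lit 5) (nat_lit 5) (nat_lit 7) (nat_lit 4) (nat_lit 5) (nat_lit 4) (nat_lit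 369) (nat_lit 218) (nat_lit 193)) (XT.nd (nat_lit 78) (nat_lit 0) (nat_lit 0) (XT.lf (nat_lit 0) (nat_lit 9350770287) (nat_lit 152) (nat_lit 26347011865) (nat_lit 0) (nat_lit 2452541303) (nat_lit 5) (nat_lit 5) (nat_lit 7) (nat_lit 4) (nat_lit 5) (nat_lit 4) (nat_lit 370) (nat_lit 218) (nat_lit 192)) (XT.lf (nat_lit 0) (nat_lit 12001675265) (nat_lit 152) (nat_lit 22278494476) (nat_lit 0) (nat_lit 4929729518) (nat_lit 5) (nat_lit 5) (nat_lit 7) (nat_lit 4) (nat_lit 5) (nat_lit 4) (nat_lit 371) (nat_lit 218) (nat_lit 191))))) (XT.nd (nat_lit 234) (nat_lit 76) (nat_lit 0) (XT.nd (nat_lit 78) (nat_lit 0) (nat_lit 0) (XT.lf (nat_lit 0) (nat_lit 14693773832) (nat_lit 152) (nat_lit 18155498717) (nat_lit 0) (nat_lit 7453171034) (nat_lit 5) (nat_lit 5) (nat_lit 7) (nat_lit 4) (nat_lit 5) (nat_lit 4) (nat_lit 372) (nat_lit 218) (nat_lit 190)) (XT.nd (nat_lit 78) (nat_lit 0) (nat_lit 0) (XT.lf (nat_lit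 0) (nat_lit 17429418308) (nat_lit 152) (nat_lit 13974421970) (nat_lit 0) (nat_lit 10025070800) (nat_lit 5) (nat_lit 5) (nat_lit 7) (nat_lit 4) (nat_lit 5) (nat_lit 4) (nat_lit 373) (nat_lit 218) (nat_lit 189)) (XT.lf (nat_lit 0) (nat_lit 20210999062) (nat_lit 152) (nat_lit 9731610866) (nat_lit 0) (nat_lit 12647676107) (nat_lit 5) (nat_lit 5) (nat_lit 7) (nat_lit 4) (nat_lit 5) (nat_lit 4) (nat_lit 374) (nat_lit 218) (nat_lit 188)))) (XT.nd (nat_lit 78) (nat_lit 76) (nat_lit 0) (XT.lf (nat_lit 0) (nat_lit 23040946601) (nat_lit 152) (nat_lit 5423358095) (nat_lit 0) (nat_lit 15323278553) (nat_lit 5) (nat_lit 5) (nat_lit 7) (nat_lit 4) (nat_lit 5) (nat_lit 4) (nat_lit 375) (nat_lit 218) (nat_lit 187)) (XT.nd (nat_lit 78) (nat_lit 76) (nat_lit 0) (XT.lf (nat_lit 0) (nat_lit 25921733695) (nat_lit 152) (nat_lit 1045899165) (nat_lit 0) (nat_lit 18054216042) (nat_lit 5) (nat_lit 5) (nat_lit 7) (nat_lit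 4) (nat_lit 5) (nat_lit 4) (nat_lit 376) (nat_lit 218) (nat_lit 186)) (XT.lf (nat_lit 0) (nat_lit 3472348922) (nat_lit 76) (nat_lit 25416906956) (nat_lit 76) (nat_lit 17403904249) (nat_lit 4) (nat_lit 4) (nat_lit 5) (nat_lit 5) (nat_lit 5) (nat_lit 4) (nat_lit 377) (nat_lit 218) (nat_lit 185)))))) (XT.nd (nat_lit 468) (nat_lit 152) (nat_lit 0) (XT.nd (nat_lit 234) (nat_lit 0) (nat_lit 0) (XT.nd (nat_lit 78) (nat_lit 0) (nat_lit 0) (XT.lf (nat_lit 0) (nat_lit 8089863213) (nat_lit 76) (nat_lit 23833843442) (nat_lit 76) (nat_lit 15679593110) (nat_lit 4) (nat_lit 4) (nat_lit 5) (nat_lit 5) (nat_lit 5) (nat_lit 4) (nat_lit 378) (nat_lit 218) (nat_lit 184)) (XT.nd (nat_lit 78) (nat_lit 0) (nat_lit 0) (XT.lf (nat_lit 0) (nat_lit 12789862983) (nat_lit 76) (nat_lit 22227620589) (nat_lit 76) (nat_lit 13936236640) (nat_lit 4) (nat_lit 4) (nat_lit 5) (nat_lit 5) (nat_lit 5) (nat_lit 4) (nat_lit 379) (nat_lit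 218) (nat_lit 183)) (XT.lf (nat_lit 0) (nat_lit 17576455028) (nat_lit 76) (nat_lit 20596834903) (nat_lit 76) (nat_lit 12172311520) (nat_lit 4) (nat_lit 4) (nat_lit 5) (nat_lit 5) (nat_lit 5) (nat_lit 4) (nat_lit 380) (nat_lit 218) (nat_lit 182)))) (XT.nd (nat_lit 78) (nat_lit 0) (nat_lit 0) (XT.lf (nat_lit 0) (nat_lit 22453821808) (nat_lit 76) (nat_lit 18940061424) (nat_lit 76) (nat_lit 10386276455) (nat_lit 4) (nat_lit 4) (nat_lit 5) (nat_lit 5) (nat_lit 5) (nat_lit 4) (nat_lit 381) (nat_lit 218) (nat_lit 181)) (XT.nd (nat_lit 78) (nat_lit 0) (nat_lit 0) (XT.lf (nat_lit 0) (nat_lit 27426225100) (nat_lit 76) (nat_lit 17255852486) (nat_lit 76) (nat_lit 8576570832) (nat_lit 4) (nat_lit 4) (nat_lit 5) (nat_lit 5) (nat_lit 5) (nat_lit 4) (nat_lit 382) (nat_lit 218) (nat_lit 180)) (XT.lf (nat_lit 0) (nat_lit 32498009721) (nat_lit 76) (nat_lit 15542736451) (nat_lit 76) (nat_lit 6741613355) (nat_lit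 4) (nat_lit 4) (nat_lit 5) (nat_lit 5) (nat_lit 5) (nat_lit 4) (nat_lit 383) (nat_lit 218) (nat_lit 179))))) (XT.nd (nat_lit 234) (nat_lit 152) (nat_lit 0) (XT.nd (nat_lit 78) (nat_lit 0) (nat_lit 0) (XT.lf (nat_lit 0) (nat_lit 37673607328) (nat_lit 76) (nat_lit 13799216421) (nat_lit 76) (nat_lit 4879800662) (nat_lit 4) (nat_lit 4) (nat_lit 5) (nat_lit 5) (nat_lit 5) (nat_lit 4) (nat_lit 384) (nat_lit 218) (nat_lit 178)) (XT.nd (nat_lit 78) (nat_lit 0) (nat_lit 0) (XT.lf (nat_lit 0) (nat_lit 42957540289) (nat_lit 76) (nat_lit 12023768932) (nat_lit 76) (nat_lit 2989505928) (nat_lit 4) (nat_lit 4) (nat_lit 5) (nat_lit 5) (nat_lit 5) (nat_lit 4) (nat_lit 385) (nat_lit 218) (nat_lit 177)) (XT.lf (nat_lit 0) (nat_lit 48354425631) (nat_lit 76) (nat_lit 10214842622) (nat_lit 76) (nat_lit 1069077438) (nat_lit 4) (nat_lit 4) (nat_lit 5) (nat_lit 5) (nat_lit 5) (nat_lit 4) (nat_lit 386) (nat_lit 218)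 (nat_lit 176)))) (XT.nd (nat_lit 78) (nat_lit 76) (nat_lit 0) (XT.lf (nat_lit 0) (nat_lit 865929162) (nat_lit 152) (nat_lit 7496183527) (nat_lit 76) (nat_lit 52994305731) (nat_lit 3) (nat_lit 5) (nat_lit 5) (nat_lit 5) (nat_lit 4) (nat_lit 4) (nat_lit 387) (nat_lit 218) (nat_lit 175)) (XT.nd (nat_lit 78) (nat_lit 76) (nat_lit 0) (XT.lf (nat_lit 0) (nat_lit 2812937803) (nat_lit 152) (nat_lit 3648857484) (nat_lit 76) (nat_lit 56664676218) (nat_lit 3) (nat_lit 5) (nat_lit 5) (nat_lit 5) (nat_lit 4) (nat_lit 4) (nat_lit 388) (nat_lit 218) (nat_lit 174)) (XT.lf (nat_lit 0) (nat_lit 277103725) (nat_lit 76) (nat_lit 4520071269) (nat_lit 152) (nat_lit 60153104989) (nat_lit 2) (nat_lit 5) (nat_lit 3) (nat_lit 5) (nat_lit 4) (nat_lit 4) (nat_lit 389) (nat_lit 218) (nat_lit 173))))))))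
noncomputable def xc20 : XT := (XT.nd (nat_lit 37596) (nat_lit 0) (nat_lit 228) (XT.nd (nat_lit 858) (nat_lit 0) (nat_lit 0) (XT.nd (nat_lit 390) (nat_lit 0) (nat_lit 0) (XT.nd (nat_lit 156) (nat_lit 0) (nat_lit 0) (XT.nd (nat_lit 78) (nat_lit 0) (nat_lit 0) (XT.lf (nat_lit 0) (nat_lit 4353863514) (nat_lit 76) (nat_lit 2500369624) (nat_lit 152) (nat_lit 59974188580) (nat_lit 2) (nat_lit 5) (nat_lit 3) (nat_lit 5) (nat_lit 4) (nat_lit 4) (nat_lit 390) (nat_lit 218) (nat_lit 172)) (XT.lf (nat_lit 0) (nat_lit 8512364679) (nat_lit 76) (nat_lit 437771870) (nat_lit 152) (nat_lit 59813474446) (nat_lit 2) (nat_lit 5) (nat_lit 3) (nat_lit 5) (nat_lit 4) (nat_lit 4) (nat_lit 391) (nat_lit 218) (nat_lit 171))) (XT.nd (nat_lit 78) (nat_lit 0) (nat_lit 0) (XT.lf (nat_lit 0) (nat_lit 11102765089) (nat_lit 152) (nat_lit 58017346383) (nat_lit 0) (nat_lit 1636945830) (nat_lit 2) (nat_lit 5) (nat_lit 4) (nat_lit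 4) (nat_lit 2) (nat_lit 4) (nat_lit 392) (nat_lit 218) (nat_lit 170)) (XT.nd (nat_lit 78) (nat_lit 0) (nat_lit 0) (XT.lf (nat_lit 0) (nat_lit 13302592683) (nat_lit 152) (nat_lit 55759499441) (nat_lit 0) (nat_lit 3748752573) (nat_lit 2) (nat_lit 5) (nat_lit 4) (nat_lit 4) (nat_lit 2) (nat_lit 4) (nat_lit 393) (nat_lit 218) (nat_lit 169)) (XT.lf (nat_lit 0) (nat_lit 15547333378) (nat_lit 152) (nat_lit 53471524482) (nat_lit 0) (nat_lit 5908036133) (nat_lit 2) (nat_lit 5) (nat_lit 4) (nat_lit 4) (nat_lit 2) (nat_lit 4) (nat_lit 394) (nat_lit 218) (nat_lit 168))))) (XT.nd (nat_lit 234) (nat_lit 0) (nat_lit 0) (XT.nd (nat_lit 78) (nat_lit 0) (nat_lit 0) (XT.lf (nat_lit 0) (nat_lit 17838948600) (nat_lit 152) (nat_lit 51151422307) (nat_lit 0) (nat_lit 8116683261) (nat_lit 2) (nat_lit 5) (nat_lit 4) (nat_lit 4) (nat_lit 2) (nat_lit 4) (nat_lit 395) (nat_lit 218) (nat_lit 167)) (XT.nd (nat_lit 78) (nat_lit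 0) (nat_lit 0) (XT.lf (nat_lit 0) (nat_lit 20179440730) (nat_lit 152) (nat_lit 48797165640) (nat_lit 0) (nat_lit 10376623844) (nat_lit 2) (nat_lit 5) (nat_lit 4) (nat_lit 4) (nat_lit 2) (nat_lit 4) (nat_lit 396) (nat_lit 218) (nat_lit 166)) (XT.lf (nat_lit 0) (nat_lit 22570854858) (nat_lit 152) (nat_lit 46406697365) (nat_lit 0) (nat_lit 12689832587) (nat_lit 2) (nat_lit 5) (nat_lit 4) (nat_lit 4) (nat_lit 2) (nat_lit 4) (nat_lit 397) (nat_lit 218) (nat_lit 165)))) (XT.nd (nat_lit 78) (nat_lit 0) (nat_lit 0) (XT.lf (nat_lit 0) (nat_lit 25015280571) (nat_lit 152) (nat_lit 43977928723) (nat_lit 0) (nat_lit 15058330741) (nat_lit 2) (nat_lit 5) (nat_lit 4) (nat_lit 4) (nat_lit 2) (nat_lit 4) (nat_lit 398) (nat_lit 218) (nat_lit 164)) (XT.nd (nat_lit 78) (nat_lit 0) (nat_lit 0) (XT.lf (nat_lit 0) (nat_lit 27514853772) (nat_lit 152) (nat_lit 41508737489) (nat_lit 0) (nat_lit 17484187866) (nat_lit 2)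 (nat_lit 5) (nat_lit 4) (nat_lit 4) (nat_lit 2) (nat_lit 4) (nat_lit 399) (nat_lit 218) (nat_lit 163)) (XT.lf (nat_lit 0) (nat_lit 30071758557) (nat_lit 152) (nat_lit 38996966116) (nat_lit 0) (nat_lit 19969523644) (nat_lit 2) (nat_lit 5) (nat_lit 4) (nat_lit 4) (nat_lit 2) (nat_lit 4) (nat_lit 400) (nat_lit 218) (nat_lit 162)))))) (XT.nd (nat_lit 36270) (nat_lit 0) (nat_lit 760) (XT.nd (nat_lit 36036) (nat_lit 0) (nat_lit 1064) (XT.nd (nat_lit 78) (nat_lit 0) (nat_lit 0) (XT.lf (nat_lit 0) (nat_lit 32688229112) (nat_lit 152) (nat_lit 36440419854) (nat_lit 0) (nat_lit 22516509728) (nat_lit 2) (nat_lit 5) (nat_lit 4) (nat_lit 4) (nat_lit 2) (nat_lit 4) (nat_lit 401) (nat_lit 218) (nat_lit 161)) (XT.lf (nat_lit 0) (nat_lit 35366551676) (nat_lit 152) (nat_lit 33836864827) (nat_lit 0) (nat_lit 25127371639) (nat_lit 2) (nat_lit 5) (nat_lit 4) (nat_lit 4) (nat_lit 2) (nat_lit 4) (nat_lit 402) (nat_lit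 218) (nat_lit 160))) (XT.nd (nat_lit 78) (nat_lit 0) (nat_lit 0) (XT.lf (nat_lit 0) (nat_lit 1057231759) (nat_lit 152) (nat_lit 7186574461) (nat_lit 0) (nat_lit 1057231759) (nat_lit 16) (nat_lit 5) (nat_lit 18) (nat_lit 4) (nat_lit 16) (nat_lit 4) (nat_lit 342) (nat_lit 219) (nat_lit 219)) (XT.nd (nat_lit 78) (nat_lit 0) (nat_lit 0) (XT.lf (nat_lit 0) (nat_lit 5523316419) (nat_lit 152) (nat_lit 8417845514) (nat_lit 0) (nat_lit 5101660240) (nat_lit 16) (nat_lit 5) (nat_lit 18) (nat_lit 4) (nat_lit 16) (nat_lit 4) (nat_lit 343) (nat_lit 219) (nat_lit 218)) (XT.lf (nat_lit 0) (nat_lit 8961401960) (nat_lit 152) (nat_lit 2407284781) (nat_lit 0) (nat_lit 8130370850) (nat_lit 16) (nat_lit 5) (nat_lit 18) (nat_lit 4) (nat_lit 16) (nat_lit 4) (nat_lit 344) (nat_lit 219) (nat_lit 217))))) (XT.nd (nat_lit 234) (nat_lit 152) (nat_lit 0) (XT.nd (nat_lit 78) (nat_lit 0) (nat_lit 0) (XT.lf (nat_lit 0) (nat_lit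 3736701733) (nat_lit 152) (nat_lit 8730942022) (nat_lit 152) (nat_lit 7502459523) (nat_lit 14) (nat_lit 4) (nat_lit 16) (nat_lit 5) (nat_lit 16) (nat_lit 4) (nat_lit 345) (nat_lit 219) (nat_lit 216)) (XT.nd (nat_lit 78) (nat_lit 0) (nat_lit 0) (XT.lf (nat_lit 0) (nat_lit 9995721854) (nat_lit 152) (nat_lit 6037678876) (nat_lit 152) (nat_lit 4423321242) (nat_lit 14) (nat_lit 4) (nat_lit 16) (nat_lit 5) (nat_lit 16) (nat_lit 4) (nat_lit 346) (nat_lit 219) (nat_lit 215)) (XT.lf (nat_lit 0) (nat_lit 16327334942) (nat_lit 152) (nat_lit 3310852823) (nat_lit 152) (nat_lit 1321859136) (nat_lit 14) (nat_lit 4) (nat_lit 16) (nat_lit 5) (nat_lit 16) (nat_lit 4) (nat_lit 347) (nat_lit 219) (nat_lit 214)))) (XT.nd (nat_lit 78) (nat_lit 0) (nat_lit 0) (XT.lf (nat_lit 0) (nat_lit 1263871016) (nat_lit 76) (nat_lit 517699933) (nat_lit 152) (nat_lit 19698062019) (nat_lit 12) (nat_lit 5) (nat_lit 13) (nat_lit 5)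 (nat_lit 14) (nat_lit 4) (nat_lit 348) (nat_lit 219) (nat_lit 213)) (XT.nd (nat_lit 78) (nat_lit 0) (nat_lit 0) (XT.lf (nat_lit 0) (nat_lit 4955195647) (nat_lit 152) (nat_lit 14731013705) (nat_lit 0) (nat_lit 2328158344) (nat_lit 12) (nat_lit 5) (nat_lit 14) (nat_lit 4) (nat_lit 12) (nat_lit 4) (nat_lit 349) (nat_lit 219) (nat_lit 212)) (XT.lf (nat_lit 0) (nat_lit 8164821577) (nat_lit 152) (nat_lit 9197235776) (nat_lit 0) (nat_lit 5204924992) (nat_lit 12) (nat_lit 5) (nat_lit 14) (nat_lit 4) (nat_lit 12) (nat_lit 4) (nat_lit 350) (nat_lit 219) (nat_lit 211))))))) (XT.nd (nat_lit 858) (nat_lit 228) (nat_lit 0) (XT.nd (nat_lit 390) (nat_lit 152) (nat_lit 0) (XT.nd (nat_lit 156) (nat_lit 0) (nat_lit 0) (XT.nd (nat_lit 78) (nat_lit 152) (nat_lit 0) (XT.lf (nat_lit 0) (nat_lit 11408276818) (nat_lit 152) (nat_lit 3604616377) (nat_lit 0) (nat_lit 8125215882) (nat_lit 12) (nat_lit 5) (nat_lit 14) (nat_lit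 4) (nat_lit 12) (nat_lit 4) (nat_lit 351) (nat_lit 219) (nat_lit 210)) (XT.lf (nat_lit 0) (nat_lit 2092564721) (nat_lit 152) (nat_lit 12615945747) (nat_lit 152) (nat_lit 9019133014) (nat_lit 10) (nat_lit 4) (nat_lit 12) (nat_lit 5) (nat_lit 12) (nat_lit 4) (nat_lit 352) (nat_lit 219) (nat_lit 209))) (XT.nd (nat_lit 78) (nat_lit 0) (nat_lit 0) (XT.lf (nat_lit 0) (nat_lit 7931522099) (nat_lit 152) (nat_lit 10152764159) (nat_lit 152) (nat_lit 6251338031) (nat_lit 10) (nat_lit 4) (nat_lit 12) (nat_lit 5) (nat_lit 12) (nat_lit 4) (nat_lit 353) (nat_lit 219) (nat_lit 208)) (XT.nd (nat_lit 78) (nat_lit 0) (nat_lit 0) (XT.lf (nat_lit 0) (nat_lit 13845618823) (nat_lit 152) (nat_lit 7657595693) (nat_lit 152) (nat_lit 3460428406) (nat_lit 10) (nat_lit 4) (nat_lit 12) (nat_lit 5) (nat_lit 12) (nat_lit 4) (nat_lit 354) (nat_lit 219) (nat_lit 207)) (XT.lf (nat_lit 0) (nat_lit 19840022552) (nat_lit 152) (nat_lit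 5128260106) (nat_lit 152) (nat_lit 643965479) (nat_lit 10) (nat_lit 4) (nat_lit 12) (nat_lit 5) (nat_lit 12) (nat_lit 4) (nat_lit 355) (nat_lit 219) (nat_lit 206))))) (XT.nd (nat_lit 234) (nat_lit 0) (nat_lit 0) (XT.nd (nat_lit 78) (nat_lit 76) (nat_lit 0) (XT.lf (nat_lit 0) (nat_lit 2157571826) (nat_lit 228) (nat_lit 383188227) (nat_lit 76) (nat_lit 23740612043) (nat_lit 9) (nat_lit 5) (nat_lit 12) (nat_lit 5) (nat_lit 10) (nat_lit 4) (nat_lit 356) (nat_lit 219) (nat_lit 205)) (XT.nd (nat_lit 78) (nat_lit 0) (nat_lit 0) (XT.lf (nat_lit 0) (nat_lit 5027515371) (nat_lit 152) (nat_lit 21802568679) (nat_lit 0) (nat_lit 140424020) (nat_lit 8) (nat_lit 5) (nat_lit 10) (nat_lit 4) (nat_lit 8) (nat_lit 4) (nat_lit 357) (nat_lit 219) (nat_lit 204)) (XT.lf (nat_lit 0) (nat_lit 7959168742) (nat_lit 152) (nat_lit 16904959821) (nat_lit 0) (nat_lit 2816968469) (nat_lit 8) (nat_lit 5) (nat_lit 10) (nat_lit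 4) (nat_lit 8) (nat_lit 4) (nat_lit 358) (nat_lit 219) (nat_lit 203)))) (XT.nd (nat_lit 78) (nat_lit 0) (nat_lit 0) (XT.lf (nat_lit 0) (nat_lit 10926876295) (nat_lit 152) (nat_lit 11950732651) (nat_lit 0) (nat_lit 5536997456) (nat_lit 8) (nat_lit 5) (nat_lit 10) (nat_lit 4) (nat_lit 8) (nat_lit 4) (nat_lit 359) (nat_lit 219) (nat_lit 202)) (XT.nd (nat_lit 78) (nat_lit 0) (nat_lit 0) (XT.lf (nat_lit 0) (nat_lit 13933231172) (nat_lit 152) (nat_lit 6935558231) (nat_lit 0) (nat_lit 8302887706) (nat_lit 8) (nat_lit 5) (nat_lit 10) (nat_lit 4) (nat_lit 8) (nat_lit 4) (nat_lit 360) (nat_lit 219) (nat_lit 201)) (XT.lf (nat_lit 0) (nat_lit 16980860286) (nat_lit 152) (nat_lit 1855054371) (nat_lit 0) (nat_lit 11117056017) (nat_lit 8) (nat_lit 5) (nat_lit 10) (nat_lit 4) (nat_lit 8) (nat_lit 4) (nat_lit 361) (nat_lit 219) (nat_lit 200)))))) (XT.nd (nat_lit 468) (nat_lit 76) (nat_lit 0) (XT.nd (nat_lit 234)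 (nat_lit 76) (nat_lit 0) (XT.nd (nat_lit 78) (nat_lit 0) (nat_lit 0) (XT.lf (nat_lit 0) (nat_lit 3360799507) (nat_lit 76) (nat_lit 16743933166) (nat_lit 76) (nat_lit 10653467924) (nat_lit 7) (nat_lit 4) (nat_lit 8) (nat_lit 5) (nat_lit 8) (nat_lit 4) (nat_lit 362) (nat_lit 219) (nat_lit 199)) (XT.nd (nat_lit 78) (nat_lit 0) (nat_lit 0) (XT.lf (nat_lit 0) (nat_lit 8689319657) (nat_lit 76) (nat_lit 14604838920) (nat_lit 76) (nat_lit 8294314480) (nat_lit 7) (nat_lit 4) (nat_lit 8) (nat_lit 5) (nat_lit 8) (nat_lit 4) (nat_lit 363) (nat_lit 219) (nat_lit 198)) (XT.lf (nat_lit 0) (nat_lit 14098242847) (nat_lit 76) (nat_lit 12435495220) (nat_lit 76) (nat_lit 5911321074) (nat_lit 7) (nat_lit 4) (nat_lit 8) (nat_lit 5) (nat_lit 8) (nat_lit 4) (nat_lit 364) (nat_lit 219) (nat_lit 197)))) (XT.nd (nat_lit 78) (nat_lit 76) (nat_lit 0) (XT.lf (nat_lit 0) (nat_lit 19592295321) (nat_lit 76) (nat_lit 10234006523)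 (nat_lit 76) (nat_lit 3502405477) (nat_lit 7) (nat_lit 4) (nat_lit 8) (nat_lit 5) (nat_lit 8) (nat_lit 4) (nat_lit 365) (nat_lit 219) (nat_lit 196)) (XT.nd (nat_lit 78) (nat_lit 76) (nat_lit 0) (XT.lf (nat_lit 0) (nat_lit 25176277707) (nat_lit 76) (nat_lit 7998449198) (nat_lit 76) (nat_lit 1065462813) (nat_lit 7) (nat_lit 4) (nat_lit 8) (nat_lit 5) (nat_lit 8) (nat_lit 4) (nat_lit 366) (nat_lit 219) (nat_lit 195)) (XT.lf (nat_lit 0) (nat_lit 1374285314) (nat_lit 152) (nat_lit 4338706944) (nat_lit 76) (nat_lit 29466906311) (nat_lit 6) (nat_lit 5) (nat_lit 8) (nat_lit 5) (nat_lit 7) (nat_lit 4) (nat_lit 367) (nat_lit 219) (nat_lit 194))))) (XT.nd (nat_lit 234) (nat_lit 0) (nat_lit 0) (XT.nd (nat_lit 78) (nat_lit 0) (nat_lit 0) (XT.lf (nat_lit 0) (nat_lit 455146236) (nat_lit 76) (nat_lit 3374152958) (nat_lit 152) (nat_lit 32319312512) (nat_lit 5) (nat_lit 5) (nat_lit 6) (nat_lit 5) (nat_lit 7)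 (nat_lit 4) (nat_lit 368) (nat_lit 219) (nat_lit 193)) (XT.nd (nat_lit 78) (nat_lit 0) (nat_lit 0) (XT.lf (nat_lit 0) (nat_lit 5411014204) (nat_lit 76) (nat_lit 950385523) (nat_lit 152) (nat_lit 30784916566) (nat_lit 5) (nat_lit 5) (nat_lit 6) (nat_lit 5) (nat_lit 7) (nat_lit 4) (nat_lit 369) (nat_lit 219) (nat_lit 192)) (XT.lf (nat_lit 0) (nat_lit 8944841720) (nat_lit 152) (nat_lit 27742860283) (nat_lit 0) (nat_lit 1487020838) (nat_lit 5) (nat_lit 5) (nat_lit 7) (nat_lit 4) (nat_lit 5) (nat_lit 4) (nat_lit 370) (nat_lit 219) (nat_lit 191)))) (XT.nd (nat_lit 78) (nat_lit 0) (nat_lit 0) (XT.lf (nat_lit 0) (nat_lit 11576863170) (nat_lit 152) (nat_lit 23707632131) (nat_lit 0) (nat_lit 3950385237) (nat_lit 5) (nat_lit 5) (nat_lit 7) (nat_lit 4) (nat_lit 5) (nat_lit 4) (nat_lit 371) (nat_lit 219) (nat_lit 190)) (XT.nd (nat_lit 78) (nat_lit 0) (nat_lit 0) (XT.lf (nat_lit 0) (nat_lit 14250628216) (nat_lit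 152) (nat_lit 19616956020) (nat_lit 0) (nat_lit 6460405573) (nat_lit 5) (nat_lit 5) (nat_lit 7) (nat_lit 4) (nat_lit 5) (nat_lit 4) (nat_lit 372) (nat_lit 219) (nat_lit 189)) (XT.lf (nat_lit 0) (nat_lit 16968473157) (nat_lit 152) (nat_lit 15467257571) (nat_lit 0) (nat_lit 9019275068) (nat_lit 5) (nat_lit 5) (nat_lit 7) (nat_lit 4) (nat_lit 5) (nat_lit 4) (nat_lit 373) (nat_lit 219) (nat_lit 188))))))))
noncomputable def xc21 : XT := (XT.nd (nat_lit 1716) (nat_lit 0) (nat_lit 0) (XT.nd (nat_lit 858) (nat_lit 152) (nat_lit 0) (XT.nd (nat_lit 390) (nat_lit 0) (nat_lit 0) (XT.nd (nat_lit 156) (nat_lit 76) (nat_lit 0) (XT.nd (nat_lit 78) (nat_lit 0) (nat_lit 0) (XT.lf (nat_lit 0) (nat_lit 19732772809) (nat_lit 152) (nat_lit 11254910835) (nat_lit 0) (nat_lit 11629229626) (nat_lit 5) (nat_lit 5) (nat_lit 7) (nat_lit 4) (nat_lit 5) (nat_lit 4) (nat_lit 374) (nat_lit 219) (nat_lit 187)) (XT.lf (nat_lit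 0) (nat_lit 22545942579) (nat_lit 152) (nat_lit 6976235120) (nat_lit 0) (nat_lit 14292549790) (nat_lit 5) (nat_lit 5) (nat_lit 7) (nat_lit 4) (nat_lit 5) (nat_lit 4) (nat_lit 375) (nat_lit 219) (nat_lit 186))) (XT.nd (nat_lit 78) (nat_lit 76) (nat_lit 0) (XT.lf (nat_lit 0) (nat_lit 25410440577) (nat_lit 152) (nat_lit 2627491778) (nat_lit 0) (nat_lit 17011562734) (nat_lit 5) (nat_lit 5) (nat_lit 7) (nat_lit 4) (nat_lit 5) (nat_lit 4) (nat_lit 376) (nat_lit 219) (nat_lit 185)) (XT.nd (nat_lit 78) (nat_lit 0) (nat_lit 0) (XT.lf (nat_lit 0) (nat_lit 1830845452) (nat_lit 76) (nat_lit 26515523516) (nat_lit 76) (nat_lit 17975398049) (nat_lit 4) (nat_lit 4) (nat_lit 5) (nat_lit 5) (nat_lit 5) (nat_lit 4) (nat_lit 377) (nat_lit 219) (nat_lit 184)) (XT.lf (nat_lit 0) (nat_lit 6420753856) (nat_lit 76) (nat_lit 24944446488) (nat_lit 76) (nat_lit 16267187404) (nat_lit 4) (nat_lit 4) (nat_lit 5) (nat_lit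 5) (nat_lit 5) (nat_lit 4) (nat_lit 378) (nat_lit 219) (nat_lit 183))))) (XT.nd (nat_lit 234) (nat_lit 0) (nat_lit 0) (XT.nd (nat_lit 78) (nat_lit 0) (nat_lit 0) (XT.lf (nat_lit 0) (nat_lit 11093951795) (nat_lit 76) (nat_lit 23349861001) (nat_lit 76) (nat_lit 14539462483) (nat_lit 4) (nat_lit 4) (nat_lit 5) (nat_lit 5) (nat_lit 5) (nat_lit 4) (nat_lit 379) (nat_lit 219) (nat_lit 182)) (XT.nd (nat_lit 78) (nat_lit 0) (nat_lit 0) (XT.lf (nat_lit 0) (nat_lit 15854522645) (nat_lit 76) (nat_lit 21730373727) (nat_lit 76) (nat_lit 12790713624) (nat_lit 4) (nat_lit 4) (nat_lit 5) (nat_lit 5) (nat_lit 5) (nat_lit 4) (nat_lit 380) (nat_lit 219) (nat_lit 181)) (XT.lf (nat_lit 0) (nat_lit 20706626128) (nat_lit 76) (nat_lit 20084569581) (nat_lit 76) (nat_lit 11019412792) (nat_lit 4) (nat_lit 4) (nat_lit 5) (nat_lit 5) (nat_lit 5) (nat_lit 4) (nat_lit 381) (nat_lit 219) (nat_lit 180)))) (XT.nd (nat_lit 78)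 (nat_lit 0) (nat_lit 0) (XT.lf (nat_lit 0) (nat_lit 25654501947) (nat_lit 76) (nat_lit 18411010481) (nat_lit 76) (nat_lit 9224012250) (nat_lit 4) (nat_lit 4) (nat_lit 5) (nat_lit 5) (nat_lit 5) (nat_lit 4) (nat_lit 382) (nat_lit 219) (nat_lit 179)) (XT.nd (nat_lit 78) (nat_lit 0) (nat_lit 0) (XT.lf (nat_lit 0) (nat_lit 30702473489) (nat_lit 76) (nat_lit 16708234095) (nat_lit 76) (nat_lit 7402943201) (nat_lit 4) (nat_lit 4) (nat_lit 5) (nat_lit 5) (nat_lit 5) (nat_lit 4) (nat_lit 383) (nat_lit 219) (nat_lit 178)) (XT.lf (nat_lit 0) (nat_lit 35854951601) (nat_lit 76) (nat_lit 14974752558) (nat_lit 76) (nat_lit 5554614419) (nat_lit 4) (nat_lit 4) (nat_lit 5) (nat_lit 5) (nat_lit 5) (nat_lit 4) (nat_lit 384) (nat_lit 219) (nat_lit 177)))))) (XT.nd (nat_lit 390) (nat_lit 76) (nat_lit 0) (XT.nd (nat_lit 156) (nat_lit 76) (nat_lit 0) (XT.nd (nat_lit 78) (nat_lit 0) (nat_lit 0) (XT.lf (nat_lit 0) (nat_lit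 41116438449) (nat_lit 76) (nat_lit 13209051179) (nat_lit 76) (nat_lit 3677410861) (nat_lit 4) (nat_lit 4) (nat_lit 5) (nat_lit 5) (nat_lit 5) (nat_lit 4) (nat_lit 385) (nat_lit 219) (nat_lit 176)) (XT.lf (nat_lit 0) (nat_lit 46491531450) (nat_lit 76) (nat_lit 11409587112) (nat_lit 76) (nat_lit 1769692250) (nat_lit 4) (nat_lit 4) (nat_lit 5) (nat_lit 5) (nat_lit 5) (nat_lit 4) (nat_lit 386) (nat_lit 219) (nat_lit 175))) (XT.nd (nat_lit 78) (nat_lit 0) (nat_lit 0) (XT.lf (nat_lit 0) (nat_lit 166886972) (nat_lit 152) (nat_lit 9406215806) (nat_lit 76) (nat_lit 51816355082) (nat_lit 3) (nat_lit 5) (nat_lit 5) (nat_lit 5) (nat_lit 4) (nat_lit 4) (nat_lit 387) (nat_lit 219) (nat_lit 174)) (XT.nd (nat_lit 78) (nat_lit 0) (nat_lit 0) (XT.lf (nat_lit 0) (nat_lit 2102149111) (nat_lit 152) (nat_lit 5579673953) (nat_lit 76) (nat_lit 55478049315) (nat_lit 3) (nat_lit 5) (nat_lit 5) (nat_lit 5) (nat_lit 4)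 (nat_lit 4) (nat_lit 388) (nat_lit 219) (nat_lit 173)) (XT.lf (nat_lit 0) (nat_lit 4072318242) (nat_lit 152) (nat_lit 1679298860) (nat_lit 76) (nat_lit 59232494575) (nat_lit 3) (nat_lit 5) (nat_lit 5) (nat_lit 5) (nat_lit 4) (nat_lit 4) (nat_lit 389) (nat_lit 219) (nat_lit 172))))) (XT.nd (nat_lit 234) (nat_lit 0) (nat_lit 0) (XT.nd (nat_lit 78) (nat_lit 0) (nat_lit 0) (XT.lf (nat_lit 0) (nat_lit 2344058594) (nat_lit 76) (nat_lit 3757589802) (nat_lit 152) (nat_lit 60761445374) (nat_lit 2) (nat_lit 5) (nat_lit 3) (nat_lit 5) (nat_lit 4) (nat_lit 4) (nat_lit 390) (nat_lit 219) (nat_lit 171)) (XT.nd (nat_lit 78) (nat_lit 0) (nat_lit 0) (XT.lf (nat_lit 0) (nat_lit 6483160737) (nat_lit 76) (nat_lit 1703454882) (nat_lit 152) (nat_lit 60612003787) (nat_lit 2) (nat_lit 5) (nat_lit 3) (nat_lit 5) (nat_lit 4) (nat_lit 4) (nat_lit 391) (nat_lit 219) (nat_lit 170)) (XT.lf (nat_lit 0) (nat_lit 10316381001)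 (nat_lit 152) (nat_lit 60088473800) (nat_lit 0) (nat_lit 387904838) (nat_lit 2) (nat_lit 5) (nat_lit 4) (nat_lit 4) (nat_lit 2) (nat_lit 4) (nat_lit 392) (nat_lit 219) (nat_lit 169)))) (XT.nd (nat_lit 78) (nat_lit 0) (nat_lit 0) (XT.lf (nat_lit 0) (nat_lit 12505823508) (nat_lit 152) (nat_lit 57849152667) (nat_lit 0) (nat_lit 2491890209) (nat_lit 2) (nat_lit 5) (nat_lit 4) (nat_lit 4) (nat_lit 2) (nat_lit 4) (nat_lit 393) (nat_lit 219) (nat_lit 168)) (XT.nd (nat_lit 78) (nat_lit 0) (nat_lit 0) (XT.lf (nat_lit 0) (nat_lit 14740481595) (nat_lit 152) (nat_lit 55579163931) (nat_lit 0) (nat_lit 4643580203) (nat_lit 2) (nat_lit 5) (nat_lit 4) (nat_lit 4) (nat_lit 2) (nat_lit 4) (nat_lit 394) (nat_lit 219) (nat_lit 167)) (XT.lf (nat_lit 0) (nat_lit 17022307877) (nat_lit 152) (nat_lit 53276524107) (nat_lit 0) (nat_lit 6844854938) (nat_lit 2) (nat_lit 5) (nat_lit 4) (nat_lit 4) (nat_lit 2) (nat_lit 4)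 (nat_lit 395) (nat_lit 219) (nat_lit 166))))))) (XT.nd (nat_lit 36582) (nat_lit 0) (nat_lit 608) (XT.nd (nat_lit 390) (nat_lit 0) (nat_lit 0) (XT.nd (nat_lit 156) (nat_lit 0) (nat_lit 0) (XT.nd (nat_lit 78) (nat_lit 0) (nat_lit 0) (XT.lf (nat_lit 0) (nat_lit 19353296182) (nat_lit 152) (nat_lit 50939221180) (nat_lit 0) (nat_lit 9097637857) (nat_lit 2) (nat_lit 5) (nat_lit 4) (nat_lit 4) (nat_lit 2) (nat_lit 4) (nat_lit 396) (nat_lit 219) (nat_lit 165)) (XT.lf (nat_lit 0) (nat_lit 21735483295) (nat_lit 152) (nat_lit 48565212847) (nat_lit 0) (nat_lit 11403897412) (nat_lit 2) (nat_lit 5) (nat_lit 4) (nat_lit 4) (nat_lit 2) (nat_lit 4) (nat_lit 397) (nat_lit 219) (nat_lit 164))) (XT.nd (nat_lit 78) (nat_lit 0) (nat_lit 0) (XT.lf (nat_lit 0) (nat_lit 24170950740) (nat_lit 152) (nat_lit 46152424730) (nat_lit 0) (nat_lit 13765648781) (nat_lit 2) (nat_lit 5) (nat_lit 4) (nat_lit 4) (nat_lit 2) (nat_lit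 4) (nat_lit 398) (nat_lit 219) (nat_lit 163)) (XT.nd (nat_lit 78) (nat_lit 0) (nat_lit 0) (XT.lf (nat_lit 0) (nat_lit 26661826596) (nat_lit 152) (nat_lit 43698748569) (nat_lit 0) (nat_lit 16184955630) (nat_lit 2) (nat_lit 5) (nat_lit 4) (nat_lit 4) (nat_lit 2) (nat_lit 4) (nat_lit 399) (nat_lit 219) (nat_lit 162)) (XT.lf (nat_lit 0) (nat_lit 29210287354) (nat_lit 152) (nat_lit 41202040375) (nat_lit 0) (nat_lit 18663931917) (nat_lit 2) (nat_lit 5) (nat_lit 4) (nat_lit 4) (nat_lit 2) (nat_lit 4) (nat_lit 400) (nat_lit 219) (nat_lit 161))))) (XT.nd (nat_lit 35958) (nat_lit 0) (nat_lit 1064) (XT.nd (nat_lit 78) (nat_lit 0) (nat_lit 0) (XT.lf (nat_lit 0) (nat_lit 31818559827) (nat_lit 152) (nat_lit 38660118557) (nat_lit 0) (nat_lit 21204743737) (nat_lit 2) (nat_lit 5) (nat_lit 4) (nat_lit 4) (nat_lit 2) (nat_lit 4) (nat_lit 401) (nat_lit 219) (nat_lit 160)) (XT.nd (nat_lit 35802) (nat_lit 0) (nat_lit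 1216) (XT.lf (nat_lit 0) (nat_lit 34488923086) (nat_lit 152) (nat_lit 36070762020) (nat_lit 0) (nat_lit 23809611217) (nat_lit 2) (nat_lit 5) (nat_lit 4) (nat_lit 4) (nat_lit 2) (nat_lit 4) (nat_lit 402) (nat_lit 219) (nat_lit 159)) (XT.lf (nat_lit 0) (nat_lit 4765533831) (nat_lit 152) (nat_lit 2057113632) (nat_lit 152) (nat_lit 2057113632) (nat_lit 18) (nat_lit 4) (nat_lit 20) (nat_lit 5) (nat_lit 20) (nat_lit 4) (nat_lit 340) (nat_lit 220) (nat_lit 220)))) (XT.nd (nat_lit 78) (nat_lit 152) (nat_lit 0) (XT.lf (nat_lit 0) (nat_lit 16093858040) (nat_lit 152) (nat_lit 1264346191) (nat_lit 152) (nat_lit 817011151) (nat_lit 18) (nat_lit 4) (nat_lit 20) (nat_lit 5) (nat_lit 20) (nat_lit 4) (nat_lit 341) (nat_lit 220) (nat_lit 219)) (XT.nd (nat_lit 78) (nat_lit 0) (nat_lit 0) (XT.lf (nat_lit 0) (nat_lit 2511713256) (nat_lit 152) (nat_lit 14435761646) (nat_lit 0) (nat_lit 1655751213) (nat_lit 16) (nat_lit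 5) (nat_lit 18) (nat_lit 4) (nat_lit 16) (nat_lit 4) (nat_lit 342) (nat_lit 220) (nat_lit 218)) (XT.lf (nat_lit 0) (nat_lit 5884589336) (nat_lit 152) (nat_lit 8541247291) (nat_lit 0) (nat_lit 4619252362) (nat_lit 16) (nat_lit 5) (nat_lit 18) (nat_lit 4) (nat_lit 16) (nat_lit 4) (nat_lit 343) (nat_lit 220) (nat_lit 217)))))) (XT.nd (nat_lit 468) (nat_lit 152) (nat_lit 0) (XT.nd (nat_lit 234) (nat_lit 152) (nat_lit 0) (XT.nd (nat_lit 78) (nat_lit 152) (nat_lit 0) (XT.lf (nat_lit 0) (nat_lit 9287745924) (nat_lit 152) (nat_lit 2589705055) (nat_lit 0) (nat_lit 7624957561) (nat_lit 16) (nat_lit 5) (nat_lit 18) (nat_lit 4) (nat_lit 16) (nat_lit 4) (nat_lit 344) (nat_lit 220) (nat_lit 216)) (XT.nd (nat_lit 78) (nat_lit 0) (nat_lit 0) (XT.lf (nat_lit 0) (nat_lit 3492211052) (nat_lit 152) (nat_lit 9265514868) (nat_lit 152) (nat_lit 7216851370) (nat_lit 14) (nat_lit 4) (nat_lit 16) (nat_lit 5) (nat_lit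 16) (nat_lit 4) (nat_lit 345) (nat_lit 220) (nat_lit 215)) (XT.lf (nat_lit 0) (nat_lit 9694493421) (nat_lit 152) (nat_lit 6595520189) (nat_lit 152) (nat_lit 4172220637) (nat_lit 14) (nat_lit 4) (nat_lit 16) (nat_lit 5) (nat_lit 16) (nat_lit 4) (nat_lit 346) (nat_lit 220) (nat_lit 214)))) (XT.nd (nat_lit 78) (nat_lit 152) (nat_lit 0) (XT.lf (nat_lit 0) (nat_lit 15971021312) (nat_lit 152) (nat_lit 3891284879) (nat_lit 152) (nat_lit 1104261004) (nat_lit 14) (nat_lit 4) (nat_lit 16) (nat_lit 5) (nat_lit 16) (nat_lit 4) (nat_lit 347) (nat_lit 220) (nat_lit 213)) (XT.nd (nat_lit 78) (nat_lit 0) (nat_lit 0) (XT.lf (nat_lit 0) (nat_lit 836458274) (nat_lit 76) (nat_lit 1122464169) (nat_lit 152) (nat_lit 19528279367) (nat_lit 12) (nat_lit 5) (nat_lit 13) (nat_lit 5) (nat_lit 14) (nat_lit 4) (nat_lit 348) (nat_lit 220) (nat_lit 212)) (XT.lf (nat_lit 0) (nat_lit 5095042521) (nat_lit 152) (nat_lit 15214559770)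 (nat_lit 0) (nat_lit 1713489757) (nat_lit 12) (nat_lit 5) (nat_lit 14) (nat_lit 4) (nat_lit 12) (nat_lit 4) (nat_lit 349) (nat_lit 220) (nat_lit 211))))) (XT.nd (nat_lit 234) (nat_lit 0) (nat_lit 0) (XT.nd (nat_lit 78) (nat_lit 152) (nat_lit 0) (XT.lf (nat_lit 0) (nat_lit 8273900240) (nat_lit 152) (nat_lit 9733575864) (nat_lit 0) (nat_lit 4569183126) (nat_lit 12) (nat_lit 5) (nat_lit 14) (nat_lit 4) (nat_lit 12) (nat_lit 4) (nat_lit 350) (nat_lit 220) (nat_lit 210)) (XT.nd (nat_lit 78) (nat_lit 152) (nat_lit 0) (XT.lf (nat_lit 0) (nat_lit 11487483432) (nat_lit 152) (nat_lit 4192212799) (nat_lit 0) (nat_lit 7469014521) (nat_lit 12) (nat_lit 5) (nat_lit 14) (nat_lit 4) (nat_lit 12) (nat_lit 4) (nat_lit 351) (nat_lit 220) (nat_lit 209)) (XT.lf (nat_lit 0) (nat_lit 1442520157) (nat_lit 152) (nat_lit 13309946310) (nat_lit 152) (nat_lit 8986864004) (nat_lit 10) (nat_lit 4) (nat_lit 12) (nat_lit 5)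 (nat_lit 12) (nat_lit 4) (nat_lit 352) (nat_lit 220) (nat_lit 208)))) (XT.nd (nat_lit 78) (nat_lit 0) (nat_lit 0) (XT.lf (nat_lit 0) (nat_lit 7232201981) (nat_lit 152) (nat_lit 10867409337) (nat_lit 152) (nat_lit 6248585871) (nat_lit 10) (nat_lit 4) (nat_lit 12) (nat_lit 5) (nat_lit 12) (nat_lit 4) (nat_lit 353) (nat_lit 220) (nat_lit 207)) (XT.nd (nat_lit 78) (nat_lit 0) (nat_lit 0) (XT.lf (nat_lit 0) (nat_lit 13098458362) (nat_lit 152) (nat_lit 8392284188) (nat_lit 152) (nat_lit 3486333382) (nat_lit 10) (nat_lit 4) (nat_lit 12) (nat_lit 5) (nat_lit 12) (nat_lit 4) (nat_lit 354) (nat_lit 220) (nat_lit 206)) (XT.lf (nat_lit 0) (nat_lit 19046415156) (nat_lit 152) (nat_lit 5882408132) (nat_lit 152) (nat_lit 697692918) (nat_lit 10) (nat_lit 4) (nat_lit 12) (nat_lit 5) (nat_lit 12) (nat_lit 4) (nat_lit 355) (nat_lit 220) (nat_lit 205))))))))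
noncomputable def xc22 : XT := (XT.nd (nat_lit 1716) (nat_lit 152) (nat_lit 0) (XT.nd (nat_lit 858) (nat_lit 228) (nat_lit 0) (XT.nd (nat_lit 390) (nat_lit 76) (nat_lit 0) (XT.nd (nat_lit 156) (nat_lit 0) (nat_lit 0) (XT.nd (nat_lit 78) (nat_lit 76) (nat_lit 0) (XT.lf (nat_lit 0) (nat_lit 2078407806) (nat_lit 228) (nat_lit 1236192422) (nat_lit 76) (nat_lit 22981873955) (nat_lit 9) (nat_lit 5) (nat_lit 12) (nat_lit 5) (nat_lit 10) (nat_lit 4) (nat_lit 356) (nat_lit 220) (nat_lit 204)) (XT.lf (nat_lit 0) (nat_lit 4254179059) (nat_lit 76) (nat_lit 658284743) (nat_lit 152) (nat_lit 22074246260) (nat_lit 8) (nat_lit 5) (nat_lit 9) (nat_lit 5) (nat_lit 10) (nat_lit 4) (nat_lit 357) (nat_lit 220) (nat_lit 203))) (XT.nd (nat_lit 78) (nat_lit 0) (nat_lit 0) (XT.lf (nat_lit 0) (nat_lit 7812225092) (nat_lit 152) (nat_lit 17873081971) (nat_lit 0) (nat_lit 2012971322) (nat_lit 8) (nat_lit 5) (nat_lit 10)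 (nat_lit 4) (nat_lit 8) (nat_lit 4) (nat_lit 358) (nat_lit 220) (nat_lit 202)) (XT.nd (nat_lit 78) (nat_lit 0) (nat_lit 0) (XT.lf (nat_lit 0) (nat_lit 10755112988) (nat_lit 152) (nat_lit 12962046705) (nat_lit 0) (nat_lit 4715394592) (nat_lit 8) (nat_lit 5) (nat_lit 10) (nat_lit 4) (nat_lit 8) (nat_lit 4) (nat_lit 359) (nat_lit 220) (nat_lit 201)) (XT.lf (nat_lit 0) (nat_lit 13737371112) (nat_lit 152) (nat_lit 7988806173) (nat_lit 0) (nat_lit 7464191912) (nat_lit 8) (nat_lit 5) (nat_lit 10) (nat_lit 4) (nat_lit 8) (nat_lit 4) (nat_lit 360) (nat_lit 220) (nat_lit 200))))) (XT.nd (nat_lit 234) (nat_lit 0) (nat_lit 0) (XT.nd (nat_lit 78) (nat_lit 76) (nat_lit 0) (XT.lf (nat_lit 0) (nat_lit 16761605319) (nat_lit 152) (nat_lit 2949014826) (nat_lit 0) (nat_lit 10261765146) (nat_lit 8) (nat_lit 5) (nat_lit 10) (nat_lit 4) (nat_lit 8) (nat_lit 4) (nat_lit 361) (nat_lit 220) (nat_lit 199)) (XT.nd (nat_lit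 78) (nat_lit 0) (nat_lit 0) (XT.lf (nat_lit 0) (nat_lit 2204753724) (nat_lit 76) (nat_lit 17646897861) (nat_lit 76) (nat_lit 10926998491) (nat_lit 7) (nat_lit 4) (nat_lit 8) (nat_lit 5) (nat_lit 8) (nat_lit 4) (nat_lit 362) (nat_lit 220) (nat_lit 198)) (XT.lf (nat_lit 0) (nat_lit 7494134680) (nat_lit 76) (nat_lit 15524514637) (nat_lit 76) (nat_lit 8590965560) (nat_lit 7) (nat_lit 4) (nat_lit 8) (nat_lit 5) (nat_lit 8) (nat_lit 4) (nat_lit 363) (nat_lit 220) (nat_lit 197)))) (XT.nd (nat_lit 78) (nat_lit 0) (nat_lit 0) (XT.lf (nat_lit 0) (nat_lit 12865058652) (nat_lit 76) (nat_lit 13371395229) (nat_lit 76) (nat_lit 6230419253) (nat_lit 7) (nat_lit 4) (nat_lit 8) (nat_lit 5) (nat_lit 8) (nat_lit 4) (nat_lit 364) (nat_lit 220) (nat_lit 196)) (XT.nd (nat_lit 78) (nat_lit 0) (nat_lit 0) (XT.lf (nat_lit 0) (nat_lit 18322218682) (nat_lit 76) (nat_lit 11185658273) (nat_lit 76) (nat_lit 3843296957) (nat_lit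 7) (nat_lit 4) (nat_lit 8) (nat_lit 5) (nat_lit 8) (nat_lit 4) (nat_lit 365) (nat_lit 220) (nat_lit 195)) (XT.lf (nat_lit 0) (nat_lit 23870383160) (nat_lit 76) (nat_lit 8965393899) (nat_lit 76) (nat_lit 1427512836) (nat_lit 7) (nat_lit 4) (nat_lit 8) (nat_lit 5) (nat_lit 8) (nat_lit 4) (nat_lit 366) (nat_lit 220) (nat_lit 194)))))) (XT.nd (nat_lit 390) (nat_lit 76) (nat_lit 0) (XT.nd (nat_lit 156) (nat_lit 76) (nat_lit 0) (XT.nd (nat_lit 78) (nat_lit 0) (nat_lit 0) (XT.lf (nat_lit 0) (nat_lit 999158768) (nat_lit 152) (nat_lit 5699413759) (nat_lit 76) (nat_lit 28505151686) (nat_lit 6) (nat_lit 5) (nat_lit 8) (nat_lit 5) (nat_lit 7) (nat_lit 4) (nat_lit 367) (nat_lit 220) (nat_lit 193)) (XT.lf (nat_lit 0) (nat_lit 3430242726) (nat_lit 152) (nat_lit 948609438) (nat_lit 76) (nat_lit 31794319411) (nat_lit 6) (nat_lit 5) (nat_lit 8) (nat_lit 5) (nat_lit 7) (nat_lit 4) (nat_lit 368) (nat_lit 220) (nat_lit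 192))) (XT.nd (nat_lit 78) (nat_lit 0) (nat_lit 0) (XT.lf (nat_lit 0) (nat_lit 3954546997) (nat_lit 76) (nat_lit 1979185729) (nat_lit 152) (nat_lit 31238017602) (nat_lit 5) (nat_lit 5) (nat_lit 6) (nat_lit 5) (nat_lit 7) (nat_lit 4) (nat_lit 369) (nat_lit 220) (nat_lit 191)) (XT.nd (nat_lit 78) (nat_lit 0) (nat_lit 0) (XT.lf (nat_lit 0) (nat_lit 8488401736) (nat_lit 152) (nat_lit 29248161305) (nat_lit 0) (nat_lit 464472414) (nat_lit 5) (nat_lit 5) (nat_lit 7) (nat_lit 4) (nat_lit 5) (nat_lit 4) (nat_lit 370) (nat_lit 220) (nat_lit 190)) (XT.lf (nat_lit 0) (nat_lit 11102089665) (nat_lit 152) (nat_lit 25245252801) (nat_lit 0) (nat_lit 2914415633) (nat_lit 5) (nat_lit 5) (nat_lit 7) (nat_lit 4) (nat_lit 5) (nat_lit 4) (nat_lit 371) (nat_lit 220) (nat_lit 189))))) (XT.nd (nat_lit 234) (nat_lit 76) (nat_lit 0) (XT.nd (nat_lit 78) (nat_lit 0) (nat_lit 0) (XT.lf (nat_lit 0) (nat_lit 13758055176) (nat_lit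 152) (nat_lit 21185954988) (nat_lit 0) (nat_lit 5411405697) (nat_lit 5) (nat_lit 5) (nat_lit 7) (nat_lit 4) (nat_lit 5) (nat_lit 4) (nat_lit 372) (nat_lit 220) (nat_lit 188)) (XT.nd (nat_lit 78) (nat_lit 0) (nat_lit 0) (XT.lf (nat_lit 0) (nat_lit 16458619014) (nat_lit 152) (nat_lit 17066720907) (nat_lit 0) (nat_lit 7957624442) (nat_lit 5) (nat_lit 5) (nat_lit 7) (nat_lit 4) (nat_lit 5) (nat_lit 4) (nat_lit 373) (nat_lit 220) (nat_lit 187)) (XT.lf (nat_lit 0) (nat_lit 19206140897) (nat_lit 152) (nat_lit 12883951226) (nat_lit 0) (nat_lit 10555296719) (nat_lit 5) (nat_lit 5) (nat_lit 7) (nat_lit 4) (nat_lit 5) (nat_lit 4) (nat_lit 374) (nat_lit 220) (nat_lit 186)))) (XT.nd (nat_lit 78) (nat_lit 76) (nat_lit 0) (XT.lf (nat_lit 0) (nat_lit 22003021571) (nat_lit 152) (nat_lit 8633991100) (nat_lit 0) (nat_lit 13206692339) (nat_lit 5) (nat_lit 5) (nat_lit 7) (nat_lit 4) (nat_lit 5) (nat_lit 4) (nat_lit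 375) (nat_lit 220) (nat_lit 185)) (XT.nd (nat_lit 78) (nat_lit 76) (nat_lit 0) (XT.lf (nat_lit 0) (nat_lit 24851704912) (nat_lit 152) (nat_lit 4313126970) (nat_lit 0) (nat_lit 15914128056) (nat_lit 5) (nat_lit 5) (nat_lit 7) (nat_lit 4) (nat_lit 5) (nat_lit 4) (nat_lit 376) (nat_lit 220) (nat_lit 184)) (XT.lf (nat_lit 0) (nat_lit 84056928) (nat_lit 76) (nat_lit 27671431140) (nat_lit 76) (nat_lit 18596720667) (nat_lit 4) (nat_lit 4) (nat_lit 5) (nat_lit 5) (nat_lit 5) (nat_lit 4) (nat_lit 377) (nat_lit 220) (nat_lit 183))))))) (XT.nd (nat_lit 858) (nat_lit 76) (nat_lit 0) (XT.nd (nat_lit 390) (nat_lit 76) (nat_lit 0) (XT.nd (nat_lit 156) (nat_lit 0) (nat_lit 0) (XT.nd (nat_lit 78) (nat_lit 0) (nat_lit 0) (XT.lf (nat_lit 0) (nat_lit 4647163501) (nat_lit 76) (nat_lit 26111991478) (nat_lit 76) (nat_lit 16904141571) (nat_lit 4) (nat_lit 4) (nat_lit 5) (nat_lit 5) (nat_lit 5) (nat_lit 4) (nat_lit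 378) (nat_lit 220) (nat_lit 182)) (XT.lf (nat_lit 0) (nat_lit 9294340244) (nat_lit 76) (nat_lit 24528704403) (nat_lit 76) (nat_lit 15191592910) (nat_lit 4) (nat_lit 4) (nat_lit 5) (nat_lit 5) (nat_lit 5) (nat_lit 4) (nat_lit 379) (nat_lit 220) (nat_lit 181))) (XT.nd (nat_lit 78) (nat_lit 0) (nat_lit 0) (XT.lf (nat_lit 0) (nat_lit 14029647798) (nat_lit 76) (nat_lit 22920186462) (nat_lit 76) (nat_lit 13457578284) (nat_lit 4) (nat_lit 4) (nat_lit 5) (nat_lit 5) (nat_lit 5) (nat_lit 4) (nat_lit 380) (nat_lit 220) (nat_lit 180)) (XT.nd (nat_lit 78) (nat_lit 0) (nat_lit 0) (XT.lf (nat_lit 0) (nat_lit 18857223809) (nat_lit 76) (nat_lit 21285032154) (nat_lit 76) (nat_lit 11700582533) (nat_lit 4) (nat_lit 4) (nat_lit 5) (nat_lit 5) (nat_lit 5) (nat_lit 4) (nat_lit 381) (nat_lit 220) (nat_lit 179)) (XT.lf (nat_lit 0) (nat_lit 23781286548) (nat_lit 76) (nat_lit 19621812703) (nat_lit 76) (nat_lit 9919070419)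 (nat_lit 4) (nat_lit 4) (nat_lit 5) (nat_lit 5) (nat_lit 5) (nat_lit 4) (nat_lit 382) (nat_lit 220) (nat_lit 178))))) (XT.nd (nat_lit 234) (nat_lit 76) (nat_lit 0) (XT.nd (nat_lit 78) (nat_lit 0) (nat_lit 0) (XT.lf (nat_lit 0) (nat_lit 28806138594) (nat_lit 76) (nat_lit 17929074809) (nat_lit 76) (nat_lit 8111485281) (nat_lit 4) (nat_lit 4) (nat_lit 5) (nat_lit 5) (nat_lit 5) (nat_lit 4) (nat_lit 383) (nat_lit 220) (nat_lit 177)) (XT.nd (nat_lit 78) (nat_lit 0) (nat_lit 0) (XT.lf (nat_lit 0) (nat_lit 33936170594) (nat_lit 76) (nat_lit 16205339383) (nat_lit 76) (nat_lit 6276247675) (nat_lit 4) (nat_lit 4) (nat_lit 5) (nat_lit 5) (nat_lit 5) (nat_lit 4) (nat_lit 384) (nat_lit 220) (nat_lit 176)) (XT.lf (nat_lit 0) (nat_lit 39175865101) (nat_lit 76) (nat_lit 14449100247) (nat_lit 76) (nat_lit 4411753996) (nat_lit 4) (nat_lit 4) (nat_lit 5) (nat_lit 5) (nat_lit 5) (nat_lit 4) (nat_lit 385) (nat_lit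 220) (nat_lit 175)))) (XT.nd (nat_lit 78) (nat_lit 76) (nat_lit 0) (XT.lf (nat_lit 0) (nat_lit 44529800488) (nat_lit 76) (nat_lit 12658822823) (nat_lit 76) (nat_lit 2516375074) (nat_lit 4) (nat_lit 4) (nat_lit 5) (nat_lit 5) (nat_lit 5) (nat_lit 4) (nat_lit 386) (nat_lit 220) (nat_lit 174)) (XT.nd (nat_lit 78) (nat_lit 76) (nat_lit 0) (XT.lf (nat_lit 0) (nat_lit 50002654952) (nat_lit 76) (nat_lit 10832942792) (nat_lit 76) (nat_lit 588454753) (nat_lit 4) (nat_lit 4) (nat_lit 5) (nat_lit 5) (nat_lit 5) (nat_lit 4) (nat_lit 387) (nat_lit 220) (nat_lit 173)) (XT.lf (nat_lit 0) (nat_lit 1346885886) (nat_lit 152) (nat_lit 7609377931) (nat_lit 76) (nat_lit 54238723805) (nat_lit 3) (nat_lit 5) (nat_lit 5) (nat_lit 5) (nat_lit 4) (nat_lit 4) (nat_lit 388) (nat_lit 220) (nat_lit 172)))))) (XT.nd (nat_lit 468) (nat_lit 0) (nat_lit 0) (XT.nd (nat_lit 234) (nat_lit 0) (nat_lit 0) (XT.nd (nat_lit 78) (nat_lit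 76) (nat_lit 0) (XT.lf (nat_lit 0) (nat_lit 3305982813) (nat_lit 152) (nat_lit 3728593930) (nat_lit 76) (nat_lit 57984990863) (nat_lit 3) (nat_lit 5) (nat_lit 5) (nat_lit 5) (nat_lit 4) (nat_lit 4) (nat_lit 389) (nat_lit 220) (nat_lit 171)) (XT.nd (nat_lit 78) (nat_lit 0) (nat_lit 0) (XT.lf (nat_lit 0) (nat_lit 234579511) (nat_lit 76) (nat_lit 5069706140) (nat_lit 152) (nat_lit 61595203142) (nat_lit 2) (nat_lit 5) (nat_lit 3) (nat_lit 5) (nat_lit 4) (nat_lit 4) (nat_lit 390) (nat_lit 220) (nat_lit 170)) (XT.lf (nat_lit 0) (nat_lit 4354847651) (nat_lit 76) (nat_lit 3023787564) (nat_lit 152) (nat_lit 61456705773) (nat_lit 2) (nat_lit 5) (nat_lit 3) (nat_lit 5) (nat_lit 4) (nat_lit 4) (nat_lit 391) (nat_lit 220) (nat_lit 169)))) (XT.nd (nat_lit 78) (nat_lit 0) (nat_lit 0) (XT.lf (nat_lit 0) (nat_lit 8561604393) (nat_lit 76) (nat_lit 932684808) (nat_lit 152) (nat_lit 61335623160) (nat_lit 2) (nat_lit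 5) (nat_lit 3) (nat_lit 5) (nat_lit 4) (nat_lit 4) (nat_lit 392) (nat_lit 220) (nat_lit 168)) (XT.nd (nat_lit 78) (nat_lit 0) (nat_lit 0) (XT.lf (nat_lit 0) (nat_lit 11664683563) (nat_lit 152) (nat_lit 60038007521) (nat_lit 0) (nat_lit 1181907036) (nat_lit 2) (nat_lit 5) (nat_lit 4) (nat_lit 4) (nat_lit 2) (nat_lit 4) (nat_lit 393) (nat_lit 220) (nat_lit 167)) (XT.lf (nat_lit 0) (nat_lit 13889552711) (nat_lit 152) (nat_lit 57785481137) (nat_lit 0) (nat_lit 3326224636) (nat_lit 2) (nat_lit 5) (nat_lit 4) (nat_lit 4) (nat_lit 2) (nat_lit 4) (nat_lit 394) (nat_lit 220) (nat_lit 166))))) (XT.nd (nat_lit 234) (nat_lit 0) (nat_lit 0) (XT.nd (nat_lit 78) (nat_lit 0) (nat_lit 0) (XT.lf (nat_lit 0) (nat_lit 16161875167) (nat_lit 152) (nat_lit 55499795053) (nat_lit 0) (nat_lit 5520341707) (nat_lit 2) (nat_lit 5) (nat_lit 4) (nat_lit 4) (nat_lit 2) (nat_lit 4) (nat_lit 395) (nat_lit 220) (nat_lit 165))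 (XT.nd (nat_lit 78) (nat_lit 0) (nat_lit 0) (XT.lf (nat_lit 0) (nat_lit 18483636457) (nat_lit 152) (nat_lit 53178952068) (nat_lit 0) (nat_lit 7766175438) (nat_lit 2) (nat_lit 5) (nat_lit 4) (nat_lit 4) (nat_lit 2) (nat_lit 4) (nat_lit 396) (nat_lit 220) (nat_lit 164)) (XT.lf (nat_lit 0) (nat_lit 20856865303) (nat_lit 152) (nat_lit 50820924260) (nat_lit 0) (nat_lit 10065688209) (nat_lit 2) (nat_lit 5) (nat_lit 4) (nat_lit 4) (nat_lit 2) (nat_lit 4) (nat_lit 397) (nat_lit 220) (nat_lit 163)))) (XT.nd (nat_lit 78) (nat_lit 0) (nat_lit 0) (XT.lf (nat_lit 0) (nat_lit 23283635402) (nat_lit 152) (nat_lit 48423651216) (nat_lit 0) (nat_lit 12420889301) (nat_lit 2) (nat_lit 5) (nat_lit 4) (nat_lit 4) (nat_lit 2) (nat_lit 4) (nat_lit 398) (nat_lit 220) (nat_lit 162)) (XT.nd (nat_lit 78) (nat_lit 0) (nat_lit 0) (XT.lf (nat_lit 0) (nat_lit 25766067232) (nat_lit 152) (nat_lit 45985038234) (nat_lit 0) (nat_lit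 14833836659) (nat_lit 2) (nat_lit 5) (nat_lit 4) (nat_lit 4) (nat_lit 2) (nat_lit 4) (nat_lit 399) (nat_lit 220) (nat_lit 161)) (XT.lf (nat_lit 0) (nat_lit 28306329907) (nat_lit 152) (nat_lit 43502954484) (nat_lit 0) (nat_lit 17306638682) (nat_lit 2) (nat_lit 5) (nat_lit 4) (nat_lit 4) (nat_lit 2) (nat_lit 4) (nat_lit 400) (nat_lit 220) (nat_lit 160))))))))
noncomputable def xc23 : XT := (XT.nd (nat_lit 37284) (nat_lit 0) (nat_lit 152) (XT.nd (nat_lit 36426) (nat_lit 0) (nat_lit 456) (XT.nd (nat_lit 35958) (nat_lit 0) (nat_lit 912) (XT.nd (nat_lit 35724) (nat_lit 0) (nat_lit 1216) (XT.nd (nat_lit 78) (nat_lit 0) (nat_lit 0) (XT.lf (nat_lit 0) (nat_lit 30906643075) (nat_lit 152) (nat_lit 40975231157) (nat_lit 0) (nat_lit 19841456071) (nat_lit 2) (nat_lit 5) (nat_lit 4) (nat_lit 4) (nat_lit 2) (nat_lit 4) (nat_lit 401) (nat_lit 220) (nat_lit 159)) (XT.lf (nat_lit 0) (nat_lit 33569278855) (nat_lit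 152) (nat_lit 38399659561) (nat_lit 0) (nat_lit 22440503716) (nat_lit 2) (nat_lit 5) (nat_lit 4) (nat_lit 4) (nat_lit 2) (nat_lit 4) (nat_lit 402) (nat_lit 220) (nat_lit 158))) (XT.nd (nat_lit 78) (nat_lit 152) (nat_lit 0) (XT.lf (nat_lit 0) (nat_lit 3426618612) (nat_lit 152) (nat_lit 1631139490) (nat_lit 0) (nat_lit 3426618612) (nat_lit 20) (nat_lit 5) (nat_lit 22) (nat_lit 4) (nat_lit 20) (nat_lit 4) (nat_lit 338) (nat_lit 221) (nat_lit 221)) (XT.nd (nat_lit 78) (nat_lit 0) (nat_lit 0) (XT.lf (nat_lit 0) (nat_lit 3038143227) (nat_lit 152) (nat_lit 7390405464) (nat_lit 152) (nat_lit 6929650372) (nat_lit 18) (nat_lit 4) (nat_lit 20) (nat_lit 5) (nat_lit 20) (nat_lit 4) (nat_lit 339) (nat_lit 221) (nat_lit 220)) (XT.lf (nat_lit 0) (nat_lit 9469529835) (nat_lit 152) (nat_lit 4599615226) (nat_lit 152) (nat_lit 3691525095) (nat_lit 18) (nat_lit 4) (nat_lit 20) (nat_lit 5) (nat_lit 20) (nat_lit 4)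 (nat_lit 340) (nat_lit 221) (nat_lit 219))))) (XT.nd (nat_lit 234) (nat_lit 152) (nat_lit 0) (XT.nd (nat_lit 78) (nat_lit 152) (nat_lit 0) (XT.lf (nat_lit 0) (nat_lit 15972574750) (nat_lit 152) (nat_lit 1773649561) (nat_lit 152) (nat_lit 431253566) (nat_lit 18) (nat_lit 4) (nat_lit 20) (nat_lit 5) (nat_lit 20) (nat_lit 4) (nat_lit 341) (nat_lit 221) (nat_lit 218)) (XT.nd (nat_lit 78) (nat_lit 0) (nat_lit 0) (XT.lf (nat_lit 0) (nat_lit 2847847539) (nat_lit 152) (nat_lit 14623654529) (nat_lit 0) (nat_lit 1135175525) (nat_lit 16) (nat_lit 5) (nat_lit 18) (nat_lit 4) (nat_lit 16) (nat_lit 4) (nat_lit 342) (nat_lit 221) (nat_lit 217)) (XT.lf (nat_lit 0) (nat_lit 6185794666) (nat_lit 152) (nat_lit 8788158672) (nat_lit 0) (nat_lit 4075671263) (nat_lit 16) (nat_lit 5) (nat_lit 18) (nat_lit 4) (nat_lit 16) (nat_lit 4) (nat_lit 343) (nat_lit 221) (nat_lit 216)))) (XT.nd (nat_lit 78) (nat_lit 152) (nat_lit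 0) (XT.lf (nat_lit 0) (nat_lit 9555039649) (nat_lit 152) (nat_lit 2893915948) (nat_lit 0) (nat_lit 7059041111) (nat_lit 16) (nat_lit 5) (nat_lit 18) (nat_lit 4) (nat_lit 16) (nat_lit 4) (nat_lit 344) (nat_lit 221) (nat_lit 215)) (XT.nd (nat_lit 78) (nat_lit 0) (nat_lit 0) (XT.lf (nat_lit 0) (nat_lit 3125208013) (nat_lit 152) (nat_lit 9863359886) (nat_lit 152) (nat_lit 6992725295) (nat_lit 14) (nat_lit 4) (nat_lit 16) (nat_lit 5) (nat_lit 16) (nat_lit 4) (nat_lit 345) (nat_lit 221) (nat_lit 214)) (XT.lf (nat_lit 0) (nat_lit 9272405186) (nat_lit 152) (nat_lit 7215955951) (nat_lit 152) (nat_lit 3981597036) (nat_lit 14) (nat_lit 4) (nat_lit 16) (nat_lit 5) (nat_lit 16) (nat_lit 4) (nat_lit 346) (nat_lit 221) (nat_lit 213)))))) (XT.nd (nat_lit 390) (nat_lit 304) (nat_lit 0) (XT.nd (nat_lit 156) (nat_lit 0) (nat_lit 0) (XT.nd (nat_lit 78) (nat_lit 152) (nat_lit 0) (XT.lf (nat_lit 0) (nat_lit 15495452303)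 (nat_lit 152) (nat_lit 4533653403) (nat_lit 152) (nat_lit 946164076) (nat_lit 14) (nat_lit 4) (nat_lit 16) (nat_lit 5) (nat_lit 16) (nat_lit 4) (nat_lit 347) (nat_lit 221) (nat_lit 212)) (XT.lf (nat_lit 0) (nat_lit 287382836) (nat_lit 76) (nat_lit 1790310376) (nat_lit 152) (nat_lit 19419283198) (nat_lit 12) (nat_lit 5) (nat_lit 13) (nat_lit 5) (nat_lit 14) (nat_lit 4) (nat_lit 348) (nat_lit 221) (nat_lit 211))) (XT.nd (nat_lit 78) (nat_lit 0) (nat_lit 0) (XT.lf (nat_lit 0) (nat_lit 5176625334) (nat_lit 152) (nat_lit 15819784085) (nat_lit 0) (nat_lit 1037602355) (nat_lit 12) (nat_lit 5) (nat_lit 14) (nat_lit 4) (nat_lit 12) (nat_lit 4) (nat_lit 349) (nat_lit 221) (nat_lit 210)) (XT.nd (nat_lit 78) (nat_lit 0) (nat_lit 0) (XT.lf (nat_lit 0) (nat_lit 8325611004) (nat_lit 152) (nat_lit 10390056513) (nat_lit 0) (nat_lit 3872836229) (nat_lit 12) (nat_lit 5) (nat_lit 14) (nat_lit 4) (nat_lit 12) (nat_lit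 4) (nat_lit 350) (nat_lit 221) (nat_lit 209)) (XT.lf (nat_lit 0) (nat_lit 11510192207) (nat_lit 152) (nat_lit 4898456878) (nat_lit 0) (nat_lit 6752804036) (nat_lit 12) (nat_lit 5) (nat_lit 14) (nat_lit 4) (nat_lit 12) (nat_lit 4) (nat_lit 351) (nat_lit 221) (nat_lit 208))))) (XT.nd (nat_lit 234) (nat_lit 152) (nat_lit 0) (XT.nd (nat_lit 78) (nat_lit 0) (nat_lit 0) (XT.lf (nat_lit 0) (nat_lit 672944882) (nat_lit 152) (nat_lit 14066675460) (nat_lit 152) (nat_lit 9013546129) (nat_lit 10) (nat_lit 4) (nat_lit 12) (nat_lit 5) (nat_lit 12) (nat_lit 4) (nat_lit 352) (nat_lit 221) (nat_lit 207)) (XT.nd (nat_lit 78) (nat_lit 0) (nat_lit 0) (XT.lf (nat_lit 0) (nat_lit 6414786362) (nat_lit 152) (nat_lit 11644181804) (nat_lit 152) (nat_lit 6303925133) (nat_lit 10) (nat_lit 4) (nat_lit 12) (nat_lit 5) (nat_lit 12) (nat_lit 4) (nat_lit 353) (nat_lit 221) (nat_lit 206)) (XT.lf (nat_lit 0) (nat_lit 12234595808)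 (nat_lit 152) (nat_lit 9188516185) (nat_lit 152) (nat_lit 3569495107) (nat_lit 10) (nat_lit 4) (nat_lit 12) (nat_lit 5) (nat_lit 12) (nat_lit 4) (nat_lit 354) (nat_lit 221) (nat_lit 205)))) (XT.nd (nat_lit 78) (nat_lit 152) (nat_lit 0) (XT.lf (nat_lit 0) (nat_lit 18137458489) (nat_lit 152) (nat_lit 6697532877) (nat_lit 152) (nat_lit 807866743) (nat_lit 10) (nat_lit 4) (nat_lit 12) (nat_lit 5) (nat_lit 12) (nat_lit 4) (nat_lit 355) (nat_lit 221) (nat_lit 204)) (XT.nd (nat_lit 78) (nat_lit 76) (nat_lit 0) (XT.lf (nat_lit 0) (nat_lit 1944670281) (nat_lit 228) (nat_lit 2204747653) (nat_lit 76) (nat_lit 22164224609) (nat_lit 9) (nat_lit 5) (nat_lit 12) (nat_lit 5) (nat_lit 10) (nat_lit 4) (nat_lit 356) (nat_lit 221) (nat_lit 203)) (XT.lf (nat_lit 0) (nat_lit 3222466428) (nat_lit 76) (nat_lit 1521377746) (nat_lit 152) (nat_lit 22261103310) (nat_lit 8) (nat_lit 5) (nat_lit 9) (nat_lit 5) (nat_lit 10)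 (nat_lit 4) (nat_lit 357) (nat_lit 221) (nat_lit 202))))))) (XT.nd (nat_lit 858) (nat_lit 152) (nat_lit 0) (XT.nd (nat_lit 390) (nat_lit 76) (nat_lit 0) (XT.nd (nat_lit 156) (nat_lit 76) (nat_lit 0) (XT.nd (nat_lit 78) (nat_lit 0) (nat_lit 0) (XT.lf (nat_lit 0) (nat_lit 7610489230) (nat_lit 152) (nat_lit 18957927352) (nat_lit 0) (nat_lit 1149114654) (nat_lit 8) (nat_lit 5) (nat_lit 10) (nat_lit 4) (nat_lit 8) (nat_lit 4) (nat_lit 358) (nat_lit 221) (nat_lit 201)) (XT.lf (nat_lit 0) (nat_lit 10529280373) (nat_lit 152) (nat_lit 14088825973) (nat_lit 0) (nat_lit 3834444994) (nat_lit 8) (nat_lit 5) (nat_lit 10) (nat_lit 4) (nat_lit 8) (nat_lit 4) (nat_lit 359) (nat_lit 221) (nat_lit 200))) (XT.nd (nat_lit 78) (nat_lit 76) (nat_lit 0) (XT.lf (nat_lit 0) (nat_lit 13488143590) (nat_lit 152) (nat_lit 9156297954) (nat_lit 0) (nat_lit 6566647238) (nat_lit 8) (nat_lit 5) (nat_lit 10) (nat_lit 4) (nat_lit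 8) (nat_lit 4) (nat_lit 360) (nat_lit 221) (nat_lit 199)) (XT.nd (nat_lit 78) (nat_lit 76) (nat_lit 0) (XT.lf (nat_lit 0) (nat_lit 16489664295) (nat_lit 152) (nat_lit 4156033317) (nat_lit 0) (nat_lit 9348108746) (nat_lit 8) (nat_lit 5) (nat_lit 10) (nat_lit 4) (nat_lit 8) (nat_lit 4) (nat_lit 361) (nat_lit 221) (nat_lit 198)) (XT.lf (nat_lit 0) (nat_lit 934574003) (nat_lit 76) (nat_lit 18610874871) (nat_lit 76) (nat_lit 11255669615) (nat_lit 7) (nat_lit 4) (nat_lit 8) (nat_lit 5) (nat_lit 8) (nat_lit 4) (nat_lit 362) (nat_lit 221) (nat_lit 197))))) (XT.nd (nat_lit 234) (nat_lit 76) (nat_lit 0) (XT.nd (nat_lit 78) (nat_lit 0) (nat_lit 0) (XT.lf (nat_lit 0) (nat_lit 6185955741) (nat_lit 76) (nat_lit 16504715939) (nat_lit 76) (nat_lit 8942083783) (nat_lit 7) (nat_lit 4) (nat_lit 8) (nat_lit 5) (nat_lit 8) (nat_lit 4) (nat_lit 363) (nat_lit 221) (nat_lit 196)) (XT.nd (nat_lit 78) (nat_lit 0) (nat_lit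 0) (XT.lf (nat_lit 0) (nat_lit 11519987269) (nat_lit 76) (nat_lit 14367348272) (nat_lit 76) (nat_lit 6603330777) (nat_lit 7) (nat_lit 4) (nat_lit 8) (nat_lit 5) (nat_lit 8) (nat_lit 4) (nat_lit 364) (nat_lit 221) (nat_lit 195)) (XT.lf (nat_lit 0) (nat_lit 16941329392) (nat_lit 76) (nat_lit 12196904267) (nat_lit 76) (nat_lit 4237367025) (nat_lit 7) (nat_lit 4) (nat_lit 8) (nat_lit 5) (nat_lit 8) (nat_lit 4) (nat_lit 365) (nat_lit 221) (nat_lit 194)))) (XT.nd (nat_lit 78) (nat_lit 76) (nat_lit 0) (XT.lf (nat_lit 0) (nat_lit 22454719203) (nat_lit 76) (nat_lit 9991487419) (nat_lit 76) (nat_lit 1842125181) (nat_lit 7) (nat_lit 4) (nat_lit 8) (nat_lit 5) (nat_lit 8) (nat_lit 4) (nat_lit 366) (nat_lit 221) (nat_lit 193)) (XT.nd (nat_lit 78) (nat_lit 0) (nat_lit 0) (XT.lf (nat_lit 0) (nat_lit 573082225) (nat_lit 152) (nat_lit 7170301433) (nat_lit 76) (nat_lit 27486104996) (nat_lit 6) (nat_lit 5) (nat_lit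 8) (nat_lit 5) (nat_lit 7) (nat_lit 4) (nat_lit 367) (nat_lit 221) (nat_lit 192)) (XT.lf (nat_lit 0) (nat_lit 2985180961) (nat_lit 152) (nat_lit 2452669265) (nat_lit 76) (nat_lit 30761671198) (nat_lit 6) (nat_lit 5) (nat_lit 8) (nat_lit 5) (nat_lit 7) (nat_lit 4) (nat_lit 368) (nat_lit 221) (nat_lit 191)))))) (XT.nd (nat_lit 468) (nat_lit 76) (nat_lit 0) (XT.nd (nat_lit 234) (nat_lit 0) (nat_lit 0) (XT.nd (nat_lit 78) (nat_lit 0) (nat_lit 0) (XT.lf (nat_lit 0) (nat_lit 2387706495) (nat_lit 76) (nat_lit 3067470783) (nat_lit 152) (nat_lit 31743943099) (nat_lit 5) (nat_lit 5) (nat_lit 6) (nat_lit 5) (nat_lit 7) (nat_lit 4) (nat_lit 369) (nat_lit 221) (nat_lit 190)) (XT.nd (nat_lit 78) (nat_lit 0) (nat_lit 0) (XT.lf (nat_lit 0) (nat_lit 7358833679) (nat_lit 76) (nat_lit 628257015) (nat_lit 152) (nat_lit 30242012417) (nat_lit 5) (nat_lit 5) (nat_lit 6) (nat_lit 5) (nat_lit 7) (nat_lit 4) (nat_lit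 370) (nat_lit 221) (nat_lit 189)) (XT.lf (nat_lit 0) (nat_lit 10576939898) (nat_lit 152) (nat_lit 26892700037) (nat_lit 0) (nat_lit 1820915489) (nat_lit 5) (nat_lit 5) (nat_lit 7) (nat_lit 4) (nat_lit 5) (nat_lit 4) (nat_lit 371) (nat_lit 221) (nat_lit 188)))) (XT.nd (nat_lit 78) (nat_lit 0) (nat_lit 0) (XT.lf (nat_lit 0) (nat_lit 13215624307) (nat_lit 152) (nat_lit 22863866591) (nat_lit 0) (nat_lit 4305254804) (nat_lit 5) (nat_lit 5) (nat_lit 7) (nat_lit 4) (nat_lit 5) (nat_lit 4) (nat_lit 372) (nat_lit 221) (nat_lit 187)) (XT.nd (nat_lit 78) (nat_lit 0) (nat_lit 0) (XT.lf (nat_lit 0) (nat_lit 15899410376) (nat_lit 152) (nat_lit 18774209566) (nat_lit 0) (nat_lit 6839191268) (nat_lit 5) (nat_lit 5) (nat_lit 7) (nat_lit 4) (nat_lit 5) (nat_lit 4) (nat_lit 373) (nat_lit 221) (nat_lit 186)) (XT.lf (nat_lit 0) (nat_lit 18630643163) (nat_lit 152) (nat_lit 14620155474) (nat_lit 0) (nat_lit 9424939000)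 (nat_lit 5) (nat_lit 5) (nat_lit 7) (nat_lit 4) (nat_lit 5) (nat_lit 4) (nat_lit 374) (nat_lit 221) (nat_lit 185))))) (XT.nd (nat_lit 234) (nat_lit 76) (nat_lit 0) (XT.nd (nat_lit 78) (nat_lit 0) (nat_lit 0) (XT.lf (nat_lit 0) (nat_lit 21411709180) (nat_lit 152) (nat_lit 10398074560) (nat_lit 0) (nat_lit 12064757393) (nat_lit 5) (nat_lit 5) (nat_lit 7) (nat_lit 4) (nat_lit 5) (nat_lit 4) (nat_lit 375) (nat_lit 221) (nat_lit 184)) (XT.nd (nat_lit 78) (nat_lit 0) (nat_lit 0) (XT.lf (nat_lit 0) (nat_lit 24245038486) (nat_lit 152) (nat_lit 6104277626) (nat_lit 0) (nat_lit 14760953082) (nat_lit 5) (nat_lit 5) (nat_lit 7) (nat_lit 4) (nat_lit 5) (nat_lit 4) (nat_lit 376) (nat_lit 221) (nat_lit 183)) (XT.lf (nat_lit 0) (nat_lit 27133106806) (nat_lit 152) (nat_lit 1735012811) (nat_lit 0) (nat_lit 17515881968) (nat_lit 5) (nat_lit 5) (nat_lit 7) (nat_lit 4) (nat_lit 5) (nat_lit 4) (nat_lit 377) (nat_lit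 221) (nat_lit 182)))) (XT.nd (nat_lit 78) (nat_lit 0) (nat_lit 0) (XT.lf (nat_lit 0) (nat_lit 2767542409) (nat_lit 76) (nat_lit 27337498595) (nat_lit 76) (nat_lit 17591012171) (nat_lit 4) (nat_lit 4) (nat_lit 5) (nat_lit 5) (nat_lit 5) (nat_lit 4) (nat_lit 378) (nat_lit 221) (nat_lit 181)) (XT.nd (nat_lit 78) (nat_lit 0) (nat_lit 0) (XT.lf (nat_lit 0) (nat_lit 7389455855) (nat_lit 76) (nat_lit 25765180853) (nat_lit 76) (nat_lit 15893197744) (nat_lit 4) (nat_lit 4) (nat_lit 5) (nat_lit 5) (nat_lit 5) (nat_lit 4) (nat_lit 379) (nat_lit 221) (nat_lit 180)) (XT.lf (nat_lit 0) (nat_lit 12100235937) (nat_lit 76) (nat_lit 24167312750) (nat_lit 76) (nat_lit 14173488199) (nat_lit 4) (nat_lit 4) (nat_lit 5) (nat_lit 5) (nat_lit 5) (nat_lit 4) (nat_lit 380) (nat_lit 221) (nat_lit 179))))))))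
noncomputable def xc24 : XT := (XT.nd (nat_lit 37128) (nat_lit 0) (nat_lit 456) (XT.nd (nat_lit 858) (nat_lit 0) (nat_lit 0) (XT.nd (nat_lit 390) (nat_lit 152) (nat_lit 0) (XT.nd (nat_lit 156) (nat_lit 0) (nat_lit 0) (XT.nd (nat_lit 78) (nat_lit 0) (nat_lit 0) (XT.lf (nat_lit 0) (nat_lit 16903998868) (nat_lit 76) (nat_lit 22542498090) (nat_lit 76) (nat_lit 12430380876) (nat_lit 4) (nat_lit 4) (nat_lit 5) (nat_lit 5) (nat_lit 5) (nat_lit 4) (nat_lit 381) (nat_lit 221) (nat_lit 178)) (XT.lf (nat_lit 0) (nat_lit 21804942111) (nat_lit 76) (nat_lit 20889317132) (nat_lit 76) (nat_lit 10662352673) (nat_lit 4) (nat_lit 4) (nat_lit 5) (nat_lit 5) (nat_lit 5) (nat_lit 4) (nat_lit 382) (nat_lit 221) (nat_lit 177))) (XT.nd (nat_lit 78) (nat_lit 0) (nat_lit 0) (XT.lf (nat_lit 0) (nat_lit 26807348045) (nat_lit 76) (nat_lit 19206325349) (nat_lit 76) (nat_lit 8867858710) (nat_lit 4) (nat_lit 4) (nat_lit 5)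 (nat_lit 5) (nat_lit 5) (nat_lit 4) (nat_lit 383) (nat_lit 221) (nat_lit 176)) (XT.nd (nat_lit 78) (nat_lit 0) (nat_lit 0) (XT.lf (nat_lit 0) (nat_lit 31915587704) (nat_lit 76) (nat_lit 17492052166) (nat_lit 76) (nat_lit 7045330984) (nat_lit 4) (nat_lit 4) (nat_lit 5) (nat_lit 5) (nat_lit 5) (nat_lit 4) (nat_lit 384) (nat_lit 221) (nat_lit 175)) (XT.lf (nat_lit 0) (nat_lit 37134124598) (nat_lit 76) (nat_lit 15744999673) (nat_lit 76) (nat_lit 5193176993) (nat_lit 4) (nat_lit 4) (nat_lit 5) (nat_lit 5) (nat_lit 5) (nat_lit 4) (nat_lit 385) (nat_lit 221) (nat_lit 174))))) (XT.nd (nat_lit 234) (nat_lit 76) (nat_lit 0) (XT.nd (nat_lit 78) (nat_lit 76) (nat_lit 0) (XT.lf (nat_lit 0) (nat_lit 42467518613) (nat_lit 76) (nat_lit 13963641321) (nat_lit 76) (nat_lit 3309778351) (nat_lit 4) (nat_lit 4) (nat_lit 5) (nat_lit 5) (nat_lit 5) (nat_lit 4) (nat_lit 386) (nat_lit 221) (nat_lit 173)) (XT.nd (nat_lit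 78) (nat_lit 76) (nat_lit 0) (XT.lf (nat_lit 0) (nat_lit 47920429997) (nat_lit 76) (nat_lit 12146420583) (nat_lit 76) (nat_lit 1393489370) (nat_lit 4) (nat_lit 4) (nat_lit 5) (nat_lit 5) (nat_lit 5) (nat_lit 4) (nat_lit 387) (nat_lit 221) (nat_lit 172)) (XT.lf (nat_lit 0) (nat_lit 546488189) (nat_lit 152) (nat_lit 9739742946) (nat_lit 76) (nat_lit 52945616781) (nat_lit 3) (nat_lit 5) (nat_lit 5) (nat_lit 5) (nat_lit 4) (nat_lit 4) (nat_lit 388) (nat_lit 221) (nat_lit 171)))) (XT.nd (nat_lit 78) (nat_lit 76) (nat_lit 0) (XT.lf (nat_lit 0) (nat_lit 2494835403) (nat_lit 152) (nat_lit 5877979423) (nat_lit 76) (nat_lit 56683943838) (nat_lit 3) (nat_lit 5) (nat_lit 5) (nat_lit 5) (nat_lit 4) (nat_lit 4) (nat_lit 389) (nat_lit 221) (nat_lit 170)) (XT.nd (nat_lit 78) (nat_lit 76) (nat_lit 0) (XT.lf (nat_lit 0) (nat_lit 4480446705) (nat_lit 152) (nat_lit 1937849955) (nat_lit 76) (nat_lit 60518771967)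 (nat_lit 3) (nat_lit 5) (nat_lit 5) (nat_lit 5) (nat_lit 4) (nat_lit 4) (nat_lit 390) (nat_lit 221) (nat_lit 169)) (XT.lf (nat_lit 0) (nat_lit 2125565730) (nat_lit 76) (nat_lit 4399923603) (nat_lit 152) (nat_lit 62348318496) (nat_lit 2) (nat_lit 5) (nat_lit 3) (nat_lit 5) (nat_lit 4) (nat_lit 4) (nat_lit 391) (nat_lit 221) (nat_lit 168)))))) (XT.nd (nat_lit 390) (nat_lit 0) (nat_lit 0) (XT.nd (nat_lit 156) (nat_lit 0) (nat_lit 0) (XT.nd (nat_lit 78) (nat_lit 0) (nat_lit 0) (XT.lf (nat_lit 0) (nat_lit 6314569618) (nat_lit 76) (nat_lit 2316565540) (nat_lit 152) (nat_lit 62237551859) (nat_lit 2) (nat_lit 5) (nat_lit 3) (nat_lit 5) (nat_lit 4) (nat_lit 4) (nat_lit 392) (nat_lit 221) (nat_lit 167)) (XT.lf (nat_lit 0) (nat_lit 10594254988) (nat_lit 76) (nat_lit 185970546) (nat_lit 152) (nat_lit 62143793712) (nat_lit 2) (nat_lit 5) (nat_lit 3) (nat_lit 5) (nat_lit 4) (nat_lit 4) (nat_lit 393) (nat_lit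 221) (nat_lit 166))) (XT.nd (nat_lit 78) (nat_lit 0) (nat_lit 0) (XT.lf (nat_lit 0) (nat_lit 12993803194) (nat_lit 152) (nat_lit 60092403951) (nat_lit 0) (nat_lit 1954818345) (nat_lit 2) (nat_lit 5) (nat_lit 4) (nat_lit 4) (nat_lit 2) (nat_lit 4) (nat_lit 394) (nat_lit 221) (nat_lit 165)) (XT.nd (nat_lit 78) (nat_lit 0) (nat_lit 0) (XT.lf (nat_lit 0) (nat_lit 15256898635) (nat_lit 152) (nat_lit 57823177808) (nat_lit 0) (nat_lit 4141986228) (nat_lit 2) (nat_lit 5) (nat_lit 4) (nat_lit 4) (nat_lit 2) (nat_lit 4) (nat_lit 395) (nat_lit 221) (nat_lit 164)) (XT.lf (nat_lit 0) (nat_lit 17569701658) (nat_lit 152) (nat_lit 55518315349) (nat_lit 0) (nat_lit 6381073174) (nat_lit 2) (nat_lit 5) (nat_lit 4) (nat_lit 4) (nat_lit 2) (nat_lit 4) (nat_lit 396) (nat_lit 221) (nat_lit 163))))) (XT.nd (nat_lit 234) (nat_lit 0) (nat_lit 0) (XT.nd (nat_lit 78) (nat_lit 0) (nat_lit 0) (XT.lf (nat_lit 0) (nat_lit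 19934233158) (nat_lit 152) (nat_lit 53175802614) (nat_lit 0) (nat_lit 8674035668) (nat_lit 2) (nat_lit 5) (nat_lit 4) (nat_lit 4) (nat_lit 2) (nat_lit 4) (nat_lit 397) (nat_lit 221) (nat_lit 162)) (XT.nd (nat_lit 78) (nat_lit 0) (nat_lit 0) (XT.lf (nat_lit 0) (nat_lit 22352559231) (nat_lit 152) (nat_lit 50793592749) (nat_lit 0) (nat_lit 11022877269) (nat_lit 2) (nat_lit 5) (nat_lit 4) (nat_lit 4) (nat_lit 2) (nat_lit 4) (nat_lit 398) (nat_lit 221) (nat_lit 161)) (XT.lf (nat_lit 0) (nat_lit 24826792978) (nat_lit 152) (nat_lit 48369604211) (nat_lit 0) (nat_lit 13429650363) (nat_lit 2) (nat_lit 5) (nat_lit 4) (nat_lit 4) (nat_lit 2) (nat_lit 4) (nat_lit 399) (nat_lit 221) (nat_lit 160)))) (XT.nd (nat_lit 78) (nat_lit 0) (nat_lit 0) (XT.lf (nat_lit 0) (nat_lit 27359096349) (nat_lit 152) (nat_lit 45901718951) (nat_lit 0) (nat_lit 15896457955) (nat_lit 2) (nat_lit 5) (nat_lit 4) (nat_lit 4) (nat_lit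 2) (nat_lit 4) (nat_lit 400) (nat_lit 221) (nat_lit 159)) (XT.nd (nat_lit 78) (nat_lit 0) (nat_lit 0) (XT.lf (nat_lit 0) (nat_lit 29951682038) (nat_lit 152) (nat_lit 43387780566) (nat_lit 0) (nat_lit 18425455509) (nat_lit 2) (nat_lit 5) (nat_lit 4) (nat_lit 4) (nat_lit 2) (nat_lit 4) (nat_lit 401) (nat_lit 221) (nat_lit 158)) (XT.lf (nat_lit 0) (nat_lit 32606815410) (nat_lit 152) (nat_lit 40825592409) (nat_lit 0) (nat_lit 21018852828) (nat_lit 2) (nat_lit 5) (nat_lit 4) (nat_lit 4) (nat_lit 2) (nat_lit 4) (nat_lit 402) (nat_lit 221) (nat_lit 157))))))) (XT.nd (nat_lit 858) (nat_lit 456) (nat_lit 0) (XT.nd (nat_lit 390) (nat_lit 304) (nat_lit 0) (XT.nd (nat_lit 156) (nat_lit 152) (nat_lit 0) (XT.nd (nat_lit 78) (nat_lit 0) (nat_lit 0) (XT.lf (nat_lit 0) (nat_lit 179879258) (nat_lit 152) (nat_lit 7754026757) (nat_lit 0) (nat_lit 179879258) (nat_lit 20) (nat_lit 5) (nat_lit 22) (nat_lit 4) (nat_lit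 20) (nat_lit 4) (nat_lit 336) (nat_lit 222) (nat_lit 222)) (XT.lf (nat_lit 0) (nat_lit 3811276426) (nat_lit 152) (nat_lit 9444119495) (nat_lit 0) (nat_lit 3336698682) (nat_lit 20) (nat_lit 5) (nat_lit 22) (nat_lit 4) (nat_lit 20) (nat_lit 4) (nat_lit 337) (nat_lit 222) (nat_lit 221))) (XT.nd (nat_lit 78) (nat_lit 152) (nat_lit 0) (XT.lf (nat_lit 0) (nat_lit 7290412149) (nat_lit 152) (nat_lit 3324426093) (nat_lit 0) (nat_lit 6355079314) (nat_lit 20) (nat_lit 5) (nat_lit 22) (nat_lit 4) (nat_lit 20) (nat_lit 4) (nat_lit 338) (nat_lit 222) (nat_lit 220)) (XT.nd (nat_lit 78) (nat_lit 0) (nat_lit 0) (XT.lf (nat_lit 0) (nat_lit 2913221439) (nat_lit 152) (nat_lit 7914987935) (nat_lit 152) (nat_lit 6532320060) (nat_lit 18) (nat_lit 4) (nat_lit 20) (nat_lit 5) (nat_lit 20) (nat_lit 4) (nat_lit 339) (nat_lit 222) (nat_lit 219)) (XT.lf (nat_lit 0) (nat_lit 9284862583) (nat_lit 152) (nat_lit 5148113106)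 (nat_lit 152) (nat_lit 3331139367) (nat_lit 18) (nat_lit 4) (nat_lit 20) (nat_lit 5) (nat_lit 20) (nat_lit 4) (nat_lit 340) (nat_lit 222) (nat_lit 218))))) (XT.nd (nat_lit 234) (nat_lit 152) (nat_lit 0) (XT.nd (nat_lit 78) (nat_lit 152) (nat_lit 0) (XT.lf (nat_lit 0) (nat_lit 15729902195) (nat_lit 152) (nat_lit 2345366284) (nat_lit 152) (nat_lit 106736366) (nat_lit 18) (nat_lit 4) (nat_lit 20) (nat_lit 5) (nat_lit 20) (nat_lit 4) (nat_lit 341) (nat_lit 222) (nat_lit 217)) (XT.nd (nat_lit 78) (nat_lit 0) (nat_lit 0) (XT.lf (nat_lit 0) (nat_lit 3123160076) (nat_lit 152) (nat_lit 14936991749) (nat_lit 0) (nat_lit 552281581) (nat_lit 16) (nat_lit 5) (nat_lit 18) (nat_lit 4) (nat_lit 16) (nat_lit 4) (nat_lit 342) (nat_lit 222) (nat_lit 216)) (XT.lf (nat_lit 0) (nat_lit 6427195598) (nat_lit 152) (nat_lit 9158795404) (nat_lit 0) (nat_lit 3470441968) (nat_lit 16) (nat_lit 5) (nat_lit 18) (nat_lit 4)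 (nat_lit 16) (nat_lit 4) (nat_lit 343) (nat_lit 222) (nat_lit 215)))) (XT.nd (nat_lit 78) (nat_lit 152) (nat_lit 0) (XT.lf (nat_lit 0) (nat_lit 9763516693) (nat_lit 152) (nat_lit 3320183275) (nat_lit 0) (nat_lit 6432127010) (nat_lit 16) (nat_lit 5) (nat_lit 18) (nat_lit 4) (nat_lit 16) (nat_lit 4) (nat_lit 344) (nat_lit 222) (nat_lit 214)) (XT.nd (nat_lit 78) (nat_lit 0) (nat_lit 0) (XT.lf (nat_lit 0) (nat_lit 2635371934) (nat_lit 152) (nat_lit 10524999466) (nat_lit 152) (nat_lit 6829885459) (nat_lit 14) (nat_lit 4) (nat_lit 16) (nat_lit 5) (nat_lit 16) (nat_lit 4) (nat_lit 345) (nat_lit 222) (nat_lit 213)) (XT.lf (nat_lit 0) (nat_lit 8729088333) (nat_lit 152) (nat_lit 7899528292) (nat_lit 152) (nat_lit 3851283873) (nat_lit 14) (nat_lit 4) (nat_lit 16) (nat_lit 5) (nat_lit 16) (nat_lit 4) (nat_lit 346) (nat_lit 222) (nat_lit 212)))))) (XT.nd (nat_lit 468) (nat_lit 304) (nat_lit 0) (XT.nd (nat_lit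 234) (nat_lit 0) (nat_lit 0) (XT.nd (nat_lit 78) (nat_lit 152) (nat_lit 0) (XT.lf (nat_lit 0) (nat_lit 14900212370) (nat_lit 152) (nat_lit 5238519686) (nat_lit 152) (nat_lit 847430209) (nat_lit 14) (nat_lit 4) (nat_lit 16) (nat_lit 5) (nat_lit 16) (nat_lit 4) (nat_lit 347) (nat_lit 222) (nat_lit 211)) (XT.nd (nat_lit 78) (nat_lit 76) (nat_lit 0) (XT.lf (nat_lit 0) (nat_lit 2141676695) (nat_lit 228) (nat_lit 376345066) (nat_lit 76) (nat_lit 18990832857) (nat_lit 13) (nat_lit 5) (nat_lit 16) (nat_lit 5) (nat_lit 14) (nat_lit 4) (nat_lit 348) (nat_lit 222) (nat_lit 210)) (XT.lf (nat_lit 0) (nat_lit 5200015371) (nat_lit 152) (nat_lit 16547215486) (nat_lit 0) (nat_lit 299905556) (nat_lit 12) (nat_lit 5) (nat_lit 14) (nat_lit 4) (nat_lit 12) (nat_lit 4) (nat_lit 349) (nat_lit 222) (nat_lit 209)))) (XT.nd (nat_lit 78) (nat_lit 0) (nat_lit 0) (XT.lf (nat_lit 0) (nat_lit 8319999053) (nat_lit 152) (nat_lit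 11167251345) (nat_lit 0) (nat_lit 3115275842) (nat_lit 12) (nat_lit 5) (nat_lit 14) (nat_lit 4) (nat_lit 12) (nat_lit 4) (nat_lit 350) (nat_lit 222) (nat_lit 208)) (XT.nd (nat_lit 78) (nat_lit 0) (nat_lit 0) (XT.lf (nat_lit 0) (nat_lit 11476422984) (nat_lit 152) (nat_lit 5723965721) (nat_lit 0) (nat_lit 5975958613) (nat_lit 12) (nat_lit 5) (nat_lit 14) (nat_lit 4) (nat_lit 12) (nat_lit 4) (nat_lit 351) (nat_lit 222) (nat_lit 207)) (XT.lf (nat_lit 0) (nat_lit 14672045205) (nat_lit 152) (nat_lit 212602344) (nat_lit 0) (nat_lit 8884453495) (nat_lit 12) (nat_lit 5) (nat_lit 14) (nat_lit 4) (nat_lit 12) (nat_lit 4) (nat_lit 352) (nat_lit 222) (nat_lit 206))))) (XT.nd (nat_lit 234) (nat_lit 152) (nat_lit 0) (XT.nd (nat_lit 78) (nat_lit 0) (nat_lit 0) (XT.lf (nat_lit 0) (nat_lit 5478560996) (nat_lit 152) (nat_lit 12483760291) (nat_lit 152) (nat_lit 6417404173) (nat_lit 10) (nat_lit 4) (nat_lit 12)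 (nat_lit 5) (nat_lit 12) (nat_lit 4) (nat_lit 353) (nat_lit 222) (nat_lit 205)) (XT.nd (nat_lit 78) (nat_lit 0) (nat_lit 0) (XT.lf (nat_lit 0) (nat_lit 11253276329) (nat_lit 152) (nat_lit 10046987421) (nat_lit 152) (nat_lit 3709986247) (nat_lit 10) (nat_lit 4) (nat_lit 12) (nat_lit 5) (nat_lit 12) (nat_lit 4) (nat_lit 354) (nat_lit 222) (nat_lit 204)) (XT.lf (nat_lit 0) (nat_lit 17112358319) (nat_lit 152) (nat_lit 7574346586) (nat_lit 152) (nat_lit 974583222) (nat_lit 10) (nat_lit 4) (nat_lit 12) (nat_lit 5) (nat_lit 12) (nat_lit 4) (nat_lit 355) (nat_lit 222) (nat_lit 203)))) (XT.nd (nat_lit 78) (nat_lit 76) (nat_lit 0) (XT.lf (nat_lit 0) (nat_lit 1756242391) (nat_lit 228) (nat_lit 3289700231) (nat_lit 76) (nat_lit 21286949555) (nat_lit 9) (nat_lit 5) (nat_lit 12) (nat_lit 5) (nat_lit 10) (nat_lit 4) (nat_lit 356) (nat_lit 222) (nat_lit 202)) (XT.nd (nat_lit 78) (nat_lit 0) (nat_lit 0) (XT.lf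 (nat_lit 0) (nat_lit 2073318009) (nat_lit 76) (nat_lit 2446814434) (nat_lit 152) (nat_lit 22505145132) (nat_lit 8) (nat_lit 5) (nat_lit 9) (nat_lit 5) (nat_lit 10) (nat_lit 4) (nat_lit 357) (nat_lit 222) (nat_lit 201)) (XT.lf (nat_lit 0) (nat_lit 7353784882) (nat_lit 152) (nat_lit 20160443886) (nat_lit 0) (nat_lit 224643640) (nat_lit 8) (nat_lit 5) (nat_lit 10) (nat_lit 4) (nat_lit 8) (nat_lit 4) (nat_lit 358) (nat_lit 222) (nat_lit 200))))))))
noncomputable def xc25 : XT := (XT.nd (nat_lit 1716) (nat_lit 152) (nat_lit 0) (XT.nd (nat_lit 858) (nat_lit 76) (nat_lit 0) (XT.nd (nat_lit 390) (nat_lit 152) (nat_lit 0) (XT.nd (nat_lit 156) (nat_lit 76) (nat_lit 0) (XT.nd (nat_lit 78) (nat_lit 0) (nat_lit 0) (XT.lf (nat_lit 0) (nat_lit 10249181118) (nat_lit 152) (nat_lit 15332055020) (nat_lit 0) (nat_lit 2893378902) (nat_lit 8) (nat_lit 5) (nat_lit 10) (nat_lit 4) (nat_lit 8) (nat_lit 4) (nat_lit 359)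 (nat_lit 222) (nat_lit 199)) (XT.lf (nat_lit 0) (nat_lit 13185330834) (nat_lit 152) (nat_lit 10439053711) (nat_lit 0) (nat_lit 5609469420) (nat_lit 8) (nat_lit 5) (nat_lit 10) (nat_lit 4) (nat_lit 8) (nat_lit 4) (nat_lit 360) (nat_lit 222) (nat_lit 198))) (XT.nd (nat_lit 78) (nat_lit 76) (nat_lit 0) (XT.lf (nat_lit 0) (nat_lit 16164799597) (nat_lit 152) (nat_lit 5477164523) (nat_lit 0) (nat_lit 8375288477) (nat_lit 8) (nat_lit 5) (nat_lit 10) (nat_lit 4) (nat_lit 8) (nat_lit 4) (nat_lit 361) (nat_lit 222) (nat_lit 197)) (XT.nd (nat_lit 78) (nat_lit 76) (nat_lit 0) (XT.lf (nat_lit 0) (nat_lit 19190190826) (nat_lit 152) (nat_lit 442051822) (nat_lit 0) (nat_lit 11193252806) (nat_lit 8) (nat_lit 5) (nat_lit 10) (nat_lit 4) (nat_lit 8) (nat_lit 4) (nat_lit 362) (nat_lit 222) (nat_lit 196)) (XT.lf (nat_lit 0) (nat_lit 4763639773) (nat_lit 76) (nat_lit 17546299313) (nat_lit 76) (nat_lit 9347975954)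 (nat_lit 7) (nat_lit 4) (nat_lit 8) (nat_lit 5) (nat_lit 8) (nat_lit 4) (nat_lit 363) (nat_lit 222) (nat_lit 195))))) (XT.nd (nat_lit 234) (nat_lit 152) (nat_lit 0) (XT.nd (nat_lit 78) (nat_lit 0) (nat_lit 0) (XT.lf (nat_lit 0) (nat_lit 10061853394) (nat_lit 76) (nat_lit 15424224597) (nat_lit 76) (nat_lit 7030381492) (nat_lit 7) (nat_lit 4) (nat_lit 8) (nat_lit 5) (nat_lit 8) (nat_lit 4) (nat_lit 364) (nat_lit 222) (nat_lit 194)) (XT.nd (nat_lit 78) (nat_lit 0) (nat_lit 0) (XT.lf (nat_lit 0) (nat_lit 15448420849) (nat_lit 76) (nat_lit 13268628118) (nat_lit 76) (nat_lit 4684960016) (nat_lit 7) (nat_lit 4) (nat_lit 8) (nat_lit 5) (nat_lit 8) (nat_lit 4) (nat_lit 365) (nat_lit 222) (nat_lit 193)) (XT.lf (nat_lit 0) (nat_lit 20928048847) (nat_lit 76) (nat_lit 11077626345) (nat_lit 76) (nat_lit 2309662128) (nat_lit 7) (nat_lit 4) (nat_lit 8) (nat_lit 5) (nat_lit 8) (nat_lit 4) (nat_lit 366) (nat_lit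 222) (nat_lit 192)))) (XT.nd (nat_lit 78) (nat_lit 76) (nat_lit 0) (XT.lf (nat_lit 0) (nat_lit 95683385) (nat_lit 152) (nat_lit 8752655208) (nat_lit 76) (nat_lit 26408875814) (nat_lit 6) (nat_lit 5) (nat_lit 8) (nat_lit 5) (nat_lit 7) (nat_lit 4) (nat_lit 367) (nat_lit 222) (nat_lit 191)) (XT.nd (nat_lit 78) (nat_lit 76) (nat_lit 0) (XT.lf (nat_lit 0) (nat_lit 2489349867) (nat_lit 152) (nat_lit 4067229013) (nat_lit 76) (nat_lit 29671236652) (nat_lit 6) (nat_lit 5) (nat_lit 8) (nat_lit 5) (nat_lit 7) (nat_lit 4) (nat_lit 368) (nat_lit 222) (nat_lit 190)) (XT.lf (nat_lit 0) (nat_lit 709123613) (nat_lit 76) (nat_lit 4216191612) (nat_lit 152) (nat_lit 32303135130) (nat_lit 5) (nat_lit 5) (nat_lit 6) (nat_lit 5) (nat_lit 7) (nat_lit 4) (nat_lit 369) (nat_lit 222) (nat_lit 189)))))) (XT.nd (nat_lit 390) (nat_lit 76) (nat_lit 0) (XT.nd (nat_lit 156) (nat_lit 0) (nat_lit 0) (XT.nd (nat_lit 78) (nat_lit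 0) (nat_lit 0) (XT.lf (nat_lit 0) (nat_lit 5649289410) (nat_lit 76) (nat_lit 1790267444) (nat_lit 152) (nat_lit 30819420895) (nat_lit 5) (nat_lit 5) (nat_lit 6) (nat_lit 5) (nat_lit 7) (nat_lit 4) (nat_lit 370) (nat_lit 222) (nat_lit 188)) (XT.lf (nat_lit 0) (nat_lit 10000955001) (nat_lit 152) (nat_lit 28651413356) (nat_lit 0) (nat_lit 668929319) (nat_lit 5) (nat_lit 5) (nat_lit 7) (nat_lit 4) (nat_lit 5) (nat_lit 4) (nat_lit 371) (nat_lit 222) (nat_lit 187))) (XT.nd (nat_lit 78) (nat_lit 0) (nat_lit 0) (XT.lf (nat_lit 0) (nat_lit 12622861640) (nat_lit 152) (nat_lit 24652156966) (nat_lit 0) (nat_lit 3140986353) (nat_lit 5) (nat_lit 5) (nat_lit 7) (nat_lit 4) (nat_lit 5) (nat_lit 4) (nat_lit 372) (nat_lit 222) (nat_lit 186)) (XT.nd (nat_lit 78) (nat_lit 0) (nat_lit 0) (XT.lf (nat_lit 0) (nat_lit 15290358614) (nat_lit 152) (nat_lit 20591215529) (nat_lit 0) (nat_lit 5662998273) (nat_lit 5) (nat_lit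 5) (nat_lit 7) (nat_lit 4) (nat_lit 5) (nat_lit 4) (nat_lit 373) (nat_lit 222) (nat_lit 185)) (XT.lf (nat_lit 0) (nat_lit 18005776744) (nat_lit 152) (nat_lit 16465040649) (nat_lit 0) (nat_lit 8237168778) (nat_lit 5) (nat_lit 5) (nat_lit 7) (nat_lit 4) (nat_lit 5) (nat_lit 4) (nat_lit 374) (nat_lit 222) (nat_lit 184))))) (XT.nd (nat_lit 234) (nat_lit 76) (nat_lit 0) (XT.nd (nat_lit 78) (nat_lit 0) (nat_lit 0) (XT.lf (nat_lit 0) (nat_lit 20771488726) (nat_lit 152) (nat_lit 12270026931) (nat_lit 0) (nat_lit 10865747143) (nat_lit 5) (nat_lit 5) (nat_lit 7) (nat_lit 4) (nat_lit 5) (nat_lit 4) (nat_lit 375) (nat_lit 222) (nat_lit 183)) (XT.nd (nat_lit 78) (nat_lit 0) (nat_lit 0) (XT.lf (nat_lit 0) (nat_lit 23589911202) (nat_lit 152) (nat_lit 8002508828) (nat_lit 0) (nat_lit 13551030185) (nat_lit 5) (nat_lit 5) (nat_lit 7) (nat_lit 4) (nat_lit 5) (nat_lit 4) (nat_lit 376) (nat_lit 222) (nat_lit 182))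 (XT.lf (nat_lit 0) (nat_lit 26463506870) (nat_lit 152) (nat_lit 3658757441) (nat_lit 0) (nat_lit 16295364267) (nat_lit 5) (nat_lit 5) (nat_lit 7) (nat_lit 4) (nat_lit 5) (nat_lit 4) (nat_lit 377) (nat_lit 222) (nat_lit 181)))) (XT.nd (nat_lit 78) (nat_lit 0) (nat_lit 0) (XT.lf (nat_lit 0) (nat_lit 780248191) (nat_lit 76) (nat_lit 28622038671) (nat_lit 76) (nat_lit 18328399383) (nat_lit 4) (nat_lit 4) (nat_lit 5) (nat_lit 5) (nat_lit 5) (nat_lit 4) (nat_lit 378) (nat_lit 222) (nat_lit 180)) (XT.nd (nat_lit 78) (nat_lit 0) (nat_lit 0) (XT.lf (nat_lit 0) (nat_lit 5377634166) (nat_lit 76) (nat_lit 27060370767) (nat_lit 76) (nat_lit 16644890037) (nat_lit 4) (nat_lit 4) (nat_lit 5) (nat_lit 5) (nat_lit 5) (nat_lit 4) (nat_lit 379) (nat_lit 222) (nat_lit 179)) (XT.lf (nat_lit 0) (nat_lit 10064601167) (nat_lit 76) (nat_lit 25472842313) (nat_lit 76) (nat_lit 14939068920) (nat_lit 4) (nat_lit 4) (nat_lit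 5) (nat_lit 5) (nat_lit 5) (nat_lit 4) (nat_lit 380) (nat_lit 222) (nat_lit 178))))))) (XT.nd (nat_lit 858) (nat_lit 76) (nat_lit 0) (XT.nd (nat_lit 390) (nat_lit 76) (nat_lit 0) (XT.nd (nat_lit 156) (nat_lit 0) (nat_lit 0) (XT.nd (nat_lit 78) (nat_lit 0) (nat_lit 0) (XT.lf (nat_lit 0) (nat_lit 14845244603) (nat_lit 76) (nat_lit 23858066146) (nat_lit 76) (nat_lit 13209445508) (nat_lit 4) (nat_lit 4) (nat_lit 5) (nat_lit 5) (nat_lit 5) (nat_lit 4) (nat_lit 381) (nat_lit 222) (nat_lit 177)) (XT.lf (nat_lit 0) (nat_lit 19723741735) (nat_lit 76) (nat_lit 22214631298) (nat_lit 76) (nat_lit 11454508481) (nat_lit 4) (nat_lit 4) (nat_lit 5) (nat_lit 5) (nat_lit 5) (nat_lit 4) (nat_lit 382) (nat_lit 222) (nat_lit 176))) (XT.nd (nat_lit 78) (nat_lit 0) (nat_lit 0) (XT.lf (nat_lit 0) (nat_lit 24704355327) (nat_lit 76) (nat_lit 20541101758) (nat_lit 76) (nat_lit 9672724397) (nat_lit 4) (nat_lit 4) (nat_lit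 5) (nat_lit 5) (nat_lit 5) (nat_lit 4) (nat_lit 383) (nat_lit 222) (nat_lit 175)) (XT.nd (nat_lit 78) (nat_lit 0) (nat_lit 0) (XT.lf (nat_lit 0) (nat_lit 29791437373) (nat_lit 76) (nat_lit 18836015218) (nat_lit 76) (nat_lit 7862536359) (nat_lit 4) (nat_lit 4) (nat_lit 5) (nat_lit 5) (nat_lit 5) (nat_lit 4) (nat_lit 384) (nat_lit 222) (nat_lit 174)) (XT.lf (nat_lit 0) (nat_lit 34989432894) (nat_lit 76) (nat_lit 17097881797) (nat_lit 76) (nat_lit 6022362649) (nat_lit 4) (nat_lit 4) (nat_lit 5) (nat_lit 5) (nat_lit 5) (nat_lit 4) (nat_lit 385) (nat_lit 222) (nat_lit 173))))) (XT.nd (nat_lit 234) (nat_lit 76) (nat_lit 0) (XT.nd (nat_lit 78) (nat_lit 0) (nat_lit 0) (XT.lf (nat_lit 0) (nat_lit 40302883830) (nat_lit 76) (nat_lit 15325182738) (nat_lit 76) (nat_lit 4150595347) (nat_lit 4) (nat_lit 4) (nat_lit 5) (nat_lit 5) (nat_lit 5) (nat_lit 4) (nat_lit 386) (nat_lit 222) (nat_lit 172)) (XT.nd (nat_lit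 78) (nat_lit 0) (nat_lit 0) (XT.lf (nat_lit 0) (nat_lit 45736433001) (nat_lit 76) (nat_lit 13516369080) (nat_lit 76) (nat_lit 2245598929) (nat_lit 4) (nat_lit 4) (nat_lit 5) (nat_lit 5) (nat_lit 5) (nat_lit 4) (nat_lit 387) (nat_lit 222) (nat_lit 171)) (XT.lf (nat_lit 0) (nat_lit 51294828168) (nat_lit 76) (nat_lit 11669860306) (nat_lit 76) (nat_lit 305708835) (nat_lit 4) (nat_lit 4) (nat_lit 5) (nat_lit 5) (nat_lit 5) (nat_lit 4) (nat_lit 388) (nat_lit 222) (nat_lit 170)))) (XT.nd (nat_lit 78) (nat_lit 0) (nat_lit 0) (XT.lf (nat_lit 0) (nat_lit 1638167243) (nat_lit 152) (nat_lit 8129333442) (nat_lit 76) (nat_lit 55328216662) (nat_lit 3) (nat_lit 5) (nat_lit 5) (nat_lit 5) (nat_lit 4) (nat_lit 4) (nat_lit 389) (nat_lit 222) (nat_lit 169)) (XT.nd (nat_lit 78) (nat_lit 0) (nat_lit 0) (XT.lf (nat_lit 0) (nat_lit 3613645909) (nat_lit 152) (nat_lit 4207132599) (nat_lit 76) (nat_lit 59155560578) (nat_lit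 3) (nat_lit 5) (nat_lit 5) (nat_lit 5) (nat_lit 4) (nat_lit 4) (nat_lit 390) (nat_lit 222) (nat_lit 168)) (XT.lf (nat_lit 0) (nat_lit 5628418790) (nat_lit 152) (nat_lit 202600788) (nat_lit 76) (nat_lit 63082974374) (nat_lit 3) (nat_lit 5) (nat_lit 5) (nat_lit 5) (nat_lit 4) (nat_lit 4) (nat_lit 391) (nat_lit 222) (nat_lit 167)))))) (XT.nd (nat_lit 468) (nat_lit 0) (nat_lit 0) (XT.nd (nat_lit 234) (nat_lit 0) (nat_lit 0) (XT.nd (nat_lit 78) (nat_lit 0) (nat_lit 0) (XT.lf (nat_lit 0) (nat_lit 3965135166) (nat_lit 76) (nat_lit 3757226504) (nat_lit 152) (nat_lit 63186869908) (nat_lit 2) (nat_lit 5) (nat_lit 3) (nat_lit 5) (nat_lit 4) (nat_lit 4) (nat_lit 392) (nat_lit 222) (nat_lit 166)) (XT.nd (nat_lit 78) (nat_lit 0) (nat_lit 0) (XT.lf (nat_lit 0) (nat_lit 8228086768) (nat_lit 76) (nat_lit 1633931626) (nat_lit 152) (nat_lit 63102835558) (nat_lit 2) (nat_lit 5) (nat_lit 3) (nat_lit 5) (nat_lit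 4) (nat_lit 4) (nat_lit 393) (nat_lit 222) (nat_lit 165)) (XT.lf (nat_lit 0) (nat_lit 12052450351) (nat_lit 152) (nat_lit 62501948130) (nat_lit 0) (nat_lit 528163013) (nat_lit 2) (nat_lit 5) (nat_lit 4) (nat_lit 4) (nat_lit 2) (nat_lit 4) (nat_lit 394) (nat_lit 222) (nat_lit 164)))) (XT.nd (nat_lit 78) (nat_lit 0) (nat_lit 0) (XT.lf (nat_lit 0) (nat_lit 14306587526) (nat_lit 152) (nat_lit 60248702514) (nat_lit 0) (nat_lit 2708584111) (nat_lit 2) (nat_lit 5) (nat_lit 4) (nat_lit 4) (nat_lit 2) (nat_lit 4) (nat_lit 395) (nat_lit 222) (nat_lit 163)) (XT.nd (nat_lit 78) (nat_lit 0) (nat_lit 0) (XT.lf (nat_lit 0) (nat_lit 16610693202) (nat_lit 152) (nat_lit 57959355127) (nat_lit 0) (nat_lit 4941120781) (nat_lit 2) (nat_lit 5) (nat_lit 4) (nat_lit 4) (nat_lit 2) (nat_lit 4) (nat_lit 396) (nat_lit 222) (nat_lit 162)) (XT.lf (nat_lit 0) (nat_lit 18966780677) (nat_lit 152) (nat_lit 55631905571) (nat_lit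 0) (nat_lit 7227723784) (nat_lit 2) (nat_lit 5) (nat_lit 4) (nat_lit 4) (nat_lit 2) (nat_lit 4) (nat_lit 397) (nat_lit 222) (nat_lit 161))))) (XT.nd (nat_lit 234) (nat_lit 0) (nat_lit 0) (XT.nd (nat_lit 78) (nat_lit 0) (nat_lit 0) (XT.lf (nat_lit 0) (nat_lit 21376908667) (nat_lit 152) (nat_lit 53264320150) (nat_lit 0) (nat_lit 9570391121) (nat_lit 2) (nat_lit 5) (nat_lit 4) (nat_lit 4) (nat_lit 2) (nat_lit 4) (nat_lit 398) (nat_lit 222) (nat_lit 160)) (XT.nd (nat_lit 78) (nat_lit 0) (nat_lit 0) (XT.lf (nat_lit 0) (nat_lit 23843183109) (nat_lit 152) (nat_lit 50854530102) (nat_lit 0) (nat_lit 11971169784) (nat_lit 2) (nat_lit 5) (nat_lit 4) (nat_lit 4) (nat_lit 2) (nat_lit 4) (nat_lit 399) (nat_lit 222) (nat_lit 159)) (XT.lf (nat_lit 0) (nat_lit 26367759000) (nat_lit 152) (nat_lit 48400429784) (nat_lit 0) (nat_lit 14432157541) (nat_lit 2) (nat_lit 5) (nat_lit 4) (nat_lit 4) (nat_lit 2) (nat_lit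 4) (nat_lit 400) (nat_lit 222) (nat_lit 158)))) (XT.nd (nat_lit 78) (nat_lit 0) (nat_lit 0) (XT.lf (nat_lit 0) (nat_lit 28952842282) (nat_lit 152) (nat_lit 45899874837) (nat_lit 0) (nat_lit 16955504769) (nat_lit 2) (nat_lit 5) (nat_lit 4) (nat_lit 4) (nat_lit 2) (nat_lit 4) (nat_lit 401) (nat_lit 222) (nat_lit 157)) (XT.nd (nat_lit 35334) (nat_lit 0) (nat_lit 1520) (XT.lf (nat_lit 0) (nat_lit 31600691763) (nat_lit 152) (nat_lit 43350680311) (nat_lit 0) (nat_lit 19543416334) (nat_lit 2) (nat_lit 5) (nat_lit 4) (nat_lit 4) (nat_lit 2) (nat_lit 4) (nat_lit 402) (nat_lit 222) (nat_lit 156)) (XT.lf (nat_lit 0) (nat_lit 1878819180) (nat_lit 152) (nat_lit 2942847989) (nat_lit 152) (nat_lit 2942847989) (nat_lit 22) (nat_lit 4) (nat_lit 24) (nat_lit 5) (nat_lit 24) (nat_lit 4) (nat_lit 334) (nat_lit 223) (nat_lit 223))))))))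
noncomputable def xc26 : XT := (XT.nd (nat_lit 1716) (nat_lit 380) (nat_lit 0) (XT.nd (nat_lit 858) (nat_lit 380) (nat_lit 0) (XT.nd (nat_lit 390) (nat_lit 304) (nat_lit 0) (XT.nd (nat_lit 156) (nat_lit 152) (nat_lit 0) (XT.nd (nat_lit 78) (nat_lit 152) (nat_lit 0) (XT.lf (nat_lit 0) (nat_lit 10282602529) (nat_lit 152) (nat_lit 3046815676) (nat_lit 152) (nat_lit 2543336147) (nat_lit 22) (nat_lit 4) (nat_lit 24) (nat_lit 5) (nat_lit 24) (nat_lit 4) (nat_lit 335) (nat_lit 223) (nat_lit 222)) (XT.lf (nat_lit 0) (nat_lit 655156082) (nat_lit 76) (nat_lit 156395980) (nat_lit 152) (nat_lit 15417172434) (nat_lit 20) (nat_lit 5) (nat_lit 21) (nat_lit 5) (nat_lit 22) (nat_lit 4) (nat_lit 336) (nat_lit 223) (nat_lit 221))) (XT.nd (nat_lit 78) (nat_lit 152) (nat_lit 0) (XT.lf (nat_lit 0) (nat_lit 4224163778) (nat_lit 152) (nat_lit 9570278133) (nat_lit 0) (nat_lit 2800015867) (nat_lit 20) (nat_lit 5) (nat_lit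 22) (nat_lit 4) (nat_lit 20) (nat_lit 4) (nat_lit 337) (nat_lit 223) (nat_lit 220)) (XT.nd (nat_lit 78) (nat_lit 152) (nat_lit 0) (XT.lf (nat_lit 0) (nat_lit 7666986085) (nat_lit 152) (nat_lit 3510921733) (nat_lit 0) (nat_lit 5795503133) (nat_lit 20) (nat_lit 5) (nat_lit 22) (nat_lit 4) (nat_lit 20) (nat_lit 4) (nat_lit 338) (nat_lit 223) (nat_lit 219)) (XT.lf (nat_lit 0) (nat_lit 2663268706) (nat_lit 152) (nat_lit 8503856159) (nat_lit 152) (nat_lit 6198067343) (nat_lit 18) (nat_lit 4) (nat_lit 20) (nat_lit 5) (nat_lit 20) (nat_lit 4) (nat_lit 339) (nat_lit 223) (nat_lit 218))))) (XT.nd (nat_lit 234) (nat_lit 152) (nat_lit 0) (XT.nd (nat_lit 78) (nat_lit 152) (nat_lit 0) (XT.lf (nat_lit 0) (nat_lit 8976904547) (nat_lit 152) (nat_lit 5760200173) (nat_lit 152) (nat_lit 3032755179) (nat_lit 18) (nat_lit 4) (nat_lit 20) (nat_lit 5) (nat_lit 20) (nat_lit 4) (nat_lit 340) (nat_lit 223) (nat_lit 217))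 (XT.nd (nat_lit 78) (nat_lit 76) (nat_lit 0) (XT.lf (nat_lit 0) (nat_lit 153763806) (nat_lit 228) (nat_lit 2824679398) (nat_lit 76) (nat_lit 15210311810) (nat_lit 17) (nat_lit 5) (nat_lit 20) (nat_lit 5) (nat_lit 18) (nat_lit 4) (nat_lit 341) (nat_lit 223) (nat_lit 216)) (XT.lf (nat_lit 0) (nat_lit 3243507929) (nat_lit 76) (nat_lit 95299579) (nat_lit 152) (nat_lit 15281663593) (nat_lit 16) (nat_lit 5) (nat_lit 17) (nat_lit 5) (nat_lit 18) (nat_lit 4) (nat_lit 342) (nat_lit 223) (nat_lit 215)))) (XT.nd (nat_lit 78) (nat_lit 152) (nat_lit 0) (XT.lf (nat_lit 0) (nat_lit 6609003065) (nat_lit 152) (nat_lit 9653481345) (nat_lit 0) (nat_lit 2803035638) (nat_lit 16) (nat_lit 5) (nat_lit 18) (nat_lit 4) (nat_lit 16) (nat_lit 4) (nat_lit 343) (nat_lit 223) (nat_lit 214)) (XT.nd (nat_lit 78) (nat_lit 152) (nat_lit 0) (XT.lf (nat_lit 0) (nat_lit 9913359220) (nat_lit 152) (nat_lit 3868879502) (nat_lit 0)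 (nat_lit 5743667470) (nat_lit 16) (nat_lit 5) (nat_lit 18) (nat_lit 4) (nat_lit 16) (nat_lit 4) (nat_lit 344) (nat_lit 223) (nat_lit 213)) (XT.lf (nat_lit 0) (nat_lit 2022274803) (nat_lit 152) (nat_lit 11251011738) (nat_lit 152) (nat_lit 6728189575) (nat_lit 14) (nat_lit 4) (nat_lit 16) (nat_lit 5) (nat_lit 16) (nat_lit 4) (nat_lit 345) (nat_lit 223) (nat_lit 212)))))) (XT.nd (nat_lit 390) (nat_lit 228) (nat_lit 0) (XT.nd (nat_lit 156) (nat_lit 152) (nat_lit 0) (XT.nd (nat_lit 78) (nat_lit 0) (nat_lit 0) (XT.lf (nat_lit 0) (nat_lit 8064068121) (nat_lit 152) (nat_lit 8646834506) (nat_lit 152) (nat_lit 3781167285) (nat_lit 14) (nat_lit 4) (nat_lit 16) (nat_lit 5) (nat_lit 16) (nat_lit 4) (nat_lit 346) (nat_lit 223) (nat_lit 211)) (XT.lf (nat_lit 0) (nat_lit 14184781399) (nat_lit 152) (nat_lit 6006499632) (nat_lit 152) (nat_lit 807973129) (nat_lit 14) (nat_lit 4) (nat_lit 16) (nat_lit 5) (nat_lit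 16) (nat_lit 4) (nat_lit 347) (nat_lit 223) (nat_lit 210))) (XT.nd (nat_lit 78) (nat_lit 76) (nat_lit 0) (XT.lf (nat_lit 0) (nat_lit 2151178163) (nat_lit 228) (nat_lit 1154799182) (nat_lit 76) (nat_lit 18216861990) (nat_lit 13) (nat_lit 5) (nat_lit 16) (nat_lit 5) (nat_lit 14) (nat_lit 4) (nat_lit 348) (nat_lit 223) (nat_lit 209)) (XT.nd (nat_lit 78) (nat_lit 0) (nat_lit 0) (XT.lf (nat_lit 0) (nat_lit 4659936347) (nat_lit 76) (nat_lit 510201089) (nat_lit 152) (nat_lit 16892192869) (nat_lit 12) (nat_lit 5) (nat_lit 13) (nat_lit 5) (nat_lit 14) (nat_lit 4) (nat_lit 349) (nat_lit 223) (nat_lit 208)) (XT.lf (nat_lit 0) (nat_lit 8257059482) (nat_lit 152) (nat_lit 12065839463) (nat_lit 0) (nat_lit 2295840020) (nat_lit 12) (nat_lit 5) (nat_lit 14) (nat_lit 4) (nat_lit 12) (nat_lit 4) (nat_lit 350) (nat_lit 223) (nat_lit 207))))) (XT.nd (nat_lit 234) (nat_lit 76) (nat_lit 0) (XT.nd (nat_lit 78) (nat_lit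 152) (nat_lit 0) (XT.lf (nat_lit 0) (nat_lit 11386146257) (nat_lit 152) (nat_lit 6669460645) (nat_lit 0) (nat_lit 5137799455) (nat_lit 12) (nat_lit 5) (nat_lit 14) (nat_lit 4) (nat_lit 12) (nat_lit 4) (nat_lit 351) (nat_lit 223) (nat_lit 206)) (XT.nd (nat_lit 78) (nat_lit 152) (nat_lit 0) (XT.lf (nat_lit 0) (nat_lit 14555227549) (nat_lit 152) (nat_lit 1203637857) (nat_lit 0) (nat_lit 8028116340) (nat_lit 12) (nat_lit 5) (nat_lit 14) (nat_lit 4) (nat_lit 12) (nat_lit 4) (nat_lit 352) (nat_lit 223) (nat_lit 205)) (XT.lf (nat_lit 0) (nat_lit 4422707821) (nat_lit 152) (nat_lit 13386878412) (nat_lit 152) (nat_lit 6589122147) (nat_lit 10) (nat_lit 4) (nat_lit 12) (nat_lit 5) (nat_lit 12) (nat_lit 4) (nat_lit 353) (nat_lit 223) (nat_lit 204)))) (XT.nd (nat_lit 78) (nat_lit 76) (nat_lit 0) (XT.lf (nat_lit 0) (nat_lit 10153642463) (nat_lit 152) (nat_lit 10968448015) (nat_lit 152) (nat_lit 3907929560)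 (nat_lit 10) (nat_lit 4) (nat_lit 12) (nat_lit 5) (nat_lit 12) (nat_lit 4) (nat_lit 354) (nat_lit 223) (nat_lit 203)) (XT.nd (nat_lit 78) (nat_lit 76) (nat_lit 0) (XT.lf (nat_lit 0) (nat_lit 15970218927) (nat_lit 152) (nat_lit 8513615408) (nat_lit 152) (nat_lit 1197988030) (nat_lit 10) (nat_lit 4) (nat_lit 12) (nat_lit 5) (nat_lit 12) (nat_lit 4) (nat_lit 355) (nat_lit 223) (nat_lit 202)) (XT.lf (nat_lit 0) (nat_lit 1512959492) (nat_lit 228) (nat_lit 4491998173) (nat_lit 76) (nat_lit 20349282242) (nat_lit 9) (nat_lit 5) (nat_lit 12) (nat_lit 5) (nat_lit 10) (nat_lit 4) (nat_lit 356) (nat_lit 223) (nat_lit 201))))))) (XT.nd (nat_lit 858) (nat_lit 228) (nat_lit 0) (XT.nd (nat_lit 390) (nat_lit 76) (nat_lit 0) (XT.nd (nat_lit 156) (nat_lit 0) (nat_lit 0) (XT.nd (nat_lit 78) (nat_lit 0) (nat_lit 0) (XT.lf (nat_lit 0) (nat_lit 805729693) (nat_lit 76) (nat_lit 3435403441) (nat_lit 152) (nat_lit 22806584965)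 (nat_lit 8) (nat_lit 5) (nat_lit 9) (nat_lit 5) (nat_lit 10) (nat_lit 4) (nat_lit 357) (nat_lit 223) (nat_lit 200)) (XT.lf (nat_lit 0) (nat_lit 6272951104) (nat_lit 76) (nat_lit 776399869) (nat_lit 152) (nat_lit 20712745677) (nat_lit 8) (nat_lit 5) (nat_lit 9) (nat_lit 5) (nat_lit 10) (nat_lit 4) (nat_lit 358) (nat_lit 223) (nat_lit 199))) (XT.nd (nat_lit 78) (nat_lit 0) (nat_lit 0) (XT.lf (nat_lit 0) (nat_lit 9914570479) (nat_lit 152) (nat_lit 16692820161) (nat_lit 0) (nat_lit 1891374025) (nat_lit 8) (nat_lit 5) (nat_lit 10) (nat_lit 4) (nat_lit 8) (nat_lit 4) (nat_lit 359) (nat_lit 223) (nat_lit 198)) (XT.nd (nat_lit 78) (nat_lit 0) (nat_lit 0) (XT.lf (nat_lit 0) (nat_lit 12828668251) (nat_lit 152) (nat_lit 11838194300) (nat_lit 0) (nat_lit 4591822091) (nat_lit 8) (nat_lit 5) (nat_lit 10) (nat_lit 4) (nat_lit 8) (nat_lit 4) (nat_lit 360) (nat_lit 223) (nat_lit 197)) (XT.lf (nat_lit 0) (nat_lit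 15786727360) (nat_lit 152) (nat_lit 6913562828) (nat_lit 0) (nat_lit 7342454301) (nat_lit 8) (nat_lit 5) (nat_lit 10) (nat_lit 4) (nat_lit 8) (nat_lit 4) (nat_lit 361) (nat_lit 223) (nat_lit 196))))) (XT.nd (nat_lit 234) (nat_lit 0) (nat_lit 0) (XT.nd (nat_lit 78) (nat_lit 76) (nat_lit 0) (XT.lf (nat_lit 0) (nat_lit 18791332518) (nat_lit 152) (nat_lit 1914622667) (nat_lit 0) (nat_lit 10145674119) (nat_lit 8) (nat_lit 5) (nat_lit 10) (nat_lit 4) (nat_lit 8) (nat_lit 4) (nat_lit 362) (nat_lit 223) (nat_lit 195)) (XT.nd (nat_lit 78) (nat_lit 0) (nat_lit 0) (XT.lf (nat_lit 0) (nat_lit 3225943973) (nat_lit 76) (nat_lit 18650174880) (nat_lit 76) (nat_lit 9808996734) (nat_lit 7) (nat_lit 4) (nat_lit 8) (nat_lit 5) (nat_lit 8) (nat_lit 4) (nat_lit 363) (nat_lit 223) (nat_lit 194)) (XT.lf (nat_lit 0) (nat_lit 8489382927) (nat_lit 76) (nat_lit 16542947691) (nat_lit 76) (nat_lit 7511944548) (nat_lit 7)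 (nat_lit 4) (nat_lit 8) (nat_lit 5) (nat_lit 8) (nat_lit 4) (nat_lit 364) (nat_lit 223) (nat_lit 193)))) (XT.nd (nat_lit 78) (nat_lit 0) (nat_lit 0) (XT.lf (nat_lit 0) (nat_lit 13842188569) (nat_lit 76) (nat_lit 14401766285) (nat_lit 76) (nat_lit 5186467029) (nat_lit 7) (nat_lit 4) (nat_lit 8) (nat_lit 5) (nat_lit 8) (nat_lit 4) (nat_lit 365) (nat_lit 223) (nat_lit 192)) (XT.nd (nat_lit 78) (nat_lit 0) (nat_lit 0) (XT.lf (nat_lit 0) (nat_lit 19289038109) (nat_lit 76) (nat_lit 12224759729) (nat_lit 76) (nat_lit 2830532207) (nat_lit 7) (nat_lit 4) (nat_lit 8) (nat_lit 5) (nat_lit 8) (nat_lit 4) (nat_lit 366) (nat_lit 223) (nat_lit 191)) (XT.lf (nat_lit 0) (nat_lit 24834690929) (nat_lit 76) (nat_lit 10010025782) (nat_lit 76) (nat_lit 442081498) (nat_lit 7) (nat_lit 4) (nat_lit 8) (nat_lit 5) (nat_lit 8) (nat_lit 4) (nat_lit 367) (nat_lit 223) (nat_lit 190)))))) (XT.nd (nat_lit 468) (nat_lit 76)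 (nat_lit 0) (XT.nd (nat_lit 234) (nat_lit 0) (nat_lit 0) (XT.nd (nat_lit 78) (nat_lit 76) (nat_lit 0) (XT.lf (nat_lit 0) (nat_lit 1942316193) (nat_lit 152) (nat_lit 5793699463) (nat_lit 76) (nat_lit 28522062967) (nat_lit 6) (nat_lit 5) (nat_lit 8) (nat_lit 5) (nat_lit 7) (nat_lit 4) (nat_lit 368) (nat_lit 223) (nat_lit 189)) (XT.nd (nat_lit 78) (nat_lit 76) (nat_lit 0) (XT.lf (nat_lit 0) (nat_lit 4354090854) (nat_lit 152) (nat_lit 1061541611) (nat_lit 76) (nat_lit 31843821208) (nat_lit 6) (nat_lit 5) (nat_lit 8) (nat_lit 5) (nat_lit 7) (nat_lit 4) (nat_lit 369) (nat_lit 223) (nat_lit 188)) (XT.lf (nat_lit 0) (nat_lit 3827437827) (nat_lit 76) (nat_lit 3013330310) (nat_lit 152) (nat_lit 31450053943) (nat_lit 5) (nat_lit 5) (nat_lit 6) (nat_lit 5) (nat_lit 7) (nat_lit 4) (nat_lit 370) (nat_lit 223) (nat_lit 187)))) (XT.nd (nat_lit 78) (nat_lit 0) (nat_lit 0) (XT.lf (nat_lit 0) (nat_lit 8825603535)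 (nat_lit 76) (nat_lit 553347263) (nat_lit 152) (nat_lit 29974901347) (nat_lit 5) (nat_lit 5) (nat_lit 6) (nat_lit 5) (nat_lit 7) (nat_lit 4) (nat_lit 371) (nat_lit 223) (nat_lit 186)) (XT.nd (nat_lit 78) (nat_lit 0) (nat_lit 0) (XT.lf (nat_lit 0) (nat_lit 11979249229) (nat_lit 152) (nat_lit 26552388696) (nat_lit 0) (nat_lit 1917583024) (nat_lit 5) (nat_lit 5) (nat_lit 7) (nat_lit 4) (nat_lit 5) (nat_lit 4) (nat_lit 372) (nat_lit 223) (nat_lit 185)) (XT.lf (nat_lit 0) (nat_lit 14630931546) (nat_lit 152) (nat_lit 22519326471) (nat_lit 0) (nat_lit 4428017716) (nat_lit 5) (nat_lit 5) (nat_lit 7) (nat_lit 4) (nat_lit 5) (nat_lit 4) (nat_lit 373) (nat_lit 223) (nat_lit 184))))) (XT.nd (nat_lit 234) (nat_lit 76) (nat_lit 0) (XT.nd (nat_lit 78) (nat_lit 0) (nat_lit 0) (XT.lf (nat_lit 0) (nat_lit 17330995641) (nat_lit 152) (nat_lit 18420218787) (nat_lit 0) (nat_lit 6990948193) (nat_lit 5) (nat_lit 5)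 (nat_lit 7) (nat_lit 4) (nat_lit 5) (nat_lit 4) (nat_lit 374) (nat_lit 223) (nat_lit 183)) (XT.nd (nat_lit 78) (nat_lit 0) (nat_lit 0) (XT.lf (nat_lit 0) (nat_lit 20081800792) (nat_lit 152) (nat_lit 14251483900) (nat_lit 0) (nat_lit 9608613911) (nat_lit 5) (nat_lit 5) (nat_lit 7) (nat_lit 4) (nat_lit 5) (nat_lit 4) (nat_lit 375) (nat_lit 223) (nat_lit 182)) (XT.lf (nat_lit 0) (nat_lit 22885750617) (nat_lit 152) (nat_lit 10009479226) (nat_lit 0) (nat_lit 12283302150) (nat_lit 5) (nat_lit 5) (nat_lit 7) (nat_lit 4) (nat_lit 5) (nat_lit 4) (nat_lit 376) (nat_lit 223) (nat_lit 181)))) (XT.nd (nat_lit 78) (nat_lit 76) (nat_lit 0) (XT.lf (nat_lit 0) (nat_lit 25745295168) (nat_lit 152) (nat_lit 5690498158) (nat_lit 0) (nat_lit 15017350016) (nat_lit 5) (nat_lit 5) (nat_lit 7) (nat_lit 4) (nat_lit 5) (nat_lit 4) (nat_lit 377) (nat_lit 223) (nat_lit 180)) (XT.nd (nat_lit 78) (nat_lit 76) (nat_lit 0) (XT.lf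 (nat_lit 0) (nat_lit 28662933076) (nat_lit 152) (nat_lit 1290766830) (nat_lit 0) (nat_lit 17813146482) (nat_lit 5) (nat_lit 5) (nat_lit 7) (nat_lit 4) (nat_lit 5) (nat_lit 4) (nat_lit 378) (nat_lit 223) (nat_lit 179)) (XT.lf (nat_lit 0) (nat_lit 3257117273) (nat_lit 76) (nat_lit 28415405865) (nat_lit 76) (nat_lit 17447326608) (nat_lit 4) (nat_lit 4) (nat_lit 5) (nat_lit 5) (nat_lit 5) (nat_lit 4) (nat_lit 379) (nat_lit 223) (nat_lit 178))))))))
noncomputable def xc27 : XT := (XT.nd (nat_lit 1716) (nat_lit 0) (nat_lit 0) (XT.nd (nat_lit 858) (nat_lit 76) (nat_lit 0) (XT.nd (nat_lit 390) (nat_lit 76) (nat_lit 0) (XT.nd (nat_lit 156) (nat_lit 0) (nat_lit 0) (XT.nd (nat_lit 78) (nat_lit 0) (nat_lit 0) (XT.lf (nat_lit 0) (nat_lit 7920964779) (nat_lit 76) (nat_lit 26837915904) (nat_lit 76) (nat_lit 15754989402) (nat_lit 4) (nat_lit 4) (nat_lit 5) (nat_lit 5) (nat_lit 5) (nat_lit 4) (nat_lit 380) (nat_lit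 223) (nat_lit 177)) (XT.lf (nat_lit 0) (nat_lit 12679162103) (nat_lit 76) (nat_lit 25232885847) (nat_lit 76) (nat_lit 14038457166) (nat_lit 4) (nat_lit 4) (nat_lit 5) (nat_lit 5) (nat_lit 5) (nat_lit 4) (nat_lit 381) (nat_lit 223) (nat_lit 176))) (XT.nd (nat_lit 78) (nat_lit 0) (nat_lit 0) (XT.lf (nat_lit 0) (nat_lit 17535866893) (nat_lit 76) (nat_lit 23598913243) (nat_lit 76) (nat_lit 12296230018) (nat_lit 4) (nat_lit 4) (nat_lit 5) (nat_lit 5) (nat_lit 5) (nat_lit 4) (nat_lit 382) (nat_lit 223) (nat_lit 175)) (XT.nd (nat_lit 78) (nat_lit 0) (nat_lit 0) (XT.lf (nat_lit 0) (nat_lit 22495322872) (nat_lit 76) (nat_lit 21934570346) (nat_lit 76) (nat_lit 10526785623) (nat_lit 4) (nat_lit 4) (nat_lit 5) (nat_lit 5) (nat_lit 5) (nat_lit 4) (nat_lit 383) (nat_lit 223) (nat_lit 174)) (XT.lf (nat_lit 0) (nat_lit 27561863546) (nat_lit 76) (nat_lit 20238402878) (nat_lit 76) (nat_lit 8728577865) (nat_lit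 4) (nat_lit 4) (nat_lit 5) (nat_lit 5) (nat_lit 5) (nat_lit 4) (nat_lit 384) (nat_lit 223) (nat_lit 173))))) (XT.nd (nat_lit 234) (nat_lit 76) (nat_lit 0) (XT.nd (nat_lit 78) (nat_lit 0) (nat_lit 0) (XT.lf (nat_lit 0) (nat_lit 32739915988) (nat_lit 76) (nat_lit 18508928749) (nat_lit 76) (nat_lit 6900035494) (nat_lit 4) (nat_lit 4) (nat_lit 5) (nat_lit 5) (nat_lit 5) (nat_lit 4) (nat_lit 385) (nat_lit 223) (nat_lit 172)) (XT.nd (nat_lit 78) (nat_lit 0) (nat_lit 0) (XT.lf (nat_lit 0) (nat_lit 38034004710) (nat_lit 76) (nat_lit 16744636770) (nat_lit 76) (nat_lit 5039560755) (nat_lit 4) (nat_lit 4) (nat_lit 5) (nat_lit 5) (nat_lit 5) (nat_lit 4) (nat_lit 386) (nat_lit 223) (nat_lit 171)) (XT.lf (nat_lit 0) (nat_lit 43448755616) (nat_lit 76) (nat_lit 14943985326) (nat_lit 76) (nat_lit 3145527991) (nat_lit 4) (nat_lit 4) (nat_lit 5) (nat_lit 5) (nat_lit 5) (nat_lit 4) (nat_lit 387) (nat_lit 223) (nat_lit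 170)))) (XT.nd (nat_lit 78) (nat_lit 76) (nat_lit 0) (XT.lf (nat_lit 0) (nat_lit 48988900041) (nat_lit 76) (nat_lit 13105401032) (nat_lit 76) (nat_lit 1216282221) (nat_lit 4) (nat_lit 4) (nat_lit 5) (nat_lit 5) (nat_lit 5) (nat_lit 4) (nat_lit 388) (nat_lit 223) (nat_lit 169)) (XT.nd (nat_lit 78) (nat_lit 0) (nat_lit 0) (XT.lf (nat_lit 0) (nat_lit 735229788) (nat_lit 152) (nat_lit 10484623189) (nat_lit 76) (nat_lit 53916624719) (nat_lit 3) (nat_lit 5) (nat_lit 5) (nat_lit 5) (nat_lit 4) (nat_lit 4) (nat_lit 389) (nat_lit 223) (nat_lit 168)) (XT.lf (nat_lit 0) (nat_lit 2700870944) (nat_lit 152) (nat_lit 6579828779) (nat_lit 76) (nat_lit 57736702409) (nat_lit 3) (nat_lit 5) (nat_lit 5) (nat_lit 5) (nat_lit 4) (nat_lit 4) (nat_lit 390) (nat_lit 223) (nat_lit 167)))))) (XT.nd (nat_lit 390) (nat_lit 0) (nat_lit 0) (XT.nd (nat_lit 156) (nat_lit 0) (nat_lit 0) (XT.nd (nat_lit 78) (nat_lit 76) (nat_lit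 0) (XT.lf (nat_lit 0) (nat_lit 4706092844) (nat_lit 152) (nat_lit 2592196416) (nat_lit 76) (nat_lit 61657061617) (nat_lit 3) (nat_lit 5) (nat_lit 5) (nat_lit 5) (nat_lit 4) (nat_lit 4) (nat_lit 391) (nat_lit 223) (nat_lit 166)) (XT.lf (nat_lit 0) (nat_lit 1511248132) (nat_lit 76) (nat_lit 5255926532) (nat_lit 152) (nat_lit 64184406806) (nat_lit 2) (nat_lit 5) (nat_lit 3) (nat_lit 5) (nat_lit 4) (nat_lit 4) (nat_lit 392) (nat_lit 223) (nat_lit 165))) (XT.nd (nat_lit 78) (nat_lit 0) (nat_lit 0) (XT.lf (nat_lit 0) (nat_lit 5757953358) (nat_lit 76) (nat_lit 3139719144) (nat_lit 152) (nat_lit 64109813036) (nat_lit 2) (nat_lit 5) (nat_lit 3) (nat_lit 5) (nat_lit 4) (nat_lit 4) (nat_lit 393) (nat_lit 223) (nat_lit 164)) (XT.nd (nat_lit 78) (nat_lit 0) (nat_lit 0) (XT.lf (nat_lit 0) (nat_lit 10100040185) (nat_lit 76) (nat_lit 973994083) (nat_lit 152) (nat_lit 64051587645) (nat_lit 2) (nat_lit 5) (nat_lit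 3) (nat_lit 5) (nat_lit 4) (nat_lit 4) (nat_lit 394) (nat_lit 223) (nat_lit 163)) (XT.lf (nat_lit 0) (nat_lit 13310111470) (nat_lit 152) (nat_lit 62778488559) (nat_lit 0) (nat_lit 1218882870) (nat_lit 2) (nat_lit 5) (nat_lit 4) (nat_lit 4) (nat_lit 2) (nat_lit 4) (nat_lit 395) (nat_lit 223) (nat_lit 162))))) (XT.nd (nat_lit 234) (nat_lit 0) (nat_lit 0) (XT.nd (nat_lit 78) (nat_lit 0) (nat_lit 0) (XT.lf (nat_lit 0) (nat_lit 15605773121) (nat_lit 152) (nat_lit 60504204350) (nat_lit 0) (nat_lit 3445060049) (nat_lit 2) (nat_lit 5) (nat_lit 4) (nat_lit 4) (nat_lit 2) (nat_lit 4) (nat_lit 396) (nat_lit 223) (nat_lit 161)) (XT.nd (nat_lit 78) (nat_lit 0) (nat_lit 0) (XT.lf (nat_lit 0) (nat_lit 17953662512) (nat_lit 152) (nat_lit 58191379239) (nat_lit 0) (nat_lit 5725488788) (nat_lit 2) (nat_lit 5) (nat_lit 4) (nat_lit 4) (nat_lit 2) (nat_lit 4) (nat_lit 397) (nat_lit 223) (nat_lit 160)) (XT.lf (nat_lit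 0) (nat_lit 20355831197) (nat_lit 152) (nat_lit 55837992308) (nat_lit 0) (nat_lit 8062161694) (nat_lit 2) (nat_lit 5) (nat_lit 4) (nat_lit 4) (nat_lit 2) (nat_lit 4) (nat_lit 398) (nat_lit 223) (nat_lit 159)))) (XT.nd (nat_lit 78) (nat_lit 0) (nat_lit 0) (XT.lf (nat_lit 0) (nat_lit 22814378160) (nat_lit 152) (nat_lit 53441987202) (nat_lit 0) (nat_lit 10457120522) (nat_lit 2) (nat_lit 5) (nat_lit 4) (nat_lit 4) (nat_lit 2) (nat_lit 4) (nat_lit 399) (nat_lit 223) (nat_lit 158)) (XT.nd (nat_lit 78) (nat_lit 0) (nat_lit 0) (XT.lf (nat_lit 0) (nat_lit 25331451644) (nat_lit 152) (nat_lit 51001270323) (nat_lit 0) (nat_lit 12912457953) (nat_lit 2) (nat_lit 5) (nat_lit 4) (nat_lit 4) (nat_lit 2) (nat_lit 4) (nat_lit 400) (nat_lit 223) (nat_lit 157)) (XT.lf (nat_lit 0) (nat_lit 27909251035) (nat_lit 152) (nat_lit 48513709006) (nat_lit 0) (nat_lit 15430319427) (nat_lit 2) (nat_lit 5) (nat_lit 4) (nat_lit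 4) (nat_lit 2) (nat_lit 4) (nat_lit 401) (nat_lit 223) (nat_lit 156))))))) (XT.nd (nat_lit 35958) (nat_lit 0) (nat_lit 608) (XT.nd (nat_lit 35490) (nat_lit 0) (nat_lit 1140) (XT.nd (nat_lit 35256) (nat_lit 0) (nat_lit 1520) (XT.nd (nat_lit 35178) (nat_lit 0) (nat_lit 1672) (XT.lf (nat_lit 0) (nat_lit 30550028777) (nat_lit 152) (nat_lit 45977129653) (nat_lit 0) (nat_lit 18012905019) (nat_lit 2) (nat_lit 5) (nat_lit 4) (nat_lit 4) (nat_lit 2) (nat_lit 4) (nat_lit 402) (nat_lit 223) (nat_lit 155)) (XT.lf (nat_lit 0) (nat_lit 1504032846) (nat_lit 228) (nat_lit 4429218534) (nat_lit 0) (nat_lit 1504032846) (nat_lit 24) (nat_lit 5) (nat_lit 27) (nat_lit 4) (nat_lit 24) (nat_lit 4) (nat_lit 332) (nat_lit 224) (nat_lit 224))) (XT.nd (nat_lit 78) (nat_lit 152) (nat_lit 0) (XT.lf (nat_lit 0) (nat_lit 6533507541) (nat_lit 228) (nat_lit 2648467686) (nat_lit 0) (nat_lit 6014923627) (nat_lit 24) (nat_lit 5)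 (nat_lit 27) (nat_lit 4) (nat_lit 24) (nat_lit 4) (nat_lit 333) (nat_lit 224) (nat_lit 223)) (XT.nd (nat_lit 78) (nat_lit 0) (nat_lit 0) (XT.lf (nat_lit 0) (nat_lit 3694773311) (nat_lit 152) (nat_lit 6428758983) (nat_lit 152) (nat_lit 5406695540) (nat_lit 22) (nat_lit 4) (nat_lit 24) (nat_lit 5) (nat_lit 24) (nat_lit 4) (nat_lit 334) (nat_lit 224) (nat_lit 222)) (XT.lf (nat_lit 0) (nat_lit 10158703452) (nat_lit 152) (nat_lit 3613644789) (nat_lit 152) (nat_lit 2102766269) (nat_lit 22) (nat_lit 4) (nat_lit 24) (nat_lit 5) (nat_lit 24) (nat_lit 4) (nat_lit 335) (nat_lit 224) (nat_lit 221))))) (XT.nd (nat_lit 234) (nat_lit 228) (nat_lit 0) (XT.nd (nat_lit 78) (nat_lit 0) (nat_lit 0) (XT.lf (nat_lit 0) (nat_lit 460843628) (nat_lit 76) (nat_lit 744230209) (nat_lit 152) (nat_lit 15027079336) (nat_lit 20) (nat_lit 5) (nat_lit 21) (nat_lit 5) (nat_lit 22) (nat_lit 4) (nat_lit 336) (nat_lit 224) (nat_lit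 220)) (XT.nd (nat_lit 78) (nat_lit 0) (nat_lit 0) (XT.lf (nat_lit 0) (nat_lit 4575721515) (nat_lit 152) (nat_lit 9822705645) (nat_lit 0) (nat_lit 2200759035) (nat_lit 20) (nat_lit 5) (nat_lit 22) (nat_lit 4) (nat_lit 20) (nat_lit 4) (nat_lit 337) (nat_lit 224) (nat_lit 219)) (XT.lf (nat_lit 0) (nat_lit 7983288076) (nat_lit 152) (nat_lit 3821928859) (nat_lit 0) (nat_lit 5174019732) (nat_lit 20) (nat_lit 5) (nat_lit 22) (nat_lit 4) (nat_lit 20) (nat_lit 4) (nat_lit 338) (nat_lit 224) (nat_lit 218)))) (XT.nd (nat_lit 78) (nat_lit 76) (nat_lit 0) (XT.lf (nat_lit 0) (nat_lit 2288066625) (nat_lit 152) (nat_lit 9157524682) (nat_lit 152) (nat_lit 5926600159) (nat_lit 18) (nat_lit 4) (nat_lit 20) (nat_lit 5) (nat_lit 20) (nat_lit 4) (nat_lit 339) (nat_lit 224) (nat_lit 217)) (XT.nd (nat_lit 78) (nat_lit 76) (nat_lit 0) (XT.lf (nat_lit 0) (nat_lit 8545386636) (nat_lit 152) (nat_lit 6436411262) (nat_lit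 152) (nat_lit 2796111808) (nat_lit 18) (nat_lit 4) (nat_lit 20) (nat_lit 5) (nat_lit 20) (nat_lit 4) (nat_lit 340) (nat_lit 224) (nat_lit 216)) (XT.lf (nat_lit 0) (nat_lit 352639630) (nat_lit 228) (nat_lit 3321892393) (nat_lit 76) (nat_lit 14523234257) (nat_lit 17) (nat_lit 5) (nat_lit 20) (nat_lit 5) (nat_lit 18) (nat_lit 4) (nat_lit 341) (nat_lit 224) (nat_lit 215)))))) (XT.nd (nat_lit 468) (nat_lit 304) (nat_lit 0) (XT.nd (nat_lit 234) (nat_lit 152) (nat_lit 0) (XT.nd (nat_lit 78) (nat_lit 0) (nat_lit 0) (XT.lf (nat_lit 0) (nat_lit 2681571752) (nat_lit 76) (nat_lit 818525652) (nat_lit 152) (nat_lit 15130546727) (nat_lit 16) (nat_lit 5) (nat_lit 17) (nat_lit 5) (nat_lit 18) (nat_lit 4) (nat_lit 342) (nat_lit 224) (nat_lit 214)) (XT.nd (nat_lit 78) (nat_lit 0) (nat_lit 0) (XT.lf (nat_lit 0) (nat_lit 6731375929) (nat_lit 152) (nat_lit 10272648745) (nat_lit 0) (nat_lit 2072869102) (nat_lit 16)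 (nat_lit 5) (nat_lit 18) (nat_lit 4) (nat_lit 16) (nat_lit 4) (nat_lit 343) (nat_lit 224) (nat_lit 213)) (XT.lf (nat_lit 0) (nat_lit 10004698162) (nat_lit 152) (nat_lit 4540484073) (nat_lit 0) (nat_lit 4993060923) (nat_lit 16) (nat_lit 5) (nat_lit 18) (nat_lit 4) (nat_lit 16) (nat_lit 4) (nat_lit 344) (nat_lit 224) (nat_lit 212)))) (XT.nd (nat_lit 78) (nat_lit 0) (nat_lit 0) (XT.lf (nat_lit 0) (nat_lit 1285380903) (nat_lit 152) (nat_lit 12042031082) (nat_lit 152) (nat_lit 6687548784) (nat_lit 14) (nat_lit 4) (nat_lit 16) (nat_lit 5) (nat_lit 16) (nat_lit 4) (nat_lit 345) (nat_lit 224) (nat_lit 211)) (XT.nd (nat_lit 78) (nat_lit 0) (nat_lit 0) (XT.lf (nat_lit 0) (nat_lit 7276763463) (nat_lit 152) (nat_lit 9458527582) (nat_lit 152) (nat_lit 3771186002) (nat_lit 14) (nat_lit 4) (nat_lit 16) (nat_lit 5) (nat_lit 16) (nat_lit 4) (nat_lit 346) (nat_lit 224) (nat_lit 210)) (XT.lf (nat_lit 0) (nat_lit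 13348534258) (nat_lit 152) (nat_lit 6838264291) (nat_lit 152) (nat_lit 827758361) (nat_lit 14) (nat_lit 4) (nat_lit 16) (nat_lit 5) (nat_lit 16) (nat_lit 4) (nat_lit 347) (nat_lit 224) (nat_lit 209))))) (XT.nd (nat_lit 234) (nat_lit 152) (nat_lit 0) (XT.nd (nat_lit 78) (nat_lit 76) (nat_lit 0) (XT.lf (nat_lit 0) (nat_lit 2103443418) (nat_lit 228) (nat_lit 2054267587) (nat_lit 76) (nat_lit 17381314646) (nat_lit 13) (nat_lit 5) (nat_lit 16) (nat_lit 5) (nat_lit 14) (nat_lit 4) (nat_lit 348) (nat_lit 224) (nat_lit 208)) (XT.nd (nat_lit 78) (nat_lit 0) (nat_lit 0) (XT.lf (nat_lit 0) (nat_lit 3694929708) (nat_lit 76) (nat_lit 1390686464) (nat_lit 152) (nat_lit 16994031031) (nat_lit 12) (nat_lit 5) (nat_lit 13) (nat_lit 5) (nat_lit 14) (nat_lit 4) (nat_lit 349) (nat_lit 224) (nat_lit 207)) (XT.lf (nat_lit 0) (nat_lit 8136737297) (nat_lit 152) (nat_lit 13086606042) (nat_lit 0) (nat_lit 1413812751)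 (nat_lit 12) (nat_lit 5) (nat_lit 14) (nat_lit 4) (nat_lit 12) (nat_lit 4) (nat_lit 350) (nat_lit 224) (nat_lit 206)))) (XT.nd (nat_lit 78) (nat_lit 152) (nat_lit 0) (XT.lf (nat_lit 0) (nat_lit 11239283143) (nat_lit 152) (nat_lit 7735767812) (nat_lit 0) (nat_lit 4237594189) (nat_lit 12) (nat_lit 5) (nat_lit 14) (nat_lit 4) (nat_lit 12) (nat_lit 4) (nat_lit 351) (nat_lit 224) (nat_lit 205)) (XT.nd (nat_lit 78) (nat_lit 152) (nat_lit 0) (XT.lf (nat_lit 0) (nat_lit 14382596543) (nat_lit 152) (nat_lit 2314159187) (nat_lit 0) (nat_lit 7110262534) (nat_lit 12) (nat_lit 5) (nat_lit 14) (nat_lit 4) (nat_lit 12) (nat_lit 4) (nat_lit 352) (nat_lit 224) (nat_lit 204)) (XT.lf (nat_lit 0) (nat_lit 3246304247) (nat_lit 152) (nat_lit 14354325298) (nat_lit 152) (nat_lit 6819229099) (nat_lit 10) (nat_lit 4) (nat_lit 12) (nat_lit 5) (nat_lit 12) (nat_lit 4) (nat_lit 353) (nat_lit 224) (nat_lit 203))))))))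
noncomputable def xc28 : XT := (XT.nd (nat_lit 1716) (nat_lit 228) (nat_lit 0) (XT.nd (nat_lit 858) (nat_lit 152) (nat_lit 0) (XT.nd (nat_lit 390) (nat_lit 76) (nat_lit 0) (XT.nd (nat_lit 156) (nat_lit 152) (nat_lit 0) (XT.nd (nat_lit 78) (nat_lit 0) (nat_lit 0) (XT.lf (nat_lit 0) (nat_lit 8934733364) (nat_lit 152) (nat_lit 11953703129) (nat_lit 152) (nat_lit 4163498007) (nat_lit 10) (nat_lit 4) (nat_lit 12) (nat_lit 5) (nat_lit 12) (nat_lit 4) (nat_lit 354) (nat_lit 224) (nat_lit 202)) (XT.lf (nat_lit 0) (nat_lit 14710042327) (nat_lit 152) (nat_lit 9516160062) (nat_lit 152) (nat_lit 1478276374) (nat_lit 10) (nat_lit 4) (nat_lit 12) (nat_lit 5) (nat_lit 12) (nat_lit 4) (nat_lit 355) (nat_lit 224) (nat_lit 201))) (XT.nd (nat_lit 78) (nat_lit 76) (nat_lit 0) (XT.lf (nat_lit 0) (nat_lit 1214609007) (nat_lit 228) (nat_lit 5812692030) (nat_lit 76) (nat_lit 19350403348) (nat_lit 9) (nat_lit 5) (nat_lit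 12) (nat_lit 5) (nat_lit 10) (nat_lit 4) (nat_lit 356) (nat_lit 224) (nat_lit 200)) (XT.nd (nat_lit 78) (nat_lit 76) (nat_lit 0) (XT.lf (nat_lit 0) (nat_lit 3912191291) (nat_lit 228) (nat_lit 570060795) (nat_lit 76) (nat_lit 22589868912) (nat_lit 9) (nat_lit 5) (nat_lit 12) (nat_lit 5) (nat_lit 10) (nat_lit 4) (nat_lit 357) (nat_lit 224) (nat_lit 199)) (XT.lf (nat_lit 0) (nat_lit 4846827365) (nat_lit 76) (nat_lit 1845437391) (nat_lit 152) (nat_lit 21095099204) (nat_lit 8) (nat_lit 5) (nat_lit 9) (nat_lit 5) (nat_lit 10) (nat_lit 4) (nat_lit 358) (nat_lit 224) (nat_lit 198))))) (XT.nd (nat_lit 234) (nat_lit 76) (nat_lit 0) (XT.nd (nat_lit 78) (nat_lit 0) (nat_lit 0) (XT.lf (nat_lit 0) (nat_lit 9525156075) (nat_lit 152) (nat_lit 18172310415) (nat_lit 0) (nat_lit 827554824) (nat_lit 8) (nat_lit 5) (nat_lit 10) (nat_lit 4) (nat_lit 8) (nat_lit 4) (nat_lit 359) (nat_lit 224) (nat_lit 197)) (XT.nd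 (nat_lit 78) (nat_lit 0) (nat_lit 0) (XT.lf (nat_lit 0) (nat_lit 12417844194) (nat_lit 152) (nat_lit 13354942271) (nat_lit 0) (nat_lit 3512816043) (nat_lit 8) (nat_lit 5) (nat_lit 10) (nat_lit 4) (nat_lit 8) (nat_lit 4) (nat_lit 360) (nat_lit 224) (nat_lit 196)) (XT.lf (nat_lit 0) (nat_lit 15355117232) (nat_lit 152) (nat_lit 8466483338) (nat_lit 0) (nat_lit 6248703742) (nat_lit 8) (nat_lit 5) (nat_lit 10) (nat_lit 4) (nat_lit 8) (nat_lit 4) (nat_lit 361) (nat_lit 224) (nat_lit 195)))) (XT.nd (nat_lit 78) (nat_lit 76) (nat_lit 0) (XT.lf (nat_lit 0) (nat_lit 18339541738) (nat_lit 152) (nat_lit 3502662148) (nat_lit 0) (nat_lit 9037608501) (nat_lit 8) (nat_lit 5) (nat_lit 10) (nat_lit 4) (nat_lit 8) (nat_lit 4) (nat_lit 362) (nat_lit 224) (nat_lit 194)) (XT.nd (nat_lit 78) (nat_lit 0) (nat_lit 0) (XT.lf (nat_lit 0) (nat_lit 1571524726) (nat_lit 76) (nat_lit 19817307192) (nat_lit 76) (nat_lit 10325548958)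 (nat_lit 7) (nat_lit 4) (nat_lit 8) (nat_lit 5) (nat_lit 8) (nat_lit 4) (nat_lit 363) (nat_lit 224) (nat_lit 193)) (XT.lf (nat_lit 0) (nat_lit 6801201866) (nat_lit 76) (nat_lit 17724495076) (nat_lit 76) (nat_lit 8048440729) (nat_lit 7) (nat_lit 4) (nat_lit 8) (nat_lit 5) (nat_lit 8) (nat_lit 4) (nat_lit 364) (nat_lit 224) (nat_lit 192)))))) (XT.nd (nat_lit 390) (nat_lit 76) (nat_lit 0) (XT.nd (nat_lit 156) (nat_lit 76) (nat_lit 0) (XT.nd (nat_lit 78) (nat_lit 0) (nat_lit 0) (XT.lf (nat_lit 0) (nat_lit 12121229050) (nat_lit 76) (nat_lit 15597308888) (nat_lit 76) (nat_lit 5742326275) (nat_lit 7) (nat_lit 4) (nat_lit 8) (nat_lit 5) (nat_lit 8) (nat_lit 4) (nat_lit 365) (nat_lit 224) (nat_lit 191)) (XT.lf (nat_lit 0) (nat_lit 17536254842) (nat_lit 76) (nat_lit 13433889921) (nat_lit 76) (nat_lit 3405190545) (nat_lit 7) (nat_lit 4) (nat_lit 8) (nat_lit 5) (nat_lit 8) (nat_lit 4) (nat_lit 366) (nat_lit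 224) (nat_lit 190))) (XT.nd (nat_lit 78) (nat_lit 76) (nat_lit 0) (XT.lf (nat_lit 0) (nat_lit 23051010821) (nat_lit 76) (nat_lit 11232347809) (nat_lit 76) (nat_lit 1034991382) (nat_lit 7) (nat_lit 4) (nat_lit 8) (nat_lit 5) (nat_lit 8) (nat_lit 4) (nat_lit 367) (nat_lit 224) (nat_lit 189)) (XT.nd (nat_lit 78) (nat_lit 0) (nat_lit 0) (XT.lf (nat_lit 0) (nat_lit 1343601948) (nat_lit 152) (nat_lit 7633589182) (nat_lit 76) (nat_lit 27313146011) (nat_lit 6) (nat_lit 5) (nat_lit 8) (nat_lit 5) (nat_lit 7) (nat_lit 4) (nat_lit 368) (nat_lit 224) (nat_lit 188)) (XT.lf (nat_lit 0) (nat_lit 3738508485) (nat_lit 152) (nat_lit 2930904357) (nat_lit 76) (nat_lit 30622819474) (nat_lit 6) (nat_lit 5) (nat_lit 8) (nat_lit 5) (nat_lit 7) (nat_lit 4) (nat_lit 369) (nat_lit 224) (nat_lit 187))))) (XT.nd (nat_lit 234) (nat_lit 0) (nat_lit 0) (XT.nd (nat_lit 78) (nat_lit 0) (nat_lit 0) (XT.lf (nat_lit 0) (nat_lit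 1891687019) (nat_lit 76) (nat_lit 4298514308) (nat_lit 152) (nat_lit 32134462602) (nat_lit 5) (nat_lit 5) (nat_lit 6) (nat_lit 5) (nat_lit 7) (nat_lit 4) (nat_lit 370) (nat_lit 224) (nat_lit 186)) (XT.nd (nat_lit 78) (nat_lit 0) (nat_lit 0) (XT.lf (nat_lit 0) (nat_lit 6861518672) (nat_lit 76) (nat_lit 1850693128) (nat_lit 152) (nat_lit 30675980635) (nat_lit 5) (nat_lit 5) (nat_lit 6) (nat_lit 5) (nat_lit 7) (nat_lit 4) (nat_lit 371) (nat_lit 224) (nat_lit 185)) (XT.lf (nat_lit 0) (nat_lit 11284224693) (nat_lit 152) (nat_lit 28566222179) (nat_lit 0) (nat_lit 633975822) (nat_lit 5) (nat_lit 5) (nat_lit 7) (nat_lit 4) (nat_lit 5) (nat_lit 4) (nat_lit 372) (nat_lit 224) (nat_lit 184)))) (XT.nd (nat_lit 78) (nat_lit 0) (nat_lit 0) (XT.lf (nat_lit 0) (nat_lit 13920552974) (nat_lit 152) (nat_lit 24560227150) (nat_lit 0) (nat_lit 3133170487) (nat_lit 5) (nat_lit 5) (nat_lit 7) (nat_lit 4) (nat_lit 5)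 (nat_lit 4) (nat_lit 373) (nat_lit 224) (nat_lit 183)) (XT.nd (nat_lit 78) (nat_lit 0) (nat_lit 0) (XT.lf (nat_lit 0) (nat_lit 16605710238) (nat_lit 152) (nat_lit 20487398297) (nat_lit 0) (nat_lit 5685188317) (nat_lit 5) (nat_lit 5) (nat_lit 7) (nat_lit 4) (nat_lit 5) (nat_lit 4) (nat_lit 374) (nat_lit 224) (nat_lit 182)) (XT.lf (nat_lit 0) (nat_lit 19342042739) (nat_lit 152) (nat_lit 16344176838) (nat_lit 0) (nat_lit 8292259232) (nat_lit 5) (nat_lit 5) (nat_lit 7) (nat_lit 4) (nat_lit 5) (nat_lit 4) (nat_lit 375) (nat_lit 224) (nat_lit 181))))))) (XT.nd (nat_lit 858) (nat_lit 152) (nat_lit 0) (XT.nd (nat_lit 390) (nat_lit 0) (nat_lit 0) (XT.nd (nat_lit 156) (nat_lit 76) (nat_lit 0) (XT.nd (nat_lit 78) (nat_lit 0) (nat_lit 0) (XT.lf (nat_lit 0) (nat_lit 22131941446) (nat_lit 152) (nat_lit 12126942482) (nat_lit 0) (nat_lit 10956661254) (nat_lit 5) (nat_lit 5) (nat_lit 7) (nat_lit 4) (nat_lit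 5) (nat_lit 4) (nat_lit 376) (nat_lit 224) (nat_lit 180)) (XT.lf (nat_lit 0) (nat_lit 24977844135) (nat_lit 152) (nat_lit 7832010267) (nat_lit 0) (nat_lit 13680722501) (nat_lit 5) (nat_lit 5) (nat_lit 7) (nat_lit 4) (nat_lit 5) (nat_lit 4) (nat_lit 377) (nat_lit 224) (nat_lit 179))) (XT.nd (nat_lit 78) (nat_lit 76) (nat_lit 0) (XT.lf (nat_lit 0) (nat_lit 27882237518) (nat_lit 152) (nat_lit 3455627340) (nat_lit 0) (nat_lit 16466823221) (nat_lit 5) (nat_lit 5) (nat_lit 7) (nat_lit 4) (nat_lit 5) (nat_lit 4) (nat_lit 378) (nat_lit 224) (nat_lit 178)) (XT.nd (nat_lit 78) (nat_lit 0) (nat_lit 0) (XT.lf (nat_lit 0) (nat_lit 1026052298) (nat_lit 76) (nat_lit 29831470157) (nat_lit 76) (nat_lit 18301208616) (nat_lit 4) (nat_lit 4) (nat_lit 5) (nat_lit 5) (nat_lit 5) (nat_lit 4) (nat_lit 379) (nat_lit 224) (nat_lit 177)) (XT.lf (nat_lit 0) (nat_lit 5667453692) (nat_lit 76) (nat_lit 28263726306) (nat_lit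 76) (nat_lit 16621962585) (nat_lit 4) (nat_lit 4) (nat_lit 5) (nat_lit 5) (nat_lit 5) (nat_lit 4) (nat_lit 380) (nat_lit 224) (nat_lit 176))))) (XT.nd (nat_lit 234) (nat_lit 0) (nat_lit 0) (XT.nd (nat_lit 78) (nat_lit 0) (nat_lit 0) (XT.lf (nat_lit 0) (nat_lit 10403858674) (nat_lit 76) (nat_lit 26668158493) (nat_lit 76) (nat_lit 14918140228) (nat_lit 4) (nat_lit 4) (nat_lit 5) (nat_lit 5) (nat_lit 5) (nat_lit 4) (nat_lit 381) (nat_lit 224) (nat_lit 175)) (XT.nd (nat_lit 78) (nat_lit 0) (nat_lit 0) (XT.lf (nat_lit 0) (nat_lit 15239405852) (nat_lit 76) (nat_lit 25043372532) (nat_lit 76) (nat_lit 13188252768) (nat_lit 4) (nat_lit 4) (nat_lit 5) (nat_lit 5) (nat_lit 5) (nat_lit 4) (nat_lit 382) (nat_lit 224) (nat_lit 174)) (XT.lf (nat_lit 0) (nat_lit 20178320459) (nat_lit 76) (nat_lit 23387948707) (nat_lit 76) (nat_lit 11430788654) (nat_lit 4) (nat_lit 4) (nat_lit 5) (nat_lit 5) (nat_lit 5) (nat_lit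 4) (nat_lit 383) (nat_lit 224) (nat_lit 173)))) (XT.nd (nat_lit 78) (nat_lit 0) (nat_lit 0) (XT.lf (nat_lit 0) (nat_lit 25224918053) (nat_lit 76) (nat_lit 21700440531) (nat_lit 76) (nat_lit 9644212236) (nat_lit 4) (nat_lit 4) (nat_lit 5) (nat_lit 5) (nat_lit 5) (nat_lit 4) (nat_lit 384) (nat_lit 224) (nat_lit 172)) (XT.nd (nat_lit 78) (nat_lit 0) (nat_lit 0) (XT.lf (nat_lit 0) (nat_lit 30383608282) (nat_lit 76) (nat_lit 19979373483) (nat_lit 76) (nat_lit 7826962428) (nat_lit 4) (nat_lit 4) (nat_lit 5) (nat_lit 5) (nat_lit 5) (nat_lit 4) (nat_lit 385) (nat_lit 224) (nat_lit 171)) (XT.lf (nat_lit 0) (nat_lit 35658898739) (nat_lit 76) (nat_lit 18223243718) (nat_lit 76) (nat_lit 5977451343) (nat_lit 4) (nat_lit 4) (nat_lit 5) (nat_lit 5) (nat_lit 5) (nat_lit 4) (nat_lit 386) (nat_lit 224) (nat_lit 170)))))) (XT.nd (nat_lit 468) (nat_lit 76) (nat_lit 0) (XT.nd (nat_lit 234) (nat_lit 76) (nat_lit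 0) (XT.nd (nat_lit 78) (nat_lit 0) (nat_lit 0) (XT.lf (nat_lit 0) (nat_lit 41055398901) (nat_lit 76) (nat_lit 16430516753) (nat_lit 76) (nat_lit 4094062902) (nat_lit 4) (nat_lit 4) (nat_lit 5) (nat_lit 5) (nat_lit 5) (nat_lit 4) (nat_lit 387) (nat_lit 224) (nat_lit 169)) (XT.nd (nat_lit 78) (nat_lit 0) (nat_lit 0) (XT.lf (nat_lit 0) (nat_lit 46577824158) (nat_lit 76) (nat_lit 14599626128) (nat_lit 76) (nat_lit 2175151427) (nat_lit 4) (nat_lit 4) (nat_lit 5) (nat_lit 5) (nat_lit 5) (nat_lit 4) (nat_lit 388) (nat_lit 224) (nat_lit 168)) (XT.lf (nat_lit 0) (nat_lit 52230999929) (nat_lit 76) (nat_lit 12728972036) (nat_lit 76) (nat_lit 219040199) (nat_lit 4) (nat_lit 4) (nat_lit 5) (nat_lit 5) (nat_lit 5) (nat_lit 4) (nat_lit 389) (nat_lit 224) (nat_lit 167)))) (XT.nd (nat_lit 78) (nat_lit 0) (nat_lit 0) (XT.lf (nat_lit 0) (nat_lit 1741324239) (nat_lit 152) (nat_lit 9058011724) (nat_lit 76) (nat_lit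 56260957682) (nat_lit 3) (nat_lit 5) (nat_lit 5) (nat_lit 5) (nat_lit 4) (nat_lit 4) (nat_lit 390) (nat_lit 224) (nat_lit 166)) (XT.nd (nat_lit 78) (nat_lit 0) (nat_lit 0) (XT.lf (nat_lit 0) (nat_lit 3737273342) (nat_lit 152) (nat_lit 5086786592) (nat_lit 76) (nat_lit 60174467774) (nat_lit 3) (nat_lit 5) (nat_lit 5) (nat_lit 5) (nat_lit 4) (nat_lit 4) (nat_lit 391) (nat_lit 224) (nat_lit 165)) (XT.lf (nat_lit 0) (nat_lit 5774825405) (nat_lit 152) (nat_lit 1028761289) (nat_lit 76) (nat_lit 64191884428) (nat_lit 3) (nat_lit 5) (nat_lit 5) (nat_lit 5) (nat_lit 4) (nat_lit 4) (nat_lit 392) (nat_lit 224) (nat_lit 164))))) (XT.nd (nat_lit 234) (nat_lit 0) (nat_lit 0) (XT.nd (nat_lit 78) (nat_lit 0) (nat_lit 0) (XT.lf (nat_lit 0) (nat_lit 3181696389) (nat_lit 76) (nat_lit 4704648837) (nat_lit 152) (nat_lit 65165606031) (nat_lit 2) (nat_lit 5) (nat_lit 3) (nat_lit 5) (nat_lit 4) (nat_lit 4) (nat_lit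 393) (nat_lit 224) (nat_lit 163)) (XT.nd (nat_lit 78) (nat_lit 0) (nat_lit 0) (XT.lf (nat_lit 0) (nat_lit 7508469448) (nat_lit 76) (nat_lit 2545604416) (nat_lit 152) (nat_lit 65116279293) (nat_lit 2) (nat_lit 5) (nat_lit 3) (nat_lit 5) (nat_lit 4) (nat_lit 4) (nat_lit 394) (nat_lit 224) (nat_lit 162)) (XT.lf (nat_lit 0) (nat_lit 11934864195) (nat_lit 76) (nat_lit 334955360) (nat_lit 152) (nat_lit 65083010872) (nat_lit 2) (nat_lit 5) (nat_lit 3) (nat_lit 5) (nat_lit 4) (nat_lit 4) (nat_lit 395) (nat_lit 224) (nat_lit 161)))) (XT.nd (nat_lit 78) (nat_lit 0) (nat_lit 0) (XT.lf (nat_lit 0) (nat_lit 14554063327) (nat_lit 152) (nat_lit 63155086673) (nat_lit 0) (nat_lit 1891583739) (nat_lit 2) (nat_lit 5) (nat_lit 4) (nat_lit 4) (nat_lit 2) (nat_lit 4) (nat_lit 396) (nat_lit 224) (nat_lit 160)) (XT.nd (nat_lit 78) (nat_lit 0) (nat_lit 0) (XT.lf (nat_lit 0) (nat_lit 16893993415) (nat_lit 152) (nat_lit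 60856460052) (nat_lit 0) (nat_lit 4166018047) (nat_lit 2) (nat_lit 5) (nat_lit 4) (nat_lit 4) (nat_lit 2) (nat_lit 4) (nat_lit 397) (nat_lit 224) (nat_lit 159)) (XT.lf (nat_lit 0) (nat_lit 19288434621) (nat_lit 152) (nat_lit 58516858063) (nat_lit 0) (nat_lit 6496871118) (nat_lit 2) (nat_lit 5) (nat_lit 4) (nat_lit 4) (nat_lit 2) (nat_lit 4) (nat_lit 398) (nat_lit 224) (nat_lit 158))))))))
noncomputable def xc29 : XT := (XT.nd (nat_lit 36660) (nat_lit 0) (nat_lit 304) (XT.nd (nat_lit 35802) (nat_lit 0) (nat_lit 912) (XT.nd (nat_lit 35334) (nat_lit 0) (nat_lit 1368) (XT.nd (nat_lit 156) (nat_lit 0) (nat_lit 0) (XT.nd (nat_lit 78) (nat_lit 0) (nat_lit 0) (XT.lf (nat_lit 0) (nat_lit 21739479176) (nat_lit 152) (nat_lit 56134236395) (nat_lit 0) (nat_lit 8886179620) (nat_lit 2) (nat_lit 5) (nat_lit 4) (nat_lit 4) (nat_lit 2) (nat_lit 4) (nat_lit 399) (nat_lit 224) (nat_lit 157)) (XT.lf (nat_lit 0)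 (nat_lit 24249268769) (nat_lit 152) (nat_lit 53706513146) (nat_lit 0) (nat_lit 11336031298) (nat_lit 2) (nat_lit 5) (nat_lit 4) (nat_lit 4) (nat_lit 2) (nat_lit 4) (nat_lit 400) (nat_lit 224) (nat_lit 156))) (XT.nd (nat_lit 78) (nat_lit 0) (nat_lit 0) (XT.lf (nat_lit 0) (nat_lit 26819996421) (nat_lit 152) (nat_lit 51231567003) (nat_lit 0) (nat_lit 13848566798) (nat_lit 2) (nat_lit 5) (nat_lit 4) (nat_lit 4) (nat_lit 2) (nat_lit 4) (nat_lit 401) (nat_lit 224) (nat_lit 155)) (XT.nd (nat_lit 35022) (nat_lit 0) (nat_lit 1900) (XT.lf (nat_lit 0) (nat_lit 29453908398) (nat_lit 152) (nat_lit 48707235393) (nat_lit 0) (nat_lit 16425981541) (nat_lit 2) (nat_lit 5) (nat_lit 4) (nat_lit 4) (nat_lit 2) (nat_lit 4) (nat_lit 402) (nat_lit 224) (nat_lit 154)) (XT.lf (nat_lit 0) (nat_lit 3769476689) (nat_lit 152) (nat_lit 1680211137) (nat_lit 152) (nat_lit 1680211137) (nat_lit 27) (nat_lit 4) (nat_lit 29) (nat_lit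 5) (nat_lit 29) (nat_lit 4) (nat_lit 330) (nat_lit 225) (nat_lit 225))))) (XT.nd (nat_lit 234) (nat_lit 304) (nat_lit 0) (XT.nd (nat_lit 78) (nat_lit 152) (nat_lit 0) (XT.lf (nat_lit 0) (nat_lit 51929118) (nat_lit 228) (nat_lit 444749564) (nat_lit 76) (nat_lit 14067066463) (nat_lit 26) (nat_lit 5) (nat_lit 29) (nat_lit 5) (nat_lit 27) (nat_lit 4) (nat_lit 331) (nat_lit 225) (nat_lit 224)) (XT.nd (nat_lit 78) (nat_lit 0) (nat_lit 0) (XT.lf (nat_lit 0) (nat_lit 3503292014) (nat_lit 228) (nat_lit 8921924543) (nat_lit 0) (nat_lit 2450566668) (nat_lit 24) (nat_lit 5) (nat_lit 27) (nat_lit 4) (nat_lit 24) (nat_lit 4) (nat_lit 332) (nat_lit 225) (nat_lit 223)) (XT.lf (nat_lit 0) (nat_lit 6990952201) (nat_lit 228) (nat_lit 2773593487) (nat_lit 0) (nat_lit 5434747326) (nat_lit 24) (nat_lit 5) (nat_lit 27) (nat_lit 4) (nat_lit 24) (nat_lit 4) (nat_lit 333) (nat_lit 225) (nat_lit 222)))) (XT.nd (nat_lit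 78) (nat_lit 152) (nat_lit 0) (XT.lf (nat_lit 0) (nat_lit 3506123232) (nat_lit 152) (nat_lit 7036359077) (nat_lit 152) (nat_lit 4991339126) (nat_lit 22) (nat_lit 4) (nat_lit 24) (nat_lit 5) (nat_lit 24) (nat_lit 4) (nat_lit 334) (nat_lit 225) (nat_lit 221)) (XT.nd (nat_lit 78) (nat_lit 152) (nat_lit 0) (XT.lf (nat_lit 0) (nat_lit 9910797035) (nat_lit 152) (nat_lit 4244318774) (nat_lit 152) (nat_lit 1724721078) (nat_lit 22) (nat_lit 4) (nat_lit 24) (nat_lit 5) (nat_lit 24) (nat_lit 4) (nat_lit 335) (nat_lit 225) (nat_lit 220)) (XT.lf (nat_lit 0) (nat_lit 140042739) (nat_lit 76) (nat_lit 1397097913) (nat_lit 152) (nat_lit 14700824736) (nat_lit 20) (nat_lit 5) (nat_lit 21) (nat_lit 5) (nat_lit 22) (nat_lit 4) (nat_lit 336) (nat_lit 225) (nat_lit 219)))))) (XT.nd (nat_lit 390) (nat_lit 228) (nat_lit 0) (XT.nd (nat_lit 156) (nat_lit 228) (nat_lit 0) (XT.nd (nat_lit 78) (nat_lit 0) (nat_lit 0) (XT.lf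 (nat_lit 0) (nat_lit 4866256821) (nat_lit 152) (nat_lit 10201622598) (nat_lit 0) (nat_lit 1538404562) (nat_lit 20) (nat_lit 5) (nat_lit 22) (nat_lit 4) (nat_lit 20) (nat_lit 4) (nat_lit 337) (nat_lit 225) (nat_lit 218)) (XT.lf (nat_lit 0) (nat_lit 8239594504) (nat_lit 152) (nat_lit 4257719224) (nat_lit 0) (nat_lit 4490086066) (nat_lit 20) (nat_lit 5) (nat_lit 22) (nat_lit 4) (nat_lit 20) (nat_lit 4) (nat_lit 338) (nat_lit 225) (nat_lit 217))) (XT.nd (nat_lit 78) (nat_lit 76) (nat_lit 0) (XT.lf (nat_lit 0) (nat_lit 1787287348) (nat_lit 152) (nat_lit 9876564669) (nat_lit 152) (nat_lit 5717681301) (nat_lit 18) (nat_lit 4) (nat_lit 20) (nat_lit 5) (nat_lit 20) (nat_lit 4) (nat_lit 339) (nat_lit 225) (nat_lit 216)) (XT.nd (nat_lit 78) (nat_lit 76) (nat_lit 0) (XT.lf (nat_lit 0) (nat_lit 7989931797) (nat_lit 152) (nat_lit 7177337236) (nat_lit 152) (nat_lit 2621002478) (nat_lit 18) (nat_lit 4) (nat_lit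 20) (nat_lit 5) (nat_lit 20) (nat_lit 4) (nat_lit 340) (nat_lit 225) (nat_lit 215)) (XT.lf (nat_lit 0) (nat_lit 492147691) (nat_lit 228) (nat_lit 3943150078) (nat_lit 76) (nat_lit 13773779529) (nat_lit 17) (nat_lit 5) (nat_lit 20) (nat_lit 5) (nat_lit 18) (nat_lit 4) (nat_lit 341) (nat_lit 225) (nat_lit 214))))) (XT.nd (nat_lit 234) (nat_lit 152) (nat_lit 0) (XT.nd (nat_lit 78) (nat_lit 0) (nat_lit 0) (XT.lf (nat_lit 0) (nat_lit 1994719074) (nat_lit 76) (nat_lit 1607037093) (nat_lit 152) (nat_lit 15041367648) (nat_lit 16) (nat_lit 5) (nat_lit 17) (nat_lit 5) (nat_lit 18) (nat_lit 4) (nat_lit 342) (nat_lit 225) (nat_lit 213)) (XT.nd (nat_lit 78) (nat_lit 0) (nat_lit 0) (XT.lf (nat_lit 0) (nat_lit 6794421116) (nat_lit 152) (nat_lit 11016838624) (nat_lit 0) (nat_lit 1279304349) (nat_lit 16) (nat_lit 5) (nat_lit 18) (nat_lit 4) (nat_lit 16) (nat_lit 4) (nat_lit 343) (nat_lit 225) (nat_lit 212))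 (XT.lf (nat_lit 0) (nat_lit 10037613327) (nat_lit 152) (nat_lit 5335583827) (nat_lit 0) (nat_lit 4179651501) (nat_lit 16) (nat_lit 5) (nat_lit 18) (nat_lit 4) (nat_lit 16) (nat_lit 4) (nat_lit 344) (nat_lit 225) (nat_lit 211)))) (XT.nd (nat_lit 78) (nat_lit 0) (nat_lit 0) (XT.lf (nat_lit 0) (nat_lit 424046348) (nat_lit 152) (nat_lit 12898748680) (nat_lit 152) (nat_lit 6707927572) (nat_lit 14) (nat_lit 4) (nat_lit 16) (nat_lit 5) (nat_lit 16) (nat_lit 4) (nat_lit 345) (nat_lit 225) (nat_lit 210)) (XT.nd (nat_lit 78) (nat_lit 0) (nat_lit 0) (XT.lf (nat_lit 0) (nat_lit 6366486424) (nat_lit 152) (nat_lit 10335316764) (nat_lit 152) (nat_lit 3821331305) (nat_lit 14) (nat_lit 4) (nat_lit 16) (nat_lit 5) (nat_lit 16) (nat_lit 4) (nat_lit 346) (nat_lit 225) (nat_lit 209)) (XT.lf (nat_lit 0) (nat_lit 12390740244) (nat_lit 152) (nat_lit 7734540448) (nat_lit 152) (nat_lit 906803192) (nat_lit 14) (nat_lit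 4) (nat_lit 16) (nat_lit 5) (nat_lit 16) (nat_lit 4) (nat_lit 347) (nat_lit 225) (nat_lit 208))))))) (XT.nd (nat_lit 858) (nat_lit 152) (nat_lit 0) (XT.nd (nat_lit 390) (nat_lit 304) (nat_lit 0) (XT.nd (nat_lit 156) (nat_lit 0) (nat_lit 0) (XT.nd (nat_lit 78) (nat_lit 76) (nat_lit 0) (XT.lf (nat_lit 0) (nat_lit 1998430750) (nat_lit 228) (nat_lit 3075536226) (nat_lit 76) (nat_lit 16483460737) (nat_lit 13) (nat_lit 5) (nat_lit 16) (nat_lit 5) (nat_lit 14) (nat_lit 4) (nat_lit 348) (nat_lit 225) (nat_lit 207)) (XT.lf (nat_lit 0) (nat_lit 2607086260) (nat_lit 76) (nat_lit 2336351213) (nat_lit 152) (nat_lit 17155752972) (nat_lit 12) (nat_lit 5) (nat_lit 13) (nat_lit 5) (nat_lit 14) (nat_lit 4) (nat_lit 349) (nat_lit 225) (nat_lit 206))) (XT.nd (nat_lit 78) (nat_lit 0) (nat_lit 0) (XT.lf (nat_lit 0) (nat_lit 7958927361) (nat_lit 152) (nat_lit 14230443012) (nat_lit 0) (nat_lit 468423331) (nat_lit 12)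 (nat_lit 5) (nat_lit 14) (nat_lit 4) (nat_lit 12) (nat_lit 4) (nat_lit 350) (nat_lit 225) (nat_lit 205)) (XT.nd (nat_lit 78) (nat_lit 0) (nat_lit 0) (XT.lf (nat_lit 0) (nat_lit 11035705315) (nat_lit 152) (nat_lit 8923818946) (nat_lit 0) (nat_lit 3274556229) (nat_lit 12) (nat_lit 5) (nat_lit 14) (nat_lit 4) (nat_lit 12) (nat_lit 4) (nat_lit 351) (nat_lit 225) (nat_lit 204)) (XT.lf (nat_lit 0) (nat_lit 14154001345) (nat_lit 152) (nat_lit 3545136694) (nat_lit 0) (nat_lit 6130090069) (nat_lit 12) (nat_lit 5) (nat_lit 14) (nat_lit 4) (nat_lit 12) (nat_lit 4) (nat_lit 352) (nat_lit 225) (nat_lit 203))))) (XT.nd (nat_lit 234) (nat_lit 152) (nat_lit 0) (XT.nd (nat_lit 78) (nat_lit 0) (nat_lit 0) (XT.lf (nat_lit 0) (nat_lit 1948322349) (nat_lit 152) (nat_lit 15386946292) (nat_lit 152) (nat_lit 7107926094) (nat_lit 10) (nat_lit 4) (nat_lit 12) (nat_lit 5) (nat_lit 12) (nat_lit 4) (nat_lit 353) (nat_lit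 225) (nat_lit 202)) (XT.nd (nat_lit 78) (nat_lit 0) (nat_lit 0) (XT.lf (nat_lit 0) (nat_lit 7595483965) (nat_lit 152) (nat_lit 13003613664) (nat_lit 152) (nat_lit 4476914899) (nat_lit 10) (nat_lit 4) (nat_lit 12) (nat_lit 5) (nat_lit 12) (nat_lit 4) (nat_lit 354) (nat_lit 225) (nat_lit 201)) (XT.lf (nat_lit 0) (nat_lit 13330727394) (nat_lit 152) (nat_lit 10582856559) (nat_lit 152) (nat_lit 1815693168) (nat_lit 10) (nat_lit 4) (nat_lit 12) (nat_lit 5) (nat_lit 12) (nat_lit 4) (nat_lit 355) (nat_lit 225) (nat_lit 200)))) (XT.nd (nat_lit 78) (nat_lit 76) (nat_lit 0) (XT.lf (nat_lit 0) (nat_lit 860930239) (nat_lit 228) (nat_lit 7252935807) (nat_lit 76) (nat_lit 18289440066) (nat_lit 9) (nat_lit 5) (nat_lit 12) (nat_lit 5) (nat_lit 10) (nat_lit 4) (nat_lit 356) (nat_lit 225) (nat_lit 199)) (XT.nd (nat_lit 78) (nat_lit 76) (nat_lit 0) (XT.lf (nat_lit 0) (nat_lit 3536331757) (nat_lit 228) (nat_lit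 2048531700) (nat_lit 76) (nat_lit 21513544772) (nat_lit 9) (nat_lit 5) (nat_lit 12) (nat_lit 5) (nat_lit 10) (nat_lit 4) (nat_lit 357) (nat_lit 225) (nat_lit 198)) (XT.lf (nat_lit 0) (nat_lit 3301079636) (nat_lit 76) (nat_lit 2978932186) (nat_lit 152) (nat_lit 21534750664) (nat_lit 8) (nat_lit 5) (nat_lit 9) (nat_lit 5) (nat_lit 10) (nat_lit 4) (nat_lit 358) (nat_lit 225) (nat_lit 197)))))) (XT.nd (nat_lit 468) (nat_lit 76) (nat_lit 0) (XT.nd (nat_lit 234) (nat_lit 76) (nat_lit 0) (XT.nd (nat_lit 78) (nat_lit 0) (nat_lit 0) (XT.lf (nat_lit 0) (nat_lit 8778569995) (nat_lit 76) (nat_lit 304959101) (nat_lit 152) (nat_lit 19469790893) (nat_lit 8) (nat_lit 5) (nat_lit 9) (nat_lit 5) (nat_lit 10) (nat_lit 4) (nat_lit 359) (nat_lit 225) (nat_lit 196)) (XT.nd (nat_lit 78) (nat_lit 0) (nat_lit 0) (XT.lf (nat_lit 0) (nat_lit 11952499691) (nat_lit 152) (nat_lit 14990622936) (nat_lit 0) (nat_lit 2371508457)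 (nat_lit 8) (nat_lit 5) (nat_lit 10) (nat_lit 4) (nat_lit 8) (nat_lit 4) (nat_lit 360) (nat_lit 225) (nat_lit 195)) (XT.lf (nat_lit 0) (nat_lit 14869592077) (nat_lit 152) (nat_lit 10137282974) (nat_lit 0) (nat_lit 5093081096) (nat_lit 8) (nat_lit 5) (nat_lit 10) (nat_lit 4) (nat_lit 8) (nat_lit 4) (nat_lit 361) (nat_lit 225) (nat_lit 194)))) (XT.nd (nat_lit 78) (nat_lit 76) (nat_lit 0) (XT.lf (nat_lit 0) (nat_lit 17834423717) (nat_lit 152) (nat_lit 5207557872) (nat_lit 0) (nat_lit 7868087739) (nat_lit 8) (nat_lit 5) (nat_lit 10) (nat_lit 4) (nat_lit 8) (nat_lit 4) (nat_lit 362) (nat_lit 225) (nat_lit 193)) (XT.nd (nat_lit 78) (nat_lit 76) (nat_lit 0) (XT.lf (nat_lit 0) (nat_lit 20849585240) (nat_lit 152) (nat_lit 197140104) (nat_lit 0) (nat_lit 10698953148) (nat_lit 8) (nat_lit 5) (nat_lit 10) (nat_lit 4) (nat_lit 8) (nat_lit 4) (nat_lit 363) (nat_lit 225) (nat_lit 192)) (XT.lf (nat_lit 0) (nat_lit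 4995835102) (nat_lit 76) (nat_lit 18969899175) (nat_lit 76) (nat_lit 8640338817) (nat_lit 7) (nat_lit 4) (nat_lit 8) (nat_lit 5) (nat_lit 8) (nat_lit 4) (nat_lit 364) (nat_lit 225) (nat_lit 191))))) (XT.nd (nat_lit 234) (nat_lit 76) (nat_lit 0) (XT.nd (nat_lit 78) (nat_lit 0) (nat_lit 0) (XT.lf (nat_lit 0) (nat_lit 10284038539) (nat_lit 76) (nat_lit 16856300576) (nat_lit 76) (nat_lit 6353023456) (nat_lit 7) (nat_lit 4) (nat_lit 8) (nat_lit 5) (nat_lit 8) (nat_lit 4) (nat_lit 365) (nat_lit 225) (nat_lit 190)) (XT.nd (nat_lit 78) (nat_lit 0) (nat_lit 0) (XT.lf (nat_lit 0) (nat_lit 15668167490) (nat_lit 76) (nat_lit 14706073444) (nat_lit 76) (nat_lit 4034139272) (nat_lit 7) (nat_lit 4) (nat_lit 8) (nat_lit 5) (nat_lit 8) (nat_lit 4) (nat_lit 366) (nat_lit 225) (nat_lit 189)) (XT.lf (nat_lit 0) (nat_lit 21152926536) (nat_lit 76) (nat_lit 12517338938) (nat_lit 76) (nat_lit 1681660057) (nat_lit 7)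 (nat_lit 4) (nat_lit 8) (nat_lit 5) (nat_lit 8) (nat_lit 4) (nat_lit 367) (nat_lit 225) (nat_lit 188)))) (XT.nd (nat_lit 78) (nat_lit 0) (nat_lit 0) (XT.lf (nat_lit 0) (nat_lit 692683984) (nat_lit 152) (nat_lit 9588505838) (nat_lit 76) (nat_lit 26043429448) (nat_lit 6) (nat_lit 5) (nat_lit 8) (nat_lit 5) (nat_lit 7) (nat_lit 4) (nat_lit 368) (nat_lit 225) (nat_lit 187)) (XT.nd (nat_lit 78) (nat_lit 0) (nat_lit 0) (XT.lf (nat_lit 0) (nat_lit 3071213702) (nat_lit 152) (nat_lit 4914435605) (nat_lit 76) (nat_lit 29341370117) (nat_lit 6) (nat_lit 5) (nat_lit 8) (nat_lit 5) (nat_lit 7) (nat_lit 4) (nat_lit 369) (nat_lit 225) (nat_lit 186)) (XT.lf (nat_lit 0) (nat_lit 5488822668) (nat_lit 152) (nat_lit 156539010) (nat_lit 76) (nat_lit 32715125151) (nat_lit 6) (nat_lit 5) (nat_lit 8) (nat_lit 5) (nat_lit 7) (nat_lit 4) (nat_lit 370) (nat_lit 225) (nat_lit 185))))))))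
noncomputable def xc30 : XT := (XT.nd (nat_lit 1716) (nat_lit 76) (nat_lit 0) (XT.nd (nat_lit 858) (nat_lit 76) (nat_lit 0) (XT.nd (nat_lit 390) (nat_lit 76) (nat_lit 0) (XT.nd (nat_lit 156) (nat_lit 0) (nat_lit 0) (XT.nd (nat_lit 78) (nat_lit 0) (nat_lit 0) (XT.lf (nat_lit 0) (nat_lit 4782668417) (nat_lit 76) (nat_lit 3210928872) (nat_lit 152) (nat_lit 31430948008) (nat_lit 5) (nat_lit 5) (nat_lit 6) (nat_lit 5) (nat_lit 7) (nat_lit 4) (nat_lit 371) (nat_lit 225) (nat_lit 184)) (XT.lf (nat_lit 0) (nat_lit 9819044608) (nat_lit 76) (nat_lit 725106285) (nat_lit 152) (nat_lit 29977280954) (nat_lit 5) (nat_lit 5) (nat_lit 6) (nat_lit 5) (nat_lit 7) (nat_lit 4) (nat_lit 372) (nat_lit 225) (nat_lit 183))) (XT.nd (nat_lit 78) (nat_lit 0) (nat_lit 0) (XT.lf (nat_lit 0) (nat_lit 13158602179) (nat_lit 152) (nat_lit 26715700876) (nat_lit 0) (nat_lit 1777325167) (nat_lit 5) (nat_lit 5) (nat_lit 7) (nat_lit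 4) (nat_lit 5) (nat_lit 4) (nat_lit 373) (nat_lit 225) (nat_lit 182)) (XT.nd (nat_lit 78) (nat_lit 0) (nat_lit 0) (XT.lf (nat_lit 0) (nat_lit 15829286792) (nat_lit 152) (nat_lit 22668385451) (nat_lit 0) (nat_lit 4318748194) (nat_lit 5) (nat_lit 5) (nat_lit 7) (nat_lit 4) (nat_lit 5) (nat_lit 4) (nat_lit 374) (nat_lit 225) (nat_lit 181)) (XT.lf (nat_lit 0) (nat_lit 18551568176) (nat_lit 152) (nat_lit 18549934311) (nat_lit 0) (nat_lit 6915532892) (nat_lit 5) (nat_lit 5) (nat_lit 7) (nat_lit 4) (nat_lit 5) (nat_lit 4) (nat_lit 375) (nat_lit 225) (nat_lit 180))))) (XT.nd (nat_lit 234) (nat_lit 76) (nat_lit 0) (XT.nd (nat_lit 78) (nat_lit 0) (nat_lit 0) (XT.lf (nat_lit 0) (nat_lit 21327825021) (nat_lit 152) (nat_lit 14356748808) (nat_lit 0) (nat_lit 9569948295) (nat_lit 5) (nat_lit 5) (nat_lit 7) (nat_lit 4) (nat_lit 5) (nat_lit 4) (nat_lit 376) (nat_lit 225) (nat_lit 179)) (XT.nd (nat_lit 78) (nat_lit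 0) (nat_lit 0) (XT.lf (nat_lit 0) (nat_lit 24160483185) (nat_lit 152) (nat_lit 10085164994) (nat_lit 0) (nat_lit 12284313797) (nat_lit 5) (nat_lit 5) (nat_lit 7) (nat_lit 4) (nat_lit 5) (nat_lit 4) (nat_lit 377) (nat_lit 225) (nat_lit 178)) (XT.lf (nat_lit 0) (nat_lit 27052017804) (nat_lit 152) (nat_lit 5731450418) (nat_lit 0) (nat_lit 15061001171) (nat_lit 5) (nat_lit 5) (nat_lit 7) (nat_lit 4) (nat_lit 5) (nat_lit 4) (nat_lit 378) (nat_lit 225) (nat_lit 177)))) (XT.nd (nat_lit 78) (nat_lit 76) (nat_lit 0) (XT.lf (nat_lit 0) (nat_lit 30004955464) (nat_lit 152) (nat_lit 1291800862) (nat_lit 0) (nat_lit 17902436651) (nat_lit 5) (nat_lit 5) (nat_lit 7) (nat_lit 4) (nat_lit 5) (nat_lit 4) (nat_lit 379) (nat_lit 225) (nat_lit 176)) (XT.nd (nat_lit 78) (nat_lit 0) (nat_lit 0) (XT.lf (nat_lit 0) (nat_lit 3302098819) (nat_lit 76) (nat_lit 29751519374) (nat_lit 76) (nat_lit 17540746018) (nat_lit 4)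 (nat_lit 4) (nat_lit 5) (nat_lit 5) (nat_lit 5) (nat_lit 4) (nat_lit 380) (nat_lit 225) (nat_lit 175)) (XT.lf (nat_lit 0) (nat_lit 8017346189) (nat_lit 76) (nat_lit 28165138204) (nat_lit 76) (nat_lit 15849263350) (nat_lit 4) (nat_lit 4) (nat_lit 5) (nat_lit 5) (nat_lit 5) (nat_lit 4) (nat_lit 381) (nat_lit 225) (nat_lit 174)))))) (XT.nd (nat_lit 390) (nat_lit 76) (nat_lit 0) (XT.nd (nat_lit 156) (nat_lit 0) (nat_lit 0) (XT.nd (nat_lit 78) (nat_lit 0) (nat_lit 0) (XT.lf (nat_lit 0) (nat_lit 12832351994) (nat_lit 76) (nat_lit 26549271315) (nat_lit 76) (nat_lit 14131356170) (nat_lit 4) (nat_lit 4) (nat_lit 5) (nat_lit 5) (nat_lit 5) (nat_lit 4) (nat_lit 382) (nat_lit 225) (nat_lit 173)) (XT.lf (nat_lit 0) (nat_lit 17751323521) (nat_lit 76) (nat_lit 24902506782) (nat_lit 76) (nat_lit 12385523396) (nat_lit 4) (nat_lit 4) (nat_lit 5) (nat_lit 5) (nat_lit 5) (nat_lit 4) (nat_lit 383) (nat_lit 225)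 (nat_lit 172))) (XT.nd (nat_lit 78) (nat_lit 0) (nat_lit 0) (XT.lf (nat_lit 0) (nat_lit 22778558902) (nat_lit 76) (nat_lit 23223405687) (nat_lit 76) (nat_lit 10610239541) (nat_lit 4) (nat_lit 4) (nat_lit 5) (nat_lit 5) (nat_lit 5) (nat_lit 4) (nat_lit 384) (nat_lit 225) (nat_lit 171)) (XT.nd (nat_lit 78) (nat_lit 0) (nat_lit 0) (XT.lf (nat_lit 0) (nat_lit 27918450866) (nat_lit 76) (nat_lit 21510500853) (nat_lit 76) (nat_lit 8803953387) (nat_lit 4) (nat_lit 4) (nat_lit 5) (nat_lit 5) (nat_lit 5) (nat_lit 4) (nat_lit 385) (nat_lit 225) (nat_lit 170)) (XT.lf (nat_lit 0) (nat_lit 33175490580) (nat_lit 76) (nat_lit 19762295567) (nat_lit 76) (nat_lit 6965086625) (nat_lit 4) (nat_lit 4) (nat_lit 5) (nat_lit 5) (nat_lit 5) (nat_lit 4) (nat_lit 386) (nat_lit 225) (nat_lit 169))))) (XT.nd (nat_lit 234) (nat_lit 76) (nat_lit 0) (XT.nd (nat_lit 78) (nat_lit 0) (nat_lit 0) (XT.lf (nat_lit 0) (nat_lit 38554271574)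 (nat_lit 76) (nat_lit 17977262272) (nat_lit 76) (nat_lit 5092032479) (nat_lit 4) (nat_lit 4) (nat_lit 5) (nat_lit 5) (nat_lit 5) (nat_lit 4) (nat_lit 387) (nat_lit 225) (nat_lit 168)) (XT.nd (nat_lit 78) (nat_lit 0) (nat_lit 0) (XT.lf (nat_lit 0) (nat_lit 44059493755) (nat_lit 76) (nat_lit 16153841229) (nat_lit 76) (nat_lit 3183154300) (nat_lit 4) (nat_lit 4) (nat_lit 5) (nat_lit 5) (nat_lit 5) (nat_lit 4) (nat_lit 388) (nat_lit 225) (nat_lit 167)) (XT.lf (nat_lit 0) (nat_lit 49695967511) (nat_lit 76) (nat_lit 14290439157) (nat_lit 76) (nat_lit 1236784136) (nat_lit 4) (nat_lit 4) (nat_lit 5) (nat_lit 5) (nat_lit 5) (nat_lit 4) (nat_lit 389) (nat_lit 225) (nat_lit 166)))) (XT.nd (nat_lit 78) (nat_lit 0) (nat_lit 0) (XT.lf (nat_lit 0) (nat_lit 734167355) (nat_lit 152) (nat_lit 11643846837) (nat_lit 76) (nat_lit 54727036909) (nat_lit 3) (nat_lit 5) (nat_lit 5) (nat_lit 5) (nat_lit 4) (nat_lit 4)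 (nat_lit 390) (nat_lit 225) (nat_lit 165)) (XT.nd (nat_lit 78) (nat_lit 0) (nat_lit 0) (XT.lf (nat_lit 0) (nat_lit 2721113742) (nat_lit 152) (nat_lit 7688551056) (nat_lit 76) (nat_lit 58633897375) (nat_lit 3) (nat_lit 5) (nat_lit 5) (nat_lit 5) (nat_lit 4) (nat_lit 4) (nat_lit 391) (nat_lit 225) (nat_lit 164)) (XT.lf (nat_lit 0) (nat_lit 4749925305) (nat_lit 152) (nat_lit 3645991142) (nat_lit 76) (nat_lit 62644858082) (nat_lit 3) (nat_lit 5) (nat_lit 5) (nat_lit 5) (nat_lit 4) (nat_lit 4) (nat_lit 392) (nat_lit 225) (nat_lit 163))))))) (XT.nd (nat_lit 35646) (nat_lit 0) (nat_lit 1216) (XT.nd (nat_lit 390) (nat_lit 0) (nat_lit 0) (XT.nd (nat_lit 156) (nat_lit 0) (nat_lit 0) (XT.nd (nat_lit 78) (nat_lit 0) (nat_lit 0) (XT.lf (nat_lit 0) (nat_lit 497064762) (nat_lit 76) (nat_lit 6330088119) (nat_lit 152) (nat_lit 66271137080) (nat_lit 2) (nat_lit 5) (nat_lit 3) (nat_lit 5) (nat_lit 4) (nat_lit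 4) (nat_lit 393) (nat_lit 225) (nat_lit 162)) (XT.lf (nat_lit 0) (nat_lit 4808970085) (nat_lit 76) (nat_lit 4177529756) (nat_lit 152) (nat_lit 66230449810) (nat_lit 2) (nat_lit 5) (nat_lit 3) (nat_lit 5) (nat_lit 4) (nat_lit 4) (nat_lit 394) (nat_lit 225) (nat_lit 161))) (XT.nd (nat_lit 78) (nat_lit 0) (nat_lit 0) (XT.lf (nat_lit 0) (nat_lit 9220930138) (nat_lit 76) (nat_lit 1973177844) (nat_lit 152) (nat_lit 66205569222) (nat_lit 2) (nat_lit 5) (nat_lit 3) (nat_lit 5) (nat_lit 4) (nat_lit 4) (nat_lit 395) (nat_lit 225) (nat_lit 160)) (XT.nd (nat_lit 78) (nat_lit 0) (nat_lit 0) (XT.lf (nat_lit 0) (nat_lit 13454644853) (nat_lit 152) (nat_lit 65914318401) (nat_lit 0) (nat_lit 279334446) (nat_lit 2) (nat_lit 5) (nat_lit 4) (nat_lit 4) (nat_lit 2) (nat_lit 4) (nat_lit 396) (nat_lit 225) (nat_lit 159)) (XT.lf (nat_lit 0) (nat_lit 15786847461) (nat_lit 152) (nat_lit 63629476721) (nat_lit 0) (nat_lit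 2547948918) (nat_lit 2) (nat_lit 5) (nat_lit 4) (nat_lit 4) (nat_lit 2) (nat_lit 4) (nat_lit 397) (nat_lit 225) (nat_lit 158))))) (XT.nd (nat_lit 234) (nat_lit 0) (nat_lit 0) (XT.nd (nat_lit 78) (nat_lit 0) (nat_lit 0) (XT.lf (nat_lit 0) (nat_lit 18173786259) (nat_lit 152) (nat_lit 61303258171) (nat_lit 0) (nat_lit 4873151664) (nat_lit 2) (nat_lit 5) (nat_lit 4) (nat_lit 4) (nat_lit 2) (nat_lit 4) (nat_lit 398) (nat_lit 225) (nat_lit 157)) (XT.nd (nat_lit 78) (nat_lit 0) (nat_lit 0) (XT.lf (nat_lit 0) (nat_lit 20617546923) (nat_lit 152) (nat_lit 58933630133) (nat_lit 0) (nat_lit 7256974412) (nat_lit 2) (nat_lit 5) (nat_lit 4) (nat_lit 4) (nat_lit 2) (nat_lit 4) (nat_lit 399) (nat_lit 225) (nat_lit 156)) (XT.lf (nat_lit 0) (nat_lit 23120264778) (nat_lit 152) (nat_lit 56518522058) (nat_lit 0) (nat_lit 9701500115) (nat_lit 2) (nat_lit 5) (nat_lit 4) (nat_lit 4) (nat_lit 2) (nat_lit 4) (nat_lit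 400) (nat_lit 225) (nat_lit 155)))) (XT.nd (nat_lit 78) (nat_lit 0) (nat_lit 0) (XT.lf (nat_lit 0) (nat_lit 25684126665) (nat_lit 152) (nat_lit 54055823658) (nat_lit 0) (nat_lit 12208864767) (nat_lit 2) (nat_lit 5) (nat_lit 4) (nat_lit 4) (nat_lit 2) (nat_lit 4) (nat_lit 401) (nat_lit 225) (nat_lit 154)) (XT.nd (nat_lit 34866) (nat_lit 0) (nat_lit 2052) (XT.lf (nat_lit 0) (nat_lit 28311372850) (nat_lit 152) (nat_lit 51543383059) (nat_lit 0) (nat_lit 14781259269) (nat_lit 2) (nat_lit 5) (nat_lit 4) (nat_lit 4) (nat_lit 2) (nat_lit 4) (nat_lit 402) (nat_lit 225) (nat_lit 153)) (XT.lf (nat_lit 0) (nat_lit 2107512199) (nat_lit 228) (nat_lit 2626255507) (nat_lit 0) (nat_lit 2107512199) (nat_lit 29) (nat_lit 5) (nat_lit 32) (nat_lit 4) (nat_lit 29) (nat_lit 4) (nat_lit 328) (nat_lit 226) (nat_lit 226)))))) (XT.nd (nat_lit 468) (nat_lit 304) (nat_lit 0) (XT.nd (nat_lit 234) (nat_lit 304) (nat_lit 0)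 (XT.nd (nat_lit 78) (nat_lit 76) (nat_lit 0) (XT.lf (nat_lit 0) (nat_lit 1027272249) (nat_lit 152) (nat_lit 6753239907) (nat_lit 152) (nat_lit 6186569262) (nat_lit 27) (nat_lit 4) (nat_lit 29) (nat_lit 5) (nat_lit 29) (nat_lit 4) (nat_lit 329) (nat_lit 226) (nat_lit 225)) (XT.nd (nat_lit 78) (nat_lit 76) (nat_lit 0) (XT.lf (nat_lit 0) (nat_lit 7476655360) (nat_lit 152) (nat_lit 3950596460) (nat_lit 152) (nat_lit 2833760140) (nat_lit 27) (nat_lit 4) (nat_lit 29) (nat_lit 5) (nat_lit 29) (nat_lit 4) (nat_lit 330) (nat_lit 226) (nat_lit 224)) (XT.lf (nat_lit 0) (nat_lit 530228932) (nat_lit 228) (nat_lit 574613018) (nat_lit 76) (nat_lit 13461155225) (nat_lit 26) (nat_lit 5) (nat_lit 29) (nat_lit 5) (nat_lit 27) (nat_lit 4) (nat_lit 331) (nat_lit 226) (nat_lit 223)))) (XT.nd (nat_lit 78) (nat_lit 152) (nat_lit 0) (XT.lf (nat_lit 0) (nat_lit 3936678353) (nat_lit 228) (nat_lit 9112442444) (nat_lit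 0) (nat_lit 1830307803) (nat_lit 24) (nat_lit 5) (nat_lit 27) (nat_lit 4) (nat_lit 24) (nat_lit 4) (nat_lit 332) (nat_lit 226) (nat_lit 222)) (XT.nd (nat_lit 78) (nat_lit 152) (nat_lit 0) (XT.lf (nat_lit 0) (nat_lit 7387657316) (nat_lit 228) (nat_lit 3023954423) (nat_lit 0) (nat_lit 4792471689) (nat_lit 24) (nat_lit 5) (nat_lit 27) (nat_lit 4) (nat_lit 24) (nat_lit 4) (nat_lit 333) (nat_lit 226) (nat_lit 221)) (XT.lf (nat_lit 0) (nat_lit 3191523285) (nat_lit 152) (nat_lit 7709027172) (nat_lit 152) (nat_lit 4639263802) (nat_lit 22) (nat_lit 4) (nat_lit 24) (nat_lit 5) (nat_lit 24) (nat_lit 4) (nat_lit 334) (nat_lit 226) (nat_lit 220))))) (XT.nd (nat_lit 234) (nat_lit 152) (nat_lit 0) (XT.nd (nat_lit 78) (nat_lit 152) (nat_lit 0) (XT.lf (nat_lit 0) (nat_lit 9538666663) (nat_lit 152) (nat_lit 4939388705) (nat_lit 152) (nat_lit 1408870243) (nat_lit 22) (nat_lit 4) (nat_lit 24) (nat_lit 5) (nat_lit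 24) (nat_lit 4) (nat_lit 335) (nat_lit 226) (nat_lit 219)) (XT.nd (nat_lit 78) (nat_lit 76) (nat_lit 0) (XT.lf (nat_lit 0) (nat_lit 1810998799) (nat_lit 228) (nat_lit 301525937) (nat_lit 76) (nat_lit 14133552797) (nat_lit 21) (nat_lit 5) (nat_lit 24) (nat_lit 5) (nat_lit 22) (nat_lit 4) (nat_lit 336) (nat_lit 226) (nat_lit 218)) (XT.lf (nat_lit 0) (nat_lit 5096023564) (nat_lit 152) (nat_lit 10707360086) (nat_lit 0) (nat_lit 812373694) (nat_lit 20) (nat_lit 5) (nat_lit 22) (nat_lit 4) (nat_lit 20) (nat_lit 4) (nat_lit 337) (nat_lit 226) (nat_lit 217)))) (XT.nd (nat_lit 78) (nat_lit 152) (nat_lit 0) (XT.lf (nat_lit 0) (nat_lit 8436129326) (nat_lit 152) (nat_lit 4818673616) (nat_lit 0) (nat_lit 3743104525) (nat_lit 20) (nat_lit 5) (nat_lit 22) (nat_lit 4) (nat_lit 20) (nat_lit 4) (nat_lit 338) (nat_lit 226) (nat_lit 216)) (XT.nd (nat_lit 78) (nat_lit 0) (nat_lit 0) (XT.lf (nat_lit 0) (nat_lit 1160493302)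 (nat_lit 152) (nat_lit 10661604408) (nat_lit 152) (nat_lit 5571128219) (nat_lit 18) (nat_lit 4) (nat_lit 20) (nat_lit 5) (nat_lit 20) (nat_lit 4) (nat_lit 339) (nat_lit 226) (nat_lit 215)) (XT.lf (nat_lit 0) (nat_lit 7310054681) (nat_lit 152) (nat_lit 7983625506) (nat_lit 152) (nat_lit 2507274181) (nat_lit 18) (nat_lit 4) (nat_lit 20) (nat_lit 5) (nat_lit 20) (nat_lit 4) (nat_lit 340) (nat_lit 226) (nat_lit 214))))))))
noncomputable def xc31 : XT := (XT.nd (nat_lit 1794) (nat_lit 304) (nat_lit 0) (XT.nd (nat_lit 858) (nat_lit 304) (nat_lit 0) (XT.nd (nat_lit 390) (nat_lit 304) (nat_lit 0) (XT.nd (nat_lit 156) (nat_lit 0) (nat_lit 0) (XT.nd (nat_lit 78) (nat_lit 76) (nat_lit 0) (XT.lf (nat_lit 0) (nat_lit 572409890) (nat_lit 228) (nat_lit 4688995300) (nat_lit 76) (nat_lit 12961292762) (nat_lit 17) (nat_lit 5) (nat_lit 20) (nat_lit 5) (nat_lit 18) (nat_lit 4) (nat_lit 341) (nat_lit 226) (nat_lit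 213)) (XT.lf (nat_lit 0) (nat_lit 1182349734) (nat_lit 76) (nat_lit 2461522894) (nat_lit 152) (nat_lit 15014048433) (nat_lit 16) (nat_lit 5) (nat_lit 17) (nat_lit 5) (nat_lit 18) (nat_lit 4) (nat_lit 342) (nat_lit 226) (nat_lit 212))) (XT.nd (nat_lit 78) (nat_lit 0) (nat_lit 0) (XT.lf (nat_lit 0) (nat_lit 6798193715) (nat_lit 152) (nat_lit 11886701244) (nat_lit 0) (nat_lit 421647974) (nat_lit 16) (nat_lit 5) (nat_lit 18) (nat_lit 4) (nat_lit 16) (nat_lit 4) (nat_lit 343) (nat_lit 226) (nat_lit 211)) (XT.nd (nat_lit 78) (nat_lit 0) (nat_lit 0) (XT.lf (nat_lit 0) (nat_lit 10012133479) (nat_lit 152) (nat_lit 6254873510) (nat_lit 0) (nat_lit 3302728456) (nat_lit 16) (nat_lit 5) (nat_lit 18) (nat_lit 4) (nat_lit 16) (nat_lit 4) (nat_lit 344) (nat_lit 226) (nat_lit 210)) (XT.lf (nat_lit 0) (nat_lit 13264838552) (nat_lit 152) (nat_lit 551505446) (nat_lit 0) (nat_lit 6232269179) (nat_lit 16) (nat_lit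 5) (nat_lit 18) (nat_lit 4) (nat_lit 16) (nat_lit 4) (nat_lit 345) (nat_lit 226) (nat_lit 209))))) (XT.nd (nat_lit 234) (nat_lit 76) (nat_lit 0) (XT.nd (nat_lit 78) (nat_lit 76) (nat_lit 0) (XT.lf (nat_lit 0) (nat_lit 5332441615) (nat_lit 152) (nat_lit 11277968179) (nat_lit 152) (nat_lit 3931647009) (nat_lit 14) (nat_lit 4) (nat_lit 16) (nat_lit 5) (nat_lit 16) (nat_lit 4) (nat_lit 346) (nat_lit 226) (nat_lit 208)) (XT.nd (nat_lit 78) (nat_lit 76) (nat_lit 0) (XT.lf (nat_lit 0) (nat_lit 11310562451) (nat_lit 152) (nat_lit 8696111256) (nat_lit 152) (nat_lit 1045176691) (nat_lit 14) (nat_lit 4) (nat_lit 16) (nat_lit 5) (nat_lit 16) (nat_lit 4) (nat_lit 347) (nat_lit 226) (nat_lit 207)) (XT.lf (nat_lit 0) (nat_lit 1836048402) (nat_lit 228) (nat_lit 4219497468) (nat_lit 76) (nat_lit 15522515729) (nat_lit 13) (nat_lit 5) (nat_lit 16) (nat_lit 5) (nat_lit 14) (nat_lit 4) (nat_lit 348) (nat_lit 226)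 (nat_lit 206)))) (XT.nd (nat_lit 78) (nat_lit 0) (nat_lit 0) (XT.lf (nat_lit 0) (nat_lit 1395455459) (nat_lit 76) (nat_lit 3348021646) (nat_lit 152) (nat_lit 17377500002) (nat_lit 12) (nat_lit 5) (nat_lit 13) (nat_lit 5) (nat_lit 14) (nat_lit 4) (nat_lit 349) (nat_lit 226) (nat_lit 205)) (XT.nd (nat_lit 78) (nat_lit 0) (nat_lit 0) (XT.lf (nat_lit 0) (nat_lit 7176855400) (nat_lit 76) (nat_lit 551924339) (nat_lit 152) (nat_lit 14951730938) (nat_lit 12) (nat_lit 5) (nat_lit 13) (nat_lit 5) (nat_lit 14) (nat_lit 4) (nat_lit 350) (nat_lit 226) (nat_lit 204)) (XT.lf (nat_lit 0) (nat_lit 10775234889) (nat_lit 152) (nat_lit 10234652150) (nat_lit 0) (nat_lit 2247844085) (nat_lit 12) (nat_lit 5) (nat_lit 14) (nat_lit 4) (nat_lit 12) (nat_lit 4) (nat_lit 351) (nat_lit 226) (nat_lit 203)))))) (XT.nd (nat_lit 468) (nat_lit 76) (nat_lit 0) (XT.nd (nat_lit 234) (nat_lit 76) (nat_lit 0) (XT.nd (nat_lit 78)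 (nat_lit 152) (nat_lit 0) (XT.lf (nat_lit 0) (nat_lit 13869242210) (nat_lit 152) (nat_lit 4897645988) (nat_lit 0) (nat_lit 5086742483) (nat_lit 12) (nat_lit 5) (nat_lit 14) (nat_lit 4) (nat_lit 12) (nat_lit 4) (nat_lit 352) (nat_lit 226) (nat_lit 202)) (XT.nd (nat_lit 78) (nat_lit 0) (nat_lit 0) (XT.lf (nat_lit 0) (nat_lit 527627968) (nat_lit 152) (nat_lit 16485643684) (nat_lit 152) (nat_lit 7455465391) (nat_lit 10) (nat_lit 4) (nat_lit 12) (nat_lit 5) (nat_lit 12) (nat_lit 4) (nat_lit 353) (nat_lit 226) (nat_lit 201)) (XT.lf (nat_lit 0) (nat_lit 6134724049) (nat_lit 152) (nat_lit 14119097017) (nat_lit 152) (nat_lit 4848454098) (nat_lit 10) (nat_lit 4) (nat_lit 12) (nat_lit 5) (nat_lit 12) (nat_lit 4) (nat_lit 354) (nat_lit 226) (nat_lit 200)))) (XT.nd (nat_lit 78) (nat_lit 76) (nat_lit 0) (XT.lf (nat_lit 0) (nat_lit 11831068900) (nat_lit 152) (nat_lit 11714636963) (nat_lit 152) (nat_lit 2210533241)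 (nat_lit 10) (nat_lit 4) (nat_lit 12) (nat_lit 5) (nat_lit 12) (nat_lit 4) (nat_lit 355) (nat_lit 226) (nat_lit 199)) (XT.nd (nat_lit 78) (nat_lit 0) (nat_lit 0) (XT.lf (nat_lit 0) (nat_lit 451614151) (nat_lit 228) (nat_lit 8813987968) (nat_lit 76) (nat_lit 17165465342) (nat_lit 9) (nat_lit 5) (nat_lit 12) (nat_lit 5) (nat_lit 10) (nat_lit 4) (nat_lit 356) (nat_lit 226) (nat_lit 198)) (XT.lf (nat_lit 0) (nat_lit 3105480943) (nat_lit 228) (nat_lit 3646697579) (nat_lit 76) (nat_lit 20374656592) (nat_lit 9) (nat_lit 5) (nat_lit 12) (nat_lit 5) (nat_lit 10) (nat_lit 4) (nat_lit 357) (nat_lit 226) (nat_lit 197))))) (XT.nd (nat_lit 234) (nat_lit 0) (nat_lit 0) (XT.nd (nat_lit 78) (nat_lit 0) (nat_lit 0) (XT.lf (nat_lit 0) (nat_lit 1634357265) (nat_lit 76) (nat_lit 4177874687) (nat_lit 152) (nat_lit 22032084217) (nat_lit 8) (nat_lit 5) (nat_lit 9) (nat_lit 5) (nat_lit 10) (nat_lit 4) (nat_lit 358)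 (nat_lit 226) (nat_lit 196)) (XT.nd (nat_lit 78) (nat_lit 0) (nat_lit 0) (XT.lf (nat_lit 0) (nat_lit 7076168151) (nat_lit 76) (nat_lit 1518939558) (nat_lit 152) (nat_lit 19988403584) (nat_lit 8) (nat_lit 5) (nat_lit 9) (nat_lit 5) (nat_lit 10) (nat_lit 4) (nat_lit 359) (nat_lit 226) (nat_lit 195)) (XT.lf (nat_lit 0) (nat_lit 11432228129) (nat_lit 152) (nat_lit 16746665533) (nat_lit 0) (nat_lit 1166902072) (nat_lit 8) (nat_lit 5) (nat_lit 10) (nat_lit 4) (nat_lit 8) (nat_lit 4) (nat_lit 360) (nat_lit 226) (nat_lit 194)))) (XT.nd (nat_lit 78) (nat_lit 0) (nat_lit 0) (XT.lf (nat_lit 0) (nat_lit 14329727649) (nat_lit 152) (nat_lit 11927421659) (nat_lit 0) (nat_lit 3874576595) (nat_lit 8) (nat_lit 5) (nat_lit 10) (nat_lit 4) (nat_lit 8) (nat_lit 4) (nat_lit 361) (nat_lit 226) (nat_lit 193)) (XT.nd (nat_lit 78) (nat_lit 0) (nat_lit 0) (XT.lf (nat_lit 0) (nat_lit 17275537089) (nat_lit 152) (nat_lit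 7030799555) (nat_lit 0) (nat_lit 6636089921) (nat_lit 8) (nat_lit 5) (nat_lit 10) (nat_lit 4) (nat_lit 8) (nat_lit 4) (nat_lit 362) (nat_lit 226) (nat_lit 192)) (XT.lf (nat_lit 0) (nat_lit 20272230457) (nat_lit 152) (nat_lit 2052520620) (nat_lit 0) (nat_lit 9453855024) (nat_lit 8) (nat_lit 5) (nat_lit 10) (nat_lit 4) (nat_lit 8) (nat_lit 4) (nat_lit 363) (nat_lit 226) (nat_lit 191))))))) (XT.nd (nat_lit 858) (nat_lit 76) (nat_lit 0) (XT.nd (nat_lit 390) (nat_lit 152) (nat_lit 0) (XT.nd (nat_lit 156) (nat_lit 0) (nat_lit 0) (XT.nd (nat_lit 78) (nat_lit 0) (nat_lit 0) (XT.lf (nat_lit 0) (nat_lit 3071705129) (nat_lit 76) (nat_lit 20280248203) (nat_lit 76) (nat_lit 9288156006) (nat_lit 7) (nat_lit 4) (nat_lit 8) (nat_lit 5) (nat_lit 8) (nat_lit 4) (nat_lit 364) (nat_lit 226) (nat_lit 190)) (XT.lf (nat_lit 0) (nat_lit 8329011724) (nat_lit 76) (nat_lit 18179841439) (nat_lit 76) (nat_lit 7019092191)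 (nat_lit 7) (nat_lit 4) (nat_lit 8) (nat_lit 5) (nat_lit 8) (nat_lit 4) (nat_lit 365) (nat_lit 226) (nat_lit 189))) (XT.nd (nat_lit 78) (nat_lit 0) (nat_lit 0) (XT.lf (nat_lit 0) (nat_lit 13683143743) (nat_lit 76) (nat_lit 16042421912) (nat_lit 76) (nat_lit 4717927955) (nat_lit 7) (nat_lit 4) (nat_lit 8) (nat_lit 5) (nat_lit 8) (nat_lit 4) (nat_lit 366) (nat_lit 226) (nat_lit 188)) (XT.nd (nat_lit 78) (nat_lit 0) (nat_lit 0) (XT.lf (nat_lit 0) (nat_lit 19138779552) (nat_lit 76) (nat_lit 13866121976) (nat_lit 76) (nat_lit 2382652572) (nat_lit 7) (nat_lit 4) (nat_lit 8) (nat_lit 5) (nat_lit 8) (nat_lit 4) (nat_lit 367) (nat_lit 226) (nat_lit 187)) (XT.lf (nat_lit 0) (nat_lit 24700686212) (nat_lit 76) (nat_lit 11649040008) (nat_lit 76) (nat_lit 11225511) (nat_lit 7) (nat_lit 4) (nat_lit 8) (nat_lit 5) (nat_lit 8) (nat_lit 4) (nat_lit 368) (nat_lit 226) (nat_lit 186))))) (XT.nd (nat_lit 234) (nat_lit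 0) (nat_lit 0) (XT.nd (nat_lit 78) (nat_lit 76) (nat_lit 0) (XT.lf (nat_lit 0) (nat_lit 2351623432) (nat_lit 152) (nat_lit 7013868535) (nat_lit 76) (nat_lit 27998353424) (nat_lit 6) (nat_lit 5) (nat_lit 8) (nat_lit 5) (nat_lit 7) (nat_lit 4) (nat_lit 369) (nat_lit 226) (nat_lit 185)) (XT.nd (nat_lit 78) (nat_lit 76) (nat_lit 0) (XT.lf (nat_lit 0) (nat_lit 4753795674) (nat_lit 152) (nat_lit 2282943937) (nat_lit 76) (nat_lit 31361049175) (nat_lit 6) (nat_lit 5) (nat_lit 8) (nat_lit 5) (nat_lit 7) (nat_lit 4) (nat_lit 370) (nat_lit 226) (nat_lit 184)) (XT.lf (nat_lit 0) (nat_lit 2587236298) (nat_lit 76) (nat_lit 4635243051) (nat_lit 152) (nat_lit 32240463145) (nat_lit 5) (nat_lit 5) (nat_lit 6) (nat_lit 5) (nat_lit 7) (nat_lit 4) (nat_lit 371) (nat_lit 226) (nat_lit 183)))) (XT.nd (nat_lit 78) (nat_lit 0) (nat_lit 0) (XT.lf (nat_lit 0) (nat_lit 7597682815) (nat_lit 76) (nat_lit 2160550294) (nat_lit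 152) (nat_lit 30802052079) (nat_lit 5) (nat_lit 5) (nat_lit 6) (nat_lit 5) (nat_lit 7) (nat_lit 4) (nat_lit 372) (nat_lit 226) (nat_lit 182)) (XT.nd (nat_lit 78) (nat_lit 0) (nat_lit 0) (XT.lf (nat_lit 0) (nat_lit 12344413379) (nat_lit 152) (nat_lit 28987631073) (nat_lit 0) (nat_lit 359297037) (nat_lit 5) (nat_lit 5) (nat_lit 7) (nat_lit 4) (nat_lit 5) (nat_lit 4) (nat_lit 373) (nat_lit 226) (nat_lit 181)) (XT.lf (nat_lit 0) (nat_lit 15001046875) (nat_lit 152) (nat_lit 24965085967) (nat_lit 0) (nat_lit 2890433847) (nat_lit 5) (nat_lit 5) (nat_lit 7) (nat_lit 4) (nat_lit 5) (nat_lit 4) (nat_lit 374) (nat_lit 226) (nat_lit 180)))))) (XT.nd (nat_lit 468) (nat_lit 0) (nat_lit 0) (XT.nd (nat_lit 234) (nat_lit 76) (nat_lit 0) (XT.nd (nat_lit 78) (nat_lit 0) (nat_lit 0) (XT.lf (nat_lit 0) (nat_lit 17709686396) (nat_lit 152) (nat_lit 20870683680) (nat_lit 0) (nat_lit 5477231926) (nat_lit 5) (nat_lit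 5) (nat_lit 7) (nat_lit 4) (nat_lit 5) (nat_lit 4) (nat_lit 375) (nat_lit 226) (nat_lit 179)) (XT.nd (nat_lit 78) (nat_lit 0) (nat_lit 0) (XT.lf (nat_lit 0) (nat_lit 20472698716) (nat_lit 152) (nat_lit 16700846578) (nat_lit 0) (nat_lit 8121951584) (nat_lit 5) (nat_lit 5) (nat_lit 7) (nat_lit 4) (nat_lit 5) (nat_lit 4) (nat_lit 376) (nat_lit 226) (nat_lit 178)) (XT.lf (nat_lit 0) (nat_lit 23292498117) (nat_lit 152) (nat_lit 12451931115) (nat_lit 0) (nat_lit 10826903740) (nat_lit 5) (nat_lit 5) (nat_lit 7) (nat_lit 4) (nat_lit 5) (nat_lit 4) (nat_lit 377) (nat_lit 226) (nat_lit 177)))) (XT.nd (nat_lit 78) (nat_lit 76) (nat_lit 0) (XT.lf (nat_lit 0) (nat_lit 26171548501) (nat_lit 152) (nat_lit 8120224646) (nat_lit 0) (nat_lit 13594451944) (nat_lit 5) (nat_lit 5) (nat_lit 7) (nat_lit 4) (nat_lit 5) (nat_lit 4) (nat_lit 378) (nat_lit 226) (nat_lit 176)) (XT.nd (nat_lit 78) (nat_lit 76) (nat_lit 0)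 (XT.lf (nat_lit 0) (nat_lit 29112365543) (nat_lit 152) (nat_lit 3701942184) (nat_lit 0) (nat_lit 16427014443) (nat_lit 5) (nat_lit 5) (nat_lit 7) (nat_lit 4) (nat_lit 5) (nat_lit 4) (nat_lit 379) (nat_lit 226) (nat_lit 175)) (XT.lf (nat_lit 0) (nat_lit 822833346) (nat_lit 76) (nat_lit 31302595121) (nat_lit 76) (nat_lit 18512142522) (nat_lit 4) (nat_lit 4) (nat_lit 5) (nat_lit 5) (nat_lit 5) (nat_lit 4) (nat_lit 380) (nat_lit 226) (nat_lit 174))))) (XT.nd (nat_lit 234) (nat_lit 0) (nat_lit 0) (XT.nd (nat_lit 78) (nat_lit 0) (nat_lit 0) (XT.lf (nat_lit 0) (nat_lit 5517539343) (nat_lit 76) (nat_lit 29725133022) (nat_lit 76) (nat_lit 16832640134) (nat_lit 4) (nat_lit 4) (nat_lit 5) (nat_lit 5) (nat_lit 5) (nat_lit 4) (nat_lit 381) (nat_lit 226) (nat_lit 173)) (XT.nd (nat_lit 78) (nat_lit 0) (nat_lit 0) (XT.lf (nat_lit 0) (nat_lit 10312602068) (nat_lit 76) (nat_lit 28117925425) (nat_lit 76) (nat_lit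 15126364295) (nat_lit 4) (nat_lit 4) (nat_lit 5) (nat_lit 5) (nat_lit 5) (nat_lit 4) (nat_lit 382) (nat_lit 226) (nat_lit 172)) (XT.lf (nat_lit 0) (nat_lit 15212211383) (nat_lit 76) (nat_lit 26479567973) (nat_lit 76) (nat_lit 13391824083) (nat_lit 4) (nat_lit 4) (nat_lit 5) (nat_lit 5) (nat_lit 5) (nat_lit 4) (nat_lit 383) (nat_lit 226) (nat_lit 171)))) (XT.nd (nat_lit 78) (nat_lit 0) (nat_lit 0) (XT.lf (nat_lit 0) (nat_lit 20220648498) (nat_lit 76) (nat_lit 24808629092) (nat_lit 76) (nat_lit 11627503881) (nat_lit 4) (nat_lit 4) (nat_lit 5) (nat_lit 5) (nat_lit 5) (nat_lit 4) (nat_lit 384) (nat_lit 226) (nat_lit 170)) (XT.nd (nat_lit 78) (nat_lit 0) (nat_lit 0) (XT.lf (nat_lit 0) (nat_lit 25342289719) (nat_lit 76) (nat_lit 23103648737) (nat_lit 76) (nat_lit 9831862051) (nat_lit 4) (nat_lit 4) (nat_lit 5) (nat_lit 5) (nat_lit 5) (nat_lit 4) (nat_lit 385) (nat_lit 226) (nat_lit 169)) (XT.lf (nat_lit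 0) (nat_lit 30581610265) (nat_lit 76) (nat_lit 21363137121) (nat_lit 76) (nat_lit 8003329584) (nat_lit 4) (nat_lit 4) (nat_lit 5) (nat_lit 5) (nat_lit 5) (nat_lit 4) (nat_lit 386) (nat_lit 226) (nat_lit 168))))))))
noncomputable def xc32 : XT := (XT.nd (nat_lit 36348) (nat_lit 0) (nat_lit 608) (XT.nd (nat_lit 858) (nat_lit 0) (nat_lit 0) (XT.nd (nat_lit 390) (nat_lit 76) (nat_lit 0) (XT.nd (nat_lit 156) (nat_lit 76) (nat_lit 0) (XT.nd (nat_lit 78) (nat_lit 0) (nat_lit 0) (XT.lf (nat_lit 0) (nat_lit 35943188184) (nat_lit 76) (nat_lit 19585573407) (nat_lit 76) (nat_lit 6140308735) (nat_lit 4) (nat_lit 4) (nat_lit 5) (nat_lit 5) (nat_lit 5) (nat_lit 4) (nat_lit 387) (nat_lit 226) (nat_lit 167)) (XT.lf (nat_lit 0) (nat_lit 41431708350) (nat_lit 76) (nat_lit 17769404385) (nat_lit 76) (nat_lit 4241171620) (nat_lit 4) (nat_lit 4) (nat_lit 5) (nat_lit 5) (nat_lit 5) (nat_lit 4) (nat_lit 388) (nat_lit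 226) (nat_lit 166))) (XT.nd (nat_lit 78) (nat_lit 76) (nat_lit 0) (XT.lf (nat_lit 0) (nat_lit 47051966556) (nat_lit 76) (nat_lit 15913043112) (nat_lit 76) (nat_lit 2304258799) (nat_lit 4) (nat_lit 4) (nat_lit 5) (nat_lit 5) (nat_lit 5) (nat_lit 4) (nat_lit 389) (nat_lit 226) (nat_lit 165)) (XT.nd (nat_lit 78) (nat_lit 76) (nat_lit 0) (XT.lf (nat_lit 0) (nat_lit 52808873709) (nat_lit 76) (nat_lit 14014867523) (nat_lit 76) (nat_lit 327877825) (nat_lit 4) (nat_lit 4) (nat_lit 5) (nat_lit 5) (nat_lit 5) (nat_lit 4) (nat_lit 390) (nat_lit 226) (nat_lit 164)) (XT.lf (nat_lit 0) (nat_lit 1656726138) (nat_lit 152) (nat_lit 10399763194) (nat_lit 76) (nat_lit 57034004291) (nat_lit 3) (nat_lit 5) (nat_lit 5) (nat_lit 5) (nat_lit 4) (nat_lit 4) (nat_lit 391) (nat_lit 226) (nat_lit 163))))) (XT.nd (nat_lit 234) (nat_lit 0) (nat_lit 0) (XT.nd (nat_lit 78) (nat_lit 76) (nat_lit 0) (XT.lf (nat_lit 0) (nat_lit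 3677051779) (nat_lit 152) (nat_lit 6372218221) (nat_lit 76) (nat_lit 61038697088) (nat_lit 3) (nat_lit 5) (nat_lit 5) (nat_lit 5) (nat_lit 4) (nat_lit 4) (nat_lit 392) (nat_lit 226) (nat_lit 162)) (XT.nd (nat_lit 78) (nat_lit 76) (nat_lit 0) (XT.lf (nat_lit 0) (nat_lit 5741262505) (nat_lit 152) (nat_lit 2253439452) (nat_lit 76) (nat_lit 65151177409) (nat_lit 3) (nat_lit 5) (nat_lit 5) (nat_lit 5) (nat_lit 4) (nat_lit 4) (nat_lit 393) (nat_lit 226) (nat_lit 161)) (XT.lf (nat_lit 0) (nat_lit 1999183312) (nat_lit 76) (nat_lit 5871196058) (nat_lit 152) (nat_lit 67395072743) (nat_lit 2) (nat_lit 5) (nat_lit 3) (nat_lit 5) (nat_lit 4) (nat_lit 4) (nat_lit 394) (nat_lit 226) (nat_lit 160)))) (XT.nd (nat_lit 78) (nat_lit 0) (nat_lit 0) (XT.lf (nat_lit 0) (nat_lit 6397129097) (nat_lit 76) (nat_lit 3672957878) (nat_lit 152) (nat_lit 67378335683) (nat_lit 2) (nat_lit 5) (nat_lit 3) (nat_lit 5) (nat_lit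 4) (nat_lit 4) (nat_lit 395) (nat_lit 226) (nat_lit 159)) (XT.nd (nat_lit 78) (nat_lit 0) (nat_lit 0) (XT.lf (nat_lit 0) (nat_lit 10899392905) (nat_lit 76) (nat_lit 1420821945) (nat_lit 152) (nat_lit 67377146376) (nat_lit 2) (nat_lit 5) (nat_lit 3) (nat_lit 5) (nat_lit 4) (nat_lit 4) (nat_lit 396) (nat_lit 226) (nat_lit 158)) (XT.lf (nat_lit 0) (nat_lit 14631257241) (nat_lit 152) (nat_lit 66512852270) (nat_lit 0) (nat_lit 869867554) (nat_lit 2) (nat_lit 5) (nat_lit 4) (nat_lit 4) (nat_lit 2) (nat_lit 4) (nat_lit 397) (nat_lit 226) (nat_lit 157)))))) (XT.nd (nat_lit 35022) (nat_lit 0) (nat_lit 1824) (XT.nd (nat_lit 156) (nat_lit 0) (nat_lit 0) (XT.nd (nat_lit 78) (nat_lit 0) (nat_lit 0) (XT.lf (nat_lit 0) (nat_lit 17010912149) (nat_lit 152) (nat_lit 64199627350) (nat_lit 0) (nat_lit 3189584546) (nat_lit 2) (nat_lit 5) (nat_lit 4) (nat_lit 4) (nat_lit 2) (nat_lit 4) (nat_lit 398) (nat_lit 226)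 (nat_lit 156)) (XT.lf (nat_lit 0) (nat_lit 19447601074) (nat_lit 152) (nat_lit 61842614487) (nat_lit 0) (nat_lit 5568081320) (nat_lit 2) (nat_lit 5) (nat_lit 4) (nat_lit 4) (nat_lit 2) (nat_lit 4) (nat_lit 399) (nat_lit 226) (nat_lit 155))) (XT.nd (nat_lit 78) (nat_lit 0) (nat_lit 0) (XT.lf (nat_lit 0) (nat_lit 21943453164) (nat_lit 152) (nat_lit 59439754154) (nat_lit 0) (nat_lit 8007436175) (nat_lit 2) (nat_lit 5) (nat_lit 4) (nat_lit 4) (nat_lit 2) (nat_lit 4) (nat_lit 400) (nat_lit 226) (nat_lit 154)) (XT.nd (nat_lit 78) (nat_lit 0) (nat_lit 0) (XT.lf (nat_lit 0) (nat_lit 24500649258) (nat_lit 152) (nat_lit 56988946766) (nat_lit 0) (nat_lit 10509780586) (nat_lit 2) (nat_lit 5) (nat_lit 4) (nat_lit 4) (nat_lit 2) (nat_lit 4) (nat_lit 401) (nat_lit 226) (nat_lit 153)) (XT.lf (nat_lit 0) (nat_lit 27121423801) (nat_lit 152) (nat_lit 54488050839) (nat_lit 0) (nat_lit 13077301066) (nat_lit 2) (nat_lit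 5) (nat_lit 4) (nat_lit 4) (nat_lit 2) (nat_lit 4) (nat_lit 402) (nat_lit 226) (nat_lit 152))))) (XT.nd (nat_lit 234) (nat_lit 228) (nat_lit 0) (XT.nd (nat_lit 78) (nat_lit 228) (nat_lit 0) (XT.lf (nat_lit 0) (nat_lit 4395039305) (nat_lit 228) (nat_lit 1087740265) (nat_lit 228) (nat_lit 1087740265) (nat_lit 32) (nat_lit 4) (nat_lit 35) (nat_lit 5) (nat_lit 35) (nat_lit 4) (nat_lit 326) (nat_lit 227) (nat_lit 227)) (XT.nd (nat_lit 78) (nat_lit 0) (nat_lit 0) (XT.lf (nat_lit 0) (nat_lit 1269106585) (nat_lit 228) (nat_lit 11453923241) (nat_lit 0) (nat_lit 685435821) (nat_lit 29) (nat_lit 5) (nat_lit 32) (nat_lit 4) (nat_lit 29) (nat_lit 4) (nat_lit 327) (nat_lit 227) (nat_lit 226)) (XT.lf (nat_lit 0) (nat_lit 4759353663) (nat_lit 228) (nat_lit 5315425847) (nat_lit 0) (nat_lit 3609012253) (nat_lit 29) (nat_lit 5) (nat_lit 32) (nat_lit 4) (nat_lit 29) (nat_lit 4) (nat_lit 328) (nat_lit 227) (nat_lit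 225)))) (XT.nd (nat_lit 78) (nat_lit 76) (nat_lit 0) (XT.lf (nat_lit 0) (nat_lit 900807270) (nat_lit 152) (nat_lit 7384622861) (nat_lit 152) (nat_lit 5684115777) (nat_lit 27) (nat_lit 4) (nat_lit 29) (nat_lit 5) (nat_lit 29) (nat_lit 4) (nat_lit 329) (nat_lit 227) (nat_lit 224)) (XT.nd (nat_lit 78) (nat_lit 76) (nat_lit 0) (XT.lf (nat_lit 0) (nat_lit 7289706867) (nat_lit 152) (nat_lit 4604798386) (nat_lit 152) (nat_lit 2370149870) (nat_lit 27) (nat_lit 4) (nat_lit 29) (nat_lit 5) (nat_lit 29) (nat_lit 4) (nat_lit 330) (nat_lit 227) (nat_lit 223)) (XT.lf (nat_lit 0) (nat_lit 947816531) (nat_lit 228) (nat_lit 829164872) (nat_lit 76) (nat_lit 12793680459) (nat_lit 26) (nat_lit 5) (nat_lit 29) (nat_lit 5) (nat_lit 27) (nat_lit 4) (nat_lit 331) (nat_lit 227) (nat_lit 222))))))) (XT.nd (nat_lit 858) (nat_lit 456) (nat_lit 0) (XT.nd (nat_lit 390) (nat_lit 380) (nat_lit 0) (XT.nd (nat_lit 156) (nat_lit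 228) (nat_lit 0) (XT.nd (nat_lit 78) (nat_lit 0) (nat_lit 0) (XT.lf (nat_lit 0) (nat_lit 4308603397) (nat_lit 228) (nat_lit 9430157242) (nat_lit 0) (nat_lit 1146747125) (nat_lit 24) (nat_lit 5) (nat_lit 27) (nat_lit 4) (nat_lit 24) (nat_lit 4) (nat_lit 332) (nat_lit 227) (nat_lit 221)) (XT.lf (nat_lit 0) (nat_lit 7723969520) (nat_lit 228) (nat_lit 3399769254) (nat_lit 0) (nat_lit 4087535505) (nat_lit 24) (nat_lit 5) (nat_lit 27) (nat_lit 4) (nat_lit 24) (nat_lit 4) (nat_lit 333) (nat_lit 227) (nat_lit 220))) (XT.nd (nat_lit 78) (nat_lit 76) (nat_lit 0) (XT.lf (nat_lit 0) (nat_lit 2750698576) (nat_lit 152) (nat_lit 8447351037) (nat_lit 152) (nat_lit 4350161930) (nat_lit 22) (nat_lit 4) (nat_lit 24) (nat_lit 5) (nat_lit 24) (nat_lit 4) (nat_lit 334) (nat_lit 227) (nat_lit 219)) (XT.nd (nat_lit 78) (nat_lit 76) (nat_lit 0) (XT.lf (nat_lit 0) (nat_lit 9041987171) (nat_lit 152) (nat_lit 5699461925)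 (nat_lit 152) (nat_lit 1154937778) (nat_lit 22) (nat_lit 4) (nat_lit 24) (nat_lit 5) (nat_lit 24) (nat_lit 4) (nat_lit 335) (nat_lit 227) (nat_lit 218)) (XT.lf (nat_lit 0) (nat_lit 2026497366) (nat_lit 228) (nat_lit 865040357) (nat_lit 76) (nat_lit 13364970683) (nat_lit 21) (nat_lit 5) (nat_lit 24) (nat_lit 5) (nat_lit 22) (nat_lit 4) (nat_lit 336) (nat_lit 227) (nat_lit 217))))) (XT.nd (nat_lit 234) (nat_lit 152) (nat_lit 0) (XT.nd (nat_lit 78) (nat_lit 152) (nat_lit 0) (XT.lf (nat_lit 0) (nat_lit 5265222509) (nat_lit 152) (nat_lit 11340360014) (nat_lit 0) (nat_lit 22032034) (nat_lit 20) (nat_lit 5) (nat_lit 22) (nat_lit 4) (nat_lit 20) (nat_lit 4) (nat_lit 337) (nat_lit 227) (nat_lit 216)) (XT.nd (nat_lit 78) (nat_lit 152) (nat_lit 0) (XT.lf (nat_lit 0) (nat_lit 8573064271) (nat_lit 152) (nat_lit 5505282189) (nat_lit 0) (nat_lit 2932422406) (nat_lit 20) (nat_lit 5) (nat_lit 22) (nat_lit 4)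 (nat_lit 20) (nat_lit 4) (nat_lit 338) (nat_lit 227) (nat_lit 215)) (XT.lf (nat_lit 0) (nat_lit 407136802) (nat_lit 152) (nat_lit 11513329857) (nat_lit 152) (nat_lit 5486812858) (nat_lit 18) (nat_lit 4) (nat_lit 20) (nat_lit 5) (nat_lit 20) (nat_lit 4) (nat_lit 339) (nat_lit 227) (nat_lit 214)))) (XT.nd (nat_lit 78) (nat_lit 152) (nat_lit 0) (XT.lf (nat_lit 0) (nat_lit 6505161219) (nat_lit 152) (nat_lit 8855980596) (nat_lit 152) (nat_lit 2454827543) (nat_lit 18) (nat_lit 4) (nat_lit 20) (nat_lit 5) (nat_lit 20) (nat_lit 4) (nat_lit 340) (nat_lit 227) (nat_lit 213)) (XT.nd (nat_lit 78) (nat_lit 76) (nat_lit 0) (XT.lf (nat_lit 0) (nat_lit 593496359) (nat_lit 228) (nat_lit 5560079767) (nat_lit 76) (nat_lit 12085064015) (nat_lit 17) (nat_lit 5) (nat_lit 20) (nat_lit 5) (nat_lit 18) (nat_lit 4) (nat_lit 341) (nat_lit 227) (nat_lit 212)) (XT.lf (nat_lit 0) (nat_lit 243753894) (nat_lit 76) (nat_lit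 3382729692) (nat_lit 152) (nat_lit 15048565211) (nat_lit 16) (nat_lit 5) (nat_lit 17) (nat_lit 5) (nat_lit 18) (nat_lit 4) (nat_lit 342) (nat_lit 227) (nat_lit 211)))))) (XT.nd (nat_lit 468) (nat_lit 228) (nat_lit 0) (XT.nd (nat_lit 234) (nat_lit 228) (nat_lit 0) (XT.nd (nat_lit 78) (nat_lit 0) (nat_lit 0) (XT.lf (nat_lit 0) (nat_lit 6236789994) (nat_lit 76) (nat_lit 510817317) (nat_lit 152) (nat_lit 12377089652) (nat_lit 16) (nat_lit 5) (nat_lit 17) (nat_lit 5) (nat_lit 18) (nat_lit 4) (nat_lit 343) (nat_lit 227) (nat_lit 210)) (XT.nd (nat_lit 78) (nat_lit 0) (nat_lit 0) (XT.lf (nat_lit 0) (nat_lit 9928236351) (nat_lit 152) (nat_lit 7299156386) (nat_lit 0) (nat_lit 2361525546) (nat_lit 16) (nat_lit 5) (nat_lit 18) (nat_lit 4) (nat_lit 16) (nat_lit 4) (nat_lit 344) (nat_lit 227) (nat_lit 209)) (XT.lf (nat_lit 0) (nat_lit 13153368186) (nat_lit 152) (nat_lit 1642378069) (nat_lit 0) (nat_lit 5272905584)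 (nat_lit 16) (nat_lit 5) (nat_lit 18) (nat_lit 4) (nat_lit 16) (nat_lit 4) (nat_lit 345) (nat_lit 227) (nat_lit 208)))) (XT.nd (nat_lit 78) (nat_lit 76) (nat_lit 0) (XT.lf (nat_lit 0) (nat_lit 4173725503) (nat_lit 152) (nat_lit 12287305504) (nat_lit 152) (nat_lit 4102229507) (nat_lit 14) (nat_lit 4) (nat_lit 16) (nat_lit 5) (nat_lit 16) (nat_lit 4) (nat_lit 346) (nat_lit 227) (nat_lit 207)) (XT.nd (nat_lit 78) (nat_lit 76) (nat_lit 0) (XT.lf (nat_lit 0) (nat_lit 10107057033) (nat_lit 152) (nat_lit 9723816922) (nat_lit 152) (nat_lit 1242999766) (nat_lit 14) (nat_lit 4) (nat_lit 16) (nat_lit 5) (nat_lit 16) (nat_lit 4) (nat_lit 347) (nat_lit 227) (nat_lit 206)) (XT.lf (nat_lit 0) (nat_lit 1616154485) (nat_lit 228) (nat_lit 5487150891) (nat_lit 76) (nat_lit 14497639963) (nat_lit 13) (nat_lit 5) (nat_lit 16) (nat_lit 5) (nat_lit 14) (nat_lit 4) (nat_lit 348) (nat_lit 227) (nat_lit 205))))) (XT.nd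 (nat_lit 234) (nat_lit 152) (nat_lit 0) (XT.nd (nat_lit 78) (nat_lit 0) (nat_lit 0) (XT.lf (nat_lit 0) (nat_lit 58978599) (nat_lit 76) (nat_lit 4426581747) (nat_lit 152) (nat_lit 17659465881) (nat_lit 12) (nat_lit 5) (nat_lit 13) (nat_lit 5) (nat_lit 14) (nat_lit 4) (nat_lit 349) (nat_lit 227) (nat_lit 204)) (XT.nd (nat_lit 78) (nat_lit 0) (nat_lit 0) (XT.lf (nat_lit 0) (nat_lit 5798053640) (nat_lit 76) (nat_lit 1647959956) (nat_lit 152) (nat_lit 15259315659) (nat_lit 12) (nat_lit 5) (nat_lit 13) (nat_lit 5) (nat_lit 14) (nat_lit 4) (nat_lit 350) (nat_lit 227) (nat_lit 203)) (XT.lf (nat_lit 0) (nat_lit 10457644271) (nat_lit 152) (nat_lit 11669412812) (nat_lit 0) (nat_lit 1156560629) (nat_lit 12) (nat_lit 5) (nat_lit 14) (nat_lit 4) (nat_lit 12) (nat_lit 4) (nat_lit 351) (nat_lit 227) (nat_lit 202)))) (XT.nd (nat_lit 78) (nat_lit 152) (nat_lit 0) (XT.lf (nat_lit 0) (nat_lit 13528070320) (nat_lit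 152) (nat_lit 6372868873) (nat_lit 0) (nat_lit 3979308113) (nat_lit 12) (nat_lit 5) (nat_lit 14) (nat_lit 4) (nat_lit 12) (nat_lit 4) (nat_lit 352) (nat_lit 227) (nat_lit 201)) (XT.nd (nat_lit 78) (nat_lit 152) (nat_lit 0) (XT.lf (nat_lit 0) (nat_lit 16644133442) (nat_lit 152) (nat_lit 997174550) (nat_lit 0) (nat_lit 6854906607) (nat_lit 12) (nat_lit 5) (nat_lit 14) (nat_lit 4) (nat_lit 12) (nat_lit 4) (nat_lit 353) (nat_lit 227) (nat_lit 200)) (XT.lf (nat_lit 0) (nat_lit 4551177223) (nat_lit 152) (nat_lit 15301127884) (nat_lit 152) (nat_lit 5278440247) (nat_lit 10) (nat_lit 4) (nat_lit 12) (nat_lit 5) (nat_lit 12) (nat_lit 4) (nat_lit 354) (nat_lit 227) (nat_lit 199))))))))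
noncomputable def xc33 : XT := (XT.nd (nat_lit 1716) (nat_lit 228) (nat_lit 0) (XT.nd (nat_lit 858) (nat_lit 152) (nat_lit 0) (XT.nd (nat_lit 390) (nat_lit 76) (nat_lit 0) (XT.nd (nat_lit 156) (nat_lit 152) (nat_lit 0) (XT.nd (nat_lit 78) (nat_lit 0) (nat_lit 0) (XT.lf (nat_lit 0) (nat_lit 10209756466) (nat_lit 152) (nat_lit 12912490209) (nat_lit 152) (nat_lit 2663141598) (nat_lit 10) (nat_lit 4) (nat_lit 12) (nat_lit 5) (nat_lit 12) (nat_lit 4) (nat_lit 355) (nat_lit 227) (nat_lit 198)) (XT.lf (nat_lit 0) (nat_lit 15963661837) (nat_lit 152) (nat_lit 10483377316) (nat_lit 152) (nat_lit 13969508) (nat_lit 10) (nat_lit 4) (nat_lit 12) (nat_lit 5) (nat_lit 12) (nat_lit 4) (nat_lit 356) (nat_lit 227) (nat_lit 197))) (XT.nd (nat_lit 78) (nat_lit 76) (nat_lit 0) (XT.lf (nat_lit 0) (nat_lit 2619262378) (nat_lit 228) (nat_lit 5365954887) (nat_lit 76) (nat_lit 19172209229) (nat_lit 9) (nat_lit 5) (nat_lit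 12) (nat_lit 5) (nat_lit 10) (nat_lit 4) (nat_lit 357) (nat_lit 227) (nat_lit 196)) (XT.nd (nat_lit 78) (nat_lit 76) (nat_lit 0) (XT.lf (nat_lit 0) (nat_lit 5290004402) (nat_lit 228) (nat_lit 151775477) (nat_lit 76) (nat_lit 22434226315) (nat_lit 9) (nat_lit 5) (nat_lit 12) (nat_lit 5) (nat_lit 10) (nat_lit 4) (nat_lit 358) (nat_lit 227) (nat_lit 195)) (XT.lf (nat_lit 0) (nat_lit 5252374513) (nat_lit 76) (nat_lit 2798977342) (nat_lit 152) (nat_lit 20564513152) (nat_lit 8) (nat_lit 5) (nat_lit 9) (nat_lit 5) (nat_lit 10) (nat_lit 4) (nat_lit 359) (nat_lit 227) (nat_lit 194))))) (XT.nd (nat_lit 234) (nat_lit 76) (nat_lit 0) (XT.nd (nat_lit 78) (nat_lit 0) (nat_lit 0) (XT.lf (nat_lit 0) (nat_lit 10753488661) (nat_lit 76) (nat_lit 104086787) (nat_lit 152) (nat_lit 18521518224) (nat_lit 8) (nat_lit 5) (nat_lit 9) (nat_lit 5) (nat_lit 10) (nat_lit 4) (nat_lit 360) (nat_lit 227) (nat_lit 193)) (XT.nd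 (nat_lit 78) (nat_lit 0) (nat_lit 0) (XT.lf (nat_lit 0) (nat_lit 13735052223) (nat_lit 152) (nat_lit 13838463590) (nat_lit 0) (nat_lit 2592125526) (nat_lit 8) (nat_lit 5) (nat_lit 10) (nat_lit 4) (nat_lit 8) (nat_lit 4) (nat_lit 361) (nat_lit 227) (nat_lit 192)) (XT.lf (nat_lit 0) (nat_lit 16662393508) (nat_lit 152) (nat_lit 8973980320) (nat_lit 0) (nat_lit 5340538546) (nat_lit 8) (nat_lit 5) (nat_lit 10) (nat_lit 4) (nat_lit 8) (nat_lit 4) (nat_lit 362) (nat_lit 227) (nat_lit 191)))) (XT.nd (nat_lit 78) (nat_lit 76) (nat_lit 0) (XT.lf (nat_lit 0) (nat_lit 19641156628) (nat_lit 152) (nat_lit 4026904135) (nat_lit 0) (nat_lit 8145584903) (nat_lit 8) (nat_lit 5) (nat_lit 10) (nat_lit 4) (nat_lit 8) (nat_lit 4) (nat_lit 363) (nat_lit 227) (nat_lit 190)) (XT.nd (nat_lit 78) (nat_lit 0) (nat_lit 0) (XT.lf (nat_lit 0) (nat_lit 1027130669) (nat_lit 76) (nat_lit 21656687126) (nat_lit 76) (nat_lit 9992458349)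 (nat_lit 7) (nat_lit 4) (nat_lit 8) (nat_lit 5) (nat_lit 8) (nat_lit 4) (nat_lit 364) (nat_lit 227) (nat_lit 189)) (XT.lf (nat_lit 0) (nat_lit 6254440331) (nat_lit 76) (nat_lit 19569087968) (nat_lit 76) (nat_lit 7741114482) (nat_lit 7) (nat_lit 4) (nat_lit 8) (nat_lit 5) (nat_lit 8) (nat_lit 4) (nat_lit 365) (nat_lit 227) (nat_lit 188)))))) (XT.nd (nat_lit 390) (nat_lit 76) (nat_lit 0) (XT.nd (nat_lit 156) (nat_lit 76) (nat_lit 0) (XT.nd (nat_lit 78) (nat_lit 0) (nat_lit 0) (XT.lf (nat_lit 0) (nat_lit 11579449113) (nat_lit 76) (nat_lit 17444103011) (nat_lit 76) (nat_lit 5457154079) (nat_lit 7) (nat_lit 4) (nat_lit 8) (nat_lit 5) (nat_lit 8) (nat_lit 4) (nat_lit 366) (nat_lit 227) (nat_lit 187)) (XT.lf (nat_lit 0) (nat_lit 17006809935) (nat_lit 76) (nat_lit 15279875472) (nat_lit 76) (nat_lit 3138581446) (nat_lit 7) (nat_lit 4) (nat_lit 8) (nat_lit 5) (nat_lit 8) (nat_lit 4) (nat_lit 367) (nat_lit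 227) (nat_lit 186))) (XT.nd (nat_lit 78) (nat_lit 76) (nat_lit 0) (XT.lf (nat_lit 0) (nat_lit 22541265152) (nat_lit 76) (nat_lit 13074514278) (nat_lit 76) (nat_lit 783370647) (nat_lit 7) (nat_lit 4) (nat_lit 8) (nat_lit 5) (nat_lit 8) (nat_lit 4) (nat_lit 368) (nat_lit 227) (nat_lit 185)) (XT.nd (nat_lit 78) (nat_lit 0) (nat_lit 0) (XT.lf (nat_lit 0) (nat_lit 1579108906) (nat_lit 152) (nat_lit 9231037606) (nat_lit 76) (nat_lit 26592595885) (nat_lit 6) (nat_lit 5) (nat_lit 8) (nat_lit 5) (nat_lit 7) (nat_lit 4) (nat_lit 369) (nat_lit 227) (nat_lit 184)) (XT.lf (nat_lit 0) (nat_lit 3966294039) (nat_lit 152) (nat_lit 4526299411) (nat_lit 76) (nat_lit 29944554468) (nat_lit 6) (nat_lit 5) (nat_lit 8) (nat_lit 5) (nat_lit 7) (nat_lit 4) (nat_lit 370) (nat_lit 227) (nat_lit 183))))) (XT.nd (nat_lit 234) (nat_lit 0) (nat_lit 0) (XT.nd (nat_lit 78) (nat_lit 0) (nat_lit 0) (XT.lf (nat_lit 0) (nat_lit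 273303977) (nat_lit 76) (nat_lit 6124880211) (nat_lit 152) (nat_lit 33105233391) (nat_lit 5) (nat_lit 5) (nat_lit 6) (nat_lit 5) (nat_lit 7) (nat_lit 4) (nat_lit 371) (nat_lit 227) (nat_lit 182)) (XT.nd (nat_lit 78) (nat_lit 0) (nat_lit 0) (XT.lf (nat_lit 0) (nat_lit 5258576053) (nat_lit 76) (nat_lit 3660993116) (nat_lit 152) (nat_lit 31681633963) (nat_lit 5) (nat_lit 5) (nat_lit 6) (nat_lit 5) (nat_lit 7) (nat_lit 4) (nat_lit 372) (nat_lit 227) (nat_lit 181)) (XT.lf (nat_lit 0) (nat_lit 10343790645) (nat_lit 76) (nat_lit 1144486001) (nat_lit 152) (nat_lit 30244518421) (nat_lit 5) (nat_lit 5) (nat_lit 6) (nat_lit 5) (nat_lit 7) (nat_lit 4) (nat_lit 373) (nat_lit 227) (nat_lit 180)))) (XT.nd (nat_lit 78) (nat_lit 0) (nat_lit 0) (XT.lf (nat_lit 0) (nat_lit 14120266781) (nat_lit 152) (nat_lit 27379506670) (nat_lit 0) (nat_lit 1398997234) (nat_lit 5) (nat_lit 5) (nat_lit 7) (nat_lit 4) (nat_lit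 5) (nat_lit 4) (nat_lit 374) (nat_lit 227) (nat_lit 179)) (XT.nd (nat_lit 78) (nat_lit 0) (nat_lit 0) (XT.lf (nat_lit 0) (nat_lit 16815661776) (nat_lit 152) (nat_lit 23308452784) (nat_lit 0) (nat_lit 3976099568) (nat_lit 5) (nat_lit 5) (nat_lit 7) (nat_lit 4) (nat_lit 5) (nat_lit 4) (nat_lit 375) (nat_lit 227) (nat_lit 178)) (XT.lf (nat_lit 0) (nat_lit 19565815333) (nat_lit 152) (nat_lit 19161284033) (nat_lit 0) (nat_lit 6611405880) (nat_lit 5) (nat_lit 5) (nat_lit 7) (nat_lit 4) (nat_lit 5) (nat_lit 4) (nat_lit 376) (nat_lit 227) (nat_lit 177))))))) (XT.nd (nat_lit 858) (nat_lit 152) (nat_lit 0) (XT.nd (nat_lit 390) (nat_lit 0) (nat_lit 0) (XT.nd (nat_lit 156) (nat_lit 76) (nat_lit 0) (XT.nd (nat_lit 78) (nat_lit 0) (nat_lit 0) (XT.lf (nat_lit 0) (nat_lit 22373130498) (nat_lit 152) (nat_lit 14934376677) (nat_lit 0) (nat_lit 9307218865) (nat_lit 5) (nat_lit 5) (nat_lit 7) (nat_lit 4) (nat_lit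 5) (nat_lit 4) (nat_lit 377) (nat_lit 227) (nat_lit 176)) (XT.lf (nat_lit 0) (nat_lit 25240060264) (nat_lit 152) (nat_lit 10624037302) (nat_lit 0) (nat_lit 12065894088) (nat_lit 5) (nat_lit 5) (nat_lit 7) (nat_lit 4) (nat_lit 5) (nat_lit 4) (nat_lit 378) (nat_lit 227) (nat_lit 175))) (XT.nd (nat_lit 78) (nat_lit 76) (nat_lit 0) (XT.lf (nat_lit 0) (nat_lit 28169109717) (nat_lit 152) (nat_lit 6226499593) (nat_lit 0) (nat_lit 14889842042) (nat_lit 5) (nat_lit 5) (nat_lit 7) (nat_lit 4) (nat_lit 5) (nat_lit 4) (nat_lit 379) (nat_lit 227) (nat_lit 174)) (XT.nd (nat_lit 78) (nat_lit 76) (nat_lit 0) (XT.lf (nat_lit 0) (nat_lit 31162838219) (nat_lit 152) (nat_lit 1737921040) (nat_lit 0) (nat_lit 17781530255) (nat_lit 5) (nat_lit 5) (nat_lit 7) (nat_lit 4) (nat_lit 5) (nat_lit 4) (nat_lit 380) (nat_lit 227) (nat_lit 173)) (XT.lf (nat_lit 0) (nat_lit 2902253840) (nat_lit 76) (nat_lit 31349506049) (nat_lit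 76) (nat_lit 17869129842) (nat_lit 4) (nat_lit 4) (nat_lit 5) (nat_lit 5) (nat_lit 5) (nat_lit 4) (nat_lit 381) (nat_lit 227) (nat_lit 172))))) (XT.nd (nat_lit 234) (nat_lit 0) (nat_lit 0) (XT.nd (nat_lit 78) (nat_lit 0) (nat_lit 0) (XT.lf (nat_lit 0) (nat_lit 7677954352) (nat_lit 76) (nat_lit 29750705532) (nat_lit 76) (nat_lit 16174146565) (nat_lit 4) (nat_lit 4) (nat_lit 5) (nat_lit 5) (nat_lit 5) (nat_lit 4) (nat_lit 382) (nat_lit 227) (nat_lit 171)) (XT.nd (nat_lit 78) (nat_lit 0) (nat_lit 0) (XT.lf (nat_lit 0) (nat_lit 12558765402) (nat_lit 76) (nat_lit 28120510294) (nat_lit 76) (nat_lit 14450570007) (nat_lit 4) (nat_lit 4) (nat_lit 5) (nat_lit 5) (nat_lit 5) (nat_lit 4) (nat_lit 383) (nat_lit 227) (nat_lit 170)) (XT.lf (nat_lit 0) (nat_lit 17548951774) (nat_lit 76) (nat_lit 26457495892) (nat_lit 76) (nat_lit 12696894129) (nat_lit 4) (nat_lit 4) (nat_lit 5) (nat_lit 5) (nat_lit 5) (nat_lit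 4) (nat_lit 384) (nat_lit 227) (nat_lit 169)))) (XT.nd (nat_lit 78) (nat_lit 0) (nat_lit 0) (XT.lf (nat_lit 0) (nat_lit 22652873827) (nat_lit 76) (nat_lit 24760209207) (nat_lit 76) (nat_lit 10911586594) (nat_lit 4) (nat_lit 4) (nat_lit 5) (nat_lit 5) (nat_lit 5) (nat_lit 4) (nat_lit 385) (nat_lit 227) (nat_lit 168)) (XT.nd (nat_lit 78) (nat_lit 0) (nat_lit 0) (XT.lf (nat_lit 0) (nat_lit 27874991297) (nat_lit 76) (nat_lit 23027167172) (nat_lit 76) (nat_lit 9093087423) (nat_lit 4) (nat_lit 4) (nat_lit 5) (nat_lit 5) (nat_lit 5) (nat_lit 4) (nat_lit 386) (nat_lit 227) (nat_lit 167)) (XT.lf (nat_lit 0) (nat_lit 33219867201) (nat_lit 76) (nat_lit 21256855480) (nat_lit 76) (nat_lit 7239807638) (nat_lit 4) (nat_lit 4) (nat_lit 5) (nat_lit 5) (nat_lit 5) (nat_lit 4) (nat_lit 387) (nat_lit 227) (nat_lit 166)))))) (XT.nd (nat_lit 468) (nat_lit 76) (nat_lit 0) (XT.nd (nat_lit 234) (nat_lit 76) (nat_lit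 0) (XT.nd (nat_lit 78) (nat_lit 0) (nat_lit 0) (XT.lf (nat_lit 0) (nat_lit 38692171818) (nat_lit 76) (nat_lit 19447727255) (nat_lit 76) (nat_lit 5350127867) (nat_lit 4) (nat_lit 4) (nat_lit 5) (nat_lit 5) (nat_lit 5) (nat_lit 4) (nat_lit 388) (nat_lit 227) (nat_lit 165)) (XT.nd (nat_lit 78) (nat_lit 0) (nat_lit 0) (XT.lf (nat_lit 0) (nat_lit 44296686773) (nat_lit 76) (nat_lit 17598201707) (nat_lit 76) (nat_lit 3422396933) (nat_lit 4) (nat_lit 4) (nat_lit 5) (nat_lit 5) (nat_lit 5) (nat_lit 4) (nat_lit 389) (nat_lit 227) (nat_lit 164)) (XT.lf (nat_lit 0) (nat_lit 50038309216) (nat_lit 76) (nat_lit 15706662745) (nat_lit 76) (nat_lit 1454930412) (nat_lit 4) (nat_lit 4) (nat_lit 5) (nat_lit 5) (nat_lit 5) (nat_lit 4) (nat_lit 390) (nat_lit 227) (nat_lit 163)))) (XT.nd (nat_lit 78) (nat_lit 0) (nat_lit 0) (XT.lf (nat_lit 0) (nat_lit 543180483) (nat_lit 152) (nat_lit 13222792026) (nat_lit 76) (nat_lit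 55373390557) (nat_lit 3) (nat_lit 5) (nat_lit 5) (nat_lit 5) (nat_lit 4) (nat_lit 4) (nat_lit 391) (nat_lit 227) (nat_lit 162)) (XT.nd (nat_lit 78) (nat_lit 0) (nat_lit 0) (XT.lf (nat_lit 0) (nat_lit 2555267364) (nat_lit 152) (nat_lit 9209824666) (nat_lit 76) (nat_lit 59371998004) (nat_lit 3) (nat_lit 5) (nat_lit 5) (nat_lit 5) (nat_lit 4) (nat_lit 4) (nat_lit 392) (nat_lit 227) (nat_lit 161)) (XT.lf (nat_lit 0) (nat_lit 4611479294) (nat_lit 152) (nat_lit 5105198919) (nat_lit 76) (nat_lit 63478570218) (nat_lit 3) (nat_lit 5) (nat_lit 5) (nat_lit 5) (nat_lit 4) (nat_lit 4) (nat_lit 393) (nat_lit 227) (nat_lit 160))))) (XT.nd (nat_lit 234) (nat_lit 0) (nat_lit 0) (XT.nd (nat_lit 78) (nat_lit 76) (nat_lit 0) (XT.lf (nat_lit 0) (nat_lit 6713612965) (nat_lit 152) (nat_lit 905328219) (nat_lit 76) (nat_lit 67696695466) (nat_lit 3) (nat_lit 5) (nat_lit 5) (nat_lit 5) (nat_lit 4) (nat_lit 4) (nat_lit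 394) (nat_lit 227) (nat_lit 159)) (XT.nd (nat_lit 78) (nat_lit 0) (nat_lit 0) (XT.lf (nat_lit 0) (nat_lit 3460993674) (nat_lit 76) (nat_lit 5435780706) (nat_lit 152) (nat_lit 68602335003) (nat_lit 2) (nat_lit 5) (nat_lit 3) (nat_lit 5) (nat_lit 4) (nat_lit 4) (nat_lit 395) (nat_lit 227) (nat_lit 158)) (XT.lf (nat_lit 0) (nat_lit 7950047692) (nat_lit 76) (nat_lit 3189407552) (nat_lit 152) (nat_lit 68608821751) (nat_lit 2) (nat_lit 5) (nat_lit 3) (nat_lit 5) (nat_lit 4) (nat_lit 4) (nat_lit 396) (nat_lit 227) (nat_lit 157)))) (XT.nd (nat_lit 78) (nat_lit 0) (nat_lit 0) (XT.lf (nat_lit 0) (nat_lit 12547738499) (nat_lit 76) (nat_lit 887000912) (nat_lit 152) (nat_lit 68630631638) (nat_lit 2) (nat_lit 5) (nat_lit 3) (nat_lit 5) (nat_lit 4) (nat_lit 4) (nat_lit 397) (nat_lit 227) (nat_lit 156)) (XT.nd (nat_lit 78) (nat_lit 0) (nat_lit 0) (XT.lf (nat_lit 0) (nat_lit 15798796186) (nat_lit 152) (nat_lit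 67208496409) (nat_lit 0) (nat_lit 1444698687) (nat_lit 2) (nat_lit 5) (nat_lit 4) (nat_lit 4) (nat_lit 2) (nat_lit 4) (nat_lit 398) (nat_lit 227) (nat_lit 155)) (XT.lf (nat_lit 0) (nat_lit 18228619346) (nat_lit 152) (nat_lit 64863731288) (nat_lit 0) (nat_lit 3818024613) (nat_lit 2) (nat_lit 5) (nat_lit 4) (nat_lit 4) (nat_lit 2) (nat_lit 4) (nat_lit 399) (nat_lit 227) (nat_lit 154))))))))
noncomputable def xc34 : XT := (XT.nd (nat_lit 36192) (nat_lit 0) (nat_lit 380) (XT.nd (nat_lit 35334) (nat_lit 0) (nat_lit 1140) (XT.nd (nat_lit 34866) (nat_lit 0) (nat_lit 1824) (XT.nd (nat_lit 156) (nat_lit 0) (nat_lit 0) (XT.nd (nat_lit 78) (nat_lit 0) (nat_lit 0) (XT.lf (nat_lit 0) (nat_lit 20717805643) (nat_lit 152) (nat_lit 62472761967) (nat_lit 0) (nat_lit 6252359227) (nat_lit 2) (nat_lit 5) (nat_lit 4) (nat_lit 4) (nat_lit 2) (nat_lit 4) (nat_lit 400) (nat_lit 227) (nat_lit 153)) (XT.lf (nat_lit 0)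 (nat_lit 23268530095) (nat_lit 152) (nat_lit 60033499250) (nat_lit 0) (nat_lit 8749829617) (nat_lit 2) (nat_lit 5) (nat_lit 4) (nat_lit 4) (nat_lit 2) (nat_lit 4) (nat_lit 401) (nat_lit 227) (nat_lit 152))) (XT.nd (nat_lit 34554) (nat_lit 0) (nat_lit 2280) (XT.lf (nat_lit 0) (nat_lit 25883021489) (nat_lit 152) (nat_lit 57543811743) (nat_lit 0) (nat_lit 11312618038) (nat_lit 2) (nat_lit 5) (nat_lit 4) (nat_lit 4) (nat_lit 2) (nat_lit 4) (nat_lit 402) (nat_lit 227) (nat_lit 151)) (XT.nd (nat_lit 78) (nat_lit 228) (nat_lit 0) (XT.lf (nat_lit 0) (nat_lit 2164332524) (nat_lit 228) (nat_lit 1987339507) (nat_lit 0) (nat_lit 2164332524) (nat_lit 35) (nat_lit 5) (nat_lit 38) (nat_lit 4) (nat_lit 35) (nat_lit 4) (nat_lit 324) (nat_lit 228) (nat_lit 228)) (XT.lf (nat_lit 0) (nat_lit 2304537421) (nat_lit 228) (nat_lit 5598704990) (nat_lit 228) (nat_lit 4979488676) (nat_lit 32) (nat_lit 4) (nat_lit 35) (nat_lit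 5) (nat_lit 35) (nat_lit 4) (nat_lit 325) (nat_lit 228) (nat_lit 227))))) (XT.nd (nat_lit 234) (nat_lit 228) (nat_lit 0) (XT.nd (nat_lit 78) (nat_lit 228) (nat_lit 0) (XT.lf (nat_lit 0) (nat_lit 8728400200) (nat_lit 228) (nat_lit 2817134376) (nat_lit 228) (nat_lit 1596737175) (nat_lit 32) (nat_lit 4) (nat_lit 35) (nat_lit 5) (nat_lit 35) (nat_lit 4) (nat_lit 326) (nat_lit 228) (nat_lit 226)) (XT.nd (nat_lit 78) (nat_lit 0) (nat_lit 0) (XT.lf (nat_lit 0) (nat_lit 1790424227) (nat_lit 228) (nat_lit 11581640349) (nat_lit 0) (nat_lit 38901930) (nat_lit 29) (nat_lit 5) (nat_lit 32) (nat_lit 4) (nat_lit 29) (nat_lit 4) (nat_lit 327) (nat_lit 228) (nat_lit 225)) (XT.lf (nat_lit 0) (nat_lit 5242475673) (nat_lit 228) (nat_lit 5504225316) (nat_lit 0) (nat_lit 2940787701) (nat_lit 29) (nat_lit 5) (nat_lit 32) (nat_lit 4) (nat_lit 29) (nat_lit 4) (nat_lit 328) (nat_lit 228) (nat_lit 224)))) (XT.nd (nat_lit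 78) (nat_lit 76) (nat_lit 0) (XT.lf (nat_lit 0) (nat_lit 647766808) (nat_lit 152) (nat_lit 8081269817) (nat_lit 152) (nat_lit 5245440413) (nat_lit 27) (nat_lit 4) (nat_lit 29) (nat_lit 5) (nat_lit 29) (nat_lit 4) (nat_lit 329) (nat_lit 228) (nat_lit 223)) (XT.nd (nat_lit 78) (nat_lit 76) (nat_lit 0) (XT.lf (nat_lit 0) (nat_lit 6977944546) (nat_lit 152) (nat_lit 5323599684) (nat_lit 152) (nat_lit 1969186366) (nat_lit 27) (nat_lit 4) (nat_lit 29) (nat_lit 5) (nat_lit 29) (nat_lit 4) (nat_lit 330) (nat_lit 228) (nat_lit 222)) (XT.lf (nat_lit 0) (nat_lit 1305056797) (nat_lit 228) (nat_lit 1208627547) (nat_lit 76) (nat_lit 12064058933) (nat_lit 26) (nat_lit 5) (nat_lit 29) (nat_lit 5) (nat_lit 27) (nat_lit 4) (nat_lit 331) (nat_lit 228) (nat_lit 221)))))) (XT.nd (nat_lit 390) (nat_lit 304) (nat_lit 0) (XT.nd (nat_lit 156) (nat_lit 228) (nat_lit 0) (XT.nd (nat_lit 78) (nat_lit 0) (nat_lit 0) (XT.lf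 (nat_lit 0) (nat_lit 4619392128) (nat_lit 228) (nat_lit 9875346553) (nat_lit 0) (nat_lit 399287348) (nat_lit 24) (nat_lit 5) (nat_lit 27) (nat_lit 4) (nat_lit 24) (nat_lit 4) (nat_lit 332) (nat_lit 228) (nat_lit 220)) (XT.lf (nat_lit 0) (nat_lit 8000182680) (nat_lit 228) (nat_lit 3901366364) (nat_lit 0) (nat_lit 3319322809) (nat_lit 24) (nat_lit 5) (nat_lit 27) (nat_lit 4) (nat_lit 24) (nat_lit 4) (nat_lit 333) (nat_lit 228) (nat_lit 219))) (XT.nd (nat_lit 78) (nat_lit 76) (nat_lit 0) (XT.lf (nat_lit 0) (nat_lit 2183263918) (nat_lit 152) (nat_lit 9251975809) (nat_lit 152) (nat_lit 4123780898) (nat_lit 22) (nat_lit 4) (nat_lit 24) (nat_lit 5) (nat_lit 24) (nat_lit 4) (nat_lit 334) (nat_lit 228) (nat_lit 218)) (XT.nd (nat_lit 78) (nat_lit 76) (nat_lit 0) (XT.lf (nat_lit 0) (nat_lit 8420324570) (nat_lit 152) (nat_lit 6525202575) (nat_lit 152) (nat_lit 962701800) (nat_lit 22) (nat_lit 4) (nat_lit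 24) (nat_lit 5) (nat_lit 24) (nat_lit 4) (nat_lit 335) (nat_lit 228) (nat_lit 217)) (XT.lf (nat_lit 0) (nat_lit 2182478475) (nat_lit 228) (nat_lit 1553725648) (nat_lit 76) (nat_lit 12533103379) (nat_lit 21) (nat_lit 5) (nat_lit 24) (nat_lit 5) (nat_lit 22) (nat_lit 4) (nat_lit 336) (nat_lit 228) (nat_lit 216))))) (XT.nd (nat_lit 234) (nat_lit 228) (nat_lit 0) (XT.nd (nat_lit 78) (nat_lit 0) (nat_lit 0) (XT.lf (nat_lit 0) (nat_lit 4532275687) (nat_lit 76) (nat_lit 849895530) (nat_lit 152) (nat_lit 11259449674) (nat_lit 20) (nat_lit 5) (nat_lit 21) (nat_lit 5) (nat_lit 22) (nat_lit 4) (nat_lit 337) (nat_lit 228) (nat_lit 215)) (XT.nd (nat_lit 78) (nat_lit 0) (nat_lit 0) (XT.lf (nat_lit 0) (nat_lit 8650518990) (nat_lit 152) (nat_lit 6318144893) (nat_lit 0) (nat_lit 2057331346) (nat_lit 20) (nat_lit 5) (nat_lit 22) (nat_lit 4) (nat_lit 20) (nat_lit 4) (nat_lit 338) (nat_lit 228) (nat_lit 214)) (XT.lf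 (nat_lit 0) (nat_lit 11963595816) (nat_lit 152) (nat_lit 464201896) (nat_lit 0) (nat_lit 4995772118) (nat_lit 20) (nat_lit 5) (nat_lit 22) (nat_lit 4) (nat_lit 20) (nat_lit 4) (nat_lit 339) (nat_lit 228) (nat_lit 213)))) (XT.nd (nat_lit 78) (nat_lit 76) (nat_lit 0) (XT.lf (nat_lit 0) (nat_lit 5574548108) (nat_lit 152) (nat_lit 9795164758) (nat_lit 152) (nat_lit 2463616736) (nat_lit 18) (nat_lit 4) (nat_lit 20) (nat_lit 5) (nat_lit 20) (nat_lit 4) (nat_lit 340) (nat_lit 228) (nat_lit 212)) (XT.nd (nat_lit 78) (nat_lit 0) (nat_lit 0) (XT.lf (nat_lit 0) (nat_lit 555425522) (nat_lit 228) (nat_lit 6557164622) (nat_lit 76) (nat_lit 11144327653) (nat_lit 17) (nat_lit 5) (nat_lit 20) (nat_lit 5) (nat_lit 18) (nat_lit 4) (nat_lit 341) (nat_lit 228) (nat_lit 211)) (XT.lf (nat_lit 0) (nat_lit 3557474346) (nat_lit 228) (nat_lit 805850570) (nat_lit 76) (nat_lit 14330960062) (nat_lit 17) (nat_lit 5) (nat_lit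 20) (nat_lit 5) (nat_lit 18) (nat_lit 4) (nat_lit 342) (nat_lit 228) (nat_lit 210))))))) (XT.nd (nat_lit 858) (nat_lit 380) (nat_lit 0) (XT.nd (nat_lit 390) (nat_lit 152) (nat_lit 0) (XT.nd (nat_lit 156) (nat_lit 152) (nat_lit 0) (XT.nd (nat_lit 78) (nat_lit 0) (nat_lit 0) (XT.lf (nat_lit 0) (nat_lit 5123852694) (nat_lit 76) (nat_lit 1518627832) (nat_lit 152) (nat_lit 12502565630) (nat_lit 16) (nat_lit 5) (nat_lit 17) (nat_lit 5) (nat_lit 18) (nat_lit 4) (nat_lit 343) (nat_lit 228) (nat_lit 209)) (XT.lf (nat_lit 0) (nat_lit 9785848637) (nat_lit 152) (nat_lit 8469344935) (nat_lit 0) (nat_lit 1355220360) (nat_lit 16) (nat_lit 5) (nat_lit 18) (nat_lit 4) (nat_lit 16) (nat_lit 4) (nat_lit 344) (nat_lit 228) (nat_lit 208))) (XT.nd (nat_lit 78) (nat_lit 152) (nat_lit 0) (XT.lf (nat_lit 0) (nat_lit 12984210338) (nat_lit 152) (nat_lit 2857799382) (nat_lit 0) (nat_lit 4248968666) (nat_lit 16) (nat_lit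 5) (nat_lit 18) (nat_lit 4) (nat_lit 16) (nat_lit 4) (nat_lit 345) (nat_lit 228) (nat_lit 207)) (XT.nd (nat_lit 78) (nat_lit 0) (nat_lit 0) (XT.lf (nat_lit 0) (nat_lit 2889325617) (nat_lit 152) (nat_lit 13364210683) (nat_lit 152) (nat_lit 4333227851) (nat_lit 14) (nat_lit 4) (nat_lit 16) (nat_lit 5) (nat_lit 16) (nat_lit 4) (nat_lit 346) (nat_lit 228) (nat_lit 206)) (XT.lf (nat_lit 0) (nat_lit 8779172384) (nat_lit 152) (nat_lit 10818555444) (nat_lit 152) (nat_lit 1500445272) (nat_lit 14) (nat_lit 4) (nat_lit 16) (nat_lit 5) (nat_lit 16) (nat_lit 4) (nat_lit 347) (nat_lit 228) (nat_lit 205))))) (XT.nd (nat_lit 234) (nat_lit 0) (nat_lit 0) (XT.nd (nat_lit 78) (nat_lit 76) (nat_lit 0) (XT.lf (nat_lit 0) (nat_lit 1338556859) (nat_lit 228) (nat_lit 6879604154) (nat_lit 76) (nat_lit 13407937915) (nat_lit 13) (nat_lit 5) (nat_lit 16) (nat_lit 5) (nat_lit 14) (nat_lit 4) (nat_lit 348) (nat_lit 228)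 (nat_lit 204)) (XT.nd (nat_lit 78) (nat_lit 76) (nat_lit 0) (XT.lf (nat_lit 0) (nat_lit 4182953250) (nat_lit 228) (nat_lit 1376124537) (nat_lit 76) (nat_lit 16611876289) (nat_lit 13) (nat_lit 5) (nat_lit 16) (nat_lit 5) (nat_lit 14) (nat_lit 4) (nat_lit 349) (nat_lit 228) (nat_lit 203)) (XT.lf (nat_lit 0) (nat_lit 4294470790) (nat_lit 76) (nat_lit 2811318675) (nat_lit 152) (nat_lit 15626619427) (nat_lit 12) (nat_lit 5) (nat_lit 13) (nat_lit 5) (nat_lit 14) (nat_lit 4) (nat_lit 350) (nat_lit 228) (nat_lit 202)))) (XT.nd (nat_lit 78) (nat_lit 0) (nat_lit 0) (XT.lf (nat_lit 0) (nat_lit 10082405766) (nat_lit 76) (nat_lit 252615) (nat_lit 152) (nat_lit 13229104421) (nat_lit 12) (nat_lit 5) (nat_lit 13) (nat_lit 5) (nat_lit 14) (nat_lit 4) (nat_lit 351) (nat_lit 228) (nat_lit 201)) (XT.nd (nat_lit 78) (nat_lit 0) (nat_lit 0) (XT.lf (nat_lit 0) (nat_lit 13130187564) (nat_lit 152) (nat_lit 7972094380)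 (nat_lit 0) (nat_lit 2806819298) (nat_lit 12) (nat_lit 5) (nat_lit 14) (nat_lit 4) (nat_lit 12) (nat_lit 4) (nat_lit 352) (nat_lit 228) (nat_lit 200)) (XT.lf (nat_lit 0) (nat_lit 16224023076) (nat_lit 152) (nat_lit 2634539583) (nat_lit 0) (nat_lit 5667194007) (nat_lit 12) (nat_lit 5) (nat_lit 14) (nat_lit 4) (nat_lit 12) (nat_lit 4) (nat_lit 353) (nat_lit 228) (nat_lit 199)))))) (XT.nd (nat_lit 468) (nat_lit 76) (nat_lit 0) (XT.nd (nat_lit 234) (nat_lit 152) (nat_lit 0) (XT.nd (nat_lit 78) (nat_lit 0) (nat_lit 0) (XT.lf (nat_lit 0) (nat_lit 2843459807) (nat_lit 152) (nat_lit 16550739106) (nat_lit 152) (nat_lit 5767249064) (nat_lit 10) (nat_lit 4) (nat_lit 12) (nat_lit 5) (nat_lit 12) (nat_lit 4) (nat_lit 354) (nat_lit 228) (nat_lit 198)) (XT.nd (nat_lit 78) (nat_lit 0) (nat_lit 0) (XT.lf (nat_lit 0) (nat_lit 8465373410) (nat_lit 152) (nat_lit 14177462964) (nat_lit 152) (nat_lit 3173913724) (nat_lit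 10) (nat_lit 4) (nat_lit 12) (nat_lit 5) (nat_lit 12) (nat_lit 4) (nat_lit 355) (nat_lit 228) (nat_lit 197)) (XT.lf (nat_lit 0) (nat_lit 14183681072) (nat_lit 152) (nat_lit 11763264181) (nat_lit 152) (nat_lit 546065235) (nat_lit 10) (nat_lit 4) (nat_lit 12) (nat_lit 5) (nat_lit 12) (nat_lit 4) (nat_lit 356) (nat_lit 228) (nat_lit 196)))) (XT.nd (nat_lit 78) (nat_lit 76) (nat_lit 0) (XT.lf (nat_lit 0) (nat_lit 2077251211) (nat_lit 228) (nat_lit 7207805887) (nat_lit 76) (nat_lit 17905151999) (nat_lit 9) (nat_lit 5) (nat_lit 12) (nat_lit 5) (nat_lit 10) (nat_lit 4) (nat_lit 357) (nat_lit 228) (nat_lit 195)) (XT.nd (nat_lit 78) (nat_lit 76) (nat_lit 0) (XT.lf (nat_lit 0) (nat_lit 4728285910) (nat_lit 228) (nat_lit 2027590786) (nat_lit 76) (nat_lit 21153521161) (nat_lit 9) (nat_lit 5) (nat_lit 12) (nat_lit 5) (nat_lit 10) (nat_lit 4) (nat_lit 358) (nat_lit 228) (nat_lit 194)) (XT.lf (nat_lit 0) (nat_lit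 3305595475) (nat_lit 76) (nat_lit 4146190932) (nat_lit 152) (nat_lit 21198622992) (nat_lit 8) (nat_lit 5) (nat_lit 9) (nat_lit 5) (nat_lit 10) (nat_lit 4) (nat_lit 359) (nat_lit 228) (nat_lit 193))))) (XT.nd (nat_lit 234) (nat_lit 76) (nat_lit 0) (XT.nd (nat_lit 78) (nat_lit 0) (nat_lit 0) (XT.lf (nat_lit 0) (nat_lit 8774057850) (nat_lit 76) (nat_lit 1465062237) (nat_lit 152) (nat_lit 19175101490) (nat_lit 8) (nat_lit 5) (nat_lit 9) (nat_lit 5) (nat_lit 10) (nat_lit 4) (nat_lit 360) (nat_lit 228) (nat_lit 192)) (XT.nd (nat_lit 78) (nat_lit 0) (nat_lit 0) (XT.lf (nat_lit 0) (nat_lit 13085046179) (nat_lit 152) (nat_lit 15872078611) (nat_lit 0) (nat_lit 1244607302) (nat_lit 8) (nat_lit 5) (nat_lit 10) (nat_lit 4) (nat_lit 8) (nat_lit 4) (nat_lit 361) (nat_lit 228) (nat_lit 191)) (XT.lf (nat_lit 0) (nat_lit 15994457216) (nat_lit 152) (nat_lit 11038798091) (nat_lit 0) (nat_lit 3980301577) (nat_lit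 8) (nat_lit 5) (nat_lit 10) (nat_lit 4) (nat_lit 8) (nat_lit 4) (nat_lit 362) (nat_lit 228) (nat_lit 190)))) (XT.nd (nat_lit 78) (nat_lit 76) (nat_lit 0) (XT.lf (nat_lit 0) (nat_lit 18955812329) (nat_lit 152) (nat_lit 6122015840) (nat_lit 0) (nat_lit 6772999638) (nat_lit 8) (nat_lit 5) (nat_lit 10) (nat_lit 4) (nat_lit 8) (nat_lit 4) (nat_lit 363) (nat_lit 228) (nat_lit 189)) (XT.nd (nat_lit 78) (nat_lit 76) (nat_lit 0) (XT.lf (nat_lit 0) (nat_lit 21971699109) (nat_lit 152) (nat_lit 1117435638) (nat_lit 0) (nat_lit 9625141709) (nat_lit 8) (nat_lit 5) (nat_lit 10) (nat_lit 4) (nat_lit 8) (nat_lit 4) (nat_lit 364) (nat_lit 228) (nat_lit 188)) (XT.lf (nat_lit 0) (nat_lit 4058511626) (nat_lit 76) (nat_lit 21025254069) (nat_lit 76) (nat_lit 8519721222) (nat_lit 7) (nat_lit 4) (nat_lit 8) (nat_lit 5) (nat_lit 8) (nat_lit 4) (nat_lit 365) (nat_lit 228) (nat_lit 187))))))))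
noncomputable def xc35 : XT := (XT.nd (nat_lit 1716) (nat_lit 152) (nat_lit 0) (XT.nd (nat_lit 858) (nat_lit 76) (nat_lit 0) (XT.nd (nat_lit 390) (nat_lit 76) (nat_lit 0) (XT.nd (nat_lit 156) (nat_lit 76) (nat_lit 0) (XT.nd (nat_lit 78) (nat_lit 0) (nat_lit 0) (XT.lf (nat_lit 0) (nat_lit 9355245421) (nat_lit 76) (nat_lit 18912341509) (nat_lit 76) (nat_lit 6252463569) (nat_lit 7) (nat_lit 4) (nat_lit 8) (nat_lit 5) (nat_lit 8) (nat_lit 4) (nat_lit 366) (nat_lit 228) (nat_lit 186)) (XT.lf (nat_lit 0) (nat_lit 14755154800) (nat_lit 76) (nat_lit 16759834744) (nat_lit 76) (nat_lit 3950107198) (nat_lit 7) (nat_lit 4) (nat_lit 8) (nat_lit 5) (nat_lit 8) (nat_lit 4) (nat_lit 367) (nat_lit 228) (nat_lit 185))) (XT.nd (nat_lit 78) (nat_lit 76) (nat_lit 0) (XT.lf (nat_lit 0) (nat_lit 20262958130) (nat_lit 76) (nat_lit 14565852943) (nat_lit 76) (nat_lit 1610640343) (nat_lit 7) (nat_lit 4) (nat_lit 8) (nat_lit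 5) (nat_lit 8) (nat_lit 4) (nat_lit 368) (nat_lit 228) (nat_lit 184)) (XT.nd (nat_lit 78) (nat_lit 0) (nat_lit 0) (XT.lf (nat_lit 0) (nat_lit 752995111) (nat_lit 152) (nat_lit 11567880148) (nat_lit 76) (nat_lit 25122869169) (nat_lit 6) (nat_lit 5) (nat_lit 8) (nat_lit 5) (nat_lit 7) (nat_lit 4) (nat_lit 369) (nat_lit 228) (nat_lit 183)) (XT.lf (nat_lit 0) (nat_lit 3125629652) (nat_lit 152) (nat_lit 6888565646) (nat_lit 76) (nat_lit 28464403316) (nat_lit 6) (nat_lit 5) (nat_lit 8) (nat_lit 5) (nat_lit 7) (nat_lit 4) (nat_lit 370) (nat_lit 228) (nat_lit 182))))) (XT.nd (nat_lit 234) (nat_lit 0) (nat_lit 0) (XT.nd (nat_lit 78) (nat_lit 76) (nat_lit 0) (XT.lf (nat_lit 0) (nat_lit 5540765850) (nat_lit 152) (nat_lit 2118978599) (nat_lit 76) (nat_lit 31885638242) (nat_lit 6) (nat_lit 5) (nat_lit 8) (nat_lit 5) (nat_lit 7) (nat_lit 4) (nat_lit 371) (nat_lit 228) (nat_lit 181)) (XT.nd (nat_lit 78) (nat_lit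 0) (nat_lit 0) (XT.lf (nat_lit 0) (nat_lit 2799680442) (nat_lit 76) (nat_lit 5227745815) (nat_lit 152) (nat_lit 32616795173) (nat_lit 5) (nat_lit 5) (nat_lit 6) (nat_lit 5) (nat_lit 7) (nat_lit 4) (nat_lit 372) (nat_lit 228) (nat_lit 180)) (XT.lf (nat_lit 0) (nat_lit 7861165708) (nat_lit 76) (nat_lit 2721424072) (nat_lit 152) (nat_lit 31193641021) (nat_lit 5) (nat_lit 5) (nat_lit 6) (nat_lit 5) (nat_lit 7) (nat_lit 4) (nat_lit 373) (nat_lit 228) (nat_lit 179)))) (XT.nd (nat_lit 78) (nat_lit 0) (nat_lit 0) (XT.lf (nat_lit 0) (nat_lit 13027728028) (nat_lit 76) (nat_lit 159986758) (nat_lit 152) (nat_lit 29755308381) (nat_lit 5) (nat_lit 5) (nat_lit 6) (nat_lit 5) (nat_lit 7) (nat_lit 4) (nat_lit 374) (nat_lit 228) (nat_lit 178)) (XT.nd (nat_lit 78) (nat_lit 0) (nat_lit 0) (XT.lf (nat_lit 0) (nat_lit 15868713129) (nat_lit 152) (nat_lit 25865371713) (nat_lit 0) (nat_lit 2410824147) (nat_lit 5) (nat_lit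 5) (nat_lit 7) (nat_lit 4) (nat_lit 5) (nat_lit 4) (nat_lit 375) (nat_lit 228) (nat_lit 177)) (XT.lf (nat_lit 0) (nat_lit 18606382450) (nat_lit 152) (nat_lit 21740211069) (nat_lit 0) (nat_lit 5036991288) (nat_lit 5) (nat_lit 5) (nat_lit 7) (nat_lit 4) (nat_lit 5) (nat_lit 4) (nat_lit 376) (nat_lit 228) (nat_lit 176)))))) (XT.nd (nat_lit 390) (nat_lit 0) (nat_lit 0) (XT.nd (nat_lit 156) (nat_lit 76) (nat_lit 0) (XT.nd (nat_lit 78) (nat_lit 0) (nat_lit 0) (XT.lf (nat_lit 0) (nat_lit 21401576997) (nat_lit 152) (nat_lit 17534670808) (nat_lit 0) (nat_lit 7723931292) (nat_lit 5) (nat_lit 5) (nat_lit 7) (nat_lit 4) (nat_lit 5) (nat_lit 4) (nat_lit 377) (nat_lit 228) (nat_lit 175)) (XT.lf (nat_lit 0) (nat_lit 24256739174) (nat_lit 152) (nat_lit 13245076185) (nat_lit 0) (nat_lit 10473991971) (nat_lit 5) (nat_lit 5) (nat_lit 7) (nat_lit 4) (nat_lit 5) (nat_lit 4) (nat_lit 378) (nat_lit 228) (nat_lit 174)))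 (XT.nd (nat_lit 78) (nat_lit 76) (nat_lit 0) (XT.lf (nat_lit 0) (nat_lit 27174363782) (nat_lit 152) (nat_lit 8867679012) (nat_lit 0) (nat_lit 13289576289) (nat_lit 5) (nat_lit 5) (nat_lit 7) (nat_lit 4) (nat_lit 5) (nat_lit 4) (nat_lit 379) (nat_lit 228) (nat_lit 173)) (XT.nd (nat_lit 78) (nat_lit 76) (nat_lit 0) (XT.lf (nat_lit 0) (nat_lit 30157000203) (nat_lit 152) (nat_lit 4398654377) (nat_lit 0) (nat_lit 16173144467) (nat_lit 5) (nat_lit 5) (nat_lit 7) (nat_lit 4) (nat_lit 5) (nat_lit 4) (nat_lit 380) (nat_lit 228) (nat_lit 172)) (XT.lf (nat_lit 0) (nat_lit 169204480) (nat_lit 76) (nat_lit 33039676639) (nat_lit 76) (nat_lit 18959638144) (nat_lit 4) (nat_lit 4) (nat_lit 5) (nat_lit 5) (nat_lit 5) (nat_lit 4) (nat_lit 381) (nat_lit 228) (nat_lit 171))))) (XT.nd (nat_lit 234) (nat_lit 0) (nat_lit 0) (XT.nd (nat_lit 78) (nat_lit 0) (nat_lit 0) (XT.lf (nat_lit 0) (nat_lit 4926106727) (nat_lit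 76) (nat_lit 31449038336) (nat_lit 76) (nat_lit 17275618521) (nat_lit 4) (nat_lit 4) (nat_lit 5) (nat_lit 5) (nat_lit 5) (nat_lit 4) (nat_lit 382) (nat_lit 228) (nat_lit 170)) (XT.nd (nat_lit 78) (nat_lit 0) (nat_lit 0) (XT.lf (nat_lit 0) (nat_lit 9788667033) (nat_lit 76) (nat_lit 29826767577) (nat_lit 76) (nat_lit 15562686287) (nat_lit 4) (nat_lit 4) (nat_lit 5) (nat_lit 5) (nat_lit 5) (nat_lit 4) (nat_lit 383) (nat_lit 228) (nat_lit 169)) (XT.lf (nat_lit 0) (nat_lit 14761134237) (nat_lit 76) (nat_lit 28171446845) (nat_lit 76) (nat_lit 13819344704) (nat_lit 4) (nat_lit 4) (nat_lit 5) (nat_lit 5) (nat_lit 5) (nat_lit 4) (nat_lit 384) (nat_lit 228) (nat_lit 168)))) (XT.nd (nat_lit 78) (nat_lit 0) (nat_lit 0) (XT.lf (nat_lit 0) (nat_lit 19847853214) (nat_lit 76) (nat_lit 26481629741) (nat_lit 76) (nat_lit 12044070464) (nat_lit 4) (nat_lit 4) (nat_lit 5) (nat_lit 5) (nat_lit 5) (nat_lit 4) (nat_lit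 385) (nat_lit 228) (nat_lit 167)) (XT.nd (nat_lit 78) (nat_lit 0) (nat_lit 0) (XT.lf (nat_lit 0) (nat_lit 25053268669) (nat_lit 76) (nat_lit 24755839728) (nat_lit 76) (nat_lit 10235312358) (nat_lit 4) (nat_lit 4) (nat_lit 5) (nat_lit 5) (nat_lit 5) (nat_lit 4) (nat_lit 386) (nat_lit 228) (nat_lit 166)) (XT.lf (nat_lit 0) (nat_lit 30381929025) (nat_lit 76) (nat_lit 22992568833) (nat_lit 76) (nat_lit 8391489916) (nat_lit 4) (nat_lit 4) (nat_lit 5) (nat_lit 5) (nat_lit 5) (nat_lit 4) (nat_lit 387) (nat_lit 228) (nat_lit 165))))))) (XT.nd (nat_lit 858) (nat_lit 0) (nat_lit 0) (XT.nd (nat_lit 390) (nat_lit 76) (nat_lit 0) (XT.nd (nat_lit 156) (nat_lit 76) (nat_lit 0) (XT.nd (nat_lit 78) (nat_lit 0) (nat_lit 0) (XT.lf (nat_lit 0) (nat_lit 35838490390) (nat_lit 76) (nat_lit 21190276335) (nat_lit 76) (nat_lit 6510992032) (nat_lit 4) (nat_lit 4) (nat_lit 5) (nat_lit 5) (nat_lit 5) (nat_lit 4) (nat_lit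 388) (nat_lit 228) (nat_lit 164)) (XT.lf (nat_lit 0) (nat_lit 41427720636) (nat_lit 76) (nat_lit 19347387413) (nat_lit 76) (nat_lit 4592175552) (nat_lit 4) (nat_lit 4) (nat_lit 5) (nat_lit 5) (nat_lit 5) (nat_lit 4) (nat_lit 389) (nat_lit 228) (nat_lit 163))) (XT.nd (nat_lit 78) (nat_lit 76) (nat_lit 0) (XT.lf (nat_lit 0) (nat_lit 47154503555) (nat_lit 76) (nat_lit 17462291778) (nat_lit 76) (nat_lit 2633363840) (nat_lit 4) (nat_lit 4) (nat_lit 5) (nat_lit 5) (nat_lit 5) (nat_lit 4) (nat_lit 390) (nat_lit 228) (nat_lit 162)) (XT.nd (nat_lit 78) (nat_lit 76) (nat_lit 0) (XT.lf (nat_lit 0) (nat_lit 53023843132) (nat_lit 76) (nat_lit 15533342258) (nat_lit 76) (nat_lit 632845314) (nat_lit 4) (nat_lit 4) (nat_lit 5) (nat_lit 5) (nat_lit 5) (nat_lit 4) (nat_lit 391) (nat_lit 228) (nat_lit 161)) (XT.lf (nat_lit 0) (nat_lit 1383591860) (nat_lit 152) (nat_lit 12161289938) (nat_lit 76) (nat_lit 57643304491)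 (nat_lit 3) (nat_lit 5) (nat_lit 5) (nat_lit 5) (nat_lit 4) (nat_lit 4) (nat_lit 392) (nat_lit 228) (nat_lit 160))))) (XT.nd (nat_lit 234) (nat_lit 0) (nat_lit 0) (XT.nd (nat_lit 78) (nat_lit 76) (nat_lit 0) (XT.lf (nat_lit 0) (nat_lit 3432037969) (nat_lit 152) (nat_lit 8070404989) (nat_lit 76) (nat_lit 61744140679) (nat_lit 3) (nat_lit 5) (nat_lit 5) (nat_lit 5) (nat_lit 4) (nat_lit 4) (nat_lit 393) (nat_lit 228) (nat_lit 159)) (XT.nd (nat_lit 78) (nat_lit 76) (nat_lit 0) (XT.lf (nat_lit 0) (nat_lit 5526632008) (nat_lit 152) (nat_lit 3883874870) (nat_lit 76) (nat_lit 65956696970) (nat_lit 3) (nat_lit 5) (nat_lit 5) (nat_lit 5) (nat_lit 4) (nat_lit 4) (nat_lit 394) (nat_lit 228) (nat_lit 158)) (XT.lf (nat_lit 0) (nat_lit 409958314) (nat_lit 76) (nat_lit 7263186659) (nat_lit 152) (nat_lit 69878636694) (nat_lit 2) (nat_lit 5) (nat_lit 3) (nat_lit 5) (nat_lit 4) (nat_lit 4) (nat_lit 395) (nat_lit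 228) (nat_lit 157)))) (XT.nd (nat_lit 78) (nat_lit 0) (nat_lit 0) (XT.lf (nat_lit 0) (nat_lit 4886187292) (nat_lit 76) (nat_lit 5022408435) (nat_lit 152) (nat_lit 69892575924) (nat_lit 2) (nat_lit 5) (nat_lit 3) (nat_lit 5) (nat_lit 4) (nat_lit 4) (nat_lit 396) (nat_lit 228) (nat_lit 156)) (XT.nd (nat_lit 78) (nat_lit 0) (nat_lit 0) (XT.lf (nat_lit 0) (nat_lit 9471426605) (nat_lit 76) (nat_lit 2725433767) (nat_lit 152) (nat_lit 69921621229) (nat_lit 2) (nat_lit 5) (nat_lit 3) (nat_lit 5) (nat_lit 4) (nat_lit 4) (nat_lit 397) (nat_lit 228) (nat_lit 155)) (XT.lf (nat_lit 0) (nat_lit 14169682774) (nat_lit 76) (nat_lit 370255589) (nat_lit 152) (nat_lit 69965797991) (nat_lit 2) (nat_lit 5) (nat_lit 3) (nat_lit 5) (nat_lit 4) (nat_lit 4) (nat_lit 398) (nat_lit 228) (nat_lit 154)))))) (XT.nd (nat_lit 34788) (nat_lit 0) (nat_lit 1900) (XT.nd (nat_lit 234) (nat_lit 0) (nat_lit 0) (XT.nd (nat_lit 78)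 (nat_lit 0) (nat_lit 0) (XT.lf (nat_lit 0) (nat_lit 16959536608) (nat_lit 152) (nat_lit 67999620347) (nat_lit 0) (nat_lit 2005275115) (nat_lit 2) (nat_lit 5) (nat_lit 4) (nat_lit 4) (nat_lit 2) (nat_lit 4) (nat_lit 399) (nat_lit 228) (nat_lit 153)) (XT.nd (nat_lit 78) (nat_lit 0) (nat_lit 0) (XT.lf (nat_lit 0) (nat_lit 19442251262) (nat_lit 152) (nat_lit 65620195698) (nat_lit 0) (nat_lit 4434735708) (nat_lit 2) (nat_lit 5) (nat_lit 4) (nat_lit 4) (nat_lit 2) (nat_lit 4) (nat_lit 400) (nat_lit 228) (nat_lit 152)) (XT.lf (nat_lit 0) (nat_lit 21986692566) (nat_lit 152) (nat_lit 63192141401) (nat_lit 0) (nat_lit 6927474039) (nat_lit 2) (nat_lit 5) (nat_lit 4) (nat_lit 4) (nat_lit 2) (nat_lit 4) (nat_lit 401) (nat_lit 228) (nat_lit 151)))) (XT.nd (nat_lit 34398) (nat_lit 0) (nat_lit 2508) (XT.lf (nat_lit 0) (nat_lit 24595083817) (nat_lit 152) (nat_lit 60713335854) (nat_lit 0) (nat_lit 9485668228)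 (nat_lit 2) (nat_lit 5) (nat_lit 4) (nat_lit 4) (nat_lit 2) (nat_lit 4) (nat_lit 402) (nat_lit 228) (nat_lit 150)) (XT.nd (nat_lit 78) (nat_lit 228) (nat_lit 0) (XT.lf (nat_lit 0) (nat_lit 4071799480) (nat_lit 228) (nat_lit 1002787599) (nat_lit 228) (nat_lit 1002787599) (nat_lit 38) (nat_lit 4) (nat_lit 41) (nat_lit 5) (nat_lit 41) (nat_lit 4) (nat_lit 322) (nat_lit 229) (nat_lit 229)) (XT.lf (nat_lit 0) (nat_lit 1439046380) (nat_lit 228) (nat_lit 10150109557) (nat_lit 0) (nat_lit 801253576) (nat_lit 35) (nat_lit 5) (nat_lit 38) (nat_lit 4) (nat_lit 35) (nat_lit 4) (nat_lit 323) (nat_lit 229) (nat_lit 228))))) (XT.nd (nat_lit 234) (nat_lit 380) (nat_lit 0) (XT.nd (nat_lit 78) (nat_lit 228) (nat_lit 0) (XT.lf (nat_lit 0) (nat_lit 4926650425) (nat_lit 228) (nat_lit 4036968102) (nat_lit 0) (nat_lit 3669641307) (nat_lit 35) (nat_lit 5) (nat_lit 38) (nat_lit 4) (nat_lit 35) (nat_lit 4) (nat_lit 324)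 (nat_lit 229) (nat_lit 227)) (XT.nd (nat_lit 78) (nat_lit 0) (nat_lit 0) (XT.lf (nat_lit 0) (nat_lit 2179330247) (nat_lit 228) (nat_lit 6282045984) (nat_lit 228) (nat_lit 4423855979) (nat_lit 32) (nat_lit 4) (nat_lit 35) (nat_lit 5) (nat_lit 35) (nat_lit 4) (nat_lit 325) (nat_lit 229) (nat_lit 226)) (XT.lf (nat_lit 0) (nat_lit 8543311074) (nat_lit 228) (nat_lit 3522259382) (nat_lit 228) (nat_lit 1080398613) (nat_lit 32) (nat_lit 4) (nat_lit 35) (nat_lit 5) (nat_lit 35) (nat_lit 4) (nat_lit 326) (nat_lit 229) (nat_lit 225)))) (XT.nd (nat_lit 78) (nat_lit 152) (nat_lit 0) (XT.lf (nat_lit 0) (nat_lit 1572007858) (nat_lit 152) (nat_lit 684415428) (nat_lit 228) (nat_lit 11159349753) (nat_lit 29) (nat_lit 5) (nat_lit 31) (nat_lit 5) (nat_lit 32) (nat_lit 4) (nat_lit 327) (nat_lit 229) (nat_lit 224)) (XT.nd (nat_lit 78) (nat_lit 152) (nat_lit 0) (XT.lf (nat_lit 0) (nat_lit 5664812576) (nat_lit 228)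 (nat_lit 5819074392) (nat_lit 0) (nat_lit 2209766858) (nat_lit 29) (nat_lit 5) (nat_lit 32) (nat_lit 4) (nat_lit 29) (nat_lit 4) (nat_lit 328) (nat_lit 229) (nat_lit 223)) (XT.lf (nat_lit 0) (nat_lit 267929759) (nat_lit 152) (nat_lit 8843789496) (nat_lit 152) (nat_lit 4870159864) (nat_lit 27) (nat_lit 4) (nat_lit 29) (nat_lit 5) (nat_lit 29) (nat_lit 4) (nat_lit 329) (nat_lit 229) (nat_lit 222))))))))
noncomputable def xc36 : XT := (XT.nd (nat_lit 1716) (nat_lit 532) (nat_lit 0) (XT.nd (nat_lit 858) (nat_lit 456) (nat_lit 0) (XT.nd (nat_lit 390) (nat_lit 304) (nat_lit 0) (XT.nd (nat_lit 156) (nat_lit 304) (nat_lit 0) (XT.nd (nat_lit 78) (nat_lit 76) (nat_lit 0) (XT.lf (nat_lit 0) (nat_lit 6541095985) (nat_lit 152) (nat_lit 6107628433) (nat_lit 152) (nat_lit 1630519273) (nat_lit 27) (nat_lit 4) (nat_lit 29) (nat_lit 5) (nat_lit 29) (nat_lit 4) (nat_lit 330) (nat_lit 229) (nat_lit 221)) (XT.lf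 (nat_lit 0) (nat_lit 1602261882) (nat_lit 228) (nat_lit 1713332615) (nat_lit 76) (nat_lit 11271653115) (nat_lit 26) (nat_lit 5) (nat_lit 29) (nat_lit 5) (nat_lit 27) (nat_lit 4) (nat_lit 331) (nat_lit 229) (nat_lit 220))) (XT.nd (nat_lit 78) (nat_lit 152) (nat_lit 0) (XT.lf (nat_lit 0) (nat_lit 4452423753) (nat_lit 152) (nat_lit 420938677) (nat_lit 228) (nat_lit 10031507018) (nat_lit 24) (nat_lit 5) (nat_lit 26) (nat_lit 5) (nat_lit 27) (nat_lit 4) (nat_lit 332) (nat_lit 229) (nat_lit 219)) (XT.nd (nat_lit 78) (nat_lit 152) (nat_lit 0) (XT.lf (nat_lit 0) (nat_lit 8216538145) (nat_lit 228) (nat_lit 4529184041) (nat_lit 0) (nat_lit 2487162347) (nat_lit 24) (nat_lit 5) (nat_lit 27) (nat_lit 4) (nat_lit 24) (nat_lit 4) (nat_lit 333) (nat_lit 229) (nat_lit 218)) (XT.lf (nat_lit 0) (nat_lit 1488723495) (nat_lit 152) (nat_lit 10123604558) (nat_lit 152) (nat_lit 3959922895) (nat_lit 22) (nat_lit 4)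 (nat_lit 24) (nat_lit 5) (nat_lit 24) (nat_lit 4) (nat_lit 334) (nat_lit 229) (nat_lit 217))))) (XT.nd (nat_lit 234) (nat_lit 152) (nat_lit 0) (XT.nd (nat_lit 78) (nat_lit 152) (nat_lit 0) (XT.lf (nat_lit 0) (nat_lit 7673135658) (nat_lit 152) (nat_lit 7417332177) (nat_lit 152) (nat_lit 831994336) (nat_lit 22) (nat_lit 4) (nat_lit 24) (nat_lit 5) (nat_lit 24) (nat_lit 4) (nat_lit 335) (nat_lit 229) (nat_lit 216)) (XT.nd (nat_lit 78) (nat_lit 76) (nat_lit 0) (XT.lf (nat_lit 0) (nat_lit 2279078422) (nat_lit 228) (nat_lit 2368183574) (nat_lit 76) (nat_lit 11637224012) (nat_lit 21) (nat_lit 5) (nat_lit 24) (nat_lit 5) (nat_lit 22) (nat_lit 4) (nat_lit 336) (nat_lit 229) (nat_lit 215)) (XT.lf (nat_lit 0) (nat_lit 3650336744) (nat_lit 76) (nat_lit 1789318874) (nat_lit 152) (nat_lit 11218352455) (nat_lit 20) (nat_lit 5) (nat_lit 21) (nat_lit 5) (nat_lit 22) (nat_lit 4) (nat_lit 337) (nat_lit 229) (nat_lit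 214)))) (XT.nd (nat_lit 78) (nat_lit 152) (nat_lit 0) (XT.lf (nat_lit 0) (nat_lit 8668561164) (nat_lit 152) (nat_lit 7257971995) (nat_lit 0) (nat_lit 1117066701) (nat_lit 20) (nat_lit 5) (nat_lit 22) (nat_lit 4) (nat_lit 20) (nat_lit 4) (nat_lit 338) (nat_lit 229) (nat_lit 213)) (XT.nd (nat_lit 78) (nat_lit 152) (nat_lit 0) (XT.lf (nat_lit 0) (nat_lit 11952111858) (nat_lit 152) (nat_lit 1453088502) (nat_lit 0) (nat_lit 4036893072) (nat_lit 20) (nat_lit 5) (nat_lit 22) (nat_lit 4) (nat_lit 20) (nat_lit 4) (nat_lit 339) (nat_lit 229) (nat_lit 212)) (XT.lf (nat_lit 0) (nat_lit 4517402190) (nat_lit 152) (nat_lit 10801998638) (nat_lit 152) (nat_lit 2533649440) (nat_lit 18) (nat_lit 4) (nat_lit 20) (nat_lit 5) (nat_lit 20) (nat_lit 4) (nat_lit 340) (nat_lit 229) (nat_lit 211)))))) (XT.nd (nat_lit 390) (nat_lit 304) (nat_lit 0) (XT.nd (nat_lit 156) (nat_lit 76) (nat_lit 0) (XT.nd (nat_lit 78) (nat_lit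 0) (nat_lit 0) (XT.lf (nat_lit 0) (nat_lit 458164114) (nat_lit 228) (nat_lit 7681121104) (nat_lit 76) (nat_lit 10138261671) (nat_lit 17) (nat_lit 5) (nat_lit 20) (nat_lit 5) (nat_lit 18) (nat_lit 4) (nat_lit 341) (nat_lit 229) (nat_lit 210)) (XT.lf (nat_lit 0) (nat_lit 3432450517) (nat_lit 228) (nat_lit 1976178988) (nat_lit 76) (nat_lit 13307146925) (nat_lit 17) (nat_lit 5) (nat_lit 20) (nat_lit 5) (nat_lit 18) (nat_lit 4) (nat_lit 342) (nat_lit 229) (nat_lit 209))) (XT.nd (nat_lit 78) (nat_lit 0) (nat_lit 0) (XT.lf (nat_lit 0) (nat_lit 3884315136) (nat_lit 76) (nat_lit 2594272560) (nat_lit 152) (nat_lit 12689144609) (nat_lit 16) (nat_lit 5) (nat_lit 17) (nat_lit 5) (nat_lit 18) (nat_lit 4) (nat_lit 343) (nat_lit 229) (nat_lit 208)) (XT.nd (nat_lit 78) (nat_lit 0) (nat_lit 0) (XT.lf (nat_lit 0) (nat_lit 9584845919) (nat_lit 152) (nat_lit 9766461652) (nat_lit 0) (nat_lit 282933602) (nat_lit 16)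 (nat_lit 5) (nat_lit 18) (nat_lit 4) (nat_lit 16) (nat_lit 4) (nat_lit 344) (nat_lit 229) (nat_lit 207)) (XT.lf (nat_lit 0) (nat_lit 12757217199) (nat_lit 152) (nat_lit 4198831404) (nat_lit 0) (nat_lit 3159563722) (nat_lit 16) (nat_lit 5) (nat_lit 18) (nat_lit 4) (nat_lit 16) (nat_lit 4) (nat_lit 345) (nat_lit 229) (nat_lit 206))))) (XT.nd (nat_lit 234) (nat_lit 76) (nat_lit 0) (XT.nd (nat_lit 78) (nat_lit 76) (nat_lit 0) (XT.lf (nat_lit 0) (nat_lit 1478119665) (nat_lit 152) (nat_lit 14509624702) (nat_lit 152) (nat_lit 4624843885) (nat_lit 14) (nat_lit 4) (nat_lit 16) (nat_lit 5) (nat_lit 16) (nat_lit 4) (nat_lit 346) (nat_lit 229) (nat_lit 205)) (XT.nd (nat_lit 78) (nat_lit 76) (nat_lit 0) (XT.lf (nat_lit 0) (nat_lit 7325748216) (nat_lit 152) (nat_lit 11981283387) (nat_lit 152) (nat_lit 1817738162) (nat_lit 14) (nat_lit 4) (nat_lit 16) (nat_lit 5) (nat_lit 16) (nat_lit 4) (nat_lit 347) (nat_lit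 229) (nat_lit 204)) (XT.lf (nat_lit 0) (nat_lit 1003012963) (nat_lit 228) (nat_lit 8398073963) (nat_lit 76) (nat_lit 12252457419) (nat_lit 13) (nat_lit 5) (nat_lit 16) (nat_lit 5) (nat_lit 14) (nat_lit 4) (nat_lit 348) (nat_lit 229) (nat_lit 203)))) (XT.nd (nat_lit 78) (nat_lit 76) (nat_lit 0) (XT.lf (nat_lit 0) (nat_lit 3823678740) (nat_lit 228) (nat_lit 2934884628) (nat_lit 76) (nat_lit 15440571321) (nat_lit 13) (nat_lit 5) (nat_lit 16) (nat_lit 5) (nat_lit 14) (nat_lit 4) (nat_lit 349) (nat_lit 229) (nat_lit 202)) (XT.nd (nat_lit 78) (nat_lit 0) (nat_lit 0) (XT.lf (nat_lit 0) (nat_lit 2664793039) (nat_lit 76) (nat_lit 4043017026) (nat_lit 152) (nat_lit 16053963187) (nat_lit 12) (nat_lit 5) (nat_lit 13) (nat_lit 5) (nat_lit 14) (nat_lit 4) (nat_lit 350) (nat_lit 229) (nat_lit 201)) (XT.lf (nat_lit 0) (nat_lit 8413994736) (nat_lit 76) (nat_lit 1247943537) (nat_lit 152) (nat_lit 13679893050)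 (nat_lit 12) (nat_lit 5) (nat_lit 13) (nat_lit 5) (nat_lit 14) (nat_lit 4) (nat_lit 351) (nat_lit 229) (nat_lit 200))))))) (XT.nd (nat_lit 858) (nat_lit 228) (nat_lit 0) (XT.nd (nat_lit 390) (nat_lit 152) (nat_lit 0) (XT.nd (nat_lit 156) (nat_lit 152) (nat_lit 0) (XT.nd (nat_lit 78) (nat_lit 0) (nat_lit 0) (XT.lf (nat_lit 0) (nat_lit 12675246278) (nat_lit 152) (nat_lit 9696719889) (nat_lit 0) (nat_lit 1568251534) (nat_lit 12) (nat_lit 5) (nat_lit 14) (nat_lit 4) (nat_lit 12) (nat_lit 4) (nat_lit 352) (nat_lit 229) (nat_lit 199)) (XT.lf (nat_lit 0) (nat_lit 15747501585) (nat_lit 152) (nat_lit 4396193759) (nat_lit 0) (nat_lit 4413845868) (nat_lit 12) (nat_lit 5) (nat_lit 14) (nat_lit 4) (nat_lit 12) (nat_lit 4) (nat_lit 353) (nat_lit 229) (nat_lit 198))) (XT.nd (nat_lit 78) (nat_lit 0) (nat_lit 0) (XT.lf (nat_lit 0) (nat_lit 1010079619) (nat_lit 152) (nat_lit 17869022578) (nat_lit 152) (nat_lit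 6315307663) (nat_lit 10) (nat_lit 4) (nat_lit 12) (nat_lit 5) (nat_lit 12) (nat_lit 4) (nat_lit 354) (nat_lit 229) (nat_lit 197)) (XT.nd (nat_lit 78) (nat_lit 0) (nat_lit 0) (XT.lf (nat_lit 0) (nat_lit 6596395514) (nat_lit 152) (nat_lit 15510660546) (nat_lit 152) (nat_lit 3743295924) (nat_lit 10) (nat_lit 4) (nat_lit 12) (nat_lit 5) (nat_lit 12) (nat_lit 4) (nat_lit 355) (nat_lit 229) (nat_lit 196)) (XT.lf (nat_lit 0) (nat_lit 12280142294) (nat_lit 152) (nat_lit 13110941480) (nat_lit 152) (nat_lit 1136149959) (nat_lit 10) (nat_lit 4) (nat_lit 12) (nat_lit 5) (nat_lit 12) (nat_lit 4) (nat_lit 356) (nat_lit 229) (nat_lit 195))))) (XT.nd (nat_lit 234) (nat_lit 0) (nat_lit 0) (XT.nd (nat_lit 78) (nat_lit 76) (nat_lit 0) (XT.lf (nat_lit 0) (nat_lit 1478973839) (nat_lit 228) (nat_lit 9173859965) (nat_lit 76) (nat_lit 16572377766) (nat_lit 9) (nat_lit 5) (nat_lit 12) (nat_lit 5) (nat_lit 10) (nat_lit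 4) (nat_lit 357) (nat_lit 229) (nat_lit 194)) (XT.nd (nat_lit 78) (nat_lit 76) (nat_lit 0) (XT.lf (nat_lit 0) (nat_lit 4110875214) (nat_lit 228) (nat_lit 4026619921) (nat_lit 76) (nat_lit 19807496516) (nat_lit 9) (nat_lit 5) (nat_lit 12) (nat_lit 5) (nat_lit 10) (nat_lit 4) (nat_lit 358) (nat_lit 229) (nat_lit 193)) (XT.lf (nat_lit 0) (nat_lit 1234129968) (nat_lit 76) (nat_lit 5561757505) (nat_lit 152) (nat_lit 21891287182) (nat_lit 8) (nat_lit 5) (nat_lit 9) (nat_lit 5) (nat_lit 10) (nat_lit 4) (nat_lit 359) (nat_lit 229) (nat_lit 192)))) (XT.nd (nat_lit 78) (nat_lit 0) (nat_lit 0) (XT.lf (nat_lit 0) (nat_lit 6670891594) (nat_lit 76) (nat_lit 2893989840) (nat_lit 152) (nat_lit 19886671919) (nat_lit 8) (nat_lit 5) (nat_lit 9) (nat_lit 5) (nat_lit 10) (nat_lit 4) (nat_lit 360) (nat_lit 229) (nat_lit 191)) (XT.nd (nat_lit 78) (nat_lit 0) (nat_lit 0) (XT.lf (nat_lit 0) (nat_lit 12208277891) (nat_lit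 76) (nat_lit 172522046) (nat_lit 152) (nat_lit 17859180007) (nat_lit 8) (nat_lit 5) (nat_lit 9) (nat_lit 5) (nat_lit 10) (nat_lit 4) (nat_lit 361) (nat_lit 229) (nat_lit 190)) (XT.lf (nat_lit 0) (nat_lit 15271144580) (nat_lit 152) (nat_lit 13227057080) (nat_lit 0) (nat_lit 2554190458) (nat_lit 8) (nat_lit 5) (nat_lit 10) (nat_lit 4) (nat_lit 8) (nat_lit 4) (nat_lit 362) (nat_lit 229) (nat_lit 189)))))) (XT.nd (nat_lit 468) (nat_lit 152) (nat_lit 0) (XT.nd (nat_lit 234) (nat_lit 0) (nat_lit 0) (XT.nd (nat_lit 78) (nat_lit 76) (nat_lit 0) (XT.lf (nat_lit 0) (nat_lit 18215598715) (nat_lit 152) (nat_lit 8339686413) (nat_lit 0) (nat_lit 5334899883) (nat_lit 8) (nat_lit 5) (nat_lit 10) (nat_lit 4) (nat_lit 8) (nat_lit 4) (nat_lit 363) (nat_lit 229) (nat_lit 188)) (XT.nd (nat_lit 78) (nat_lit 76) (nat_lit 0) (XT.lf (nat_lit 0) (nat_lit 21215076779) (nat_lit 152) (nat_lit 3363661149) (nat_lit 0) (nat_lit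 8175402500) (nat_lit 8) (nat_lit 5) (nat_lit 10) (nat_lit 4) (nat_lit 8) (nat_lit 4) (nat_lit 364) (nat_lit 229) (nat_lit 187)) (XT.lf (nat_lit 0) (nat_lit 1739306837) (nat_lit 76) (nat_lit 22549612119) (nat_lit 76) (nat_lit 9355592747) (nat_lit 7) (nat_lit 4) (nat_lit 8) (nat_lit 5) (nat_lit 8) (nat_lit 4) (nat_lit 365) (nat_lit 229) (nat_lit 186)))) (XT.nd (nat_lit 78) (nat_lit 0) (nat_lit 0) (XT.lf (nat_lit 0) (nat_lit 7008589188) (nat_lit 76) (nat_lit 20448420334) (nat_lit 76) (nat_lit 7104551356) (nat_lit 7) (nat_lit 4) (nat_lit 8) (nat_lit 5) (nat_lit 8) (nat_lit 4) (nat_lit 366) (nat_lit 229) (nat_lit 185)) (XT.nd (nat_lit 78) (nat_lit 0) (nat_lit 0) (XT.lf (nat_lit 0) (nat_lit 12381846681) (nat_lit 76) (nat_lit 18307292961) (nat_lit 76) (nat_lit 4817938929) (nat_lit 7) (nat_lit 4) (nat_lit 8) (nat_lit 5) (nat_lit 8) (nat_lit 4) (nat_lit 367) (nat_lit 229) (nat_lit 184)) (XT.lf (nat_lit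 0) (nat_lit 17863774392) (nat_lit 76) (nat_lit 16124359114) (nat_lit 76) (nat_lit 2493757457) (nat_lit 7) (nat_lit 4) (nat_lit 8) (nat_lit 5) (nat_lit 8) (nat_lit 4) (nat_lit 368) (nat_lit 229) (nat_lit 183))))) (XT.nd (nat_lit 234) (nat_lit 76) (nat_lit 0) (XT.nd (nat_lit 78) (nat_lit 76) (nat_lit 0) (XT.lf (nat_lit 0) (nat_lit 23459162358) (nat_lit 76) (nat_lit 13897711373) (nat_lit 76) (nat_lit 129976099) (nat_lit 7) (nat_lit 4) (nat_lit 8) (nat_lit 5) (nat_lit 8) (nat_lit 4) (nat_lit 369) (nat_lit 229) (nat_lit 182)) (XT.nd (nat_lit 78) (nat_lit 0) (nat_lit 0) (XT.lf (nat_lit 0) (nat_lit 2231067954) (nat_lit 152) (nat_lit 9371806758) (nat_lit 76) (nat_lit 26919302384) (nat_lit 6) (nat_lit 5) (nat_lit 8) (nat_lit 5) (nat_lit 7) (nat_lit 4) (nat_lit 370) (nat_lit 229) (nat_lit 181)) (XT.lf (nat_lit 0) (nat_lit 4632488823) (nat_lit 152) (nat_lit 4626183980) (nat_lit 76) (nat_lit 30330711280)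 (nat_lit 6) (nat_lit 5) (nat_lit 8) (nat_lit 5) (nat_lit 7) (nat_lit 4) (nat_lit 371) (nat_lit 229) (nat_lit 180)))) (XT.nd (nat_lit 78) (nat_lit 0) (nat_lit 0) (XT.lf (nat_lit 0) (nat_lit 218847432) (nat_lit 76) (nat_lit 6862177400) (nat_lit 152) (nat_lit 33608352840) (nat_lit 5) (nat_lit 5) (nat_lit 6) (nat_lit 5) (nat_lit 7) (nat_lit 4) (nat_lit 372) (nat_lit 229) (nat_lit 179)) (XT.nd (nat_lit 78) (nat_lit 0) (nat_lit 0) (XT.lf (nat_lit 0) (nat_lit 5257294519) (nat_lit 76) (nat_lit 4365744367) (nat_lit 152) (nat_lit 32198753435) (nat_lit 5) (nat_lit 5) (nat_lit 6) (nat_lit 5) (nat_lit 7) (nat_lit 4) (nat_lit 373) (nat_lit 229) (nat_lit 178)) (XT.lf (nat_lit 0) (nat_lit 10401489674) (nat_lit 76) (nat_lit 1813907743) (nat_lit 152) (nat_lit 30773580743) (nat_lit 5) (nat_lit 5) (nat_lit 6) (nat_lit 5) (nat_lit 7) (nat_lit 4) (nat_lit 374) (nat_lit 229) (nat_lit 177))))))))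
noncomputable def xc37 : XT := (XT.nd (nat_lit 1716) (nat_lit 0) (nat_lit 0) (XT.nd (nat_lit 858) (nat_lit 152) (nat_lit 0) (XT.nd (nat_lit 390) (nat_lit 76) (nat_lit 0) (XT.nd (nat_lit 156) (nat_lit 0) (nat_lit 0) (XT.nd (nat_lit 78) (nat_lit 0) (nat_lit 0) (XT.lf (nat_lit 0) (nat_lit 14868013023) (nat_lit 152) (nat_lit 28543674668) (nat_lit 0) (nat_lit 780037947) (nat_lit 5) (nat_lit 5) (nat_lit 7) (nat_lit 4) (nat_lit 5) (nat_lit 4) (nat_lit 375) (nat_lit 229) (nat_lit 176)) (XT.lf (nat_lit 0) (nat_lit 17593561727) (nat_lit 152) (nat_lit 24439881118) (nat_lit 0) (nat_lit 3397332107) (nat_lit 5) (nat_lit 5) (nat_lit 7) (nat_lit 4) (nat_lit 5) (nat_lit 4) (nat_lit 376) (nat_lit 229) (nat_lit 175))) (XT.nd (nat_lit 78) (nat_lit 0) (nat_lit 0) (XT.lf (nat_lit 0) (nat_lit 20376988685) (nat_lit 152) (nat_lit 20255085609) (nat_lit 0) (nat_lit 6075657567) (nat_lit 5) (nat_lit 5) (nat_lit 7) (nat_lit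 4) (nat_lit 5) (nat_lit 4) (nat_lit 377) (nat_lit 229) (nat_lit 174)) (XT.nd (nat_lit 78) (nat_lit 0) (nat_lit 0) (XT.lf (nat_lit 0) (nat_lit 23220726017) (nat_lit 152) (nat_lit 15985631522) (nat_lit 0) (nat_lit 8817354610) (nat_lit 5) (nat_lit 5) (nat_lit 7) (nat_lit 4) (nat_lit 5) (nat_lit 4) (nat_lit 378) (nat_lit 229) (nat_lit 173)) (XT.lf (nat_lit 0) (nat_lit 26127258544) (nat_lit 152) (nat_lit 11627788267) (nat_lit 0) (nat_lit 11624818894) (nat_lit 5) (nat_lit 5) (nat_lit 7) (nat_lit 4) (nat_lit 5) (nat_lit 4) (nat_lit 379) (nat_lit 229) (nat_lit 172))))) (XT.nd (nat_lit 234) (nat_lit 0) (nat_lit 0) (XT.nd (nat_lit 78) (nat_lit 76) (nat_lit 0) (XT.lf (nat_lit 0) (nat_lit 29099125952) (nat_lit 152) (nat_lit 7177748019) (nat_lit 0) (nat_lit 14500503543) (nat_lit 5) (nat_lit 5) (nat_lit 7) (nat_lit 4) (nat_lit 5) (nat_lit 4) (nat_lit 380) (nat_lit 229) (nat_lit 171)) (XT.nd (nat_lit 78) (nat_lit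 76) (nat_lit 0) (XT.lf (nat_lit 0) (nat_lit 32138925021) (nat_lit 152) (nat_lit 2631622394) (nat_lit 0) (nat_lit 17446921291) (nat_lit 5) (nat_lit 5) (nat_lit 7) (nat_lit 4) (nat_lit 5) (nat_lit 4) (nat_lit 381) (nat_lit 229) (nat_lit 170)) (XT.lf (nat_lit 0) (nat_lit 2054654664) (nat_lit 76) (nat_lit 33214407818) (nat_lit 76) (nat_lit 18431742612) (nat_lit 4) (nat_lit 4) (nat_lit 5) (nat_lit 5) (nat_lit 5) (nat_lit 4) (nat_lit 382) (nat_lit 229) (nat_lit 169)))) (XT.nd (nat_lit 78) (nat_lit 0) (nat_lit 0) (XT.lf (nat_lit 0) (nat_lit 6899495802) (nat_lit 76) (nat_lit 31599830728) (nat_lit 76) (nat_lit 16729144673) (nat_lit 4) (nat_lit 4) (nat_lit 5) (nat_lit 5) (nat_lit 5) (nat_lit 4) (nat_lit 383) (nat_lit 229) (nat_lit 168)) (XT.nd (nat_lit 78) (nat_lit 0) (nat_lit 0) (XT.lf (nat_lit 0) (nat_lit 11854759931) (nat_lit 76) (nat_lit 29951979578) (nat_lit 76) (nat_lit 14995836386) (nat_lit 4)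 (nat_lit 4) (nat_lit 5) (nat_lit 5) (nat_lit 5) (nat_lit 4) (nat_lit 384) (nat_lit 229) (nat_lit 167)) (XT.lf (nat_lit 0) (nat_lit 16924776892) (nat_lit 76) (nat_lit 28269414496) (nat_lit 76) (nat_lit 13230303211) (nat_lit 4) (nat_lit 4) (nat_lit 5) (nat_lit 5) (nat_lit 5) (nat_lit 4) (nat_lit 385) (nat_lit 229) (nat_lit 166)))))) (XT.nd (nat_lit 390) (nat_lit 152) (nat_lit 0) (XT.nd (nat_lit 156) (nat_lit 0) (nat_lit 0) (XT.nd (nat_lit 78) (nat_lit 0) (nat_lit 0) (XT.lf (nat_lit 0) (nat_lit 22113976799) (nat_lit 76) (nat_lit 26550665280) (nat_lit 76) (nat_lit 11431002448) (nat_lit 4) (nat_lit 4) (nat_lit 5) (nat_lit 5) (nat_lit 5) (nat_lit 4) (nat_lit 386) (nat_lit 229) (nat_lit 165)) (XT.lf (nat_lit 0) (nat_lit 27426893903) (nat_lit 76) (nat_lit 24794230111) (nat_lit 76) (nat_lit 9596361893) (nat_lit 4) (nat_lit 4) (nat_lit 5) (nat_lit 5) (nat_lit 5) (nat_lit 4) (nat_lit 387) (nat_lit 229)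 (nat_lit 164))) (XT.nd (nat_lit 78) (nat_lit 0) (nat_lit 0) (XT.lf (nat_lit 0) (nat_lit 32868170559) (nat_lit 76) (nat_lit 22998574239) (nat_lit 76) (nat_lit 7724778463) (nat_lit 4) (nat_lit 4) (nat_lit 5) (nat_lit 5) (nat_lit 5) (nat_lit 4) (nat_lit 388) (nat_lit 229) (nat_lit 163)) (XT.nd (nat_lit 78) (nat_lit 0) (nat_lit 0) (XT.lf (nat_lit 0) (nat_lit 38442561280) (nat_lit 76) (nat_lit 21162128645) (nat_lit 76) (nat_lit 5814616792) (nat_lit 4) (nat_lit 4) (nat_lit 5) (nat_lit 5) (nat_lit 5) (nat_lit 4) (nat_lit 389) (nat_lit 229) (nat_lit 162)) (XT.lf (nat_lit 0) (nat_lit 44154936894) (nat_lit 76) (nat_lit 19283288667) (nat_lit 76) (nat_lit 3864207808) (nat_lit 4) (nat_lit 4) (nat_lit 5) (nat_lit 5) (nat_lit 5) (nat_lit 4) (nat_lit 390) (nat_lit 229) (nat_lit 161))))) (XT.nd (nat_lit 234) (nat_lit 76) (nat_lit 0) (XT.nd (nat_lit 78) (nat_lit 76) (nat_lit 0) (XT.lf (nat_lit 0) (nat_lit 50010288796)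 (nat_lit 76) (nat_lit 17360412600) (nat_lit 76) (nat_lit 1871847270) (nat_lit 4) (nat_lit 4) (nat_lit 5) (nat_lit 5) (nat_lit 5) (nat_lit 4) (nat_lit 391) (nat_lit 229) (nat_lit 160)) (XT.nd (nat_lit 78) (nat_lit 0) (nat_lit 0) (XT.lf (nat_lit 0) (nat_lit 161001474) (nat_lit 152) (nat_lit 15229192989) (nat_lit 76) (nat_lit 55851106040) (nat_lit 3) (nat_lit 5) (nat_lit 5) (nat_lit 5) (nat_lit 4) (nat_lit 4) (nat_lit 392) (nat_lit 229) (nat_lit 159)) (XT.lf (nat_lit 0) (nat_lit 2201907951) (nat_lit 152) (nat_lit 11151648621) (nat_lit 76) (nat_lit 59946373271) (nat_lit 3) (nat_lit 5) (nat_lit 5) (nat_lit 5) (nat_lit 4) (nat_lit 4) (nat_lit 393) (nat_lit 229) (nat_lit 158)))) (XT.nd (nat_lit 78) (nat_lit 76) (nat_lit 0) (XT.lf (nat_lit 0) (nat_lit 4289181957) (nat_lit 152) (nat_lit 6978070522) (nat_lit 76) (nat_lit 64153522808) (nat_lit 3) (nat_lit 5) (nat_lit 5) (nat_lit 5) (nat_lit 4) (nat_lit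 4) (nat_lit 394) (nat_lit 229) (nat_lit 157)) (XT.nd (nat_lit 78) (nat_lit 76) (nat_lit 0) (XT.lf (nat_lit 0) (nat_lit 6424647326) (nat_lit 152) (nat_lit 2704811877) (nat_lit 76) (nat_lit 68476230800) (nat_lit 3) (nat_lit 5) (nat_lit 5) (nat_lit 5) (nat_lit 4) (nat_lit 4) (nat_lit 395) (nat_lit 229) (nat_lit 156)) (XT.lf (nat_lit 0) (nat_lit 1705134546) (nat_lit 76) (nat_lit 6921426247) (nat_lit 152) (nat_lit 71229530621) (nat_lit 2) (nat_lit 5) (nat_lit 3) (nat_lit 5) (nat_lit 4) (nat_lit 4) (nat_lit 396) (nat_lit 229) (nat_lit 155))))))) (XT.nd (nat_lit 35022) (nat_lit 0) (nat_lit 1444) (XT.nd (nat_lit 390) (nat_lit 0) (nat_lit 0) (XT.nd (nat_lit 156) (nat_lit 0) (nat_lit 0) (XT.nd (nat_lit 78) (nat_lit 0) (nat_lit 0) (XT.lf (nat_lit 0) (nat_lit 6278285030) (nat_lit 76) (nat_lit 4629725338) (nat_lit 152) (nat_lit 71265600605) (nat_lit 2) (nat_lit 5) (nat_lit 3) (nat_lit 5) (nat_lit 4) (nat_lit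 4) (nat_lit 397) (nat_lit 229) (nat_lit 154)) (XT.lf (nat_lit 0) (nat_lit 10964804470) (nat_lit 76) (nat_lit 2279667313) (nat_lit 152) (nat_lit 71316597443) (nat_lit 2) (nat_lit 5) (nat_lit 3) (nat_lit 5) (nat_lit 4) (nat_lit 4) (nat_lit 398) (nat_lit 229) (nat_lit 153))) (XT.nd (nat_lit 78) (nat_lit 0) (nat_lit 0) (XT.lf (nat_lit 0) (nat_lit 15639243953) (nat_lit 152) (nat_lit 71253021762) (nat_lit 0) (nat_lit 128248870) (nat_lit 2) (nat_lit 5) (nat_lit 4) (nat_lit 4) (nat_lit 2) (nat_lit 4) (nat_lit 399) (nat_lit 229) (nat_lit 152)) (XT.nd (nat_lit 78) (nat_lit 0) (nat_lit 0) (XT.lf (nat_lit 0) (nat_lit 18115675460) (nat_lit 152) (nat_lit 68884805532) (nat_lit 0) (nat_lit 2552977403) (nat_lit 2) (nat_lit 5) (nat_lit 4) (nat_lit 4) (nat_lit 2) (nat_lit 4) (nat_lit 400) (nat_lit 229) (nat_lit 151)) (XT.lf (nat_lit 0) (nat_lit 20654016619) (nat_lit 152) (nat_lit 66467633195) (nat_lit 0) (nat_lit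 5041121502) (nat_lit 2) (nat_lit 5) (nat_lit 4) (nat_lit 4) (nat_lit 2) (nat_lit 4) (nat_lit 401) (nat_lit 229) (nat_lit 150))))) (XT.nd (nat_lit 34398) (nat_lit 0) (nat_lit 2508) (XT.nd (nat_lit 34242) (nat_lit 0) (nat_lit 2736) (XT.lf (nat_lit 0) (nat_lit 23256485400) (nat_lit 152) (nat_lit 63999392658) (nat_lit 0) (nat_lit 7594855273) (nat_lit 2) (nat_lit 5) (nat_lit 4) (nat_lit 4) (nat_lit 2) (nat_lit 4) (nat_lit 402) (nat_lit 229) (nat_lit 149)) (XT.nd (nat_lit 78) (nat_lit 228) (nat_lit 0) (XT.lf (nat_lit 0) (nat_lit 1816699064) (nat_lit 304) (nat_lit 2219674091) (nat_lit 0) (nat_lit 1816699064) (nat_lit 41) (nat_lit 5) (nat_lit 45) (nat_lit 4) (nat_lit 41) (nat_lit 4) (nat_lit 320) (nat_lit 230) (nat_lit 230)) (XT.lf (nat_lit 0) (nat_lit 1745270658) (nat_lit 228) (nat_lit 5429261577) (nat_lit 228) (nat_lit 4752627192) (nat_lit 38) (nat_lit 4) (nat_lit 41) (nat_lit 5) (nat_lit 41) (nat_lit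 4) (nat_lit 321) (nat_lit 230) (nat_lit 229)))) (XT.nd (nat_lit 78) (nat_lit 228) (nat_lit 0) (XT.lf (nat_lit 0) (nat_lit 8082597613) (nat_lit 228) (nat_lit 2703482260) (nat_lit 228) (nat_lit 1369921287) (nat_lit 38) (nat_lit 4) (nat_lit 41) (nat_lit 5) (nat_lit 41) (nat_lit 4) (nat_lit 322) (nat_lit 230) (nat_lit 228)) (XT.nd (nat_lit 78) (nat_lit 0) (nat_lit 0) (XT.lf (nat_lit 0) (nat_lit 2015163890) (nat_lit 228) (nat_lit 10276556406) (nat_lit 0) (nat_lit 101228185) (nat_lit 35) (nat_lit 5) (nat_lit 38) (nat_lit 4) (nat_lit 35) (nat_lit 4) (nat_lit 323) (nat_lit 230) (nat_lit 227)) (XT.lf (nat_lit 0) (nat_lit 5464119947) (nat_lit 228) (nat_lit 4223889794) (nat_lit 0) (nat_lit 2949003355) (nat_lit 35) (nat_lit 5) (nat_lit 38) (nat_lit 4) (nat_lit 35) (nat_lit 4) (nat_lit 324) (nat_lit 230) (nat_lit 226)))))) (XT.nd (nat_lit 468) (nat_lit 456) (nat_lit 0) (XT.nd (nat_lit 234) (nat_lit 152)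 (nat_lit 0) (XT.nd (nat_lit 78) (nat_lit 228) (nat_lit 0) (XT.lf (nat_lit 0) (nat_lit 1928806496) (nat_lit 228) (nat_lit 7030108752) (nat_lit 228) (nat_lit 3931321395) (nat_lit 32) (nat_lit 4) (nat_lit 35) (nat_lit 5) (nat_lit 35) (nat_lit 4) (nat_lit 325) (nat_lit 230) (nat_lit 225)) (XT.nd (nat_lit 78) (nat_lit 228) (nat_lit 0) (XT.lf (nat_lit 0) (nat_lit 8234649504) (nat_lit 228) (nat_lit 4291471677) (nat_lit 228) (nat_lit 626013675) (nat_lit 32) (nat_lit 4) (nat_lit 35) (nat_lit 5) (nat_lit 35) (nat_lit 4) (nat_lit 326) (nat_lit 230) (nat_lit 224)) (XT.lf (nat_lit 0) (nat_lit 1188105381) (nat_lit 152) (nat_lit 1473830115) (nat_lit 228) (nat_lit 10761121215) (nat_lit 29) (nat_lit 5) (nat_lit 31) (nat_lit 5) (nat_lit 32) (nat_lit 4) (nat_lit 327) (nat_lit 230) (nat_lit 223)))) (XT.nd (nat_lit 78) (nat_lit 152) (nat_lit 0) (XT.lf (nat_lit 0) (nat_lit 6026733403) (nat_lit 228) (nat_lit 6260248187)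 (nat_lit 0) (nat_lit 1415310967) (nat_lit 29) (nat_lit 5) (nat_lit 32) (nat_lit 4) (nat_lit 29) (nat_lit 4) (nat_lit 328) (nat_lit 230) (nat_lit 222)) (XT.nd (nat_lit 78) (nat_lit 152) (nat_lit 0) (XT.lf (nat_lit 0) (nat_lit 9436110164) (nat_lit 228) (nat_lit 234371322) (nat_lit 0) (nat_lit 4321208200) (nat_lit 29) (nat_lit 5) (nat_lit 32) (nat_lit 4) (nat_lit 29) (nat_lit 4) (nat_lit 329) (nat_lit 230) (nat_lit 221)) (XT.lf (nat_lit 0) (nat_lit 5978779470) (nat_lit 152) (nat_lit 6957569707) (nat_lit 152) (nat_lit 1353852667) (nat_lit 27) (nat_lit 4) (nat_lit 29) (nat_lit 5) (nat_lit 29) (nat_lit 4) (nat_lit 330) (nat_lit 230) (nat_lit 220))))) (XT.nd (nat_lit 234) (nat_lit 228) (nat_lit 0) (XT.nd (nat_lit 78) (nat_lit 152) (nat_lit 0) (XT.lf (nat_lit 0) (nat_lit 1839691480) (nat_lit 228) (nat_lit 2343721079) (nat_lit 76) (nat_lit 10415770610) (nat_lit 26) (nat_lit 5) (nat_lit 29) (nat_lit 5)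 (nat_lit 27) (nat_lit 4) (nat_lit 331) (nat_lit 230) (nat_lit 219)) (XT.nd (nat_lit 78) (nat_lit 0) (nat_lit 0) (XT.lf (nat_lit 0) (nat_lit 3755568881) (nat_lit 152) (nat_lit 1315671885) (nat_lit 228) (nat_lit 9846791594) (nat_lit 24) (nat_lit 5) (nat_lit 26) (nat_lit 5) (nat_lit 27) (nat_lit 4) (nat_lit 332) (nat_lit 230) (nat_lit 218)) (XT.lf (nat_lit 0) (nat_lit 8373224966) (nat_lit 228) (nat_lit 5283770863) (nat_lit 0) (nat_lit 1590326989) (nat_lit 24) (nat_lit 5) (nat_lit 27) (nat_lit 4) (nat_lit 24) (nat_lit 4) (nat_lit 333) (nat_lit 230) (nat_lit 217)))) (XT.nd (nat_lit 78) (nat_lit 76) (nat_lit 0) (XT.lf (nat_lit 0) (nat_lit 666470426) (nat_lit 152) (nat_lit 11062998901) (nat_lit 152) (nat_lit 3858444746) (nat_lit 22) (nat_lit 4) (nat_lit 24) (nat_lit 5) (nat_lit 24) (nat_lit 4) (nat_lit 334) (nat_lit 230) (nat_lit 216)) (XT.nd (nat_lit 78) (nat_lit 76) (nat_lit 0) (XT.lf (nat_lit 0)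 (nat_lit 6799767551) (nat_lit 152) (nat_lit 8376630262) (nat_lit 152) (nat_lit 762701175) (nat_lit 22) (nat_lit 4) (nat_lit 24) (nat_lit 5) (nat_lit 24) (nat_lit 4) (nat_lit 335) (nat_lit 230) (nat_lit 215)) (XT.lf (nat_lit 0) (nat_lit 2316381614) (nat_lit 228) (nat_lit 3309125798) (nat_lit 76) (nat_lit 10676549775) (nat_lit 21) (nat_lit 5) (nat_lit 24) (nat_lit 5) (nat_lit 22) (nat_lit 4) (nat_lit 336) (nat_lit 230) (nat_lit 214))))))))
noncomputable def xc38 : XT := (XT.nd (nat_lit 1716) (nat_lit 304) (nat_lit 0) (XT.nd (nat_lit 858) (nat_lit 380) (nat_lit 0) (XT.nd (nat_lit 390) (nat_lit 228) (nat_lit 0) (XT.nd (nat_lit 156) (nat_lit 228) (nat_lit 0) (XT.nd (nat_lit 78) (nat_lit 0) (nat_lit 0) (XT.lf (nat_lit 0) (nat_lit 2640889568) (nat_lit 76) (nat_lit 2796620372) (nat_lit 152) (nat_lit 11239286961) (nat_lit 20) (nat_lit 5) (nat_lit 21) (nat_lit 5) (nat_lit 22) (nat_lit 4) (nat_lit 337)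 (nat_lit 230) (nat_lit 213)) (XT.lf (nat_lit 0) (nat_lit 8627206556) (nat_lit 152) (nat_lit 8325584704) (nat_lit 0) (nat_lit 110806883) (nat_lit 20) (nat_lit 5) (nat_lit 22) (nat_lit 4) (nat_lit 20) (nat_lit 4) (nat_lit 338) (nat_lit 230) (nat_lit 212))) (XT.nd (nat_lit 78) (nat_lit 228) (nat_lit 0) (XT.lf (nat_lit 0) (nat_lit 11882091104) (nat_lit 152) (nat_lit 2568331798) (nat_lit 0) (nat_lit 3012561019) (nat_lit 20) (nat_lit 5) (nat_lit 22) (nat_lit 4) (nat_lit 20) (nat_lit 4) (nat_lit 339) (nat_lit 230) (nat_lit 211)) (XT.nd (nat_lit 78) (nat_lit 76) (nat_lit 0) (XT.lf (nat_lit 0) (nat_lit 3332799746) (nat_lit 152) (nat_lit 11877361995) (nat_lit 152) (nat_lit 2664986850) (nat_lit 18) (nat_lit 4) (nat_lit 20) (nat_lit 5) (nat_lit 20) (nat_lit 4) (nat_lit 340) (nat_lit 230) (nat_lit 210)) (XT.lf (nat_lit 0) (nat_lit 301627150) (nat_lit 228) (nat_lit 8932931310) (nat_lit 76) (nat_lit 9065986985)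 (nat_lit 17) (nat_lit 5) (nat_lit 20) (nat_lit 5) (nat_lit 18) (nat_lit 4) (nat_lit 341) (nat_lit 230) (nat_lit 209))))) (XT.nd (nat_lit 234) (nat_lit 152) (nat_lit 0) (XT.nd (nat_lit 78) (nat_lit 76) (nat_lit 0) (XT.lf (nat_lit 0) (nat_lit 3248959746) (nat_lit 228) (nat_lit 3273010491) (nat_lit 76) (nat_lit 12217641991) (nat_lit 17) (nat_lit 5) (nat_lit 20) (nat_lit 5) (nat_lit 18) (nat_lit 4) (nat_lit 342) (nat_lit 230) (nat_lit 208)) (XT.nd (nat_lit 78) (nat_lit 0) (nat_lit 0) (XT.lf (nat_lit 0) (nat_lit 2517094231) (nat_lit 76) (nat_lit 3738691386) (nat_lit 152) (nat_lit 12936989620) (nat_lit 16) (nat_lit 5) (nat_lit 17) (nat_lit 5) (nat_lit 18) (nat_lit 4) (nat_lit 343) (nat_lit 230) (nat_lit 207)) (XT.lf (nat_lit 0) (nat_lit 8460134223) (nat_lit 76) (nat_lit 873313161) (nat_lit 152) (nat_lit 10326721598) (nat_lit 16) (nat_lit 5) (nat_lit 17) (nat_lit 5) (nat_lit 18) (nat_lit 4) (nat_lit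 344) (nat_lit 230) (nat_lit 206)))) (XT.nd (nat_lit 78) (nat_lit 152) (nat_lit 0) (XT.lf (nat_lit 0) (nat_lit 12472190426) (nat_lit 152) (nat_lit 5666645910) (nat_lit 0) (nat_lit 2003738844) (nat_lit 16) (nat_lit 5) (nat_lit 18) (nat_lit 4) (nat_lit 16) (nat_lit 4) (nat_lit 345) (nat_lit 230) (nat_lit 205)) (XT.nd (nat_lit 78) (nat_lit 152) (nat_lit 0) (XT.lf (nat_lit 0) (nat_lit 15664010540) (nat_lit 152) (nat_lit 59932665) (nat_lit 0) (nat_lit 4916794550) (nat_lit 16) (nat_lit 5) (nat_lit 18) (nat_lit 4) (nat_lit 16) (nat_lit 4) (nat_lit 346) (nat_lit 230) (nat_lit 204)) (XT.lf (nat_lit 0) (nat_lit 5745514547) (nat_lit 152) (nat_lit 13213016728) (nat_lit 152) (nat_lit 2195155683) (nat_lit 14) (nat_lit 4) (nat_lit 16) (nat_lit 5) (nat_lit 16) (nat_lit 4) (nat_lit 347) (nat_lit 230) (nat_lit 203)))))) (XT.nd (nat_lit 390) (nat_lit 228) (nat_lit 0) (XT.nd (nat_lit 156) (nat_lit 76) (nat_lit 0)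 (XT.nd (nat_lit 78) (nat_lit 0) (nat_lit 0) (XT.lf (nat_lit 0) (nat_lit 609229604) (nat_lit 228) (nat_lit 10043887138) (nat_lit 76) (nat_lit 11030188831) (nat_lit 13) (nat_lit 5) (nat_lit 16) (nat_lit 5) (nat_lit 14) (nat_lit 4) (nat_lit 348) (nat_lit 230) (nat_lit 202)) (XT.lf (nat_lit 0) (nat_lit 3406855949) (nat_lit 228) (nat_lit 4619814580) (nat_lit 76) (nat_lit 14202939169) (nat_lit 13) (nat_lit 5) (nat_lit 16) (nat_lit 5) (nat_lit 14) (nat_lit 4) (nat_lit 349) (nat_lit 230) (nat_lit 201))) (XT.nd (nat_lit 78) (nat_lit 0) (nat_lit 0) (XT.lf (nat_lit 0) (nat_lit 907596397) (nat_lit 76) (nat_lit 5344131248) (nat_lit 152) (nat_lit 16541720346) (nat_lit 12) (nat_lit 5) (nat_lit 13) (nat_lit 5) (nat_lit 14) (nat_lit 4) (nat_lit 350) (nat_lit 230) (nat_lit 200)) (XT.nd (nat_lit 78) (nat_lit 0) (nat_lit 0) (XT.lf (nat_lit 0) (nat_lit 6619192968) (nat_lit 76) (nat_lit 2564584528) (nat_lit 152)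 (nat_lit 14190412219) (nat_lit 12) (nat_lit 5) (nat_lit 13) (nat_lit 5) (nat_lit 14) (nat_lit 4) (nat_lit 351) (nat_lit 230) (nat_lit 199)) (XT.lf (nat_lit 0) (nat_lit 12162848939) (nat_lit 152) (nat_lit 11548252356) (nat_lit 0) (nat_lit 262522576) (nat_lit 12) (nat_lit 5) (nat_lit 14) (nat_lit 4) (nat_lit 12) (nat_lit 4) (nat_lit 352) (nat_lit 230) (nat_lit 198))))) (XT.nd (nat_lit 234) (nat_lit 76) (nat_lit 0) (XT.nd (nat_lit 78) (nat_lit 152) (nat_lit 0) (XT.lf (nat_lit 0) (nat_lit 15214152592) (nat_lit 152) (nat_lit 6283676387) (nat_lit 0) (nat_lit 3093767032) (nat_lit 12) (nat_lit 5) (nat_lit 14) (nat_lit 4) (nat_lit 12) (nat_lit 4) (nat_lit 353) (nat_lit 230) (nat_lit 197)) (XT.nd (nat_lit 78) (nat_lit 152) (nat_lit 0) (XT.lf (nat_lit 0) (nat_lit 18315702290) (nat_lit 152) (nat_lit 932016368) (nat_lit 0) (nat_lit 5981667023) (nat_lit 12) (nat_lit 5) (nat_lit 14) (nat_lit 4) (nat_lit 12)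 (nat_lit 4) (nat_lit 354) (nat_lit 230) (nat_lit 196)) (XT.lf (nat_lit 0) (nat_lit 4601189690) (nat_lit 152) (nat_lit 16913247882) (nat_lit 152) (nat_lit 4371785716) (nat_lit 10) (nat_lit 4) (nat_lit 12) (nat_lit 5) (nat_lit 12) (nat_lit 4) (nat_lit 355) (nat_lit 230) (nat_lit 195)))) (XT.nd (nat_lit 78) (nat_lit 76) (nat_lit 0) (XT.lf (nat_lit 0) (nat_lit 10251382216) (nat_lit 152) (nat_lit 14527586796) (nat_lit 152) (nat_lit 1784739290) (nat_lit 10) (nat_lit 4) (nat_lit 12) (nat_lit 5) (nat_lit 12) (nat_lit 4) (nat_lit 356) (nat_lit 230) (nat_lit 194)) (XT.nd (nat_lit 78) (nat_lit 0) (nat_lit 0) (XT.lf (nat_lit 0) (nat_lit 823907497) (nat_lit 228) (nat_lit 11265835031) (nat_lit 76) (nat_lit 15172721969) (nat_lit 9) (nat_lit 5) (nat_lit 12) (nat_lit 5) (nat_lit 10) (nat_lit 4) (nat_lit 357) (nat_lit 230) (nat_lit 193)) (XT.lf (nat_lit 0) (nat_lit 3437232829) (nat_lit 228) (nat_lit 6150609606)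 (nat_lit 76) (nat_lit 18394976242) (nat_lit 9) (nat_lit 5) (nat_lit 12) (nat_lit 5) (nat_lit 10) (nat_lit 4) (nat_lit 358) (nat_lit 230) (nat_lit 192))))))) (XT.nd (nat_lit 858) (nat_lit 152) (nat_lit 0) (XT.nd (nat_lit 390) (nat_lit 76) (nat_lit 0) (XT.nd (nat_lit 156) (nat_lit 0) (nat_lit 0) (XT.nd (nat_lit 78) (nat_lit 76) (nat_lit 0) (XT.lf (nat_lit 0) (nat_lit 6092346882) (nat_lit 228) (nat_lit 945024190) (nat_lit 76) (nat_lit 21688543880) (nat_lit 9) (nat_lit 5) (nat_lit 12) (nat_lit 5) (nat_lit 10) (nat_lit 4) (nat_lit 359) (nat_lit 230) (nat_lit 191)) (XT.lf (nat_lit 0) (nat_lit 4442152173) (nat_lit 76) (nat_lit 4392118172) (nat_lit 152) (nat_lit 20656851270) (nat_lit 8) (nat_lit 5) (nat_lit 9) (nat_lit 5) (nat_lit 10) (nat_lit 4) (nat_lit 360) (nat_lit 230) (nat_lit 190))) (XT.nd (nat_lit 78) (nat_lit 0) (nat_lit 0) (XT.lf (nat_lit 0) (nat_lit 9949657473) (nat_lit 76) (nat_lit 1683244430)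 (nat_lit 152) (nat_lit 18647180302) (nat_lit 8) (nat_lit 5) (nat_lit 9) (nat_lit 5) (nat_lit 10) (nat_lit 4) (nat_lit 361) (nat_lit 230) (nat_lit 189)) (XT.nd (nat_lit 78) (nat_lit 0) (nat_lit 0) (XT.lf (nat_lit 0) (nat_lit 14491823580) (nat_lit 152) (nat_lit 15540669355) (nat_lit 0) (nat_lit 1060959072) (nat_lit 8) (nat_lit 5) (nat_lit 10) (nat_lit 4) (nat_lit 8) (nat_lit 4) (nat_lit 362) (nat_lit 230) (nat_lit 188)) (XT.lf (nat_lit 0) (nat_lit 17419868998) (nat_lit 152) (nat_lit 10681853626) (nat_lit 0) (nat_lit 3830029044) (nat_lit 8) (nat_lit 5) (nat_lit 10) (nat_lit 4) (nat_lit 8) (nat_lit 4) (nat_lit 363) (nat_lit 230) (nat_lit 187))))) (XT.nd (nat_lit 234) (nat_lit 0) (nat_lit 0) (XT.nd (nat_lit 78) (nat_lit 76) (nat_lit 0) (XT.lf (nat_lit 0) (nat_lit 20403416269) (nat_lit 152) (nat_lit 5733551601) (nat_lit 0) (nat_lit 6659231221) (nat_lit 8) (nat_lit 5) (nat_lit 10) (nat_lit 4) (nat_lit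 8) (nat_lit 4) (nat_lit 364) (nat_lit 230) (nat_lit 186)) (XT.nd (nat_lit 78) (nat_lit 76) (nat_lit 0) (XT.lf (nat_lit 0) (nat_lit 23445072376) (nat_lit 152) (nat_lit 691439523) (nat_lit 0) (nat_lit 9551037723) (nat_lit 8) (nat_lit 5) (nat_lit 10) (nat_lit 4) (nat_lit 8) (nat_lit 4) (nat_lit 365) (nat_lit 230) (nat_lit 185)) (XT.lf (nat_lit 0) (nat_lit 4537429939) (nat_lit 76) (nat_lit 22053681689) (nat_lit 76) (nat_lit 8014161983) (nat_lit 7) (nat_lit 4) (nat_lit 8) (nat_lit 5) (nat_lit 8) (nat_lit 4) (nat_lit 366) (nat_lit 230) (nat_lit 184)))) (XT.nd (nat_lit 78) (nat_lit 0) (nat_lit 0) (XT.lf (nat_lit 0) (nat_lit 9884811813) (nat_lit 76) (nat_lit 19923602271) (nat_lit 76) (nat_lit 5742834939) (nat_lit 7) (nat_lit 4) (nat_lit 8) (nat_lit 5) (nat_lit 8) (nat_lit 4) (nat_lit 367) (nat_lit 230) (nat_lit 183)) (XT.nd (nat_lit 78) (nat_lit 0) (nat_lit 0) (XT.lf (nat_lit 0) (nat_lit 15341617565)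 (nat_lit 76) (nat_lit 17751394592) (nat_lit 76) (nat_lit 3433493643) (nat_lit 7) (nat_lit 4) (nat_lit 8) (nat_lit 5) (nat_lit 8) (nat_lit 4) (nat_lit 368) (nat_lit 230) (nat_lit 182)) (XT.lf (nat_lit 0) (nat_lit 20912615278) (nat_lit 76) (nat_lit 15535160607) (nat_lit 76) (nat_lit 1084120225) (nat_lit 7) (nat_lit 4) (nat_lit 8) (nat_lit 5) (nat_lit 8) (nat_lit 4) (nat_lit 369) (nat_lit 230) (nat_lit 181)))))) (XT.nd (nat_lit 468) (nat_lit 0) (nat_lit 0) (XT.nd (nat_lit 234) (nat_lit 76) (nat_lit 0) (XT.nd (nat_lit 78) (nat_lit 0) (nat_lit 0) (XT.lf (nat_lit 0) (nat_lit 1281827289) (nat_lit 152) (nat_lit 11978192570) (nat_lit 76) (nat_lit 25307901583) (nat_lit 6) (nat_lit 5) (nat_lit 8) (nat_lit 5) (nat_lit 7) (nat_lit 4) (nat_lit 370) (nat_lit 230) (nat_lit 180)) (XT.nd (nat_lit 78) (nat_lit 0) (nat_lit 0) (XT.lf (nat_lit 0) (nat_lit 3669932305) (nat_lit 152) (nat_lit 7255836073) (nat_lit 76)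 (nat_lit 28709770644) (nat_lit 6) (nat_lit 5) (nat_lit 8) (nat_lit 5) (nat_lit 7) (nat_lit 4) (nat_lit 371) (nat_lit 230) (nat_lit 179)) (XT.lf (nat_lit 0) (nat_lit 6103436607) (nat_lit 152) (nat_lit 2437663783) (nat_lit 76) (nat_lit 32194893966) (nat_lit 6) (nat_lit 5) (nat_lit 8) (nat_lit 5) (nat_lit 7) (nat_lit 4) (nat_lit 372) (nat_lit 230) (nat_lit 178)))) (XT.nd (nat_lit 78) (nat_lit 0) (nat_lit 0) (XT.lf (nat_lit 0) (nat_lit 2529901849) (nat_lit 76) (nat_lit 6078883671) (nat_lit 152) (nat_lit 33260733917) (nat_lit 5) (nat_lit 5) (nat_lit 6) (nat_lit 5) (nat_lit 7) (nat_lit 4) (nat_lit 373) (nat_lit 230) (nat_lit 177)) (XT.nd (nat_lit 78) (nat_lit 0) (nat_lit 0) (XT.lf (nat_lit 0) (nat_lit 7652381310) (nat_lit 76) (nat_lit 3536368105) (nat_lit 152) (nat_lit 31848337875) (nat_lit 5) (nat_lit 5) (nat_lit 6) (nat_lit 5) (nat_lit 7) (nat_lit 4) (nat_lit 374) (nat_lit 230) (nat_lit 176)) (XT.lf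 (nat_lit 0) (nat_lit 12885736263) (nat_lit 76) (nat_lit 935947700) (nat_lit 152) (nat_lit 30418751114) (nat_lit 5) (nat_lit 5) (nat_lit 6) (nat_lit 5) (nat_lit 7) (nat_lit 4) (nat_lit 375) (nat_lit 230) (nat_lit 175))))) (XT.nd (nat_lit 234) (nat_lit 0) (nat_lit 0) (XT.nd (nat_lit 78) (nat_lit 0) (nat_lit 0) (XT.lf (nat_lit 0) (nat_lit 16526468175) (nat_lit 152) (nat_lit 27262653115) (nat_lit 0) (nat_lit 1690995626) (nat_lit 5) (nat_lit 5) (nat_lit 7) (nat_lit 4) (nat_lit 5) (nat_lit 4) (nat_lit 376) (nat_lit 230) (nat_lit 174)) (XT.nd (nat_lit 78) (nat_lit 0) (nat_lit 0) (XT.lf (nat_lit 0) (nat_lit 19298470289) (nat_lit 152) (nat_lit 23097998142) (nat_lit 0) (nat_lit 4360957449) (nat_lit 5) (nat_lit 5) (nat_lit 7) (nat_lit 4) (nat_lit 5) (nat_lit 4) (nat_lit 377) (nat_lit 230) (nat_lit 173)) (XT.lf (nat_lit 0) (nat_lit 22131115540) (nat_lit 152) (nat_lit 18848097973) (nat_lit 0) (nat_lit 7094534458)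 (nat_lit 5) (nat_lit 5) (nat_lit 7) (nat_lit 4) (nat_lit 5) (nat_lit 4) (nat_lit 378) (nat_lit 230) (nat_lit 172)))) (XT.nd (nat_lit 78) (nat_lit 0) (nat_lit 0) (XT.lf (nat_lit 0) (nat_lit 25026879054) (nat_lit 152) (nat_lit 14509239105) (nat_lit 0) (nat_lit 9894115213) (nat_lit 5) (nat_lit 5) (nat_lit 7) (nat_lit 4) (nat_lit 5) (nat_lit 4) (nat_lit 379) (nat_lit 230) (nat_lit 171)) (XT.nd (nat_lit 78) (nat_lit 0) (nat_lit 0) (XT.lf (nat_lit 0) (nat_lit 27988291112) (nat_lit 152) (nat_lit 10077630300) (nat_lit 0) (nat_lit 12762145951) (nat_lit 5) (nat_lit 5) (nat_lit 7) (nat_lit 4) (nat_lit 5) (nat_lit 4) (nat_lit 380) (nat_lit 230) (nat_lit 170)) (XT.lf (nat_lit 0) (nat_lit 31017939354) (nat_lit 152) (nat_lit 5549399280) (nat_lit 0) (nat_lit 15701132717) (nat_lit 5) (nat_lit 5) (nat_lit 7) (nat_lit 4) (nat_lit 5) (nat_lit 4) (nat_lit 381) (nat_lit 230) (nat_lit 169))))))))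
noncomputable def xc39 : XT := (XT.nd (nat_lit 35724) (nat_lit 0) (nat_lit 1140) (XT.nd (nat_lit 858) (nat_lit 152) (nat_lit 0) (XT.nd (nat_lit 390) (nat_lit 0) (nat_lit 0) (XT.nd (nat_lit 156) (nat_lit 0) (nat_lit 0) (XT.nd (nat_lit 78) (nat_lit 76) (nat_lit 0) (XT.lf (nat_lit 0) (nat_lit 34118471047) (nat_lit 152) (nat_lit 920589338) (nat_lit 0) (nat_lit 18713643559) (nat_lit 5) (nat_lit 5) (nat_lit 7) (nat_lit 4) (nat_lit 5) (nat_lit 4) (nat_lit 382) (nat_lit 230) (nat_lit 168)) (XT.lf (nat_lit 0) (nat_lit 3888727190) (nat_lit 76) (nat_lit 33441249025) (nat_lit 76) (nat_lit 17950964402) (nat_lit 4) (nat_lit 4) (nat_lit 5) (nat_lit 5) (nat_lit 5) (nat_lit 4) (nat_lit 383) (nat_lit 230) (nat_lit 167))) (XT.nd (nat_lit 78) (nat_lit 0) (nat_lit 0) (XT.lf (nat_lit 0) (nat_lit 8827289304) (nat_lit 76) (nat_lit 31800649896) (nat_lit 76) (nat_lit 16227397179) (nat_lit 4) (nat_lit 4) (nat_lit 5) (nat_lit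 5) (nat_lit 5) (nat_lit 4) (nat_lit 384) (nat_lit 230) (nat_lit 166)) (XT.nd (nat_lit 78) (nat_lit 0) (nat_lit 0) (XT.lf (nat_lit 0) (nat_lit 13881090717) (nat_lit 76) (nat_lit 30125125611) (nat_lit 76) (nat_lit 14471321347) (nat_lit 4) (nat_lit 4) (nat_lit 5) (nat_lit 5) (nat_lit 5) (nat_lit 4) (nat_lit 385) (nat_lit 230) (nat_lit 165)) (XT.lf (nat_lit 0) (nat_lit 19054547372) (nat_lit 76) (nat_lit 28413212121) (nat_lit 76) (nat_lit 12681202472) (nat_lit 4) (nat_lit 4) (nat_lit 5) (nat_lit 5) (nat_lit 5) (nat_lit 4) (nat_lit 386) (nat_lit 230) (nat_lit 164))))) (XT.nd (nat_lit 234) (nat_lit 0) (nat_lit 0) (XT.nd (nat_lit 78) (nat_lit 0) (nat_lit 0) (XT.lf (nat_lit 0) (nat_lit 24352179766) (nat_lit 76) (nat_lit 26663413579) (nat_lit 76) (nat_lit 10855476371) (nat_lit 4) (nat_lit 4) (nat_lit 5) (nat_lit 5) (nat_lit 5) (nat_lit 4) (nat_lit 387) (nat_lit 230) (nat_lit 163)) (XT.nd (nat_lit 78)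 (nat_lit 0) (nat_lit 0) (XT.lf (nat_lit 0) (nat_lit 29778616898) (nat_lit 76) (nat_lit 24874201034) (nat_lit 76) (nat_lit 8992547749) (nat_lit 4) (nat_lit 4) (nat_lit 5) (nat_lit 5) (nat_lit 5) (nat_lit 4) (nat_lit 388) (nat_lit 230) (nat_lit 162)) (XT.lf (nat_lit 0) (nat_lit 35338600314) (nat_lit 76) (nat_lit 23044011097) (nat_lit 76) (nat_lit 7090788806) (nat_lit 4) (nat_lit 4) (nat_lit 5) (nat_lit 5) (nat_lit 5) (nat_lit 4) (nat_lit 389) (nat_lit 230) (nat_lit 161)))) (XT.nd (nat_lit 78) (nat_lit 0) (nat_lit 0) (XT.lf (nat_lit 0) (nat_lit 41036988253) (nat_lit 76) (nat_lit 21171244573) (nat_lit 76) (nat_lit 5148537810) (nat_lit 4) (nat_lit 4) (nat_lit 5) (nat_lit 5) (nat_lit 5) (nat_lit 4) (nat_lit 390) (nat_lit 230) (nat_lit 160)) (XT.nd (nat_lit 78) (nat_lit 0) (nat_lit 0) (XT.lf (nat_lit 0) (nat_lit 46878759889) (nat_lit 76) (nat_lit 19254265063) (nat_lit 76) (nat_lit 3164097648) (nat_lit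 4) (nat_lit 4) (nat_lit 5) (nat_lit 5) (nat_lit 5) (nat_lit 4) (nat_lit 391) (nat_lit 230) (nat_lit 159)) (XT.lf (nat_lit 0) (nat_lit 52869019681) (nat_lit 76) (nat_lit 17291397538) (nat_lit 76) (nat_lit 1135734344) (nat_lit 4) (nat_lit 4) (nat_lit 5) (nat_lit 5) (nat_lit 5) (nat_lit 4) (nat_lit 392) (nat_lit 230) (nat_lit 158)))))) (XT.nd (nat_lit 390) (nat_lit 0) (nat_lit 0) (XT.nd (nat_lit 156) (nat_lit 76) (nat_lit 0) (XT.nd (nat_lit 78) (nat_lit 0) (nat_lit 0) (XT.lf (nat_lit 0) (nat_lit 920014367) (nat_lit 152) (nat_lit 14351622161) (nat_lit 76) (nat_lit 58083697130) (nat_lit 3) (nat_lit 5) (nat_lit 5) (nat_lit 5) (nat_lit 4) (nat_lit 4) (nat_lit 393) (nat_lit 230) (nat_lit 157)) (XT.lf (nat_lit 0) (nat_lit 3000181548) (nat_lit 152) (nat_lit 10190618839) (nat_lit 76) (nat_lit 62285597390) (nat_lit 3) (nat_lit 5) (nat_lit 5) (nat_lit 5) (nat_lit 4) (nat_lit 4) (nat_lit 394) (nat_lit 230)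 (nat_lit 156))) (XT.nd (nat_lit 78) (nat_lit 76) (nat_lit 0) (XT.lf (nat_lit 0) (nat_lit 5128747085) (nat_lit 152) (nat_lit 5929568715) (nat_lit 76) (nat_lit 66603208998) (nat_lit 3) (nat_lit 5) (nat_lit 5) (nat_lit 5) (nat_lit 4) (nat_lit 4) (nat_lit 395) (nat_lit 230) (nat_lit 155)) (XT.nd (nat_lit 78) (nat_lit 76) (nat_lit 0) (XT.lf (nat_lit 0) (nat_lit 7307570890) (nat_lit 152) (nat_lit 1564748541) (nat_lit 76) (nat_lit 71040304623) (nat_lit 3) (nat_lit 5) (nat_lit 5) (nat_lit 5) (nat_lit 4) (nat_lit 4) (nat_lit 396) (nat_lit 230) (nat_lit 154)) (XT.lf (nat_lit 0) (nat_lit 2965523650) (nat_lit 76) (nat_lit 6601539568) (nat_lit 152) (nat_lit 72663744117) (nat_lit 2) (nat_lit 5) (nat_lit 3) (nat_lit 5) (nat_lit 4) (nat_lit 4) (nat_lit 397) (nat_lit 230) (nat_lit 153))))) (XT.nd (nat_lit 234) (nat_lit 0) (nat_lit 0) (XT.nd (nat_lit 78) (nat_lit 0) (nat_lit 0) (XT.lf (nat_lit 0) (nat_lit 7640648209)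 (nat_lit 76) (nat_lit 4256452567) (nat_lit 152) (nat_lit 72721362387) (nat_lit 2) (nat_lit 5) (nat_lit 3) (nat_lit 5) (nat_lit 4) (nat_lit 4) (nat_lit 398) (nat_lit 230) (nat_lit 152)) (XT.nd (nat_lit 78) (nat_lit 0) (nat_lit 0) (XT.lf (nat_lit 0) (nat_lit 12433568632) (nat_lit 76) (nat_lit 1850810215) (nat_lit 152) (nat_lit 72793759215) (nat_lit 2) (nat_lit 5) (nat_lit 3) (nat_lit 5) (nat_lit 4) (nat_lit 4) (nat_lit 399) (nat_lit 230) (nat_lit 151)) (XT.lf (nat_lit 0) (nat_lit 16736919091) (nat_lit 152) (nat_lit 72269444041) (nat_lit 0) (nat_lit 605440059) (nat_lit 2) (nat_lit 5) (nat_lit 4) (nat_lit 4) (nat_lit 2) (nat_lit 4) (nat_lit 400) (nat_lit 230) (nat_lit 150)))) (XT.nd (nat_lit 78) (nat_lit 0) (nat_lit 0) (XT.lf (nat_lit 0) (nat_lit 19269337781) (nat_lit 152) (nat_lit 69862836714) (nat_lit 0) (nat_lit 3089123739) (nat_lit 2) (nat_lit 5) (nat_lit 4) (nat_lit 4) (nat_lit 2) (nat_lit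 4) (nat_lit 401) (nat_lit 230) (nat_lit 149)) (XT.nd (nat_lit 34086) (nat_lit 0) (nat_lit 3268) (XT.lf (nat_lit 0) (nat_lit 21866056591) (nat_lit 152) (nat_lit 67404853468) (nat_lit 0) (nat_lit 5638527005) (nat_lit 2) (nat_lit 5) (nat_lit 4) (nat_lit 4) (nat_lit 2) (nat_lit 4) (nat_lit 402) (nat_lit 230) (nat_lit 148)) (XT.lf (nat_lit 0) (nat_lit 3057981320) (nat_lit 228) (nat_lit 1292374039) (nat_lit 228) (nat_lit 1292374039) (nat_lit 45) (nat_lit 4) (nat_lit 48) (nat_lit 5) (nat_lit 48) (nat_lit 4) (nat_lit 318) (nat_lit 231) (nat_lit 231))))))) (XT.nd (nat_lit 858) (nat_lit 912) (nat_lit 0) (XT.nd (nat_lit 390) (nat_lit 456) (nat_lit 0) (XT.nd (nat_lit 156) (nat_lit 456) (nat_lit 0) (XT.nd (nat_lit 78) (nat_lit 0) (nat_lit 0) (XT.lf (nat_lit 0) (nat_lit 829166388) (nat_lit 304) (nat_lit 10532184226) (nat_lit 0) (nat_lit 132232971) (nat_lit 41) (nat_lit 5) (nat_lit 45) (nat_lit 4) (nat_lit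 41) (nat_lit 4) (nat_lit 319) (nat_lit 231) (nat_lit 230)) (XT.lf (nat_lit 0) (nat_lit 4290014986) (nat_lit 304) (nat_lit 4500953503) (nat_lit 0) (nat_lit 2916447184) (nat_lit 41) (nat_lit 5) (nat_lit 45) (nat_lit 4) (nat_lit 41) (nat_lit 4) (nat_lit 320) (nat_lit 231) (nat_lit 229))) (XT.nd (nat_lit 78) (nat_lit 228) (nat_lit 0) (XT.lf (nat_lit 0) (nat_lit 1621437922) (nat_lit 228) (nat_lit 6169378525) (nat_lit 228) (nat_lit 4138884135) (nat_lit 38) (nat_lit 4) (nat_lit 41) (nat_lit 5) (nat_lit 41) (nat_lit 4) (nat_lit 321) (nat_lit 231) (nat_lit 228)) (XT.nd (nat_lit 78) (nat_lit 228) (nat_lit 0) (XT.lf (nat_lit 0) (nat_lit 7899540269) (nat_lit 228) (nat_lit 3464252290) (nat_lit 228) (nat_lit 795965097) (nat_lit 38) (nat_lit 4) (nat_lit 41) (nat_lit 5) (nat_lit 41) (nat_lit 4) (nat_lit 322) (nat_lit 231) (nat_lit 227)) (XT.lf (nat_lit 0) (nat_lit 1861786761) (nat_lit 152) (nat_lit 674809429)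 (nat_lit 228) (nat_lit 9861237842) (nat_lit 35) (nat_lit 5) (nat_lit 37) (nat_lit 5) (nat_lit 38) (nat_lit 4) (nat_lit 323) (nat_lit 231) (nat_lit 226))))) (XT.nd (nat_lit 234) (nat_lit 228) (nat_lit 0) (XT.nd (nat_lit 78) (nat_lit 228) (nat_lit 0) (XT.lf (nat_lit 0) (nat_lit 5941543249) (nat_lit 228) (nat_lit 4535607418) (nat_lit 0) (nat_lit 2166121507) (nat_lit 35) (nat_lit 5) (nat_lit 38) (nat_lit 4) (nat_lit 35) (nat_lit 4) (nat_lit 324) (nat_lit 231) (nat_lit 225)) (XT.nd (nat_lit 78) (nat_lit 0) (nat_lit 0) (XT.lf (nat_lit 0) (nat_lit 1552747261) (nat_lit 228) (nat_lit 7843546942) (nat_lit 228) (nat_lit 3501454555) (nat_lit 32) (nat_lit 4) (nat_lit 35) (nat_lit 5) (nat_lit 35) (nat_lit 4) (nat_lit 325) (nat_lit 231) (nat_lit 224)) (XT.lf (nat_lit 0) (nat_lit 7802145787) (nat_lit 228) (nat_lit 5125443387) (nat_lit 228) (nat_lit 233185325) (nat_lit 32) (nat_lit 4) (nat_lit 35) (nat_lit 5)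 (nat_lit 35) (nat_lit 4) (nat_lit 326) (nat_lit 231) (nat_lit 223)))) (XT.nd (nat_lit 78) (nat_lit 0) (nat_lit 0) (XT.lf (nat_lit 0) (nat_lit 677676110) (nat_lit 152) (nat_lit 2329257684) (nat_lit 228) (nat_lit 10425901531) (nat_lit 29) (nat_lit 5) (nat_lit 31) (nat_lit 5) (nat_lit 32) (nat_lit 4) (nat_lit 327) (nat_lit 231) (nat_lit 222)) (XT.nd (nat_lit 78) (nat_lit 0) (nat_lit 0) (XT.lf (nat_lit 0) (nat_lit 6328554395) (nat_lit 228) (nat_lit 6828132191) (nat_lit 0) (nat_lit 556725843) (nat_lit 29) (nat_lit 5) (nat_lit 32) (nat_lit 4) (nat_lit 29) (nat_lit 4) (nat_lit 328) (nat_lit 231) (nat_lit 221)) (XT.lf (nat_lit 0) (nat_lit 9703994833) (nat_lit 228) (nat_lit 856526213) (nat_lit 0) (nat_lit 3443351205) (nat_lit 29) (nat_lit 5) (nat_lit 32) (nat_lit 4) (nat_lit 29) (nat_lit 4) (nat_lit 329) (nat_lit 231) (nat_lit 220)))))) (XT.nd (nat_lit 468) (nat_lit 380) (nat_lit 0) (XT.nd (nat_lit 234)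 (nat_lit 152) (nat_lit 0) (XT.nd (nat_lit 78) (nat_lit 228) (nat_lit 0) (XT.lf (nat_lit 0) (nat_lit 5290503658) (nat_lit 152) (nat_lit 7874166173) (nat_lit 152) (nat_lit 1138944801) (nat_lit 27) (nat_lit 4) (nat_lit 29) (nat_lit 5) (nat_lit 29) (nat_lit 4) (nat_lit 330) (nat_lit 231) (nat_lit 219)) (XT.nd (nat_lit 78) (nat_lit 152) (nat_lit 0) (XT.lf (nat_lit 0) (nat_lit 2017553053) (nat_lit 228) (nat_lit 3100343764) (nat_lit 76) (nat_lit 9495663561) (nat_lit 26) (nat_lit 5) (nat_lit 29) (nat_lit 5) (nat_lit 27) (nat_lit 4) (nat_lit 331) (nat_lit 231) (nat_lit 218)) (XT.lf (nat_lit 0) (nat_lit 2931537977) (nat_lit 152) (nat_lit 2277747480) (nat_lit 228) (nat_lit 9724358246) (nat_lit 24) (nat_lit 5) (nat_lit 26) (nat_lit 5) (nat_lit 27) (nat_lit 4) (nat_lit 332) (nat_lit 231) (nat_lit 217)))) (XT.nd (nat_lit 78) (nat_lit 152) (nat_lit 0) (XT.lf (nat_lit 0) (nat_lit 8470380052) (nat_lit 228) (nat_lit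 6165786179) (nat_lit 0) (nat_lit 628033093) (nat_lit 24) (nat_lit 5) (nat_lit 27) (nat_lit 4) (nat_lit 24) (nat_lit 4) (nat_lit 333) (nat_lit 231) (nat_lit 216)) (XT.nd (nat_lit 78) (nat_lit 152) (nat_lit 0) (XT.lf (nat_lit 0) (nat_lit 11789497945) (nat_lit 228) (nat_lit 278667726) (nat_lit 0) (nat_lit 3537776055) (nat_lit 24) (nat_lit 5) (nat_lit 27) (nat_lit 4) (nat_lit 24) (nat_lit 4) (nat_lit 334) (nat_lit 231) (nat_lit 215)) (XT.lf (nat_lit 0) (nat_lit 5799457113) (nat_lit 152) (nat_lit 9403935050) (nat_lit 152) (nat_lit 754761771) (nat_lit 22) (nat_lit 4) (nat_lit 24) (nat_lit 5) (nat_lit 24) (nat_lit 4) (nat_lit 335) (nat_lit 231) (nat_lit 214))))) (XT.nd (nat_lit 234) (nat_lit 228) (nat_lit 0) (XT.nd (nat_lit 78) (nat_lit 76) (nat_lit 0) (XT.lf (nat_lit 0) (nat_lit 2294420646) (nat_lit 228) (nat_lit 4377374502) (nat_lit 76) (nat_lit 9650241242) (nat_lit 21) (nat_lit 5) (nat_lit 24) (nat_lit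 5) (nat_lit 22) (nat_lit 4) (nat_lit 336) (nat_lit 231) (nat_lit 213)) (XT.nd (nat_lit 78) (nat_lit 0) (nat_lit 0) (XT.lf (nat_lit 0) (nat_lit 1503052118) (nat_lit 76) (nat_lit 3872680189) (nat_lit 152) (nat_lit 11322271483) (nat_lit 20) (nat_lit 5) (nat_lit 21) (nat_lit 5) (nat_lit 22) (nat_lit 4) (nat_lit 337) (nat_lit 231) (nat_lit 212)) (XT.lf (nat_lit 0) (nat_lit 7554374047) (nat_lit 76) (nat_lit 981479567) (nat_lit 152) (nat_lit 8549870900) (nat_lit 20) (nat_lit 5) (nat_lit 21) (nat_lit 5) (nat_lit 22) (nat_lit 4) (nat_lit 338) (nat_lit 231) (nat_lit 211)))) (XT.nd (nat_lit 78) (nat_lit 228) (nat_lit 0) (XT.lf (nat_lit 0) (nat_lit 11753472370) (nat_lit 152) (nat_lit 3810906268) (nat_lit 0) (nat_lit 1921880911) (nat_lit 20) (nat_lit 5) (nat_lit 22) (nat_lit 4) (nat_lit 20) (nat_lit 4) (nat_lit 339) (nat_lit 231) (nat_lit 210)) (XT.nd (nat_lit 78) (nat_lit 76) (nat_lit 0) (XT.lf (nat_lit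 0) (nat_lit 2019705685) (nat_lit 152) (nat_lit 13022194465) (nat_lit 152) (nat_lit 2857743725) (nat_lit 18) (nat_lit 4) (nat_lit 20) (nat_lit 5) (nat_lit 20) (nat_lit 4) (nat_lit 340) (nat_lit 231) (nat_lit 209)) (XT.lf (nat_lit 0) (nat_lit 85677849) (nat_lit 228) (nat_lit 10313689056) (nat_lit 76) (nat_lit 7926566654) (nat_lit 17) (nat_lit 5) (nat_lit 20) (nat_lit 5) (nat_lit 18) (nat_lit 4) (nat_lit 341) (nat_lit 231) (nat_lit 208))))))))
noncomputable def xc40 : XT := (XT.nd (nat_lit 1716) (nat_lit 304) (nat_lit 0) (XT.nd (nat_lit 858) (nat_lit 304) (nat_lit 0) (XT.nd (nat_lit 390) (nat_lit 304) (nat_lit 0) (XT.nd (nat_lit 156) (nat_lit 0) (nat_lit 0) (XT.nd (nat_lit 78) (nat_lit 76) (nat_lit 0) (XT.lf (nat_lit 0) (nat_lit 3006841700) (nat_lit 228) (nat_lit 4697478234) (nat_lit 76) (nat_lit 11061493263) (nat_lit 17) (nat_lit 5) (nat_lit 20) (nat_lit 5) (nat_lit 18) (nat_lit 4) (nat_lit 342)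 (nat_lit 231) (nat_lit 207)) (XT.lf (nat_lit 0) (nat_lit 1020995319) (nat_lit 76) (nat_lit 4952884287) (nat_lit 152) (nat_lit 13246317225) (nat_lit 16) (nat_lit 5) (nat_lit 17) (nat_lit 5) (nat_lit 18) (nat_lit 4) (nat_lit 343) (nat_lit 231) (nat_lit 206))) (XT.nd (nat_lit 78) (nat_lit 0) (nat_lit 0) (XT.lf (nat_lit 0) (nat_lit 6922014468) (nat_lit 76) (nat_lit 2104456423) (nat_lit 152) (nat_lit 10661897998) (nat_lit 16) (nat_lit 5) (nat_lit 17) (nat_lit 5) (nat_lit 18) (nat_lit 4) (nat_lit 344) (nat_lit 231) (nat_lit 205)) (XT.nd (nat_lit 78) (nat_lit 0) (nat_lit 0) (XT.lf (nat_lit 0) (nat_lit 12128880966) (nat_lit 152) (nat_lit 7262525457) (nat_lit 0) (nat_lit 780484090) (nat_lit 16) (nat_lit 5) (nat_lit 18) (nat_lit 4) (nat_lit 16) (nat_lit 4) (nat_lit 345) (nat_lit 231) (nat_lit 204)) (XT.lf (nat_lit 0) (nat_lit 15296916163) (nat_lit 152) (nat_lit 1696000937) (nat_lit 0) (nat_lit 3677874230)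 (nat_lit 16) (nat_lit 5) (nat_lit 18) (nat_lit 4) (nat_lit 16) (nat_lit 4) (nat_lit 346) (nat_lit 231) (nat_lit 203))))) (XT.nd (nat_lit 234) (nat_lit 76) (nat_lit 0) (XT.nd (nat_lit 78) (nat_lit 76) (nat_lit 0) (XT.lf (nat_lit 0) (nat_lit 4037090591) (nat_lit 152) (nat_lit 14514831738) (nat_lit 152) (nat_lit 2633027615) (nat_lit 14) (nat_lit 4) (nat_lit 16) (nat_lit 5) (nat_lit 16) (nat_lit 4) (nat_lit 347) (nat_lit 231) (nat_lit 202)) (XT.nd (nat_lit 78) (nat_lit 0) (nat_lit 0) (XT.lf (nat_lit 0) (nat_lit 156862699) (nat_lit 228) (nat_lit 11818481766) (nat_lit 76) (nat_lit 9740064150) (nat_lit 13) (nat_lit 5) (nat_lit 16) (nat_lit 5) (nat_lit 14) (nat_lit 4) (nat_lit 348) (nat_lit 231) (nat_lit 201)) (XT.lf (nat_lit 0) (nat_lit 2932120664) (nat_lit 228) (nat_lit 6432386662) (nat_lit 76) (nat_lit 12897898407) (nat_lit 13) (nat_lit 5) (nat_lit 16) (nat_lit 5) (nat_lit 14) (nat_lit 4) (nat_lit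 349) (nat_lit 231) (nat_lit 200)))) (XT.nd (nat_lit 78) (nat_lit 76) (nat_lit 0) (XT.lf (nat_lit 0) (nat_lit 5746551115) (nat_lit 228) (nat_lit 959557473) (nat_lit 76) (nat_lit 16121069976) (nat_lit 13) (nat_lit 5) (nat_lit 16) (nat_lit 5) (nat_lit 14) (nat_lit 4) (nat_lit 350) (nat_lit 231) (nat_lit 199)) (XT.nd (nat_lit 78) (nat_lit 0) (nat_lit 0) (XT.lf (nat_lit 0) (nat_lit 4696432190) (nat_lit 76) (nat_lit 3951326051) (nat_lit 152) (nat_lit 14761108010) (nat_lit 12) (nat_lit 5) (nat_lit 13) (nat_lit 5) (nat_lit 14) (nat_lit 4) (nat_lit 351) (nat_lit 231) (nat_lit 198)) (XT.lf (nat_lit 0) (nat_lit 10469815263) (nat_lit 76) (nat_lit 1133629700) (nat_lit 152) (nat_lit 12405577065) (nat_lit 12) (nat_lit 5) (nat_lit 13) (nat_lit 5) (nat_lit 14) (nat_lit 4) (nat_lit 352) (nat_lit 231) (nat_lit 197)))))) (XT.nd (nat_lit 390) (nat_lit 76) (nat_lit 0) (XT.nd (nat_lit 156) (nat_lit 228) (nat_lit 0)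 (XT.nd (nat_lit 78) (nat_lit 0) (nat_lit 0) (XT.lf (nat_lit 0) (nat_lit 14623510064) (nat_lit 152) (nat_lit 8298636723) (nat_lit 0) (nat_lit 1705804033) (nat_lit 12) (nat_lit 5) (nat_lit 14) (nat_lit 4) (nat_lit 12) (nat_lit 4) (nat_lit 353) (nat_lit 231) (nat_lit 196)) (XT.lf (nat_lit 0) (nat_lit 17705310817) (nat_lit 152) (nat_lit 2980863180) (nat_lit 0) (nat_lit 4580177887) (nat_lit 12) (nat_lit 5) (nat_lit 14) (nat_lit 4) (nat_lit 12) (nat_lit 4) (nat_lit 354) (nat_lit 231) (nat_lit 195))) (XT.nd (nat_lit 78) (nat_lit 76) (nat_lit 0) (XT.lf (nat_lit 0) (nat_lit 2478012555) (nat_lit 152) (nat_lit 18386450536) (nat_lit 152) (nat_lit 5059932266) (nat_lit 10) (nat_lit 4) (nat_lit 12) (nat_lit 5) (nat_lit 12) (nat_lit 4) (nat_lit 355) (nat_lit 231) (nat_lit 194)) (XT.nd (nat_lit 78) (nat_lit 76) (nat_lit 0) (XT.lf (nat_lit 0) (nat_lit 8095628135) (nat_lit 152) (nat_lit 16014437973) (nat_lit 152)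 (nat_lit 2492399956) (nat_lit 10) (nat_lit 4) (nat_lit 12) (nat_lit 5) (nat_lit 12) (nat_lit 4) (nat_lit 356) (nat_lit 231) (nat_lit 193)) (XT.lf (nat_lit 0) (nat_lit 111479797) (nat_lit 228) (nat_lit 13485559025) (nat_lit 76) (nat_lit 13704961609) (nat_lit 9) (nat_lit 5) (nat_lit 12) (nat_lit 5) (nat_lit 10) (nat_lit 4) (nat_lit 357) (nat_lit 231) (nat_lit 192))))) (XT.nd (nat_lit 234) (nat_lit 0) (nat_lit 0) (XT.nd (nat_lit 78) (nat_lit 76) (nat_lit 0) (XT.lf (nat_lit 0) (nat_lit 2706770134) (nat_lit 228) (nat_lit 8401415754) (nat_lit 76) (nat_lit 16914726097) (nat_lit 9) (nat_lit 5) (nat_lit 12) (nat_lit 5) (nat_lit 10) (nat_lit 4) (nat_lit 358) (nat_lit 231) (nat_lit 191)) (XT.nd (nat_lit 78) (nat_lit 76) (nat_lit 0) (XT.lf (nat_lit 0) (nat_lit 5344374485) (nat_lit 228) (nat_lit 3226007187) (nat_lit 76) (nat_lit 20196167731) (nat_lit 9) (nat_lit 5) (nat_lit 12) (nat_lit 5) (nat_lit 10) (nat_lit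 4) (nat_lit 359) (nat_lit 231) (nat_lit 190)) (XT.lf (nat_lit 0) (nat_lit 2085892145) (nat_lit 76) (nat_lit 5960756278) (nat_lit 152) (nat_lit 21486312517) (nat_lit 8) (nat_lit 5) (nat_lit 9) (nat_lit 5) (nat_lit 10) (nat_lit 4) (nat_lit 360) (nat_lit 231) (nat_lit 189)))) (XT.nd (nat_lit 78) (nat_lit 0) (nat_lit 0) (XT.lf (nat_lit 0) (nat_lit 7564386769) (nat_lit 76) (nat_lit 3264109770) (nat_lit 152) (nat_lit 19493943435) (nat_lit 8) (nat_lit 5) (nat_lit 9) (nat_lit 5) (nat_lit 10) (nat_lit 4) (nat_lit 361) (nat_lit 231) (nat_lit 188)) (XT.nd (nat_lit 78) (nat_lit 0) (nat_lit 0) (XT.lf (nat_lit 0) (nat_lit 13150059848) (nat_lit 76) (nat_lit 510662203) (nat_lit 152) (nat_lit 17475903116) (nat_lit 8) (nat_lit 5) (nat_lit 9) (nat_lit 5) (nat_lit 10) (nat_lit 4) (nat_lit 362) (nat_lit 231) (nat_lit 187)) (XT.lf (nat_lit 0) (nat_lit 16567927879) (nat_lit 152) (nat_lit 13150564032) (nat_lit 0) (nat_lit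 2257072187) (nat_lit 8) (nat_lit 5) (nat_lit 10) (nat_lit 4) (nat_lit 8) (nat_lit 4) (nat_lit 363) (nat_lit 231) (nat_lit 186))))))) (XT.nd (nat_lit 858) (nat_lit 76) (nat_lit 0) (XT.nd (nat_lit 390) (nat_lit 152) (nat_lit 0) (XT.nd (nat_lit 156) (nat_lit 76) (nat_lit 0) (XT.nd (nat_lit 78) (nat_lit 0) (nat_lit 0) (XT.lf (nat_lit 0) (nat_lit 19536008361) (nat_lit 152) (nat_lit 8229177774) (nat_lit 0) (nat_lit 5075303063) (nat_lit 8) (nat_lit 5) (nat_lit 10) (nat_lit 4) (nat_lit 8) (nat_lit 4) (nat_lit 364) (nat_lit 231) (nat_lit 185)) (XT.lf (nat_lit 0) (nat_lit 22562648168) (nat_lit 152) (nat_lit 3213197508) (nat_lit 0) (nat_lit 7956457816) (nat_lit 8) (nat_lit 5) (nat_lit 10) (nat_lit 4) (nat_lit 8) (nat_lit 4) (nat_lit 365) (nat_lit 231) (nat_lit 184))) (XT.nd (nat_lit 78) (nat_lit 0) (nat_lit 0) (XT.lf (nat_lit 0) (nat_lit 1939608406) (nat_lit 76) (nat_lit 23729528232) (nat_lit 76) (nat_lit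 8982090255) (nat_lit 7) (nat_lit 4) (nat_lit 8) (nat_lit 5) (nat_lit 8) (nat_lit 4) (nat_lit 366) (nat_lit 231) (nat_lit 183)) (XT.nd (nat_lit 78) (nat_lit 0) (nat_lit 0) (XT.lf (nat_lit 0) (nat_lit 7261868321) (nat_lit 76) (nat_lit 21610174982) (nat_lit 76) (nat_lit 6725603388) (nat_lit 7) (nat_lit 4) (nat_lit 8) (nat_lit 5) (nat_lit 8) (nat_lit 4) (nat_lit 367) (nat_lit 231) (nat_lit 182)) (XT.lf (nat_lit 0) (nat_lit 12694283821) (nat_lit 76) (nat_lit 19448381059) (nat_lit 76) (nat_lit 4430670032) (nat_lit 7) (nat_lit 4) (nat_lit 8) (nat_lit 5) (nat_lit 8) (nat_lit 4) (nat_lit 368) (nat_lit 231) (nat_lit 181))))) (XT.nd (nat_lit 234) (nat_lit 76) (nat_lit 0) (XT.nd (nat_lit 78) (nat_lit 76) (nat_lit 0) (XT.lf (nat_lit 0) (nat_lit 18241601679) (nat_lit 76) (nat_lit 17242257517) (nat_lit 76) (nat_lit 2095284904) (nat_lit 7) (nat_lit 4) (nat_lit 8) (nat_lit 5) (nat_lit 8) (nat_lit 4) (nat_lit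 369) (nat_lit 231) (nat_lit 180)) (XT.nd (nat_lit 78) (nat_lit 0) (nat_lit 0) (XT.lf (nat_lit 0) (nat_lit 277078223) (nat_lit 152) (nat_lit 14710000506) (nat_lit 76) (nat_lit 23628792894) (nat_lit 6) (nat_lit 5) (nat_lit 8) (nat_lit 5) (nat_lit 7) (nat_lit 4) (nat_lit 370) (nat_lit 231) (nat_lit 179)) (XT.lf (nat_lit 0) (nat_lit 2652255226) (nat_lit 152) (nat_lit 10010232630) (nat_lit 76) (nat_lit 27021399979) (nat_lit 6) (nat_lit 5) (nat_lit 8) (nat_lit 5) (nat_lit 7) (nat_lit 4) (nat_lit 371) (nat_lit 231) (nat_lit 178)))) (XT.nd (nat_lit 78) (nat_lit 76) (nat_lit 0) (XT.lf (nat_lit 0) (nat_lit 5073208059) (nat_lit 152) (nat_lit 5213991041) (nat_lit 76) (nat_lit 30497531092) (nat_lit 6) (nat_lit 5) (nat_lit 8) (nat_lit 5) (nat_lit 7) (nat_lit 4) (nat_lit 372) (nat_lit 231) (nat_lit 177)) (XT.nd (nat_lit 78) (nat_lit 76) (nat_lit 0) (XT.lf (nat_lit 0) (nat_lit 7542052118) (nat_lit 152) (nat_lit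 317084848) (nat_lit 76) (nat_lit 34060223628) (nat_lit 6) (nat_lit 5) (nat_lit 8) (nat_lit 5) (nat_lit 7) (nat_lit 4) (nat_lit 373) (nat_lit 231) (nat_lit 176)) (XT.lf (nat_lit 0) (nat_lit 4778000803) (nat_lit 76) (nat_lit 5328872906) (nat_lit 152) (nat_lit 32980518883) (nat_lit 5) (nat_lit 5) (nat_lit 6) (nat_lit 5) (nat_lit 7) (nat_lit 4) (nat_lit 374) (nat_lit 231) (nat_lit 175)))))) (XT.nd (nat_lit 468) (nat_lit 76) (nat_lit 0) (XT.nd (nat_lit 234) (nat_lit 0) (nat_lit 0) (XT.nd (nat_lit 78) (nat_lit 0) (nat_lit 0) (XT.lf (nat_lit 0) (nat_lit 9990886632) (nat_lit 76) (nat_lit 2737238492) (nat_lit 152) (nat_lit 31562975340) (nat_lit 5) (nat_lit 5) (nat_lit 6) (nat_lit 5) (nat_lit 7) (nat_lit 4) (nat_lit 375) (nat_lit 231) (nat_lit 174)) (XT.nd (nat_lit 78) (nat_lit 0) (nat_lit 0) (XT.lf (nat_lit 0) (nat_lit 15319816974) (nat_lit 76) (nat_lit 85171126) (nat_lit 152) (nat_lit 30126641151) (nat_lit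 5) (nat_lit 5) (nat_lit 6) (nat_lit 5) (nat_lit 7) (nat_lit 4) (nat_lit 376) (nat_lit 231) (nat_lit 173)) (XT.lf (nat_lit 0) (nat_lit 18165079415) (nat_lit 152) (nat_lit 26065892505) (nat_lit 0) (nat_lit 2578332658) (nat_lit 5) (nat_lit 5) (nat_lit 7) (nat_lit 4) (nat_lit 5) (nat_lit 4) (nat_lit 377) (nat_lit 231) (nat_lit 172)))) (XT.nd (nat_lit 78) (nat_lit 0) (nat_lit 0) (XT.lf (nat_lit 0) (nat_lit 20986955654) (nat_lit 152) (nat_lit 21834976723) (nat_lit 0) (nat_lit 5304026138) (nat_lit 5) (nat_lit 5) (nat_lit 7) (nat_lit 4) (nat_lit 5) (nat_lit 4) (nat_lit 378) (nat_lit 231) (nat_lit 171)) (XT.nd (nat_lit 78) (nat_lit 0) (nat_lit 0) (XT.lf (nat_lit 0) (nat_lit 23872263818) (nat_lit 152) (nat_lit 17514549298) (nat_lit 0) (nat_lit 8095952982) (nat_lit 5) (nat_lit 5) (nat_lit 7) (nat_lit 4) (nat_lit 5) (nat_lit 4) (nat_lit 379) (nat_lit 231) (nat_lit 170)) (XT.lf (nat_lit 0) (nat_lit 26823525049)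 (nat_lit 152) (nat_lit 13100835099) (nat_lit 0) (nat_lit 10956552737) (nat_lit 5) (nat_lit 5) (nat_lit 7) (nat_lit 4) (nat_lit 5) (nat_lit 4) (nat_lit 380) (nat_lit 231) (nat_lit 169))))) (XT.nd (nat_lit 234) (nat_lit 0) (nat_lit 0) (XT.nd (nat_lit 78) (nat_lit 76) (nat_lit 0) (XT.lf (nat_lit 0) (nat_lit 29843318121) (nat_lit 152) (nat_lit 8589977482) (nat_lit 0) (nat_lit 13888324958) (nat_lit 5) (nat_lit 5) (nat_lit 7) (nat_lit 4) (nat_lit 5) (nat_lit 4) (nat_lit 381) (nat_lit 231) (nat_lit 168)) (XT.nd (nat_lit 78) (nat_lit 76) (nat_lit 0) (XT.lf (nat_lit 0) (nat_lit 32934281686) (nat_lit 152) (nat_lit 3978034922) (nat_lit 0) (nat_lit 16893831387) (nat_lit 5) (nat_lit 5) (nat_lit 7) (nat_lit 4) (nat_lit 5) (nat_lit 4) (nat_lit 382) (nat_lit 231) (nat_lit 167)) (XT.lf (nat_lit 0) (nat_lit 753730430) (nat_lit 76) (nat_lit 35352631474) (nat_lit 76) (nat_lit 19229213083) (nat_lit 4) (nat_lit 4)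 (nat_lit 5) (nat_lit 5) (nat_lit 5) (nat_lit 4) (nat_lit 383) (nat_lit 231) (nat_lit 166)))) (XT.nd (nat_lit 78) (nat_lit 0) (nat_lit 0) (XT.lf (nat_lit 0) (nat_lit 5676076995) (nat_lit 76) (nat_lit 33719073142) (nat_lit 76) (nat_lit 17515103204) (nat_lit 4) (nat_lit 4) (nat_lit 5) (nat_lit 5) (nat_lit 5) (nat_lit 4) (nat_lit 384) (nat_lit 231) (nat_lit 165)) (XT.nd (nat_lit 78) (nat_lit 0) (nat_lit 0) (XT.lf (nat_lit 0) (nat_lit 10714135156) (nat_lit 76) (nat_lit 32050384583) (nat_lit 76) (nat_lit 15768209259) (nat_lit 4) (nat_lit 4) (nat_lit 5) (nat_lit 5) (nat_lit 5) (nat_lit 4) (nat_lit 385) (nat_lit 231) (nat_lit 164)) (XT.lf (nat_lit 0) (nat_lit 15872307102) (nat_lit 76) (nat_lit 30345107720) (nat_lit 76) (nat_lit 13987004837) (nat_lit 4) (nat_lit 4) (nat_lit 5) (nat_lit 5) (nat_lit 5) (nat_lit 4) (nat_lit 386) (nat_lit 231) (nat_lit 163))))))))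
noncomputable def xc41 : XT := (XT.nd (nat_lit 35568) (nat_lit 0) (nat_lit 1064) (XT.nd (nat_lit 858) (nat_lit 76) (nat_lit 0) (XT.nd (nat_lit 390) (nat_lit 76) (nat_lit 0) (XT.nd (nat_lit 156) (nat_lit 0) (nat_lit 0) (XT.nd (nat_lit 78) (nat_lit 0) (nat_lit 0) (XT.lf (nat_lit 0) (nat_lit 21155099971) (nat_lit 76) (nat_lit 28601752505) (nat_lit 76) (nat_lit 12169933545) (nat_lit 4) (nat_lit 4) (nat_lit 5) (nat_lit 5) (nat_lit 5) (nat_lit 4) (nat_lit 387) (nat_lit 231) (nat_lit 162)) (XT.lf (nat_lit 0) (nat_lit 26567129798) (nat_lit 76) (nat_lit 26818795617) (nat_lit 76) (nat_lit 10315407652) (nat_lit 4) (nat_lit 4) (nat_lit 5) (nat_lit 5) (nat_lit 5) (nat_lit 4) (nat_lit 388) (nat_lit 231) (nat_lit 161))) (XT.nd (nat_lit 78) (nat_lit 0) (nat_lit 0) (XT.lf (nat_lit 0) (nat_lit 32113125540) (nat_lit 76) (nat_lit 24994679134) (nat_lit 76) (nat_lit 8421806696) (nat_lit 4) (nat_lit 4) (nat_lit 5)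 (nat_lit 5) (nat_lit 5) (nat_lit 4) (nat_lit 389) (nat_lit 231) (nat_lit 160)) (XT.nd (nat_lit 78) (nat_lit 0) (nat_lit 0) (XT.lf (nat_lit 0) (nat_lit 37797933212) (nat_lit 76) (nat_lit 23127809166) (nat_lit 76) (nat_lit 6487476077) (nat_lit 4) (nat_lit 4) (nat_lit 5) (nat_lit 5) (nat_lit 5) (nat_lit 4) (nat_lit 390) (nat_lit 231) (nat_lit 159)) (XT.lf (nat_lit 0) (nat_lit 43626520122) (nat_lit 76) (nat_lit 21216554470) (nat_lit 76) (nat_lit 4510725601) (nat_lit 4) (nat_lit 4) (nat_lit 5) (nat_lit 5) (nat_lit 5) (nat_lit 4) (nat_lit 391) (nat_lit 231) (nat_lit 158))))) (XT.nd (nat_lit 234) (nat_lit 0) (nat_lit 0) (XT.nd (nat_lit 78) (nat_lit 76) (nat_lit 0) (XT.lf (nat_lit 0) (nat_lit 49603979211) (nat_lit 76) (nat_lit 19259245015) (nat_lit 76) (nat_lit 2489828011) (nat_lit 4) (nat_lit 4) (nat_lit 5) (nat_lit 5) (nat_lit 5) (nat_lit 4) (nat_lit 392) (nat_lit 231) (nat_lit 157)) (XT.nd (nat_lit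 78) (nat_lit 76) (nat_lit 0) (XT.lf (nat_lit 0) (nat_lit 55735533501) (nat_lit 76) (nat_lit 17254170532) (nat_lit 76) (nat_lit 423017475) (nat_lit 4) (nat_lit 4) (nat_lit 5) (nat_lit 5) (nat_lit 5) (nat_lit 4) (nat_lit 393) (nat_lit 231) (nat_lit 156)) (XT.lf (nat_lit 0) (nat_lit 1658504467) (nat_lit 152) (nat_lit 13524326904) (nat_lit 76) (nat_lit 60351288549) (nat_lit 3) (nat_lit 5) (nat_lit 5) (nat_lit 5) (nat_lit 4) (nat_lit 4) (nat_lit 394) (nat_lit 231) (nat_lit 155)))) (XT.nd (nat_lit 78) (nat_lit 0) (nat_lit 0) (XT.lf (nat_lit 0) (nat_lit 3780371138) (nat_lit 152) (nat_lit 9275129713) (nat_lit 76) (nat_lit 64663952211) (nat_lit 3) (nat_lit 5) (nat_lit 5) (nat_lit 5) (nat_lit 4) (nat_lit 4) (nat_lit 395) (nat_lit 231) (nat_lit 154)) (XT.nd (nat_lit 78) (nat_lit 0) (nat_lit 0) (XT.lf (nat_lit 0) (nat_lit 5952691190) (nat_lit 152) (nat_lit 4921817241) (nat_lit 76) (nat_lit 69096244005)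 (nat_lit 3) (nat_lit 5) (nat_lit 5) (nat_lit 5) (nat_lit 4) (nat_lit 4) (nat_lit 396) (nat_lit 231) (nat_lit 153)) (XT.lf (nat_lit 0) (nat_lit 8177362767) (nat_lit 152) (nat_lit 460585623) (nat_lit 76) (nat_lit 73652036807) (nat_lit 3) (nat_lit 5) (nat_lit 5) (nat_lit 5) (nat_lit 4) (nat_lit 4) (nat_lit 397) (nat_lit 231) (nat_lit 152)))))) (XT.nd (nat_lit 34242) (nat_lit 0) (nat_lit 2736) (XT.nd (nat_lit 156) (nat_lit 0) (nat_lit 0) (XT.nd (nat_lit 78) (nat_lit 0) (nat_lit 0) (XT.lf (nat_lit 0) (nat_lit 4194309387) (nat_lit 76) (nat_lit 6302338638) (nat_lit 152) (nat_lit 74181320289) (nat_lit 2) (nat_lit 5) (nat_lit 3) (nat_lit 5) (nat_lit 4) (nat_lit 4) (nat_lit 398) (nat_lit 231) (nat_lit 151)) (XT.lf (nat_lit 0) (nat_lit 8976489041) (nat_lit 76) (nat_lit 3901381952) (nat_lit 152) (nat_lit 74259958451) (nat_lit 2) (nat_lit 5) (nat_lit 3) (nat_lit 5) (nat_lit 4) (nat_lit 4) (nat_lit 399) (nat_lit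 231) (nat_lit 150))) (XT.nd (nat_lit 78) (nat_lit 0) (nat_lit 0) (XT.lf (nat_lit 0) (nat_lit 13880965386) (nat_lit 76) (nat_lit 1437631423) (nat_lit 152) (nat_lit 74353256644) (nat_lit 2) (nat_lit 5) (nat_lit 3) (nat_lit 5) (nat_lit 4) (nat_lit 4) (nat_lit 400) (nat_lit 231) (nat_lit 149)) (XT.nd (nat_lit 78) (nat_lit 0) (nat_lit 0) (XT.lf (nat_lit 0) (nat_lit 17831446137) (nat_lit 152) (nat_lit 73380718639) (nat_lit 0) (nat_lit 1069775118) (nat_lit 2) (nat_lit 5) (nat_lit 4) (nat_lit 4) (nat_lit 2) (nat_lit 4) (nat_lit 401) (nat_lit 231) (nat_lit 148)) (XT.lf (nat_lit 0) (nat_lit 20422582451) (nat_lit 152) (nat_lit 70932693928) (nat_lit 0) (nat_lit 3614974011) (nat_lit 2) (nat_lit 5) (nat_lit 4) (nat_lit 4) (nat_lit 2) (nat_lit 4) (nat_lit 402) (nat_lit 231) (nat_lit 147))))) (XT.nd (nat_lit 234) (nat_lit 532) (nat_lit 0) (XT.nd (nat_lit 78) (nat_lit 228) (nat_lit 0) (XT.lf (nat_lit 0) (nat_lit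 1180596621) (nat_lit 304) (nat_lit 3084085390) (nat_lit 0) (nat_lit 1180596621) (nat_lit 48) (nat_lit 5) (nat_lit 52) (nat_lit 4) (nat_lit 48) (nat_lit 4) (nat_lit 316) (nat_lit 232) (nat_lit 232)) (XT.nd (nat_lit 78) (nat_lit 228) (nat_lit 0) (XT.lf (nat_lit 0) (nat_lit 5839506870) (nat_lit 304) (nat_lit 145684517) (nat_lit 0) (nat_lit 5100130208) (nat_lit 48) (nat_lit 5) (nat_lit 52) (nat_lit 4) (nat_lit 48) (nat_lit 4) (nat_lit 317) (nat_lit 232) (nat_lit 231)) (XT.lf (nat_lit 0) (nat_lit 6055701139) (nat_lit 228) (nat_lit 3344124544) (nat_lit 228) (nat_lit 1886906463) (nat_lit 45) (nat_lit 4) (nat_lit 48) (nat_lit 5) (nat_lit 48) (nat_lit 4) (nat_lit 318) (nat_lit 232) (nat_lit 230)))) (XT.nd (nat_lit 78) (nat_lit 228) (nat_lit 0) (XT.lf (nat_lit 0) (nat_lit 832597329) (nat_lit 228) (nat_lit 638707511) (nat_lit 304) (nat_lit 10024675164) (nat_lit 41) (nat_lit 5) (nat_lit 44) (nat_lit 5)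 (nat_lit 45) (nat_lit 4) (nat_lit 319) (nat_lit 232) (nat_lit 229)) (XT.nd (nat_lit 78) (nat_lit 228) (nat_lit 0) (XT.lf (nat_lit 0) (nat_lit 4886871502) (nat_lit 304) (nat_lit 4685823297) (nat_lit 0) (nat_lit 2138535693) (nat_lit 41) (nat_lit 5) (nat_lit 45) (nat_lit 4) (nat_lit 41) (nat_lit 4) (nat_lit 320) (nat_lit 232) (nat_lit 228)) (XT.lf (nat_lit 0) (nat_lit 1373664248) (nat_lit 228) (nat_lit 6973624739) (nat_lit 228) (nat_lit 3587496127) (nat_lit 38) (nat_lit 4) (nat_lit 41) (nat_lit 5) (nat_lit 41) (nat_lit 4) (nat_lit 321) (nat_lit 232) (nat_lit 227))))))) (XT.nd (nat_lit 858) (nat_lit 608) (nat_lit 0) (XT.nd (nat_lit 390) (nat_lit 532) (nat_lit 0) (XT.nd (nat_lit 156) (nat_lit 304) (nat_lit 0) (XT.nd (nat_lit 78) (nat_lit 228) (nat_lit 0) (XT.lf (nat_lit 0) (nat_lit 7594266974) (nat_lit 228) (nat_lit 4288550042) (nat_lit 228) (nat_lit 283205116) (nat_lit 38) (nat_lit 4) (nat_lit 41)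 (nat_lit 5) (nat_lit 41) (nat_lit 4) (nat_lit 322) (nat_lit 232) (nat_lit 226)) (XT.lf (nat_lit 0) (nat_lit 1481285123) (nat_lit 152) (nat_lit 1517636520) (nat_lit 228) (nat_lit 9406295114) (nat_lit 35) (nat_lit 5) (nat_lit 37) (nat_lit 5) (nat_lit 38) (nat_lit 4) (nat_lit 323) (nat_lit 232) (nat_lit 225))) (XT.nd (nat_lit 78) (nat_lit 304) (nat_lit 0) (XT.lf (nat_lit 0) (nat_lit 6359337497) (nat_lit 228) (nat_lit 4972393350) (nat_lit 0) (nat_lit 1320311693) (nat_lit 35) (nat_lit 5) (nat_lit 38) (nat_lit 4) (nat_lit 35) (nat_lit 4) (nat_lit 324) (nat_lit 232) (nat_lit 224)) (XT.nd (nat_lit 78) (nat_lit 76) (nat_lit 0) (XT.lf (nat_lit 0) (nat_lit 1050823949) (nat_lit 228) (nat_lit 8723071324) (nat_lit 228) (nat_lit 3133879845) (nat_lit 32) (nat_lit 4) (nat_lit 35) (nat_lit 5) (nat_lit 35) (nat_lit 4) (nat_lit 325) (nat_lit 232) (nat_lit 223)) (XT.lf (nat_lit 0) (nat_lit 96508966) (nat_lit 304)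 (nat_lit 5927419708) (nat_lit 76) (nat_lit 7147938488) (nat_lit 31) (nat_lit 5) (nat_lit 35) (nat_lit 5) (nat_lit 32) (nat_lit 4) (nat_lit 326) (nat_lit 232) (nat_lit 222))))) (XT.nd (nat_lit 234) (nat_lit 380) (nat_lit 0) (XT.nd (nat_lit 78) (nat_lit 0) (nat_lit 0) (XT.lf (nat_lit 0) (nat_lit 40274040) (nat_lit 152) (nat_lit 3251445597) (nat_lit 228) (nat_lit 10153397790) (nat_lit 29) (nat_lit 5) (nat_lit 31) (nat_lit 5) (nat_lit 32) (nat_lit 4) (nat_lit 327) (nat_lit 232) (nat_lit 221)) (XT.nd (nat_lit 78) (nat_lit 0) (nat_lit 0) (XT.lf (nat_lit 0) (nat_lit 6200097205) (nat_lit 152) (nat_lit 374037552) (nat_lit 228) (nat_lit 7152780540) (nat_lit 29) (nat_lit 5) (nat_lit 31) (nat_lit 5) (nat_lit 32) (nat_lit 4) (nat_lit 328) (nat_lit 232) (nat_lit 220)) (XT.lf (nat_lit 0) (nat_lit 9913031831) (nat_lit 228) (nat_lit 1604306818) (nat_lit 0) (nat_lit 2501176074) (nat_lit 29) (nat_lit 5) (nat_lit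 32) (nat_lit 4) (nat_lit 29) (nat_lit 4) (nat_lit 329) (nat_lit 232) (nat_lit 219)))) (XT.nd (nat_lit 78) (nat_lit 228) (nat_lit 0) (XT.lf (nat_lit 0) (nat_lit 4475667142) (nat_lit 152) (nat_lit 8858218740) (nat_lit 152) (nat_lit 985607891) (nat_lit 27) (nat_lit 4) (nat_lit 29) (nat_lit 5) (nat_lit 29) (nat_lit 4) (nat_lit 330) (nat_lit 232) (nat_lit 218)) (XT.nd (nat_lit 78) (nat_lit 152) (nat_lit 0) (XT.lf (nat_lit 0) (nat_lit 2136002015) (nat_lit 228) (nat_lit 3983861797) (nat_lit 76) (nat_lit 8510527991) (nat_lit 26) (nat_lit 5) (nat_lit 29) (nat_lit 5) (nat_lit 27) (nat_lit 4) (nat_lit 331) (nat_lit 232) (nat_lit 217)) (XT.lf (nat_lit 0) (nat_lit 1979611015) (nat_lit 152) (nat_lit 3308006111) (nat_lit 228) (nat_lit 9664099994) (nat_lit 24) (nat_lit 5) (nat_lit 26) (nat_lit 5) (nat_lit 27) (nat_lit 4) (nat_lit 332) (nat_lit 232) (nat_lit 216)))))) (XT.nd (nat_lit 468) (nat_lit 304) (nat_lit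 0) (XT.nd (nat_lit 234) (nat_lit 152) (nat_lit 0) (XT.nd (nat_lit 78) (nat_lit 152) (nat_lit 0) (XT.lf (nat_lit 0) (nat_lit 8103483244) (nat_lit 152) (nat_lit 408532113) (nat_lit 228) (nat_lit 6771395628) (nat_lit 24) (nat_lit 5) (nat_lit 26) (nat_lit 5) (nat_lit 27) (nat_lit 4) (nat_lit 333) (nat_lit 232) (nat_lit 215)) (XT.nd (nat_lit 78) (nat_lit 152) (nat_lit 0) (XT.lf (nat_lit 0) (nat_lit 11797380997) (nat_lit 228) (nat_lit 1337540091) (nat_lit 0) (nat_lit 2491281131) (nat_lit 24) (nat_lit 5) (nat_lit 27) (nat_lit 4) (nat_lit 24) (nat_lit 4) (nat_lit 334) (nat_lit 232) (nat_lit 214)) (XT.lf (nat_lit 0) (nat_lit 4671330286) (nat_lit 152) (nat_lit 10500144187) (nat_lit 152) (nat_lit 808169186) (nat_lit 22) (nat_lit 4) (nat_lit 24) (nat_lit 5) (nat_lit 24) (nat_lit 4) (nat_lit 335) (nat_lit 232) (nat_lit 213)))) (XT.nd (nat_lit 78) (nat_lit 76) (nat_lit 0) (XT.lf (nat_lit 0) (nat_lit 2213176328)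 (nat_lit 228) (nat_lit 5573863107) (nat_lit 76) (nat_lit 8557401640) (nat_lit 21) (nat_lit 5) (nat_lit 24) (nat_lit 5) (nat_lit 22) (nat_lit 4) (nat_lit 336) (nat_lit 232) (nat_lit 212)) (XT.nd (nat_lit 78) (nat_lit 0) (nat_lit 0) (XT.lf (nat_lit 0) (nat_lit 235830168) (nat_lit 76) (nat_lit 5018438573) (nat_lit 152) (nat_lit 11467378534) (nat_lit 20) (nat_lit 5) (nat_lit 21) (nat_lit 5) (nat_lit 22) (nat_lit 4) (nat_lit 337) (nat_lit 232) (nat_lit 211)) (XT.lf (nat_lit 0) (nat_lit 6241597849) (nat_lit 76) (nat_lit 2145133007) (nat_lit 152) (nat_lit 8723498201) (nat_lit 20) (nat_lit 5) (nat_lit 21) (nat_lit 5) (nat_lit 22) (nat_lit 4) (nat_lit 338) (nat_lit 232) (nat_lit 210))))) (XT.nd (nat_lit 234) (nat_lit 152) (nat_lit 0) (XT.nd (nat_lit 78) (nat_lit 152) (nat_lit 0) (XT.lf (nat_lit 0) (nat_lit 11566143270) (nat_lit 152) (nat_lit 5181897657) (nat_lit 0) (nat_lit 763899727) (nat_lit 20) (nat_lit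 5) (nat_lit 22) (nat_lit 4) (nat_lit 20) (nat_lit 4) (nat_lit 339) (nat_lit 232) (nat_lit 209)) (XT.nd (nat_lit 78) (nat_lit 0) (nat_lit 0) (XT.lf (nat_lit 0) (nat_lit 576972644) (nat_lit 152) (nat_lit 14237496388) (nat_lit 152) (nat_lit 3112088494) (nat_lit 18) (nat_lit 4) (nat_lit 20) (nat_lit 5) (nat_lit 20) (nat_lit 4) (nat_lit 340) (nat_lit 232) (nat_lit 208)) (XT.lf (nat_lit 0) (nat_lit 6527215248) (nat_lit 152) (nat_lit 11632811007) (nat_lit 152) (nat_lit 193651316) (nat_lit 18) (nat_lit 4) (nat_lit 20) (nat_lit 5) (nat_lit 20) (nat_lit 4) (nat_lit 341) (nat_lit 232) (nat_lit 207)))) (XT.nd (nat_lit 78) (nat_lit 76) (nat_lit 0) (XT.lf (nat_lit 0) (nat_lit 2705884821) (nat_lit 228) (nat_lit 6250826897) (nat_lit 76) (nat_lit 9837690517) (nat_lit 17) (nat_lit 5) (nat_lit 20) (nat_lit 5) (nat_lit 18) (nat_lit 4) (nat_lit 342) (nat_lit 232) (nat_lit 206)) (XT.nd (nat_lit 78) (nat_lit 76) (nat_lit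 0) (XT.lf (nat_lit 0) (nat_lit 5638441744) (nat_lit 228) (nat_lit 593477504) (nat_lit 76) (nat_lit 13017927249) (nat_lit 17) (nat_lit 5) (nat_lit 20) (nat_lit 5) (nat_lit 18) (nat_lit 4) (nat_lit 343) (nat_lit 232) (nat_lit 205)) (XT.lf (nat_lit 0) (nat_lit 5254933344) (nat_lit 76) (nat_lit 3405941005) (nat_lit 152) (nat_lit 11058074402) (nat_lit 16) (nat_lit 5) (nat_lit 17) (nat_lit 5) (nat_lit 18) (nat_lit 4) (nat_lit 344) (nat_lit 232) (nat_lit 204))))))))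
noncomputable def xc42 : XT := (XT.nd (nat_lit 1716) (nat_lit 304) (nat_lit 0) (XT.nd (nat_lit 858) (nat_lit 152) (nat_lit 0) (XT.nd (nat_lit 390) (nat_lit 228) (nat_lit 0) (XT.nd (nat_lit 156) (nat_lit 228) (nat_lit 0) (XT.nd (nat_lit 78) (nat_lit 0) (nat_lit 0) (XT.lf (nat_lit 0) (nat_lit 11210556616) (nat_lit 76) (nat_lit 521444669) (nat_lit 152) (nat_lit 8471432278) (nat_lit 16) (nat_lit 5) (nat_lit 17) (nat_lit 5) (nat_lit 18) (nat_lit 4) (nat_lit 345) (nat_lit 232) (nat_lit 203)) (XT.lf (nat_lit 0) (nat_lit 14871931884) (nat_lit 152) (nat_lit 3460358162) (nat_lit 0) (nat_lit 2370911447) (nat_lit 16) (nat_lit 5) (nat_lit 18) (nat_lit 4) (nat_lit 16) (nat_lit 4) (nat_lit 346) (nat_lit 232) (nat_lit 202))) (XT.nd (nat_lit 78) (nat_lit 76) (nat_lit 0) (XT.lf (nat_lit 0) (nat_lit 2198983549) (nat_lit 152) (nat_lit 15887865926) (nat_lit 152) (nat_lit 3131736567) (nat_lit 14) (nat_lit 4) (nat_lit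 16) (nat_lit 5) (nat_lit 16) (nat_lit 4) (nat_lit 347) (nat_lit 232) (nat_lit 201)) (XT.nd (nat_lit 78) (nat_lit 76) (nat_lit 0) (XT.lf (nat_lit 0) (nat_lit 8022893475) (nat_lit 152) (nat_lit 13365345856) (nat_lit 152) (nat_lit 361537931) (nat_lit 14) (nat_lit 4) (nat_lit 16) (nat_lit 5) (nat_lit 16) (nat_lit 4) (nat_lit 348) (nat_lit 232) (nat_lit 200)) (XT.lf (nat_lit 0) (nat_lit 2399058067) (nat_lit 228) (nat_lit 8374184675) (nat_lit 76) (nat_lit 11524308707) (nat_lit 13) (nat_lit 5) (nat_lit 16) (nat_lit 5) (nat_lit 14) (nat_lit 4) (nat_lit 349) (nat_lit 232) (nat_lit 199))))) (XT.nd (nat_lit 234) (nat_lit 152) (nat_lit 0) (XT.nd (nat_lit 78) (nat_lit 76) (nat_lit 0) (XT.lf (nat_lit 0) (nat_lit 5192404174) (nat_lit 228) (nat_lit 2937152879) (nat_lit 76) (nat_lit 14733420438) (nat_lit 13) (nat_lit 5) (nat_lit 16) (nat_lit 5) (nat_lit 14) (nat_lit 4) (nat_lit 350) (nat_lit 232) (nat_lit 198))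 (XT.nd (nat_lit 78) (nat_lit 0) (nat_lit 0) (XT.lf (nat_lit 0) (nat_lit 2644032320) (nat_lit 76) (nat_lit 5409379821) (nat_lit 152) (nat_lit 15392479092) (nat_lit 12) (nat_lit 5) (nat_lit 13) (nat_lit 5) (nat_lit 14) (nat_lit 4) (nat_lit 351) (nat_lit 232) (nat_lit 197)) (XT.lf (nat_lit 0) (nat_lit 8383001376) (nat_lit 76) (nat_lit 2605892664) (nat_lit 152) (nat_lit 13057778610) (nat_lit 12) (nat_lit 5) (nat_lit 13) (nat_lit 5) (nat_lit 14) (nat_lit 4) (nat_lit 352) (nat_lit 232) (nat_lit 196)))) (XT.nd (nat_lit 78) (nat_lit 152) (nat_lit 0) (XT.lf (nat_lit 0) (nat_lit 13975057904) (nat_lit 152) (nat_lit 10442835414) (nat_lit 0) (nat_lit 248744086) (nat_lit 12) (nat_lit 5) (nat_lit 14) (nat_lit 4) (nat_lit 12) (nat_lit 4) (nat_lit 353) (nat_lit 232) (nat_lit 195)) (XT.nd (nat_lit 78) (nat_lit 152) (nat_lit 0) (XT.lf (nat_lit 0) (nat_lit 17037684926) (nat_lit 152) (nat_lit 5157961360) (nat_lit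 0) (nat_lit 3109985769) (nat_lit 12) (nat_lit 5) (nat_lit 14) (nat_lit 4) (nat_lit 12) (nat_lit 4) (nat_lit 354) (nat_lit 232) (nat_lit 194)) (XT.lf (nat_lit 0) (nat_lit 225008905) (nat_lit 152) (nat_lit 19931555771) (nat_lit 152) (nat_lit 5808336867) (nat_lit 10) (nat_lit 4) (nat_lit 12) (nat_lit 5) (nat_lit 12) (nat_lit 4) (nat_lit 355) (nat_lit 232) (nat_lit 193)))))) (XT.nd (nat_lit 390) (nat_lit 76) (nat_lit 0) (XT.nd (nat_lit 156) (nat_lit 76) (nat_lit 0) (XT.nd (nat_lit 78) (nat_lit 0) (nat_lit 0) (XT.lf (nat_lit 0) (nat_lit 5810996382) (nat_lit 152) (nat_lit 17572794202) (nat_lit 152) (nat_lit 3259750301) (nat_lit 10) (nat_lit 4) (nat_lit 12) (nat_lit 5) (nat_lit 12) (nat_lit 4) (nat_lit 356) (nat_lit 232) (nat_lit 192)) (XT.lf (nat_lit 0) (nat_lit 11502228484) (nat_lit 152) (nat_lit 15169385821) (nat_lit 152) (nat_lit 672045806) (nat_lit 10) (nat_lit 4) (nat_lit 12) (nat_lit 5) (nat_lit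 12) (nat_lit 4) (nat_lit 357) (nat_lit 232) (nat_lit 191))) (XT.nd (nat_lit 78) (nat_lit 0) (nat_lit 0) (XT.lf (nat_lit 0) (nat_lit 1918848862) (nat_lit 228) (nat_lit 10781005089) (nat_lit 76) (nat_lit 15365452660) (nat_lit 9) (nat_lit 5) (nat_lit 12) (nat_lit 5) (nat_lit 10) (nat_lit 4) (nat_lit 358) (nat_lit 232) (nat_lit 190)) (XT.nd (nat_lit 78) (nat_lit 0) (nat_lit 0) (XT.lf (nat_lit 0) (nat_lit 4539453502) (nat_lit 228) (nat_lit 5634894433) (nat_lit 76) (nat_lit 18635121474) (nat_lit 9) (nat_lit 5) (nat_lit 12) (nat_lit 5) (nat_lit 10) (nat_lit 4) (nat_lit 359) (nat_lit 232) (nat_lit 189)) (XT.lf (nat_lit 0) (nat_lit 7205171995) (nat_lit 228) (nat_lit 392142943) (nat_lit 76) (nat_lit 21979677612) (nat_lit 9) (nat_lit 5) (nat_lit 12) (nat_lit 5) (nat_lit 10) (nat_lit 4) (nat_lit 360) (nat_lit 232) (nat_lit 188))))) (XT.nd (nat_lit 234) (nat_lit 0) (nat_lit 0) (XT.nd (nat_lit 78) (nat_lit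 0) (nat_lit 0) (XT.lf (nat_lit 0) (nat_lit 5050381560) (nat_lit 76) (nat_lit 4916499407) (nat_lit 152) (nat_lit 20400209297) (nat_lit 8) (nat_lit 5) (nat_lit 9) (nat_lit 5) (nat_lit 10) (nat_lit 4) (nat_lit 361) (nat_lit 232) (nat_lit 187)) (XT.nd (nat_lit 78) (nat_lit 0) (nat_lit 0) (XT.lf (nat_lit 0) (nat_lit 10608709295) (nat_lit 76) (nat_lit 2174577180) (nat_lit 152) (nat_lit 18398477666) (nat_lit 8) (nat_lit 5) (nat_lit 9) (nat_lit 5) (nat_lit 10) (nat_lit 4) (nat_lit 362) (nat_lit 232) (nat_lit 186)) (XT.lf (nat_lit 0) (nat_lit 15659030945) (nat_lit 152) (nat_lit 15747974757) (nat_lit 0) (nat_lit 614654883) (nat_lit 8) (nat_lit 5) (nat_lit 10) (nat_lit 4) (nat_lit 8) (nat_lit 4) (nat_lit 363) (nat_lit 232) (nat_lit 185)))) (XT.nd (nat_lit 78) (nat_lit 0) (nat_lit 0) (XT.lf (nat_lit 0) (nat_lit 18612095127) (nat_lit 152) (nat_lit 10852720312) (nat_lit 0) (nat_lit 3422234010) (nat_lit 8)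 (nat_lit 5) (nat_lit 10) (nat_lit 4) (nat_lit 8) (nat_lit 4) (nat_lit 364) (nat_lit 232) (nat_lit 184)) (XT.nd (nat_lit 78) (nat_lit 0) (nat_lit 0) (XT.lf (nat_lit 0) (nat_lit 21624156001) (nat_lit 152) (nat_lit 5862110738) (nat_lit 0) (nat_lit 6293047260) (nat_lit 8) (nat_lit 5) (nat_lit 10) (nat_lit 4) (nat_lit 8) (nat_lit 4) (nat_lit 365) (nat_lit 232) (nat_lit 183)) (XT.lf (nat_lit 0) (nat_lit 24697845467) (nat_lit 152) (nat_lit 771785308) (nat_lit 0) (nat_lit 9229603108) (nat_lit 8) (nat_lit 5) (nat_lit 10) (nat_lit 4) (nat_lit 8) (nat_lit 4) (nat_lit 366) (nat_lit 232) (nat_lit 182))))))) (XT.nd (nat_lit 858) (nat_lit 76) (nat_lit 0) (XT.nd (nat_lit 390) (nat_lit 76) (nat_lit 0) (XT.nd (nat_lit 156) (nat_lit 76) (nat_lit 0) (XT.nd (nat_lit 78) (nat_lit 0) (nat_lit 0) (XT.lf (nat_lit 0) (nat_lit 4510724313) (nat_lit 76) (nat_lit 23368484799) (nat_lit 76) (nat_lit 7767103007) (nat_lit 7)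 (nat_lit 4) (nat_lit 8) (nat_lit 5) (nat_lit 8) (nat_lit 4) (nat_lit 367) (nat_lit 232) (nat_lit 181)) (XT.lf (nat_lit 0) (nat_lit 9919459957) (nat_lit 76) (nat_lit 21216801319) (nat_lit 76) (nat_lit 5486157941) (nat_lit 7) (nat_lit 4) (nat_lit 8) (nat_lit 5) (nat_lit 8) (nat_lit 4) (nat_lit 368) (nat_lit 232) (nat_lit 180))) (XT.nd (nat_lit 78) (nat_lit 76) (nat_lit 0) (XT.lf (nat_lit 0) (nat_lit 15443787663) (nat_lit 76) (nat_lit 19020493741) (nat_lit 76) (nat_lit 3164353677) (nat_lit 7) (nat_lit 4) (nat_lit 8) (nat_lit 5) (nat_lit 8) (nat_lit 4) (nat_lit 369) (nat_lit 232) (nat_lit 179)) (XT.nd (nat_lit 78) (nat_lit 76) (nat_lit 0) (XT.lf (nat_lit 0) (nat_lit 21088534512) (nat_lit 76) (nat_lit 16777642961) (nat_lit 76) (nat_lit 799661455) (nat_lit 7) (nat_lit 4) (nat_lit 8) (nat_lit 5) (nat_lit 8) (nat_lit 4) (nat_lit 370) (nat_lit 232) (nat_lit 178)) (XT.lf (nat_lit 0) (nat_lit 1578568354)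 (nat_lit 152) (nat_lit 12891780407) (nat_lit 76) (nat_lit 25264124009) (nat_lit 6) (nat_lit 5) (nat_lit 8) (nat_lit 5) (nat_lit 7) (nat_lit 4) (nat_lit 371) (nat_lit 232) (nat_lit 177))))) (XT.nd (nat_lit 234) (nat_lit 0) (nat_lit 0) (XT.nd (nat_lit 78) (nat_lit 76) (nat_lit 0) (XT.lf (nat_lit 0) (nat_lit 3987335296) (nat_lit 152) (nat_lit 8116830761) (nat_lit 76) (nat_lit 28731524821) (nat_lit 6) (nat_lit 5) (nat_lit 8) (nat_lit 5) (nat_lit 7) (nat_lit 4) (nat_lit 372) (nat_lit 232) (nat_lit 176)) (XT.nd (nat_lit 78) (nat_lit 76) (nat_lit 0) (XT.lf (nat_lit 0) (nat_lit 6444348391) (nat_lit 152) (nat_lit 3240596357) (nat_lit 76) (nat_lit 32285741338) (nat_lit 6) (nat_lit 5) (nat_lit 8) (nat_lit 5) (nat_lit 7) (nat_lit 4) (nat_lit 373) (nat_lit 232) (nat_lit 175)) (XT.lf (nat_lit 0) (nat_lit 1775836559) (nat_lit 76) (nat_lit 7192988413) (nat_lit 152) (nat_lit 34171113053) (nat_lit 5) (nat_lit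 5) (nat_lit 6) (nat_lit 5) (nat_lit 7) (nat_lit 4) (nat_lit 374) (nat_lit 232) (nat_lit 174)))) (XT.nd (nat_lit 78) (nat_lit 0) (nat_lit 0) (XT.lf (nat_lit 0) (nat_lit 6968849451) (nat_lit 76) (nat_lit 4609884088) (nat_lit 152) (nat_lit 32765261953) (nat_lit 5) (nat_lit 5) (nat_lit 6) (nat_lit 5) (nat_lit 7) (nat_lit 4) (nat_lit 375) (nat_lit 232) (nat_lit 173)) (XT.nd (nat_lit 78) (nat_lit 0) (nat_lit 0) (XT.lf (nat_lit 0) (nat_lit 12278485681) (nat_lit 76) (nat_lit 1966098360) (nat_lit 152) (nat_lit 31340279652) (nat_lit 5) (nat_lit 5) (nat_lit 6) (nat_lit 5) (nat_lit 7) (nat_lit 4) (nat_lit 376) (nat_lit 232) (nat_lit 172)) (XT.lf (nat_lit 0) (nat_lit 16975825721) (nat_lit 152) (nat_lit 29161362004) (nat_lit 0) (nat_lit 726225560) (nat_lit 5) (nat_lit 5) (nat_lit 7) (nat_lit 4) (nat_lit 5) (nat_lit 4) (nat_lit 377) (nat_lit 232) (nat_lit 171)))))) (XT.nd (nat_lit 468) (nat_lit 76) (nat_lit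 0) (XT.nd (nat_lit 234) (nat_lit 0) (nat_lit 0) (XT.nd (nat_lit 78) (nat_lit 0) (nat_lit 0) (XT.lf (nat_lit 0) (nat_lit 19787246609) (nat_lit 152) (nat_lit 24948877666) (nat_lit 0) (nat_lit 3444265128) (nat_lit 5) (nat_lit 5) (nat_lit 7) (nat_lit 4) (nat_lit 5) (nat_lit 4) (nat_lit 378) (nat_lit 232) (nat_lit 170)) (XT.nd (nat_lit 78) (nat_lit 0) (nat_lit 0) (XT.lf (nat_lit 0) (nat_lit 22662403947) (nat_lit 152) (nat_lit 20646344846) (nat_lit 0) (nat_lit 6228760990) (nat_lit 5) (nat_lit 5) (nat_lit 7) (nat_lit 4) (nat_lit 5) (nat_lit 4) (nat_lit 379) (nat_lit 232) (nat_lit 169)) (XT.lf (nat_lit 0) (nat_lit 25603810008) (nat_lit 152) (nat_lit 16250004050) (nat_lit 0) (nat_lit 9082146200) (nat_lit 5) (nat_lit 5) (nat_lit 7) (nat_lit 4) (nat_lit 5) (nat_lit 4) (nat_lit 380) (nat_lit 232) (nat_lit 168)))) (XT.nd (nat_lit 78) (nat_lit 0) (nat_lit 0) (XT.lf (nat_lit 0) (nat_lit 28614034952) (nat_lit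 152) (nat_lit 11756013815) (nat_lit 0) (nat_lit 12006914008) (nat_lit 5) (nat_lit 5) (nat_lit 7) (nat_lit 4) (nat_lit 5) (nat_lit 4) (nat_lit 381) (nat_lit 232) (nat_lit 167)) (XT.nd (nat_lit 78) (nat_lit 0) (nat_lit 0) (XT.lf (nat_lit 0) (nat_lit 31695709073) (nat_lit 152) (nat_lit 7160447353) (nat_lit 0) (nat_lit 15005620036) (nat_lit 5) (nat_lit 5) (nat_lit 7) (nat_lit 4) (nat_lit 5) (nat_lit 4) (nat_lit 382) (nat_lit 232) (nat_lit 166)) (XT.lf (nat_lit 0) (nat_lit 34851525096) (nat_lit 152) (nat_lit 2459289121) (nat_lit 0) (nat_lit 18080884512) (nat_lit 5) (nat_lit 5) (nat_lit 7) (nat_lit 4) (nat_lit 5) (nat_lit 4) (nat_lit 383) (nat_lit 232) (nat_lit 165))))) (XT.nd (nat_lit 234) (nat_lit 0) (nat_lit 0) (XT.nd (nat_lit 78) (nat_lit 0) (nat_lit 0) (XT.lf (nat_lit 0) (nat_lit 2398369516) (nat_lit 76) (nat_lit 35708925609) (nat_lit 76) (nat_lit 18860079640) (nat_lit 4) (nat_lit 4) (nat_lit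 5) (nat_lit 5) (nat_lit 5) (nat_lit 4) (nat_lit 384) (nat_lit 232) (nat_lit 164)) (XT.nd (nat_lit 78) (nat_lit 0) (nat_lit 0) (XT.lf (nat_lit 0) (nat_lit 7421142968) (nat_lit 76) (nat_lit 34046873677) (nat_lit 76) (nat_lit 17122100149) (nat_lit 4) (nat_lit 4) (nat_lit 5) (nat_lit 5) (nat_lit 5) (nat_lit 4) (nat_lit 385) (nat_lit 232) (nat_lit 163)) (XT.lf (nat_lit 0) (nat_lit 12564475389) (nat_lit 76) (nat_lit 32348040141) (nat_lit 76) (nat_lit 15349550536) (nat_lit 4) (nat_lit 4) (nat_lit 5) (nat_lit 5) (nat_lit 5) (nat_lit 4) (nat_lit 386) (nat_lit 232) (nat_lit 162)))) (XT.nd (nat_lit 78) (nat_lit 0) (nat_lit 0) (XT.lf (nat_lit 0) (nat_lit 17832860954) (nat_lit 76) (nat_lit 30610940582) (nat_lit 76) (nat_lit 13540881972) (nat_lit 4) (nat_lit 4) (nat_lit 5) (nat_lit 5) (nat_lit 5) (nat_lit 4) (nat_lit 387) (nat_lit 232) (nat_lit 161)) (XT.nd (nat_lit 78) (nat_lit 0) (nat_lit 0) (XT.lf (nat_lit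 0) (nat_lit 23230903105) (nat_lit 76) (nat_lit 28834057148) (nat_lit 76) (nat_lit 11694514066) (nat_lit 4) (nat_lit 4) (nat_lit 5) (nat_lit 5) (nat_lit 5) (nat_lit 4) (nat_lit 388) (nat_lit 232) (nat_lit 160)) (XT.lf (nat_lit 0) (nat_lit 28763318580) (nat_lit 76) (nat_lit 27015837222) (nat_lit 76) (nat_lit 9808833487) (nat_lit 4) (nat_lit 4) (nat_lit 5) (nat_lit 5) (nat_lit 5) (nat_lit 4) (nat_lit 389) (nat_lit 232) (nat_lit 159))))))))
noncomputable def xc43 : XT := (XT.nd (nat_lit 35412) (nat_lit 0) (nat_lit 1064) (XT.nd (nat_lit 858) (nat_lit 0) (nat_lit 0) (XT.nd (nat_lit 390) (nat_lit 76) (nat_lit 0) (XT.nd (nat_lit 156) (nat_lit 76) (nat_lit 0) (XT.nd (nat_lit 78) (nat_lit 0) (nat_lit 0) (XT.lf (nat_lit 0) (nat_lit 34434941527) (nat_lit 76) (nat_lit 25154692067) (nat_lit 76) (nat_lit 7882192554) (nat_lit 4) (nat_lit 4) (nat_lit 5) (nat_lit 5) (nat_lit 5) (nat_lit 4) (nat_lit 390) (nat_lit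 232) (nat_lit 158)) (XT.lf (nat_lit 0) (nat_lit 40250727734) (nat_lit 76) (nat_lit 23248995441) (nat_lit 76) (nat_lit 5912907792) (nat_lit 4) (nat_lit 4) (nat_lit 5) (nat_lit 5) (nat_lit 5) (nat_lit 4) (nat_lit 391) (nat_lit 232) (nat_lit 157))) (XT.nd (nat_lit 78) (nat_lit 76) (nat_lit 0) (XT.lf (nat_lit 0) (nat_lit 46215758955) (nat_lit 76) (nat_lit 21297082172) (nat_lit 76) (nat_lit 3899258469) (nat_lit 4) (nat_lit 4) (nat_lit 5) (nat_lit 5) (nat_lit 5) (nat_lit 4) (nat_lit 392) (nat_lit 232) (nat_lit 156)) (XT.nd (nat_lit 78) (nat_lit 76) (nat_lit 0) (XT.lf (nat_lit 0) (nat_lit 52335247353) (nat_lit 76) (nat_lit 19297246703) (nat_lit 76) (nat_lit 1839485085) (nat_lit 4) (nat_lit 4) (nat_lit 5) (nat_lit 5) (nat_lit 5) (nat_lit 4) (nat_lit 393) (nat_lit 232) (nat_lit 155)) (XT.lf (nat_lit 0) (nat_lit 262978376) (nat_lit 152) (nat_lit 16982107665) (nat_lit 76) (nat_lit 58348906113) (nat_lit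 3) (nat_lit 5) (nat_lit 5) (nat_lit 5) (nat_lit 4) (nat_lit 4) (nat_lit 394) (nat_lit 232) (nat_lit 154))))) (XT.nd (nat_lit 234) (nat_lit 76) (nat_lit 0) (XT.nd (nat_lit 78) (nat_lit 0) (nat_lit 0) (XT.lf (nat_lit 0) (nat_lit 2378341294) (nat_lit 152) (nat_lit 12744418176) (nat_lit 76) (nat_lit 62656765943) (nat_lit 3) (nat_lit 5) (nat_lit 5) (nat_lit 5) (nat_lit 4) (nat_lit 4) (nat_lit 395) (nat_lit 232) (nat_lit 153)) (XT.nd (nat_lit 78) (nat_lit 0) (nat_lit 0) (XT.lf (nat_lit 0) (nat_lit 4544347023) (nat_lit 152) (nat_lit 8402278230) (nat_lit 76) (nat_lit 67084393823) (nat_lit 3) (nat_lit 5) (nat_lit 5) (nat_lit 5) (nat_lit 4) (nat_lit 4) (nat_lit 396) (nat_lit 232) (nat_lit 152)) (XT.lf (nat_lit 0) (nat_lit 6762888189) (nat_lit 152) (nat_lit 3951893725) (nat_lit 76) (nat_lit 71635658553) (nat_lit 3) (nat_lit 5) (nat_lit 5) (nat_lit 5) (nat_lit 4) (nat_lit 4) (nat_lit 397) (nat_lit 232)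 (nat_lit 151)))) (XT.nd (nat_lit 78) (nat_lit 0) (nat_lit 0) (XT.lf (nat_lit 0) (nat_lit 622776639) (nat_lit 76) (nat_lit 8419113193) (nat_lit 152) (nat_lit 75697746838) (nat_lit 2) (nat_lit 5) (nat_lit 3) (nat_lit 5) (nat_lit 4) (nat_lit 4) (nat_lit 398) (nat_lit 232) (nat_lit 150)) (XT.nd (nat_lit 78) (nat_lit 0) (nat_lit 0) (XT.lf (nat_lit 0) (nat_lit 5394528363) (nat_lit 76) (nat_lit 6022705698) (nat_lit 152) (nat_lit 75782444550) (nat_lit 2) (nat_lit 5) (nat_lit 3) (nat_lit 5) (nat_lit 4) (nat_lit 4) (nat_lit 399) (nat_lit 232) (nat_lit 149)) (XT.lf (nat_lit 0) (nat_lit 10288880504) (nat_lit 76) (nat_lit 3563371859) (nat_lit 152) (nat_lit 75881625800) (nat_lit 2) (nat_lit 5) (nat_lit 3) (nat_lit 5) (nat_lit 4) (nat_lit 4) (nat_lit 400) (nat_lit 232) (nat_lit 148)))))) (XT.nd (nat_lit 34086) (nat_lit 0) (nat_lit 2660) (XT.nd (nat_lit 33852) (nat_lit 0) (nat_lit 3496) (XT.nd (nat_lit 78)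 (nat_lit 0) (nat_lit 0) (XT.lf (nat_lit 0) (nat_lit 15310109679) (nat_lit 76) (nat_lit 1038962742) (nat_lit 152) (nat_lit 75995377251) (nat_lit 2) (nat_lit 5) (nat_lit 3) (nat_lit 5) (nat_lit 4) (nat_lit 4) (nat_lit 401) (nat_lit 232) (nat_lit 147)) (XT.lf (nat_lit 0) (nat_lit 18924801693) (nat_lit 152) (nat_lit 74585996619) (nat_lit 0) (nat_lit 1522428139) (nat_lit 2) (nat_lit 5) (nat_lit 4) (nat_lit 4) (nat_lit 2) (nat_lit 4) (nat_lit 402) (nat_lit 232) (nat_lit 146))) (XT.nd (nat_lit 78) (nat_lit 304) (nat_lit 0) (XT.lf (nat_lit 0) (nat_lit 1563996169) (nat_lit 304) (nat_lit 1847970163) (nat_lit 304) (nat_lit 1847970163) (nat_lit 52) (nat_lit 4) (nat_lit 56) (nat_lit 5) (nat_lit 56) (nat_lit 4) (nat_lit 314) (nat_lit 233) (nat_lit 233)) (XT.nd (nat_lit 78) (nat_lit 304) (nat_lit 0) (XT.lf (nat_lit 0) (nat_lit 9286043561) (nat_lit 304) (nat_lit 1100773419) (nat_lit 304) (nat_lit 316368719)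 (nat_lit 52) (nat_lit 4) (nat_lit 56) (nat_lit 5) (nat_lit 56) (nat_lit 4) (nat_lit 315) (nat_lit 233) (nat_lit 232)) (XT.lf (nat_lit 0) (nat_lit 3081878305) (nat_lit 304) (nat_lit 6229028931) (nat_lit 0) (nat_lit 1580943681) (nat_lit 48) (nat_lit 5) (nat_lit 52) (nat_lit 4) (nat_lit 48) (nat_lit 4) (nat_lit 316) (nat_lit 233) (nat_lit 231))))) (XT.nd (nat_lit 234) (nat_lit 304) (nat_lit 0) (XT.nd (nat_lit 78) (nat_lit 532) (nat_lit 0) (XT.lf (nat_lit 0) (nat_lit 6520509505) (nat_lit 304) (nat_lit 265628252) (nat_lit 0) (nat_lit 4301733462) (nat_lit 48) (nat_lit 5) (nat_lit 52) (nat_lit 4) (nat_lit 48) (nat_lit 4) (nat_lit 317) (nat_lit 233) (nat_lit 230)) (XT.nd (nat_lit 78) (nat_lit 304) (nat_lit 0) (XT.lf (nat_lit 0) (nat_lit 5874863976) (nat_lit 228) (nat_lit 4165699396) (nat_lit 228) (nat_lit 1249989936) (nat_lit 45) (nat_lit 4) (nat_lit 48) (nat_lit 5) (nat_lit 48) (nat_lit 4) (nat_lit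 318) (nat_lit 233) (nat_lit 229)) (XT.lf (nat_lit 0) (nat_lit 579246630) (nat_lit 228) (nat_lit 1475724047) (nat_lit 304) (nat_lit 9445931423) (nat_lit 41) (nat_lit 5) (nat_lit 44) (nat_lit 5) (nat_lit 45) (nat_lit 4) (nat_lit 319) (nat_lit 233) (nat_lit 228)))) (XT.nd (nat_lit 78) (nat_lit 304) (nat_lit 0) (XT.lf (nat_lit 0) (nat_lit 5424489200) (nat_lit 304) (nat_lit 4994119099) (nat_lit 0) (nat_lit 1298983926) (nat_lit 41) (nat_lit 5) (nat_lit 45) (nat_lit 4) (nat_lit 41) (nat_lit 4) (nat_lit 320) (nat_lit 233) (nat_lit 227)) (XT.nd (nat_lit 78) (nat_lit 76) (nat_lit 0) (XT.lf (nat_lit 0) (nat_lit 1001733133) (nat_lit 228) (nat_lit 7842702960) (nat_lit 228) (nat_lit 3097981372) (nat_lit 38) (nat_lit 4) (nat_lit 41) (nat_lit 5) (nat_lit 41) (nat_lit 4) (nat_lit 321) (nat_lit 233) (nat_lit 226)) (XT.lf (nat_lit 0) (nat_lit 165512674) (nat_lit 304) (nat_lit 5009911746) (nat_lit 76) (nat_lit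 6999326957) (nat_lit 37) (nat_lit 5) (nat_lit 41) (nat_lit 5) (nat_lit 38) (nat_lit 4) (nat_lit 322) (nat_lit 233) (nat_lit 225))))))) (XT.nd (nat_lit 858) (nat_lit 608) (nat_lit 0) (XT.nd (nat_lit 390) (nat_lit 532) (nat_lit 0) (XT.nd (nat_lit 156) (nat_lit 304) (nat_lit 0) (XT.nd (nat_lit 78) (nat_lit 0) (nat_lit 0) (XT.lf (nat_lit 0) (nat_lit 975576890) (nat_lit 152) (nat_lit 2425974898) (nat_lit 228) (nat_lit 9013581090) (nat_lit 35) (nat_lit 5) (nat_lit 37) (nat_lit 5) (nat_lit 38) (nat_lit 4) (nat_lit 323) (nat_lit 233) (nat_lit 224)) (XT.lf (nat_lit 0) (nat_lit 6717867753) (nat_lit 228) (nat_lit 5534629248) (nat_lit 0) (nat_lit 410834855) (nat_lit 35) (nat_lit 5) (nat_lit 38) (nat_lit 4) (nat_lit 35) (nat_lit 4) (nat_lit 324) (nat_lit 233) (nat_lit 223))) (XT.nd (nat_lit 78) (nat_lit 76) (nat_lit 0) (XT.lf (nat_lit 0) (nat_lit 422597986) (nat_lit 228) (nat_lit 9669450415) (nat_lit 228)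 (nat_lit 2828276085) (nat_lit 32) (nat_lit 4) (nat_lit 35) (nat_lit 5) (nat_lit 35) (nat_lit 4) (nat_lit 325) (nat_lit 233) (nat_lit 222)) (XT.nd (nat_lit 78) (nat_lit 0) (nat_lit 0) (XT.lf (nat_lit 0) (nat_lit 361918231) (nat_lit 304) (nat_lit 6625064233) (nat_lit 76) (nat_lit 6198418807) (nat_lit 31) (nat_lit 5) (nat_lit 35) (nat_lit 5) (nat_lit 32) (nat_lit 4) (nat_lit 326) (nat_lit 233) (nat_lit 221)) (XT.lf (nat_lit 0) (nat_lit 3523507721) (nat_lit 304) (nat_lit 710517097) (nat_lit 76) (nat_lit 9225679955) (nat_lit 31) (nat_lit 5) (nat_lit 35) (nat_lit 5) (nat_lit 32) (nat_lit 4) (nat_lit 327) (nat_lit 233) (nat_lit 220))))) (XT.nd (nat_lit 234) (nat_lit 228) (nat_lit 0) (XT.nd (nat_lit 78) (nat_lit 152) (nat_lit 0) (XT.lf (nat_lit 0) (nat_lit 5383318001) (nat_lit 152) (nat_lit 1382874535) (nat_lit 228) (nat_lit 6976545320) (nat_lit 29) (nat_lit 5) (nat_lit 31) (nat_lit 5) (nat_lit 32)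 (nat_lit 4) (nat_lit 328) (nat_lit 233) (nat_lit 219)) (XT.nd (nat_lit 78) (nat_lit 152) (nat_lit 0) (XT.lf (nat_lit 0) (nat_lit 10063403812) (nat_lit 228) (nat_lit 2478366538) (nat_lit 0) (nat_lit 1493859547) (nat_lit 29) (nat_lit 5) (nat_lit 32) (nat_lit 4) (nat_lit 29) (nat_lit 4) (nat_lit 329) (nat_lit 233) (nat_lit 218)) (XT.lf (nat_lit 0) (nat_lit 3533557930) (nat_lit 152) (nat_lit 9910587259) (nat_lit 152) (nat_lit 893707954) (nat_lit 27) (nat_lit 4) (nat_lit 29) (nat_lit 5) (nat_lit 29) (nat_lit 4) (nat_lit 330) (nat_lit 233) (nat_lit 217)))) (XT.nd (nat_lit 78) (nat_lit 152) (nat_lit 0) (XT.lf (nat_lit 0) (nat_lit 2195141864) (nat_lit 228) (nat_lit 4995047184) (nat_lit 76) (nat_lit 7459503100) (nat_lit 26) (nat_lit 5) (nat_lit 29) (nat_lit 5) (nat_lit 27) (nat_lit 4) (nat_lit 331) (nat_lit 233) (nat_lit 216)) (XT.nd (nat_lit 78) (nat_lit 0) (nat_lit 0) (XT.lf (nat_lit 0) (nat_lit 898956214)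 (nat_lit 152) (nat_lit 4407348003) (nat_lit 228) (nat_lit 9665964185) (nat_lit 24) (nat_lit 5) (nat_lit 26) (nat_lit 5) (nat_lit 27) (nat_lit 4) (nat_lit 332) (nat_lit 233) (nat_lit 215)) (XT.lf (nat_lit 0) (nat_lit 6974920829) (nat_lit 152) (nat_lit 1526131933) (nat_lit 228) (nat_lit 6803835260) (nat_lit 24) (nat_lit 5) (nat_lit 26) (nat_lit 5) (nat_lit 27) (nat_lit 4) (nat_lit 333) (nat_lit 233) (nat_lit 214)))))) (XT.nd (nat_lit 468) (nat_lit 304) (nat_lit 0) (XT.nd (nat_lit 234) (nat_lit 76) (nat_lit 0) (XT.nd (nat_lit 78) (nat_lit 228) (nat_lit 0) (XT.lf (nat_lit 0) (nat_lit 11746718852) (nat_lit 228) (nat_lit 2524077135) (nat_lit 0) (nat_lit 1378109465) (nat_lit 24) (nat_lit 5) (nat_lit 27) (nat_lit 4) (nat_lit 24) (nat_lit 4) (nat_lit 334) (nat_lit 233) (nat_lit 213)) (XT.nd (nat_lit 78) (nat_lit 76) (nat_lit 0) (XT.lf (nat_lit 0) (nat_lit 3414401328) (nat_lit 152) (nat_lit 11666215526)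 (nat_lit 152) (nat_lit 922970085) (nat_lit 22) (nat_lit 4) (nat_lit 24) (nat_lit 5) (nat_lit 24) (nat_lit 4) (nat_lit 335) (nat_lit 233) (nat_lit 212)) (XT.lf (nat_lit 0) (nat_lit 2072577672) (nat_lit 228) (nat_lit 6899637089) (nat_lit 76) (nat_lit 7397076060) (nat_lit 21) (nat_lit 5) (nat_lit 24) (nat_lit 5) (nat_lit 22) (nat_lit 4) (nat_lit 336) (nat_lit 233) (nat_lit 211)))) (XT.nd (nat_lit 78) (nat_lit 76) (nat_lit 0) (XT.lf (nat_lit 0) (nat_lit 5084181845) (nat_lit 228) (nat_lit 1139211029) (nat_lit 76) (nat_lit 10524020077) (nat_lit 21) (nat_lit 5) (nat_lit 24) (nat_lit 5) (nat_lit 22) (nat_lit 4) (nat_lit 337) (nat_lit 233) (nat_lit 210)) (XT.nd (nat_lit 78) (nat_lit 0) (nat_lit 0) (XT.lf (nat_lit 0) (nat_lit 4799656692) (nat_lit 76) (nat_lit 3378964946) (nat_lit 152) (nat_lit 8958544136) (nat_lit 20) (nat_lit 5) (nat_lit 21) (nat_lit 5) (nat_lit 22) (nat_lit 4) (nat_lit 338) (nat_lit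 233) (nat_lit 209)) (XT.lf (nat_lit 0) (nat_lit 10852876482) (nat_lit 76) (nat_lit 471596916) (nat_lit 152) (nat_lit 6215440279) (nat_lit 20) (nat_lit 5) (nat_lit 21) (nat_lit 5) (nat_lit 22) (nat_lit 4) (nat_lit 339) (nat_lit 233) (nat_lit 208))))) (XT.nd (nat_lit 234) (nat_lit 76) (nat_lit 0) (XT.nd (nat_lit 78) (nat_lit 228) (nat_lit 0) (XT.lf (nat_lit 0) (nat_lit 14537250169) (nat_lit 152) (nat_lit 977211589) (nat_lit 0) (nat_lit 2441163890) (nat_lit 20) (nat_lit 5) (nat_lit 22) (nat_lit 4) (nat_lit 20) (nat_lit 4) (nat_lit 340) (nat_lit 233) (nat_lit 207)) (XT.nd (nat_lit 78) (nat_lit 76) (nat_lit 0) (XT.lf (nat_lit 0) (nat_lit 4911678321) (nat_lit 152) (nat_lit 12936418084) (nat_lit 152) (nat_lit 535718410) (nat_lit 18) (nat_lit 4) (nat_lit 20) (nat_lit 5) (nat_lit 20) (nat_lit 4) (nat_lit 341) (nat_lit 233) (nat_lit 206)) (XT.lf (nat_lit 0) (nat_lit 2345826136) (nat_lit 228) (nat_lit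 7934413775) (nat_lit 76) (nat_lit 8545164408) (nat_lit 17) (nat_lit 5) (nat_lit 20) (nat_lit 5) (nat_lit 18) (nat_lit 4) (nat_lit 342) (nat_lit 233) (nat_lit 205)))) (XT.nd (nat_lit 78) (nat_lit 76) (nat_lit 0) (XT.lf (nat_lit 0) (nat_lit 5254434951) (nat_lit 228) (nat_lit 2317065221) (nat_lit 76) (nat_lit 11710092288) (nat_lit 17) (nat_lit 5) (nat_lit 20) (nat_lit 5) (nat_lit 18) (nat_lit 4) (nat_lit 343) (nat_lit 233) (nat_lit 204)) (XT.nd (nat_lit 78) (nat_lit 0) (nat_lit 0) (XT.lf (nat_lit 0) (nat_lit 3457434177) (nat_lit 76) (nat_lit 4778904127) (nat_lit 152) (nat_lit 11515596983) (nat_lit 16) (nat_lit 5) (nat_lit 17) (nat_lit 5) (nat_lit 18) (nat_lit 4) (nat_lit 344) (nat_lit 233) (nat_lit 203)) (XT.lf (nat_lit 0) (nat_lit 9374602426) (nat_lit 76) (nat_lit 1909919772) (nat_lit 152) (nat_lit 8952610168) (nat_lit 16) (nat_lit 5) (nat_lit 17) (nat_lit 5) (nat_lit 18) (nat_lit 4) (nat_lit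 345) (nat_lit 233) (nat_lit 202))))))))
noncomputable def xc44 : XT := (XT.nd (nat_lit 1716) (nat_lit 228) (nat_lit 0) (XT.nd (nat_lit 858) (nat_lit 228) (nat_lit 0) (XT.nd (nat_lit 390) (nat_lit 228) (nat_lit 0) (XT.nd (nat_lit 156) (nat_lit 76) (nat_lit 0) (XT.nd (nat_lit 78) (nat_lit 152) (nat_lit 0) (XT.lf (nat_lit 0) (nat_lit 14388686359) (nat_lit 152) (nat_lit 5354546011) (nat_lit 0) (nat_lit 994764196) (nat_lit 16) (nat_lit 5) (nat_lit 18) (nat_lit 4) (nat_lit 16) (nat_lit 4) (nat_lit 346) (nat_lit 233) (nat_lit 201)) (XT.lf (nat_lit 0) (nat_lit 229587309) (nat_lit 152) (nat_lit 17333319031) (nat_lit 152) (nat_lit 3691718303) (nat_lit 14) (nat_lit 4) (nat_lit 16) (nat_lit 5) (nat_lit 16) (nat_lit 4) (nat_lit 347) (nat_lit 233) (nat_lit 200))) (XT.nd (nat_lit 78) (nat_lit 76) (nat_lit 0) (XT.lf (nat_lit 0) (nat_lit 6017079431) (nat_lit 152) (nat_lit 14825734104) (nat_lit 152) (nat_lit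 943668749) (nat_lit 14) (nat_lit 4) (nat_lit 16) (nat_lit 5) (nat_lit 16) (nat_lit 4) (nat_lit 348) (nat_lit 233) (nat_lit 199)) (XT.nd (nat_lit 78) (nat_lit 0) (nat_lit 0) (XT.lf (nat_lit 0) (nat_lit 1807202375) (nat_lit 228) (nat_lit 10446905336) (nat_lit 76) (nat_lit 10080969845) (nat_lit 13) (nat_lit 5) (nat_lit 16) (nat_lit 5) (nat_lit 14) (nat_lit 4) (nat_lit 349) (nat_lit 233) (nat_lit 198)) (XT.lf (nat_lit 0) (nat_lit 4580078246) (nat_lit 228) (nat_lit 5044628290) (nat_lit 76) (nat_lit 13276431249) (nat_lit 13) (nat_lit 5) (nat_lit 16) (nat_lit 5) (nat_lit 14) (nat_lit 4) (nat_lit 350) (nat_lit 233) (nat_lit 197))))) (XT.nd (nat_lit 234) (nat_lit 152) (nat_lit 0) (XT.nd (nat_lit 78) (nat_lit 0) (nat_lit 0) (XT.lf (nat_lit 0) (nat_lit 460199998) (nat_lit 76) (nat_lit 6940019867) (nat_lit 152) (nat_lit 16085077146) (nat_lit 12) (nat_lit 5) (nat_lit 13) (nat_lit 5) (nat_lit 14) (nat_lit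 4) (nat_lit 351) (nat_lit 233) (nat_lit 196)) (XT.nd (nat_lit 78) (nat_lit 0) (nat_lit 0) (XT.lf (nat_lit 0) (nat_lit 6165757386) (nat_lit 76) (nat_lit 4150328043) (nat_lit 152) (nat_lit 13770600415) (nat_lit 12) (nat_lit 5) (nat_lit 13) (nat_lit 5) (nat_lit 14) (nat_lit 4) (nat_lit 352) (nat_lit 233) (nat_lit 195)) (XT.lf (nat_lit 0) (nat_lit 11976631316) (nat_lit 76) (nat_lit 1304134324) (nat_lit 152) (nat_lit 11426547843) (nat_lit 12) (nat_lit 5) (nat_lit 13) (nat_lit 5) (nat_lit 14) (nat_lit 4) (nat_lit 353) (nat_lit 233) (nat_lit 194)))) (XT.nd (nat_lit 78) (nat_lit 152) (nat_lit 0) (XT.lf (nat_lit 0) (nat_lit 16312241253) (nat_lit 152) (nat_lit 7465213229) (nat_lit 0) (nat_lit 1569806035) (nat_lit 12) (nat_lit 5) (nat_lit 14) (nat_lit 4) (nat_lit 12) (nat_lit 4) (nat_lit 354) (nat_lit 233) (nat_lit 193)) (XT.nd (nat_lit 78) (nat_lit 152) (nat_lit 0) (XT.lf (nat_lit 0) (nat_lit 19410885000)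 (nat_lit 152) (nat_lit 2117644621) (nat_lit 0) (nat_lit 4478624785) (nat_lit 12) (nat_lit 5) (nat_lit 14) (nat_lit 4) (nat_lit 12) (nat_lit 4) (nat_lit 355) (nat_lit 233) (nat_lit 192)) (XT.lf (nat_lit 0) (nat_lit 3395490678) (nat_lit 152) (nat_lit 19204017153) (nat_lit 152) (nat_lit 4087460824) (nat_lit 10) (nat_lit 4) (nat_lit 12) (nat_lit 5) (nat_lit 12) (nat_lit 4) (nat_lit 356) (nat_lit 233) (nat_lit 191)))))) (XT.nd (nat_lit 390) (nat_lit 76) (nat_lit 0) (XT.nd (nat_lit 156) (nat_lit 76) (nat_lit 0) (XT.nd (nat_lit 78) (nat_lit 76) (nat_lit 0) (XT.lf (nat_lit 0) (nat_lit 9056910260) (nat_lit 152) (nat_lit 16813099104) (nat_lit 152) (nat_lit 1517614510) (nat_lit 10) (nat_lit 4) (nat_lit 12) (nat_lit 5) (nat_lit 12) (nat_lit 4) (nat_lit 357) (nat_lit 233) (nat_lit 190)) (XT.lf (nat_lit 0) (nat_lit 1072780538) (nat_lit 228) (nat_lit 13291456864) (nat_lit 76) (nat_lit 13745802196) (nat_lit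 9) (nat_lit 5) (nat_lit 12) (nat_lit 5) (nat_lit 10) (nat_lit 4) (nat_lit 358) (nat_lit 233) (nat_lit 189))) (XT.nd (nat_lit 78) (nat_lit 76) (nat_lit 0) (XT.lf (nat_lit 0) (nat_lit 3676880603) (nat_lit 228) (nat_lit 8173790782) (nat_lit 76) (nat_lit 17004041089) (nat_lit 9) (nat_lit 5) (nat_lit 12) (nat_lit 5) (nat_lit 10) (nat_lit 4) (nat_lit 359) (nat_lit 233) (nat_lit 188)) (XT.nd (nat_lit 78) (nat_lit 76) (nat_lit 0) (XT.lf (nat_lit 0) (nat_lit 6326575238) (nat_lit 228) (nat_lit 2958655383) (nat_lit 76) (nat_lit 20337500215) (nat_lit 9) (nat_lit 5) (nat_lit 12) (nat_lit 5) (nat_lit 10) (nat_lit 4) (nat_lit 360) (nat_lit 233) (nat_lit 187)) (XT.lf (nat_lit 0) (nat_lit 2405445145) (nat_lit 76) (nat_lit 6641857174) (nat_lit 152) (nat_lit 21366769771) (nat_lit 8) (nat_lit 5) (nat_lit 9) (nat_lit 5) (nat_lit 10) (nat_lit 4) (nat_lit 361) (nat_lit 233) (nat_lit 186))))) (XT.nd (nat_lit 234) (nat_lit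 76) (nat_lit 0) (XT.nd (nat_lit 78) (nat_lit 0) (nat_lit 0) (XT.lf (nat_lit 0) (nat_lit 7937224001) (nat_lit 76) (nat_lit 3911124599) (nat_lit 152) (nat_lit 19380871816) (nat_lit 8) (nat_lit 5) (nat_lit 9) (nat_lit 5) (nat_lit 10) (nat_lit 4) (nat_lit 362) (nat_lit 233) (nat_lit 185)) (XT.nd (nat_lit 78) (nat_lit 0) (nat_lit 0) (XT.lf (nat_lit 0) (nat_lit 13582631733) (nat_lit 76) (nat_lit 1120523437) (nat_lit 152) (nat_lit 17366603102) (nat_lit 8) (nat_lit 5) (nat_lit 9) (nat_lit 5) (nat_lit 10) (nat_lit 4) (nat_lit 363) (nat_lit 233) (nat_lit 184)) (XT.lf (nat_lit 0) (nat_lit 17630869263) (nat_lit 152) (nat_lit 13606471630) (nat_lit 0) (nat_lit 1698579634) (nat_lit 8) (nat_lit 5) (nat_lit 10) (nat_lit 4) (nat_lit 8) (nat_lit 4) (nat_lit 364) (nat_lit 233) (nat_lit 183)))) (XT.nd (nat_lit 78) (nat_lit 76) (nat_lit 0) (XT.lf (nat_lit 0) (nat_lit 20628775834) (nat_lit 152) (nat_lit 8640493795)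 (nat_lit 0) (nat_lit 4559352589) (nat_lit 8) (nat_lit 5) (nat_lit 10) (nat_lit 4) (nat_lit 8) (nat_lit 4) (nat_lit 365) (nat_lit 233) (nat_lit 182)) (XT.nd (nat_lit 78) (nat_lit 76) (nat_lit 0) (XT.lf (nat_lit 0) (nat_lit 23688723258) (nat_lit 152) (nat_lit 3574082675) (nat_lit 0) (nat_lit 7486160579) (nat_lit 8) (nat_lit 5) (nat_lit 10) (nat_lit 4) (nat_lit 8) (nat_lit 4) (nat_lit 366) (nat_lit 233) (nat_lit 181)) (XT.lf (nat_lit 0) (nat_lit 1628975877) (nat_lit 76) (nat_lit 25200068109) (nat_lit 76) (nat_lit 8868243844) (nat_lit 7) (nat_lit 4) (nat_lit 8) (nat_lit 5) (nat_lit 8) (nat_lit 4) (nat_lit 367) (nat_lit 233) (nat_lit 180))))))) (XT.nd (nat_lit 858) (nat_lit 76) (nat_lit 0) (XT.nd (nat_lit 390) (nat_lit 76) (nat_lit 0) (XT.nd (nat_lit 156) (nat_lit 76) (nat_lit 0) (XT.nd (nat_lit 78) (nat_lit 0) (nat_lit 0) (XT.lf (nat_lit 0) (nat_lit 7014721369) (nat_lit 76) (nat_lit 23058200593)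 (nat_lit 76) (nat_lit 6600879642) (nat_lit 7) (nat_lit 4) (nat_lit 8) (nat_lit 5) (nat_lit 8) (nat_lit 4) (nat_lit 368) (nat_lit 233) (nat_lit 179)) (XT.lf (nat_lit 0) (nat_lit 12516728539) (nat_lit 76) (nat_lit 20871423077) (nat_lit 76) (nat_lit 4292260684) (nat_lit 7) (nat_lit 4) (nat_lit 8) (nat_lit 5) (nat_lit 8) (nat_lit 4) (nat_lit 369) (nat_lit 233) (nat_lit 178))) (XT.nd (nat_lit 78) (nat_lit 76) (nat_lit 0) (XT.lf (nat_lit 0) (nat_lit 18139804966) (nat_lit 76) (nat_lit 18637824784) (nat_lit 76) (nat_lit 1940369729) (nat_lit 7) (nat_lit 4) (nat_lit 8) (nat_lit 5) (nat_lit 8) (nat_lit 4) (nat_lit 370) (nat_lit 233) (nat_lit 177)) (XT.nd (nat_lit 78) (nat_lit 0) (nat_lit 0) (XT.lf (nat_lit 0) (nat_lit 447933516) (nat_lit 152) (nat_lit 15902997261) (nat_lit 76) (nat_lit 23436407250) (nat_lit 6) (nat_lit 5) (nat_lit 8) (nat_lit 5) (nat_lit 7) (nat_lit 4) (nat_lit 371) (nat_lit 233) (nat_lit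 176)) (XT.lf (nat_lit 0) (nat_lit 2844869495) (nat_lit 152) (nat_lit 11148719404) (nat_lit 76) (nat_lit 26895332043) (nat_lit 6) (nat_lit 5) (nat_lit 8) (nat_lit 5) (nat_lit 7) (nat_lit 4) (nat_lit 372) (nat_lit 233) (nat_lit 175))))) (XT.nd (nat_lit 234) (nat_lit 0) (nat_lit 0) (XT.nd (nat_lit 78) (nat_lit 76) (nat_lit 0) (XT.lf (nat_lit 0) (nat_lit 5290396219) (nat_lit 152) (nat_lit 6292554698) (nat_lit 76) (nat_lit 30441319414) (nat_lit 6) (nat_lit 5) (nat_lit 8) (nat_lit 5) (nat_lit 7) (nat_lit 4) (nat_lit 373) (nat_lit 233) (nat_lit 174)) (XT.nd (nat_lit 78) (nat_lit 76) (nat_lit 0) (XT.lf (nat_lit 0) (nat_lit 7786650556) (nat_lit 152) (nat_lit 1330259892) (nat_lit 76) (nat_lit 34077467800) (nat_lit 6) (nat_lit 5) (nat_lit 8) (nat_lit 5) (nat_lit 7) (nat_lit 4) (nat_lit 374) (nat_lit 233) (nat_lit 173)) (XT.lf (nat_lit 0) (nat_lit 3816984106) (nat_lit 76) (nat_lit 6555520779) (nat_lit 152)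 (nat_lit 34026661496) (nat_lit 5) (nat_lit 5) (nat_lit 6) (nat_lit 5) (nat_lit 7) (nat_lit 4) (nat_lit 375) (nat_lit 233) (nat_lit 172)))) (XT.nd (nat_lit 78) (nat_lit 0) (nat_lit 0) (XT.lf (nat_lit 0) (nat_lit 9107888187) (nat_lit 76) (nat_lit 3919775478) (nat_lit 152) (nat_lit 32612700445) (nat_lit 5) (nat_lit 5) (nat_lit 6) (nat_lit 5) (nat_lit 7) (nat_lit 4) (nat_lit 376) (nat_lit 233) (nat_lit 171)) (XT.nd (nat_lit 78) (nat_lit 0) (nat_lit 0) (XT.lf (nat_lit 0) (nat_lit 14520600690) (nat_lit 76) (nat_lit 1220804483) (nat_lit 152) (nat_lit 31178042054) (nat_lit 5) (nat_lit 5) (nat_lit 6) (nat_lit 5) (nat_lit 7) (nat_lit 4) (nat_lit 377) (nat_lit 233) (nat_lit 170)) (XT.lf (nat_lit 0) (nat_lit 18530940116) (nat_lit 152) (nat_lit 28192521685) (nat_lit 0) (nat_lit 1513626395) (nat_lit 5) (nat_lit 5) (nat_lit 7) (nat_lit 4) (nat_lit 5) (nat_lit 4) (nat_lit 378) (nat_lit 233) (nat_lit 169))))))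 (XT.nd (nat_lit 468) (nat_lit 76) (nat_lit 0) (XT.nd (nat_lit 234) (nat_lit 0) (nat_lit 0) (XT.nd (nat_lit 78) (nat_lit 0) (nat_lit 0) (XT.lf (nat_lit 0) (nat_lit 21396242283) (nat_lit 152) (nat_lit 23907362268) (nat_lit 0) (nat_lit 4290907711) (nat_lit 5) (nat_lit 5) (nat_lit 7) (nat_lit 4) (nat_lit 5) (nat_lit 4) (nat_lit 379) (nat_lit 233) (nat_lit 168)) (XT.nd (nat_lit 78) (nat_lit 0) (nat_lit 0) (XT.lf (nat_lit 0) (nat_lit 24328080216) (nat_lit 152) (nat_lit 19527888854) (nat_lit 0) (nat_lit 7137288508) (nat_lit 5) (nat_lit 5) (nat_lit 7) (nat_lit 4) (nat_lit 5) (nat_lit 4) (nat_lit 380) (nat_lit 233) (nat_lit 167)) (XT.lf (nat_lit 0) (nat_lit 27329015716) (nat_lit 152) (nat_lit 15050274717) (nat_lit 0) (nat_lit 10055255915) (nat_lit 5) (nat_lit 5) (nat_lit 7) (nat_lit 4) (nat_lit 5) (nat_lit 4) (nat_lit 381) (nat_lit 233) (nat_lit 166)))) (XT.nd (nat_lit 78) (nat_lit 0) (nat_lit 0) (XT.lf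 (nat_lit 0) (nat_lit 30401670960) (nat_lit 152) (nat_lit 10470607381) (nat_lit 0) (nat_lit 13047359611) (nat_lit 5) (nat_lit 5) (nat_lit 7) (nat_lit 4) (nat_lit 5) (nat_lit 4) (nat_lit 382) (nat_lit 233) (nat_lit 165)) (XT.nd (nat_lit 78) (nat_lit 0) (nat_lit 0) (XT.lf (nat_lit 0) (nat_lit 33548730791) (nat_lit 152) (nat_lit 5784885193) (nat_lit 0) (nat_lit 16116214058) (nat_lit 5) (nat_lit 5) (nat_lit 7) (nat_lit 4) (nat_lit 5) (nat_lit 4) (nat_lit 383) (nat_lit 233) (nat_lit 164)) (XT.lf (nat_lit 0) (nat_lit 36772945069) (nat_lit 152) (nat_lit 989013833) (nat_lit 0) (nat_lit 19264500776) (nat_lit 5) (nat_lit 5) (nat_lit 7) (nat_lit 4) (nat_lit 5) (nat_lit 4) (nat_lit 384) (nat_lit 233) (nat_lit 163))))) (XT.nd (nat_lit 234) (nat_lit 0) (nat_lit 0) (XT.nd (nat_lit 78) (nat_lit 0) (nat_lit 0) (XT.lf (nat_lit 0) (nat_lit 3999236779) (nat_lit 76) (nat_lit 36116337397) (nat_lit 76) (nat_lit 18534177028)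 (nat_lit 4) (nat_lit 4) (nat_lit 5) (nat_lit 5) (nat_lit 5) (nat_lit 4) (nat_lit 385) (nat_lit 233) (nat_lit 162)) (XT.nd (nat_lit 78) (nat_lit 0) (nat_lit 0) (XT.lf (nat_lit 0) (nat_lit 9128161896) (nat_lit 76) (nat_lit 34423759518) (nat_lit 76) (nat_lit 16770030143) (nat_lit 4) (nat_lit 4) (nat_lit 5) (nat_lit 5) (nat_lit 5) (nat_lit 4) (nat_lit 386) (nat_lit 233) (nat_lit 161)) (XT.lf (nat_lit 0) (nat_lit 14382559785) (nat_lit 76) (nat_lit 32692733414) (nat_lit 76) (nat_lit 14969519567) (nat_lit 4) (nat_lit 4) (nat_lit 5) (nat_lit 5) (nat_lit 5) (nat_lit 4) (nat_lit 387) (nat_lit 233) (nat_lit 160)))) (XT.nd (nat_lit 78) (nat_lit 0) (nat_lit 0) (XT.lf (nat_lit 0) (nat_lit 19767021670) (nat_lit 76) (nat_lit 30921746536) (nat_lit 76) (nat_lit 13131072037) (nat_lit 4) (nat_lit 4) (nat_lit 5) (nat_lit 5) (nat_lit 5) (nat_lit 4) (nat_lit 388) (nat_lit 233) (nat_lit 159)) (XT.nd (nat_lit 78) (nat_lit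 0) (nat_lit 0) (XT.lf (nat_lit 0) (nat_lit 25286252420) (nat_lit 76) (nat_lit 29109251423) (nat_lit 76) (nat_lit 11253081144) (nat_lit 4) (nat_lit 4) (nat_lit 5) (nat_lit 5) (nat_lit 5) (nat_lit 4) (nat_lit 389) (nat_lit 233) (nat_lit 158)) (XT.lf (nat_lit 0) (nat_lit 30945074663) (nat_lit 76) (nat_lit 27253664339) (nat_lit 76) (nat_lit 9333905925) (nat_lit 4) (nat_lit 4) (nat_lit 5) (nat_lit 5) (nat_lit 5) (nat_lit 4) (nat_lit 390) (nat_lit 233) (nat_lit 157))))))))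
noncomputable def xc45 : XT := (XT.nd (nat_lit 35334) (nat_lit 0) (nat_lit 1064) (XT.nd (nat_lit 34476) (nat_lit 0) (nat_lit 2660) (XT.nd (nat_lit 390) (nat_lit 76) (nat_lit 0) (XT.nd (nat_lit 156) (nat_lit 76) (nat_lit 0) (XT.nd (nat_lit 78) (nat_lit 0) (nat_lit 0) (XT.lf (nat_lit 0) (nat_lit 36748433002) (nat_lit 76) (nat_lit 25353363897) (nat_lit 76) (nat_lit 7371869431) (nat_lit 4) (nat_lit 4) (nat_lit 5) (nat_lit 5) (nat_lit 5) (nat_lit 4) (nat_lit 391) (nat_lit 233) (nat_lit 156)) (XT.lf (nat_lit 0) (nat_lit 42701398332) (nat_lit 76) (nat_lit 23406689642) (nat_lit 76) (nat_lit 5365257259) (nat_lit 4) (nat_lit 4) (nat_lit 5) (nat_lit 5) (nat_lit 5) (nat_lit 4) (nat_lit 392) (nat_lit 233) (nat_lit 155))) (XT.nd (nat_lit 78) (nat_lit 76) (nat_lit 0) (XT.lf (nat_lit 0) (nat_lit 48809172273) (nat_lit 76) (nat_lit 21411940596) (nat_lit 76) (nat_lit 3312316062) (nat_lit 4) (nat_lit 4) (nat_lit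 5) (nat_lit 5) (nat_lit 5) (nat_lit 4) (nat_lit 393) (nat_lit 233) (nat_lit 154)) (XT.nd (nat_lit 78) (nat_lit 76) (nat_lit 0) (XT.lf (nat_lit 0) (nat_lit 55077091715) (nat_lit 76) (nat_lit 19367373773) (nat_lit 76) (nat_lit 1211252005) (nat_lit 4) (nat_lit 4) (nat_lit 5) (nat_lit 5) (nat_lit 5) (nat_lit 4) (nat_lit 394) (nat_lit 233) (nat_lit 153)) (XT.lf (nat_lit 0) (nat_lit 921432478) (nat_lit 152) (nat_lit 16340465520) (nat_lit 76) (nat_lit 60579896341) (nat_lit 3) (nat_lit 5) (nat_lit 5) (nat_lit 5) (nat_lit 4) (nat_lit 4) (nat_lit 395) (nat_lit 233) (nat_lit 152))))) (XT.nd (nat_lit 234) (nat_lit 76) (nat_lit 0) (XT.nd (nat_lit 78) (nat_lit 0) (nat_lit 0) (XT.lf (nat_lit 0) (nat_lit 3081307796) (nat_lit 152) (nat_lit 12009172687) (nat_lit 76) (nat_lit 65002996149) (nat_lit 3) (nat_lit 5) (nat_lit 5) (nat_lit 5) (nat_lit 4) (nat_lit 4) (nat_lit 396) (nat_lit 233) (nat_lit 151)) (XT.nd (nat_lit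 78) (nat_lit 0) (nat_lit 0) (XT.lf (nat_lit 0) (nat_lit 5293897106) (nat_lit 152) (nat_lit 7569319360) (nat_lit 76) (nat_lit 69549864694) (nat_lit 3) (nat_lit 5) (nat_lit 5) (nat_lit 5) (nat_lit 4) (nat_lit 4) (nat_lit 397) (nat_lit 233) (nat_lit 150)) (XT.lf (nat_lit 0) (nat_lit 7561133740) (nat_lit 152) (nat_lit 3017026054) (nat_lit 76) (nat_lit 74224474967) (nat_lit 3) (nat_lit 5) (nat_lit 5) (nat_lit 5) (nat_lit 4) (nat_lit 4) (nat_lit 398) (nat_lit 233) (nat_lit 149)))) (XT.nd (nat_lit 78) (nat_lit 0) (nat_lit 0) (XT.lf (nat_lit 0) (nat_lit 1684556730) (nat_lit 76) (nat_lit 8216635037) (nat_lit 152) (nat_lit 77362547839) (nat_lit 2) (nat_lit 5) (nat_lit 3) (nat_lit 5) (nat_lit 4) (nat_lit 4) (nat_lit 399) (nat_lit 233) (nat_lit 148)) (XT.nd (nat_lit 78) (nat_lit 0) (nat_lit 0) (XT.lf (nat_lit 0) (nat_lit 6569079546) (nat_lit 76) (nat_lit 5761589246) (nat_lit 152) (nat_lit 77467440795) (nat_lit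 2) (nat_lit 5) (nat_lit 3) (nat_lit 5) (nat_lit 4) (nat_lit 4) (nat_lit 400) (nat_lit 233) (nat_lit 147)) (XT.lf (nat_lit 0) (nat_lit 11580765687) (nat_lit 76) (nat_lit 3241343283) (nat_lit 152) (nat_lit 77586737592) (nat_lit 2) (nat_lit 5) (nat_lit 3) (nat_lit 5) (nat_lit 4) (nat_lit 4) (nat_lit 401) (nat_lit 233) (nat_lit 146)))))) (XT.nd (nat_lit 390) (nat_lit 836) (nat_lit 0) (XT.nd (nat_lit 156) (nat_lit 608) (nat_lit 0) (XT.nd (nat_lit 78) (nat_lit 0) (nat_lit 0) (XT.lf (nat_lit 0) (nat_lit 350446232) (nat_lit 304) (nat_lit 4385539755) (nat_lit 0) (nat_lit 350446232) (nat_lit 56) (nat_lit 5) (nat_lit 60) (nat_lit 4) (nat_lit 56) (nat_lit 4) (nat_lit 312) (nat_lit 234) (nat_lit 234)) (XT.lf (nat_lit 0) (nat_lit 4120788866) (nat_lit 304) (nat_lit 2909958747) (nat_lit 0) (nat_lit 3312852024) (nat_lit 56) (nat_lit 5) (nat_lit 60) (nat_lit 4) (nat_lit 56) (nat_lit 4) (nat_lit 313) (nat_lit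 234) (nat_lit 233))) (XT.nd (nat_lit 78) (nat_lit 304) (nat_lit 0) (XT.lf (nat_lit 0) (nat_lit 3068539286) (nat_lit 304) (nat_lit 4522486072) (nat_lit 304) (nat_lit 2930144530) (nat_lit 52) (nat_lit 4) (nat_lit 56) (nat_lit 5) (nat_lit 56) (nat_lit 4) (nat_lit 314) (nat_lit 234) (nat_lit 232)) (XT.nd (nat_lit 78) (nat_lit 228) (nat_lit 0) (XT.lf (nat_lit 0) (nat_lit 400541871) (nat_lit 380) (nat_lit 1540799504) (nat_lit 76) (nat_lit 8764282537) (nat_lit 51) (nat_lit 5) (nat_lit 56) (nat_lit 5) (nat_lit 52) (nat_lit 4) (nat_lit 315) (nat_lit 234) (nat_lit 231)) (XT.lf (nat_lit 0) (nat_lit 3743628591) (nat_lit 304) (nat_lit 6411656560) (nat_lit 0) (nat_lit 740447848) (nat_lit 48) (nat_lit 5) (nat_lit 52) (nat_lit 4) (nat_lit 48) (nat_lit 4) (nat_lit 316) (nat_lit 234) (nat_lit 230))))) (XT.nd (nat_lit 234) (nat_lit 304) (nat_lit 0) (XT.nd (nat_lit 78) (nat_lit 532) (nat_lit 0) (XT.lf (nat_lit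 0) (nat_lit 7143733163) (nat_lit 304) (nat_lit 505620525) (nat_lit 0) (nat_lit 3443619003) (nat_lit 48) (nat_lit 5) (nat_lit 52) (nat_lit 4) (nat_lit 48) (nat_lit 4) (nat_lit 317) (nat_lit 234) (nat_lit 229)) (XT.nd (nat_lit 78) (nat_lit 304) (nat_lit 0) (XT.lf (nat_lit 0) (nat_lit 5573293140) (nat_lit 228) (nat_lit 5050190513) (nat_lit 228) (nat_lit 673441968) (nat_lit 45) (nat_lit 4) (nat_lit 48) (nat_lit 5) (nat_lit 48) (nat_lit 4) (nat_lit 318) (nat_lit 234) (nat_lit 228)) (XT.lf (nat_lit 0) (nat_lit 202461180) (nat_lit 228) (nat_lit 2376916313) (nat_lit 304) (nat_lit 8929015568) (nat_lit 41) (nat_lit 5) (nat_lit 44) (nat_lit 5) (nat_lit 45) (nat_lit 4) (nat_lit 319) (nat_lit 234) (nat_lit 227)))) (XT.nd (nat_lit 78) (nat_lit 304) (nat_lit 0) (XT.lf (nat_lit 0) (nat_lit 5903337843) (nat_lit 304) (nat_lit 5426110296) (nat_lit 0) (nat_lit 397058294) (nat_lit 41) (nat_lit 5) (nat_lit 45) (nat_lit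 4) (nat_lit 41) (nat_lit 4) (nat_lit 320) (nat_lit 234) (nat_lit 226)) (XT.nd (nat_lit 78) (nat_lit 76) (nat_lit 0) (XT.lf (nat_lit 0) (nat_lit 505319591) (nat_lit 228) (nat_lit 8777372576) (nat_lit 228) (nat_lit 2669912139) (nat_lit 38) (nat_lit 4) (nat_lit 41) (nat_lit 5) (nat_lit 41) (nat_lit 4) (nat_lit 321) (nat_lit 234) (nat_lit 225)) (XT.lf (nat_lit 0) (nat_lit 549528617) (nat_lit 304) (nat_lit 5575588107) (nat_lit 76) (nat_lit 6060820756) (nat_lit 37) (nat_lit 5) (nat_lit 41) (nat_lit 5) (nat_lit 38) (nat_lit 4) (nat_lit 322) (nat_lit 234) (nat_lit 224))))))) (XT.nd (nat_lit 858) (nat_lit 608) (nat_lit 0) (XT.nd (nat_lit 390) (nat_lit 532) (nat_lit 0) (XT.nd (nat_lit 156) (nat_lit 304) (nat_lit 0) (XT.nd (nat_lit 78) (nat_lit 0) (nat_lit 0) (XT.lf (nat_lit 0) (nat_lit 344220180) (nat_lit 152) (nat_lit 3400618256) (nat_lit 228) (nat_lit 8682752622) (nat_lit 35) (nat_lit 5) (nat_lit 37)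 (nat_lit 5) (nat_lit 38) (nat_lit 4) (nat_lit 323) (nat_lit 234) (nat_lit 223)) (XT.lf (nat_lit 0) (nat_lit 6448657360) (nat_lit 152) (nat_lit 574310561) (nat_lit 228) (nat_lit 5654016448) (nat_lit 35) (nat_lit 5) (nat_lit 37) (nat_lit 5) (nat_lit 38) (nat_lit 4) (nat_lit 324) (nat_lit 234) (nat_lit 222))) (XT.nd (nat_lit 78) (nat_lit 304) (nat_lit 0) (XT.lf (nat_lit 0) (nat_lit 10354227581) (nat_lit 228) (nat_lit 325991689) (nat_lit 0) (nat_lit 2255092675) (nat_lit 35) (nat_lit 5) (nat_lit 38) (nat_lit 4) (nat_lit 35) (nat_lit 4) (nat_lit 325) (nat_lit 234) (nat_lit 221)) (XT.nd (nat_lit 78) (nat_lit 0) (nat_lit 0) (XT.lf (nat_lit 0) (nat_lit 567824667) (nat_lit 304) (nat_lit 7449930360) (nat_lit 76) (nat_lit 5183700873) (nat_lit 31) (nat_lit 5) (nat_lit 35) (nat_lit 5) (nat_lit 32) (nat_lit 4) (nat_lit 326) (nat_lit 234) (nat_lit 220)) (XT.lf (nat_lit 0) (nat_lit 3697148095) (nat_lit 304)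 (nat_lit 1586218877) (nat_lit 76) (nat_lit 8193403714) (nat_lit 31) (nat_lit 5) (nat_lit 35) (nat_lit 5) (nat_lit 32) (nat_lit 4) (nat_lit 327) (nat_lit 234) (nat_lit 219))))) (XT.nd (nat_lit 234) (nat_lit 228) (nat_lit 0) (XT.nd (nat_lit 78) (nat_lit 152) (nat_lit 0) (XT.lf (nat_lit 0) (nat_lit 4439850775) (nat_lit 152) (nat_lit 2459586677) (nat_lit 228) (nat_lit 6861620220) (nat_lit 29) (nat_lit 5) (nat_lit 31) (nat_lit 5) (nat_lit 32) (nat_lit 4) (nat_lit 328) (nat_lit 234) (nat_lit 218)) (XT.nd (nat_lit 78) (nat_lit 152) (nat_lit 0) (XT.lf (nat_lit 0) (nat_lit 10155242169) (nat_lit 228) (nat_lit 3479469113) (nat_lit 0) (nat_lit 420521444) (nat_lit 29) (nat_lit 5) (nat_lit 32) (nat_lit 4) (nat_lit 29) (nat_lit 4) (nat_lit 329) (nat_lit 234) (nat_lit 217)) (XT.lf (nat_lit 0) (nat_lit 2463352818) (nat_lit 152) (nat_lit 11032191278) (nat_lit 152) (nat_lit 863164689) (nat_lit 27) (nat_lit 4)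 (nat_lit 29) (nat_lit 5) (nat_lit 29) (nat_lit 4) (nat_lit 330) (nat_lit 234) (nat_lit 216)))) (XT.nd (nat_lit 78) (nat_lit 152) (nat_lit 0) (XT.lf (nat_lit 0) (nat_lit 2195024277) (nat_lit 228) (nat_lit 6134783484) (nat_lit 76) (nat_lit 6341670519) (nat_lit 26) (nat_lit 5) (nat_lit 29) (nat_lit 5) (nat_lit 27) (nat_lit 4) (nat_lit 331) (nat_lit 234) (nat_lit 215)) (XT.nd (nat_lit 78) (nat_lit 152) (nat_lit 0) (XT.lf (nat_lit 0) (nat_lit 5268356145) (nat_lit 228) (nat_lit 305294723) (nat_lit 76) (nat_lit 9421574846) (nat_lit 26) (nat_lit 5) (nat_lit 29) (nat_lit 5) (nat_lit 27) (nat_lit 4) (nat_lit 332) (nat_lit 234) (nat_lit 214)) (XT.lf (nat_lit 0) (nat_lit 5718081680) (nat_lit 152) (nat_lit 2713243820) (nat_lit 228) (nat_lit 6897508418) (nat_lit 24) (nat_lit 5) (nat_lit 26) (nat_lit 5) (nat_lit 27) (nat_lit 4) (nat_lit 333) (nat_lit 234) (nat_lit 213)))))) (XT.nd (nat_lit 468) (nat_lit 304)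 (nat_lit 0) (XT.nd (nat_lit 234) (nat_lit 76) (nat_lit 0) (XT.nd (nat_lit 78) (nat_lit 228) (nat_lit 0) (XT.lf (nat_lit 0) (nat_lit 11637467241) (nat_lit 228) (nat_lit 3839315637) (nat_lit 0) (nat_lit 197288384) (nat_lit 24) (nat_lit 5) (nat_lit 27) (nat_lit 4) (nat_lit 24) (nat_lit 4) (nat_lit 334) (nat_lit 234) (nat_lit 212)) (XT.nd (nat_lit 78) (nat_lit 76) (nat_lit 0) (XT.lf (nat_lit 0) (nat_lit 2027571952) (nat_lit 152) (nat_lit 12903167963) (nat_lit 152) (nat_lit 1099264782) (nat_lit 22) (nat_lit 4) (nat_lit 24) (nat_lit 5) (nat_lit 24) (nat_lit 4) (nat_lit 335) (nat_lit 234) (nat_lit 211)) (XT.lf (nat_lit 0) (nat_lit 1872501822) (nat_lit 228) (nat_lit 8355854891) (nat_lit 76) (nat_lit 6168250626) (nat_lit 21) (nat_lit 5) (nat_lit 24) (nat_lit 5) (nat_lit 22) (nat_lit 4) (nat_lit 336) (nat_lit 234) (nat_lit 210)))) (XT.nd (nat_lit 78) (nat_lit 76) (nat_lit 0) (XT.lf (nat_lit 0) (nat_lit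 4857677552) (nat_lit 228) (nat_lit 2638793220) (nat_lit 76) (nat_lit 9279081923) (nat_lit 21) (nat_lit 5) (nat_lit 24) (nat_lit 5) (nat_lit 22) (nat_lit 4) (nat_lit 337) (nat_lit 234) (nat_lit 209)) (XT.nd (nat_lit 78) (nat_lit 0) (nat_lit 0) (XT.lf (nat_lit 0) (nat_lit 3227290627) (nat_lit 76) (nat_lit 4684053490) (nat_lit 152) (nat_lit 9255214083) (nat_lit 20) (nat_lit 5) (nat_lit 21) (nat_lit 5) (nat_lit 22) (nat_lit 4) (nat_lit 338) (nat_lit 234) (nat_lit 208)) (XT.lf (nat_lit 0) (nat_lit 9238821827) (nat_lit 76) (nat_lit 1793061971) (nat_lit 152) (nat_lit 6538210297) (nat_lit 20) (nat_lit 5) (nat_lit 21) (nat_lit 5) (nat_lit 22) (nat_lit 4) (nat_lit 339) (nat_lit 234) (nat_lit 207))))) (XT.nd (nat_lit 234) (nat_lit 76) (nat_lit 0) (XT.nd (nat_lit 78) (nat_lit 228) (nat_lit 0) (XT.lf (nat_lit 0) (nat_lit 14207230168) (nat_lit 152) (nat_lit 2649830494) (nat_lit 0) (nat_lit 1129896110) (nat_lit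 20) (nat_lit 5) (nat_lit 22) (nat_lit 4) (nat_lit 20) (nat_lit 4) (nat_lit 340) (nat_lit 234) (nat_lit 206)) (XT.nd (nat_lit 78) (nat_lit 76) (nat_lit 0) (XT.lf (nat_lit 0) (nat_lit 3165087267) (nat_lit 152) (nat_lit 14312192389) (nat_lit 152) (nat_lit 939117170) (nat_lit 18) (nat_lit 4) (nat_lit 20) (nat_lit 5) (nat_lit 20) (nat_lit 4) (nat_lit 341) (nat_lit 234) (nat_lit 205)) (XT.lf (nat_lit 0) (nat_lit 1926351031) (nat_lit 228) (nat_lit 9749709964) (nat_lit 76) (nat_lit 7182785547) (nat_lit 17) (nat_lit 5) (nat_lit 20) (nat_lit 5) (nat_lit 18) (nat_lit 4) (nat_lit 342) (nat_lit 234) (nat_lit 204)))) (XT.nd (nat_lit 78) (nat_lit 76) (nat_lit 0) (XT.lf (nat_lit 0) (nat_lit 4811709256) (nat_lit 228) (nat_lit 4171197176) (nat_lit 76) (nat_lit 10332850463) (nat_lit 17) (nat_lit 5) (nat_lit 20) (nat_lit 5) (nat_lit 18) (nat_lit 4) (nat_lit 343) (nat_lit 234) (nat_lit 203)) (XT.nd (nat_lit 78)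 (nat_lit 0) (nat_lit 0) (XT.lf (nat_lit 0) (nat_lit 1527946337) (nat_lit 76) (nat_lit 6224545465) (nat_lit 152) (nat_lit 12034865518) (nat_lit 16) (nat_lit 5) (nat_lit 17) (nat_lit 5) (nat_lit 18) (nat_lit 4) (nat_lit 344) (nat_lit 234) (nat_lit 202)) (XT.lf (nat_lit 0) (nat_lit 7407779612) (nat_lit 76) (nat_lit 3370621286) (nat_lit 152) (nat_lit 9494845022) (nat_lit 16) (nat_lit 5) (nat_lit 17) (nat_lit 5) (nat_lit 18) (nat_lit 4) (nat_lit 345) (nat_lit 234) (nat_lit 201))))))))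
noncomputable def xc46 : XT := (XT.nd (nat_lit 1716) (nat_lit 304) (nat_lit 0) (XT.nd (nat_lit 858) (nat_lit 152) (nat_lit 0) (XT.nd (nat_lit 390) (nat_lit 228) (nat_lit 0) (XT.nd (nat_lit 156) (nat_lit 228) (nat_lit 0) (XT.nd (nat_lit 78) (nat_lit 0) (nat_lit 0) (XT.lf (nat_lit 0) (nat_lit 13390425362) (nat_lit 76) (nat_lit 460761089) (nat_lit 152) (nat_lit 6923887628) (nat_lit 16) (nat_lit 5) (nat_lit 17) (nat_lit 5) (nat_lit 18) (nat_lit 4) (nat_lit 346) (nat_lit 234) (nat_lit 200)) (XT.lf (nat_lit 0) (nat_lit 16997637792) (nat_lit 152) (nat_lit 1836273516) (nat_lit 0) (nat_lit 2458645849) (nat_lit 16) (nat_lit 5) (nat_lit 18) (nat_lit 4) (nat_lit 16) (nat_lit 4) (nat_lit 347) (nat_lit 234) (nat_lit 199))) (XT.nd (nat_lit 78) (nat_lit 76) (nat_lit 0) (XT.lf (nat_lit 0) (nat_lit 3879316070) (nat_lit 152) (nat_lit 16359369282) (nat_lit 152) (nat_lit 1586916536) (nat_lit 14) (nat_lit 4) (nat_lit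 16) (nat_lit 5) (nat_lit 16) (nat_lit 4) (nat_lit 348) (nat_lit 234) (nat_lit 198)) (XT.nd (nat_lit 78) (nat_lit 0) (nat_lit 0) (XT.lf (nat_lit 0) (nat_lit 1156036433) (nat_lit 228) (nat_lit 12652359760) (nat_lit 76) (nat_lit 8566620652) (nat_lit 13) (nat_lit 5) (nat_lit 16) (nat_lit 5) (nat_lit 14) (nat_lit 4) (nat_lit 349) (nat_lit 234) (nat_lit 197)) (XT.lf (nat_lit 0) (nat_lit 3909038288) (nat_lit 228) (nat_lit 7283825190) (nat_lit 76) (nat_lit 11748829310) (nat_lit 13) (nat_lit 5) (nat_lit 16) (nat_lit 5) (nat_lit 14) (nat_lit 4) (nat_lit 350) (nat_lit 234) (nat_lit 196))))) (XT.nd (nat_lit 234) (nat_lit 152) (nat_lit 0) (XT.nd (nat_lit 78) (nat_lit 76) (nat_lit 0) (XT.lf (nat_lit 0) (nat_lit 6705461023) (nat_lit 228) (nat_lit 1820736746) (nat_lit 76) (nat_lit 15000384739) (nat_lit 13) (nat_lit 5) (nat_lit 16) (nat_lit 5) (nat_lit 14) (nat_lit 4) (nat_lit 351) (nat_lit 234) (nat_lit 195))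 (XT.nd (nat_lit 78) (nat_lit 0) (nat_lit 0) (XT.lf (nat_lit 0) (nat_lit 3816145898) (nat_lit 76) (nat_lit 5768285343) (nat_lit 152) (nat_lit 14544665335) (nat_lit 12) (nat_lit 5) (nat_lit 13) (nat_lit 5) (nat_lit 14) (nat_lit 4) (nat_lit 352) (nat_lit 234) (nat_lit 194)) (XT.lf (nat_lit 0) (nat_lit 9595526127) (nat_lit 76) (nat_lit 2935095049) (nat_lit 152) (nat_lit 12219675588) (nat_lit 12) (nat_lit 5) (nat_lit 13) (nat_lit 5) (nat_lit 14) (nat_lit 4) (nat_lit 353) (nat_lit 234) (nat_lit 193)))) (XT.nd (nat_lit 78) (nat_lit 152) (nat_lit 0) (XT.lf (nat_lit 0) (nat_lit 15486217653) (nat_lit 76) (nat_lit 42537155) (nat_lit 152) (nat_lit 9862506569) (nat_lit 12) (nat_lit 5) (nat_lit 13) (nat_lit 5) (nat_lit 14) (nat_lit 4) (nat_lit 354) (nat_lit 234) (nat_lit 192)) (XT.nd (nat_lit 78) (nat_lit 152) (nat_lit 0) (XT.lf (nat_lit 0) (nat_lit 18609442982) (nat_lit 152) (nat_lit 4587173918) (nat_lit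 0) (nat_lit 2855093850) (nat_lit 12) (nat_lit 5) (nat_lit 14) (nat_lit 4) (nat_lit 12) (nat_lit 4) (nat_lit 355) (nat_lit 234) (nat_lit 191)) (XT.lf (nat_lit 0) (nat_lit 847000386) (nat_lit 152) (nat_lit 20909532167) (nat_lit 152) (nat_lit 4976254769) (nat_lit 10) (nat_lit 4) (nat_lit 12) (nat_lit 5) (nat_lit 12) (nat_lit 4) (nat_lit 356) (nat_lit 234) (nat_lit 190)))))) (XT.nd (nat_lit 390) (nat_lit 76) (nat_lit 0) (XT.nd (nat_lit 156) (nat_lit 0) (nat_lit 0) (XT.nd (nat_lit 78) (nat_lit 76) (nat_lit 0) (XT.lf (nat_lit 0) (nat_lit 6479475773) (nat_lit 152) (nat_lit 18530740654) (nat_lit 152) (nat_lit 2423746494) (nat_lit 10) (nat_lit 4) (nat_lit 12) (nat_lit 5) (nat_lit 12) (nat_lit 4) (nat_lit 357) (nat_lit 234) (nat_lit 189)) (XT.lf (nat_lit 0) (nat_lit 167825878) (nat_lit 228) (nat_lit 15934964677) (nat_lit 76) (nat_lit 12054359476) (nat_lit 9) (nat_lit 5) (nat_lit 12) (nat_lit 5) (nat_lit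 10) (nat_lit 4) (nat_lit 358) (nat_lit 234) (nat_lit 188))) (XT.nd (nat_lit 78) (nat_lit 0) (nat_lit 0) (XT.lf (nat_lit 0) (nat_lit 2755902085) (nat_lit 228) (nat_lit 10844914687) (nat_lit 76) (nat_lit 15301501358) (nat_lit 9) (nat_lit 5) (nat_lit 12) (nat_lit 5) (nat_lit 10) (nat_lit 4) (nat_lit 359) (nat_lit 234) (nat_lit 187)) (XT.nd (nat_lit 78) (nat_lit 0) (nat_lit 0) (XT.lf (nat_lit 0) (nat_lit 5390039576) (nat_lit 228) (nat_lit 5656591027) (nat_lit 76) (nat_lit 18624186687) (nat_lit 9) (nat_lit 5) (nat_lit 12) (nat_lit 5) (nat_lit 10) (nat_lit 4) (nat_lit 360) (nat_lit 234) (nat_lit 186)) (XT.lf (nat_lit 0) (nat_lit 8072540024) (nat_lit 228) (nat_lit 365460211) (nat_lit 76) (nat_lit 22025318780) (nat_lit 9) (nat_lit 5) (nat_lit 12) (nat_lit 5) (nat_lit 10) (nat_lit 4) (nat_lit 361) (nat_lit 234) (nat_lit 185))))) (XT.nd (nat_lit 234) (nat_lit 0) (nat_lit 0) (XT.nd (nat_lit 78) (nat_lit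 0) (nat_lit 0) (XT.lf (nat_lit 0) (nat_lit 5133269658) (nat_lit 76) (nat_lit 5721821831) (nat_lit 152) (nat_lit 20423943971) (nat_lit 8) (nat_lit 5) (nat_lit 9) (nat_lit 5) (nat_lit 10) (nat_lit 4) (nat_lit 362) (nat_lit 234) (nat_lit 184)) (XT.nd (nat_lit 78) (nat_lit 0) (nat_lit 0) (XT.lf (nat_lit 0) (nat_lit 10753652525) (nat_lit 76) (nat_lit 2941767989) (nat_lit 152) (nat_lit 18424600016) (nat_lit 8) (nat_lit 5) (nat_lit 9) (nat_lit 5) (nat_lit 10) (nat_lit 4) (nat_lit 363) (nat_lit 234) (nat_lit 183)) (XT.lf (nat_lit 0) (nat_lit 16493326029) (nat_lit 76) (nat_lit 99099968) (nat_lit 152) (nat_lit 16394690560) (nat_lit 8) (nat_lit 5) (nat_lit 9) (nat_lit 5) (nat_lit 10) (nat_lit 4) (nat_lit 364) (nat_lit 234) (nat_lit 182)))) (XT.nd (nat_lit 78) (nat_lit 0) (nat_lit 0) (XT.lf (nat_lit 0) (nat_lit 19575637917) (nat_lit 152) (nat_lit 11550774394) (nat_lit 0) (nat_lit 2753858924) (nat_lit 8)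 (nat_lit 5) (nat_lit 10) (nat_lit 4) (nat_lit 8) (nat_lit 4) (nat_lit 365) (nat_lit 234) (nat_lit 181)) (XT.nd (nat_lit 78) (nat_lit 0) (nat_lit 0) (XT.lf (nat_lit 0) (nat_lit 22622243553) (nat_lit 152) (nat_lit 6507581051) (nat_lit 0) (nat_lit 5671202973) (nat_lit 8) (nat_lit 5) (nat_lit 10) (nat_lit 4) (nat_lit 8) (nat_lit 4) (nat_lit 366) (nat_lit 234) (nat_lit 180)) (XT.lf (nat_lit 0) (nat_lit 25733952376) (nat_lit 152) (nat_lit 1358851216) (nat_lit 0) (nat_lit 8657415111) (nat_lit 8) (nat_lit 5) (nat_lit 10) (nat_lit 4) (nat_lit 8) (nat_lit 4) (nat_lit 367) (nat_lit 234) (nat_lit 179))))))) (XT.nd (nat_lit 858) (nat_lit 76) (nat_lit 0) (XT.nd (nat_lit 390) (nat_lit 76) (nat_lit 0) (XT.nd (nat_lit 156) (nat_lit 76) (nat_lit 0) (XT.nd (nat_lit 78) (nat_lit 0) (nat_lit 0) (XT.lf (nat_lit 0) (nat_lit 3977529936) (nat_lit 76) (nat_lit 24974187871) (nat_lit 76) (nat_lit 7775809164) (nat_lit 7)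 (nat_lit 4) (nat_lit 8) (nat_lit 5) (nat_lit 8) (nat_lit 4) (nat_lit 368) (nat_lit 234) (nat_lit 178)) (XT.lf (nat_lit 0) (nat_lit 9457866683) (nat_lit 76) (nat_lit 22796662842) (nat_lit 76) (nat_lit 5479991473) (nat_lit 7) (nat_lit 4) (nat_lit 8) (nat_lit 5) (nat_lit 8) (nat_lit 4) (nat_lit 369) (nat_lit 234) (nat_lit 177))) (XT.nd (nat_lit 78) (nat_lit 76) (nat_lit 0) (XT.lf (nat_lit 0) (nat_lit 15059903865) (nat_lit 76) (nat_lit 20572047547) (nat_lit 76) (nat_lit 3140528933) (nat_lit 7) (nat_lit 4) (nat_lit 8) (nat_lit 5) (nat_lit 8) (nat_lit 4) (nat_lit 370) (nat_lit 234) (nat_lit 176)) (XT.nd (nat_lit 78) (nat_lit 76) (nat_lit 0) (XT.lf (nat_lit 0) (nat_lit 20788536464) (nat_lit 76) (nat_lit 18298398147) (nat_lit 76) (nat_lit 755377354) (nat_lit 7) (nat_lit 4) (nat_lit 8) (nat_lit 5) (nat_lit 8) (nat_lit 4) (nat_lit 371) (nat_lit 234) (nat_lit 175)) (XT.lf (nat_lit 0) (nat_lit 1644812386)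 (nat_lit 152) (nat_lit 14312306193) (nat_lit 76) (nat_lit 24987348316) (nat_lit 6) (nat_lit 5) (nat_lit 8) (nat_lit 5) (nat_lit 7) (nat_lit 4) (nat_lit 372) (nat_lit 234) (nat_lit 174))))) (XT.nd (nat_lit 234) (nat_lit 0) (nat_lit 0) (XT.nd (nat_lit 78) (nat_lit 76) (nat_lit 0) (XT.lf (nat_lit 0) (nat_lit 4079187292) (nat_lit 152) (nat_lit 9475626631) (nat_lit 76) (nat_lit 28525346225) (nat_lit 6) (nat_lit 5) (nat_lit 8) (nat_lit 5) (nat_lit 7) (nat_lit 4) (nat_lit 373) (nat_lit 234) (nat_lit 173)) (XT.nd (nat_lit 78) (nat_lit 76) (nat_lit 0) (XT.lf (nat_lit 0) (nat_lit 6564614622) (nat_lit 152) (nat_lit 4532249440) (nat_lit 76) (nat_lit 32153737852) (nat_lit 6) (nat_lit 5) (nat_lit 8) (nat_lit 5) (nat_lit 7) (nat_lit 4) (nat_lit 374) (nat_lit 234) (nat_lit 172)) (XT.lf (nat_lit 0) (nat_lit 532536539) (nat_lit 76) (nat_lit 8575848636) (nat_lit 152) (nat_lit 35348276163) (nat_lit 5) (nat_lit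 5) (nat_lit 6) (nat_lit 5) (nat_lit 7) (nat_lit 4) (nat_lit 375) (nat_lit 234) (nat_lit 171)))) (XT.nd (nat_lit 78) (nat_lit 0) (nat_lit 0) (XT.lf (nat_lit 0) (nat_lit 5805254068) (nat_lit 76) (nat_lit 5947909574) (nat_lit 152) (nat_lit 33945015354) (nat_lit 5) (nat_lit 5) (nat_lit 6) (nat_lit 5) (nat_lit 7) (nat_lit 4) (nat_lit 376) (nat_lit 234) (nat_lit 170)) (XT.nd (nat_lit 78) (nat_lit 0) (nat_lit 0) (XT.lf (nat_lit 0) (nat_lit 11200309725) (nat_lit 76) (nat_lit 3256517453) (nat_lit 152) (nat_lit 32520745548) (nat_lit 5) (nat_lit 5) (nat_lit 6) (nat_lit 5) (nat_lit 7) (nat_lit 4) (nat_lit 377) (nat_lit 234) (nat_lit 169)) (XT.lf (nat_lit 0) (nat_lit 16722417636) (nat_lit 76) (nat_lit 499320570) (nat_lit 152) (nat_lit 31074222238) (nat_lit 5) (nat_lit 5) (nat_lit 6) (nat_lit 5) (nat_lit 7) (nat_lit 4) (nat_lit 378) (nat_lit 234) (nat_lit 168)))))) (XT.nd (nat_lit 468) (nat_lit 76) (nat_lit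 0) (XT.nd (nat_lit 234) (nat_lit 0) (nat_lit 0) (XT.nd (nat_lit 78) (nat_lit 0) (nat_lit 0) (XT.lf (nat_lit 0) (nat_lit 20072672471) (nat_lit 152) (nat_lit 27300450998) (nat_lit 0) (nat_lit 2280699875) (nat_lit 5) (nat_lit 5) (nat_lit 7) (nat_lit 4) (nat_lit 5) (nat_lit 4) (nat_lit 379) (nat_lit 234) (nat_lit 167)) (XT.nd (nat_lit 78) (nat_lit 0) (nat_lit 0) (XT.lf (nat_lit 0) (nat_lit 22995220960) (nat_lit 152) (nat_lit 22937353683) (nat_lit 0) (nat_lit 5120280271) (nat_lit 5) (nat_lit 5) (nat_lit 7) (nat_lit 4) (nat_lit 5) (nat_lit 4) (nat_lit 380) (nat_lit 234) (nat_lit 166)) (XT.lf (nat_lit 0) (nat_lit 25987137582) (nat_lit 152) (nat_lit 18475638671) (nat_lit 0) (nat_lit 8031645347) (nat_lit 5) (nat_lit 5) (nat_lit 7) (nat_lit 4) (nat_lit 5) (nat_lit 4) (nat_lit 381) (nat_lit 234) (nat_lit 165)))) (XT.nd (nat_lit 78) (nat_lit 0) (nat_lit 0) (XT.lf (nat_lit 0) (nat_lit 29051036634) (nat_lit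 152) (nat_lit 13911407378) (nat_lit 0) (nat_lit 11017339013) (nat_lit 5) (nat_lit 5) (nat_lit 7) (nat_lit 4) (nat_lit 5) (nat_lit 4) (nat_lit 382) (nat_lit 234) (nat_lit 164)) (XT.nd (nat_lit 78) (nat_lit 0) (nat_lit 0) (XT.lf (nat_lit 0) (nat_lit 32189595308) (nat_lit 152) (nat_lit 9240671640) (nat_lit 0) (nat_lit 14079970129) (nat_lit 5) (nat_lit 5) (nat_lit 7) (nat_lit 4) (nat_lit 5) (nat_lit 4) (nat_lit 383) (nat_lit 234) (nat_lit 163)) (XT.lf (nat_lit 0) (nat_lit 35405556035) (nat_lit 152) (nat_lit 4459350232) (nat_lit 0) (nat_lit 17222214779) (nat_lit 5) (nat_lit 5) (nat_lit 7) (nat_lit 4) (nat_lit 5) (nat_lit 4) (nat_lit 384) (nat_lit 234) (nat_lit 162))))) (XT.nd (nat_lit 234) (nat_lit 0) (nat_lit 0) (XT.nd (nat_lit 78) (nat_lit 0) (nat_lit 0) (XT.lf (nat_lit 0) (nat_lit 445426576) (nat_lit 76) (nat_lit 38260584013) (nat_lit 76) (nat_lit 20005673751) (nat_lit 4) (nat_lit 4) (nat_lit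 5) (nat_lit 5) (nat_lit 5) (nat_lit 4) (nat_lit 385) (nat_lit 234) (nat_lit 161)) (XT.nd (nat_lit 78) (nat_lit 0) (nat_lit 0) (XT.lf (nat_lit 0) (nat_lit 5560364017) (nat_lit 76) (nat_lit 36574079588) (nat_lit 76) (nat_lit 18249684854) (nat_lit 4) (nat_lit 4) (nat_lit 5) (nat_lit 5) (nat_lit 5) (nat_lit 4) (nat_lit 386) (nat_lit 234) (nat_lit 160)) (XT.lf (nat_lit 0) (nat_lit 10801181641) (nat_lit 76) (nat_lit 34848950040) (nat_lit 76) (nat_lit 16457094654) (nat_lit 4) (nat_lit 4) (nat_lit 5) (nat_lit 5) (nat_lit 5) (nat_lit 4) (nat_lit 387) (nat_lit 234) (nat_lit 159)))) (XT.nd (nat_lit 78) (nat_lit 0) (nat_lit 0) (XT.lf (nat_lit 0) (nat_lit 16172458800) (nat_lit 76) (nat_lit 33083687976) (nat_lit 76) (nat_lit 14626336810) (nat_lit 4) (nat_lit 4) (nat_lit 5) (nat_lit 5) (nat_lit 5) (nat_lit 4) (nat_lit 388) (nat_lit 234) (nat_lit 158)) (XT.nd (nat_lit 78) (nat_lit 0) (nat_lit 0) (XT.lf (nat_lit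 0) (nat_lit 21678888846) (nat_lit 76) (nat_lit 31276750932) (nat_lit 76) (nat_lit 12755811632) (nat_lit 4) (nat_lit 4) (nat_lit 5) (nat_lit 5) (nat_lit 5) (nat_lit 4) (nat_lit 389) (nat_lit 234) (nat_lit 157)) (XT.lf (nat_lit 0) (nat_lit 27325283221) (nat_lit 76) (nat_lit 29426560033) (nat_lit 76) (nat_lit 10843884679) (nat_lit 4) (nat_lit 4) (nat_lit 5) (nat_lit 5) (nat_lit 5) (nat_lit 4) (nat_lit 390) (nat_lit 234) (nat_lit 156))))))))
noncomputable def xc47 : XT := (XT.nd (nat_lit 35256) (nat_lit 0) (nat_lit 1140) (XT.nd (nat_lit 34320) (nat_lit 0) (nat_lit 2964) (XT.nd (nat_lit 390) (nat_lit 152) (nat_lit 0) (XT.nd (nat_lit 156) (nat_lit 0) (nat_lit 0) (XT.nd (nat_lit 78) (nat_lit 0) (nat_lit 0) (XT.lf (nat_lit 0) (nat_lit 33116575669) (nat_lit 76) (nat_lit 27531498606) (nat_lit 76) (nat_lit 8888885336) (nat_lit 4) (nat_lit 4) (nat_lit 5) (nat_lit 5) (nat_lit 5) (nat_lit 4) (nat_lit 391)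 (nat_lit 234) (nat_lit 155)) (XT.lf (nat_lit 0) (nat_lit 39057826541) (nat_lit 76) (nat_lit 25589910773) (nat_lit 76) (nat_lit 6889105352) (nat_lit 4) (nat_lit 4) (nat_lit 5) (nat_lit 5) (nat_lit 5) (nat_lit 4) (nat_lit 392) (nat_lit 234) (nat_lit 154))) (XT.nd (nat_lit 78) (nat_lit 0) (nat_lit 0) (XT.lf (nat_lit 0) (nat_lit 45154227223) (nat_lit 76) (nat_lit 23600100000) (nat_lit 76) (nat_lit 4842797344) (nat_lit 4) (nat_lit 4) (nat_lit 5) (nat_lit 5) (nat_lit 5) (nat_lit 4) (nat_lit 393) (nat_lit 234) (nat_lit 153)) (XT.nd (nat_lit 78) (nat_lit 0) (nat_lit 0) (XT.lf (nat_lit 0) (nat_lit 51411104665) (nat_lit 76) (nat_lit 21560327618) (nat_lit 76) (nat_lit 2748173279) (nat_lit 4) (nat_lit 4) (nat_lit 5) (nat_lit 5) (nat_lit 5) (nat_lit 4) (nat_lit 394) (nat_lit 234) (nat_lit 152)) (XT.lf (nat_lit 0) (nat_lit 57833926043) (nat_lit 76) (nat_lit 19468811302) (nat_lit 76) (nat_lit 603402900) (nat_lit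 4) (nat_lit 4) (nat_lit 5) (nat_lit 5) (nat_lit 5) (nat_lit 4) (nat_lit 395) (nat_lit 234) (nat_lit 151))))) (XT.nd (nat_lit 234) (nat_lit 76) (nat_lit 0) (XT.nd (nat_lit 78) (nat_lit 0) (nat_lit 0) (XT.lf (nat_lit 0) (nat_lit 1562295125) (nat_lit 152) (nat_lit 15745652269) (nat_lit 76) (nat_lit 62850232288) (nat_lit 3) (nat_lit 5) (nat_lit 5) (nat_lit 5) (nat_lit 4) (nat_lit 4) (nat_lit 396) (nat_lit 234) (nat_lit 150)) (XT.nd (nat_lit 78) (nat_lit 0) (nat_lit 0) (XT.lf (nat_lit 0) (nat_lit 3769105935) (nat_lit 152) (nat_lit 11316023386) (nat_lit 76) (nat_lit 67392832691) (nat_lit 3) (nat_lit 5) (nat_lit 5) (nat_lit 5) (nat_lit 4) (nat_lit 4) (nat_lit 397) (nat_lit 234) (nat_lit 149)) (XT.lf (nat_lit 0) (nat_lit 6030732374) (nat_lit 152) (nat_lit 6773656725) (nat_lit 76) (nat_lit 72063299137) (nat_lit 3) (nat_lit 5) (nat_lit 5) (nat_lit 5) (nat_lit 4) (nat_lit 4) (nat_lit 398) (nat_lit 234)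 (nat_lit 148)))) (XT.nd (nat_lit 78) (nat_lit 76) (nat_lit 0) (XT.lf (nat_lit 0) (nat_lit 8349150621) (nat_lit 152) (nat_lit 2114583228) (nat_lit 76) (nat_lit 76865712616) (nat_lit 3) (nat_lit 5) (nat_lit 5) (nat_lit 5) (nat_lit 4) (nat_lit 4) (nat_lit 399) (nat_lit 234) (nat_lit 147)) (XT.nd (nat_lit 78) (nat_lit 0) (nat_lit 0) (XT.lf (nat_lit 0) (nat_lit 2718312200) (nat_lit 76) (nat_lit 8034204357) (nat_lit 152) (nat_lit 79112087291) (nat_lit 2) (nat_lit 5) (nat_lit 3) (nat_lit 5) (nat_lit 4) (nat_lit 4) (nat_lit 400) (nat_lit 234) (nat_lit 146)) (XT.lf (nat_lit 0) (nat_lit 7720733261) (nat_lit 76) (nat_lit 5518000291) (nat_lit 152) (nat_lit 79236767919) (nat_lit 2) (nat_lit 5) (nat_lit 3) (nat_lit 5) (nat_lit 4) (nat_lit 4) (nat_lit 401) (nat_lit 234) (nat_lit 145)))))) (XT.nd (nat_lit 468) (nat_lit 760) (nat_lit 0) (XT.nd (nat_lit 234) (nat_lit 380) (nat_lit 0) (XT.nd (nat_lit 78) (nat_lit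 608) (nat_lit 0) (XT.lf (nat_lit 0) (nat_lit 2344430796) (nat_lit 380) (nat_lit 234350472) (nat_lit 0) (nat_lit 2344430796) (nat_lit 64) (nat_lit 5) (nat_lit 69) (nat_lit 4) (nat_lit 64) (nat_lit 4) (nat_lit 310) (nat_lit 235) (nat_lit 235)) (XT.nd (nat_lit 78) (nat_lit 304) (nat_lit 0) (XT.lf (nat_lit 0) (nat_lit 5481733353) (nat_lit 304) (nat_lit 2691228846) (nat_lit 304) (nat_lit 1834088650) (nat_lit 60) (nat_lit 4) (nat_lit 64) (nat_lit 5) (nat_lit 64) (nat_lit 4) (nat_lit 311) (nat_lit 235) (nat_lit 234)) (XT.lf (nat_lit 0) (nat_lit 1341561561) (nat_lit 228) (nat_lit 151481149) (nat_lit 304) (nat_lit 8681096188) (nat_lit 56) (nat_lit 5) (nat_lit 59) (nat_lit 5) (nat_lit 60) (nat_lit 4) (nat_lit 312) (nat_lit 235) (nat_lit 233)))) (XT.nd (nat_lit 78) (nat_lit 380) (nat_lit 0) (XT.lf (nat_lit 0) (nat_lit 4871210334) (nat_lit 304) (nat_lit 3028293354) (nat_lit 0) (nat_lit 2446693845) (nat_lit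 56) (nat_lit 5) (nat_lit 60) (nat_lit 4) (nat_lit 56) (nat_lit 4) (nat_lit 313) (nat_lit 235) (nat_lit 232)) (XT.nd (nat_lit 78) (nat_lit 76) (nat_lit 0) (XT.lf (nat_lit 0) (nat_lit 2890128176) (nat_lit 304) (nat_lit 5410503993) (nat_lit 304) (nat_lit 2224429542) (nat_lit 52) (nat_lit 4) (nat_lit 56) (nat_lit 5) (nat_lit 56) (nat_lit 4) (nat_lit 314) (nat_lit 235) (nat_lit 231)) (XT.lf (nat_lit 0) (nat_lit 1053538959) (nat_lit 380) (nat_lit 1786767024) (nat_lit 76) (nat_lit 7870240145) (nat_lit 51) (nat_lit 5) (nat_lit 56) (nat_lit 5) (nat_lit 52) (nat_lit 4) (nat_lit 315) (nat_lit 235) (nat_lit 230))))) (XT.nd (nat_lit 234) (nat_lit 304) (nat_lit 0) (XT.nd (nat_lit 78) (nat_lit 228) (nat_lit 0) (XT.lf (nat_lit 0) (nat_lit 4184367587) (nat_lit 228) (nat_lit 164233456) (nat_lit 304) (nat_lit 6553558502) (nat_lit 48) (nat_lit 5) (nat_lit 51) (nat_lit 5) (nat_lit 52) (nat_lit 4) (nat_lit 316) (nat_lit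 235) (nat_lit 229)) (XT.nd (nat_lit 78) (nat_lit 228) (nat_lit 0) (XT.lf (nat_lit 0) (nat_lit 7709722409) (nat_lit 304) (nat_lit 865871040) (nat_lit 0) (nat_lit 2525037023) (nat_lit 48) (nat_lit 5) (nat_lit 52) (nat_lit 4) (nat_lit 48) (nat_lit 4) (nat_lit 317) (nat_lit 235) (nat_lit 228)) (XT.lf (nat_lit 0) (nat_lit 5150725122) (nat_lit 228) (nat_lit 5998370753) (nat_lit 228) (nat_lit 156758779) (nat_lit 45) (nat_lit 4) (nat_lit 48) (nat_lit 5) (nat_lit 48) (nat_lit 4) (nat_lit 318) (nat_lit 235) (nat_lit 227)))) (XT.nd (nat_lit 78) (nat_lit 228) (nat_lit 0) (XT.lf (nat_lit 0) (nat_lit 3047848918) (nat_lit 304) (nat_lit 292271472) (nat_lit 76) (nat_lit 8178253086) (nat_lit 44) (nat_lit 5) (nat_lit 48) (nat_lit 5) (nat_lit 45) (nat_lit 4) (nat_lit 319) (nat_lit 235) (nat_lit 226)) (XT.nd (nat_lit 78) (nat_lit 0) (nat_lit 0) (XT.lf (nat_lit 0) (nat_lit 5750070569) (nat_lit 228) (nat_lit 579334189)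 (nat_lit 304) (nat_lit 5408409080) (nat_lit 41) (nat_lit 5) (nat_lit 44) (nat_lit 5) (nat_lit 45) (nat_lit 4) (nat_lit 320) (nat_lit 235) (nat_lit 225)) (XT.lf (nat_lit 0) (nat_lit 9663555309) (nat_lit 304) (nat_lit 113746364) (nat_lit 0) (nat_lit 2188019407) (nat_lit 41) (nat_lit 5) (nat_lit 45) (nat_lit 4) (nat_lit 41) (nat_lit 4) (nat_lit 321) (nat_lit 235) (nat_lit 224))))))) (XT.nd (nat_lit 858) (nat_lit 684) (nat_lit 0) (XT.nd (nat_lit 390) (nat_lit 380) (nat_lit 0) (XT.nd (nat_lit 156) (nat_lit 456) (nat_lit 0) (XT.nd (nat_lit 78) (nat_lit 0) (nat_lit 0) (XT.lf (nat_lit 0) (nat_lit 874704614) (nat_lit 304) (nat_lit 6266556179) (nat_lit 76) (nat_lit 5058411090) (nat_lit 37) (nat_lit 5) (nat_lit 41) (nat_lit 5) (nat_lit 38) (nat_lit 4) (nat_lit 322) (nat_lit 235) (nat_lit 223)) (XT.lf (nat_lit 0) (nat_lit 4033054794) (nat_lit 304) (nat_lit 405270989) (nat_lit 76) (nat_lit 8004157205) (nat_lit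 37) (nat_lit 5) (nat_lit 41) (nat_lit 5) (nat_lit 38) (nat_lit 4) (nat_lit 323) (nat_lit 235) (nat_lit 222))) (XT.nd (nat_lit 78) (nat_lit 304) (nat_lit 0) (XT.lf (nat_lit 0) (nat_lit 5639802284) (nat_lit 152) (nat_lit 1634244975) (nat_lit 228) (nat_lit 5418990468) (nat_lit 35) (nat_lit 5) (nat_lit 37) (nat_lit 5) (nat_lit 38) (nat_lit 4) (nat_lit 324) (nat_lit 235) (nat_lit 221)) (XT.nd (nat_lit 78) (nat_lit 304) (nat_lit 0) (XT.lf (nat_lit 0) (nat_lit 10562751100) (nat_lit 228) (nat_lit 1191358114) (nat_lit 0) (nat_lit 1198578704) (nat_lit 35) (nat_lit 5) (nat_lit 38) (nat_lit 4) (nat_lit 35) (nat_lit 4) (nat_lit 325) (nat_lit 235) (nat_lit 220)) (XT.lf (nat_lit 0) (nat_lit 714408190) (nat_lit 304) (nat_lit 8402738845) (nat_lit 76) (nat_lit 4102898037) (nat_lit 31) (nat_lit 5) (nat_lit 35) (nat_lit 5) (nat_lit 32) (nat_lit 4) (nat_lit 326) (nat_lit 235) (nat_lit 219))))) (XT.nd (nat_lit 234)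 (nat_lit 228) (nat_lit 0) (XT.nd (nat_lit 78) (nat_lit 152) (nat_lit 0) (XT.lf (nat_lit 0) (nat_lit 3812405345) (nat_lit 304) (nat_lit 2588382365) (nat_lit 76) (nat_lit 7095553979) (nat_lit 31) (nat_lit 5) (nat_lit 35) (nat_lit 5) (nat_lit 32) (nat_lit 4) (nat_lit 327) (nat_lit 235) (nat_lit 218)) (XT.nd (nat_lit 78) (nat_lit 0) (nat_lit 0) (XT.lf (nat_lit 0) (nat_lit 3368871139) (nat_lit 152) (nat_lit 3605114795) (nat_lit 228) (nat_lit 6807904821) (nat_lit 29) (nat_lit 5) (nat_lit 31) (nat_lit 5) (nat_lit 32) (nat_lit 4) (nat_lit 328) (nat_lit 235) (nat_lit 217)) (XT.lf (nat_lit 0) (nat_lit 9461582721) (nat_lit 152) (nat_lit 734101056) (nat_lit 228) (nat_lit 3881444866) (nat_lit 29) (nat_lit 5) (nat_lit 31) (nat_lit 5) (nat_lit 32) (nat_lit 4) (nat_lit 329) (nat_lit 235) (nat_lit 216)))) (XT.nd (nat_lit 78) (nat_lit 76) (nat_lit 0) (XT.lf (nat_lit 0) (nat_lit 1264116677) (nat_lit 152) (nat_lit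 12224010837) (nat_lit 152) (nat_lit 893951407) (nat_lit 27) (nat_lit 4) (nat_lit 29) (nat_lit 5) (nat_lit 29) (nat_lit 4) (nat_lit 330) (nat_lit 235) (nat_lit 215)) (XT.nd (nat_lit 78) (nat_lit 0) (nat_lit 0) (XT.lf (nat_lit 0) (nat_lit 2135649150) (nat_lit 228) (nat_lit 7404066585) (nat_lit 76) (nat_lit 5156053500) (nat_lit 26) (nat_lit 5) (nat_lit 29) (nat_lit 5) (nat_lit 27) (nat_lit 4) (nat_lit 331) (nat_lit 235) (nat_lit 214)) (XT.lf (nat_lit 0) (nat_lit 5180642019) (nat_lit 228) (nat_lit 1620182449) (nat_lit 76) (nat_lit 8219577579) (nat_lit 26) (nat_lit 5) (nat_lit 29) (nat_lit 5) (nat_lit 27) (nat_lit 4) (nat_lit 332) (nat_lit 235) (nat_lit 213)))))) (XT.nd (nat_lit 468) (nat_lit 228) (nat_lit 0) (XT.nd (nat_lit 234) (nat_lit 152) (nat_lit 0) (XT.nd (nat_lit 78) (nat_lit 152) (nat_lit 0) (XT.lf (nat_lit 0) (nat_lit 4331867589) (nat_lit 152) (nat_lit 3970905057) (nat_lit 228) (nat_lit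 7052496950) (nat_lit 24) (nat_lit 5) (nat_lit 26) (nat_lit 5) (nat_lit 27) (nat_lit 4) (nat_lit 333) (nat_lit 235) (nat_lit 212)) (XT.nd (nat_lit 78) (nat_lit 152) (nat_lit 0) (XT.lf (nat_lit 0) (nat_lit 10406691507) (nat_lit 152) (nat_lit 1073155017) (nat_lit 228) (nat_lit 4221565641) (nat_lit 24) (nat_lit 5) (nat_lit 26) (nat_lit 5) (nat_lit 27) (nat_lit 4) (nat_lit 334) (nat_lit 235) (nat_lit 211)) (XT.lf (nat_lit 0) (nat_lit 509630364) (nat_lit 152) (nat_lit 14212082331) (nat_lit 152) (nat_lit 1337207320) (nat_lit 22) (nat_lit 4) (nat_lit 24) (nat_lit 5) (nat_lit 24) (nat_lit 4) (nat_lit 335) (nat_lit 235) (nat_lit 210)))) (XT.nd (nat_lit 78) (nat_lit 76) (nat_lit 0) (XT.lf (nat_lit 0) (nat_lit 1612773957) (nat_lit 228) (nat_lit 9943788937) (nat_lit 76) (nat_lit 4869851607) (nat_lit 21) (nat_lit 5) (nat_lit 24) (nat_lit 5) (nat_lit 22) (nat_lit 4) (nat_lit 336) (nat_lit 235) (nat_lit 209))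 (XT.nd (nat_lit 78) (nat_lit 76) (nat_lit 0) (XT.lf (nat_lit 0) (nat_lit 4572291003) (nat_lit 228) (nat_lit 4268828614) (nat_lit 76) (nat_lit 7965039485) (nat_lit 21) (nat_lit 5) (nat_lit 24) (nat_lit 5) (nat_lit 22) (nat_lit 4) (nat_lit 337) (nat_lit 235) (nat_lit 208)) (XT.lf (nat_lit 0) (nat_lit 1523125743) (nat_lit 76) (nat_lit 6061539008) (nat_lit 152) (nat_lit 9613767271) (nat_lit 20) (nat_lit 5) (nat_lit 21) (nat_lit 5) (nat_lit 22) (nat_lit 4) (nat_lit 338) (nat_lit 235) (nat_lit 207))))) (XT.nd (nat_lit 234) (nat_lit 76) (nat_lit 0) (XT.nd (nat_lit 78) (nat_lit 152) (nat_lit 0) (XT.lf (nat_lit 0) (nat_lit 7494182583) (nat_lit 76) (nat_lit 3186447014) (nat_lit 152) (nat_lit 6922103357) (nat_lit 20) (nat_lit 5) (nat_lit 21) (nat_lit 5) (nat_lit 22) (nat_lit 4) (nat_lit 339) (nat_lit 235) (nat_lit 206)) (XT.nd (nat_lit 78) (nat_lit 152) (nat_lit 0) (XT.lf (nat_lit 0) (nat_lit 13564601275)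 (nat_lit 76) (nat_lit 256438217) (nat_lit 152) (nat_lit 4199631219) (nat_lit 20) (nat_lit 5) (nat_lit 21) (nat_lit 5) (nat_lit 22) (nat_lit 4) (nat_lit 340) (nat_lit 235) (nat_lit 205)) (XT.lf (nat_lit 0) (nat_lit 1285915940) (nat_lit 152) (nat_lit 15761336055) (nat_lit 152) (nat_lit 1404200079) (nat_lit 18) (nat_lit 4) (nat_lit 20) (nat_lit 5) (nat_lit 20) (nat_lit 4) (nat_lit 341) (nat_lit 235) (nat_lit 204)))) (XT.nd (nat_lit 78) (nat_lit 0) (nat_lit 0) (XT.lf (nat_lit 0) (nat_lit 1447092974) (nat_lit 228) (nat_lit 11698301644) (nat_lit 76) (nat_lit 5749363503) (nat_lit 17) (nat_lit 5) (nat_lit 20) (nat_lit 5) (nat_lit 18) (nat_lit 4) (nat_lit 342) (nat_lit 235) (nat_lit 203)) (XT.nd (nat_lit 78) (nat_lit 0) (nat_lit 0) (XT.lf (nat_lit 0) (nat_lit 4309877810) (nat_lit 228) (nat_lit 6157493483) (nat_lit 76) (nat_lit 8884998358) (nat_lit 17) (nat_lit 5) (nat_lit 20) (nat_lit 5) (nat_lit 18)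 (nat_lit 4) (nat_lit 343) (nat_lit 235) (nat_lit 202)) (XT.lf (nat_lit 0) (nat_lit 7214056891) (nat_lit 228) (nat_lit 524772140) (nat_lit 76) (nat_lit 12086262428) (nat_lit 17) (nat_lit 5) (nat_lit 20) (nat_lit 5) (nat_lit 18) (nat_lit 4) (nat_lit 344) (nat_lit 235) (nat_lit 201))))))))
noncomputable def xc48 : XT := (XT.nd (nat_lit 1716) (nat_lit 304) (nat_lit 0) (XT.nd (nat_lit 858) (nat_lit 304) (nat_lit 0) (XT.nd (nat_lit 390) (nat_lit 76) (nat_lit 0) (XT.nd (nat_lit 156) (nat_lit 228) (nat_lit 0) (XT.nd (nat_lit 78) (nat_lit 0) (nat_lit 0) (XT.lf (nat_lit 0) (nat_lit 5308369591) (nat_lit 76) (nat_lit 4904825553) (nat_lit 152) (nat_lit 10098610639) (nat_lit 16) (nat_lit 5) (nat_lit 17) (nat_lit 5) (nat_lit 18) (nat_lit 4) (nat_lit 345) (nat_lit 235) (nat_lit 200)) (XT.lf (nat_lit 0) (nat_lit 11255823547) (nat_lit 76) (nat_lit 2009161016) (nat_lit 152) (nat_lit 7549301203) (nat_lit 16) (nat_lit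 5) (nat_lit 17) (nat_lit 5) (nat_lit 18) (nat_lit 4) (nat_lit 346) (nat_lit 235) (nat_lit 199))) (XT.nd (nat_lit 78) (nat_lit 228) (nat_lit 0) (XT.lf (nat_lit 0) (nat_lit 16376034658) (nat_lit 152) (nat_lit 4029869998) (nat_lit 0) (nat_lit 926947527) (nat_lit 16) (nat_lit 5) (nat_lit 18) (nat_lit 4) (nat_lit 16) (nat_lit 4) (nat_lit 347) (nat_lit 235) (nat_lit 198)) (XT.nd (nat_lit 78) (nat_lit 76) (nat_lit 0) (XT.lf (nat_lit 0) (nat_lit 1607735443) (nat_lit 152) (nat_lit 17967591459) (nat_lit 152) (nat_lit 2291843354) (nat_lit 14) (nat_lit 4) (nat_lit 16) (nat_lit 5) (nat_lit 16) (nat_lit 4) (nat_lit 348) (nat_lit 235) (nat_lit 197)) (XT.lf (nat_lit 0) (nat_lit 444991260) (nat_lit 228) (nat_lit 14992475043) (nat_lit 76) (nat_lit 6979937910) (nat_lit 13) (nat_lit 5) (nat_lit 16) (nat_lit 5) (nat_lit 14) (nat_lit 4) (nat_lit 349) (nat_lit 235) (nat_lit 196))))) (XT.nd (nat_lit 234) (nat_lit 0)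 (nat_lit 0) (XT.nd (nat_lit 78) (nat_lit 76) (nat_lit 0) (XT.lf (nat_lit 0) (nat_lit 3178697955) (nat_lit 228) (nat_lit 9656700159) (nat_lit 76) (nat_lit 10149279825) (nat_lit 13) (nat_lit 5) (nat_lit 16) (nat_lit 5) (nat_lit 14) (nat_lit 4) (nat_lit 350) (nat_lit 235) (nat_lit 195)) (XT.nd (nat_lit 78) (nat_lit 76) (nat_lit 0) (XT.lf (nat_lit 0) (nat_lit 5956387524) (nat_lit 228) (nat_lit 4225417234) (nat_lit 76) (nat_lit 13388343270) (nat_lit 13) (nat_lit 5) (nat_lit 16) (nat_lit 5) (nat_lit 14) (nat_lit 4) (nat_lit 351) (nat_lit 235) (nat_lit 194)) (XT.lf (nat_lit 0) (nat_lit 1332113852) (nat_lit 76) (nat_lit 7461178315) (nat_lit 152) (nat_lit 15380649737) (nat_lit 12) (nat_lit 5) (nat_lit 13) (nat_lit 5) (nat_lit 14) (nat_lit 4) (nat_lit 352) (nat_lit 235) (nat_lit 193)))) (XT.nd (nat_lit 78) (nat_lit 0) (nat_lit 0) (XT.lf (nat_lit 0) (nat_lit 7080917672) (nat_lit 76) (nat_lit 4640612705)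 (nat_lit 152) (nat_lit 13074167586) (nat_lit 12) (nat_lit 5) (nat_lit 13) (nat_lit 5) (nat_lit 14) (nat_lit 4) (nat_lit 353) (nat_lit 235) (nat_lit 192)) (XT.nd (nat_lit 78) (nat_lit 0) (nat_lit 0) (XT.lf (nat_lit 0) (nat_lit 12941923364) (nat_lit 76) (nat_lit 1760311786) (nat_lit 152) (nat_lit 10734967109) (nat_lit 12) (nat_lit 5) (nat_lit 13) (nat_lit 5) (nat_lit 14) (nat_lit 4) (nat_lit 354) (nat_lit 235) (nat_lit 191)) (XT.lf (nat_lit 0) (nat_lit 17749375411) (nat_lit 152) (nat_lit 7190127558) (nat_lit 0) (nat_lit 1159171426) (nat_lit 12) (nat_lit 5) (nat_lit 14) (nat_lit 4) (nat_lit 12) (nat_lit 4) (nat_lit 355) (nat_lit 235) (nat_lit 190)))))) (XT.nd (nat_lit 390) (nat_lit 76) (nat_lit 0) (XT.nd (nat_lit 156) (nat_lit 76) (nat_lit 0) (XT.nd (nat_lit 78) (nat_lit 152) (nat_lit 0) (XT.lf (nat_lit 0) (nat_lit 20871783668) (nat_lit 152) (nat_lit 1800860670) (nat_lit 0) (nat_lit 4107862920)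 (nat_lit 12) (nat_lit 5) (nat_lit 14) (nat_lit 4) (nat_lit 12) (nat_lit 4) (nat_lit 356) (nat_lit 235) (nat_lit 189)) (XT.lf (nat_lit 0) (nat_lit 3767672897) (nat_lit 152) (nat_lit 20323811323) (nat_lit 152) (nat_lit 3391233524) (nat_lit 10) (nat_lit 4) (nat_lit 12) (nat_lit 5) (nat_lit 12) (nat_lit 4) (nat_lit 357) (nat_lit 235) (nat_lit 188))) (XT.nd (nat_lit 78) (nat_lit 76) (nat_lit 0) (XT.lf (nat_lit 0) (nat_lit 9484794512) (nat_lit 152) (nat_lit 17908986361) (nat_lit 152) (nat_lit 812663851) (nat_lit 10) (nat_lit 4) (nat_lit 12) (nat_lit 5) (nat_lit 12) (nat_lit 4) (nat_lit 358) (nat_lit 235) (nat_lit 187)) (XT.nd (nat_lit 78) (nat_lit 0) (nat_lit 0) (XT.lf (nat_lit 0) (nat_lit 1775713209) (nat_lit 228) (nat_lit 13650600139) (nat_lit 76) (nat_lit 13526014626) (nat_lit 9) (nat_lit 5) (nat_lit 12) (nat_lit 5) (nat_lit 10) (nat_lit 4) (nat_lit 359) (nat_lit 235) (nat_lit 186)) (XT.lf (nat_lit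 0) (nat_lit 4394746677) (nat_lit 228) (nat_lit 8488307294) (nat_lit 76) (nat_lit 16838239957) (nat_lit 9) (nat_lit 5) (nat_lit 12) (nat_lit 5) (nat_lit 10) (nat_lit 4) (nat_lit 360) (nat_lit 235) (nat_lit 185))))) (XT.nd (nat_lit 234) (nat_lit 0) (nat_lit 0) (XT.nd (nat_lit 78) (nat_lit 76) (nat_lit 0) (XT.lf (nat_lit 0) (nat_lit 7062583024) (nat_lit 228) (nat_lit 3222449114) (nat_lit 76) (nat_lit 20229216713) (nat_lit 9) (nat_lit 5) (nat_lit 12) (nat_lit 5) (nat_lit 10) (nat_lit 4) (nat_lit 361) (nat_lit 235) (nat_lit 184)) (XT.nd (nat_lit 78) (nat_lit 0) (nat_lit 0) (XT.lf (nat_lit 0) (nat_lit 2194396210) (nat_lit 76) (nat_lit 7608251040) (nat_lit 152) (nat_lit 21528605551) (nat_lit 8) (nat_lit 5) (nat_lit 9) (nat_lit 5) (nat_lit 10) (nat_lit 4) (nat_lit 362) (nat_lit 235) (nat_lit 183)) (XT.lf (nat_lit 0) (nat_lit 7790483092) (nat_lit 76) (nat_lit 4838437314) (nat_lit 152) (nat_lit 19543751654)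 (nat_lit 8) (nat_lit 5) (nat_lit 9) (nat_lit 5) (nat_lit 10) (nat_lit 4) (nat_lit 363) (nat_lit 235) (nat_lit 182)))) (XT.nd (nat_lit 78) (nat_lit 0) (nat_lit 0) (XT.lf (nat_lit 0) (nat_lit 13506568261) (nat_lit 76) (nat_lit 2005711153) (nat_lit 152) (nat_lit 17527910215) (nat_lit 8) (nat_lit 5) (nat_lit 9) (nat_lit 5) (nat_lit 10) (nat_lit 4) (nat_lit 364) (nat_lit 235) (nat_lit 181)) (XT.nd (nat_lit 78) (nat_lit 0) (nat_lit 0) (XT.lf (nat_lit 0) (nat_lit 18463822033) (nat_lit 152) (nat_lit 14595495498) (nat_lit 0) (nat_lit 874988650) (nat_lit 8) (nat_lit 5) (nat_lit 10) (nat_lit 4) (nat_lit 8) (nat_lit 4) (nat_lit 365) (nat_lit 235) (nat_lit 180)) (XT.lf (nat_lit 0) (nat_lit 21497474476) (nat_lit 152) (nat_lit 9574843686) (nat_lit 0) (nat_lit 3783144407) (nat_lit 8) (nat_lit 5) (nat_lit 10) (nat_lit 4) (nat_lit 8) (nat_lit 4) (nat_lit 366) (nat_lit 235) (nat_lit 179))))))) (XT.nd (nat_lit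 858) (nat_lit 76) (nat_lit 0) (XT.nd (nat_lit 390) (nat_lit 152) (nat_lit 0) (XT.nd (nat_lit 156) (nat_lit 0) (nat_lit 0) (XT.nd (nat_lit 78) (nat_lit 76) (nat_lit 0) (XT.lf (nat_lit 0) (nat_lit 24596607384) (nat_lit 152) (nat_lit 4447998833) (nat_lit 0) (nat_lit 6760435874) (nat_lit 8) (nat_lit 5) (nat_lit 10) (nat_lit 4) (nat_lit 8) (nat_lit 4) (nat_lit 367) (nat_lit 235) (nat_lit 178)) (XT.lf (nat_lit 0) (nat_lit 805231802) (nat_lit 76) (nat_lit 26966437317) (nat_lit 76) (nat_lit 9011973144) (nat_lit 7) (nat_lit 4) (nat_lit 8) (nat_lit 5) (nat_lit 8) (nat_lit 4) (nat_lit 368) (nat_lit 235) (nat_lit 177))) (XT.nd (nat_lit 78) (nat_lit 0) (nat_lit 0) (XT.lf (nat_lit 0) (nat_lit 6264529304) (nat_lit 76) (nat_lit 24797895285) (nat_lit 76) (nat_lit 6728583868) (nat_lit 7) (nat_lit 4) (nat_lit 8) (nat_lit 5) (nat_lit 8) (nat_lit 4) (nat_lit 369) (nat_lit 235) (nat_lit 176)) (XT.nd (nat_lit 78)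 (nat_lit 0) (nat_lit 0) (XT.lf (nat_lit 0) (nat_lit 11846140033) (nat_lit 76) (nat_lit 22582001347) (nat_lit 76) (nat_lit 4401187750) (nat_lit 7) (nat_lit 4) (nat_lit 8) (nat_lit 5) (nat_lit 8) (nat_lit 4) (nat_lit 370) (nat_lit 235) (nat_lit 175)) (XT.lf (nat_lit 0) (nat_lit 17554941125) (nat_lit 76) (nat_lit 20316819284) (nat_lit 76) (nat_lit 2027751143) (nat_lit 7) (nat_lit 4) (nat_lit 8) (nat_lit 5) (nat_lit 8) (nat_lit 4) (nat_lit 371) (nat_lit 235) (nat_lit 174))))) (XT.nd (nat_lit 234) (nat_lit 76) (nat_lit 0) (XT.nd (nat_lit 78) (nat_lit 0) (nat_lit 0) (XT.lf (nat_lit 0) (nat_lit 386115374) (nat_lit 152) (nat_lit 17610355427) (nat_lit 76) (nat_lit 23005906470) (nat_lit 6) (nat_lit 5) (nat_lit 8) (nat_lit 5) (nat_lit 7) (nat_lit 4) (nat_lit 372) (nat_lit 235) (nat_lit 173)) (XT.nd (nat_lit 78) (nat_lit 0) (nat_lit 0) (XT.lf (nat_lit 0) (nat_lit 2809663274) (nat_lit 152) (nat_lit 12792593480)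 (nat_lit 76) (nat_lit 26536147621) (nat_lit 6) (nat_lit 5) (nat_lit 8) (nat_lit 5) (nat_lit 7) (nat_lit 4) (nat_lit 373) (nat_lit 235) (nat_lit 172)) (XT.lf (nat_lit 0) (nat_lit 5284578947) (nat_lit 152) (nat_lit 7867582907) (nat_lit 76) (nat_lit 30157008414) (nat_lit 6) (nat_lit 5) (nat_lit 8) (nat_lit 5) (nat_lit 7) (nat_lit 4) (nat_lit 374) (nat_lit 235) (nat_lit 171)))) (XT.nd (nat_lit 78) (nat_lit 76) (nat_lit 0) (XT.lf (nat_lit 0) (nat_lit 7813024941) (nat_lit 152) (nat_lit 2831020299) (nat_lit 76) (nat_lit 33871652708) (nat_lit 6) (nat_lit 5) (nat_lit 8) (nat_lit 5) (nat_lit 7) (nat_lit 4) (nat_lit 375) (nat_lit 235) (nat_lit 170)) (XT.nd (nat_lit 78) (nat_lit 0) (nat_lit 0) (XT.lf (nat_lit 0) (nat_lit 2367697527) (nat_lit 76) (nat_lit 8052272806) (nat_lit 152) (nat_lit 35338388538) (nat_lit 5) (nat_lit 5) (nat_lit 6) (nat_lit 5) (nat_lit 7) (nat_lit 4) (nat_lit 376) (nat_lit 235) (nat_lit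 169)) (XT.lf (nat_lit 0) (nat_lit 7745610615) (nat_lit 76) (nat_lit 5368238814) (nat_lit 152) (nat_lit 33924204737) (nat_lit 5) (nat_lit 5) (nat_lit 6) (nat_lit 5) (nat_lit 7) (nat_lit 4) (nat_lit 377) (nat_lit 235) (nat_lit 168)))))) (XT.nd (nat_lit 468) (nat_lit 76) (nat_lit 0) (XT.nd (nat_lit 234) (nat_lit 0) (nat_lit 0) (XT.nd (nat_lit 78) (nat_lit 0) (nat_lit 0) (XT.lf (nat_lit 0) (nat_lit 13251075254) (nat_lit 76) (nat_lit 2618185746) (nat_lit 152) (nat_lit 32487473664) (nat_lit 5) (nat_lit 5) (nat_lit 6) (nat_lit 5) (nat_lit 7) (nat_lit 4) (nat_lit 378) (nat_lit 235) (nat_lit 167)) (XT.nd (nat_lit 78) (nat_lit 0) (nat_lit 0) (XT.lf (nat_lit 0) (nat_lit 18690537993) (nat_lit 152) (nat_lit 30828575871) (nat_lit 0) (nat_lit 196380990) (nat_lit 5) (nat_lit 5) (nat_lit 7) (nat_lit 4) (nat_lit 5) (nat_lit 4) (nat_lit 379) (nat_lit 235) (nat_lit 166)) (XT.lf (nat_lit 0) (nat_lit 21604067604)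 (nat_lit 152) (nat_lit 26481377680) (nat_lit 0) (nat_lit 3029359055) (nat_lit 5) (nat_lit 5) (nat_lit 7) (nat_lit 4) (nat_lit 5) (nat_lit 4) (nat_lit 380) (nat_lit 235) (nat_lit 165)))) (XT.nd (nat_lit 78) (nat_lit 0) (nat_lit 0) (XT.lf (nat_lit 0) (nat_lit 24587228035) (nat_lit 152) (nat_lit 22035098712) (nat_lit 0) (nat_lit 5934314100) (nat_lit 5) (nat_lit 5) (nat_lit 7) (nat_lit 4) (nat_lit 5) (nat_lit 4) (nat_lit 381) (nat_lit 235) (nat_lit 164)) (XT.nd (nat_lit 78) (nat_lit 0) (nat_lit 0) (XT.lf (nat_lit 0) (nat_lit 27642625930) (nat_lit 152) (nat_lit 17485853870) (nat_lit 0) (nat_lit 8913784436) (nat_lit 5) (nat_lit 5) (nat_lit 7) (nat_lit 4) (nat_lit 5) (nat_lit 4) (nat_lit 382) (nat_lit 235) (nat_lit 163)) (XT.lf (nat_lit 0) (nat_lit 30772931053) (nat_lit 152) (nat_lit 12829668083) (nat_lit 0) (nat_lit 11970373483) (nat_lit 5) (nat_lit 5) (nat_lit 7) (nat_lit 4) (nat_lit 5) (nat_lit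 4) (nat_lit 383) (nat_lit 235) (nat_lit 162))))) (XT.nd (nat_lit 234) (nat_lit 0) (nat_lit 0) (XT.nd (nat_lit 78) (nat_lit 76) (nat_lit 0) (XT.lf (nat_lit 0) (nat_lit 33980878624) (nat_lit 152) (nat_lit 8062472842) (nat_lit 0) (nat_lit 15106752048) (nat_lit 5) (nat_lit 5) (nat_lit 7) (nat_lit 4) (nat_lit 5) (nat_lit 4) (nat_lit 384) (nat_lit 235) (nat_lit 161)) (XT.nd (nat_lit 78) (nat_lit 76) (nat_lit 0) (XT.lf (nat_lit 0) (nat_lit 37269271703) (nat_lit 152) (nat_lit 3180102634) (nat_lit 0) (nat_lit 18325660655) (nat_lit 5) (nat_lit 5) (nat_lit 7) (nat_lit 4) (nat_lit 5) (nat_lit 4) (nat_lit 385) (nat_lit 235) (nat_lit 160)) (XT.lf (nat_lit 0) (nat_lit 1857964261) (nat_lit 76) (nat_lit 38800879270) (nat_lit 76) (nat_lit 19789807570) (nat_lit 4) (nat_lit 4) (nat_lit 5) (nat_lit 5) (nat_lit 5) (nat_lit 4) (nat_lit 386) (nat_lit 235) (nat_lit 159)))) (XT.nd (nat_lit 78) (nat_lit 0) (nat_lit 0)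 (XT.lf (nat_lit 0) (nat_lit 7085597159) (nat_lit 76) (nat_lit 37081474535) (nat_lit 76) (nat_lit 18004907056) (nat_lit 4) (nat_lit 4) (nat_lit 5) (nat_lit 5) (nat_lit 5) (nat_lit 4) (nat_lit 387) (nat_lit 235) (nat_lit 158)) (XT.nd (nat_lit 78) (nat_lit 0) (nat_lit 0) (XT.lf (nat_lit 0) (nat_lit 12444073615) (nat_lit 76) (nat_lit 35321770541) (nat_lit 76) (nat_lit 16181614927) (nat_lit 4) (nat_lit 4) (nat_lit 5) (nat_lit 5) (nat_lit 5) (nat_lit 4) (nat_lit 388) (nat_lit 235) (nat_lit 157)) (XT.lf (nat_lit 0) (nat_lit 17938075793) (nat_lit 76) (nat_lit 33520229683) (nat_lit 76) (nat_lit 14318338015) (nat_lit 4) (nat_lit 4) (nat_lit 5) (nat_lit 5) (nat_lit 5) (nat_lit 4) (nat_lit 389) (nat_lit 235) (nat_lit 156))))))))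
noncomputable def xc49 : XT := (XT.nd (nat_lit 35022) (nat_lit 0) (nat_lit 1368) (XT.nd (nat_lit 858) (nat_lit 76) (nat_lit 0) (XT.nd (nat_lit 390) (nat_lit 76) (nat_lit 0) (XT.nd (nat_lit 156) (nat_lit 0) (nat_lit 0) (XT.nd (nat_lit 78) (nat_lit 0) (nat_lit 0) (XT.lf (nat_lit 0) (nat_lit 23572404277) (nat_lit 76) (nat_lit 31675277798) (nat_lit 76) (nat_lit 12413448214) (nat_lit 4) (nat_lit 4) (nat_lit 5) (nat_lit 5) (nat_lit 5) (nat_lit 4) (nat_lit 390) (nat_lit 235) (nat_lit 155)) (XT.lf (nat_lit 0) (nat_lit 29351982267) (nat_lit 76) (nat_lit 29785302793) (nat_lit 76) (nat_lit 10465281058) (nat_lit 4) (nat_lit 4) (nat_lit 5) (nat_lit 5) (nat_lit 5) (nat_lit 4) (nat_lit 391) (nat_lit 235) (nat_lit 154))) (XT.nd (nat_lit 78) (nat_lit 0) (nat_lit 0) (XT.lf (nat_lit 0) (nat_lit 35281859880) (nat_lit 76) (nat_lit 27848653233) (nat_lit 76) (nat_lit 8472134264) (nat_lit 4) (nat_lit 4) (nat_lit 5)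 (nat_lit 5) (nat_lit 5) (nat_lit 4) (nat_lit 392) (nat_lit 235) (nat_lit 153)) (XT.nd (nat_lit 78) (nat_lit 0) (nat_lit 0) (XT.lf (nat_lit 0) (nat_lit 41367218562) (nat_lit 76) (nat_lit 25863636901) (nat_lit 76) (nat_lit 6432266247) (nat_lit 4) (nat_lit 4) (nat_lit 5) (nat_lit 5) (nat_lit 5) (nat_lit 4) (nat_lit 393) (nat_lit 235) (nat_lit 152)) (XT.lf (nat_lit 0) (nat_lit 47613375616) (nat_lit 76) (nat_lit 23828519315) (nat_lit 76) (nat_lit 4343894600) (nat_lit 4) (nat_lit 4) (nat_lit 5) (nat_lit 5) (nat_lit 5) (nat_lit 4) (nat_lit 394) (nat_lit 235) (nat_lit 151))))) (XT.nd (nat_lit 234) (nat_lit 0) (nat_lit 0) (XT.nd (nat_lit 78) (nat_lit 76) (nat_lit 0) (XT.lf (nat_lit 0) (nat_lit 54025788851) (nat_lit 76) (nat_lit 21741522219) (nat_lit 76) (nat_lit 2205194531) (nat_lit 4) (nat_lit 4) (nat_lit 5) (nat_lit 5) (nat_lit 5) (nat_lit 4) (nat_lit 395) (nat_lit 235) (nat_lit 150)) (XT.nd (nat_lit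 78) (nat_lit 76) (nat_lit 0) (XT.lf (nat_lit 0) (nat_lit 60610061345) (nat_lit 76) (nat_lit 19600822021) (nat_lit 76) (nat_lit 14297272) (nat_lit 4) (nat_lit 4) (nat_lit 5) (nat_lit 5) (nat_lit 5) (nat_lit 4) (nat_lit 396) (nat_lit 235) (nat_lit 149)) (XT.lf (nat_lit 0) (nat_lit 2187182334) (nat_lit 152) (nat_lit 15195279621) (nat_lit 76) (nat_lit 65162677759) (nat_lit 3) (nat_lit 5) (nat_lit 5) (nat_lit 5) (nat_lit 4) (nat_lit 4) (nat_lit 397) (nat_lit 235) (nat_lit 148)))) (XT.nd (nat_lit 78) (nat_lit 0) (nat_lit 0) (XT.lf (nat_lit 0) (nat_lit 4443361982) (nat_lit 152) (nat_lit 10662550480) (nat_lit 76) (nat_lit 69829121072) (nat_lit 3) (nat_lit 5) (nat_lit 5) (nat_lit 5) (nat_lit 4) (nat_lit 4) (nat_lit 398) (nat_lit 235) (nat_lit 147)) (XT.nd (nat_lit 78) (nat_lit 0) (nat_lit 0) (XT.lf (nat_lit 0) (nat_lit 6756492082) (nat_lit 152) (nat_lit 6012833798) (nat_lit 76) (nat_lit 74627628597)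 (nat_lit 3) (nat_lit 5) (nat_lit 5) (nat_lit 5) (nat_lit 4) (nat_lit 4) (nat_lit 399) (nat_lit 235) (nat_lit 146)) (XT.lf (nat_lit 0) (nat_lit 9128593816) (nat_lit 152) (nat_lit 1242066717) (nat_lit 76) (nat_lit 79562393204) (nat_lit 3) (nat_lit 5) (nat_lit 5) (nat_lit 5) (nat_lit 4) (nat_lit 4) (nat_lit 400) (nat_lit 235) (nat_lit 145)))))) (XT.nd (nat_lit 33696) (nat_lit 0) (nat_lit 3496) (XT.nd (nat_lit 33462) (nat_lit 0) (nat_lit 4408) (XT.nd (nat_lit 33384) (nat_lit 0) (nat_lit 5092) (XT.lf (nat_lit 0) (nat_lit 3726639555) (nat_lit 76) (nat_lit 7870923077) (nat_lit 152) (nat_lit 80946910007) (nat_lit 2) (nat_lit 5) (nat_lit 3) (nat_lit 5) (nat_lit 4) (nat_lit 4) (nat_lit 401) (nat_lit 235) (nat_lit 144)) (XT.lf (nat_lit 0) (nat_lit 3588192744) (nat_lit 304) (nat_lit 591163205) (nat_lit 304) (nat_lit 591163205) (nat_lit 69) (nat_lit 4) (nat_lit 73) (nat_lit 5) (nat_lit 73) (nat_lit 4) (nat_lit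 308) (nat_lit 236) (nat_lit 236))) (XT.nd (nat_lit 78) (nat_lit 304) (nat_lit 0) (XT.lf (nat_lit 0) (nat_lit 2159609621) (nat_lit 380) (nat_lit 6255149688) (nat_lit 0) (nat_lit 1276755220) (nat_lit 64) (nat_lit 5) (nat_lit 69) (nat_lit 4) (nat_lit 64) (nat_lit 4) (nat_lit 309) (nat_lit 236) (nat_lit 235)) (XT.nd (nat_lit 78) (nat_lit 304) (nat_lit 0) (XT.lf (nat_lit 0) (nat_lit 5530798392) (nat_lit 380) (nat_lit 526127678) (nat_lit 0) (nat_lit 3790803795) (nat_lit 64) (nat_lit 5) (nat_lit 69) (nat_lit 4) (nat_lit 64) (nat_lit 4) (nat_lit 310) (nat_lit 236) (nat_lit 234)) (XT.lf (nat_lit 0) (nat_lit 5366299985) (nat_lit 304) (nat_lit 3607763569) (nat_lit 304) (nat_lit 1035594026) (nat_lit 60) (nat_lit 4) (nat_lit 64) (nat_lit 5) (nat_lit 64) (nat_lit 4) (nat_lit 311) (nat_lit 236) (nat_lit 233))))) (XT.nd (nat_lit 234) (nat_lit 304) (nat_lit 0) (XT.nd (nat_lit 78) (nat_lit 304) (nat_lit 0) (XT.lf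 (nat_lit 0) (nat_lit 1156161650) (nat_lit 228) (nat_lit 1078453145) (nat_lit 304) (nat_lit 7943212371) (nat_lit 56) (nat_lit 5) (nat_lit 59) (nat_lit 5) (nat_lit 60) (nat_lit 4) (nat_lit 312) (nat_lit 236) (nat_lit 232)) (XT.nd (nat_lit 78) (nat_lit 304) (nat_lit 0) (XT.lf (nat_lit 0) (nat_lit 5564772136) (nat_lit 304) (nat_lit 3265065969) (nat_lit 0) (nat_lit 1521557490) (nat_lit 56) (nat_lit 5) (nat_lit 60) (nat_lit 4) (nat_lit 56) (nat_lit 4) (nat_lit 313) (nat_lit 236) (nat_lit 231)) (XT.lf (nat_lit 0) (nat_lit 2592603117) (nat_lit 304) (nat_lit 6360770026) (nat_lit 304) (nat_lit 1578178719) (nat_lit 52) (nat_lit 4) (nat_lit 56) (nat_lit 5) (nat_lit 56) (nat_lit 4) (nat_lit 314) (nat_lit 236) (nat_lit 230)))) (XT.nd (nat_lit 78) (nat_lit 228) (nat_lit 0) (XT.lf (nat_lit 0) (nat_lit 1649366617) (nat_lit 380) (nat_lit 2152218493) (nat_lit 76) (nat_lit 6916462771) (nat_lit 51) (nat_lit 5) (nat_lit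 56) (nat_lit 5) (nat_lit 52) (nat_lit 4) (nat_lit 315) (nat_lit 236) (nat_lit 229)) (XT.nd (nat_lit 78) (nat_lit 0) (nat_lit 0) (XT.lf (nat_lit 0) (nat_lit 3756960231) (nat_lit 228) (nat_lit 1146648820) (nat_lit 304) (nat_lit 6007338575) (nat_lit 48) (nat_lit 5) (nat_lit 51) (nat_lit 5) (nat_lit 52) (nat_lit 4) (nat_lit 316) (nat_lit 236) (nat_lit 228)) (XT.lf (nat_lit 0) (nat_lit 8218971798) (nat_lit 304) (nat_lit 1346694578) (nat_lit 0) (nat_lit 1545184877) (nat_lit 48) (nat_lit 5) (nat_lit 52) (nat_lit 4) (nat_lit 48) (nat_lit 4) (nat_lit 317) (nat_lit 236) (nat_lit 227))))))) (XT.nd (nat_lit 858) (nat_lit 684) (nat_lit 0) (XT.nd (nat_lit 390) (nat_lit 608) (nat_lit 0) (XT.nd (nat_lit 156) (nat_lit 532) (nat_lit 0) (XT.nd (nat_lit 78) (nat_lit 0) (nat_lit 0) (XT.lf (nat_lit 0) (nat_lit 294647048) (nat_lit 304) (nat_lit 6713446216) (nat_lit 76) (nat_lit 4309168283) (nat_lit 44) (nat_lit 5)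 (nat_lit 48) (nat_lit 5) (nat_lit 45) (nat_lit 4) (nat_lit 318) (nat_lit 236) (nat_lit 226)) (XT.lf (nat_lit 0) (nat_lit 3461066463) (nat_lit 304) (nat_lit 904831116) (nat_lit 76) (nat_lit 7164946319) (nat_lit 44) (nat_lit 5) (nat_lit 48) (nat_lit 5) (nat_lit 45) (nat_lit 4) (nat_lit 319) (nat_lit 236) (nat_lit 225))) (XT.nd (nat_lit 78) (nat_lit 304) (nat_lit 0) (XT.lf (nat_lit 0) (nat_lit 5073100709) (nat_lit 228) (nat_lit 1628907977) (nat_lit 304) (nat_lit 5049547238) (nat_lit 41) (nat_lit 5) (nat_lit 44) (nat_lit 5) (nat_lit 45) (nat_lit 4) (nat_lit 320) (nat_lit 236) (nat_lit 224)) (XT.nd (nat_lit 78) (nat_lit 304) (nat_lit 0) (XT.lf (nat_lit 0) (nat_lit 9992305609) (nat_lit 304) (nat_lit 845962652) (nat_lit 0) (nat_lit 1142162220) (nat_lit 41) (nat_lit 5) (nat_lit 45) (nat_lit 4) (nat_lit 41) (nat_lit 4) (nat_lit 321) (nat_lit 236) (nat_lit 223)) (XT.lf (nat_lit 0) (nat_lit 1141324798)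 (nat_lit 304) (nat_lit 7083419722) (nat_lit 76) (nat_lit 3991222068) (nat_lit 37) (nat_lit 5) (nat_lit 41) (nat_lit 5) (nat_lit 38) (nat_lit 4) (nat_lit 322) (nat_lit 236) (nat_lit 222))))) (XT.nd (nat_lit 234) (nat_lit 456) (nat_lit 0) (XT.nd (nat_lit 78) (nat_lit 152) (nat_lit 0) (XT.lf (nat_lit 0) (nat_lit 4267004313) (nat_lit 304) (nat_lit 1272431737) (nat_lit 76) (nat_lit 6920369079) (nat_lit 37) (nat_lit 5) (nat_lit 41) (nat_lit 5) (nat_lit 38) (nat_lit 4) (nat_lit 323) (nat_lit 236) (nat_lit 221)) (XT.nd (nat_lit 78) (nat_lit 0) (nat_lit 0) (XT.lf (nat_lit 0) (nat_lit 4705579240) (nat_lit 152) (nat_lit 2761718123) (nat_lit 228) (nat_lit 5244329428) (nat_lit 35) (nat_lit 5) (nat_lit 37) (nat_lit 5) (nat_lit 38) (nat_lit 4) (nat_lit 324) (nat_lit 236) (nat_lit 220)) (XT.lf (nat_lit 0) (nat_lit 10713738892) (nat_lit 228) (nat_lit 2182503842) (nat_lit 0) (nat_lit 76346719) (nat_lit 35) (nat_lit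 5) (nat_lit 38) (nat_lit 4) (nat_lit 35) (nat_lit 4) (nat_lit 325) (nat_lit 236) (nat_lit 219)))) (XT.nd (nat_lit 78) (nat_lit 152) (nat_lit 0) (XT.lf (nat_lit 0) (nat_lit 801796884) (nat_lit 304) (nat_lit 9484322240) (nat_lit 76) (nat_lit 2955065910) (nat_lit 31) (nat_lit 5) (nat_lit 35) (nat_lit 5) (nat_lit 32) (nat_lit 4) (nat_lit 326) (nat_lit 236) (nat_lit 218)) (XT.nd (nat_lit 78) (nat_lit 152) (nat_lit 0) (XT.lf (nat_lit 0) (nat_lit 3869380182) (nat_lit 304) (nat_lit 3717883238) (nat_lit 76) (nat_lit 5931171464) (nat_lit 31) (nat_lit 5) (nat_lit 35) (nat_lit 5) (nat_lit 32) (nat_lit 4) (nat_lit 327) (nat_lit 236) (nat_lit 217)) (XT.lf (nat_lit 0) (nat_lit 2169443285) (nat_lit 152) (nat_lit 4820459834) (nat_lit 228) (nat_lit 6815352188) (nat_lit 29) (nat_lit 5) (nat_lit 31) (nat_lit 5) (nat_lit 32) (nat_lit 4) (nat_lit 328) (nat_lit 236) (nat_lit 216)))))) (XT.nd (nat_lit 468) (nat_lit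 304) (nat_lit 0) (XT.nd (nat_lit 234) (nat_lit 152) (nat_lit 0) (XT.nd (nat_lit 78) (nat_lit 228) (nat_lit 0) (XT.lf (nat_lit 0) (nat_lit 8216089139) (nat_lit 152) (nat_lit 1966401033) (nat_lit 228) (nat_lit 3918914820) (nat_lit 29) (nat_lit 5) (nat_lit 31) (nat_lit 5) (nat_lit 32) (nat_lit 4) (nat_lit 329) (nat_lit 236) (nat_lit 215)) (XT.nd (nat_lit 78) (nat_lit 228) (nat_lit 0) (XT.lf (nat_lit 0) (nat_lit 13422515689) (nat_lit 228) (nat_lit 63926114) (nat_lit 0) (nat_lit 921523367) (nat_lit 29) (nat_lit 5) (nat_lit 32) (nat_lit 4) (nat_lit 29) (nat_lit 4) (nat_lit 330) (nat_lit 236) (nat_lit 214)) (XT.lf (nat_lit 0) (nat_lit 2016964602) (nat_lit 228) (nat_lit 8804005568) (nat_lit 76) (nat_lit 3901616067) (nat_lit 26) (nat_lit 5) (nat_lit 29) (nat_lit 5) (nat_lit 27) (nat_lit 4) (nat_lit 331) (nat_lit 236) (nat_lit 213)))) (XT.nd (nat_lit 78) (nat_lit 152) (nat_lit 0) (XT.lf (nat_lit 0) (nat_lit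 5034443881) (nat_lit 228) (nat_lit 3064397767) (nat_lit 76) (nat_lit 6949236993) (nat_lit 26) (nat_lit 5) (nat_lit 29) (nat_lit 5) (nat_lit 27) (nat_lit 4) (nat_lit 332) (nat_lit 236) (nat_lit 212)) (XT.nd (nat_lit 78) (nat_lit 0) (nat_lit 0) (XT.lf (nat_lit 0) (nat_lit 2815067301) (nat_lit 152) (nat_lit 5300214570) (nat_lit 228) (nat_lit 7268936286) (nat_lit 24) (nat_lit 5) (nat_lit 26) (nat_lit 5) (nat_lit 27) (nat_lit 4) (nat_lit 333) (nat_lit 236) (nat_lit 211)) (XT.lf (nat_lit 0) (nat_lit 8847325924) (nat_lit 152) (nat_lit 2418686463) (nat_lit 228) (nat_lit 4465170859) (nat_lit 24) (nat_lit 5) (nat_lit 26) (nat_lit 5) (nat_lit 27) (nat_lit 4) (nat_lit 334) (nat_lit 236) (nat_lit 210))))) (XT.nd (nat_lit 234) (nat_lit 76) (nat_lit 0) (XT.nd (nat_lit 78) (nat_lit 228) (nat_lit 0) (XT.lf (nat_lit 0) (nat_lit 14464318136) (nat_lit 228) (nat_lit 1118489653) (nat_lit 0) (nat_lit 507221403) (nat_lit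 24) (nat_lit 5) (nat_lit 27) (nat_lit 4) (nat_lit 24) (nat_lit 4) (nat_lit 335) (nat_lit 236) (nat_lit 209)) (XT.nd (nat_lit 78) (nat_lit 0) (nat_lit 0) (XT.lf (nat_lit 0) (nat_lit 1293167129) (nat_lit 228) (nat_lit 11664826741) (nat_lit 76) (nat_lit 3500744479) (nat_lit 21) (nat_lit 5) (nat_lit 24) (nat_lit 5) (nat_lit 22) (nat_lit 4) (nat_lit 336) (nat_lit 236) (nat_lit 208)) (XT.lf (nat_lit 0) (nat_lit 4227772832) (nat_lit 228) (nat_lit 6030741514) (nat_lit 76) (nat_lit 6580744573) (nat_lit 21) (nat_lit 5) (nat_lit 24) (nat_lit 5) (nat_lit 22) (nat_lit 4) (nat_lit 337) (nat_lit 236) (nat_lit 207)))) (XT.nd (nat_lit 78) (nat_lit 76) (nat_lit 0) (XT.lf (nat_lit 0) (nat_lit 7201319594) (nat_lit 228) (nat_lit 308193384) (nat_lit 76) (nat_lit 9723211464) (nat_lit 21) (nat_lit 5) (nat_lit 24) (nat_lit 5) (nat_lit 22) (nat_lit 4) (nat_lit 338) (nat_lit 236) (nat_lit 206)) (XT.nd (nat_lit 78) (nat_lit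 0) (nat_lit 0) (XT.lf (nat_lit 0) (nat_lit 5617434309) (nat_lit 76) (nat_lit 4652969565) (nat_lit 152) (nat_lit 7367454902) (nat_lit 20) (nat_lit 5) (nat_lit 21) (nat_lit 5) (nat_lit 22) (nat_lit 4) (nat_lit 339) (nat_lit 236) (nat_lit 205)) (XT.lf (nat_lit 0) (nat_lit 11649702035) (nat_lit 76) (nat_lit 1737947596) (nat_lit 152) (nat_lit 4668868024) (nat_lit 20) (nat_lit 5) (nat_lit 21) (nat_lit 5) (nat_lit 22) (nat_lit 4) (nat_lit 340) (nat_lit 236) (nat_lit 204))))))))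
noncomputable def xc50 : XT := (XT.nd (nat_lit 1716) (nat_lit 304) (nat_lit 0) (XT.nd (nat_lit 858) (nat_lit 304) (nat_lit 0) (XT.nd (nat_lit 390) (nat_lit 228) (nat_lit 0) (XT.nd (nat_lit 156) (nat_lit 76) (nat_lit 0) (XT.nd (nat_lit 78) (nat_lit 228) (nat_lit 0) (XT.lf (nat_lit 0) (nat_lit 16564630627) (nat_lit 152) (nat_lit 713281946) (nat_lit 0) (nat_lit 1210888825) (nat_lit 20) (nat_lit 5) (nat_lit 22) (nat_lit 4) (nat_lit 20) (nat_lit 4) (nat_lit 341) (nat_lit 236) (nat_lit 203)) (XT.lf (nat_lit 0) (nat_lit 907633197) (nat_lit 228) (nat_lit 13781891468) (nat_lit 76) (nat_lit 4243645773) (nat_lit 17) (nat_lit 5) (nat_lit 20) (nat_lit 5) (nat_lit 18) (nat_lit 4) (nat_lit 342) (nat_lit 236) (nat_lit 202))) (XT.nd (nat_lit 78) (nat_lit 76) (nat_lit 0) (XT.lf (nat_lit 0) (nat_lit 3748502121) (nat_lit 228) (nat_lit 8277689742) (nat_lit 76) (nat_lit 7365270859) (nat_lit 17) (nat_lit 5) (nat_lit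 20) (nat_lit 5) (nat_lit 18) (nat_lit 4) (nat_lit 343) (nat_lit 236) (nat_lit 201)) (XT.nd (nat_lit 78) (nat_lit 76) (nat_lit 0) (XT.lf (nat_lit 0) (nat_lit 6631403618) (nat_lit 228) (nat_lit 2680508626) (nat_lit 76) (nat_lit 10552933213) (nat_lit 17) (nat_lit 5) (nat_lit 20) (nat_lit 5) (nat_lit 18) (nat_lit 4) (nat_lit 344) (nat_lit 236) (nat_lit 200)) (XT.lf (nat_lit 0) (nat_lit 3074537927) (nat_lit 76) (nat_lit 6513873138) (nat_lit 152) (nat_lit 10764434580) (nat_lit 16) (nat_lit 5) (nat_lit 17) (nat_lit 5) (nat_lit 18) (nat_lit 4) (nat_lit 345) (nat_lit 236) (nat_lit 199))))) (XT.nd (nat_lit 234) (nat_lit 228) (nat_lit 0) (XT.nd (nat_lit 78) (nat_lit 0) (nat_lit 0) (XT.lf (nat_lit 0) (nat_lit 8987825093) (nat_lit 76) (nat_lit 3631990796) (nat_lit 152) (nat_lit 8236142580) (nat_lit 16) (nat_lit 5) (nat_lit 17) (nat_lit 5) (nat_lit 18) (nat_lit 4) (nat_lit 346) (nat_lit 236) (nat_lit 198))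 (XT.nd (nat_lit 78) (nat_lit 0) (nat_lit 0) (XT.lf (nat_lit 0) (nat_lit 15011172442) (nat_lit 76) (nat_lit 690814951) (nat_lit 152) (nat_lit 5673424532) (nat_lit 16) (nat_lit 5) (nat_lit 17) (nat_lit 5) (nat_lit 18) (nat_lit 4) (nat_lit 347) (nat_lit 236) (nat_lit 197)) (XT.lf (nat_lit 0) (nat_lit 18859845251) (nat_lit 152) (nat_lit 784043326) (nat_lit 0) (nat_lit 2267104532) (nat_lit 16) (nat_lit 5) (nat_lit 18) (nat_lit 4) (nat_lit 16) (nat_lit 4) (nat_lit 348) (nat_lit 236) (nat_lit 196)))) (XT.nd (nat_lit 78) (nat_lit 76) (nat_lit 0) (XT.lf (nat_lit 0) (nat_lit 4989683193) (nat_lit 152) (nat_lit 17139443942) (nat_lit 152) (nat_lit 333053517) (nat_lit 14) (nat_lit 4) (nat_lit 16) (nat_lit 5) (nat_lit 16) (nat_lit 4) (nat_lit 349) (nat_lit 236) (nat_lit 195)) (XT.nd (nat_lit 78) (nat_lit 0) (nat_lit 0) (XT.lf (nat_lit 0) (nat_lit 2388419085) (nat_lit 228) (nat_lit 12165326582) (nat_lit 76)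 (nat_lit 8476385128) (nat_lit 13) (nat_lit 5) (nat_lit 16) (nat_lit 5) (nat_lit 14) (nat_lit 4) (nat_lit 350) (nat_lit 236) (nat_lit 194)) (XT.lf (nat_lit 0) (nat_lit 5147921114) (nat_lit 228) (nat_lit 6764922802) (nat_lit 76) (nat_lit 11703320434) (nat_lit 13) (nat_lit 5) (nat_lit 16) (nat_lit 5) (nat_lit 14) (nat_lit 4) (nat_lit 351) (nat_lit 236) (nat_lit 193)))))) (XT.nd (nat_lit 390) (nat_lit 228) (nat_lit 0) (XT.nd (nat_lit 156) (nat_lit 0) (nat_lit 0) (XT.nd (nat_lit 78) (nat_lit 76) (nat_lit 0) (XT.lf (nat_lit 0) (nat_lit 7954362858) (nat_lit 228) (nat_lit 1263365808) (nat_lit 76) (nat_lit 15003160767) (nat_lit 13) (nat_lit 5) (nat_lit 16) (nat_lit 5) (nat_lit 14) (nat_lit 4) (nat_lit 352) (nat_lit 236) (nat_lit 192)) (XT.lf (nat_lit 0) (nat_lit 4430608721) (nat_lit 76) (nat_lit 6422177549) (nat_lit 152) (nat_lit 13990770482) (nat_lit 12) (nat_lit 5) (nat_lit 13) (nat_lit 5) (nat_lit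 14) (nat_lit 4) (nat_lit 353) (nat_lit 236) (nat_lit 191))) (XT.nd (nat_lit 78) (nat_lit 0) (nat_lit 0) (XT.lf (nat_lit 0) (nat_lit 10262793215) (nat_lit 76) (nat_lit 3553776605) (nat_lit 152) (nat_lit 11669015190) (nat_lit 12) (nat_lit 5) (nat_lit 13) (nat_lit 5) (nat_lit 14) (nat_lit 4) (nat_lit 354) (nat_lit 236) (nat_lit 190)) (XT.nd (nat_lit 78) (nat_lit 0) (nat_lit 0) (XT.lf (nat_lit 0) (nat_lit 16213140301) (nat_lit 76) (nat_lit 622776983) (nat_lit 152) (nat_lit 9311989497) (nat_lit 12) (nat_lit 5) (nat_lit 13) (nat_lit 5) (nat_lit 14) (nat_lit 4) (nat_lit 355) (nat_lit 236) (nat_lit 189)) (XT.lf (nat_lit 0) (nat_lit 19936281330) (nat_lit 152) (nat_lit 4567065884) (nat_lit 0) (nat_lit 2327069145) (nat_lit 12) (nat_lit 5) (nat_lit 14) (nat_lit 4) (nat_lit 12) (nat_lit 4) (nat_lit 356) (nat_lit 236) (nat_lit 188))))) (XT.nd (nat_lit 234) (nat_lit 0) (nat_lit 0) (XT.nd (nat_lit 78) (nat_lit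 76) (nat_lit 0) (XT.lf (nat_lit 0) (nat_lit 919132096) (nat_lit 152) (nat_lit 22193877872) (nat_lit 152) (nat_lit 4420920977) (nat_lit 10) (nat_lit 4) (nat_lit 12) (nat_lit 5) (nat_lit 12) (nat_lit 4) (nat_lit 357) (nat_lit 236) (nat_lit 187)) (XT.nd (nat_lit 78) (nat_lit 76) (nat_lit 0) (XT.lf (nat_lit 0) (nat_lit 6609765672) (nat_lit 152) (nat_lit 19790150407) (nat_lit 152) (nat_lit 1858218066) (nat_lit 10) (nat_lit 4) (nat_lit 12) (nat_lit 5) (nat_lit 12) (nat_lit 4) (nat_lit 358) (nat_lit 236) (nat_lit 186)) (XT.lf (nat_lit 0) (nat_lit 735457500) (nat_lit 228) (nat_lit 16593298708) (nat_lit 76) (nat_lit 11676029497) (nat_lit 9) (nat_lit 5) (nat_lit 12) (nat_lit 5) (nat_lit 10) (nat_lit 4) (nat_lit 359) (nat_lit 236) (nat_lit 185)))) (XT.nd (nat_lit 78) (nat_lit 0) (nat_lit 0) (XT.lf (nat_lit 0) (nat_lit 3339826867) (nat_lit 228) (nat_lit 11456278499) (nat_lit 76) (nat_lit 14978099490) (nat_lit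 9) (nat_lit 5) (nat_lit 12) (nat_lit 5) (nat_lit 10) (nat_lit 4) (nat_lit 360) (nat_lit 236) (nat_lit 184)) (XT.nd (nat_lit 78) (nat_lit 0) (nat_lit 0) (XT.lf (nat_lit 0) (nat_lit 5993426224) (nat_lit 228) (nat_lit 6214956858) (nat_lit 76) (nat_lit 18359216695) (nat_lit 9) (nat_lit 5) (nat_lit 12) (nat_lit 5) (nat_lit 10) (nat_lit 4) (nat_lit 361) (nat_lit 236) (nat_lit 183)) (XT.lf (nat_lit 0) (nat_lit 8698574250) (nat_lit 228) (nat_lit 864753990) (nat_lit 76) (nat_lit 21822335486) (nat_lit 9) (nat_lit 5) (nat_lit 12) (nat_lit 5) (nat_lit 10) (nat_lit 4) (nat_lit 362) (nat_lit 236) (nat_lit 182))))))) (XT.nd (nat_lit 858) (nat_lit 76) (nat_lit 0) (XT.nd (nat_lit 390) (nat_lit 152) (nat_lit 0) (XT.nd (nat_lit 156) (nat_lit 0) (nat_lit 0) (XT.nd (nat_lit 78) (nat_lit 0) (nat_lit 0) (XT.lf (nat_lit 0) (nat_lit 4690534256) (nat_lit 76) (nat_lit 6812188695) (nat_lit 152) (nat_lit 20725035916) (nat_lit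 8) (nat_lit 5) (nat_lit 9) (nat_lit 5) (nat_lit 10) (nat_lit 4) (nat_lit 363) (nat_lit 236) (nat_lit 181)) (XT.lf (nat_lit 0) (nat_lit 10383718128) (nat_lit 76) (nat_lit 3989114825) (nat_lit 152) (nat_lit 18722852746) (nat_lit 8) (nat_lit 5) (nat_lit 9) (nat_lit 5) (nat_lit 10) (nat_lit 4) (nat_lit 364) (nat_lit 236) (nat_lit 180))) (XT.nd (nat_lit 78) (nat_lit 0) (nat_lit 0) (XT.lf (nat_lit 0) (nat_lit 16202561952) (nat_lit 76) (nat_lit 1100372189) (nat_lit 152) (nat_lit 16687522805) (nat_lit 8) (nat_lit 5) (nat_lit 9) (nat_lit 5) (nat_lit 10) (nat_lit 4) (nat_lit 365) (nat_lit 236) (nat_lit 179)) (XT.nd (nat_lit 78) (nat_lit 0) (nat_lit 0) (XT.lf (nat_lit 0) (nat_lit 20313433219) (nat_lit 152) (nat_lit 12778550713) (nat_lit 0) (nat_lit 1820335121) (nat_lit 8) (nat_lit 5) (nat_lit 10) (nat_lit 4) (nat_lit 8) (nat_lit 4) (nat_lit 366) (nat_lit 236) (nat_lit 178)) (XT.lf (nat_lit 0) (nat_lit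 23400356501) (nat_lit 152) (nat_lit 7672953414) (nat_lit 0) (nat_lit 4788965741) (nat_lit 8) (nat_lit 5) (nat_lit 10) (nat_lit 4) (nat_lit 8) (nat_lit 4) (nat_lit 367) (nat_lit 236) (nat_lit 177))))) (XT.nd (nat_lit 234) (nat_lit 76) (nat_lit 0) (XT.nd (nat_lit 78) (nat_lit 76) (nat_lit 0) (XT.lf (nat_lit 0) (nat_lit 26555823849) (nat_lit 152) (nat_lit 2456064446) (nat_lit 0) (nat_lit 7829585844) (nat_lit 8) (nat_lit 5) (nat_lit 10) (nat_lit 4) (nat_lit 8) (nat_lit 4) (nat_lit 368) (nat_lit 236) (nat_lit 176)) (XT.nd (nat_lit 78) (nat_lit 0) (nat_lit 0) (XT.lf (nat_lit 0) (nat_lit 2933926105) (nat_lit 76) (nat_lit 26876869056) (nat_lit 76) (nat_lit 8039128871) (nat_lit 7) (nat_lit 4) (nat_lit 8) (nat_lit 5) (nat_lit 8) (nat_lit 4) (nat_lit 369) (nat_lit 236) (nat_lit 175)) (XT.lf (nat_lit 0) (nat_lit 8495705327) (nat_lit 76) (nat_lit 24669442454) (nat_lit 76) (nat_lit 5723447726) (nat_lit 7)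 (nat_lit 4) (nat_lit 8) (nat_lit 5) (nat_lit 8) (nat_lit 4) (nat_lit 370) (nat_lit 236) (nat_lit 174)))) (XT.nd (nat_lit 78) (nat_lit 76) (nat_lit 0) (XT.lf (nat_lit 0) (nat_lit 14185252529) (nat_lit 76) (nat_lit 22412481106) (nat_lit 76) (nat_lit 3361384880) (nat_lit 7) (nat_lit 4) (nat_lit 8) (nat_lit 5) (nat_lit 8) (nat_lit 4) (nat_lit 371) (nat_lit 236) (nat_lit 173)) (XT.nd (nat_lit 78) (nat_lit 76) (nat_lit 0) (XT.lf (nat_lit 0) (nat_lit 20007539160) (nat_lit 76) (nat_lit 20104012910) (nat_lit 76) (nat_lit 950876393) (nat_lit 7) (nat_lit 4) (nat_lit 8) (nat_lit 5) (nat_lit 8) (nat_lit 4) (nat_lit 372) (nat_lit 236) (nat_lit 172)) (XT.lf (nat_lit 0) (nat_lit 1480714872) (nat_lit 152) (nat_lit 16246353568) (nat_lit 76) (nat_lit 24471985466) (nat_lit 6) (nat_lit 5) (nat_lit 8) (nat_lit 5) (nat_lit 7) (nat_lit 4) (nat_lit 373) (nat_lit 236) (nat_lit 171)))))) (XT.nd (nat_lit 468) (nat_lit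 0) (nat_lit 0) (XT.nd (nat_lit 234) (nat_lit 76) (nat_lit 0) (XT.nd (nat_lit 78) (nat_lit 0) (nat_lit 0) (XT.lf (nat_lit 0) (nat_lit 3945425052) (nat_lit 152) (nat_lit 11339174661) (nat_lit 76) (nat_lit 28085534770) (nat_lit 6) (nat_lit 5) (nat_lit 8) (nat_lit 5) (nat_lit 7) (nat_lit 4) (nat_lit 374) (nat_lit 236) (nat_lit 170)) (XT.nd (nat_lit 78) (nat_lit 0) (nat_lit 0) (XT.lf (nat_lit 0) (nat_lit 6463962801) (nat_lit 152) (nat_lit 6319924351) (nat_lit 76) (nat_lit 31793080530) (nat_lit 6) (nat_lit 5) (nat_lit 8) (nat_lit 5) (nat_lit 7) (nat_lit 4) (nat_lit 375) (nat_lit 236) (nat_lit 169)) (XT.lf (nat_lit 0) (nat_lit 9038528781) (nat_lit 152) (nat_lit 1184216886) (nat_lit 76) (nat_lit 35597862351) (nat_lit 6) (nat_lit 5) (nat_lit 8) (nat_lit 5) (nat_lit 7) (nat_lit 4) (nat_lit 376) (nat_lit 236) (nat_lit 168)))) (XT.nd (nat_lit 78) (nat_lit 0) (nat_lit 0) (XT.lf (nat_lit 0) (nat_lit 4153484691)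 (nat_lit 76) (nat_lit 7557813759) (nat_lit 152) (nat_lit 35389645943) (nat_lit 5) (nat_lit 5) (nat_lit 6) (nat_lit 5) (nat_lit 7) (nat_lit 4) (nat_lit 377) (nat_lit 236) (nat_lit 167)) (XT.nd (nat_lit 78) (nat_lit 0) (nat_lit 0) (XT.lf (nat_lit 0) (nat_lit 9642790814) (nat_lit 76) (nat_lit 4814696434) (nat_lit 152) (nat_lit 33962421898) (nat_lit 5) (nat_lit 5) (nat_lit 6) (nat_lit 5) (nat_lit 7) (nat_lit 4) (nat_lit 378) (nat_lit 236) (nat_lit 166)) (XT.lf (nat_lit 0) (nat_lit 15264929727) (nat_lit 76) (nat_lit 2002955061) (nat_lit 152) (nat_lit 32511118281) (nat_lit 5) (nat_lit 5) (nat_lit 6) (nat_lit 5) (nat_lit 7) (nat_lit 4) (nat_lit 379) (nat_lit 236) (nat_lit 165))))) (XT.nd (nat_lit 234) (nat_lit 0) (nat_lit 0) (XT.nd (nat_lit 78) (nat_lit 0) (nat_lit 0) (XT.lf (nat_lit 0) (nat_lit 20153404579) (nat_lit 152) (nat_lit 30163057566) (nat_lit 0) (nat_lit 862697840) (nat_lit 5) (nat_lit 5)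 (nat_lit 7) (nat_lit 4) (nat_lit 5) (nat_lit 4) (nat_lit 380) (nat_lit 236) (nat_lit 164)) (XT.nd (nat_lit 78) (nat_lit 0) (nat_lit 0) (XT.lf (nat_lit 0) (nat_lit 23128063852) (nat_lit 152) (nat_lit 25731765049) (nat_lit 0) (nat_lit 3761429555) (nat_lit 5) (nat_lit 5) (nat_lit 7) (nat_lit 4) (nat_lit 5) (nat_lit 4) (nat_lit 381) (nat_lit 236) (nat_lit 163)) (XT.lf (nat_lit 0) (nat_lit 26175208196) (nat_lit 152) (nat_lit 21197070157) (nat_lit 0) (nat_lit 6734857823) (nat_lit 5) (nat_lit 5) (nat_lit 7) (nat_lit 4) (nat_lit 5) (nat_lit 4) (nat_lit 382) (nat_lit 236) (nat_lit 162)))) (XT.nd (nat_lit 78) (nat_lit 0) (nat_lit 0) (XT.lf (nat_lit 0) (nat_lit 29297500164) (nat_lit 152) (nat_lit 16555010538) (nat_lit 0) (nat_lit 9785580784) (nat_lit 5) (nat_lit 5) (nat_lit 7) (nat_lit 4) (nat_lit 5) (nat_lit 4) (nat_lit 383) (nat_lit 236) (nat_lit 161)) (XT.nd (nat_lit 78) (nat_lit 0) (nat_lit 0) (XT.lf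 (nat_lit 0) (nat_lit 32497667972) (nat_lit 152) (nat_lit 11801530021) (nat_lit 0) (nat_lit 12916264120) (nat_lit 5) (nat_lit 5) (nat_lit 7) (nat_lit 4) (nat_lit 5) (nat_lit 4) (nat_lit 384) (nat_lit 236) (nat_lit 160)) (XT.lf (nat_lit 0) (nat_lit 35778507882) (nat_lit 152) (nat_lit 6932475080) (nat_lit 0) (nat_lit 16129643378) (nat_lit 5) (nat_lit 5) (nat_lit 7) (nat_lit 4) (nat_lit 5) (nat_lit 4) (nat_lit 385) (nat_lit 236) (nat_lit 159))))))))
noncomputable def xc51 : XT := (XT.nd (nat_lit 34866) (nat_lit 0) (nat_lit 1596) (XT.nd (nat_lit 858) (nat_lit 76) (nat_lit 0) (XT.nd (nat_lit 390) (nat_lit 0) (nat_lit 0) (XT.nd (nat_lit 156) (nat_lit 0) (nat_lit 0) (XT.nd (nat_lit 78) (nat_lit 76) (nat_lit 0) (XT.lf (nat_lit 0) (nat_lit 39142886650) (nat_lit 152) (nat_lit 1943591202) (nat_lit 0) (nat_lit 19428526367) (nat_lit 5) (nat_lit 5) (nat_lit 7) (nat_lit 4) (nat_lit 5) (nat_lit 4) (nat_lit 386)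 (nat_lit 236) (nat_lit 158)) (XT.lf (nat_lit 0) (nat_lit 3232559715) (nat_lit 76) (nat_lit 39392257648) (nat_lit 76) (nat_lit 19614309230) (nat_lit 4) (nat_lit 4) (nat_lit 5) (nat_lit 5) (nat_lit 5) (nat_lit 4) (nat_lit 387) (nat_lit 236) (nat_lit 157))) (XT.nd (nat_lit 78) (nat_lit 0) (nat_lit 0) (XT.lf (nat_lit 0) (nat_lit 8578608303) (nat_lit 76) (nat_lit 37637949839) (nat_lit 76) (nat_lit 17798265368) (nat_lit 4) (nat_lit 4) (nat_lit 5) (nat_lit 5) (nat_lit 5) (nat_lit 4) (nat_lit 388) (nat_lit 236) (nat_lit 156)) (XT.nd (nat_lit 78) (nat_lit 0) (nat_lit 0) (XT.lf (nat_lit 0) (nat_lit 14060544590) (nat_lit 76) (nat_lit 35841647995) (nat_lit 76) (nat_lit 15942025608) (nat_lit 4) (nat_lit 4) (nat_lit 5) (nat_lit 5) (nat_lit 5) (nat_lit 4) (nat_lit 389) (nat_lit 236) (nat_lit 155)) (XT.lf (nat_lit 0) (nat_lit 19683158616) (nat_lit 76) (nat_lit 34001782532) (nat_lit 76) (nat_lit 14043967993)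 (nat_lit 4) (nat_lit 4) (nat_lit 5) (nat_lit 5) (nat_lit 5) (nat_lit 4) (nat_lit 390) (nat_lit 236) (nat_lit 154))))) (XT.nd (nat_lit 234) (nat_lit 0) (nat_lit 0) (XT.nd (nat_lit 78) (nat_lit 0) (nat_lit 0) (XT.lf (nat_lit 0) (nat_lit 25451363347) (nat_lit 76) (nat_lit 32116745801) (nat_lit 76) (nat_lit 12102434028) (nat_lit 4) (nat_lit 4) (nat_lit 5) (nat_lit 5) (nat_lit 5) (nat_lit 4) (nat_lit 391) (nat_lit 236) (nat_lit 153)) (XT.nd (nat_lit 78) (nat_lit 0) (nat_lit 0) (XT.lf (nat_lit 0) (nat_lit 31370198960) (nat_lit 76) (nat_lit 30184890682) (nat_lit 76) (nat_lit 10115727225) (nat_lit 4) (nat_lit 4) (nat_lit 5) (nat_lit 5) (nat_lit 5) (nat_lit 4) (nat_lit 392) (nat_lit 236) (nat_lit 152)) (XT.lf (nat_lit 0) (nat_lit 37444837254) (nat_lit 76) (nat_lit 28204529146) (nat_lit 76) (nat_lit 8082111627) (nat_lit 4) (nat_lit 4) (nat_lit 5) (nat_lit 5) (nat_lit 5) (nat_lit 4) (nat_lit 393) (nat_lit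 236) (nat_lit 151)))) (XT.nd (nat_lit 78) (nat_lit 0) (nat_lit 0) (XT.lf (nat_lit 0) (nat_lit 43680586165) (nat_lit 76) (nat_lit 26173930780) (nat_lit 76) (nat_lit 5999810288) (nat_lit 4) (nat_lit 4) (nat_lit 5) (nat_lit 5) (nat_lit 5) (nat_lit 4) (nat_lit 394) (nat_lit 236) (nat_lit 150)) (XT.nd (nat_lit 78) (nat_lit 0) (nat_lit 0) (XT.lf (nat_lit 0) (nat_lit 50082894405) (nat_lit 76) (nat_lit 24091321276) (nat_lit 76) (nat_lit 3867003723) (nat_lit 4) (nat_lit 4) (nat_lit 5) (nat_lit 5) (nat_lit 5) (nat_lit 4) (nat_lit 395) (nat_lit 236) (nat_lit 149)) (XT.lf (nat_lit 0) (nat_lit 56657356225) (nat_lit 76) (nat_lit 21954880876) (nat_lit 76) (nat_lit 1681828313) (nat_lit 4) (nat_lit 4) (nat_lit 5) (nat_lit 5) (nat_lit 5) (nat_lit 4) (nat_lit 396) (nat_lit 236) (nat_lit 148)))))) (XT.nd (nat_lit 33540) (nat_lit 0) (nat_lit 4332) (XT.nd (nat_lit 156) (nat_lit 0) (nat_lit 0) (XT.nd (nat_lit 78)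 (nat_lit 0) (nat_lit 0) (XT.lf (nat_lit 0) (nat_lit 546744039) (nat_lit 152) (nat_lit 19210477708) (nat_lit 76) (nat_lit 62857451219) (nat_lit 3) (nat_lit 5) (nat_lit 5) (nat_lit 5) (nat_lit 4) (nat_lit 4) (nat_lit 397) (nat_lit 236) (nat_lit 147)) (XT.lf (nat_lit 0) (nat_lit 2797635540) (nat_lit 152) (nat_lit 14687105381) (nat_lit 76) (nat_lit 67519988577) (nat_lit 3) (nat_lit 5) (nat_lit 5) (nat_lit 5) (nat_lit 4) (nat_lit 4) (nat_lit 398) (nat_lit 236) (nat_lit 146))) (XT.nd (nat_lit 78) (nat_lit 0) (nat_lit 0) (XT.lf (nat_lit 0) (nat_lit 5105631518) (nat_lit 152) (nat_lit 10046472985) (nat_lit 76) (nat_lit 72314703913) (nat_lit 3) (nat_lit 5) (nat_lit 5) (nat_lit 5) (nat_lit 4) (nat_lit 4) (nat_lit 399) (nat_lit 236) (nat_lit 145)) (XT.nd (nat_lit 78) (nat_lit 0) (nat_lit 0) (XT.lf (nat_lit 0) (nat_lit 7472748666) (nat_lit 152) (nat_lit 5284525600) (nat_lit 76) (nat_lit 77245786784) (nat_lit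 3) (nat_lit 5) (nat_lit 5) (nat_lit 5) (nat_lit 4) (nat_lit 4) (nat_lit 400) (nat_lit 236) (nat_lit 144)) (XT.lf (nat_lit 0) (nat_lit 9901055341) (nat_lit 152) (nat_lit 397102298) (nat_lit 76) (nat_lit 82317545902) (nat_lit 3) (nat_lit 5) (nat_lit 5) (nat_lit 5) (nat_lit 4) (nat_lit 4) (nat_lit 401) (nat_lit 236) (nat_lit 143))))) (XT.nd (nat_lit 234) (nat_lit 684) (nat_lit 0) (XT.nd (nat_lit 78) (nat_lit 304) (nat_lit 0) (XT.lf (nat_lit 0) (nat_lit 1229156563) (nat_lit 380) (nat_lit 2168899172) (nat_lit 0) (nat_lit 1229156563) (nat_lit 73) (nat_lit 5) (nat_lit 78) (nat_lit 4) (nat_lit 73) (nat_lit 4) (nat_lit 306) (nat_lit 237) (nat_lit 237)) (XT.nd (nat_lit 78) (nat_lit 0) (nat_lit 0) (XT.lf (nat_lit 0) (nat_lit 1318786644) (nat_lit 304) (nat_lit 4506714578) (nat_lit 304) (nat_lit 3570094344) (nat_lit 69) (nat_lit 4) (nat_lit 73) (nat_lit 5) (nat_lit 73) (nat_lit 4) (nat_lit 307) (nat_lit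 237) (nat_lit 236)) (XT.lf (nat_lit 0) (nat_lit 7120458974) (nat_lit 304) (nat_lit 2133925503) (nat_lit 304) (nat_lit 287965235) (nat_lit 69) (nat_lit 4) (nat_lit 73) (nat_lit 5) (nat_lit 73) (nat_lit 4) (nat_lit 308) (nat_lit 237) (nat_lit 235)))) (XT.nd (nat_lit 78) (nat_lit 304) (nat_lit 0) (XT.lf (nat_lit 0) (nat_lit 2985886922) (nat_lit 380) (nat_lit 6371725960) (nat_lit 0) (nat_lit 336552293) (nat_lit 64) (nat_lit 5) (nat_lit 69) (nat_lit 4) (nat_lit 64) (nat_lit 4) (nat_lit 309) (nat_lit 237) (nat_lit 234)) (XT.nd (nat_lit 78) (nat_lit 304) (nat_lit 0) (XT.lf (nat_lit 0) (nat_lit 6317349866) (nat_lit 380) (nat_lit 698458062) (nat_lit 0) (nat_lit 2835840290) (nat_lit 64) (nat_lit 5) (nat_lit 69) (nat_lit 4) (nat_lit 64) (nat_lit 4) (nat_lit 310) (nat_lit 237) (nat_lit 233)) (XT.lf (nat_lit 0) (nat_lit 5135332387) (nat_lit 304) (nat_lit 4584493676) (nat_lit 304) (nat_lit 295047259) (nat_lit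 60) (nat_lit 4) (nat_lit 64) (nat_lit 5) (nat_lit 64) (nat_lit 4) (nat_lit 311) (nat_lit 237) (nat_lit 232))))))) (XT.nd (nat_lit 858) (nat_lit 988) (nat_lit 0) (XT.nd (nat_lit 390) (nat_lit 836) (nat_lit 0) (XT.nd (nat_lit 156) (nat_lit 608) (nat_lit 0) (XT.nd (nat_lit 78) (nat_lit 0) (nat_lit 0) (XT.lf (nat_lit 0) (nat_lit 852500832) (nat_lit 228) (nat_lit 2066884364) (nat_lit 304) (nat_lit 7264753409) (nat_lit 56) (nat_lit 5) (nat_lit 59) (nat_lit 5) (nat_lit 60) (nat_lit 4) (nat_lit 312) (nat_lit 237) (nat_lit 231)) (XT.lf (nat_lit 0) (nat_lit 6202080298) (nat_lit 304) (nat_lit 3620483480) (nat_lit 0) (nat_lit 536634589) (nat_lit 56) (nat_lit 5) (nat_lit 60) (nat_lit 4) (nat_lit 56) (nat_lit 4) (nat_lit 313) (nat_lit 237) (nat_lit 230))) (XT.nd (nat_lit 78) (nat_lit 304) (nat_lit 0) (XT.lf (nat_lit 0) (nat_lit 2175704135) (nat_lit 304) (nat_lit 7374114502) (nat_lit 304) (nat_lit 990827375)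 (nat_lit 52) (nat_lit 4) (nat_lit 56) (nat_lit 5) (nat_lit 56) (nat_lit 4) (nat_lit 314) (nat_lit 237) (nat_lit 229)) (XT.nd (nat_lit 78) (nat_lit 228) (nat_lit 0) (XT.lf (nat_lit 0) (nat_lit 2188545472) (nat_lit 380) (nat_lit 2637473236) (nat_lit 76) (nat_lit 5902117017) (nat_lit 51) (nat_lit 5) (nat_lit 56) (nat_lit 5) (nat_lit 52) (nat_lit 4) (nat_lit 315) (nat_lit 237) (nat_lit 228)) (XT.lf (nat_lit 0) (nat_lit 3208957980) (nat_lit 228) (nat_lit 2192920300) (nat_lit 304) (nat_lit 5520444420) (nat_lit 48) (nat_lit 5) (nat_lit 51) (nat_lit 5) (nat_lit 52) (nat_lit 4) (nat_lit 316) (nat_lit 237) (nat_lit 227))))) (XT.nd (nat_lit 234) (nat_lit 532) (nat_lit 0) (XT.nd (nat_lit 78) (nat_lit 304) (nat_lit 0) (XT.lf (nat_lit 0) (nat_lit 8671926303) (nat_lit 304) (nat_lit 1948511277) (nat_lit 0) (nat_lit 503206383) (nat_lit 48) (nat_lit 5) (nat_lit 52) (nat_lit 4) (nat_lit 48) (nat_lit 4) (nat_lit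 317) (nat_lit 237) (nat_lit 226)) (XT.nd (nat_lit 78) (nat_lit 0) (nat_lit 0) (XT.lf (nat_lit 0) (nat_lit 685131766) (nat_lit 304) (nat_lit 7397118748) (nat_lit 76) (nat_lit 3248964302) (nat_lit 44) (nat_lit 5) (nat_lit 48) (nat_lit 5) (nat_lit 45) (nat_lit 4) (nat_lit 318) (nat_lit 237) (nat_lit 225)) (XT.lf (nat_lit 0) (nat_lit 3817445013) (nat_lit 304) (nat_lit 1639703744) (nat_lit 76) (nat_lit 6088724853) (nat_lit 44) (nat_lit 5) (nat_lit 48) (nat_lit 5) (nat_lit 45) (nat_lit 4) (nat_lit 319) (nat_lit 237) (nat_lit 224)))) (XT.nd (nat_lit 78) (nat_lit 304) (nat_lit 0) (XT.lf (nat_lit 0) (nat_lit 4272904541) (nat_lit 228) (nat_lit 2744677934) (nat_lit 304) (nat_lit 4750279008) (nat_lit 41) (nat_lit 5) (nat_lit 44) (nat_lit 5) (nat_lit 45) (nat_lit 4) (nat_lit 320) (nat_lit 237) (nat_lit 223)) (XT.nd (nat_lit 78) (nat_lit 304) (nat_lit 0) (XT.lf (nat_lit 0) (nat_lit 10264372883) (nat_lit 304)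 (nat_lit 1701829679) (nat_lit 0) (nat_lit 31888873) (nat_lit 41) (nat_lit 5) (nat_lit 45) (nat_lit 4) (nat_lit 41) (nat_lit 4) (nat_lit 321) (nat_lit 237) (nat_lit 222)) (XT.lf (nat_lit 0) (nat_lit 1349622139) (nat_lit 304) (nat_lit 8026892498) (nat_lit 76) (nat_lit 2858321195) (nat_lit 37) (nat_lit 5) (nat_lit 41) (nat_lit 5) (nat_lit 38) (nat_lit 4) (nat_lit 322) (nat_lit 237) (nat_lit 221)))))) (XT.nd (nat_lit 468) (nat_lit 380) (nat_lit 0) (XT.nd (nat_lit 234) (nat_lit 456) (nat_lit 0) (XT.nd (nat_lit 78) (nat_lit 152) (nat_lit 0) (XT.lf (nat_lit 0) (nat_lit 4443582563) (nat_lit 304) (nat_lit 2264736753) (nat_lit 76) (nat_lit 5771352572) (nat_lit 37) (nat_lit 5) (nat_lit 41) (nat_lit 5) (nat_lit 38) (nat_lit 4) (nat_lit 323) (nat_lit 237) (nat_lit 220)) (XT.nd (nat_lit 78) (nat_lit 0) (nat_lit 0) (XT.lf (nat_lit 0) (nat_lit 3645171918) (nat_lit 152) (nat_lit 3957715176) (nat_lit 228) (nat_lit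 5129880711) (nat_lit 35) (nat_lit 5) (nat_lit 37) (nat_lit 5) (nat_lit 38) (nat_lit 4) (nat_lit 324) (nat_lit 237) (nat_lit 219)) (XT.lf (nat_lit 0) (nat_lit 9683504105) (nat_lit 152) (nat_lit 1134726469) (nat_lit 228) (nat_lit 2176476138) (nat_lit 35) (nat_lit 5) (nat_lit 37) (nat_lit 5) (nat_lit 38) (nat_lit 4) (nat_lit 325) (nat_lit 237) (nat_lit 218)))) (XT.nd (nat_lit 78) (nat_lit 152) (nat_lit 0) (XT.lf (nat_lit 0) (nat_lit 830067109) (nat_lit 304) (nat_lit 10695625618) (nat_lit 76) (nat_lit 1739201532) (nat_lit 31) (nat_lit 5) (nat_lit 35) (nat_lit 5) (nat_lit 32) (nat_lit 4) (nat_lit 326) (nat_lit 237) (nat_lit 217)) (XT.nd (nat_lit 78) (nat_lit 152) (nat_lit 0) (XT.lf (nat_lit 0) (nat_lit 3868122389) (nat_lit 304) (nat_lit 4975708439) (nat_lit 76) (nat_lit 4699238747) (nat_lit 31) (nat_lit 5) (nat_lit 35) (nat_lit 5) (nat_lit 32) (nat_lit 4) (nat_lit 327) (nat_lit 237) (nat_lit 216))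 (XT.lf (nat_lit 0) (nat_lit 840519169) (nat_lit 152) (nat_lit 6106683748) (nat_lit 228) (nat_lit 6883968828) (nat_lit 29) (nat_lit 5) (nat_lit 31) (nat_lit 5) (nat_lit 32) (nat_lit 4) (nat_lit 328) (nat_lit 237) (nat_lit 215))))) (XT.nd (nat_lit 234) (nat_lit 152) (nat_lit 0) (XT.nd (nat_lit 78) (nat_lit 228) (nat_lit 0) (XT.lf (nat_lit 0) (nat_lit 6842441017) (nat_lit 152) (nat_lit 3269086051) (nat_lit 228) (nat_lit 4016679603) (nat_lit 29) (nat_lit 5) (nat_lit 31) (nat_lit 5) (nat_lit 32) (nat_lit 4) (nat_lit 329) (nat_lit 237) (nat_lit 214)) (XT.nd (nat_lit 78) (nat_lit 228) (nat_lit 0) (XT.lf (nat_lit 0) (nat_lit 12936275147) (nat_lit 152) (nat_lit 378803183) (nat_lit 228) (nat_lit 1120819011) (nat_lit 29) (nat_lit 5) (nat_lit 31) (nat_lit 5) (nat_lit 32) (nat_lit 4) (nat_lit 330) (nat_lit 237) (nat_lit 213)) (XT.lf (nat_lit 0) (nat_lit 1838866928) (nat_lit 228) (nat_lit 10335823681) (nat_lit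 76) (nat_lit 2577262110) (nat_lit 26) (nat_lit 5) (nat_lit 29) (nat_lit 5) (nat_lit 27) (nat_lit 4) (nat_lit 331) (nat_lit 237) (nat_lit 212)))) (XT.nd (nat_lit 78) (nat_lit 152) (nat_lit 0) (XT.lf (nat_lit 0) (nat_lit 4829633983) (nat_lit 228) (nat_lit 4639202613) (nat_lit 76) (nat_lit 5609443081) (nat_lit 26) (nat_lit 5) (nat_lit 29) (nat_lit 5) (nat_lit 27) (nat_lit 4) (nat_lit 332) (nat_lit 237) (nat_lit 211)) (XT.nd (nat_lit 78) (nat_lit 0) (nat_lit 0) (XT.lf (nat_lit 0) (nat_lit 1166355456) (nat_lit 152) (nat_lit 6702333893) (nat_lit 228) (nat_lit 7547015545) (nat_lit 24) (nat_lit 5) (nat_lit 26) (nat_lit 5) (nat_lit 27) (nat_lit 4) (nat_lit 333) (nat_lit 237) (nat_lit 210)) (XT.lf (nat_lit 0) (nat_lit 7157288550) (nat_lit 152) (nat_lit 3836555235) (nat_lit 228) (nat_lit 4769624763) (nat_lit 24) (nat_lit 5) (nat_lit 26) (nat_lit 5) (nat_lit 27) (nat_lit 4) (nat_lit 334) (nat_lit 237) (nat_lit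 209))))))))
noncomputable def xc52 : XT := (XT.nd (nat_lit 1716) (nat_lit 532) (nat_lit 0) (XT.nd (nat_lit 858) (nat_lit 304) (nat_lit 0) (XT.nd (nat_lit 390) (nat_lit 304) (nat_lit 0) (XT.nd (nat_lit 156) (nat_lit 76) (nat_lit 0) (XT.nd (nat_lit 78) (nat_lit 228) (nat_lit 0) (XT.lf (nat_lit 0) (nat_lit 13246502236) (nat_lit 152) (nat_lit 915843395) (nat_lit 228) (nat_lit 1960893353) (nat_lit 24) (nat_lit 5) (nat_lit 26) (nat_lit 5) (nat_lit 27) (nat_lit 4) (nat_lit 335) (nat_lit 237) (nat_lit 208)) (XT.lf (nat_lit 0) (nat_lit 913402070) (nat_lit 228) (nat_lit 13520472123) (nat_lit 76) (nat_lit 2059732934) (nat_lit 21) (nat_lit 5) (nat_lit 24) (nat_lit 5) (nat_lit 22) (nat_lit 4) (nat_lit 336) (nat_lit 237) (nat_lit 207))) (XT.nd (nat_lit 78) (nat_lit 76) (nat_lit 0) (XT.lf (nat_lit 0) (nat_lit 3823822004) (nat_lit 228) (nat_lit 7926071454) (nat_lit 76) (nat_lit 5124987607) (nat_lit 21) (nat_lit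 5) (nat_lit 24) (nat_lit 5) (nat_lit 22) (nat_lit 4) (nat_lit 337) (nat_lit 237) (nat_lit 206)) (XT.nd (nat_lit 78) (nat_lit 76) (nat_lit 0) (XT.lf (nat_lit 0) (nat_lit 6773887435) (nat_lit 228) (nat_lit 2242052023) (nat_lit 76) (nat_lit 8253138554) (nat_lit 21) (nat_lit 5) (nat_lit 24) (nat_lit 5) (nat_lit 22) (nat_lit 4) (nat_lit 338) (nat_lit 237) (nat_lit 205)) (XT.lf (nat_lit 0) (nat_lit 3606937126) (nat_lit 76) (nat_lit 6193911053) (nat_lit 152) (nat_lit 7874654073) (nat_lit 20) (nat_lit 5) (nat_lit 21) (nat_lit 5) (nat_lit 22) (nat_lit 4) (nat_lit 339) (nat_lit 237) (nat_lit 204))))) (XT.nd (nat_lit 234) (nat_lit 76) (nat_lit 0) (XT.nd (nat_lit 78) (nat_lit 228) (nat_lit 0) (XT.lf (nat_lit 0) (nat_lit 9602165080) (nat_lit 76) (nat_lit 3293439401) (nat_lit 152) (nat_lit 5199256769) (nat_lit 20) (nat_lit 5) (nat_lit 21) (nat_lit 5) (nat_lit 22) (nat_lit 4) (nat_lit 340) (nat_lit 237) (nat_lit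 203)) (XT.nd (nat_lit 78) (nat_lit 228) (nat_lit 0) (XT.lf (nat_lit 0) (nat_lit 15704249156) (nat_lit 76) (nat_lit 334630440) (nat_lit 152) (nat_lit 2489301268) (nat_lit 20) (nat_lit 5) (nat_lit 21) (nat_lit 5) (nat_lit 22) (nat_lit 4) (nat_lit 341) (nat_lit 237) (nat_lit 202)) (XT.lf (nat_lit 0) (nat_lit 307500325) (nat_lit 228) (nat_lit 16002300049) (nat_lit 76) (nat_lit 2664316682) (nat_lit 17) (nat_lit 5) (nat_lit 20) (nat_lit 5) (nat_lit 18) (nat_lit 4) (nat_lit 342) (nat_lit 237) (nat_lit 201)))) (XT.nd (nat_lit 78) (nat_lit 76) (nat_lit 0) (XT.lf (nat_lit 0) (nat_lit 3127091666) (nat_lit 228) (nat_lit 10533638551) (nat_lit 76) (nat_lit 5772340051) (nat_lit 17) (nat_lit 5) (nat_lit 20) (nat_lit 5) (nat_lit 18) (nat_lit 4) (nat_lit 343) (nat_lit 237) (nat_lit 200)) (XT.nd (nat_lit 78) (nat_lit 76) (nat_lit 0) (XT.lf (nat_lit 0) (nat_lit 5989335314) (nat_lit 228) (nat_lit 4970962511) (nat_lit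 76) (nat_lit 8946796853) (nat_lit 17) (nat_lit 5) (nat_lit 20) (nat_lit 5) (nat_lit 18) (nat_lit 4) (nat_lit 344) (nat_lit 237) (nat_lit 199)) (XT.lf (nat_lit 0) (nat_lit 704332729) (nat_lit 76) (nat_lit 8199170007) (nat_lit 152) (nat_lit 11492898634) (nat_lit 16) (nat_lit 5) (nat_lit 17) (nat_lit 5) (nat_lit 18) (nat_lit 4) (nat_lit 345) (nat_lit 237) (nat_lit 198)))))) (XT.nd (nat_lit 390) (nat_lit 76) (nat_lit 0) (XT.nd (nat_lit 156) (nat_lit 228) (nat_lit 0) (XT.nd (nat_lit 78) (nat_lit 0) (nat_lit 0) (XT.lf (nat_lit 0) (nat_lit 6584448254) (nat_lit 76) (nat_lit 5330668436) (nat_lit 152) (nat_lit 8985011911) (nat_lit 16) (nat_lit 5) (nat_lit 17) (nat_lit 5) (nat_lit 18) (nat_lit 4) (nat_lit 346) (nat_lit 237) (nat_lit 197)) (XT.lf (nat_lit 0) (nat_lit 12575590126) (nat_lit 76) (nat_lit 2402483631) (nat_lit 152) (nat_lit 6442104811) (nat_lit 16) (nat_lit 5) (nat_lit 17) (nat_lit 5) (nat_lit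 18) (nat_lit 4) (nat_lit 347) (nat_lit 237) (nat_lit 196))) (XT.nd (nat_lit 78) (nat_lit 228) (nat_lit 0) (XT.lf (nat_lit 0) (nat_lit 18100701975) (nat_lit 152) (nat_lit 3279664029) (nat_lit 0) (nat_lit 576470131) (nat_lit 16) (nat_lit 5) (nat_lit 18) (nat_lit 4) (nat_lit 16) (nat_lit 4) (nat_lit 348) (nat_lit 237) (nat_lit 195)) (XT.nd (nat_lit 78) (nat_lit 76) (nat_lit 0) (XT.lf (nat_lit 0) (nat_lit 2412980426) (nat_lit 152) (nat_lit 18914005432) (nat_lit 152) (nat_lit 1182346688) (nat_lit 14) (nat_lit 4) (nat_lit 16) (nat_lit 5) (nat_lit 16) (nat_lit 4) (nat_lit 349) (nat_lit 237) (nat_lit 194)) (XT.lf (nat_lit 0) (nat_lit 1537511143) (nat_lit 228) (nat_lit 14811896463) (nat_lit 76) (nat_lit 6728683467) (nat_lit 13) (nat_lit 5) (nat_lit 16) (nat_lit 5) (nat_lit 14) (nat_lit 4) (nat_lit 350) (nat_lit 237) (nat_lit 193))))) (XT.nd (nat_lit 234) (nat_lit 0) (nat_lit 0) (XT.nd (nat_lit 78) (nat_lit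 76) (nat_lit 0) (XT.lf (nat_lit 0) (nat_lit 4279355366) (nat_lit 228) (nat_lit 9441472436) (nat_lit 76) (nat_lit 9943843880) (nat_lit 13) (nat_lit 5) (nat_lit 16) (nat_lit 5) (nat_lit 14) (nat_lit 4) (nat_lit 351) (nat_lit 237) (nat_lit 192)) (XT.nd (nat_lit 78) (nat_lit 76) (nat_lit 0) (XT.lf (nat_lit 0) (nat_lit 7068653610) (nat_lit 228) (nat_lit 3969021998) (nat_lit 76) (nat_lit 13232252278) (nat_lit 13) (nat_lit 5) (nat_lit 16) (nat_lit 5) (nat_lit 14) (nat_lit 4) (nat_lit 352) (nat_lit 237) (nat_lit 191)) (XT.lf (nat_lit 0) (nat_lit 1642283470) (nat_lit 76) (nat_lit 8281346288) (nat_lit 152) (nat_lit 14970285191) (nat_lit 12) (nat_lit 5) (nat_lit 13) (nat_lit 5) (nat_lit 14) (nat_lit 4) (nat_lit 353) (nat_lit 237) (nat_lit 190)))) (XT.nd (nat_lit 78) (nat_lit 0) (nat_lit 0) (XT.lf (nat_lit 0) (nat_lit 7446486218) (nat_lit 76) (nat_lit 5424498719) (nat_lit 152) (nat_lit 12665466972) (nat_lit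 12) (nat_lit 5) (nat_lit 13) (nat_lit 5) (nat_lit 14) (nat_lit 4) (nat_lit 354) (nat_lit 237) (nat_lit 189)) (XT.nd (nat_lit 78) (nat_lit 0) (nat_lit 0) (XT.lf (nat_lit 0) (nat_lit 13369666561) (nat_lit 76) (nat_lit 2504715965) (nat_lit 152) (nat_lit 10324885039) (nat_lit 12) (nat_lit 5) (nat_lit 13) (nat_lit 5) (nat_lit 14) (nat_lit 4) (nat_lit 355) (nat_lit 237) (nat_lit 188)) (XT.lf (nat_lit 0) (nat_lit 18941066225) (nat_lit 152) (nat_lit 7470560356) (nat_lit 0) (nat_lit 471175914) (nat_lit 12) (nat_lit 5) (nat_lit 14) (nat_lit 4) (nat_lit 12) (nat_lit 4) (nat_lit 356) (nat_lit 237) (nat_lit 187))))))) (XT.nd (nat_lit 858) (nat_lit 228) (nat_lit 0) (XT.nd (nat_lit 390) (nat_lit 76) (nat_lit 0) (XT.nd (nat_lit 156) (nat_lit 76) (nat_lit 0) (XT.nd (nat_lit 78) (nat_lit 152) (nat_lit 0) (XT.lf (nat_lit 0) (nat_lit 22093823683) (nat_lit 152) (nat_lit 2028269114) (nat_lit 0) (nat_lit 3464957925)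 (nat_lit 12) (nat_lit 5) (nat_lit 14) (nat_lit 4) (nat_lit 12) (nat_lit 4) (nat_lit 357) (nat_lit 237) (nat_lit 186)) (XT.lf (nat_lit 0) (nat_lit 3596281387) (nat_lit 152) (nat_lit 21749621144) (nat_lit 152) (nat_lit 2966410293) (nat_lit 10) (nat_lit 4) (nat_lit 12) (nat_lit 5) (nat_lit 12) (nat_lit 4) (nat_lit 358) (nat_lit 237) (nat_lit 185))) (XT.nd (nat_lit 78) (nat_lit 76) (nat_lit 0) (XT.lf (nat_lit 0) (nat_lit 9380461874) (nat_lit 152) (nat_lit 19306114081) (nat_lit 152) (nat_lit 373053624) (nat_lit 10) (nat_lit 4) (nat_lit 12) (nat_lit 5) (nat_lit 12) (nat_lit 4) (nat_lit 359) (nat_lit 237) (nat_lit 184)) (XT.nd (nat_lit 78) (nat_lit 0) (nat_lit 0) (XT.lf (nat_lit 0) (nat_lit 2224358371) (nat_lit 228) (nat_lit 14563098015) (nat_lit 76) (nat_lit 13042139921) (nat_lit 9) (nat_lit 5) (nat_lit 12) (nat_lit 5) (nat_lit 10) (nat_lit 4) (nat_lit 360) (nat_lit 237) (nat_lit 183)) (XT.lf (nat_lit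 0) (nat_lit 4864135407) (nat_lit 228) (nat_lit 9345598257) (nat_lit 76) (nat_lit 16413684747) (nat_lit 9) (nat_lit 5) (nat_lit 12) (nat_lit 5) (nat_lit 10) (nat_lit 4) (nat_lit 361) (nat_lit 237) (nat_lit 182))))) (XT.nd (nat_lit 234) (nat_lit 0) (nat_lit 0) (XT.nd (nat_lit 78) (nat_lit 76) (nat_lit 0) (XT.lf (nat_lit 0) (nat_lit 7555863704) (nat_lit 228) (nat_lit 4018523431) (nat_lit 76) (nat_lit 19867509965) (nat_lit 9) (nat_lit 5) (nat_lit 12) (nat_lit 5) (nat_lit 10) (nat_lit 4) (nat_lit 362) (nat_lit 237) (nat_lit 181)) (XT.nd (nat_lit 78) (nat_lit 0) (nat_lit 0) (XT.lf (nat_lit 0) (nat_lit 1451097323) (nat_lit 76) (nat_lit 8864746769) (nat_lit 152) (nat_lit 21969484992) (nat_lit 8) (nat_lit 5) (nat_lit 9) (nat_lit 5) (nat_lit 10) (nat_lit 4) (nat_lit 363) (nat_lit 237) (nat_lit 180)) (XT.lf (nat_lit 0) (nat_lit 7122046927) (nat_lit 76) (nat_lit 6051044057) (nat_lit 152) (nat_lit 19980562278)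 (nat_lit 8) (nat_lit 5) (nat_lit 9) (nat_lit 5) (nat_lit 10) (nat_lit 4) (nat_lit 364) (nat_lit 237) (nat_lit 179)))) (XT.nd (nat_lit 78) (nat_lit 0) (nat_lit 0) (XT.lf (nat_lit 0) (nat_lit 12919304084) (nat_lit 76) (nat_lit 3171399631) (nat_lit 152) (nat_lit 17958106565) (nat_lit 8) (nat_lit 5) (nat_lit 9) (nat_lit 5) (nat_lit 10) (nat_lit 4) (nat_lit 365) (nat_lit 237) (nat_lit 178)) (XT.nd (nat_lit 78) (nat_lit 0) (nat_lit 0) (XT.lf (nat_lit 0) (nat_lit 18847934356) (nat_lit 76) (nat_lit 223297296) (nat_lit 152) (nat_lit 15900350661) (nat_lit 8) (nat_lit 5) (nat_lit 9) (nat_lit 5) (nat_lit 10) (nat_lit 4) (nat_lit 366) (nat_lit 237) (nat_lit 177)) (XT.lf (nat_lit 0) (nat_lit 22144154459) (nat_lit 152) (nat_lit 11036532882) (nat_lit 0) (nat_lit 2741282069) (nat_lit 8) (nat_lit 5) (nat_lit 10) (nat_lit 4) (nat_lit 8) (nat_lit 4) (nat_lit 367) (nat_lit 237) (nat_lit 176)))))) (XT.nd (nat_lit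 468) (nat_lit 76) (nat_lit 0) (XT.nd (nat_lit 234) (nat_lit 76) (nat_lit 0) (XT.nd (nat_lit 78) (nat_lit 76) (nat_lit 0) (XT.lf (nat_lit 0) (nat_lit 25288113064) (nat_lit 152) (nat_lit 5839671772) (nat_lit 0) (nat_lit 5773738494) (nat_lit 8) (nat_lit 5) (nat_lit 10) (nat_lit 4) (nat_lit 8) (nat_lit 4) (nat_lit 368) (nat_lit 237) (nat_lit 175)) (XT.nd (nat_lit 78) (nat_lit 76) (nat_lit 0) (XT.lf (nat_lit 0) (nat_lit 28503708145) (nat_lit 152) (nat_lit 526377209) (nat_lit 0) (nat_lit 8881079032) (nat_lit 8) (nat_lit 5) (nat_lit 10) (nat_lit 4) (nat_lit 8) (nat_lit 4) (nat_lit 369) (nat_lit 237) (nat_lit 174)) (XT.lf (nat_lit 0) (nat_lit 5005672183) (nat_lit 76) (nat_lit 26836194846) (nat_lit 76) (nat_lit 7108464234) (nat_lit 7) (nat_lit 4) (nat_lit 8) (nat_lit 5) (nat_lit 8) (nat_lit 4) (nat_lit 370) (nat_lit 237) (nat_lit 173)))) (XT.nd (nat_lit 78) (nat_lit 76) (nat_lit 0) (XT.lf (nat_lit 0)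 (nat_lit 10676526288) (nat_lit 76) (nat_lit 24587214775) (nat_lit 76) (nat_lit 4757443874) (nat_lit 7) (nat_lit 4) (nat_lit 8) (nat_lit 5) (nat_lit 8) (nat_lit 4) (nat_lit 371) (nat_lit 237) (nat_lit 172)) (XT.nd (nat_lit 78) (nat_lit 76) (nat_lit 0) (XT.lf (nat_lit 0) (nat_lit 16480664281) (nat_lit 76) (nat_lit 22286495391) (nat_lit 76) (nat_lit 2357656247) (nat_lit 7) (nat_lit 4) (nat_lit 8) (nat_lit 5) (nat_lit 8) (nat_lit 4) (nat_lit 372) (nat_lit 237) (nat_lit 171)) (XT.lf (nat_lit 0) (nat_lit 91180868) (nat_lit 152) (nat_lit 19839924741) (nat_lit 76) (nat_lit 22331056123) (nat_lit 6) (nat_lit 5) (nat_lit 8) (nat_lit 5) (nat_lit 7) (nat_lit 4) (nat_lit 373) (nat_lit 237) (nat_lit 170))))) (XT.nd (nat_lit 234) (nat_lit 76) (nat_lit 0) (XT.nd (nat_lit 78) (nat_lit 0) (nat_lit 0) (XT.lf (nat_lit 0) (nat_lit 2545982803) (nat_lit 152) (nat_lit 14950058132) (nat_lit 76) (nat_lit 25937506894)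 (nat_lit 6) (nat_lit 5) (nat_lit 8) (nat_lit 5) (nat_lit 7) (nat_lit 4) (nat_lit 374) (nat_lit 237) (nat_lit 169)) (XT.nd (nat_lit 78) (nat_lit 0) (nat_lit 0) (XT.lf (nat_lit 0) (nat_lit 5054900896) (nat_lit 152) (nat_lit 9947615878) (nat_lit 76) (nat_lit 29638160875) (nat_lit 6) (nat_lit 5) (nat_lit 8) (nat_lit 5) (nat_lit 7) (nat_lit 4) (nat_lit 375) (nat_lit 237) (nat_lit 168)) (XT.lf (nat_lit 0) (nat_lit 7620127406) (nat_lit 152) (nat_lit 4828226915) (nat_lit 76) (nat_lit 33436251648) (nat_lit 6) (nat_lit 5) (nat_lit 8) (nat_lit 5) (nat_lit 7) (nat_lit 4) (nat_lit 376) (nat_lit 237) (nat_lit 167)))) (XT.nd (nat_lit 78) (nat_lit 0) (nat_lit 0) (XT.lf (nat_lit 0) (nat_lit 420793202) (nat_lit 76) (nat_lit 9827155510) (nat_lit 152) (nat_lit 36918349651) (nat_lit 5) (nat_lit 5) (nat_lit 6) (nat_lit 5) (nat_lit 7) (nat_lit 4) (nat_lit 377) (nat_lit 237) (nat_lit 166)) (XT.nd (nat_lit 78) (nat_lit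 0) (nat_lit 0) (XT.lf (nat_lit 0) (nat_lit 5894411446) (nat_lit 76) (nat_lit 7090771915) (nat_lit 152) (nat_lit 35500355729) (nat_lit 5) (nat_lit 5) (nat_lit 6) (nat_lit 5) (nat_lit 7) (nat_lit 4) (nat_lit 378) (nat_lit 237) (nat_lit 165)) (XT.lf (nat_lit 0) (nat_lit 11501319407) (nat_lit 76) (nat_lit 4285568145) (nat_lit 152) (nat_lit 34058013396) (nat_lit 5) (nat_lit 5) (nat_lit 6) (nat_lit 5) (nat_lit 7) (nat_lit 4) (nat_lit 379) (nat_lit 237) (nat_lit 164))))))))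
noncomputable def xc53 : XT := (XT.nd (nat_lit 34710) (nat_lit 0) (nat_lit 2128) (XT.nd (nat_lit 858) (nat_lit 76) (nat_lit 0) (XT.nd (nat_lit 390) (nat_lit 76) (nat_lit 0) (XT.nd (nat_lit 156) (nat_lit 0) (nat_lit 0) (XT.nd (nat_lit 78) (nat_lit 0) (nat_lit 0) (XT.lf (nat_lit 0) (nat_lit 17246416326) (nat_lit 76) (nat_lit 1409093051) (nat_lit 152) (nat_lit 32590062355) (nat_lit 5) (nat_lit 5) (nat_lit 6) (nat_lit 5) (nat_lit 7) (nat_lit 4) (nat_lit 380) (nat_lit 237) (nat_lit 163)) (XT.lf (nat_lit 0) (nat_lit 21608370036) (nat_lit 152) (nat_lit 29568867777) (nat_lit 0) (nat_lit 1511093075) (nat_lit 5) (nat_lit 5) (nat_lit 7) (nat_lit 4) (nat_lit 5) (nat_lit 4) (nat_lit 381) (nat_lit 237) (nat_lit 162))) (XT.nd (nat_lit 78) (nat_lit 0) (nat_lit 0) (XT.lf (nat_lit 0) (nat_lit 24647501224) (nat_lit 152) (nat_lit 25048299052) (nat_lit 0) (nat_lit 4478655257) (nat_lit 5) (nat_lit 5) (nat_lit 7)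 (nat_lit 4) (nat_lit 5) (nat_lit 4) (nat_lit 382) (nat_lit 237) (nat_lit 161)) (XT.nd (nat_lit 78) (nat_lit 0) (nat_lit 0) (XT.lf (nat_lit 0) (nat_lit 27762013429) (nat_lit 152) (nat_lit 20419954157) (nat_lit 0) (nat_lit 7523682990) (nat_lit 5) (nat_lit 5) (nat_lit 7) (nat_lit 4) (nat_lit 5) (nat_lit 4) (nat_lit 383) (nat_lit 237) (nat_lit 160)) (XT.lf (nat_lit 0) (nat_lit 30954628068) (nat_lit 152) (nat_lit 15679788907) (nat_lit 0) (nat_lit 10648836977) (nat_lit 5) (nat_lit 5) (nat_lit 7) (nat_lit 4) (nat_lit 5) (nat_lit 4) (nat_lit 384) (nat_lit 237) (nat_lit 159))))) (XT.nd (nat_lit 234) (nat_lit 76) (nat_lit 0) (XT.nd (nat_lit 78) (nat_lit 0) (nat_lit 0) (XT.lf (nat_lit 0) (nat_lit 34228134807) (nat_lit 152) (nat_lit 10823661410) (nat_lit 0) (nat_lit 13856847936) (nat_lit 5) (nat_lit 5) (nat_lit 7) (nat_lit 4) (nat_lit 5) (nat_lit 4) (nat_lit 385) (nat_lit 237) (nat_lit 158)) (XT.nd (nat_lit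 78) (nat_lit 0) (nat_lit 0) (XT.lf (nat_lit 0) (nat_lit 37585393989) (nat_lit 152) (nat_lit 5847328448) (nat_lit 0) (nat_lit 17150518983) (nat_lit 5) (nat_lit 5) (nat_lit 7) (nat_lit 4) (nat_lit 5) (nat_lit 4) (nat_lit 386) (nat_lit 237) (nat_lit 157)) (XT.lf (nat_lit 0) (nat_lit 41029339142) (nat_lit 152) (nat_lit 746441769) (nat_lit 0) (nat_lit 20532728083) (nat_lit 5) (nat_lit 5) (nat_lit 7) (nat_lit 4) (nat_lit 5) (nat_lit 4) (nat_lit 387) (nat_lit 237) (nat_lit 156)))) (XT.nd (nat_lit 78) (nat_lit 0) (nat_lit 0) (XT.lf (nat_lit 0) (nat_lit 4572685272) (nat_lit 76) (nat_lit 40034249715) (nat_lit 76) (nat_lit 19477700740) (nat_lit 4) (nat_lit 4) (nat_lit 5) (nat_lit 5) (nat_lit 5) (nat_lit 4) (nat_lit 388) (nat_lit 237) (nat_lit 155)) (XT.nd (nat_lit 78) (nat_lit 0) (nat_lit 0) (XT.lf (nat_lit 0) (nat_lit 10042907102) (nat_lit 76) (nat_lit 38243034293) (nat_lit 76) (nat_lit 17628293167) (nat_lit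 4) (nat_lit 4) (nat_lit 5) (nat_lit 5) (nat_lit 5) (nat_lit 4) (nat_lit 389) (nat_lit 237) (nat_lit 154)) (XT.lf (nat_lit 0) (nat_lit 15654147869) (nat_lit 76) (nat_lit 36408107104) (nat_lit 76) (nat_lit 15736868743) (nat_lit 4) (nat_lit 4) (nat_lit 5) (nat_lit 5) (nat_lit 5) (nat_lit 4) (nat_lit 390) (nat_lit 237) (nat_lit 153)))))) (XT.nd (nat_lit 390) (nat_lit 76) (nat_lit 0) (XT.nd (nat_lit 156) (nat_lit 0) (nat_lit 0) (XT.nd (nat_lit 78) (nat_lit 0) (nat_lit 0) (XT.lf (nat_lit 0) (nat_lit 21411310599) (nat_lit 76) (nat_lit 34527864813) (nat_lit 76) (nat_lit 13801774768) (nat_lit 4) (nat_lit 4) (nat_lit 5) (nat_lit 5) (nat_lit 5) (nat_lit 4) (nat_lit 391) (nat_lit 237) (nat_lit 152)) (XT.lf (nat_lit 0) (nat_lit 27319425824) (nat_lit 76) (nat_lit 32600664490) (nat_lit 76) (nat_lit 11821320384) (nat_lit 4) (nat_lit 4) (nat_lit 5) (nat_lit 5) (nat_lit 5) (nat_lit 4) (nat_lit 392) (nat_lit 237)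 (nat_lit 151))) (XT.nd (nat_lit 78) (nat_lit 0) (nat_lit 0) (XT.lf (nat_lit 0) (nat_lit 33383655974) (nat_lit 76) (nat_lit 30624822174) (nat_lit 76) (nat_lit 9793775095) (nat_lit 4) (nat_lit 4) (nat_lit 5) (nat_lit 5) (nat_lit 5) (nat_lit 4) (nat_lit 393) (nat_lit 237) (nat_lit 150)) (XT.nd (nat_lit 78) (nat_lit 0) (nat_lit 0) (XT.lf (nat_lit 0) (nat_lit 39609299891) (nat_lit 76) (nat_lit 28598611401) (nat_lit 76) (nat_lit 7717367261) (nat_lit 4) (nat_lit 4) (nat_lit 5) (nat_lit 5) (nat_lit 5) (nat_lit 4) (nat_lit 394) (nat_lit 237) (nat_lit 149)) (XT.lf (nat_lit 0) (nat_lit 46001797458) (nat_lit 76) (nat_lit 26520261694) (nat_lit 76) (nat_lit 5590282544) (nat_lit 4) (nat_lit 4) (nat_lit 5) (nat_lit 5) (nat_lit 5) (nat_lit 4) (nat_lit 395) (nat_lit 237) (nat_lit 148))))) (XT.nd (nat_lit 234) (nat_lit 0) (nat_lit 0) (XT.nd (nat_lit 78) (nat_lit 76) (nat_lit 0) (XT.lf (nat_lit 0) (nat_lit 52566734353)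 (nat_lit 76) (nat_lit 24387957022) (nat_lit 76) (nat_lit 3410662326) (nat_lit 4) (nat_lit 4) (nat_lit 5) (nat_lit 5) (nat_lit 5) (nat_lit 4) (nat_lit 396) (nat_lit 237) (nat_lit 147)) (XT.nd (nat_lit 78) (nat_lit 76) (nat_lit 0) (XT.lf (nat_lit 0) (nat_lit 59309846927) (nat_lit 76) (nat_lit 22199834203) (nat_lit 76) (nat_lit 1176602086) (nat_lit 4) (nat_lit 4) (nat_lit 5) (nat_lit 5) (nat_lit 5) (nat_lit 4) (nat_lit 397) (nat_lit 237) (nat_lit 146)) (XT.lf (nat_lit 0) (nat_lit 1092115036) (nat_lit 152) (nat_lit 18850838031) (nat_lit 76) (nat_lit 65133883965) (nat_lit 3) (nat_lit 5) (nat_lit 5) (nat_lit 5) (nat_lit 4) (nat_lit 4) (nat_lit 398) (nat_lit 237) (nat_lit 145)))) (XT.nd (nat_lit 78) (nat_lit 0) (nat_lit 0) (XT.lf (nat_lit 0) (nat_lit 3395126428) (nat_lit 152) (nat_lit 14219025330) (nat_lit 76) (nat_lit 69924917564) (nat_lit 3) (nat_lit 5) (nat_lit 5) (nat_lit 5) (nat_lit 4) (nat_lit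 4) (nat_lit 399) (nat_lit 237) (nat_lit 144)) (XT.nd (nat_lit 78) (nat_lit 0) (nat_lit 0) (XT.lf (nat_lit 0) (nat_lit 5757404174) (nat_lit 152) (nat_lit 9465640755) (nat_lit 76) (nat_lit 74852425933) (nat_lit 3) (nat_lit 5) (nat_lit 5) (nat_lit 5) (nat_lit 4) (nat_lit 4) (nat_lit 400) (nat_lit 237) (nat_lit 143)) (XT.lf (nat_lit 0) (nat_lit 8181012398) (nat_lit 152) (nat_lit 4586530863) (nat_lit 76) (nat_lit 79920714661) (nat_lit 3) (nat_lit 5) (nat_lit 5) (nat_lit 5) (nat_lit 4) (nat_lit 4) (nat_lit 401) (nat_lit 237) (nat_lit 142))))))) (XT.nd (nat_lit 858) (nat_lit 1596) (nat_lit 0) (XT.nd (nat_lit 390) (nat_lit 1216) (nat_lit 0) (XT.nd (nat_lit 156) (nat_lit 684) (nat_lit 0) (XT.nd (nat_lit 78) (nat_lit 76) (nat_lit 0) (XT.lf (nat_lit 0) (nat_lit 1325530733) (nat_lit 380) (nat_lit 1583829165) (nat_lit 380) (nat_lit 1583829165) (nat_lit 78) (nat_lit 4) (nat_lit 83) (nat_lit 5) (nat_lit 83)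 (nat_lit 4) (nat_lit 304) (nat_lit 238) (nat_lit 238)) (XT.lf (nat_lit 0) (nat_lit 100565573) (nat_lit 456) (nat_lit 789512292) (nat_lit 76) (nat_lit 8229056524) (nat_lit 77) (nat_lit 5) (nat_lit 83) (nat_lit 5) (nat_lit 78) (nat_lit 4) (nat_lit 305) (nat_lit 238) (nat_lit 237))) (XT.nd (nat_lit 78) (nat_lit 380) (nat_lit 0) (XT.lf (nat_lit 0) (nat_lit 3381409608) (nat_lit 380) (nat_lit 4394278587) (nat_lit 0) (nat_lit 1480070533) (nat_lit 73) (nat_lit 5) (nat_lit 78) (nat_lit 4) (nat_lit 73) (nat_lit 4) (nat_lit 306) (nat_lit 238) (nat_lit 236)) (XT.nd (nat_lit 78) (nat_lit 76) (nat_lit 0) (XT.lf (nat_lit 0) (nat_lit 1205255821) (nat_lit 304) (nat_lit 5501840499) (nat_lit 304) (nat_lit 2691161391) (nat_lit 69) (nat_lit 4) (nat_lit 73) (nat_lit 5) (nat_lit 73) (nat_lit 4) (nat_lit 307) (nat_lit 238) (nat_lit 235)) (XT.lf (nat_lit 0) (nat_lit 539208204) (nat_lit 380) (nat_lit 2598940854) (nat_lit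 76) (nat_lit 6407977415) (nat_lit 68) (nat_lit 5) (nat_lit 73) (nat_lit 5) (nat_lit 69) (nat_lit 4) (nat_lit 308) (nat_lit 238) (nat_lit 234))))) (XT.nd (nat_lit 234) (nat_lit 532) (nat_lit 0) (XT.nd (nat_lit 78) (nat_lit 380) (nat_lit 0) (XT.lf (nat_lit 0) (nat_lit 3087805327) (nat_lit 304) (nat_lit 674992225) (nat_lit 380) (nat_lit 5936476580) (nat_lit 64) (nat_lit 5) (nat_lit 68) (nat_lit 5) (nat_lit 69) (nat_lit 4) (nat_lit 309) (nat_lit 238) (nat_lit 233)) (XT.nd (nat_lit 78) (nat_lit 380) (nat_lit 0) (XT.lf (nat_lit 0) (nat_lit 7049203293) (nat_lit 380) (nat_lit 985842674) (nat_lit 0) (nat_lit 1823136642) (nat_lit 64) (nat_lit 5) (nat_lit 69) (nat_lit 4) (nat_lit 64) (nat_lit 4) (nat_lit 310) (nat_lit 238) (nat_lit 232)) (XT.lf (nat_lit 0) (nat_lit 380623575) (nat_lit 380) (nat_lit 5237805493) (nat_lit 76) (nat_lit 4404161613) (nat_lit 59) (nat_lit 5) (nat_lit 64) (nat_lit 5) (nat_lit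 60) (nat_lit 4) (nat_lit 311) (nat_lit 238) (nat_lit 231)))) (XT.nd (nat_lit 78) (nat_lit 304) (nat_lit 0) (XT.lf (nat_lit 0) (nat_lit 430313775) (nat_lit 228) (nat_lit 3117638485) (nat_lit 304) (nat_lit 6645126474) (nat_lit 56) (nat_lit 5) (nat_lit 59) (nat_lit 5) (nat_lit 60) (nat_lit 4) (nat_lit 312) (nat_lit 238) (nat_lit 230)) (XT.nd (nat_lit 78) (nat_lit 304) (nat_lit 0) (XT.lf (nat_lit 0) (nat_lit 6269616970) (nat_lit 228) (nat_lit 519064283) (nat_lit 304) (nat_lit 3580781724) (nat_lit 56) (nat_lit 5) (nat_lit 59) (nat_lit 5) (nat_lit 60) (nat_lit 4) (nat_lit 313) (nat_lit 238) (nat_lit 229)) (XT.lf (nat_lit 0) (nat_lit 1639066950) (nat_lit 304) (nat_lit 8451422867) (nat_lit 304) (nat_lit 461862290) (nat_lit 52) (nat_lit 4) (nat_lit 56) (nat_lit 5) (nat_lit 56) (nat_lit 4) (nat_lit 314) (nat_lit 238) (nat_lit 228)))))) (XT.nd (nat_lit 468) (nat_lit 760) (nat_lit 0) (XT.nd (nat_lit 234)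 (nat_lit 532) (nat_lit 0) (XT.nd (nat_lit 78) (nat_lit 228) (nat_lit 0) (XT.lf (nat_lit 0) (nat_lit 2671546650) (nat_lit 380) (nat_lit 3242955262) (nat_lit 76) (nat_lit 4826316563) (nat_lit 51) (nat_lit 5) (nat_lit 56) (nat_lit 5) (nat_lit 52) (nat_lit 4) (nat_lit 315) (nat_lit 238) (nat_lit 227)) (XT.nd (nat_lit 78) (nat_lit 0) (nat_lit 0) (XT.lf (nat_lit 0) (nat_lit 2539881997) (nat_lit 228) (nat_lit 3303962114) (nat_lit 304) (nat_lit 5092450594) (nat_lit 48) (nat_lit 5) (nat_lit 51) (nat_lit 5) (nat_lit 52) (nat_lit 4) (nat_lit 316) (nat_lit 238) (nat_lit 226)) (XT.lf (nat_lit 0) (nat_lit 8461095696) (nat_lit 228) (nat_lit 613786101) (nat_lit 304) (nat_lit 2063960982) (nat_lit 48) (nat_lit 5) (nat_lit 51) (nat_lit 5) (nat_lit 52) (nat_lit 4) (nat_lit 317) (nat_lit 238) (nat_lit 225)))) (XT.nd (nat_lit 78) (nat_lit 228) (nat_lit 0) (XT.lf (nat_lit 0) (nat_lit 1018095503) (nat_lit 304) (nat_lit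 8205237650) (nat_lit 76) (nat_lit 2124438707) (nat_lit 44) (nat_lit 5) (nat_lit 48) (nat_lit 5) (nat_lit 45) (nat_lit 4) (nat_lit 318) (nat_lit 238) (nat_lit 224)) (XT.nd (nat_lit 78) (nat_lit 228) (nat_lit 0) (XT.lf (nat_lit 0) (nat_lit 4117295965) (nat_lit 304) (nat_lit 2497531476) (nat_lit 76) (nat_lit 4948648301) (nat_lit 44) (nat_lit 5) (nat_lit 48) (nat_lit 5) (nat_lit 45) (nat_lit 4) (nat_lit 319) (nat_lit 238) (nat_lit 223)) (XT.lf (nat_lit 0) (nat_lit 3348782865) (nat_lit 228) (nat_lit 3927619004) (nat_lit 304) (nat_lit 4510342894) (nat_lit 41) (nat_lit 5) (nat_lit 44) (nat_lit 5) (nat_lit 45) (nat_lit 4) (nat_lit 320) (nat_lit 238) (nat_lit 222))))) (XT.nd (nat_lit 234) (nat_lit 456) (nat_lit 0) (XT.nd (nat_lit 78) (nat_lit 304) (nat_lit 0) (XT.lf (nat_lit 0) (nat_lit 9324674242) (nat_lit 228) (nat_lit 1166534057) (nat_lit 304) (nat_lit 1526774672) (nat_lit 41) (nat_lit 5) (nat_lit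 44) (nat_lit 5) (nat_lit 45) (nat_lit 4) (nat_lit 321) (nat_lit 238) (nat_lit 221)) (XT.nd (nat_lit 78) (nat_lit 0) (nat_lit 0) (XT.lf (nat_lit 0) (nat_lit 1499778644) (nat_lit 304) (nat_lit 9097798903) (nat_lit 76) (nat_lit 1658718558) (nat_lit 37) (nat_lit 5) (nat_lit 41) (nat_lit 5) (nat_lit 38) (nat_lit 4) (nat_lit 322) (nat_lit 238) (nat_lit 220)) (XT.lf (nat_lit 0) (nat_lit 4562943833) (nat_lit 304) (nat_lit 3383053098) (nat_lit 76) (nat_lit 4556103687) (nat_lit 37) (nat_lit 5) (nat_lit 41) (nat_lit 5) (nat_lit 38) (nat_lit 4) (nat_lit 323) (nat_lit 238) (nat_lit 219)))) (XT.nd (nat_lit 78) (nat_lit 304) (nat_lit 0) (XT.lf (nat_lit 0) (nat_lit 2457653748) (nat_lit 152) (nat_lit 5223281180) (nat_lit 228) (nat_lit 5075544315) (nat_lit 35) (nat_lit 5) (nat_lit 37) (nat_lit 5) (nat_lit 38) (nat_lit 4) (nat_lit 324) (nat_lit 238) (nat_lit 218)) (XT.nd (nat_lit 78) (nat_lit 304) (nat_lit 0)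 (XT.lf (nat_lit 0) (nat_lit 8450408131) (nat_lit 152) (nat_lit 2416404692) (nat_lit 228) (nat_lit 2152531334) (nat_lit 35) (nat_lit 5) (nat_lit 37) (nat_lit 5) (nat_lit 38) (nat_lit 4) (nat_lit 325) (nat_lit 238) (nat_lit 217)) (XT.lf (nat_lit 0) (nat_lit 799243565) (nat_lit 304) (nat_lit 12037707398) (nat_lit 76) (nat_lit 454242496) (nat_lit 31) (nat_lit 5) (nat_lit 35) (nat_lit 5) (nat_lit 32) (nat_lit 4) (nat_lit 326) (nat_lit 238) (nat_lit 216))))))))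
noncomputable def xc54 : XT := (XT.nd (nat_lit 1716) (nat_lit 684) (nat_lit 0) (XT.nd (nat_lit 858) (nat_lit 380) (nat_lit 0) (XT.nd (nat_lit 390) (nat_lit 380) (nat_lit 0) (XT.nd (nat_lit 156) (nat_lit 380) (nat_lit 0) (XT.nd (nat_lit 78) (nat_lit 0) (nat_lit 0) (XT.lf (nat_lit 0) (nat_lit 3808630868) (nat_lit 304) (nat_lit 6362957038) (nat_lit 76) (nat_lit 3398679383) (nat_lit 31) (nat_lit 5) (nat_lit 35) (nat_lit 5) (nat_lit 32) (nat_lit 4) (nat_lit 327) (nat_lit 238) (nat_lit 215)) (XT.lf (nat_lit 0) (nat_lit 6851798824) (nat_lit 304) (nat_lit 606982266) (nat_lit 76) (nat_lit 6400703099) (nat_lit 31) (nat_lit 5) (nat_lit 35) (nat_lit 5) (nat_lit 32) (nat_lit 4) (nat_lit 328) (nat_lit 238) (nat_lit 214))) (XT.nd (nat_lit 78) (nat_lit 228) (nat_lit 0) (XT.lf (nat_lit 0) (nat_lit 5339438077) (nat_lit 152) (nat_lit 4643294379) (nat_lit 228) (nat_lit 4174824639) (nat_lit 29) (nat_lit 5) (nat_lit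 31) (nat_lit 5) (nat_lit 32) (nat_lit 4) (nat_lit 329) (nat_lit 238) (nat_lit 213)) (XT.nd (nat_lit 78) (nat_lit 228) (nat_lit 0) (XT.lf (nat_lit 0) (nat_lit 11391115542) (nat_lit 152) (nat_lit 1768527680) (nat_lit 228) (nat_lit 1306438968) (nat_lit 29) (nat_lit 5) (nat_lit 31) (nat_lit 5) (nat_lit 32) (nat_lit 4) (nat_lit 330) (nat_lit 238) (nat_lit 212)) (XT.lf (nat_lit 0) (nat_lit 1601200510) (nat_lit 228) (nat_lit 12000859405) (nat_lit 76) (nat_lit 1181834426) (nat_lit 26) (nat_lit 5) (nat_lit 29) (nat_lit 5) (nat_lit 27) (nat_lit 4) (nat_lit 331) (nat_lit 238) (nat_lit 211))))) (XT.nd (nat_lit 234) (nat_lit 228) (nat_lit 0) (XT.nd (nat_lit 78) (nat_lit 152) (nat_lit 0) (XT.lf (nat_lit 0) (nat_lit 4566033366) (nat_lit 228) (nat_lit 6345973030) (nat_lit 76) (nat_lit 4199025150) (nat_lit 26) (nat_lit 5) (nat_lit 29) (nat_lit 5) (nat_lit 27) (nat_lit 4) (nat_lit 332) (nat_lit 238) (nat_lit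 210)) (XT.nd (nat_lit 78) (nat_lit 152) (nat_lit 0) (XT.lf (nat_lit 0) (nat_lit 7568698178) (nat_lit 228) (nat_lit 603693875) (nat_lit 76) (nat_lit 7277187710) (nat_lit 26) (nat_lit 5) (nat_lit 29) (nat_lit 5) (nat_lit 27) (nat_lit 4) (nat_lit 333) (nat_lit 238) (nat_lit 209)) (XT.lf (nat_lit 0) (nat_lit 5335102654) (nat_lit 152) (nat_lit 5328000247) (nat_lit 228) (nat_lit 5135193379) (nat_lit 24) (nat_lit 5) (nat_lit 26) (nat_lit 5) (nat_lit 27) (nat_lit 4) (nat_lit 334) (nat_lit 238) (nat_lit 208)))) (XT.nd (nat_lit 78) (nat_lit 228) (nat_lit 0) (XT.lf (nat_lit 0) (nat_lit 11385363065) (nat_lit 152) (nat_lit 2422133773) (nat_lit 228) (nat_lit 2351322600) (nat_lit 24) (nat_lit 5) (nat_lit 26) (nat_lit 5) (nat_lit 27) (nat_lit 4) (nat_lit 335) (nat_lit 238) (nat_lit 207)) (XT.nd (nat_lit 78) (nat_lit 0) (nat_lit 0) (XT.lf (nat_lit 0) (nat_lit 473146947) (nat_lit 228) (nat_lit 15512346521) (nat_lit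 76) (nat_lit 545557838) (nat_lit 21) (nat_lit 5) (nat_lit 24) (nat_lit 5) (nat_lit 22) (nat_lit 4) (nat_lit 336) (nat_lit 238) (nat_lit 206)) (XT.lf (nat_lit 0) (nat_lit 3360085550) (nat_lit 228) (nat_lit 9956474550) (nat_lit 76) (nat_lit 3596496567) (nat_lit 21) (nat_lit 5) (nat_lit 24) (nat_lit 5) (nat_lit 22) (nat_lit 4) (nat_lit 337) (nat_lit 238) (nat_lit 205)))))) (XT.nd (nat_lit 390) (nat_lit 152) (nat_lit 0) (XT.nd (nat_lit 156) (nat_lit 152) (nat_lit 0) (XT.nd (nat_lit 78) (nat_lit 76) (nat_lit 0) (XT.lf (nat_lit 0) (nat_lit 6287353575) (nat_lit 228) (nat_lit 4309861621) (nat_lit 76) (nat_lit 6710748540) (nat_lit 21) (nat_lit 5) (nat_lit 24) (nat_lit 5) (nat_lit 22) (nat_lit 4) (nat_lit 338) (nat_lit 238) (nat_lit 204)) (XT.lf (nat_lit 0) (nat_lit 1460934289) (nat_lit 76) (nat_lit 7810617931) (nat_lit 152) (nat_lit 8444144053) (nat_lit 20) (nat_lit 5) (nat_lit 21) (nat_lit 5) (nat_lit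 22) (nat_lit 4) (nat_lit 339) (nat_lit 238) (nat_lit 203))) (XT.nd (nat_lit 78) (nat_lit 152) (nat_lit 0) (XT.lf (nat_lit 0) (nat_lit 7420201300) (nat_lit 76) (nat_lit 4924272801) (nat_lit 152) (nat_lit 5791260898) (nat_lit 20) (nat_lit 5) (nat_lit 21) (nat_lit 5) (nat_lit 22) (nat_lit 4) (nat_lit 340) (nat_lit 238) (nat_lit 202)) (XT.nd (nat_lit 78) (nat_lit 152) (nat_lit 0) (XT.lf (nat_lit 0) (nat_lit 13487371838) (nat_lit 76) (nat_lit 1979178910) (nat_lit 152) (nat_lit 3103163795) (nat_lit 20) (nat_lit 5) (nat_lit 21) (nat_lit 5) (nat_lit 22) (nat_lit 4) (nat_lit 341) (nat_lit 238) (nat_lit 201)) (XT.lf (nat_lit 0) (nat_lit 652593215) (nat_lit 152) (nat_lit 18004064533) (nat_lit 152) (nat_lit 360871938) (nat_lit 18) (nat_lit 4) (nat_lit 20) (nat_lit 5) (nat_lit 20) (nat_lit 4) (nat_lit 342) (nat_lit 238) (nat_lit 200))))) (XT.nd (nat_lit 234) (nat_lit 76) (nat_lit 0) (XT.nd (nat_lit 78) (nat_lit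 0) (nat_lit 0) (XT.lf (nat_lit 0) (nat_lit 2445103464) (nat_lit 228) (nat_lit 12927311127) (nat_lit 76) (nat_lit 4104814050) (nat_lit 17) (nat_lit 5) (nat_lit 20) (nat_lit 5) (nat_lit 18) (nat_lit 4) (nat_lit 343) (nat_lit 238) (nat_lit 199)) (XT.nd (nat_lit 78) (nat_lit 0) (nat_lit 0) (XT.lf (nat_lit 0) (nat_lit 5287290949) (nat_lit 228) (nat_lit 7398135160) (nat_lit 76) (nat_lit 7266449930) (nat_lit 17) (nat_lit 5) (nat_lit 20) (nat_lit 5) (nat_lit 18) (nat_lit 4) (nat_lit 344) (nat_lit 238) (nat_lit 198)) (XT.lf (nat_lit 0) (nat_lit 8175215891) (nat_lit 228) (nat_lit 1769108331) (nat_lit 76) (nat_lit 10497666465) (nat_lit 17) (nat_lit 5) (nat_lit 20) (nat_lit 5) (nat_lit 18) (nat_lit 4) (nat_lit 345) (nat_lit 238) (nat_lit 197)))) (XT.nd (nat_lit 78) (nat_lit 0) (nat_lit 0) (XT.lf (nat_lit 0) (nat_lit 4043592992) (nat_lit 76) (nat_lit 7106678217) (nat_lit 152) (nat_lit 9796563547) (nat_lit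 16) (nat_lit 5) (nat_lit 17) (nat_lit 5) (nat_lit 18) (nat_lit 4) (nat_lit 346) (nat_lit 238) (nat_lit 196)) (XT.nd (nat_lit 78) (nat_lit 0) (nat_lit 0) (XT.lf (nat_lit 0) (nat_lit 10003467411) (nat_lit 76) (nat_lit 4191106072) (nat_lit 152) (nat_lit 7272890379) (nat_lit 16) (nat_lit 5) (nat_lit 17) (nat_lit 5) (nat_lit 18) (nat_lit 4) (nat_lit 347) (nat_lit 238) (nat_lit 195)) (XT.lf (nat_lit 0) (nat_lit 16080513858) (nat_lit 76) (nat_lit 1212924725) (nat_lit 152) (nat_lit 4711414665) (nat_lit 16) (nat_lit 5) (nat_lit 17) (nat_lit 5) (nat_lit 18) (nat_lit 4) (nat_lit 348) (nat_lit 238) (nat_lit 194))))))) (XT.nd (nat_lit 858) (nat_lit 228) (nat_lit 0) (XT.nd (nat_lit 390) (nat_lit 228) (nat_lit 0) (XT.nd (nat_lit 156) (nat_lit 0) (nat_lit 0) (XT.nd (nat_lit 78) (nat_lit 228) (nat_lit 0) (XT.lf (nat_lit 0) (nat_lit 20467169837) (nat_lit 152) (nat_lit 297025685) (nat_lit 0) (nat_lit 1794749091)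 (nat_lit 16) (nat_lit 5) (nat_lit 18) (nat_lit 4) (nat_lit 16) (nat_lit 4) (nat_lit 349) (nat_lit 238) (nat_lit 193)) (XT.lf (nat_lit 0) (nat_lit 625230617) (nat_lit 228) (nat_lit 17598722338) (nat_lit 76) (nat_lit 4904647723) (nat_lit 13) (nat_lit 5) (nat_lit 16) (nat_lit 5) (nat_lit 14) (nat_lit 4) (nat_lit 350) (nat_lit 238) (nat_lit 192))) (XT.nd (nat_lit 78) (nat_lit 0) (nat_lit 0) (XT.lf (nat_lit 0) (nat_lit 3349931340) (nat_lit 228) (nat_lit 12257404868) (nat_lit 76) (nat_lit 8108376202) (nat_lit 13) (nat_lit 5) (nat_lit 16) (nat_lit 5) (nat_lit 14) (nat_lit 4) (nat_lit 351) (nat_lit 238) (nat_lit 191)) (XT.nd (nat_lit 78) (nat_lit 0) (nat_lit 0) (XT.lf (nat_lit 0) (nat_lit 6122585408) (nat_lit 228) (nat_lit 6813213222) (nat_lit 76) (nat_lit 11385685635) (nat_lit 13) (nat_lit 5) (nat_lit 16) (nat_lit 5) (nat_lit 14) (nat_lit 4) (nat_lit 352) (nat_lit 238) (nat_lit 190)) (XT.lf (nat_lit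 0) (nat_lit 8945615530) (nat_lit 228) (nat_lit 1261390340) (nat_lit 76) (nat_lit 14739439690) (nat_lit 13) (nat_lit 5) (nat_lit 16) (nat_lit 5) (nat_lit 14) (nat_lit 4) (nat_lit 353) (nat_lit 238) (nat_lit 189))))) (XT.nd (nat_lit 234) (nat_lit 152) (nat_lit 0) (XT.nd (nat_lit 78) (nat_lit 0) (nat_lit 0) (XT.lf (nat_lit 0) (nat_lit 4490541523) (nat_lit 76) (nat_lit 7374112739) (nat_lit 152) (nat_lit 13725193140) (nat_lit 12) (nat_lit 5) (nat_lit 13) (nat_lit 5) (nat_lit 14) (nat_lit 4) (nat_lit 354) (nat_lit 238) (nat_lit 188)) (XT.nd (nat_lit 78) (nat_lit 0) (nat_lit 0) (XT.lf (nat_lit 0) (nat_lit 10387346387) (nat_lit 76) (nat_lit 4465220149) (nat_lit 152) (nat_lit 11400576023) (nat_lit 12) (nat_lit 5) (nat_lit 13) (nat_lit 5) (nat_lit 14) (nat_lit 4) (nat_lit 355) (nat_lit 238) (nat_lit 187)) (XT.lf (nat_lit 0) (nat_lit 16409072657) (nat_lit 76) (nat_lit 1490523918) (nat_lit 152) (nat_lit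 9037685029) (nat_lit 12) (nat_lit 5) (nat_lit 13) (nat_lit 5) (nat_lit 14) (nat_lit 4) (nat_lit 356) (nat_lit 238) (nat_lit 186)))) (XT.nd (nat_lit 78) (nat_lit 152) (nat_lit 0) (XT.lf (nat_lit 0) (nat_lit 21023331137) (nat_lit 152) (nat_lit 5096804597) (nat_lit 0) (nat_lit 1522278867) (nat_lit 12) (nat_lit 5) (nat_lit 14) (nat_lit 4) (nat_lit 12) (nat_lit 4) (nat_lit 357) (nat_lit 238) (nat_lit 185)) (XT.nd (nat_lit 78) (nat_lit 0) (nat_lit 0) (XT.lf (nat_lit 0) (nat_lit 441708515) (nat_lit 152) (nat_lit 23789110729) (nat_lit 152) (nat_lit 4138208853) (nat_lit 10) (nat_lit 4) (nat_lit 12) (nat_lit 5) (nat_lit 12) (nat_lit 4) (nat_lit 358) (nat_lit 238) (nat_lit 184)) (XT.lf (nat_lit 0) (nat_lit 6201648694) (nat_lit 152) (nat_lit 21355759449) (nat_lit 152) (nat_lit 1559372519) (nat_lit 10) (nat_lit 4) (nat_lit 12) (nat_lit 5) (nat_lit 12) (nat_lit 4) (nat_lit 359) (nat_lit 238) (nat_lit 183))))))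 (XT.nd (nat_lit 468) (nat_lit 76) (nat_lit 0) (XT.nd (nat_lit 234) (nat_lit 76) (nat_lit 0) (XT.nd (nat_lit 78) (nat_lit 0) (nat_lit 0) (XT.lf (nat_lit 0) (nat_lit 1047366510) (nat_lit 228) (nat_lit 17811480539) (nat_lit 76) (nat_lit 11028669634) (nat_lit 9) (nat_lit 5) (nat_lit 12) (nat_lit 5) (nat_lit 10) (nat_lit 4) (nat_lit 360) (nat_lit 238) (nat_lit 182)) (XT.nd (nat_lit 78) (nat_lit 0) (nat_lit 0) (XT.lf (nat_lit 0) (nat_lit 3673723816) (nat_lit 228) (nat_lit 12617108823) (nat_lit 76) (nat_lit 14390920887) (nat_lit 9) (nat_lit 5) (nat_lit 12) (nat_lit 5) (nat_lit 10) (nat_lit 4) (nat_lit 361) (nat_lit 238) (nat_lit 181)) (XT.lf (nat_lit 0) (nat_lit 6352423250) (nat_lit 228) (nat_lit 7312488406) (nat_lit 76) (nat_lit 17835723220) (nat_lit 9) (nat_lit 5) (nat_lit 12) (nat_lit 5) (nat_lit 10) (nat_lit 4) (nat_lit 362) (nat_lit 238) (nat_lit 180)))) (XT.nd (nat_lit 78) (nat_lit 76) (nat_lit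 0) (XT.lf (nat_lit 0) (nat_lit 9085805422) (nat_lit 228) (nat_lit 1892984184) (nat_lit 76) (nat_lit 21366086652) (nat_lit 9) (nat_lit 5) (nat_lit 12) (nat_lit 5) (nat_lit 10) (nat_lit 4) (nat_lit 363) (nat_lit 238) (nat_lit 179)) (XT.nd (nat_lit 78) (nat_lit 0) (nat_lit 0) (XT.lf (nat_lit 0) (nat_lit 3718704655) (nat_lit 76) (nat_lit 8193300533) (nat_lit 152) (nat_lit 21302137779) (nat_lit 8) (nat_lit 5) (nat_lit 9) (nat_lit 5) (nat_lit 10) (nat_lit 4) (nat_lit 364) (nat_lit 238) (nat_lit 178)) (XT.lf (nat_lit 0) (nat_lit 9495003881) (nat_lit 76) (nat_lit 5322489320) (nat_lit 152) (nat_lit 19292181317) (nat_lit 8) (nat_lit 5) (nat_lit 9) (nat_lit 5) (nat_lit 10) (nat_lit 4) (nat_lit 365) (nat_lit 238) (nat_lit 177))))) (XT.nd (nat_lit 234) (nat_lit 76) (nat_lit 0) (XT.nd (nat_lit 78) (nat_lit 0) (nat_lit 0) (XT.lf (nat_lit 0) (nat_lit 15403286648) (nat_lit 76) (nat_lit 2382962922) (nat_lit 152)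 (nat_lit 17246560608) (nat_lit 8) (nat_lit 5) (nat_lit 9) (nat_lit 5) (nat_lit 10) (nat_lit 4) (nat_lit 366) (nat_lit 238) (nat_lit 176)) (XT.nd (nat_lit 78) (nat_lit 0) (nat_lit 0) (XT.lf (nat_lit 0) (nat_lit 20826903606) (nat_lit 152) (nat_lit 14541676287) (nat_lit 0) (nat_lit 615595619) (nat_lit 8) (nat_lit 5) (nat_lit 10) (nat_lit 4) (nat_lit 8) (nat_lit 4) (nat_lit 367) (nat_lit 238) (nat_lit 175)) (XT.lf (nat_lit 0) (nat_lit 23959688673) (nat_lit 152) (nat_lit 9364259699) (nat_lit 0) (nat_lit 3640126143) (nat_lit 8) (nat_lit 5) (nat_lit 10) (nat_lit 4) (nat_lit 8) (nat_lit 4) (nat_lit 368) (nat_lit 238) (nat_lit 174)))) (XT.nd (nat_lit 78) (nat_lit 76) (nat_lit 0) (XT.lf (nat_lit 0) (nat_lit 27164435660) (nat_lit 152) (nat_lit 4069843314) (nat_lit 0) (nat_lit 6739771631) (nat_lit 8) (nat_lit 5) (nat_lit 10) (nat_lit 4) (nat_lit 8) (nat_lit 4) (nat_lit 369) (nat_lit 238) (nat_lit 173))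 (XT.nd (nat_lit 78) (nat_lit 0) (nat_lit 0) (XT.lf (nat_lit 0) (nat_lit 1372991058) (nat_lit 76) (nat_lit 29084151802) (nat_lit 76) (nat_lit 8557447484) (nat_lit 7) (nat_lit 4) (nat_lit 8) (nat_lit 5) (nat_lit 8) (nat_lit 4) (nat_lit 370) (nat_lit 238) (nat_lit 172)) (XT.lf (nat_lit 0) (nat_lit 7025696525) (nat_lit 76) (nat_lit 26842920543) (nat_lit 76) (nat_lit 6217147983) (nat_lit 7) (nat_lit 4) (nat_lit 8) (nat_lit 5) (nat_lit 8) (nat_lit 4) (nat_lit 371) (nat_lit 238) (nat_lit 171))))))))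
noncomputable def xc55 : XT := (XT.nd (nat_lit 1716) (nat_lit 76) (nat_lit 0) (XT.nd (nat_lit 858) (nat_lit 76) (nat_lit 0) (XT.nd (nat_lit 390) (nat_lit 76) (nat_lit 0) (XT.nd (nat_lit 156) (nat_lit 76) (nat_lit 0) (XT.nd (nat_lit 78) (nat_lit 0) (nat_lit 0) (XT.lf (nat_lit 0) (nat_lit 12812214481) (nat_lit 76) (nat_lit 24549724278) (nat_lit 76) (nat_lit 3827768958) (nat_lit 7) (nat_lit 4) (nat_lit 8) (nat_lit 5) (nat_lit 8) (nat_lit 4) (nat_lit 372) (nat_lit 238) (nat_lit 170)) (XT.lf (nat_lit 0) (nat_lit 18737601107) (nat_lit 76) (nat_lit 22202559243) (nat_lit 76) (nat_lit 1387222603) (nat_lit 7) (nat_lit 4) (nat_lit 8) (nat_lit 5) (nat_lit 8) (nat_lit 4) (nat_lit 373) (nat_lit 238) (nat_lit 169))) (XT.nd (nat_lit 78) (nat_lit 0) (nat_lit 0) (XT.lf (nat_lit 0) (nat_lit 1085029386) (nat_lit 152) (nat_lit 18703388461) (nat_lit 76) (nat_lit 23711047869) (nat_lit 6) (nat_lit 5) (nat_lit 8) (nat_lit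 5) (nat_lit 7) (nat_lit 4) (nat_lit 374) (nat_lit 238) (nat_lit 168)) (XT.nd (nat_lit 78) (nat_lit 0) (nat_lit 0) (XT.lf (nat_lit 0) (nat_lit 3584608008) (nat_lit 152) (nat_lit 13717264709) (nat_lit 76) (nat_lit 27405010802) (nat_lit 6) (nat_lit 5) (nat_lit 8) (nat_lit 5) (nat_lit 7) (nat_lit 4) (nat_lit 375) (nat_lit 238) (nat_lit 167)) (XT.lf (nat_lit 0) (nat_lit 6140767069) (nat_lit 152) (nat_lit 8613718950) (nat_lit 76) (nat_lit 31196605411) (nat_lit 6) (nat_lit 5) (nat_lit 8) (nat_lit 5) (nat_lit 7) (nat_lit 4) (nat_lit 376) (nat_lit 238) (nat_lit 166))))) (XT.nd (nat_lit 234) (nat_lit 0) (nat_lit 0) (XT.nd (nat_lit 78) (nat_lit 76) (nat_lit 0) (XT.lf (nat_lit 0) (nat_lit 8755740108) (nat_lit 152) (nat_lit 3388291776) (nat_lit 76) (nat_lit 35089144741) (nat_lit 6) (nat_lit 5) (nat_lit 8) (nat_lit 5) (nat_lit 7) (nat_lit 4) (nat_lit 377) (nat_lit 238) (nat_lit 165)) (XT.nd (nat_lit 78) (nat_lit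 0) (nat_lit 0) (XT.lf (nat_lit 0) (nat_lit 2002661867) (nat_lit 76) (nat_lit 9448400994) (nat_lit 152) (nat_lit 37102618982) (nat_lit 5) (nat_lit 5) (nat_lit 6) (nat_lit 5) (nat_lit 7) (nat_lit 4) (nat_lit 378) (nat_lit 238) (nat_lit 164)) (XT.lf (nat_lit 0) (nat_lit 7594782497) (nat_lit 76) (nat_lit 6649544411) (nat_lit 152) (nat_lit 35668976926) (nat_lit 5) (nat_lit 5) (nat_lit 6) (nat_lit 5) (nat_lit 7) (nat_lit 4) (nat_lit 379) (nat_lit 238) (nat_lit 163)))) (XT.nd (nat_lit 78) (nat_lit 0) (nat_lit 0) (XT.lf (nat_lit 0) (nat_lit 13325522783) (nat_lit 76) (nat_lit 3779231635) (nat_lit 152) (nat_lit 34209472755) (nat_lit 5) (nat_lit 5) (nat_lit 6) (nat_lit 5) (nat_lit 7) (nat_lit 4) (nat_lit 380) (nat_lit 238) (nat_lit 162)) (XT.nd (nat_lit 78) (nat_lit 0) (nat_lit 0) (XT.lf (nat_lit 0) (nat_lit 19199890169) (nat_lit 76) (nat_lit 834954625) (nat_lit 152) (nat_lit 32722831174) (nat_lit 5) (nat_lit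 5) (nat_lit 6) (nat_lit 5) (nat_lit 7) (nat_lit 4) (nat_lit 381) (nat_lit 238) (nat_lit 161)) (XT.lf (nat_lit 0) (nat_lit 23058170124) (nat_lit 152) (nat_lit 29042905705) (nat_lit 0) (nat_lit 2143205300) (nat_lit 5) (nat_lit 5) (nat_lit 7) (nat_lit 4) (nat_lit 5) (nat_lit 4) (nat_lit 382) (nat_lit 238) (nat_lit 160)))))) (XT.nd (nat_lit 390) (nat_lit 76) (nat_lit 0) (XT.nd (nat_lit 156) (nat_lit 0) (nat_lit 0) (XT.nd (nat_lit 78) (nat_lit 0) (nat_lit 0) (XT.lf (nat_lit 0) (nat_lit 26165129161) (nat_lit 152) (nat_lit 24427876077) (nat_lit 0) (nat_lit 5182703684) (nat_lit 5) (nat_lit 5) (nat_lit 7) (nat_lit 4) (nat_lit 5) (nat_lit 4) (nat_lit 383) (nat_lit 238) (nat_lit 159)) (XT.lf (nat_lit 0) (nat_lit 29350410627) (nat_lit 152) (nat_lit 19700638271) (nat_lit 0) (nat_lit 8302489372) (nat_lit 5) (nat_lit 5) (nat_lit 7) (nat_lit 4) (nat_lit 5) (nat_lit 4) (nat_lit 384) (nat_lit 238) (nat_lit 158)))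 (XT.nd (nat_lit 78) (nat_lit 0) (nat_lit 0) (XT.lf (nat_lit 0) (nat_lit 32616797780) (nat_lit 152) (nat_lit 14857061690) (nat_lit 0) (nat_lit 11505288390) (nat_lit 5) (nat_lit 5) (nat_lit 7) (nat_lit 4) (nat_lit 5) (nat_lit 4) (nat_lit 385) (nat_lit 238) (nat_lit 157)) (XT.nd (nat_lit 78) (nat_lit 0) (nat_lit 0) (XT.lf (nat_lit 0) (nat_lit 35967144744) (nat_lit 152) (nat_lit 9892914083) (nat_lit 0) (nat_lit 14793899300) (nat_lit 5) (nat_lit 5) (nat_lit 7) (nat_lit 4) (nat_lit 5) (nat_lit 4) (nat_lit 386) (nat_lit 238) (nat_lit 156)) (XT.lf (nat_lit 0) (nat_lit 39404379006) (nat_lit 152) (nat_lit 4803857846) (nat_lit 0) (nat_lit 18171195645) (nat_lit 5) (nat_lit 5) (nat_lit 7) (nat_lit 4) (nat_lit 5) (nat_lit 4) (nat_lit 387) (nat_lit 238) (nat_lit 155))))) (XT.nd (nat_lit 234) (nat_lit 0) (nat_lit 0) (XT.nd (nat_lit 78) (nat_lit 0) (nat_lit 0) (XT.lf (nat_lit 0) (nat_lit 422804202) (nat_lit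 76) (nat_lit 42512764024) (nat_lit 76) (nat_lit 21221388513) (nat_lit 4) (nat_lit 4) (nat_lit 5) (nat_lit 5) (nat_lit 5) (nat_lit 4) (nat_lit 388) (nat_lit 238) (nat_lit 154)) (XT.nd (nat_lit 78) (nat_lit 0) (nat_lit 0) (XT.lf (nat_lit 0) (nat_lit 5881652772) (nat_lit 76) (nat_lit 40726486876) (nat_lit 76) (nat_lit 19378614130) (nat_lit 4) (nat_lit 4) (nat_lit 5) (nat_lit 5) (nat_lit 5) (nat_lit 4) (nat_lit 389) (nat_lit 238) (nat_lit 153)) (XT.lf (nat_lit 0) (nat_lit 11481851539) (nat_lit 76) (nat_lit 38896354127) (nat_lit 76) (nat_lit 17493629697) (nat_lit 4) (nat_lit 4) (nat_lit 5) (nat_lit 5) (nat_lit 5) (nat_lit 4) (nat_lit 390) (nat_lit 238) (nat_lit 152)))) (XT.nd (nat_lit 78) (nat_lit 0) (nat_lit 0) (XT.lf (nat_lit 0) (nat_lit 17228293882) (nat_lit 76) (nat_lit 37020766632) (nat_lit 76) (nat_lit 15564788141) (nat_lit 4) (nat_lit 4) (nat_lit 5) (nat_lit 5) (nat_lit 5) (nat_lit 4) (nat_lit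 391) (nat_lit 238) (nat_lit 151)) (XT.nd (nat_lit 78) (nat_lit 0) (nat_lit 0) (XT.lf (nat_lit 0) (nat_lit 23126000963) (nat_lit 76) (nat_lit 35098085529) (nat_lit 76) (nat_lit 13590404065) (nat_lit 4) (nat_lit 4) (nat_lit 5) (nat_lit 5) (nat_lit 5) (nat_lit 4) (nat_lit 392) (nat_lit 238) (nat_lit 150)) (XT.lf (nat_lit 0) (nat_lit 29180126119) (nat_lit 76) (nat_lit 33126630806) (nat_lit 76) (nat_lit 11568752280) (nat_lit 4) (nat_lit 4) (nat_lit 5) (nat_lit 5) (nat_lit 5) (nat_lit 4) (nat_lit 393) (nat_lit 238) (nat_lit 149))))))) (XT.nd (nat_lit 33774) (nat_lit 0) (nat_lit 3420) (XT.nd (nat_lit 390) (nat_lit 76) (nat_lit 0) (XT.nd (nat_lit 156) (nat_lit 0) (nat_lit 0) (XT.nd (nat_lit 78) (nat_lit 0) (nat_lit 0) (XT.lf (nat_lit 0) (nat_lit 35395959363) (nat_lit 76) (nat_lit 31104679830) (nat_lit 76) (nat_lit 9498066294) (nat_lit 4) (nat_lit 4) (nat_lit 5) (nat_lit 5) (nat_lit 5) (nat_lit 4) (nat_lit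 394) (nat_lit 238) (nat_lit 148)) (XT.lf (nat_lit 0) (nat_lit 41778932004) (nat_lit 76) (nat_lit 29030465850) (nat_lit 76) (nat_lit 7376536770) (nat_lit 4) (nat_lit 4) (nat_lit 5) (nat_lit 5) (nat_lit 5) (nat_lit 4) (nat_lit 395) (nat_lit 238) (nat_lit 147))) (XT.nd (nat_lit 78) (nat_lit 0) (nat_lit 0) (XT.lf (nat_lit 0) (nat_lit 48334621397) (nat_lit 76) (nat_lit 26902176446) (nat_lit 76) (nat_lit 5202309944) (nat_lit 4) (nat_lit 4) (nat_lit 5) (nat_lit 5) (nat_lit 5) (nat_lit 4) (nat_lit 396) (nat_lit 238) (nat_lit 146)) (XT.nd (nat_lit 78) (nat_lit 0) (nat_lit 0) (XT.lf (nat_lit 0) (nat_lit 55068755815) (nat_lit 76) (nat_lit 24717951947) (nat_lit 76) (nat_lit 2973486006) (nat_lit 4) (nat_lit 4) (nat_lit 5) (nat_lit 5) (nat_lit 5) (nat_lit 4) (nat_lit 397) (nat_lit 238) (nat_lit 145)) (XT.lf (nat_lit 0) (nat_lit 61987219453) (nat_lit 76) (nat_lit 22475883806) (nat_lit 76) (nat_lit 688117440)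 (nat_lit 4) (nat_lit 4) (nat_lit 5) (nat_lit 5) (nat_lit 5) (nat_lit 4) (nat_lit 398) (nat_lit 238) (nat_lit 144))))) (XT.nd (nat_lit 33150) (nat_lit 0) (nat_lit 5624) (XT.nd (nat_lit 156) (nat_lit 0) (nat_lit 0) (XT.lf (nat_lit 0) (nat_lit 1623482198) (nat_lit 152) (nat_lit 18534136752) (nat_lit 76) (nat_lit 67456181386) (nat_lit 3) (nat_lit 5) (nat_lit 5) (nat_lit 5) (nat_lit 4) (nat_lit 4) (nat_lit 399) (nat_lit 238) (nat_lit 143)) (XT.nd (nat_lit 32916) (nat_lit 0) (nat_lit 6080) (XT.lf (nat_lit 0) (nat_lit 6400108117) (nat_lit 152) (nat_lit 8918026964) (nat_lit 76) (nat_lit 77445138783) (nat_lit 3) (nat_lit 5) (nat_lit 5) (nat_lit 5) (nat_lit 4) (nat_lit 4) (nat_lit 401) (nat_lit 238) (nat_lit 141)) (XT.lf (nat_lit 0) (nat_lit 104293020) (nat_lit 456) (nat_lit 4159614283) (nat_lit 0) (nat_lit 104293020) (nat_lit 83) (nat_lit 5) (nat_lit 89) (nat_lit 4) (nat_lit 83) (nat_lit 4) (nat_lit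 302) (nat_lit 239) (nat_lit 239)))) (XT.nd (nat_lit 78) (nat_lit 456) (nat_lit 0) (XT.lf (nat_lit 0) (nat_lit 3484700728) (nat_lit 456) (nat_lit 2913315138) (nat_lit 0) (nat_lit 2461230510) (nat_lit 83) (nat_lit 5) (nat_lit 89) (nat_lit 4) (nat_lit 83) (nat_lit 4) (nat_lit 303) (nat_lit 239) (nat_lit 238)) (XT.nd (nat_lit 78) (nat_lit 76) (nat_lit 0) (XT.lf (nat_lit 0) (nat_lit 2596159071) (nat_lit 380) (nat_lit 4204345456) (nat_lit 380) (nat_lit 2187214831) (nat_lit 78) (nat_lit 4) (nat_lit 83) (nat_lit 5) (nat_lit 83) (nat_lit 4) (nat_lit 304) (nat_lit 239) (nat_lit 237)) (XT.lf (nat_lit 0) (nat_lit 1020918726) (nat_lit 456) (nat_lit 909384450) (nat_lit 76) (nat_lit 7191203916) (nat_lit 77) (nat_lit 5) (nat_lit 83) (nat_lit 5) (nat_lit 78) (nat_lit 4) (nat_lit 305) (nat_lit 239) (nat_lit 236)))))) (XT.nd (nat_lit 468) (nat_lit 836) (nat_lit 0) (XT.nd (nat_lit 234) (nat_lit 684) (nat_lit 0)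 (XT.nd (nat_lit 78) (nat_lit 380) (nat_lit 0) (XT.lf (nat_lit 0) (nat_lit 4250166570) (nat_lit 380) (nat_lit 4563768664) (nat_lit 0) (nat_lit 445827056) (nat_lit 73) (nat_lit 5) (nat_lit 78) (nat_lit 4) (nat_lit 73) (nat_lit 4) (nat_lit 306) (nat_lit 239) (nat_lit 235)) (XT.nd (nat_lit 78) (nat_lit 76) (nat_lit 0) (XT.lf (nat_lit 0) (nat_lit 978094972) (nat_lit 304) (nat_lit 6556341636) (nat_lit 304) (nat_lit 1869147720) (nat_lit 69) (nat_lit 4) (nat_lit 73) (nat_lit 5) (nat_lit 73) (nat_lit 4) (nat_lit 307) (nat_lit 239) (nat_lit 234)) (XT.lf (nat_lit 0) (nat_lit 1306125501) (nat_lit 380) (nat_lit 2892899342) (nat_lit 76) (nat_lit 5353438805) (nat_lit 68) (nat_lit 5) (nat_lit 73) (nat_lit 5) (nat_lit 69) (nat_lit 4) (nat_lit 308) (nat_lit 239) (nat_lit 233)))) (XT.nd (nat_lit 78) (nat_lit 380) (nat_lit 0) (XT.lf (nat_lit 0) (nat_lit 2734952354) (nat_lit 304) (nat_lit 1753452281) (nat_lit 380)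 (nat_lit 5218519697) (nat_lit 64) (nat_lit 5) (nat_lit 68) (nat_lit 5) (nat_lit 69) (nat_lit 4) (nat_lit 309) (nat_lit 239) (nat_lit 232)) (XT.nd (nat_lit 78) (nat_lit 380) (nat_lit 0) (XT.lf (nat_lit 0) (nat_lit 7726998158) (nat_lit 380) (nat_lit 1388532627) (nat_lit 0) (nat_lit 751807964) (nat_lit 64) (nat_lit 5) (nat_lit 69) (nat_lit 4) (nat_lit 64) (nat_lit 4) (nat_lit 310) (nat_lit 239) (nat_lit 231)) (XT.lf (nat_lit 0) (nat_lit 994939704) (nat_lit 380) (nat_lit 5717020555) (nat_lit 76) (nat_lit 3320899457) (nat_lit 59) (nat_lit 5) (nat_lit 64) (nat_lit 5) (nat_lit 60) (nat_lit 4) (nat_lit 311) (nat_lit 239) (nat_lit 230))))) (XT.nd (nat_lit 234) (nat_lit 228) (nat_lit 0) (XT.nd (nat_lit 78) (nat_lit 608) (nat_lit 0) (XT.lf (nat_lit 0) (nat_lit 4121929992) (nat_lit 380) (nat_lit 108606932) (nat_lit 76) (nat_lit 5974086495) (nat_lit 59) (nat_lit 5) (nat_lit 64) (nat_lit 5) (nat_lit 60) (nat_lit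 4) (nat_lit 312) (nat_lit 239) (nat_lit 229)) (XT.nd (nat_lit 78) (nat_lit 380) (nat_lit 0) (XT.lf (nat_lit 0) (nat_lit 5677729123) (nat_lit 228) (nat_lit 1648229181) (nat_lit 304) (nat_lit 3056213970) (nat_lit 56) (nat_lit 5) (nat_lit 59) (nat_lit 5) (nat_lit 60) (nat_lit 4) (nat_lit 313) (nat_lit 239) (nat_lit 228)) (XT.lf (nat_lit 0) (nat_lit 8999627) (nat_lit 380) (nat_lit 9584545953) (nat_lit 76) (nat_lit 973132149) (nat_lit 51) (nat_lit 5) (nat_lit 56) (nat_lit 5) (nat_lit 52) (nat_lit 4) (nat_lit 314) (nat_lit 239) (nat_lit 227)))) (XT.nd (nat_lit 78) (nat_lit 228) (nat_lit 0) (XT.lf (nat_lit 0) (nat_lit 3098792191) (nat_lit 380) (nat_lit 3969193634) (nat_lit 76) (nat_lit 3688121388) (nat_lit 51) (nat_lit 5) (nat_lit 56) (nat_lit 5) (nat_lit 52) (nat_lit 4) (nat_lit 315) (nat_lit 239) (nat_lit 226)) (XT.nd (nat_lit 78) (nat_lit 0) (nat_lit 0) (XT.lf (nat_lit 0) (nat_lit 1749147652) (nat_lit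 228) (nat_lit 4480745076) (nat_lit 304) (nat_lit 4722983124) (nat_lit 48) (nat_lit 5) (nat_lit 51) (nat_lit 5) (nat_lit 52) (nat_lit 4) (nat_lit 316) (nat_lit 239) (nat_lit 225)) (XT.lf (nat_lit 0) (nat_lit 7621776492) (nat_lit 228) (nat_lit 1806069514) (nat_lit 304) (nat_lit 1728625305) (nat_lit 48) (nat_lit 5) (nat_lit 51) (nat_lit 5) (nat_lit 52) (nat_lit 4) (nat_lit 317) (nat_lit 239) (nat_lit 224))))))))
noncomputable def xc56 : XT := (XT.nd (nat_lit 1716) (nat_lit 912) (nat_lit 0) (XT.nd (nat_lit 858) (nat_lit 760) (nat_lit 0) (XT.nd (nat_lit 390) (nat_lit 456) (nat_lit 0) (XT.nd (nat_lit 156) (nat_lit 532) (nat_lit 0) (XT.nd (nat_lit 78) (nat_lit 0) (nat_lit 0) (XT.lf (nat_lit 0) (nat_lit 1293829198) (nat_lit 304) (nat_lit 9138509045) (nat_lit 76) (nat_lit 934608902) (nat_lit 44) (nat_lit 5) (nat_lit 48) (nat_lit 5) (nat_lit 45) (nat_lit 4) (nat_lit 318) (nat_lit 239) (nat_lit 223)) (XT.lf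 (nat_lit 0) (nat_lit 4360881325) (nat_lit 304) (nat_lit 3479063873) (nat_lit 76) (nat_lit 3743720480) (nat_lit 44) (nat_lit 5) (nat_lit 48) (nat_lit 5) (nat_lit 45) (nat_lit 4) (nat_lit 319) (nat_lit 239) (nat_lit 222))) (XT.nd (nat_lit 78) (nat_lit 304) (nat_lit 0) (XT.lf (nat_lit 0) (nat_lit 2299928196) (nat_lit 228) (nat_lit 5178764826) (nat_lit 304) (nat_lit 4329529241) (nat_lit 41) (nat_lit 5) (nat_lit 44) (nat_lit 5) (nat_lit 45) (nat_lit 4) (nat_lit 320) (nat_lit 239) (nat_lit 221)) (XT.nd (nat_lit 78) (nat_lit 304) (nat_lit 0) (XT.lf (nat_lit 0) (nat_lit 8229423598) (nat_lit 228) (nat_lit 2433326977) (nat_lit 304) (nat_lit 1377679679) (nat_lit 41) (nat_lit 5) (nat_lit 44) (nat_lit 5) (nat_lit 45) (nat_lit 4) (nat_lit 321) (nat_lit 239) (nat_lit 220)) (XT.lf (nat_lit 0) (nat_lit 1591925518) (nat_lit 304) (nat_lit 10297074679) (nat_lit 76) (nat_lit 391365959) (nat_lit 37) (nat_lit 5) (nat_lit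 41) (nat_lit 5) (nat_lit 38) (nat_lit 4) (nat_lit 322) (nat_lit 239) (nat_lit 219))))) (XT.nd (nat_lit 234) (nat_lit 304) (nat_lit 0) (XT.nd (nat_lit 78) (nat_lit 152) (nat_lit 0) (XT.lf (nat_lit 0) (nat_lit 4625192421) (nat_lit 304) (nat_lit 4628357942) (nat_lit 76) (nat_lit 3273560557) (nat_lit 37) (nat_lit 5) (nat_lit 41) (nat_lit 5) (nat_lit 38) (nat_lit 4) (nat_lit 323) (nat_lit 239) (nat_lit 218)) (XT.nd (nat_lit 78) (nat_lit 0) (nat_lit 0) (XT.lf (nat_lit 0) (nat_lit 1141987092) (nat_lit 152) (nat_lit 6559521968) (nat_lit 228) (nat_lit 5081272759) (nat_lit 35) (nat_lit 5) (nat_lit 37) (nat_lit 5) (nat_lit 38) (nat_lit 4) (nat_lit 324) (nat_lit 239) (nat_lit 217)) (XT.lf (nat_lit 0) (nat_lit 7090491181) (nat_lit 152) (nat_lit 3768288411) (nat_lit 228) (nat_lit 2187766179) (nat_lit 35) (nat_lit 5) (nat_lit 37) (nat_lit 5) (nat_lit 38) (nat_lit 4) (nat_lit 325) (nat_lit 239) (nat_lit 216))))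 (XT.nd (nat_lit 78) (nat_lit 228) (nat_lit 0) (XT.lf (nat_lit 0) (nat_lit 720061568) (nat_lit 228) (nat_lit 196815312) (nat_lit 76) (nat_lit 12402905869) (nat_lit 34) (nat_lit 5) (nat_lit 37) (nat_lit 5) (nat_lit 35) (nat_lit 5) (nat_lit 326) (nat_lit 239) (nat_lit 215)) (XT.nd (nat_lit 78) (nat_lit 0) (nat_lit 0) (XT.lf (nat_lit 0) (nat_lit 3690853635) (nat_lit 304) (nat_lit 7880841195) (nat_lit 76) (nat_lit 2028356960) (nat_lit 31) (nat_lit 5) (nat_lit 35) (nat_lit 5) (nat_lit 32) (nat_lit 4) (nat_lit 327) (nat_lit 239) (nat_lit 214)) (XT.lf (nat_lit 0) (nat_lit 6706999272) (nat_lit 304) (nat_lit 2167440481) (nat_lit 76) (nat_lit 5015675871) (nat_lit 31) (nat_lit 5) (nat_lit 35) (nat_lit 5) (nat_lit 32) (nat_lit 4) (nat_lit 328) (nat_lit 239) (nat_lit 213)))))) (XT.nd (nat_lit 390) (nat_lit 380) (nat_lit 0) (XT.nd (nat_lit 156) (nat_lit 228) (nat_lit 0) (XT.nd (nat_lit 78) (nat_lit 0) (nat_lit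 0) (XT.lf (nat_lit 0) (nat_lit 3705767018) (nat_lit 152) (nat_lit 6090226781) (nat_lit 228) (nat_lit 4393488114) (nat_lit 29) (nat_lit 5) (nat_lit 31) (nat_lit 5) (nat_lit 32) (nat_lit 4) (nat_lit 329) (nat_lit 239) (nat_lit 212)) (XT.lf (nat_lit 0) (nat_lit 9716515680) (nat_lit 152) (nat_lit 3230524324) (nat_lit 228) (nat_lit 1551777123) (nat_lit 29) (nat_lit 5) (nat_lit 31) (nat_lit 5) (nat_lit 32) (nat_lit 4) (nat_lit 330) (nat_lit 239) (nat_lit 211))) (XT.nd (nat_lit 78) (nat_lit 0) (nat_lit 0) (XT.lf (nat_lit 0) (nat_lit 1014984496) (nat_lit 152) (nat_lit 291575987) (nat_lit 228) (nat_lit 13511794447) (nat_lit 26) (nat_lit 5) (nat_lit 28) (nat_lit 5) (nat_lit 29) (nat_lit 5) (nat_lit 331) (nat_lit 239) (nat_lit 210)) (XT.nd (nat_lit 78) (nat_lit 0) (nat_lit 0) (XT.lf (nat_lit 0) (nat_lit 4243411700) (nat_lit 228) (nat_lit 8186200371) (nat_lit 76) (nat_lit 2716750796) (nat_lit 26) (nat_lit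 5) (nat_lit 29) (nat_lit 5) (nat_lit 27) (nat_lit 4) (nat_lit 332) (nat_lit 239) (nat_lit 209)) (XT.lf (nat_lit 0) (nat_lit 7221631042) (nat_lit 228) (nat_lit 2483260166) (nat_lit 76) (nat_lit 5780783609) (nat_lit 26) (nat_lit 5) (nat_lit 29) (nat_lit 5) (nat_lit 27) (nat_lit 4) (nat_lit 333) (nat_lit 239) (nat_lit 208))))) (XT.nd (nat_lit 234) (nat_lit 228) (nat_lit 0) (XT.nd (nat_lit 78) (nat_lit 0) (nat_lit 0) (XT.lf (nat_lit 0) (nat_lit 3379176034) (nat_lit 152) (nat_lit 6894324704) (nat_lit 228) (nat_lit 5562196136) (nat_lit 24) (nat_lit 5) (nat_lit 26) (nat_lit 5) (nat_lit 27) (nat_lit 4) (nat_lit 334) (nat_lit 239) (nat_lit 207)) (XT.nd (nat_lit 78) (nat_lit 0) (nat_lit 0) (XT.lf (nat_lit 0) (nat_lit 9391617732) (nat_lit 152) (nat_lit 4002871207) (nat_lit 228) (nat_lit 2802461893) (nat_lit 24) (nat_lit 5) (nat_lit 26) (nat_lit 5) (nat_lit 27) (nat_lit 4) (nat_lit 335) (nat_lit 239) (nat_lit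 206)) (XT.lf (nat_lit 0) (nat_lit 15509896771) (nat_lit 152) (nat_lit 1053080264) (nat_lit 228) (nat_lit 7505690) (nat_lit 24) (nat_lit 5) (nat_lit 26) (nat_lit 5) (nat_lit 27) (nat_lit 4) (nat_lit 336) (nat_lit 239) (nat_lit 205)))) (XT.nd (nat_lit 78) (nat_lit 0) (nat_lit 0) (XT.lf (nat_lit 0) (nat_lit 2836158266) (nat_lit 228) (nat_lit 12123724939) (nat_lit 76) (nat_lit 1993935878) (nat_lit 21) (nat_lit 5) (nat_lit 24) (nat_lit 5) (nat_lit 22) (nat_lit 4) (nat_lit 337) (nat_lit 239) (nat_lit 204)) (XT.nd (nat_lit 78) (nat_lit 0) (nat_lit 0) (XT.lf (nat_lit 0) (nat_lit 5741292885) (nat_lit 228) (nat_lit 6513429003) (nat_lit 76) (nat_lit 5094693702) (nat_lit 21) (nat_lit 5) (nat_lit 24) (nat_lit 5) (nat_lit 22) (nat_lit 4) (nat_lit 338) (nat_lit 239) (nat_lit 203)) (XT.lf (nat_lit 0) (nat_lit 8689959393) (nat_lit 228) (nat_lit 806400398) (nat_lit 76) (nat_lit 8261878995) (nat_lit 21) (nat_lit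 5) (nat_lit 24) (nat_lit 5) (nat_lit 22) (nat_lit 4) (nat_lit 339) (nat_lit 239) (nat_lit 202))))))) (XT.nd (nat_lit 858) (nat_lit 380) (nat_lit 0) (XT.nd (nat_lit 390) (nat_lit 228) (nat_lit 0) (XT.nd (nat_lit 156) (nat_lit 228) (nat_lit 0) (XT.nd (nat_lit 78) (nat_lit 0) (nat_lit 0) (XT.lf (nat_lit 0) (nat_lit 5101904124) (nat_lit 76) (nat_lit 6631872795) (nat_lit 152) (nat_lit 6445397699) (nat_lit 20) (nat_lit 5) (nat_lit 21) (nat_lit 5) (nat_lit 22) (nat_lit 4) (nat_lit 340) (nat_lit 239) (nat_lit 201)) (XT.lf (nat_lit 0) (nat_lit 11135178024) (nat_lit 76) (nat_lit 3700094506) (nat_lit 152) (nat_lit 3778522340) (nat_lit 20) (nat_lit 5) (nat_lit 21) (nat_lit 5) (nat_lit 22) (nat_lit 4) (nat_lit 341) (nat_lit 239) (nat_lit 200))) (XT.nd (nat_lit 78) (nat_lit 228) (nat_lit 0) (XT.lf (nat_lit 0) (nat_lit 17282644144) (nat_lit 76) (nat_lit 706606240) (nat_lit 152) (nat_lit 1073466103) (nat_lit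 20) (nat_lit 5) (nat_lit 21) (nat_lit 5) (nat_lit 22) (nat_lit 4) (nat_lit 342) (nat_lit 239) (nat_lit 199)) (XT.nd (nat_lit 78) (nat_lit 0) (nat_lit 0) (XT.lf (nat_lit 0) (nat_lit 1701941605) (nat_lit 228) (nat_lit 15460799029) (nat_lit 76) (nat_lit 2361235796) (nat_lit 17) (nat_lit 5) (nat_lit 20) (nat_lit 5) (nat_lit 18) (nat_lit 4) (nat_lit 343) (nat_lit 239) (nat_lit 198)) (XT.lf (nat_lit 0) (nat_lit 4524657086) (nat_lit 228) (nat_lit 9964147405) (nat_lit 76) (nat_lit 5510424178) (nat_lit 17) (nat_lit 5) (nat_lit 20) (nat_lit 5) (nat_lit 18) (nat_lit 4) (nat_lit 344) (nat_lit 239) (nat_lit 197))))) (XT.nd (nat_lit 234) (nat_lit 152) (nat_lit 0) (XT.nd (nat_lit 78) (nat_lit 76) (nat_lit 0) (XT.lf (nat_lit 0) (nat_lit 7393677170) (nat_lit 228) (nat_lit 4366697608) (nat_lit 76) (nat_lit 8729555764) (nat_lit 17) (nat_lit 5) (nat_lit 20) (nat_lit 5) (nat_lit 18) (nat_lit 4) (nat_lit 345) (nat_lit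 239) (nat_lit 196)) (XT.nd (nat_lit 78) (nat_lit 0) (nat_lit 0) (XT.lf (nat_lit 0) (nat_lit 1363039141) (nat_lit 76) (nat_lit 8961571993) (nat_lit 152) (nat_lit 10671506612) (nat_lit 16) (nat_lit 5) (nat_lit 17) (nat_lit 5) (nat_lit 18) (nat_lit 4) (nat_lit 346) (nat_lit 239) (nat_lit 195)) (XT.lf (nat_lit 0) (nat_lit 7292556810) (nat_lit 76) (nat_lit 6058245149) (nat_lit 152) (nat_lit 8166507163) (nat_lit 16) (nat_lit 5) (nat_lit 17) (nat_lit 5) (nat_lit 18) (nat_lit 4) (nat_lit 347) (nat_lit 239) (nat_lit 194)))) (XT.nd (nat_lit 78) (nat_lit 152) (nat_lit 0) (XT.lf (nat_lit 0) (nat_lit 13340130684) (nat_lit 76) (nat_lit 3091952444) (nat_lit 152) (nat_lit 5623161274) (nat_lit 16) (nat_lit 5) (nat_lit 17) (nat_lit 5) (nat_lit 18) (nat_lit 4) (nat_lit 348) (nat_lit 239) (nat_lit 193)) (XT.nd (nat_lit 78) (nat_lit 152) (nat_lit 0) (XT.lf (nat_lit 0) (nat_lit 19511045052) (nat_lit 76) (nat_lit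 60101972) (nat_lit 152) (nat_lit 3039246604) (nat_lit 16) (nat_lit 5) (nat_lit 17) (nat_lit 5) (nat_lit 18) (nat_lit 4) (nat_lit 349) (nat_lit 239) (nat_lit 192)) (XT.lf (nat_lit 0) (nat_lit 2649938017) (nat_lit 152) (nat_lit 20175493236) (nat_lit 152) (nat_lit 356169785) (nat_lit 14) (nat_lit 4) (nat_lit 16) (nat_lit 5) (nat_lit 16) (nat_lit 4) (nat_lit 350) (nat_lit 239) (nat_lit 191)))))) (XT.nd (nat_lit 468) (nat_lit 228) (nat_lit 0) (XT.nd (nat_lit 234) (nat_lit 76) (nat_lit 0) (XT.nd (nat_lit 78) (nat_lit 0) (nat_lit 0) (XT.lf (nat_lit 0) (nat_lit 2358836917) (nat_lit 228) (nat_lit 15215180622) (nat_lit 76) (nat_lit 6195313593) (nat_lit 13) (nat_lit 5) (nat_lit 16) (nat_lit 5) (nat_lit 14) (nat_lit 4) (nat_lit 351) (nat_lit 239) (nat_lit 190)) (XT.nd (nat_lit 78) (nat_lit 0) (nat_lit 0) (XT.lf (nat_lit 0) (nat_lit 5115331592) (nat_lit 228) (nat_lit 9798424697) (nat_lit 76) (nat_lit 9461847331)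 (nat_lit 13) (nat_lit 5) (nat_lit 16) (nat_lit 5) (nat_lit 14) (nat_lit 4) (nat_lit 352) (nat_lit 239) (nat_lit 189)) (XT.lf (nat_lit 0) (nat_lit 7922672982) (nat_lit 228) (nat_lit 4273238437) (nat_lit 76) (nat_lit 12805139546) (nat_lit 13) (nat_lit 5) (nat_lit 16) (nat_lit 5) (nat_lit 14) (nat_lit 4) (nat_lit 353) (nat_lit 239) (nat_lit 188)))) (XT.nd (nat_lit 78) (nat_lit 0) (nat_lit 0) (XT.lf (nat_lit 0) (nat_lit 1392376265) (nat_lit 76) (nat_lit 9404322211) (nat_lit 152) (nat_lit 14849119670) (nat_lit 12) (nat_lit 5) (nat_lit 13) (nat_lit 5) (nat_lit 14) (nat_lit 4) (nat_lit 354) (nat_lit 239) (nat_lit 187)) (XT.nd (nat_lit 78) (nat_lit 0) (nat_lit 0) (XT.lf (nat_lit 0) (nat_lit 7263573868) (nat_lit 76) (nat_lit 6506002595) (nat_lit 152) (nat_lit 12540002373) (nat_lit 12) (nat_lit 5) (nat_lit 13) (nat_lit 5) (nat_lit 14) (nat_lit 4) (nat_lit 355) (nat_lit 239) (nat_lit 186)) (XT.lf (nat_lit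 0) (nat_lit 13260438720) (nat_lit 76) (nat_lit 3541571388) (nat_lit 152) (nat_lit 10192159749) (nat_lit 12) (nat_lit 5) (nat_lit 13) (nat_lit 5) (nat_lit 14) (nat_lit 4) (nat_lit 356) (nat_lit 239) (nat_lit 185))))) (XT.nd (nat_lit 234) (nat_lit 76) (nat_lit 0) (XT.nd (nat_lit 78) (nat_lit 152) (nat_lit 0) (XT.lf (nat_lit 0) (nat_lit 19388210799) (nat_lit 76) (nat_lit 508438310) (nat_lit 152) (nat_lit 7803540284) (nat_lit 12) (nat_lit 5) (nat_lit 13) (nat_lit 5) (nat_lit 14) (nat_lit 4) (nat_lit 357) (nat_lit 239) (nat_lit 184)) (XT.nd (nat_lit 78) (nat_lit 152) (nat_lit 0) (XT.lf (nat_lit 0) (nat_lit 23081152313) (nat_lit 152) (nat_lit 2800964677) (nat_lit 0) (nat_lit 2545388721) (nat_lit 12) (nat_lit 5) (nat_lit 14) (nat_lit 4) (nat_lit 12) (nat_lit 4) (nat_lit 358) (nat_lit 239) (nat_lit 183)) (XT.lf (nat_lit 0) (nat_lit 2879696533) (nat_lit 152) (nat_lit 23486909945) (nat_lit 152) (nat_lit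 2809898729) (nat_lit 10) (nat_lit 4) (nat_lit 12) (nat_lit 5) (nat_lit 12) (nat_lit 4) (nat_lit 359) (nat_lit 239) (nat_lit 182)))) (XT.nd (nat_lit 78) (nat_lit 76) (nat_lit 0) (XT.lf (nat_lit 0) (nat_lit 8741811517) (nat_lit 152) (nat_lit 21010146693) (nat_lit 152) (nat_lit 196001860) (nat_lit 10) (nat_lit 4) (nat_lit 12) (nat_lit 5) (nat_lit 12) (nat_lit 4) (nat_lit 360) (nat_lit 239) (nat_lit 181)) (XT.nd (nat_lit 78) (nat_lit 0) (nat_lit 0) (XT.lf (nat_lit 0) (nat_lit 2421151285) (nat_lit 228) (nat_lit 16032347156) (nat_lit 76) (nat_lit 12289157654) (nat_lit 9) (nat_lit 5) (nat_lit 12) (nat_lit 5) (nat_lit 10) (nat_lit 4) (nat_lit 361) (nat_lit 239) (nat_lit 180)) (XT.lf (nat_lit 0) (nat_lit 5087201337) (nat_lit 228) (nat_lit 10749527137) (nat_lit 76) (nat_lit 15725199903) (nat_lit 9) (nat_lit 5) (nat_lit 12) (nat_lit 5) (nat_lit 10) (nat_lit 4) (nat_lit 362) (nat_lit 239) (nat_lit 179))))))))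
noncomputable def xc57 : XT := (XT.nd (nat_lit 1716) (nat_lit 152) (nat_lit 0) (XT.nd (nat_lit 858) (nat_lit 152) (nat_lit 0) (XT.nd (nat_lit 390) (nat_lit 76) (nat_lit 0) (XT.nd (nat_lit 156) (nat_lit 0) (nat_lit 0) (XT.nd (nat_lit 78) (nat_lit 76) (nat_lit 0) (XT.lf (nat_lit 0) (nat_lit 7808302556) (nat_lit 228) (nat_lit 5351188349) (nat_lit 76) (nat_lit 19247058400) (nat_lit 9) (nat_lit 5) (nat_lit 12) (nat_lit 5) (nat_lit 10) (nat_lit 4) (nat_lit 363) (nat_lit 239) (nat_lit 178)) (XT.lf (nat_lit 0) (nat_lit 170717515) (nat_lit 76) (nat_lit 10417756127) (nat_lit 152) (nat_lit 22688734025) (nat_lit 8) (nat_lit 5) (nat_lit 9) (nat_lit 5) (nat_lit 10) (nat_lit 4) (nat_lit 364) (nat_lit 239) (nat_lit 177))) (XT.nd (nat_lit 78) (nat_lit 0) (nat_lit 0) (XT.lf (nat_lit 0) (nat_lit 5926669236) (nat_lit 76) (nat_lit 7555520851) (nat_lit 152) (nat_lit 20690912758) (nat_lit 8) (nat_lit 5) (nat_lit 9)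 (nat_lit 5) (nat_lit 10) (nat_lit 4) (nat_lit 365) (nat_lit 239) (nat_lit 176)) (XT.nd (nat_lit 78) (nat_lit 0) (nat_lit 0) (XT.lf (nat_lit 0) (nat_lit 11815197144) (nat_lit 76) (nat_lit 4624320605) (nat_lit 152) (nat_lit 18657073792) (nat_lit 8) (nat_lit 5) (nat_lit 9) (nat_lit 5) (nat_lit 10) (nat_lit 4) (nat_lit 366) (nat_lit 239) (nat_lit 175)) (XT.lf (nat_lit 0) (nat_lit 17841446556) (nat_lit 76) (nat_lit 1621594145) (nat_lit 152) (nat_lit 16585439985) (nat_lit 8) (nat_lit 5) (nat_lit 9) (nat_lit 5) (nat_lit 10) (nat_lit 4) (nat_lit 367) (nat_lit 239) (nat_lit 174))))) (XT.nd (nat_lit 234) (nat_lit 76) (nat_lit 0) (XT.nd (nat_lit 78) (nat_lit 0) (nat_lit 0) (XT.lf (nat_lit 0) (nat_lit 22569389918) (nat_lit 152) (nat_lit 13032907964) (nat_lit 0) (nat_lit 1426884471) (nat_lit 8) (nat_lit 5) (nat_lit 10) (nat_lit 4) (nat_lit 8) (nat_lit 4) (nat_lit 368) (nat_lit 239) (nat_lit 173)) (XT.nd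 (nat_lit 78) (nat_lit 0) (nat_lit 0) (XT.lf (nat_lit 0) (nat_lit 25763604774) (nat_lit 152) (nat_lit 7756819906) (nat_lit 0) (nat_lit 4519059037) (nat_lit 8) (nat_lit 5) (nat_lit 10) (nat_lit 4) (nat_lit 8) (nat_lit 4) (nat_lit 369) (nat_lit 239) (nat_lit 172)) (XT.lf (nat_lit 0) (nat_lit 29032888575) (nat_lit 152) (nat_lit 2358572027) (nat_lit 0) (nat_lit 7689274596) (nat_lit 8) (nat_lit 5) (nat_lit 10) (nat_lit 4) (nat_lit 8) (nat_lit 4) (nat_lit 370) (nat_lit 239) (nat_lit 171)))) (XT.nd (nat_lit 78) (nat_lit 0) (nat_lit 0) (XT.lf (nat_lit 0) (nat_lit 3229573194) (nat_lit 76) (nat_lit 29181569416) (nat_lit 76) (nat_lit 7741772677) (nat_lit 7) (nat_lit 4) (nat_lit 8) (nat_lit 5) (nat_lit 8) (nat_lit 4) (nat_lit 371) (nat_lit 239) (nat_lit 170)) (XT.nd (nat_lit 78) (nat_lit 0) (nat_lit 0) (XT.lf (nat_lit 0) (nat_lit 8998984318) (nat_lit 76) (nat_lit 26895677150) (nat_lit 76) (nat_lit 5362499090)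 (nat_lit 7) (nat_lit 4) (nat_lit 8) (nat_lit 5) (nat_lit 8) (nat_lit 4) (nat_lit 372) (nat_lit 239) (nat_lit 169)) (XT.lf (nat_lit 0) (nat_lit 14907762369) (nat_lit 76) (nat_lit 24555603376) (nat_lit 76) (nat_lit 2931763841) (nat_lit 7) (nat_lit 4) (nat_lit 8) (nat_lit 5) (nat_lit 8) (nat_lit 4) (nat_lit 373) (nat_lit 239) (nat_lit 168)))))) (XT.nd (nat_lit 390) (nat_lit 76) (nat_lit 0) (XT.nd (nat_lit 156) (nat_lit 0) (nat_lit 0) (XT.nd (nat_lit 78) (nat_lit 76) (nat_lit 0) (XT.lf (nat_lit 0) (nat_lit 20961070357) (nat_lit 76) (nat_lit 22159303369) (nat_lit 76) (nat_lit 447442984) (nat_lit 7) (nat_lit 4) (nat_lit 8) (nat_lit 5) (nat_lit 8) (nat_lit 4) (nat_lit 374) (nat_lit 239) (nat_lit 167)) (XT.lf (nat_lit 0) (nat_lit 2051799414) (nat_lit 152) (nat_lit 17632164710) (nat_lit 76) (nat_lit 25091679015) (nat_lit 6) (nat_lit 5) (nat_lit 8) (nat_lit 5) (nat_lit 7) (nat_lit 4) (nat_lit 375) (nat_lit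 239) (nat_lit 166))) (XT.nd (nat_lit 78) (nat_lit 0) (nat_lit 0) (XT.lf (nat_lit 0) (nat_lit 4599155128) (nat_lit 152) (nat_lit 12544000703) (nat_lit 76) (nat_lit 28876966670) (nat_lit 6) (nat_lit 5) (nat_lit 8) (nat_lit 5) (nat_lit 7) (nat_lit 4) (nat_lit 376) (nat_lit 239) (nat_lit 165)) (XT.nd (nat_lit 78) (nat_lit 0) (nat_lit 0) (XT.lf (nat_lit 0) (nat_lit 7205581227) (nat_lit 152) (nat_lit 7333507269) (nat_lit 76) (nat_lit 32763382742) (nat_lit 6) (nat_lit 5) (nat_lit 8) (nat_lit 5) (nat_lit 7) (nat_lit 4) (nat_lit 377) (nat_lit 239) (nat_lit 164)) (XT.lf (nat_lit 0) (nat_lit 9873355171) (nat_lit 152) (nat_lit 1996131549) (nat_lit 76) (nat_lit 36754323130) (nat_lit 6) (nat_lit 5) (nat_lit 8) (nat_lit 5) (nat_lit 7) (nat_lit 4) (nat_lit 378) (nat_lit 239) (nat_lit 163))))) (XT.nd (nat_lit 234) (nat_lit 0) (nat_lit 0) (XT.nd (nat_lit 78) (nat_lit 0) (nat_lit 0) (XT.lf (nat_lit 0) (nat_lit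 3541905516) (nat_lit 76) (nat_lit 9096949469) (nat_lit 152) (nat_lit 37345416509) (nat_lit 5) (nat_lit 5) (nat_lit 6) (nat_lit 5) (nat_lit 7) (nat_lit 4) (nat_lit 379) (nat_lit 239) (nat_lit 162)) (XT.nd (nat_lit 78) (nat_lit 0) (nat_lit 0) (XT.lf (nat_lit 0) (nat_lit 9258707325) (nat_lit 76) (nat_lit 6232619525) (nat_lit 152) (nat_lit 35894113183) (nat_lit 5) (nat_lit 5) (nat_lit 6) (nat_lit 5) (nat_lit 7) (nat_lit 4) (nat_lit 380) (nat_lit 239) (nat_lit 161)) (XT.lf (nat_lit 0) (nat_lit 15119542208) (nat_lit 76) (nat_lit 3294151090) (nat_lit 152) (nat_lit 34415433587) (nat_lit 5) (nat_lit 5) (nat_lit 6) (nat_lit 5) (nat_lit 7) (nat_lit 4) (nat_lit 381) (nat_lit 239) (nat_lit 160)))) (XT.nd (nat_lit 78) (nat_lit 0) (nat_lit 0) (XT.lf (nat_lit 0) (nat_lit 21129531282) (nat_lit 76) (nat_lit 278976571) (nat_lit 152) (nat_lit 32908085672) (nat_lit 5) (nat_lit 5) (nat_lit 6) (nat_lit 5) (nat_lit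 7) (nat_lit 4) (nat_lit 382) (nat_lit 239) (nat_lit 159)) (XT.nd (nat_lit 78) (nat_lit 0) (nat_lit 0) (XT.lf (nat_lit 0) (nat_lit 24505452024) (nat_lit 152) (nat_lit 28582278365) (nat_lit 0) (nat_lit 2760597351) (nat_lit 5) (nat_lit 5) (nat_lit 7) (nat_lit 4) (nat_lit 5) (nat_lit 4) (nat_lit 383) (nat_lit 239) (nat_lit 158)) (XT.lf (nat_lit 0) (nat_lit 27683613905) (nat_lit 152) (nat_lit 23867591475) (nat_lit 0) (nat_lit 5875171098) (nat_lit 5) (nat_lit 5) (nat_lit 7) (nat_lit 4) (nat_lit 5) (nat_lit 4) (nat_lit 384) (nat_lit 239) (nat_lit 157))))))) (XT.nd (nat_lit 858) (nat_lit 76) (nat_lit 0) (XT.nd (nat_lit 390) (nat_lit 0) (nat_lit 0) (XT.nd (nat_lit 156) (nat_lit 76) (nat_lit 0) (XT.nd (nat_lit 78) (nat_lit 0) (nat_lit 0) (XT.lf (nat_lit 0) (nat_lit 30943088839) (nat_lit 152) (nat_lit 19036200250) (nat_lit 0) (nat_lit 9072909978) (nat_lit 5) (nat_lit 5) (nat_lit 7) (nat_lit 4) (nat_lit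 5) (nat_lit 4) (nat_lit 385) (nat_lit 239) (nat_lit 156)) (XT.lf (nat_lit 0) (nat_lit 34286724911) (nat_lit 152) (nat_lit 14083883085) (nat_lit 0) (nat_lit 12356608134) (nat_lit 5) (nat_lit 5) (nat_lit 7) (nat_lit 4) (nat_lit 5) (nat_lit 4) (nat_lit 386) (nat_lit 239) (nat_lit 155))) (XT.nd (nat_lit 78) (nat_lit 76) (nat_lit 0) (XT.lf (nat_lit 0) (nat_lit 37717443744) (nat_lit 152) (nat_lit 9006312714) (nat_lit 0) (nat_lit 15729134815) (nat_lit 5) (nat_lit 5) (nat_lit 7) (nat_lit 4) (nat_lit 5) (nat_lit 4) (nat_lit 387) (nat_lit 239) (nat_lit 154)) (XT.nd (nat_lit 78) (nat_lit 76) (nat_lit 0) (XT.lf (nat_lit 0) (nat_lit 41238243053) (nat_lit 152) (nat_lit 3799052424) (nat_lit 0) (nat_lit 19193436890) (nat_lit 5) (nat_lit 5) (nat_lit 7) (nat_lit 4) (nat_lit 5) (nat_lit 4) (nat_lit 388) (nat_lit 239) (nat_lit 153)) (XT.lf (nat_lit 0) (nat_lit 1573145553) (nat_lit 76) (nat_lit 43294175750) (nat_lit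 76) (nat_lit 21194517903) (nat_lit 4) (nat_lit 4) (nat_lit 5) (nat_lit 5) (nat_lit 5) (nat_lit 4) (nat_lit 389) (nat_lit 239) (nat_lit 152))))) (XT.nd (nat_lit 234) (nat_lit 0) (nat_lit 0) (XT.nd (nat_lit 78) (nat_lit 0) (nat_lit 0) (XT.lf (nat_lit 0) (nat_lit 7162623932) (nat_lit 76) (nat_lit 41468697797) (nat_lit 76) (nat_lit 19315785889) (nat_lit 4) (nat_lit 4) (nat_lit 5) (nat_lit 5) (nat_lit 5) (nat_lit 4) (nat_lit 390) (nat_lit 239) (nat_lit 151)) (XT.nd (nat_lit 78) (nat_lit 0) (nat_lit 0) (XT.lf (nat_lit 0) (nat_lit 12898658131) (nat_lit 76) (nat_lit 39597629523) (nat_lit 76) (nat_lit 17393014642) (nat_lit 4) (nat_lit 4) (nat_lit 5) (nat_lit 5) (nat_lit 5) (nat_lit 4) (nat_lit 391) (nat_lit 239) (nat_lit 150)) (XT.lf (nat_lit 0) (nat_lit 18786260218) (nat_lit 76) (nat_lit 37679336012) (nat_lit 76) (nat_lit 15424524070) (nat_lit 4) (nat_lit 4) (nat_lit 5) (nat_lit 5) (nat_lit 5) (nat_lit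 4) (nat_lit 392) (nat_lit 239) (nat_lit 149)))) (XT.nd (nat_lit 78) (nat_lit 0) (nat_lit 0) (XT.lf (nat_lit 0) (nat_lit 24830574701) (nat_lit 76) (nat_lit 35712141086) (nat_lit 76) (nat_lit 13408594134) (nat_lit 4) (nat_lit 4) (nat_lit 5) (nat_lit 5) (nat_lit 5) (nat_lit 4) (nat_lit 393) (nat_lit 239) (nat_lit 148)) (XT.nd (nat_lit 78) (nat_lit 0) (nat_lit 0) (XT.lf (nat_lit 0) (nat_lit 31036883018) (nat_lit 76) (nat_lit 33694325837) (nat_lit 76) (nat_lit 11343463340) (nat_lit 4) (nat_lit 4) (nat_lit 5) (nat_lit 5) (nat_lit 5) (nat_lit 4) (nat_lit 394) (nat_lit 239) (nat_lit 147)) (XT.lf (nat_lit 0) (nat_lit 37410608158) (nat_lit 76) (nat_lit 31624127126) (nat_lit 76) (nat_lit 9227327207) (nat_lit 4) (nat_lit 4) (nat_lit 5) (nat_lit 5) (nat_lit 5) (nat_lit 4) (nat_lit 395) (nat_lit 239) (nat_lit 146)))))) (XT.nd (nat_lit 33228) (nat_lit 0) (nat_lit 5320) (XT.nd (nat_lit 234) (nat_lit 76) (nat_lit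 0) (XT.nd (nat_lit 78) (nat_lit 0) (nat_lit 0) (XT.lf (nat_lit 0) (nat_lit 43957319396) (nat_lit 76) (nat_lit 29499736040) (nat_lit 76) (nat_lit 7058336683) (nat_lit 4) (nat_lit 4) (nat_lit 5) (nat_lit 5) (nat_lit 5) (nat_lit 4) (nat_lit 396) (nat_lit 239) (nat_lit 145)) (XT.nd (nat_lit 78) (nat_lit 0) (nat_lit 0) (XT.lf (nat_lit 0) (nat_lit 50682737157) (nat_lit 76) (nat_lit 27319296316) (nat_lit 76) (nat_lit 4834596533) (nat_lit 4) (nat_lit 4) (nat_lit 5) (nat_lit 5) (nat_lit 5) (nat_lit 4) (nat_lit 397) (nat_lit 239) (nat_lit 144)) (XT.lf (nat_lit 0) (nat_lit 57592738022) (nat_lit 76) (nat_lit 25080902716) (nat_lit 76) (nat_lit 2554163684) (nat_lit 4) (nat_lit 4) (nat_lit 5) (nat_lit 5) (nat_lit 5) (nat_lit 4) (nat_lit 398) (nat_lit 239) (nat_lit 143)))) (XT.nd (nat_lit 156) (nat_lit 76) (nat_lit 0) (XT.lf (nat_lit 0) (nat_lit 64693359855) (nat_lit 76) (nat_lit 22782599360) (nat_lit 76) (nat_lit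 215045525) (nat_lit 4) (nat_lit 4) (nat_lit 5) (nat_lit 5) (nat_lit 5) (nat_lit 4) (nat_lit 399) (nat_lit 239) (nat_lit 142)) (XT.nd (nat_lit 32760) (nat_lit 0) (nat_lit 6916) (XT.lf (nat_lit 0) (nat_lit 4556786365) (nat_lit 152) (nat_lit 13395375404) (nat_lit 76) (nat_lit 74888655142) (nat_lit 3) (nat_lit 5) (nat_lit 5) (nat_lit 5) (nat_lit 4) (nat_lit 4) (nat_lit 401) (nat_lit 239) (nat_lit 140)) (XT.lf (nat_lit 0) (nat_lit 1678769867) (nat_lit 456) (nat_lit 893179214) (nat_lit 0) (nat_lit 1678769867) (nat_lit 94) (nat_lit 5) (nat_lit 100) (nat_lit 4) (nat_lit 94) (nat_lit 4) (nat_lit 300) (nat_lit 240) (nat_lit 240))))) (XT.nd (nat_lit 234) (nat_lit 760) (nat_lit 0) (XT.nd (nat_lit 78) (nat_lit 456) (nat_lit 0) (XT.lf (nat_lit 0) (nat_lit 3609330131) (nat_lit 380) (nat_lit 3046680732) (nat_lit 380) (nat_lit 1960881177) (nat_lit 89) (nat_lit 4) (nat_lit 94) (nat_lit 5) (nat_lit 94) (nat_lit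 4) (nat_lit 301) (nat_lit 240) (nat_lit 239)) (XT.nd (nat_lit 78) (nat_lit 0) (nat_lit 0) (XT.lf (nat_lit 0) (nat_lit 354434445) (nat_lit 380) (nat_lit 874338128) (nat_lit 456) (nat_lit 7508741094) (nat_lit 83) (nat_lit 5) (nat_lit 88) (nat_lit 5) (nat_lit 89) (nat_lit 4) (nat_lit 302) (nat_lit 240) (nat_lit 238)) (XT.lf (nat_lit 0) (nat_lit 4455324855) (nat_lit 456) (nat_lit 3022592173) (nat_lit 0) (nat_lit 1384019906) (nat_lit 83) (nat_lit 5) (nat_lit 89) (nat_lit 4) (nat_lit 83) (nat_lit 4) (nat_lit 303) (nat_lit 240) (nat_lit 237)))) (XT.nd (nat_lit 78) (nat_lit 380) (nat_lit 0) (XT.lf (nat_lit 0) (nat_lit 2431403913) (nat_lit 380) (nat_lit 5298182050) (nat_lit 380) (nat_lit 1262158259) (nat_lit 78) (nat_lit 4) (nat_lit 83) (nat_lit 5) (nat_lit 83) (nat_lit 4) (nat_lit 304) (nat_lit 240) (nat_lit 236)) (XT.nd (nat_lit 78) (nat_lit 304) (nat_lit 0) (XT.lf (nat_lit 0) (nat_lit 1888158713)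 (nat_lit 456) (nat_lit 1139681836) (nat_lit 76) (nat_lit 6098700575) (nat_lit 77) (nat_lit 5) (nat_lit 83) (nat_lit 5) (nat_lit 78) (nat_lit 4) (nat_lit 305) (nat_lit 240) (nat_lit 235)) (XT.lf (nat_lit 0) (nat_lit 4413505629) (nat_lit 304) (nat_lit 658164167) (nat_lit 380) (nat_lit 4194579184) (nat_lit 73) (nat_lit 5) (nat_lit 77) (nat_lit 5) (nat_lit 78) (nat_lit 4) (nat_lit 306) (nat_lit 240) (nat_lit 234))))))))
noncomputable def xc58 : XT := (XT.nd (nat_lit 1716) (nat_lit 1368) (nat_lit 0) (XT.nd (nat_lit 858) (nat_lit 1292) (nat_lit 0) (XT.nd (nat_lit 390) (nat_lit 836) (nat_lit 0) (XT.nd (nat_lit 156) (nat_lit 684) (nat_lit 0) (XT.nd (nat_lit 78) (nat_lit 76) (nat_lit 0) (XT.lf (nat_lit 0) (nat_lit 637105609) (nat_lit 304) (nat_lit 7671139396) (nat_lit 304) (nat_lit 1103335067) (nat_lit 69) (nat_lit 4) (nat_lit 73) (nat_lit 5) (nat_lit 73) (nat_lit 4) (nat_lit 307) (nat_lit 240) (nat_lit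 233)) (XT.lf (nat_lit 0) (nat_lit 2019076017) (nat_lit 380) (nat_lit 3301254960) (nat_lit 76) (nat_lit 4241118841) (nat_lit 68) (nat_lit 5) (nat_lit 73) (nat_lit 5) (nat_lit 69) (nat_lit 4) (nat_lit 308) (nat_lit 240) (nat_lit 232))) (XT.nd (nat_lit 78) (nat_lit 380) (nat_lit 0) (XT.lf (nat_lit 0) (nat_lit 2266970499) (nat_lit 304) (nat_lit 2893072169) (nat_lit 380) (nat_lit 4557178782) (nat_lit 64) (nat_lit 5) (nat_lit 68) (nat_lit 5) (nat_lit 69) (nat_lit 4) (nat_lit 309) (nat_lit 240) (nat_lit 231)) (XT.nd (nat_lit 78) (nat_lit 380) (nat_lit 0) (XT.lf (nat_lit 0) (nat_lit 7968416869) (nat_lit 304) (nat_lit 386626326) (nat_lit 380) (nat_lit 1523969949) (nat_lit 64) (nat_lit 5) (nat_lit 68) (nat_lit 5) (nat_lit 69) (nat_lit 4) (nat_lit 310) (nat_lit 240) (nat_lit 230)) (XT.lf (nat_lit 0) (nat_lit 1554195342) (nat_lit 380) (nat_lit 6314768678) (nat_lit 76) (nat_lit 2176810463) (nat_lit 59) (nat_lit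 5) (nat_lit 64) (nat_lit 5) (nat_lit 60) (nat_lit 4) (nat_lit 311) (nat_lit 240) (nat_lit 229))))) (XT.nd (nat_lit 234) (nat_lit 228) (nat_lit 0) (XT.nd (nat_lit 78) (nat_lit 608) (nat_lit 0) (XT.lf (nat_lit 0) (nat_lit 4646038098) (nat_lit 380) (nat_lit 756169302) (nat_lit 76) (nat_lit 4816448804) (nat_lit 59) (nat_lit 5) (nat_lit 64) (nat_lit 5) (nat_lit 60) (nat_lit 4) (nat_lit 312) (nat_lit 240) (nat_lit 228)) (XT.nd (nat_lit 78) (nat_lit 380) (nat_lit 0) (XT.lf (nat_lit 0) (nat_lit 4967953120) (nat_lit 228) (nat_lit 2841166672) (nat_lit 304) (nat_lit 2588375405) (nat_lit 56) (nat_lit 5) (nat_lit 59) (nat_lit 5) (nat_lit 60) (nat_lit 4) (nat_lit 313) (nat_lit 240) (nat_lit 227)) (XT.lf (nat_lit 0) (nat_lit 198250637) (nat_lit 304) (nat_lit 218306615) (nat_lit 380) (nat_lit 10166901231) (nat_lit 51) (nat_lit 5) (nat_lit 55) (nat_lit 5) (nat_lit 56) (nat_lit 5) (nat_lit 314) (nat_lit 240)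 (nat_lit 226)))) (XT.nd (nat_lit 78) (nat_lit 228) (nat_lit 0) (XT.lf (nat_lit 0) (nat_lit 3470655418) (nat_lit 380) (nat_lit 4816822929) (nat_lit 76) (nat_lit 2486536953) (nat_lit 51) (nat_lit 5) (nat_lit 56) (nat_lit 5) (nat_lit 52) (nat_lit 4) (nat_lit 315) (nat_lit 240) (nat_lit 225)) (XT.nd (nat_lit 78) (nat_lit 0) (nat_lit 0) (XT.lf (nat_lit 0) (nat_lit 836064013) (nat_lit 228) (nat_lit 5724297442) (nat_lit 304) (nat_lit 4411719172) (nat_lit 48) (nat_lit 5) (nat_lit 51) (nat_lit 5) (nat_lit 52) (nat_lit 4) (nat_lit 316) (nat_lit 240) (nat_lit 224)) (XT.lf (nat_lit 0) (nat_lit 6661523087) (nat_lit 228) (nat_lit 3064670861) (nat_lit 304) (nat_lit 1450499019) (nat_lit 48) (nat_lit 5) (nat_lit 51) (nat_lit 5) (nat_lit 52) (nat_lit 4) (nat_lit 317) (nat_lit 240) (nat_lit 223)))))) (XT.nd (nat_lit 390) (nat_lit 456) (nat_lit 0) (XT.nd (nat_lit 156) (nat_lit 532) (nat_lit 0) (XT.nd (nat_lit 78)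 (nat_lit 0) (nat_lit 0) (XT.lf (nat_lit 0) (nat_lit 1187761842) (nat_lit 228) (nat_lit 327964538) (nat_lit 304) (nat_lit 9872936471) (nat_lit 44) (nat_lit 5) (nat_lit 47) (nat_lit 5) (nat_lit 48) (nat_lit 5) (nat_lit 318) (nat_lit 240) (nat_lit 222)) (XT.lf (nat_lit 0) (nat_lit 4548413936) (nat_lit 304) (nat_lit 4585158582) (nat_lit 76) (nat_lit 2472888540) (nat_lit 44) (nat_lit 5) (nat_lit 48) (nat_lit 5) (nat_lit 45) (nat_lit 4) (nat_lit 319) (nat_lit 240) (nat_lit 221))) (XT.nd (nat_lit 78) (nat_lit 304) (nat_lit 0) (XT.lf (nat_lit 0) (nat_lit 1125424059) (nat_lit 228) (nat_lit 6499208632) (nat_lit 304) (nat_lit 4207680057) (nat_lit 41) (nat_lit 5) (nat_lit 44) (nat_lit 5) (nat_lit 45) (nat_lit 4) (nat_lit 320) (nat_lit 240) (nat_lit 220)) (XT.nd (nat_lit 78) (nat_lit 304) (nat_lit 0) (XT.lf (nat_lit 0) (nat_lit 7009874825) (nat_lit 228) (nat_lit 3768962142) (nat_lit 304) (nat_lit 1286625310)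 (nat_lit 41) (nat_lit 5) (nat_lit 44) (nat_lit 5) (nat_lit 45) (nat_lit 4) (nat_lit 321) (nat_lit 240) (nat_lit 219)) (XT.lf (nat_lit 0) (nat_lit 671758210) (nat_lit 228) (nat_lit 963648243) (nat_lit 304) (nat_lit 10671382670) (nat_lit 37) (nat_lit 5) (nat_lit 40) (nat_lit 5) (nat_lit 41) (nat_lit 5) (nat_lit 322) (nat_lit 240) (nat_lit 218))))) (XT.nd (nat_lit 234) (nat_lit 304) (nat_lit 0) (XT.nd (nat_lit 78) (nat_lit 152) (nat_lit 0) (XT.lf (nat_lit 0) (nat_lit 4630382717) (nat_lit 304) (nat_lit 6001739417) (nat_lit 76) (nat_lit 1922602513) (nat_lit 37) (nat_lit 5) (nat_lit 41) (nat_lit 5) (nat_lit 38) (nat_lit 4) (nat_lit 323) (nat_lit 240) (nat_lit 217)) (XT.nd (nat_lit 78) (nat_lit 152) (nat_lit 0) (XT.lf (nat_lit 0) (nat_lit 7667539877) (nat_lit 304) (nat_lit 297065475) (nat_lit 76) (nat_lit 4847005797) (nat_lit 37) (nat_lit 5) (nat_lit 41) (nat_lit 5) (nat_lit 38) (nat_lit 4) (nat_lit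 324) (nat_lit 240) (nat_lit 216)) (XT.lf (nat_lit 0) (nat_lit 5602564978) (nat_lit 152) (nat_lit 5191558886) (nat_lit 228) (nat_lit 2282211462) (nat_lit 35) (nat_lit 5) (nat_lit 37) (nat_lit 5) (nat_lit 38) (nat_lit 4) (nat_lit 325) (nat_lit 240) (nat_lit 215)))) (XT.nd (nat_lit 78) (nat_lit 228) (nat_lit 0) (XT.lf (nat_lit 0) (nat_lit 600189365) (nat_lit 228) (nat_lit 1755913426) (nat_lit 76) (nat_lit 10994352197) (nat_lit 34) (nat_lit 5) (nat_lit 37) (nat_lit 5) (nat_lit 35) (nat_lit 5) (nat_lit 326) (nat_lit 240) (nat_lit 214)) (XT.nd (nat_lit 78) (nat_lit 0) (nat_lit 0) (XT.lf (nat_lit 0) (nat_lit 3514687778) (nat_lit 304) (nat_lit 9530687215) (nat_lit 76) (nat_lit 587074109) (nat_lit 31) (nat_lit 5) (nat_lit 35) (nat_lit 5) (nat_lit 32) (nat_lit 4) (nat_lit 327) (nat_lit 240) (nat_lit 213)) (XT.lf (nat_lit 0) (nat_lit 6504598155) (nat_lit 304) (nat_lit 3858620539) (nat_lit 76) (nat_lit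 3560116510) (nat_lit 31) (nat_lit 5) (nat_lit 35) (nat_lit 5) (nat_lit 32) (nat_lit 4) (nat_lit 328) (nat_lit 240) (nat_lit 212))))))) (XT.nd (nat_lit 858) (nat_lit 608) (nat_lit 0) (XT.nd (nat_lit 390) (nat_lit 380) (nat_lit 0) (XT.nd (nat_lit 156) (nat_lit 228) (nat_lit 0) (XT.nd (nat_lit 78) (nat_lit 0) (nat_lit 0) (XT.lf (nat_lit 0) (nat_lit 1940000359) (nat_lit 152) (nat_lit 7611147566) (nat_lit 228) (nat_lit 4672861094) (nat_lit 29) (nat_lit 5) (nat_lit 31) (nat_lit 5) (nat_lit 32) (nat_lit 4) (nat_lit 329) (nat_lit 240) (nat_lit 211)) (XT.lf (nat_lit 0) (nat_lit 7911012320) (nat_lit 152) (nat_lit 4766070588) (nat_lit 228) (nat_lit 1857047850) (nat_lit 29) (nat_lit 5) (nat_lit 31) (nat_lit 5) (nat_lit 32) (nat_lit 4) (nat_lit 330) (nat_lit 240) (nat_lit 210))) (XT.nd (nat_lit 78) (nat_lit 152) (nat_lit 0) (XT.lf (nat_lit 0) (nat_lit 972837231) (nat_lit 228) (nat_lit 881805291) (nat_lit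 76) (nat_lit 13000177638) (nat_lit 28) (nat_lit 5) (nat_lit 31) (nat_lit 5) (nat_lit 29) (nat_lit 5) (nat_lit 331) (nat_lit 240) (nat_lit 209)) (XT.nd (nat_lit 78) (nat_lit 0) (nat_lit 0) (XT.lf (nat_lit 0) (nat_lit 3861487082) (nat_lit 228) (nat_lit 10161492601) (nat_lit 76) (nat_lit 1161324827) (nat_lit 26) (nat_lit 5) (nat_lit 29) (nat_lit 5) (nat_lit 27) (nat_lit 4) (nat_lit 332) (nat_lit 240) (nat_lit 208)) (XT.lf (nat_lit 0) (nat_lit 6815972959) (nat_lit 228) (nat_lit 4496745552) (nat_lit 76) (nat_lit 4211639441) (nat_lit 26) (nat_lit 5) (nat_lit 29) (nat_lit 5) (nat_lit 27) (nat_lit 4) (nat_lit 333) (nat_lit 240) (nat_lit 207))))) (XT.nd (nat_lit 234) (nat_lit 228) (nat_lit 0) (XT.nd (nat_lit 78) (nat_lit 0) (nat_lit 0) (XT.lf (nat_lit 0) (nat_lit 1287799627) (nat_lit 152) (nat_lit 8536897238) (nat_lit 228) (nat_lit 6051006143) (nat_lit 24) (nat_lit 5) (nat_lit 26) (nat_lit 5) (nat_lit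 27) (nat_lit 4) (nat_lit 334) (nat_lit 240) (nat_lit 206)) (XT.nd (nat_lit 78) (nat_lit 0) (nat_lit 0) (XT.lf (nat_lit 0) (nat_lit 7263524128) (nat_lit 152) (nat_lit 5659436923) (nat_lit 228) (nat_lit 3314705431) (nat_lit 24) (nat_lit 5) (nat_lit 26) (nat_lit 5) (nat_lit 27) (nat_lit 4) (nat_lit 335) (nat_lit 240) (nat_lit 205)) (XT.lf (nat_lit 0) (nat_lit 13346155403) (nat_lit 152) (nat_lit 2723231594) (nat_lit 228) (nat_lit 542500227) (nat_lit 24) (nat_lit 5) (nat_lit 26) (nat_lit 5) (nat_lit 27) (nat_lit 4) (nat_lit 336) (nat_lit 240) (nat_lit 204)))) (XT.nd (nat_lit 78) (nat_lit 0) (nat_lit 0) (XT.lf (nat_lit 0) (nat_lit 2251582350) (nat_lit 228) (nat_lit 14429716336) (nat_lit 76) (nat_lit 315905245) (nat_lit 21) (nat_lit 5) (nat_lit 24) (nat_lit 5) (nat_lit 22) (nat_lit 4) (nat_lit 337) (nat_lit 240) (nat_lit 203)) (XT.nd (nat_lit 78) (nat_lit 0) (nat_lit 0) (XT.lf (nat_lit 0) (nat_lit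 5135228225) (nat_lit 228) (nat_lit 8854679616) (nat_lit 76) (nat_lit 3403561953) (nat_lit 21) (nat_lit 5) (nat_lit 24) (nat_lit 5) (nat_lit 22) (nat_lit 4) (nat_lit 338) (nat_lit 240) (nat_lit 202)) (XT.lf (nat_lit 0) (nat_lit 8063031876) (nat_lit 228) (nat_lit 3181883260) (nat_lit 76) (nat_lit 6558027715) (nat_lit 21) (nat_lit 5) (nat_lit 24) (nat_lit 5) (nat_lit 22) (nat_lit 4) (nat_lit 339) (nat_lit 240) (nat_lit 201)))))) (XT.nd (nat_lit 468) (nat_lit 304) (nat_lit 0) (XT.nd (nat_lit 234) (nat_lit 228) (nat_lit 0) (XT.nd (nat_lit 78) (nat_lit 0) (nat_lit 0) (XT.lf (nat_lit 0) (nat_lit 2645247857) (nat_lit 76) (nat_lit 8417731462) (nat_lit 152) (nat_lit 7162238745) (nat_lit 20) (nat_lit 5) (nat_lit 21) (nat_lit 5) (nat_lit 22) (nat_lit 4) (nat_lit 340) (nat_lit 240) (nat_lit 200)) (XT.nd (nat_lit 78) (nat_lit 0) (nat_lit 0) (XT.lf (nat_lit 0) (nat_lit 8645612399) (nat_lit 76) (nat_lit 5498880942)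 (nat_lit 152) (nat_lit 4515967023) (nat_lit 20) (nat_lit 5) (nat_lit 21) (nat_lit 5) (nat_lit 22) (nat_lit 4) (nat_lit 341) (nat_lit 240) (nat_lit 199)) (XT.lf (nat_lit 0) (nat_lit 14761127686) (nat_lit 76) (nat_lit 2517943907) (nat_lit 152) (nat_lit 1830914315) (nat_lit 20) (nat_lit 5) (nat_lit 21) (nat_lit 5) (nat_lit 22) (nat_lit 4) (nat_lit 342) (nat_lit 240) (nat_lit 198)))) (XT.nd (nat_lit 78) (nat_lit 0) (nat_lit 0) (XT.lf (nat_lit 0) (nat_lit 896956722) (nat_lit 228) (nat_lit 18136315984) (nat_lit 76) (nat_lit 540081774) (nat_lit 17) (nat_lit 5) (nat_lit 20) (nat_lit 5) (nat_lit 18) (nat_lit 4) (nat_lit 343) (nat_lit 240) (nat_lit 197)) (XT.nd (nat_lit 78) (nat_lit 0) (nat_lit 0) (XT.lf (nat_lit 0) (nat_lit 3700767346) (nat_lit 228) (nat_lit 12671241393) (nat_lit 76) (nat_lit 3677185207) (nat_lit 17) (nat_lit 5) (nat_lit 20) (nat_lit 5) (nat_lit 18) (nat_lit 4) (nat_lit 344) (nat_lit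 240) (nat_lit 196)) (XT.lf (nat_lit 0) (nat_lit 6551433199) (nat_lit 228) (nat_lit 7104448908) (nat_lit 76) (nat_lit 6884583832) (nat_lit 17) (nat_lit 5) (nat_lit 20) (nat_lit 5) (nat_lit 18) (nat_lit 4) (nat_lit 345) (nat_lit 240) (nat_lit 195))))) (XT.nd (nat_lit 234) (nat_lit 228) (nat_lit 0) (XT.nd (nat_lit 78) (nat_lit 76) (nat_lit 0) (XT.lf (nat_lit 0) (nat_lit 9451445156) (nat_lit 228) (nat_lit 1431074342) (nat_lit 76) (nat_lit 10165080232) (nat_lit 17) (nat_lit 5) (nat_lit 20) (nat_lit 5) (nat_lit 18) (nat_lit 4) (nat_lit 346) (nat_lit 240) (nat_lit 194)) (XT.nd (nat_lit 78) (nat_lit 0) (nat_lit 0) (XT.lf (nat_lit 0) (nat_lit 4440489566) (nat_lit 76) (nat_lit 8005532342) (nat_lit 152) (nat_lit 9123735995) (nat_lit 16) (nat_lit 5) (nat_lit 17) (nat_lit 5) (nat_lit 18) (nat_lit 4) (nat_lit 347) (nat_lit 240) (nat_lit 193)) (XT.lf (nat_lit 0) (nat_lit 10459449291) (nat_lit 76) (nat_lit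 5050782008) (nat_lit 152) (nat_lit 6597991877) (nat_lit 16) (nat_lit 5) (nat_lit 17) (nat_lit 5) (nat_lit 18) (nat_lit 4) (nat_lit 348) (nat_lit 240) (nat_lit 192)))) (XT.nd (nat_lit 78) (nat_lit 228) (nat_lit 0) (XT.lf (nat_lit 0) (nat_lit 16602582932) (nat_lit 76) (nat_lit 2030137721) (nat_lit 152) (nat_lit 4031166306) (nat_lit 16) (nat_lit 5) (nat_lit 17) (nat_lit 5) (nat_lit 18) (nat_lit 4) (nat_lit 349) (nat_lit 240) (nat_lit 191)) (XT.nd (nat_lit 78) (nat_lit 228) (nat_lit 0) (XT.lf (nat_lit 0) (nat_lit 21826398498) (nat_lit 152) (nat_lit 372156646) (nat_lit 0) (nat_lit 1038374233) (nat_lit 16) (nat_lit 5) (nat_lit 18) (nat_lit 4) (nat_lit 16) (nat_lit 4) (nat_lit 350) (nat_lit 240) (nat_lit 190)) (XT.lf (nat_lit 0) (nat_lit 1305206092) (nat_lit 228) (nat_lit 18317384161) (nat_lit 76) (nat_lit 4202984446) (nat_lit 13) (nat_lit 5) (nat_lit 16) (nat_lit 5) (nat_lit 14) (nat_lit 4) (nat_lit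 351) (nat_lit 240) (nat_lit 189))))))))
noncomputable def xc59 : XT := (XT.nd (nat_lit 1716) (nat_lit 228) (nat_lit 0) (XT.nd (nat_lit 858) (nat_lit 152) (nat_lit 0) (XT.nd (nat_lit 390) (nat_lit 228) (nat_lit 0) (XT.nd (nat_lit 156) (nat_lit 76) (nat_lit 0) (XT.nd (nat_lit 78) (nat_lit 0) (nat_lit 0) (XT.lf (nat_lit 0) (nat_lit 4046012036) (nat_lit 228) (nat_lit 12927264858) (nat_lit 76) (nat_lit 7459056344) (nat_lit 13) (nat_lit 5) (nat_lit 16) (nat_lit 5) (nat_lit 14) (nat_lit 4) (nat_lit 352) (nat_lit 240) (nat_lit 188)) (XT.lf (nat_lit 0) (nat_lit 6838121648) (nat_lit 228) (nat_lit 7427939397) (nat_lit 76) (nat_lit 10792191433) (nat_lit 13) (nat_lit 5) (nat_lit 16) (nat_lit 5) (nat_lit 14) (nat_lit 4) (nat_lit 353) (nat_lit 240) (nat_lit 187))) (XT.nd (nat_lit 78) (nat_lit 76) (nat_lit 0) (XT.lf (nat_lit 0) (nat_lit 9683974636) (nat_lit 228) (nat_lit 1814602541) (nat_lit 76) (nat_lit 14205302162)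 (nat_lit 13) (nat_lit 5) (nat_lit 16) (nat_lit 5) (nat_lit 14) (nat_lit 4) (nat_lit 354) (nat_lit 240) (nat_lit 186)) (XT.nd (nat_lit 78) (nat_lit 0) (nat_lit 0) (XT.lf (nat_lit 0) (nat_lit 3995619494) (nat_lit 76) (nat_lit 8628846513) (nat_lit 152) (nat_lit 13744159705) (nat_lit 12) (nat_lit 5) (nat_lit 13) (nat_lit 5) (nat_lit 14) (nat_lit 4) (nat_lit 355) (nat_lit 240) (nat_lit 185)) (XT.lf (nat_lit 0) (nat_lit 9968347046) (nat_lit 76) (nat_lit 5674381348) (nat_lit 152) (nat_lit 11410927148) (nat_lit 12) (nat_lit 5) (nat_lit 13) (nat_lit 5) (nat_lit 14) (nat_lit 4) (nat_lit 356) (nat_lit 240) (nat_lit 184))))) (XT.nd (nat_lit 234) (nat_lit 228) (nat_lit 0) (XT.nd (nat_lit 78) (nat_lit 0) (nat_lit 0) (XT.lf (nat_lit 0) (nat_lit 16072684854) (nat_lit 76) (nat_lit 2650924039) (nat_lit 152) (nat_lit 9036492215) (nat_lit 12) (nat_lit 5) (nat_lit 13) (nat_lit 5) (nat_lit 14) (nat_lit 4) (nat_lit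 357) (nat_lit 240) (nat_lit 183)) (XT.nd (nat_lit 78) (nat_lit 0) (nat_lit 0) (XT.lf (nat_lit 0) (nat_lit 21874069144) (nat_lit 152) (nat_lit 6178882495) (nat_lit 0) (nat_lit 435499965) (nat_lit 12) (nat_lit 5) (nat_lit 14) (nat_lit 4) (nat_lit 12) (nat_lit 4) (nat_lit 358) (nat_lit 240) (nat_lit 182)) (XT.lf (nat_lit 0) (nat_lit 25118785527) (nat_lit 152) (nat_lit 576817487) (nat_lit 0) (nat_lit 3543082731) (nat_lit 12) (nat_lit 5) (nat_lit 14) (nat_lit 4) (nat_lit 12) (nat_lit 4) (nat_lit 359) (nat_lit 240) (nat_lit 181)))) (XT.nd (nat_lit 78) (nat_lit 76) (nat_lit 0) (XT.lf (nat_lit 0) (nat_lit 5251634382) (nat_lit 152) (nat_lit 23233958467) (nat_lit 152) (nat_lit 1525116239) (nat_lit 10) (nat_lit 4) (nat_lit 12) (nat_lit 5) (nat_lit 12) (nat_lit 4) (nat_lit 360) (nat_lit 240) (nat_lit 180)) (XT.nd (nat_lit 78) (nat_lit 0) (nat_lit 0) (XT.lf (nat_lit 0) (nat_lit 1105323333) (nat_lit 228)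 (nat_lit 19594297447) (nat_lit 76) (nat_lit 10106558554) (nat_lit 9) (nat_lit 5) (nat_lit 12) (nat_lit 5) (nat_lit 10) (nat_lit 4) (nat_lit 361) (nat_lit 240) (nat_lit 179)) (XT.lf (nat_lit 0) (nat_lit 3759092432) (nat_lit 228) (nat_lit 14332642862) (nat_lit 76) (nat_lit 13534095868) (nat_lit 9) (nat_lit 5) (nat_lit 12) (nat_lit 5) (nat_lit 10) (nat_lit 4) (nat_lit 362) (nat_lit 240) (nat_lit 178)))))) (XT.nd (nat_lit 390) (nat_lit 76) (nat_lit 0) (XT.nd (nat_lit 156) (nat_lit 76) (nat_lit 0) (XT.nd (nat_lit 78) (nat_lit 0) (nat_lit 0) (XT.lf (nat_lit 0) (nat_lit 6468270395) (nat_lit 228) (nat_lit 8954853040) (nat_lit 76) (nat_lit 17047697147) (nat_lit 9) (nat_lit 5) (nat_lit 12) (nat_lit 5) (nat_lit 10) (nat_lit 4) (nat_lit 363) (nat_lit 240) (nat_lit 177)) (XT.lf (nat_lit 0) (nat_lit 9235224465) (nat_lit 228) (nat_lit 3456228940) (nat_lit 76) (nat_lit 20650432528) (nat_lit 9) (nat_lit 5) (nat_lit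 12) (nat_lit 5) (nat_lit 10) (nat_lit 4) (nat_lit 364) (nat_lit 240) (nat_lit 176))) (XT.nd (nat_lit 78) (nat_lit 0) (nat_lit 0) (XT.lf (nat_lit 0) (nat_lit 2211182188) (nat_lit 76) (nat_lit 9872445416) (nat_lit 152) (nat_lit 22155523080) (nat_lit 8) (nat_lit 5) (nat_lit 9) (nat_lit 5) (nat_lit 10) (nat_lit 4) (nat_lit 365) (nat_lit 240) (nat_lit 175)) (XT.nd (nat_lit 78) (nat_lit 0) (nat_lit 0) (XT.lf (nat_lit 0) (nat_lit 8080530621) (nat_lit 76) (nat_lit 6949328812) (nat_lit 152) (nat_lit 20133122699) (nat_lit 8) (nat_lit 5) (nat_lit 9) (nat_lit 5) (nat_lit 10) (nat_lit 4) (nat_lit 366) (nat_lit 240) (nat_lit 174)) (XT.lf (nat_lit 0) (nat_lit 14088159183) (nat_lit 76) (nat_lit 3954450548) (nat_lit 152) (nat_lit 18072594315) (nat_lit 8) (nat_lit 5) (nat_lit 9) (nat_lit 5) (nat_lit 10) (nat_lit 4) (nat_lit 367) (nat_lit 240) (nat_lit 173))))) (XT.nd (nat_lit 234) (nat_lit 76) (nat_lit 0) (XT.nd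 (nat_lit 78) (nat_lit 0) (nat_lit 0) (XT.lf (nat_lit 0) (nat_lit 20239317258) (nat_lit 76) (nat_lit 885193741) (nat_lit 152) (nat_lit 15972137465) (nat_lit 8) (nat_lit 5) (nat_lit 9) (nat_lit 5) (nat_lit 10) (nat_lit 4) (nat_lit 368) (nat_lit 240) (nat_lit 172)) (XT.nd (nat_lit 78) (nat_lit 0) (nat_lit 0) (XT.lf (nat_lit 0) (nat_lit 24299991462) (nat_lit 152) (nat_lit 11590528617) (nat_lit 0) (nat_lit 2217000820) (nat_lit 8) (nat_lit 5) (nat_lit 10) (nat_lit 4) (nat_lit 8) (nat_lit 4) (nat_lit 369) (nat_lit 240) (nat_lit 171)) (XT.lf (nat_lit 0) (nat_lit 27559347719) (nat_lit 152) (nat_lit 6209556944) (nat_lit 0) (nat_lit 5380174318) (nat_lit 8) (nat_lit 5) (nat_lit 10) (nat_lit 4) (nat_lit 8) (nat_lit 4) (nat_lit 370) (nat_lit 240) (nat_lit 170)))) (XT.nd (nat_lit 78) (nat_lit 76) (nat_lit 0) (XT.lf (nat_lit 0) (nat_lit 30896918729) (nat_lit 152) (nat_lit 701205344) (nat_lit 0) (nat_lit 8624364008)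 (nat_lit 8) (nat_lit 5) (nat_lit 10) (nat_lit 4) (nat_lit 8) (nat_lit 4) (nat_lit 371) (nat_lit 240) (nat_lit 169)) (XT.nd (nat_lit 78) (nat_lit 0) (nat_lit 0) (XT.lf (nat_lit 0) (nat_lit 5037641843) (nat_lit 76) (nat_lit 29326403868) (nat_lit 76) (nat_lit 6963187671) (nat_lit 7) (nat_lit 4) (nat_lit 8) (nat_lit 5) (nat_lit 8) (nat_lit 4) (nat_lit 372) (nat_lit 240) (nat_lit 168)) (XT.lf (nat_lit 0) (nat_lit 10930295064) (nat_lit 76) (nat_lit 26993214813) (nat_lit 76) (nat_lit 4541977766) (nat_lit 7) (nat_lit 4) (nat_lit 8) (nat_lit 5) (nat_lit 8) (nat_lit 4) (nat_lit 373) (nat_lit 240) (nat_lit 167))))))) (XT.nd (nat_lit 858) (nat_lit 76) (nat_lit 0) (XT.nd (nat_lit 390) (nat_lit 76) (nat_lit 0) (XT.nd (nat_lit 156) (nat_lit 0) (nat_lit 0) (XT.nd (nat_lit 78) (nat_lit 76) (nat_lit 0) (XT.lf (nat_lit 0) (nat_lit 16967947878) (nat_lit 76) (nat_lit 24603599000) (nat_lit 76) (nat_lit 2066904817)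 (nat_lit 7) (nat_lit 4) (nat_lit 8) (nat_lit 5) (nat_lit 8) (nat_lit 4) (nat_lit 374) (nat_lit 240) (nat_lit 166)) (XT.lf (nat_lit 0) (nat_lit 455135767) (nat_lit 152) (nat_lit 21695736669) (nat_lit 76) (nat_lit 22696144156) (nat_lit 6) (nat_lit 5) (nat_lit 8) (nat_lit 5) (nat_lit 7) (nat_lit 4) (nat_lit 375) (nat_lit 240) (nat_lit 165))) (XT.nd (nat_lit 78) (nat_lit 0) (nat_lit 0) (XT.lf (nat_lit 0) (nat_lit 2993944542) (nat_lit 152) (nat_lit 16622506402) (nat_lit 76) (nat_lit 26475308554) (nat_lit 6) (nat_lit 5) (nat_lit 8) (nat_lit 5) (nat_lit 7) (nat_lit 4) (nat_lit 376) (nat_lit 240) (nat_lit 164)) (XT.nd (nat_lit 78) (nat_lit 0) (nat_lit 0) (XT.lf (nat_lit 0) (nat_lit 5592072642) (nat_lit 152) (nat_lit 11426511745) (nat_lit 76) (nat_lit 30355779717) (nat_lit 6) (nat_lit 5) (nat_lit 8) (nat_lit 5) (nat_lit 7) (nat_lit 4) (nat_lit 377) (nat_lit 240) (nat_lit 163)) (XT.lf (nat_lit 0) (nat_lit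 8251790275) (nat_lit 152) (nat_lit 6103212507) (nat_lit 76) (nat_lit 34340948348) (nat_lit 6) (nat_lit 5) (nat_lit 8) (nat_lit 5) (nat_lit 7) (nat_lit 4) (nat_lit 378) (nat_lit 240) (nat_lit 162))))) (XT.nd (nat_lit 234) (nat_lit 0) (nat_lit 0) (XT.nd (nat_lit 78) (nat_lit 76) (nat_lit 0) (XT.lf (nat_lit 0) (nat_lit 10975421468) (nat_lit 152) (nat_lit 647957262) (nat_lit 76) (nat_lit 38434296633) (nat_lit 6) (nat_lit 5) (nat_lit 8) (nat_lit 5) (nat_lit 7) (nat_lit 4) (nat_lit 379) (nat_lit 240) (nat_lit 161)) (XT.nd (nat_lit 78) (nat_lit 0) (nat_lit 0) (XT.lf (nat_lit 0) (nat_lit 5042416423) (nat_lit 76) (nat_lit 8771400460) (nat_lit 152) (nat_lit 37645455653) (nat_lit 5) (nat_lit 5) (nat_lit 6) (nat_lit 5) (nat_lit 7) (nat_lit 4) (nat_lit 380) (nat_lit 240) (nat_lit 160)) (XT.lf (nat_lit 0) (nat_lit 10890112953) (nat_lit 76) (nat_lit 5838571418) (nat_lit 152) (nat_lit 36174506141) (nat_lit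 5) (nat_lit 5) (nat_lit 6) (nat_lit 5) (nat_lit 7) (nat_lit 4) (nat_lit 381) (nat_lit 240) (nat_lit 159)))) (XT.nd (nat_lit 78) (nat_lit 0) (nat_lit 0) (XT.lf (nat_lit 0) (nat_lit 16887346346) (nat_lit 76) (nat_lit 2828872038) (nat_lit 152) (nat_lit 34674663160) (nat_lit 5) (nat_lit 5) (nat_lit 6) (nat_lit 5) (nat_lit 7) (nat_lit 4) (nat_lit 382) (nat_lit 240) (nat_lit 158)) (XT.nd (nat_lit 78) (nat_lit 0) (nat_lit 0) (XT.lf (nat_lit 0) (nat_lit 22781531814) (nat_lit 152) (nat_lit 32886791082) (nat_lit 0) (nat_lit 255247588) (nat_lit 5) (nat_lit 5) (nat_lit 7) (nat_lit 4) (nat_lit 5) (nat_lit 4) (nat_lit 383) (nat_lit 240) (nat_lit 157)) (XT.lf (nat_lit 0) (nat_lit 25952781477) (nat_lit 152) (nat_lit 28184289547) (nat_lit 0) (nat_lit 3364761197) (nat_lit 5) (nat_lit 5) (nat_lit 7) (nat_lit 4) (nat_lit 5) (nat_lit 4) (nat_lit 384) (nat_lit 240) (nat_lit 156)))))) (XT.nd (nat_lit 468) (nat_lit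 0) (nat_lit 0) (XT.nd (nat_lit 234) (nat_lit 76) (nat_lit 0) (XT.nd (nat_lit 78) (nat_lit 0) (nat_lit 0) (XT.lf (nat_lit 0) (nat_lit 29205545519) (nat_lit 152) (nat_lit 23364728763) (nat_lit 0) (nat_lit 6557587323) (nat_lit 5) (nat_lit 5) (nat_lit 7) (nat_lit 4) (nat_lit 5) (nat_lit 4) (nat_lit 385) (nat_lit 240) (nat_lit 155)) (XT.nd (nat_lit 78) (nat_lit 0) (nat_lit 0) (XT.lf (nat_lit 0) (nat_lit 32542666162) (nat_lit 152) (nat_lit 18423897465) (nat_lit 0) (nat_lit 9836515814) (nat_lit 5) (nat_lit 5) (nat_lit 7) (nat_lit 4) (nat_lit 5) (nat_lit 4) (nat_lit 386) (nat_lit 240) (nat_lit 154)) (XT.lf (nat_lit 0) (nat_lit 35967059335) (nat_lit 152) (nat_lit 13357478420) (nat_lit 0) (nat_lit 13204411753) (nat_lit 5) (nat_lit 5) (nat_lit 7) (nat_lit 4) (nat_lit 5) (nat_lit 4) (nat_lit 387) (nat_lit 240) (nat_lit 153)))) (XT.nd (nat_lit 78) (nat_lit 76) (nat_lit 0) (XT.lf (nat_lit 0) (nat_lit 39481717228)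 (nat_lit 152) (nat_lit 8161044661) (nat_lit 0) (nat_lit 16664217962) (nat_lit 5) (nat_lit 5) (nat_lit 7) (nat_lit 4) (nat_lit 5) (nat_lit 4) (nat_lit 388) (nat_lit 240) (nat_lit 152)) (XT.nd (nat_lit 78) (nat_lit 76) (nat_lit 0) (XT.lf (nat_lit 0) (nat_lit 43089710900) (nat_lit 152) (nat_lit 2830055614) (nat_lit 0) (nat_lit 20218957572) (nat_lit 5) (nat_lit 5) (nat_lit 7) (nat_lit 4) (nat_lit 5) (nat_lit 4) (nat_lit 389) (nat_lit 240) (nat_lit 151)) (XT.lf (nat_lit 0) (nat_lit 2692690965) (nat_lit 76) (nat_lit 44127385794) (nat_lit 76) (nat_lit 21204929494) (nat_lit 4) (nat_lit 4) (nat_lit 5) (nat_lit 5) (nat_lit 5) (nat_lit 4) (nat_lit 390) (nat_lit 240) (nat_lit 150))))) (XT.nd (nat_lit 234) (nat_lit 0) (nat_lit 0) (XT.nd (nat_lit 78) (nat_lit 0) (nat_lit 0) (XT.lf (nat_lit 0) (nat_lit 8418620170) (nat_lit 76) (nat_lit 42260705112) (nat_lit 76) (nat_lit 19288051750) (nat_lit 4) (nat_lit 4)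 (nat_lit 5) (nat_lit 5) (nat_lit 5) (nat_lit 4) (nat_lit 391) (nat_lit 240) (nat_lit 149)) (XT.nd (nat_lit 78) (nat_lit 0) (nat_lit 0) (XT.lf (nat_lit 0) (nat_lit 14296411584) (nat_lit 76) (nat_lit 40346671399) (nat_lit 76) (nat_lit 17325283027) (nat_lit 4) (nat_lit 4) (nat_lit 5) (nat_lit 5) (nat_lit 5) (nat_lit 4) (nat_lit 392) (nat_lit 240) (nat_lit 148)) (XT.lf (nat_lit 0) (nat_lit 20331201140) (nat_lit 76) (nat_lit 38383612200) (nat_lit 76) (nat_lit 15314908284) (nat_lit 4) (nat_lit 4) (nat_lit 5) (nat_lit 5) (nat_lit 5) (nat_lit 4) (nat_lit 393) (nat_lit 240) (nat_lit 147)))) (XT.nd (nat_lit 78) (nat_lit 0) (nat_lit 0) (XT.lf (nat_lit 0) (nat_lit 26528261957) (nat_lit 76) (nat_lit 36369812220) (nat_lit 76) (nat_lit 13255170882) (nat_lit 4) (nat_lit 4) (nat_lit 5) (nat_lit 5) (nat_lit 5) (nat_lit 4) (nat_lit 394) (nat_lit 240) (nat_lit 146)) (XT.nd (nat_lit 78) (nat_lit 0) (nat_lit 0) (XT.lf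 (nat_lit 0) (nat_lit 32893008941) (nat_lit 76) (nat_lit 34303511827) (nat_lit 76) (nat_lit 11144271050) (nat_lit 4) (nat_lit 4) (nat_lit 5) (nat_lit 5) (nat_lit 5) (nat_lit 4) (nat_lit 395) (nat_lit 240) (nat_lit 145)) (XT.lf (nat_lit 0) (nat_lit 39431003522) (nat_lit 76) (nat_lit 32182905517) (nat_lit 76) (nat_lit 8980364315) (nat_lit 4) (nat_lit 4) (nat_lit 5) (nat_lit 5) (nat_lit 5) (nat_lit 4) (nat_lit 396) (nat_lit 240) (nat_lit 144))))))))
noncomputable def xc60 : XT := (XT.nd (nat_lit 34320) (nat_lit 0) (nat_lit 1368) (XT.nd (nat_lit 33462) (nat_lit 0) (nat_lit 3648) (XT.nd (nat_lit 32994) (nat_lit 0) (nat_lit 5700) (XT.nd (nat_lit 156) (nat_lit 76) (nat_lit 0) (XT.nd (nat_lit 78) (nat_lit 0) (nat_lit 0) (XT.lf (nat_lit 0) (nat_lit 46147958510) (nat_lit 76) (nat_lit 30006140332) (nat_lit 76) (nat_lit 6761559882) (nat_lit 4) (nat_lit 4) (nat_lit 5) (nat_lit 5) (nat_lit 5) (nat_lit 4) (nat_lit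 397) (nat_lit 240) (nat_lit 143)) (XT.lf (nat_lit 0) (nat_lit 53049743090) (nat_lit 76) (nat_lit 27771314245) (nat_lit 76) (nat_lit 4485918991) (nat_lit 4) (nat_lit 4) (nat_lit 5) (nat_lit 5) (nat_lit 5) (nat_lit 4) (nat_lit 398) (nat_lit 240) (nat_lit 142))) (XT.nd (nat_lit 156) (nat_lit 76) (nat_lit 0) (XT.lf (nat_lit 0) (nat_lit 60142387947) (nat_lit 76) (nat_lit 25476474496) (nat_lit 76) (nat_lit 2151453217) (nat_lit 4) (nat_lit 4) (nat_lit 5) (nat_lit 5) (nat_lit 5) (nat_lit 4) (nat_lit 399) (nat_lit 240) (nat_lit 141)) (XT.nd (nat_lit 32604) (nat_lit 0) (nat_lit 7372) (XT.lf (nat_lit 0) (nat_lit 2649436474) (nat_lit 152) (nat_lit 18022488429) (nat_lit 76) (nat_lit 72249029918) (nat_lit 3) (nat_lit 5) (nat_lit 5) (nat_lit 5) (nat_lit 4) (nat_lit 4) (nat_lit 401) (nat_lit 240) (nat_lit 139)) (XT.lf (nat_lit 0) (nat_lit 2186549970) (nat_lit 456) (nat_lit 977443495) (nat_lit 456) (nat_lit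 977443495) (nat_lit 100) (nat_lit 4) (nat_lit 106) (nat_lit 5) (nat_lit 106) (nat_lit 4) (nat_lit 298) (nat_lit 241) (nat_lit 241))))) (XT.nd (nat_lit 234) (nat_lit 836) (nat_lit 0) (XT.nd (nat_lit 78) (nat_lit 380) (nat_lit 0) (XT.lf (nat_lit 0) (nat_lit 1224471763) (nat_lit 456) (nat_lit 7060443045) (nat_lit 0) (nat_lit 106098222) (nat_lit 94) (nat_lit 5) (nat_lit 100) (nat_lit 4) (nat_lit 94) (nat_lit 4) (nat_lit 299) (nat_lit 241) (nat_lit 240)) (XT.nd (nat_lit 78) (nat_lit 380) (nat_lit 0) (XT.lf (nat_lit 0) (nat_lit 4433938538) (nat_lit 456) (nat_lit 1839092235) (nat_lit 0) (nat_lit 2229765442) (nat_lit 94) (nat_lit 5) (nat_lit 100) (nat_lit 4) (nat_lit 94) (nat_lit 4) (nat_lit 300) (nat_lit 241) (nat_lit 239)) (XT.lf (nat_lit 0) (nat_lit 3503330009) (nat_lit 380) (nat_lit 4187308544) (nat_lit 380) (nat_lit 928961123) (nat_lit 89) (nat_lit 4) (nat_lit 94) (nat_lit 5) (nat_lit 94) (nat_lit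 4) (nat_lit 301) (nat_lit 241) (nat_lit 238)))) (XT.nd (nat_lit 78) (nat_lit 380) (nat_lit 0) (XT.lf (nat_lit 0) (nat_lit 180826082) (nat_lit 380) (nat_lit 2017520578) (nat_lit 456) (nat_lit 6542934010) (nat_lit 83) (nat_lit 5) (nat_lit 88) (nat_lit 5) (nat_lit 89) (nat_lit 4) (nat_lit 302) (nat_lit 241) (nat_lit 237)) (XT.nd (nat_lit 78) (nat_lit 380) (nat_lit 0) (XT.lf (nat_lit 0) (nat_lit 5373951009) (nat_lit 456) (nat_lit 3241241727) (nat_lit 0) (nat_lit 252127663) (nat_lit 83) (nat_lit 5) (nat_lit 89) (nat_lit 4) (nat_lit 83) (nat_lit 4) (nat_lit 303) (nat_lit 241) (nat_lit 236)) (XT.lf (nat_lit 0) (nat_lit 2156652030) (nat_lit 380) (nat_lit 6450123892) (nat_lit 380) (nat_lit 391680312) (nat_lit 78) (nat_lit 4) (nat_lit 83) (nat_lit 5) (nat_lit 83) (nat_lit 4) (nat_lit 304) (nat_lit 241) (nat_lit 235)))))) (XT.nd (nat_lit 390) (nat_lit 988) (nat_lit 0) (XT.nd (nat_lit 156) (nat_lit 684)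 (nat_lit 0) (XT.nd (nat_lit 78) (nat_lit 304) (nat_lit 0) (XT.lf (nat_lit 0) (nat_lit 2703043316) (nat_lit 456) (nat_lit 1480605680) (nat_lit 76) (nat_lit 4950591884) (nat_lit 77) (nat_lit 5) (nat_lit 83) (nat_lit 5) (nat_lit 78) (nat_lit 4) (nat_lit 305) (nat_lit 241) (nat_lit 234)) (XT.lf (nat_lit 0) (nat_lit 4015205254) (nat_lit 304) (nat_lit 1830037734) (nat_lit 380) (nat_lit 3430023300) (nat_lit 73) (nat_lit 5) (nat_lit 77) (nat_lit 5) (nat_lit 78) (nat_lit 4) (nat_lit 306) (nat_lit 241) (nat_lit 233))) (XT.nd (nat_lit 78) (nat_lit 380) (nat_lit 0) (XT.lf (nat_lit 0) (nat_lit 181989779) (nat_lit 304) (nat_lit 8847207875) (nat_lit 304) (nat_lit 393054274) (nat_lit 69) (nat_lit 4) (nat_lit 73) (nat_lit 5) (nat_lit 73) (nat_lit 4) (nat_lit 307) (nat_lit 241) (nat_lit 232)) (XT.nd (nat_lit 78) (nat_lit 304) (nat_lit 0) (XT.lf (nat_lit 0) (nat_lit 2678682717) (nat_lit 380) (nat_lit 3824364525)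 (nat_lit 76) (nat_lit 3070045593) (nat_lit 68) (nat_lit 5) (nat_lit 73) (nat_lit 5) (nat_lit 69) (nat_lit 4) (nat_lit 308) (nat_lit 241) (nat_lit 231)) (XT.lf (nat_lit 0) (nat_lit 1683450843) (nat_lit 304) (nat_lit 4094847671) (nat_lit 380) (nat_lit 3951875965) (nat_lit 64) (nat_lit 5) (nat_lit 68) (nat_lit 5) (nat_lit 69) (nat_lit 4) (nat_lit 309) (nat_lit 241) (nat_lit 230))))) (XT.nd (nat_lit 234) (nat_lit 608) (nat_lit 0) (XT.nd (nat_lit 78) (nat_lit 380) (nat_lit 0) (XT.lf (nat_lit 0) (nat_lit 7336354316) (nat_lit 304) (nat_lit 1601777417) (nat_lit 380) (nat_lit 954956924) (nat_lit 64) (nat_lit 5) (nat_lit 68) (nat_lit 5) (nat_lit 69) (nat_lit 4) (nat_lit 310) (nat_lit 241) (nat_lit 229)) (XT.nd (nat_lit 78) (nat_lit 0) (nat_lit 0) (XT.lf (nat_lit 0) (nat_lit 2058879159) (nat_lit 380) (nat_lit 7031572166) (nat_lit 76) (nat_lit 970894943) (nat_lit 59) (nat_lit 5) (nat_lit 64) (nat_lit 5)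 (nat_lit 60) (nat_lit 4) (nat_lit 311) (nat_lit 241) (nat_lit 228)) (XT.lf (nat_lit 0) (nat_lit 5116598098) (nat_lit 380) (nat_lit 1521336137) (nat_lit 76) (nat_lit 3597379208) (nat_lit 59) (nat_lit 5) (nat_lit 64) (nat_lit 5) (nat_lit 60) (nat_lit 4) (nat_lit 312) (nat_lit 241) (nat_lit 227)))) (XT.nd (nat_lit 78) (nat_lit 380) (nat_lit 0) (XT.lf (nat_lit 0) (nat_lit 4139668769) (nat_lit 228) (nat_lit 4098919128) (nat_lit 304) (nat_lit 2176857236) (nat_lit 56) (nat_lit 5) (nat_lit 59) (nat_lit 5) (nat_lit 60) (nat_lit 4) (nat_lit 313) (nat_lit 241) (nat_lit 226)) (XT.nd (nat_lit 78) (nat_lit 304) (nat_lit 0) (XT.lf (nat_lit 0) (nat_lit 785147660) (nat_lit 304) (nat_lit 703015466) (nat_lit 76) (nat_lit 9114230047) (nat_lit 55) (nat_lit 5) (nat_lit 59) (nat_lit 5) (nat_lit 56) (nat_lit 5) (nat_lit 314) (nat_lit 241) (nat_lit 225)) (XT.lf (nat_lit 0) (nat_lit 3787461258) (nat_lit 380) (nat_lit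 5786583793) (nat_lit 76) (nat_lit 1220513330) (nat_lit 51) (nat_lit 5) (nat_lit 56) (nat_lit 5) (nat_lit 52) (nat_lit 4) (nat_lit 315) (nat_lit 241) (nat_lit 224))))))) (XT.nd (nat_lit 858) (nat_lit 988) (nat_lit 0) (XT.nd (nat_lit 390) (nat_lit 760) (nat_lit 0) (XT.nd (nat_lit 156) (nat_lit 304) (nat_lit 0) (XT.nd (nat_lit 78) (nat_lit 228) (nat_lit 0) (XT.lf (nat_lit 0) (nat_lit 6837463177) (nat_lit 380) (nat_lit 196260785) (nat_lit 76) (nat_lit 3960144127) (nat_lit 51) (nat_lit 5) (nat_lit 56) (nat_lit 5) (nat_lit 52) (nat_lit 4) (nat_lit 316) (nat_lit 241) (nat_lit 223)) (XT.lf (nat_lit 0) (nat_lit 5579496424) (nat_lit 228) (nat_lit 4390689893) (nat_lit 304) (nat_lit 1229339098) (nat_lit 48) (nat_lit 5) (nat_lit 51) (nat_lit 5) (nat_lit 52) (nat_lit 4) (nat_lit 317) (nat_lit 241) (nat_lit 222))) (XT.nd (nat_lit 78) (nat_lit 0) (nat_lit 0) (XT.lf (nat_lit 0) (nat_lit 12727371) (nat_lit 228)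 (nat_lit 1677922242) (nat_lit 304) (nat_lit 9722088278) (nat_lit 44) (nat_lit 5) (nat_lit 47) (nat_lit 5) (nat_lit 48) (nat_lit 5) (nat_lit 318) (nat_lit 241) (nat_lit 221)) (XT.nd (nat_lit 78) (nat_lit 0) (nat_lit 0) (XT.lf (nat_lit 0) (nat_lit 4680057660) (nat_lit 304) (nat_lit 5816782095) (nat_lit 76) (nat_lit 1135042045) (nat_lit 44) (nat_lit 5) (nat_lit 48) (nat_lit 5) (nat_lit 45) (nat_lit 4) (nat_lit 319) (nat_lit 241) (nat_lit 220)) (XT.lf (nat_lit 0) (nat_lit 7716037870) (nat_lit 304) (nat_lit 172326183) (nat_lit 76) (nat_lit 3970622533) (nat_lit 44) (nat_lit 5) (nat_lit 48) (nat_lit 5) (nat_lit 45) (nat_lit 4) (nat_lit 320) (nat_lit 241) (nat_lit 219))))) (XT.nd (nat_lit 234) (nat_lit 228) (nat_lit 0) (XT.nd (nat_lit 78) (nat_lit 304) (nat_lit 0) (XT.lf (nat_lit 0) (nat_lit 5664962298) (nat_lit 228) (nat_lit 5174606611) (nat_lit 304) (nat_lit 1253532005) (nat_lit 41) (nat_lit 5) (nat_lit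 44) (nat_lit 5) (nat_lit 45) (nat_lit 4) (nat_lit 321) (nat_lit 241) (nat_lit 218)) (XT.nd (nat_lit 78) (nat_lit 228) (nat_lit 0) (XT.lf (nat_lit 0) (nat_lit 1632935994) (nat_lit 304) (nat_lit 757286841) (nat_lit 76) (nat_lit 9945284962) (nat_lit 40) (nat_lit 5) (nat_lit 44) (nat_lit 5) (nat_lit 41) (nat_lit 5) (nat_lit 322) (nat_lit 241) (nat_lit 217)) (XT.lf (nat_lit 0) (nat_lit 4578519259) (nat_lit 304) (nat_lit 7504397563) (nat_lit 76) (nat_lit 502049107) (nat_lit 37) (nat_lit 5) (nat_lit 41) (nat_lit 5) (nat_lit 38) (nat_lit 4) (nat_lit 323) (nat_lit 241) (nat_lit 216)))) (XT.nd (nat_lit 78) (nat_lit 228) (nat_lit 0) (XT.lf (nat_lit 0) (nat_lit 7588315251) (nat_lit 304) (nat_lit 1841846739) (nat_lit 76) (nat_lit 3412550902) (nat_lit 37) (nat_lit 5) (nat_lit 41) (nat_lit 5) (nat_lit 38) (nat_lit 4) (nat_lit 324) (nat_lit 241) (nat_lit 215)) (XT.nd (nat_lit 78) (nat_lit 76) (nat_lit 0) (XT.lf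 (nat_lit 0) (nat_lit 3985329391) (nat_lit 152) (nat_lit 6687459749) (nat_lit 228) (nat_lit 2435949706) (nat_lit 35) (nat_lit 5) (nat_lit 37) (nat_lit 5) (nat_lit 38) (nat_lit 4) (nat_lit 325) (nat_lit 241) (nat_lit 214)) (XT.lf (nat_lit 0) (nat_lit 422975488) (nat_lit 228) (nat_lit 3445133178) (nat_lit 76) (nat_lit 9515624712) (nat_lit 34) (nat_lit 5) (nat_lit 37) (nat_lit 5) (nat_lit 35) (nat_lit 5) (nat_lit 326) (nat_lit 241) (nat_lit 213)))))) (XT.nd (nat_lit 468) (nat_lit 380) (nat_lit 0) (XT.nd (nat_lit 234) (nat_lit 228) (nat_lit 0) (XT.nd (nat_lit 78) (nat_lit 152) (nat_lit 0) (XT.lf (nat_lit 0) (nat_lit 2344195714) (nat_lit 228) (nat_lit 944866286) (nat_lit 304) (nat_lit 10378153059) (nat_lit 31) (nat_lit 5) (nat_lit 34) (nat_lit 5) (nat_lit 35) (nat_lit 5) (nat_lit 327) (nat_lit 241) (nat_lit 212)) (XT.nd (nat_lit 78) (nat_lit 152) (nat_lit 0) (XT.lf (nat_lit 0) (nat_lit 6244418617)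 (nat_lit 304) (nat_lit 5682000170) (nat_lit 76) (nat_lit 2032753169) (nat_lit 31) (nat_lit 5) (nat_lit 35) (nat_lit 5) (nat_lit 32) (nat_lit 4) (nat_lit 328) (nat_lit 241) (nat_lit 211)) (XT.lf (nat_lit 0) (nat_lit 40595197) (nat_lit 152) (nat_lit 9207385696) (nat_lit 228) (nat_lit 5013187690) (nat_lit 29) (nat_lit 5) (nat_lit 31) (nat_lit 5) (nat_lit 32) (nat_lit 4) (nat_lit 329) (nat_lit 241) (nat_lit 210)))) (XT.nd (nat_lit 78) (nat_lit 228) (nat_lit 0) (XT.lf (nat_lit 0) (nat_lit 5973027837) (nat_lit 152) (nat_lit 6376508210) (nat_lit 228) (nat_lit 2222517890) (nat_lit 29) (nat_lit 5) (nat_lit 31) (nat_lit 5) (nat_lit 32) (nat_lit 4) (nat_lit 330) (nat_lit 241) (nat_lit 209)) (XT.nd (nat_lit 78) (nat_lit 152) (nat_lit 0) (XT.lf (nat_lit 0) (nat_lit 590564066) (nat_lit 228) (nat_lit 2892162204) (nat_lit 76) (nat_lit 11410870878) (nat_lit 28) (nat_lit 5) (nat_lit 31) (nat_lit 5) (nat_lit 29)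 (nat_lit 5) (nat_lit 331) (nat_lit 241) (nat_lit 208)) (XT.lf (nat_lit 0) (nat_lit 2946581863) (nat_lit 152) (nat_lit 477938161) (nat_lit 228) (nat_lit 11800231777) (nat_lit 26) (nat_lit 5) (nat_lit 28) (nat_lit 5) (nat_lit 29) (nat_lit 5) (nat_lit 332) (nat_lit 241) (nat_lit 207))))) (XT.nd (nat_lit 234) (nat_lit 228) (nat_lit 0) (XT.nd (nat_lit 78) (nat_lit 152) (nat_lit 0) (XT.lf (nat_lit 0) (nat_lit 6351369468) (nat_lit 228) (nat_lit 6645909389) (nat_lit 76) (nat_lit 2568384107) (nat_lit 26) (nat_lit 5) (nat_lit 29) (nat_lit 5) (nat_lit 27) (nat_lit 4) (nat_lit 333) (nat_lit 241) (nat_lit 206)) (XT.nd (nat_lit 78) (nat_lit 152) (nat_lit 0) (XT.lf (nat_lit 0) (nat_lit 9325343190) (nat_lit 228) (nat_lit 922494530) (nat_lit 76) (nat_lit 5670240600) (nat_lit 26) (nat_lit 5) (nat_lit 29) (nat_lit 5) (nat_lit 27) (nat_lit 4) (nat_lit 334) (nat_lit 241) (nat_lit 205)) (XT.lf (nat_lit 0) (nat_lit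 4999222756) (nat_lit 152) (nat_lit 7393278405) (nat_lit 228) (nat_lit 3888500804) (nat_lit 24) (nat_lit 5) (nat_lit 26) (nat_lit 5) (nat_lit 27) (nat_lit 4) (nat_lit 335) (nat_lit 241) (nat_lit 204)))) (XT.nd (nat_lit 78) (nat_lit 228) (nat_lit 0) (XT.lf (nat_lit 0) (nat_lit 11047244551) (nat_lit 152) (nat_lit 4470262992) (nat_lit 228) (nat_lit 1138383950) (nat_lit 24) (nat_lit 5) (nat_lit 26) (nat_lit 5) (nat_lit 27) (nat_lit 4) (nat_lit 336) (nat_lit 241) (nat_lit 203)) (XT.nd (nat_lit 78) (nat_lit 0) (nat_lit 0) (XT.lf (nat_lit 0) (nat_lit 152253735) (nat_lit 152) (nat_lit 1467701719) (nat_lit 228) (nat_lit 15422870411) (nat_lit 21) (nat_lit 5) (nat_lit 23) (nat_lit 5) (nat_lit 24) (nat_lit 5) (nat_lit 337) (nat_lit 241) (nat_lit 202)) (XT.lf (nat_lit 0) (nat_lit 4468630025) (nat_lit 228) (nat_lit 11335659213) (nat_lit 76) (nat_lit 1635875605) (nat_lit 21) (nat_lit 5) (nat_lit 24) (nat_lit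 5) (nat_lit 22) (nat_lit 4) (nat_lit 338) (nat_lit 241) (nat_lit 201))))))))
noncomputable def xc61 : XT := (XT.nd (nat_lit 1716) (nat_lit 380) (nat_lit 0) (XT.nd (nat_lit 858) (nat_lit 456) (nat_lit 0) (XT.nd (nat_lit 390) (nat_lit 228) (nat_lit 0) (XT.nd (nat_lit 156) (nat_lit 76) (nat_lit 0) (XT.nd (nat_lit 78) (nat_lit 76) (nat_lit 0) (XT.lf (nat_lit 0) (nat_lit 7376178475) (nat_lit 228) (nat_lit 5696098050) (nat_lit 76) (nat_lit 4777992308) (nat_lit 21) (nat_lit 5) (nat_lit 24) (nat_lit 5) (nat_lit 22) (nat_lit 4) (nat_lit 339) (nat_lit 241) (nat_lit 200)) (XT.lf (nat_lit 0) (nat_lit 48085905) (nat_lit 76) (nat_lit 10283409259) (nat_lit 152) (nat_lit 7942410404) (nat_lit 20) (nat_lit 5) (nat_lit 21) (nat_lit 5) (nat_lit 22) (nat_lit 4) (nat_lit 340) (nat_lit 241) (nat_lit 199))) (XT.nd (nat_lit 78) (nat_lit 76) (nat_lit 0) (XT.lf (nat_lit 0) (nat_lit 6016499614) (nat_lit 76) (nat_lit 7377109971)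 (nat_lit 152) (nat_lit 5316142212) (nat_lit 20) (nat_lit 5) (nat_lit 21) (nat_lit 5) (nat_lit 22) (nat_lit 4) (nat_lit 341) (nat_lit 241) (nat_lit 198)) (XT.nd (nat_lit 78) (nat_lit 76) (nat_lit 0) (XT.lf (nat_lit 0) (nat_lit 12100994675) (nat_lit 76) (nat_lit 4408358599) (nat_lit 152) (nat_lit 2650510407) (nat_lit 20) (nat_lit 5) (nat_lit 21) (nat_lit 5) (nat_lit 22) (nat_lit 4) (nat_lit 342) (nat_lit 241) (nat_lit 197)) (XT.lf (nat_lit 0) (nat_lit 55705553) (nat_lit 152) (nat_lit 1318293016) (nat_lit 76) (nat_lit 18250619566) (nat_lit 19) (nat_lit 5) (nat_lit 21) (nat_lit 5) (nat_lit 20) (nat_lit 5) (nat_lit 343) (nat_lit 241) (nat_lit 196))))) (XT.nd (nat_lit 234) (nat_lit 76) (nat_lit 0) (XT.nd (nat_lit 78) (nat_lit 0) (nat_lit 0) (XT.lf (nat_lit 0) (nat_lit 2814901825) (nat_lit 228) (nat_lit 15521782544) (nat_lit 76) (nat_lit 1765131156) (nat_lit 17) (nat_lit 5) (nat_lit 20) (nat_lit 5)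 (nat_lit 18) (nat_lit 4) (nat_lit 344) (nat_lit 241) (nat_lit 195)) (XT.nd (nat_lit 78) (nat_lit 0) (nat_lit 0) (XT.lf (nat_lit 0) (nat_lit 5647748037) (nat_lit 228) (nat_lit 9984754441) (nat_lit 76) (nat_lit 4961138557) (nat_lit 17) (nat_lit 5) (nat_lit 20) (nat_lit 5) (nat_lit 18) (nat_lit 4) (nat_lit 345) (nat_lit 241) (nat_lit 194)) (XT.lf (nat_lit 0) (nat_lit 8530459371) (nat_lit 228) (nat_lit 4340277332) (nat_lit 76) (nat_lit 8230575517) (nat_lit 17) (nat_lit 5) (nat_lit 20) (nat_lit 5) (nat_lit 18) (nat_lit 4) (nat_lit 346) (nat_lit 241) (nat_lit 193)))) (XT.nd (nat_lit 78) (nat_lit 0) (nat_lit 0) (XT.lf (nat_lit 0) (nat_lit 1444773583) (nat_lit 76) (nat_lit 10034669164) (nat_lit 152) (nat_lit 10145413287) (nat_lit 16) (nat_lit 5) (nat_lit 17) (nat_lit 5) (nat_lit 18) (nat_lit 4) (nat_lit 347) (nat_lit 241) (nat_lit 192)) (XT.nd (nat_lit 78) (nat_lit 0) (nat_lit 0) (XT.lf (nat_lit 0)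 (nat_lit 7435952581) (nat_lit 76) (nat_lit 7091125016) (nat_lit 152) (nat_lit 7636758268) (nat_lit 16) (nat_lit 5) (nat_lit 17) (nat_lit 5) (nat_lit 18) (nat_lit 4) (nat_lit 348) (nat_lit 241) (nat_lit 191)) (XT.lf (nat_lit 0) (nat_lit 13552114642) (nat_lit 76) (nat_lit 4081360521) (nat_lit 152) (nat_lit 5086524054) (nat_lit 16) (nat_lit 5) (nat_lit 17) (nat_lit 5) (nat_lit 18) (nat_lit 4) (nat_lit 349) (nat_lit 241) (nat_lit 190)))))) (XT.nd (nat_lit 390) (nat_lit 228) (nat_lit 0) (XT.nd (nat_lit 156) (nat_lit 0) (nat_lit 0) (XT.nd (nat_lit 78) (nat_lit 228) (nat_lit 0) (XT.lf (nat_lit 0) (nat_lit 19798603984) (nat_lit 76) (nat_lit 1002745787) (nat_lit 152) (nat_lit 2492482286) (nat_lit 16) (nat_lit 5) (nat_lit 17) (nat_lit 5) (nat_lit 18) (nat_lit 4) (nat_lit 350) (nat_lit 241) (nat_lit 189)) (XT.lf (nat_lit 0) (nat_lit 188118218) (nat_lit 228) (nat_lit 21566726150) (nat_lit 76) (nat_lit 2129647889)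 (nat_lit 13) (nat_lit 5) (nat_lit 16) (nat_lit 5) (nat_lit 14) (nat_lit 4) (nat_lit 351) (nat_lit 241) (nat_lit 188))) (XT.nd (nat_lit 78) (nat_lit 0) (nat_lit 0) (XT.lf (nat_lit 0) (nat_lit 2913692384) (nat_lit 228) (nat_lit 16202467645) (nat_lit 76) (nat_lit 5375562662) (nat_lit 13) (nat_lit 5) (nat_lit 16) (nat_lit 5) (nat_lit 14) (nat_lit 4) (nat_lit 352) (nat_lit 241) (nat_lit 187)) (XT.nd (nat_lit 78) (nat_lit 0) (nat_lit 0) (XT.lf (nat_lit 0) (nat_lit 5691013862) (nat_lit 228) (nat_lit 10728249755) (nat_lit 76) (nat_lit 8698836464) (nat_lit 13) (nat_lit 5) (nat_lit 16) (nat_lit 5) (nat_lit 14) (nat_lit 4) (nat_lit 353) (nat_lit 241) (nat_lit 186)) (XT.lf (nat_lit 0) (nat_lit 8522509438) (nat_lit 228) (nat_lit 5139289182) (nat_lit 76) (nat_lit 12102373127) (nat_lit 13) (nat_lit 5) (nat_lit 16) (nat_lit 5) (nat_lit 14) (nat_lit 4) (nat_lit 354) (nat_lit 241) (nat_lit 185))))) (XT.nd (nat_lit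 234) (nat_lit 152) (nat_lit 0) (XT.nd (nat_lit 78) (nat_lit 0) (nat_lit 0) (XT.lf (nat_lit 0) (nat_lit 580627771) (nat_lit 76) (nat_lit 10835606813) (nat_lit 152) (nat_lit 15014100195) (nat_lit 12) (nat_lit 5) (nat_lit 13) (nat_lit 5) (nat_lit 14) (nat_lit 4) (nat_lit 355) (nat_lit 241) (nat_lit 184)) (XT.nd (nat_lit 78) (nat_lit 0) (nat_lit 0) (XT.lf (nat_lit 0) (nat_lit 6529921051) (nat_lit 76) (nat_lit 7890817417) (nat_lit 152) (nat_lit 12695052170) (nat_lit 12) (nat_lit 5) (nat_lit 13) (nat_lit 5) (nat_lit 14) (nat_lit 4) (nat_lit 356) (nat_lit 241) (nat_lit 183)) (XT.lf (nat_lit 0) (nat_lit 12611507140) (nat_lit 76) (nat_lit 4876754059) (nat_lit 152) (nat_lit 10334388627) (nat_lit 12) (nat_lit 5) (nat_lit 13) (nat_lit 5) (nat_lit 14) (nat_lit 4) (nat_lit 357) (nat_lit 241) (nat_lit 182)))) (XT.nd (nat_lit 78) (nat_lit 152) (nat_lit 0) (XT.lf (nat_lit 0) (nat_lit 18830700043) (nat_lit 76)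 (nat_lit 1790783091) (nat_lit 152) (nat_lit 7930046850) (nat_lit 12) (nat_lit 5) (nat_lit 13) (nat_lit 5) (nat_lit 14) (nat_lit 4) (nat_lit 358) (nat_lit 241) (nat_lit 181)) (XT.nd (nat_lit 78) (nat_lit 152) (nat_lit 0) (XT.lf (nat_lit 0) (nat_lit 23836309319) (nat_lit 152) (nat_lit 4123301270) (nat_lit 0) (nat_lit 1343062390) (nat_lit 12) (nat_lit 5) (nat_lit 14) (nat_lit 4) (nat_lit 12) (nat_lit 4) (nat_lit 359) (nat_lit 241) (nat_lit 180)) (XT.lf (nat_lit 0) (nat_lit 1613031419) (nat_lit 152) (nat_lit 25542801857) (nat_lit 152) (nat_lit 2920293342) (nat_lit 10) (nat_lit 4) (nat_lit 12) (nat_lit 5) (nat_lit 12) (nat_lit 4) (nat_lit 360) (nat_lit 241) (nat_lit 179))))))) (XT.nd (nat_lit 858) (nat_lit 228) (nat_lit 0) (XT.nd (nat_lit 390) (nat_lit 76) (nat_lit 0) (XT.nd (nat_lit 156) (nat_lit 0) (nat_lit 0) (XT.nd (nat_lit 78) (nat_lit 76) (nat_lit 0) (XT.lf (nat_lit 0) (nat_lit 7563530621)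 (nat_lit 152) (nat_lit 23028386236) (nat_lit 152) (nat_lit 280381035) (nat_lit 10) (nat_lit 4) (nat_lit 12) (nat_lit 5) (nat_lit 12) (nat_lit 4) (nat_lit 361) (nat_lit 241) (nat_lit 178)) (XT.lf (nat_lit 0) (nat_lit 2366936051) (nat_lit 228) (nat_lit 18064966459) (nat_lit 76) (nat_lit 11260496558) (nat_lit 9) (nat_lit 5) (nat_lit 12) (nat_lit 5) (nat_lit 10) (nat_lit 4) (nat_lit 362) (nat_lit 241) (nat_lit 177))) (XT.nd (nat_lit 78) (nat_lit 0) (nat_lit 0) (XT.lf (nat_lit 0) (nat_lit 5064538037) (nat_lit 228) (nat_lit 12707127088) (nat_lit 76) (nat_lit 14766081120) (nat_lit 9) (nat_lit 5) (nat_lit 12) (nat_lit 5) (nat_lit 10) (nat_lit 4) (nat_lit 363) (nat_lit 241) (nat_lit 176)) (XT.nd (nat_lit 78) (nat_lit 0) (nat_lit 0) (XT.lf (nat_lit 0) (nat_lit 7820253295) (nat_lit 228) (nat_lit 7227872359) (nat_lit 76) (nat_lit 18361033280) (nat_lit 9) (nat_lit 5) (nat_lit 12) (nat_lit 5) (nat_lit 10)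 (nat_lit 4) (nat_lit 364) (nat_lit 241) (nat_lit 175)) (XT.lf (nat_lit 0) (nat_lit 10636489732) (nat_lit 228) (nat_lit 1622414573) (nat_lit 76) (nat_lit 22048494260) (nat_lit 9) (nat_lit 5) (nat_lit 12) (nat_lit 5) (nat_lit 10) (nat_lit 4) (nat_lit 365) (nat_lit 241) (nat_lit 174))))) (XT.nd (nat_lit 234) (nat_lit 0) (nat_lit 0) (XT.nd (nat_lit 78) (nat_lit 0) (nat_lit 0) (XT.lf (nat_lit 0) (nat_lit 4196023778) (nat_lit 76) (nat_lit 9360019103) (nat_lit 152) (nat_lit 21675997082) (nat_lit 8) (nat_lit 5) (nat_lit 9) (nat_lit 5) (nat_lit 10) (nat_lit 4) (nat_lit 366) (nat_lit 241) (nat_lit 173)) (XT.nd (nat_lit 78) (nat_lit 0) (nat_lit 0) (XT.lf (nat_lit 0) (nat_lit 10185573846) (nat_lit 76) (nat_lit 6372760448) (nat_lit 152) (nat_lit 19626250661) (nat_lit 8) (nat_lit 5) (nat_lit 9) (nat_lit 5) (nat_lit 10) (nat_lit 4) (nat_lit 367) (nat_lit 241) (nat_lit 172)) (XT.lf (nat_lit 0) (nat_lit 16319179984)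 (nat_lit 76) (nat_lit 3310901319) (nat_lit 152) (nat_lit 17536261737) (nat_lit 8) (nat_lit 5) (nat_lit 9) (nat_lit 5) (nat_lit 10) (nat_lit 4) (nat_lit 368) (nat_lit 241) (nat_lit 171)))) (XT.nd (nat_lit 78) (nat_lit 0) (nat_lit 0) (XT.lf (nat_lit 0) (nat_lit 22602201654) (nat_lit 76) (nat_lit 171766305) (nat_lit 152) (nat_lit 15404204106) (nat_lit 8) (nat_lit 5) (nat_lit 9) (nat_lit 5) (nat_lit 10) (nat_lit 4) (nat_lit 369) (nat_lit 241) (nat_lit 170)) (XT.nd (nat_lit 78) (nat_lit 0) (nat_lit 0) (XT.lf (nat_lit 0) (nat_lit 26022034702) (nat_lit 152) (nat_lit 10210120631) (nat_lit 0) (nat_lit 2987922019) (nat_lit 8) (nat_lit 5) (nat_lit 10) (nat_lit 4) (nat_lit 8) (nat_lit 4) (nat_lit 370) (nat_lit 241) (nat_lit 169)) (XT.lf (nat_lit 0) (nat_lit 29350248050) (nat_lit 152) (nat_lit 4718053513) (nat_lit 0) (nat_lit 6225473892) (nat_lit 8) (nat_lit 5) (nat_lit 10) (nat_lit 4) (nat_lit 8) (nat_lit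 4) (nat_lit 371) (nat_lit 241) (nat_lit 168)))))) (XT.nd (nat_lit 468) (nat_lit 76) (nat_lit 0) (XT.nd (nat_lit 234) (nat_lit 76) (nat_lit 0) (XT.nd (nat_lit 78) (nat_lit 0) (nat_lit 0) (XT.lf (nat_lit 0) (nat_lit 924725690) (nat_lit 76) (nat_lit 31844028367) (nat_lit 76) (nat_lit 8631233359) (nat_lit 7) (nat_lit 4) (nat_lit 8) (nat_lit 5) (nat_lit 8) (nat_lit 4) (nat_lit 372) (nat_lit 241) (nat_lit 167)) (XT.nd (nat_lit 78) (nat_lit 0) (nat_lit 0) (XT.lf (nat_lit 0) (nat_lit 6801723736) (nat_lit 76) (nat_lit 29517523507) (nat_lit 76) (nat_lit 6219271362) (nat_lit 7) (nat_lit 4) (nat_lit 8) (nat_lit 5) (nat_lit 8) (nat_lit 4) (nat_lit 373) (nat_lit 241) (nat_lit 166)) (XT.lf (nat_lit 0) (nat_lit 12824177351) (nat_lit 76) (nat_lit 27134397202) (nat_lit 76) (nat_lit 3753176964) (nat_lit 7) (nat_lit 4) (nat_lit 8) (nat_lit 5) (nat_lit 8) (nat_lit 4) (nat_lit 374) (nat_lit 241) (nat_lit 165))))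 (XT.nd (nat_lit 78) (nat_lit 76) (nat_lit 0) (XT.lf (nat_lit 0) (nat_lit 18997348872) (nat_lit 76) (nat_lit 24692567110) (nat_lit 76) (nat_lit 1230795325) (nat_lit 7) (nat_lit 4) (nat_lit 8) (nat_lit 5) (nat_lit 8) (nat_lit 4) (nat_lit 375) (nat_lit 241) (nat_lit 164)) (XT.nd (nat_lit 78) (nat_lit 0) (nat_lit 0) (XT.lf (nat_lit 0) (nat_lit 1323732700) (nat_lit 152) (nat_lit 20852799789) (nat_lit 76) (nat_lit 23989532528) (nat_lit 6) (nat_lit 5) (nat_lit 8) (nat_lit 5) (nat_lit 7) (nat_lit 4) (nat_lit 376) (nat_lit 241) (nat_lit 163)) (XT.lf (nat_lit 0) (nat_lit 3913804490) (nat_lit 152) (nat_lit 15670881614) (nat_lit 76) (nat_lit 27864231934) (nat_lit 6) (nat_lit 5) (nat_lit 8) (nat_lit 5) (nat_lit 7) (nat_lit 4) (nat_lit 377) (nat_lit 241) (nat_lit 162))))) (XT.nd (nat_lit 234) (nat_lit 0) (nat_lit 0) (XT.nd (nat_lit 78) (nat_lit 76) (nat_lit 0) (XT.lf (nat_lit 0) (nat_lit 6565700463) (nat_lit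 152) (nat_lit 10361248864) (nat_lit 76) (nat_lit 31843796918) (nat_lit 6) (nat_lit 5) (nat_lit 8) (nat_lit 5) (nat_lit 7) (nat_lit 4) (nat_lit 378) (nat_lit 241) (nat_lit 161)) (XT.nd (nat_lit 78) (nat_lit 76) (nat_lit 0) (XT.lf (nat_lit 0) (nat_lit 9281737811) (nat_lit 152) (nat_lit 4919262054) (nat_lit 76) (nat_lit 35931704768) (nat_lit 6) (nat_lit 5) (nat_lit 8) (nat_lit 5) (nat_lit 7) (nat_lit 4) (nat_lit 379) (nat_lit 241) (nat_lit 160)) (XT.lf (nat_lit 0) (nat_lit 672965939) (nat_lit 76) (nat_lit 11397792791) (nat_lit 152) (nat_lit 39465030466) (nat_lit 5) (nat_lit 5) (nat_lit 6) (nat_lit 5) (nat_lit 7) (nat_lit 4) (nat_lit 380) (nat_lit 241) (nat_lit 159)))) (XT.nd (nat_lit 78) (nat_lit 0) (nat_lit 0) (XT.lf (nat_lit 0) (nat_lit 6507906788) (nat_lit 76) (nat_lit 8470438888) (nat_lit 152) (nat_lit 38001585888) (nat_lit 5) (nat_lit 5) (nat_lit 6) (nat_lit 5) (nat_lit 7) (nat_lit 4) (nat_lit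 381) (nat_lit 241) (nat_lit 158)) (XT.nd (nat_lit 78) (nat_lit 0) (nat_lit 0) (XT.lf (nat_lit 0) (nat_lit 12492756024) (nat_lit 76) (nat_lit 5466055177) (nat_lit 152) (nat_lit 36509029252) (nat_lit 5) (nat_lit 5) (nat_lit 6) (nat_lit 5) (nat_lit 7) (nat_lit 4) (nat_lit 382) (nat_lit 241) (nat_lit 157)) (XT.lf (nat_lit 0) (nat_lit 18632743127) (nat_lit 76) (nat_lit 2382016467) (nat_lit 152) (nat_lit 34986056383) (nat_lit 5) (nat_lit 5) (nat_lit 6) (nat_lit 5) (nat_lit 7) (nat_lit 4) (nat_lit 383) (nat_lit 241) (nat_lit 156))))))))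
noncomputable def xc62 : XT := (XT.nd (nat_lit 34164) (nat_lit 0) (nat_lit 2584) (XT.nd (nat_lit 858) (nat_lit 76) (nat_lit 0) (XT.nd (nat_lit 390) (nat_lit 76) (nat_lit 0) (XT.nd (nat_lit 156) (nat_lit 0) (nat_lit 0) (XT.nd (nat_lit 78) (nat_lit 0) (nat_lit 0) (XT.lf (nat_lit 0) (nat_lit 24156400966) (nat_lit 152) (nat_lit 32654504358) (nat_lit 0) (nat_lit 769066108) (nat_lit 5) (nat_lit 5) (nat_lit 7) (nat_lit 4) (nat_lit 5) (nat_lit 4) (nat_lit 384) (nat_lit 241) (nat_lit 155)) (XT.lf (nat_lit 0) (nat_lit 27402649579) (nat_lit 152) (nat_lit 27846429441) (nat_lit 0) (nat_lit 3957122570) (nat_lit 5) (nat_lit 5) (nat_lit 7) (nat_lit 4) (nat_lit 5) (nat_lit 4) (nat_lit 385) (nat_lit 241) (nat_lit 154))) (XT.nd (nat_lit 78) (nat_lit 0) (nat_lit 0) (XT.lf (nat_lit 0) (nat_lit 30733444562) (nat_lit 152) (nat_lit 22916749469) (nat_lit 0) (nat_lit 7231420319) (nat_lit 5) (nat_lit 5) (nat_lit 7) (nat_lit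 4) (nat_lit 5) (nat_lit 4) (nat_lit 386) (nat_lit 241) (nat_lit 153)) (XT.nd (nat_lit 78) (nat_lit 0) (nat_lit 0) (XT.lf (nat_lit 0) (nat_lit 34151696319) (nat_lit 152) (nat_lit 17861156955) (nat_lit 0) (nat_lit 10594820391) (nat_lit 5) (nat_lit 5) (nat_lit 7) (nat_lit 4) (nat_lit 5) (nat_lit 4) (nat_lit 387) (nat_lit 241) (nat_lit 152)) (XT.lf (nat_lit 0) (nat_lit 37660391671) (nat_lit 152) (nat_lit 12675234390) (nat_lit 0) (nat_lit 14050261681) (nat_lit 5) (nat_lit 5) (nat_lit 7) (nat_lit 4) (nat_lit 5) (nat_lit 4) (nat_lit 388) (nat_lit 241) (nat_lit 151))))) (XT.nd (nat_lit 234) (nat_lit 0) (nat_lit 0) (XT.nd (nat_lit 78) (nat_lit 76) (nat_lit 0) (XT.lf (nat_lit 0) (nat_lit 41262596468) (nat_lit 152) (nat_lit 7354450386) (nat_lit 0) (nat_lit 17600763506) (nat_lit 5) (nat_lit 5) (nat_lit 7) (nat_lit 4) (nat_lit 5) (nat_lit 4) (nat_lit 389) (nat_lit 241) (nat_lit 150)) (XT.nd (nat_lit 78)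 (nat_lit 76) (nat_lit 0) (XT.lf (nat_lit 0) (nat_lit 44961458269) (nat_lit 152) (nat_lit 1894155715) (nat_lit 0) (nat_lit 21249428246) (nat_lit 5) (nat_lit 5) (nat_lit 7) (nat_lit 4) (nat_lit 5) (nat_lit 4) (nat_lit 390) (nat_lit 241) (nat_lit 149)) (XT.lf (nat_lit 0) (nat_lit 3784265403) (nat_lit 76) (nat_lit 45012320359) (nat_lit 76) (nat_lit 21251555325) (nat_lit 4) (nat_lit 4) (nat_lit 5) (nat_lit 5) (nat_lit 5) (nat_lit 4) (nat_lit 391) (nat_lit 241) (nat_lit 148)))) (XT.nd (nat_lit 78) (nat_lit 0) (nat_lit 0) (XT.lf (nat_lit 0) (nat_lit 9652531891) (nat_lit 76) (nat_lit 43102422373) (nat_lit 76) (nat_lit 19294341795) (nat_lit 4) (nat_lit 4) (nat_lit 5) (nat_lit 5) (nat_lit 5) (nat_lit 4) (nat_lit 392) (nat_lit 241) (nat_lit 147)) (XT.nd (nat_lit 78) (nat_lit 0) (nat_lit 0) (XT.lf (nat_lit 0) (nat_lit 15678073946) (nat_lit 76) (nat_lit 41143378442) (nat_lit 76) (nat_lit 17289360442) (nat_lit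 4) (nat_lit 4) (nat_lit 5) (nat_lit 5) (nat_lit 5) (nat_lit 4) (nat_lit 393) (nat_lit 241) (nat_lit 146)) (XT.lf (nat_lit 0) (nat_lit 21866156607) (nat_lit 76) (nat_lit 39133476780) (nat_lit 76) (nat_lit 15234859342) (nat_lit 4) (nat_lit 4) (nat_lit 5) (nat_lit 5) (nat_lit 5) (nat_lit 4) (nat_lit 394) (nat_lit 241) (nat_lit 145)))))) (XT.nd (nat_lit 468) (nat_lit 76) (nat_lit 0) (XT.nd (nat_lit 156) (nat_lit 0) (nat_lit 0) (XT.nd (nat_lit 78) (nat_lit 0) (nat_lit 0) (XT.lf (nat_lit 0) (nat_lit 28222186934) (nat_lit 76) (nat_lit 37070961163) (nat_lit 76) (nat_lit 13129043299) (nat_lit 4) (nat_lit 4) (nat_lit 5) (nat_lit 5) (nat_lit 5) (nat_lit 4) (nat_lit 395) (nat_lit 241) (nat_lit 144)) (XT.lf (nat_lit 0) (nat_lit 34751718741) (nat_lit 76) (nat_lit 34954029392) (nat_lit 76) (nat_lit 10970072280) (nat_lit 4) (nat_lit 4) (nat_lit 5) (nat_lit 5) (nat_lit 5) (nat_lit 4) (nat_lit 396) (nat_lit 241)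 (nat_lit 143))) (XT.nd (nat_lit 78) (nat_lit 0) (nat_lit 0) (XT.lf (nat_lit 0) (nat_lit 41460457445) (nat_lit 76) (nat_lit 32780831722) (nat_lit 76) (nat_lit 8756059805) (nat_lit 4) (nat_lit 4) (nat_lit 5) (nat_lit 5) (nat_lit 5) (nat_lit 4) (nat_lit 397) (nat_lit 241) (nat_lit 142)) (XT.nd (nat_lit 78) (nat_lit 0) (nat_lit 0) (XT.lf (nat_lit 0) (nat_lit 48354265050) (nat_lit 76) (nat_lit 30549469241) (nat_lit 76) (nat_lit 6485071301) (nat_lit 4) (nat_lit 4) (nat_lit 5) (nat_lit 5) (nat_lit 5) (nat_lit 4) (nat_lit 398) (nat_lit 241) (nat_lit 141)) (XT.lf (nat_lit 0) (nat_lit 55439165271) (nat_lit 76) (nat_lit 28257992215) (nat_lit 76) (nat_lit 4155122408) (nat_lit 4) (nat_lit 4) (nat_lit 5) (nat_lit 5) (nat_lit 5) (nat_lit 4) (nat_lit 399) (nat_lit 241) (nat_lit 140))))) (XT.nd (nat_lit 32604) (nat_lit 0) (nat_lit 6916) (XT.nd (nat_lit 32448) (nat_lit 0) (nat_lit 7828) (XT.lf (nat_lit 0) (nat_lit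 676391828) (nat_lit 152) (nat_lit 22803409147) (nat_lit 76) (nat_lit 69523956642) (nat_lit 3) (nat_lit 5) (nat_lit 5) (nat_lit 5) (nat_lit 4) (nat_lit 4) (nat_lit 401) (nat_lit 241) (nat_lit 138)) (XT.nd (nat_lit 78) (nat_lit 0) (nat_lit 0) (XT.lf (nat_lit 0) (nat_lit 527840012) (nat_lit 532) (nat_lit 2984022755) (nat_lit 0) (nat_lit 527840012) (nat_lit 106) (nat_lit 5) (nat_lit 113) (nat_lit 4) (nat_lit 106) (nat_lit 4) (nat_lit 296) (nat_lit 242) (nat_lit 242)) (XT.lf (nat_lit 0) (nat_lit 4237758837) (nat_lit 532) (nat_lit 890535492) (nat_lit 0) (nat_lit 3051276347) (nat_lit 106) (nat_lit 5) (nat_lit 113) (nat_lit 4) (nat_lit 106) (nat_lit 4) (nat_lit 297) (nat_lit 242) (nat_lit 241)))) (XT.nd (nat_lit 78) (nat_lit 456) (nat_lit 0) (XT.lf (nat_lit 0) (nat_lit 4322070366) (nat_lit 456) (nat_lit 3150289593) (nat_lit 456) (nat_lit 811882355) (nat_lit 100) (nat_lit 4) (nat_lit 106) (nat_lit 5)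 (nat_lit 106) (nat_lit 4) (nat_lit 298) (nat_lit 242) (nat_lit 240)) (XT.nd (nat_lit 78) (nat_lit 0) (nat_lit 0) (XT.lf (nat_lit 0) (nat_lit 1215524235) (nat_lit 380) (nat_lit 1086103850) (nat_lit 456) (nat_lit 6091829117) (nat_lit 94) (nat_lit 5) (nat_lit 99) (nat_lit 5) (nat_lit 100) (nat_lit 4) (nat_lit 299) (nat_lit 242) (nat_lit 239)) (XT.lf (nat_lit 0) (nat_lit 5459902391) (nat_lit 456) (nat_lit 1997339733) (nat_lit 0) (nat_lit 1049630222) (nat_lit 94) (nat_lit 5) (nat_lit 100) (nat_lit 4) (nat_lit 94) (nat_lit 4) (nat_lit 300) (nat_lit 242) (nat_lit 238))))))) (XT.nd (nat_lit 858) (nat_lit 1672) (nat_lit 0) (XT.nd (nat_lit 390) (nat_lit 1368) (nat_lit 0) (XT.nd (nat_lit 156) (nat_lit 836) (nat_lit 0) (XT.nd (nat_lit 78) (nat_lit 0) (nat_lit 0) (XT.lf (nat_lit 0) (nat_lit 49005797) (nat_lit 456) (nat_lit 5334260618) (nat_lit 76) (nat_lit 3241736485) (nat_lit 88) (nat_lit 5) (nat_lit 94)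 (nat_lit 5) (nat_lit 89) (nat_lit 4) (nat_lit 301) (nat_lit 242) (nat_lit 237)) (XT.lf (nat_lit 0) (nat_lit 3117088128) (nat_lit 456) (nat_lit 99713893) (nat_lit 76) (nat_lit 5530934949) (nat_lit 88) (nat_lit 5) (nat_lit 94) (nat_lit 5) (nat_lit 89) (nat_lit 4) (nat_lit 302) (nat_lit 242) (nat_lit 236))) (XT.nd (nat_lit 78) (nat_lit 456) (nat_lit 0) (XT.lf (nat_lit 0) (nat_lit 5296500562) (nat_lit 380) (nat_lit 954052243) (nat_lit 456) (nat_lit 2624573545) (nat_lit 83) (nat_lit 5) (nat_lit 88) (nat_lit 5) (nat_lit 89) (nat_lit 4) (nat_lit 303) (nat_lit 242) (nat_lit 235)) (XT.nd (nat_lit 78) (nat_lit 0) (nat_lit 0) (XT.lf (nat_lit 0) (nat_lit 416686737) (nat_lit 456) (nat_lit 7240283077) (nat_lit 76) (nat_lit 1350768894) (nat_lit 77) (nat_lit 5) (nat_lit 83) (nat_lit 5) (nat_lit 78) (nat_lit 4) (nat_lit 304) (nat_lit 242) (nat_lit 234)) (XT.lf (nat_lit 0) (nat_lit 3466284569) (nat_lit 456) (nat_lit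 1932453879) (nat_lit 76) (nat_lit 3745874643) (nat_lit 77) (nat_lit 5) (nat_lit 83) (nat_lit 5) (nat_lit 78) (nat_lit 4) (nat_lit 305) (nat_lit 242) (nat_lit 233))))) (XT.nd (nat_lit 234) (nat_lit 684) (nat_lit 0) (XT.nd (nat_lit 78) (nat_lit 380) (nat_lit 0) (XT.lf (nat_lit 0) (nat_lit 3505246451) (nat_lit 304) (nat_lit 3061944780) (nat_lit 380) (nat_lit 2719761989) (nat_lit 73) (nat_lit 5) (nat_lit 77) (nat_lit 5) (nat_lit 78) (nat_lit 4) (nat_lit 306) (nat_lit 242) (nat_lit 232)) (XT.nd (nat_lit 78) (nat_lit 304) (nat_lit 0) (XT.lf (nat_lit 0) (nat_lit 267358207) (nat_lit 380) (nat_lit 389042577) (nat_lit 76) (nat_lit 8778827942) (nat_lit 72) (nat_lit 5) (nat_lit 77) (nat_lit 5) (nat_lit 73) (nat_lit 5) (nat_lit 307) (nat_lit 242) (nat_lit 231)) (XT.lf (nat_lit 0) (nat_lit 3285521957) (nat_lit 380) (nat_lit 4462685123) (nat_lit 76) (nat_lit 1839195793) (nat_lit 68) (nat_lit 5) (nat_lit 73)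 (nat_lit 5) (nat_lit 69) (nat_lit 4) (nat_lit 308) (nat_lit 242) (nat_lit 230)))) (XT.nd (nat_lit 78) (nat_lit 380) (nat_lit 0) (XT.lf (nat_lit 0) (nat_lit 983883517) (nat_lit 304) (nat_lit 5359828884) (nat_lit 380) (nat_lit 3402082341) (nat_lit 64) (nat_lit 5) (nat_lit 68) (nat_lit 5) (nat_lit 69) (nat_lit 4) (nat_lit 309) (nat_lit 242) (nat_lit 229)) (XT.nd (nat_lit 78) (nat_lit 380) (nat_lit 0) (XT.lf (nat_lit 0) (nat_lit 6589657964) (nat_lit 304) (nat_lit 2879744639) (nat_lit 380) (nat_lit 440396107) (nat_lit 64) (nat_lit 5) (nat_lit 68) (nat_lit 5) (nat_lit 69) (nat_lit 4) (nat_lit 310) (nat_lit 242) (nat_lit 228)) (XT.lf (nat_lit 0) (nat_lit 2208523112) (nat_lit 304) (nat_lit 303829626) (nat_lit 380) (nat_lit 7567148322) (nat_lit 59) (nat_lit 5) (nat_lit 63) (nat_lit 5) (nat_lit 64) (nat_lit 5) (nat_lit 311) (nat_lit 242) (nat_lit 227)))))) (XT.nd (nat_lit 468) (nat_lit 836) (nat_lit 0)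 (XT.nd (nat_lit 234) (nat_lit 532) (nat_lit 0) (XT.nd (nat_lit 78) (nat_lit 304) (nat_lit 0) (XT.lf (nat_lit 0) (nat_lit 5534021161) (nat_lit 380) (nat_lit 2404776028) (nat_lit 76) (nat_lit 2315812500) (nat_lit 59) (nat_lit 5) (nat_lit 64) (nat_lit 5) (nat_lit 60) (nat_lit 4) (nat_lit 312) (nat_lit 242) (nat_lit 226)) (XT.nd (nat_lit 78) (nat_lit 76) (nat_lit 0) (XT.lf (nat_lit 0) (nat_lit 3192152326) (nat_lit 228) (nat_lit 5422585556) (nat_lit 304) (nat_lit 1821299886) (nat_lit 56) (nat_lit 5) (nat_lit 59) (nat_lit 5) (nat_lit 60) (nat_lit 4) (nat_lit 313) (nat_lit 242) (nat_lit 225)) (XT.lf (nat_lit 0) (nat_lit 1101735881) (nat_lit 304) (nat_lit 1720374871) (nat_lit 76) (nat_lit 7801788303) (nat_lit 55) (nat_lit 5) (nat_lit 59) (nat_lit 5) (nat_lit 56) (nat_lit 5) (nat_lit 314) (nat_lit 242) (nat_lit 224)))) (XT.nd (nat_lit 78) (nat_lit 228) (nat_lit 0) (XT.lf (nat_lit 0) (nat_lit 3937309372)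 (nat_lit 304) (nat_lit 113265942) (nat_lit 380) (nat_lit 6767146431) (nat_lit 51) (nat_lit 5) (nat_lit 55) (nat_lit 5) (nat_lit 56) (nat_lit 5) (nat_lit 315) (nat_lit 242) (nat_lit 223)) (XT.nd (nat_lit 78) (nat_lit 228) (nat_lit 0) (XT.lf (nat_lit 0) (nat_lit 7068743443) (nat_lit 380) (nat_lit 1333902829) (nat_lit 76) (nat_lit 2615391900) (nat_lit 51) (nat_lit 5) (nat_lit 56) (nat_lit 5) (nat_lit 52) (nat_lit 4) (nat_lit 316) (nat_lit 242) (nat_lit 222)) (XT.lf (nat_lit 0) (nat_lit 4374751044) (nat_lit 228) (nat_lit 5785285265) (nat_lit 304) (nat_lit 1064952297) (nat_lit 48) (nat_lit 5) (nat_lit 51) (nat_lit 5) (nat_lit 52) (nat_lit 4) (nat_lit 317) (nat_lit 242) (nat_lit 221))))) (XT.nd (nat_lit 234) (nat_lit 532) (nat_lit 0) (XT.nd (nat_lit 78) (nat_lit 228) (nat_lit 0) (XT.lf (nat_lit 0) (nat_lit 1821972398) (nat_lit 304) (nat_lit 1263115842) (nat_lit 76) (nat_lit 8354008441) (nat_lit 47)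 (nat_lit 5) (nat_lit 51) (nat_lit 5) (nat_lit 48) (nat_lit 5) (nat_lit 318) (nat_lit 242) (nat_lit 220)) (XT.nd (nat_lit 78) (nat_lit 0) (nat_lit 0) (XT.lf (nat_lit 0) (nat_lit 4482203082) (nat_lit 228) (nat_lit 276381189) (nat_lit 304) (nat_lit 6901286144) (nat_lit 44) (nat_lit 5) (nat_lit 47) (nat_lit 5) (nat_lit 48) (nat_lit 5) (nat_lit 319) (nat_lit 242) (nat_lit 219)) (XT.lf (nat_lit 0) (nat_lit 7763344357) (nat_lit 304) (nat_lit 1573433949) (nat_lit 76) (nat_lit 2551178100) (nat_lit 44) (nat_lit 5) (nat_lit 48) (nat_lit 5) (nat_lit 45) (nat_lit 4) (nat_lit 320) (nat_lit 242) (nat_lit 218)))) (XT.nd (nat_lit 78) (nat_lit 304) (nat_lit 0) (XT.lf (nat_lit 0) (nat_lit 4193510851) (nat_lit 228) (nat_lit 6651488618) (nat_lit 304) (nat_lit 1278370846) (nat_lit 41) (nat_lit 5) (nat_lit 44) (nat_lit 5) (nat_lit 45) (nat_lit 4) (nat_lit 321) (nat_lit 242) (nat_lit 217)) (XT.nd (nat_lit 78) (nat_lit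 228) (nat_lit 0) (XT.lf (nat_lit 0) (nat_lit 1580950155) (nat_lit 304) (nat_lit 2300581887) (nat_lit 76) (nat_lit 8485122086) (nat_lit 40) (nat_lit 5) (nat_lit 44) (nat_lit 5) (nat_lit 41) (nat_lit 5) (nat_lit 322) (nat_lit 242) (nat_lit 216)) (XT.lf (nat_lit 0) (nat_lit 3470225402) (nat_lit 228) (nat_lit 1009030746) (nat_lit 304) (nat_lit 8138314058) (nat_lit 37) (nat_lit 5) (nat_lit 40) (nat_lit 5) (nat_lit 41) (nat_lit 5) (nat_lit 323) (nat_lit 242) (nat_lit 215))))))))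
noncomputable def xc63 : XT := (XT.nd (nat_lit 1794) (nat_lit 684) (nat_lit 0) (XT.nd (nat_lit 858) (nat_lit 684) (nat_lit 0) (XT.nd (nat_lit 390) (nat_lit 380) (nat_lit 0) (XT.nd (nat_lit 156) (nat_lit 304) (nat_lit 0) (XT.nd (nat_lit 78) (nat_lit 152) (nat_lit 0) (XT.lf (nat_lit 0) (nat_lit 7452788479) (nat_lit 304) (nat_lit 3515990791) (nat_lit 76) (nat_lit 1907664282) (nat_lit 37) (nat_lit 5) (nat_lit 41) (nat_lit 5) (nat_lit 38) (nat_lit 4) (nat_lit 324) (nat_lit 242) (nat_lit 214)) (XT.lf (nat_lit 0) (nat_lit 2237371302) (nat_lit 152) (nat_lit 8257298099) (nat_lit 228) (nat_lit 2649115247) (nat_lit 35) (nat_lit 5) (nat_lit 37) (nat_lit 5) (nat_lit 38) (nat_lit 4) (nat_lit 325) (nat_lit 242) (nat_lit 213))) (XT.nd (nat_lit 78) (nat_lit 228) (nat_lit 0) (XT.lf (nat_lit 0) (nat_lit 188265090) (nat_lit 228) (nat_lit 5265950583) (nat_lit 76) (nat_lit 7965431323) (nat_lit 34) (nat_lit 5) (nat_lit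 37) (nat_lit 5) (nat_lit 35) (nat_lit 5) (nat_lit 326) (nat_lit 242) (nat_lit 212)) (XT.nd (nat_lit 78) (nat_lit 0) (nat_lit 0) (XT.lf (nat_lit 0) (nat_lit 447668689) (nat_lit 228) (nat_lit 2563496523) (nat_lit 304) (nat_lit 10693293239) (nat_lit 31) (nat_lit 5) (nat_lit 34) (nat_lit 5) (nat_lit 35) (nat_lit 5) (nat_lit 327) (nat_lit 242) (nat_lit 211)) (XT.lf (nat_lit 0) (nat_lit 5926233316) (nat_lit 304) (nat_lit 7639172618) (nat_lit 76) (nat_lit 432251258) (nat_lit 31) (nat_lit 5) (nat_lit 35) (nat_lit 5) (nat_lit 32) (nat_lit 4) (nat_lit 328) (nat_lit 242) (nat_lit 210))))) (XT.nd (nat_lit 234) (nat_lit 152) (nat_lit 0) (XT.nd (nat_lit 78) (nat_lit 228) (nat_lit 0) (XT.lf (nat_lit 0) (nat_lit 8905396387) (nat_lit 304) (nat_lit 1955195908) (nat_lit 76) (nat_lit 3439825722) (nat_lit 31) (nat_lit 5) (nat_lit 35) (nat_lit 5) (nat_lit 32) (nat_lit 4) (nat_lit 329) (nat_lit 242) (nat_lit 209))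 (XT.nd (nat_lit 78) (nat_lit 76) (nat_lit 0) (XT.lf (nat_lit 0) (nat_lit 3900868847) (nat_lit 152) (nat_lit 8063244371) (nat_lit 228) (nat_lit 2648506586) (nat_lit 29) (nat_lit 5) (nat_lit 31) (nat_lit 5) (nat_lit 32) (nat_lit 4) (nat_lit 330) (nat_lit 242) (nat_lit 208)) (XT.lf (nat_lit 0) (nat_lit 149650311) (nat_lit 228) (nat_lit 5037648868) (nat_lit 76) (nat_lit 9747713297) (nat_lit 28) (nat_lit 5) (nat_lit 31) (nat_lit 5) (nat_lit 29) (nat_lit 5) (nat_lit 331) (nat_lit 242) (nat_lit 207)))) (XT.nd (nat_lit 78) (nat_lit 0) (nat_lit 0) (XT.lf (nat_lit 0) (nat_lit 721900476) (nat_lit 152) (nat_lit 2217759986) (nat_lit 228) (nat_lit 12327853669) (nat_lit 26) (nat_lit 5) (nat_lit 28) (nat_lit 5) (nat_lit 29) (nat_lit 5) (nat_lit 332) (nat_lit 242) (nat_lit 206)) (XT.nd (nat_lit 78) (nat_lit 0) (nat_lit 0) (XT.lf (nat_lit 0) (nat_lit 5827414607) (nat_lit 228) (nat_lit 8932629587) (nat_lit 76)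 (nat_lit 849581753) (nat_lit 26) (nat_lit 5) (nat_lit 29) (nat_lit 5) (nat_lit 27) (nat_lit 4) (nat_lit 333) (nat_lit 242) (nat_lit 205)) (XT.lf (nat_lit 0) (nat_lit 8779668847) (nat_lit 228) (nat_lit 3244166876) (nat_lit 76) (nat_lit 3938884150) (nat_lit 26) (nat_lit 5) (nat_lit 29) (nat_lit 5) (nat_lit 27) (nat_lit 4) (nat_lit 334) (nat_lit 242) (nat_lit 204)))))) (XT.nd (nat_lit 468) (nat_lit 304) (nat_lit 0) (XT.nd (nat_lit 234) (nat_lit 152) (nat_lit 0) (XT.nd (nat_lit 78) (nat_lit 76) (nat_lit 0) (XT.lf (nat_lit 0) (nat_lit 2596735098) (nat_lit 152) (nat_lit 9205910662) (nat_lit 228) (nat_lit 4524349388) (nat_lit 24) (nat_lit 5) (nat_lit 26) (nat_lit 5) (nat_lit 27) (nat_lit 4) (nat_lit 335) (nat_lit 242) (nat_lit 203)) (XT.nd (nat_lit 78) (nat_lit 76) (nat_lit 0) (XT.lf (nat_lit 0) (nat_lit 8611155457) (nat_lit 152) (nat_lit 6295700992) (nat_lit 228) (nat_lit 1795677533) (nat_lit 24)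 (nat_lit 5) (nat_lit 26) (nat_lit 5) (nat_lit 27) (nat_lit 4) (nat_lit 336) (nat_lit 242) (nat_lit 202)) (XT.lf (nat_lit 0) (nat_lit 953610373) (nat_lit 228) (nat_lit 2360183569) (nat_lit 76) (nat_lit 13776544267) (nat_lit 23) (nat_lit 5) (nat_lit 26) (nat_lit 5) (nat_lit 24) (nat_lit 5) (nat_lit 337) (nat_lit 242) (nat_lit 201)))) (XT.nd (nat_lit 78) (nat_lit 0) (nat_lit 0) (XT.lf (nat_lit 0) (nat_lit 3528886220) (nat_lit 152) (nat_lit 214087541) (nat_lit 228) (nat_lit 13746506039) (nat_lit 21) (nat_lit 5) (nat_lit 23) (nat_lit 5) (nat_lit 24) (nat_lit 5) (nat_lit 338) (nat_lit 242) (nat_lit 200)) (XT.nd (nat_lit 78) (nat_lit 0) (nat_lit 0) (XT.lf (nat_lit 0) (nat_lit 6628799026) (nat_lit 228) (nat_lit 8351241655) (nat_lit 76) (nat_lit 2920217404) (nat_lit 21) (nat_lit 5) (nat_lit 24) (nat_lit 5) (nat_lit 22) (nat_lit 4) (nat_lit 339) (nat_lit 242) (nat_lit 199)) (XT.lf (nat_lit 0) (nat_lit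 9564561014) (nat_lit 228) (nat_lit 2639323385) (nat_lit 76) (nat_lit 6120619001) (nat_lit 21) (nat_lit 5) (nat_lit 24) (nat_lit 5) (nat_lit 22) (nat_lit 4) (nat_lit 340) (nat_lit 242) (nat_lit 198))))) (XT.nd (nat_lit 234) (nat_lit 228) (nat_lit 0) (XT.nd (nat_lit 78) (nat_lit 0) (nat_lit 0) (XT.lf (nat_lit 0) (nat_lit 3245542386) (nat_lit 76) (nat_lit 9336422765) (nat_lit 152) (nat_lit 6179747089) (nat_lit 20) (nat_lit 5) (nat_lit 21) (nat_lit 5) (nat_lit 22) (nat_lit 4) (nat_lit 341) (nat_lit 242) (nat_lit 197)) (XT.nd (nat_lit 78) (nat_lit 0) (nat_lit 0) (XT.lf (nat_lit 0) (nat_lit 9299920723) (nat_lit 76) (nat_lit 6379502133) (nat_lit 152) (nat_lit 3532970530) (nat_lit 20) (nat_lit 5) (nat_lit 21) (nat_lit 5) (nat_lit 22) (nat_lit 4) (nat_lit 342) (nat_lit 242) (nat_lit 196)) (XT.lf (nat_lit 0) (nat_lit 15476574147) (nat_lit 76) (nat_lit 3357190777) (nat_lit 152) (nat_lit 843951982) (nat_lit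 20) (nat_lit 5) (nat_lit 21) (nat_lit 5) (nat_lit 22) (nat_lit 4) (nat_lit 343) (nat_lit 242) (nat_lit 195)))) (XT.nd (nat_lit 78) (nat_lit 0) (nat_lit 0) (XT.lf (nat_lit 0) (nat_lit 1636581384) (nat_lit 152) (nat_lit 231934579) (nat_lit 228) (nat_lit 18288556542) (nat_lit 17) (nat_lit 5) (nat_lit 19) (nat_lit 5) (nat_lit 20) (nat_lit 5) (nat_lit 344) (nat_lit 242) (nat_lit 194)) (XT.nd (nat_lit 78) (nat_lit 0) (nat_lit 0) (XT.lf (nat_lit 0) (nat_lit 4681832055) (nat_lit 228) (nat_lit 13010130978) (nat_lit 76) (nat_lit 2957539260) (nat_lit 17) (nat_lit 5) (nat_lit 20) (nat_lit 5) (nat_lit 18) (nat_lit 4) (nat_lit 345) (nat_lit 242) (nat_lit 193)) (XT.lf (nat_lit 0) (nat_lit 7547746668) (nat_lit 228) (nat_lit 7393709654) (nat_lit 76) (nat_lit 6216238898) (nat_lit 17) (nat_lit 5) (nat_lit 20) (nat_lit 5) (nat_lit 18) (nat_lit 4) (nat_lit 346) (nat_lit 242) (nat_lit 192))))))) (XT.nd (nat_lit 858)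 (nat_lit 304) (nat_lit 0) (XT.nd (nat_lit 390) (nat_lit 304) (nat_lit 0) (XT.nd (nat_lit 156) (nat_lit 0) (nat_lit 0) (XT.nd (nat_lit 78) (nat_lit 76) (nat_lit 0) (XT.lf (nat_lit 0) (nat_lit 10466534501) (nat_lit 228) (nat_lit 1664090099) (nat_lit 76) (nat_lit 9551537621) (nat_lit 17) (nat_lit 5) (nat_lit 20) (nat_lit 5) (nat_lit 18) (nat_lit 4) (nat_lit 347) (nat_lit 242) (nat_lit 191)) (XT.lf (nat_lit 0) (nat_lit 4266998662) (nat_lit 76) (nat_lit 9214764291) (nat_lit 152) (nat_lit 8740368106) (nat_lit 16) (nat_lit 5) (nat_lit 17) (nat_lit 5) (nat_lit 18) (nat_lit 4) (nat_lit 348) (nat_lit 242) (nat_lit 190))) (XT.nd (nat_lit 78) (nat_lit 0) (nat_lit 0) (XT.lf (nat_lit 0) (nat_lit 10356974723) (nat_lit 76) (nat_lit 6215562701) (nat_lit 152) (nat_lit 6206242007) (nat_lit 16) (nat_lit 5) (nat_lit 17) (nat_lit 5) (nat_lit 18) (nat_lit 4) (nat_lit 349) (nat_lit 242) (nat_lit 189)) (XT.nd (nat_lit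 78) (nat_lit 0) (nat_lit 0) (XT.lf (nat_lit 0) (nat_lit 16578040765) (nat_lit 76) (nat_lit 3147203214) (nat_lit 152) (nat_lit 3627839184) (nat_lit 16) (nat_lit 5) (nat_lit 17) (nat_lit 5) (nat_lit 18) (nat_lit 4) (nat_lit 350) (nat_lit 242) (nat_lit 188)) (XT.lf (nat_lit 0) (nat_lit 22935632671) (nat_lit 76) (nat_lit 7004741) (nat_lit 152) (nat_lit 1002906665) (nat_lit 16) (nat_lit 5) (nat_lit 17) (nat_lit 5) (nat_lit 18) (nat_lit 4) (nat_lit 351) (nat_lit 242) (nat_lit 187))))) (XT.nd (nat_lit 234) (nat_lit 76) (nat_lit 0) (XT.nd (nat_lit 78) (nat_lit 0) (nat_lit 0) (XT.lf (nat_lit 0) (nat_lit 1717383229) (nat_lit 228) (nat_lit 19626894885) (nat_lit 76) (nat_lit 3209545755) (nat_lit 13) (nat_lit 5) (nat_lit 16) (nat_lit 5) (nat_lit 14) (nat_lit 4) (nat_lit 352) (nat_lit 242) (nat_lit 186)) (XT.nd (nat_lit 78) (nat_lit 0) (nat_lit 0) (XT.lf (nat_lit 0) (nat_lit 4480347296) (nat_lit 228) (nat_lit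 14177053278) (nat_lit 76) (nat_lit 6523245492) (nat_lit 13) (nat_lit 5) (nat_lit 16) (nat_lit 5) (nat_lit 14) (nat_lit 4) (nat_lit 353) (nat_lit 242) (nat_lit 185)) (XT.lf (nat_lit 0) (nat_lit 7297903637) (nat_lit 228) (nat_lit 8611758998) (nat_lit 76) (nat_lit 9917486947) (nat_lit 13) (nat_lit 5) (nat_lit 16) (nat_lit 5) (nat_lit 14) (nat_lit 4) (nat_lit 354) (nat_lit 242) (nat_lit 184)))) (XT.nd (nat_lit 78) (nat_lit 76) (nat_lit 0) (XT.lf (nat_lit 0) (nat_lit 10172514196) (nat_lit 228) (nat_lit 2926149168) (nat_lit 76) (nat_lit 13395235961) (nat_lit 13) (nat_lit 5) (nat_lit 16) (nat_lit 5) (nat_lit 14) (nat_lit 4) (nat_lit 355) (nat_lit 242) (nat_lit 183)) (XT.nd (nat_lit 78) (nat_lit 0) (nat_lit 0) (XT.lf (nat_lit 0) (nat_lit 2942156286) (nat_lit 76) (nat_lit 10192816289) (nat_lit 152) (nat_lit 14045656864) (nat_lit 12) (nat_lit 5) (nat_lit 13) (nat_lit 5) (nat_lit 14) (nat_lit 4) (nat_lit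 356) (nat_lit 242) (nat_lit 182)) (XT.lf (nat_lit 0) (nat_lit 9001653326) (nat_lit 76) (nat_lit 7187873271) (nat_lit 152) (nat_lit 11698363603) (nat_lit 12) (nat_lit 5) (nat_lit 13) (nat_lit 5) (nat_lit 14) (nat_lit 4) (nat_lit 357) (nat_lit 242) (nat_lit 181)))))) (XT.nd (nat_lit 468) (nat_lit 76) (nat_lit 0) (XT.nd (nat_lit 234) (nat_lit 228) (nat_lit 0) (XT.nd (nat_lit 78) (nat_lit 0) (nat_lit 0) (XT.lf (nat_lit 0) (nat_lit 15199400551) (nat_lit 76) (nat_lit 4110757002) (nat_lit 152) (nat_lit 9307002682) (nat_lit 12) (nat_lit 5) (nat_lit 13) (nat_lit 5) (nat_lit 14) (nat_lit 4) (nat_lit 358) (nat_lit 242) (nat_lit 180)) (XT.nd (nat_lit 78) (nat_lit 0) (nat_lit 0) (XT.lf (nat_lit 0) (nat_lit 21540813468) (nat_lit 76) (nat_lit 958778741) (nat_lit 152) (nat_lit 6869484562) (nat_lit 12) (nat_lit 5) (nat_lit 13) (nat_lit 5) (nat_lit 14) (nat_lit 4) (nat_lit 359) (nat_lit 242) (nat_lit 179)) (XT.lf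 (nat_lit 0) (nat_lit 25782445918) (nat_lit 152) (nat_lit 2134692173) (nat_lit 0) (nat_lit 2226503876) (nat_lit 12) (nat_lit 5) (nat_lit 14) (nat_lit 4) (nat_lit 12) (nat_lit 4) (nat_lit 360) (nat_lit 242) (nat_lit 178)))) (XT.nd (nat_lit 78) (nat_lit 76) (nat_lit 0) (XT.lf (nat_lit 0) (nat_lit 3753021592) (nat_lit 152) (nat_lit 25432783985) (nat_lit 152) (nat_lit 1755000501) (nat_lit 10) (nat_lit 4) (nat_lit 12) (nat_lit 5) (nat_lit 12) (nat_lit 4) (nat_lit 361) (nat_lit 242) (nat_lit 177)) (XT.nd (nat_lit 78) (nat_lit 0) (nat_lit 0) (XT.lf (nat_lit 0) (nat_lit 909515746) (nat_lit 228) (nat_lit 21949759180) (nat_lit 76) (nat_lit 8902415333) (nat_lit 9) (nat_lit 5) (nat_lit 12) (nat_lit 5) (nat_lit 10) (nat_lit 4) (nat_lit 362) (nat_lit 242) (nat_lit 176)) (XT.lf (nat_lit 0) (nat_lit 3595878921) (nat_lit 228) (nat_lit 16611289181) (nat_lit 76) (nat_lit 12400216674) (nat_lit 9) (nat_lit 5) (nat_lit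 12) (nat_lit 5) (nat_lit 10) (nat_lit 4) (nat_lit 363) (nat_lit 242) (nat_lit 175))))) (XT.nd (nat_lit 234) (nat_lit 0) (nat_lit 0) (XT.nd (nat_lit 78) (nat_lit 76) (nat_lit 0) (XT.lf (nat_lit 0) (nat_lit 6340682711) (nat_lit 228) (nat_lit 11150839666) (nat_lit 76) (nat_lit 15987612310) (nat_lit 9) (nat_lit 5) (nat_lit 12) (nat_lit 5) (nat_lit 10) (nat_lit 4) (nat_lit 364) (nat_lit 242) (nat_lit 174)) (XT.nd (nat_lit 78) (nat_lit 76) (nat_lit 0) (XT.lf (nat_lit 0) (nat_lit 9146325489) (nat_lit 228) (nat_lit 5563639370) (nat_lit 76) (nat_lit 19667736858) (nat_lit 9) (nat_lit 5) (nat_lit 12) (nat_lit 5) (nat_lit 10) (nat_lit 4) (nat_lit 365) (nat_lit 242) (nat_lit 173)) (XT.lf (nat_lit 0) (nat_lit 158282386) (nat_lit 76) (nat_lit 11858497909) (nat_lit 152) (nat_lit 23287045082) (nat_lit 8) (nat_lit 5) (nat_lit 9) (nat_lit 5) (nat_lit 10) (nat_lit 4) (nat_lit 366) (nat_lit 242) (nat_lit 172))))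 (XT.nd (nat_lit 78) (nat_lit 0) (nat_lit 0) (XT.lf (nat_lit 0) (nat_lit 6130280516) (nat_lit 76) (nat_lit 8878636931) (nat_lit 152) (nat_lit 21247766587) (nat_lit 8) (nat_lit 5) (nat_lit 9) (nat_lit 5) (nat_lit 10) (nat_lit 4) (nat_lit 367) (nat_lit 242) (nat_lit 171)) (XT.nd (nat_lit 78) (nat_lit 0) (nat_lit 0) (XT.lf (nat_lit 0) (nat_lit 12246845939) (nat_lit 76) (nat_lit 5823960013) (nat_lit 152) (nat_lit 19167940698) (nat_lit 8) (nat_lit 5) (nat_lit 9) (nat_lit 5) (nat_lit 10) (nat_lit 4) (nat_lit 368) (nat_lit 242) (nat_lit 170)) (XT.lf (nat_lit 0) (nat_lit 18513323226) (nat_lit 76) (nat_lit 2691798020) (nat_lit 152) (nat_lit 17045750091) (nat_lit 8) (nat_lit 5) (nat_lit 9) (nat_lit 5) (nat_lit 10) (nat_lit 4) (nat_lit 369) (nat_lit 242) (nat_lit 169))))))))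
noncomputable def xc64 : XT := (XT.nd (nat_lit 1716) (nat_lit 76) (nat_lit 0) (XT.nd (nat_lit 858) (nat_lit 76) (nat_lit 0) (XT.nd (nat_lit 390) (nat_lit 76) (nat_lit 0) (XT.nd (nat_lit 156) (nat_lit 76) (nat_lit 0) (XT.nd (nat_lit 78) (nat_lit 0) (nat_lit 0) (XT.lf (nat_lit 0) (nat_lit 24419606241) (nat_lit 152) (nat_lit 14363758727) (nat_lit 0) (nat_lit 510427382) (nat_lit 8) (nat_lit 5) (nat_lit 10) (nat_lit 4) (nat_lit 8) (nat_lit 4) (nat_lit 370) (nat_lit 242) (nat_lit 168)) (XT.lf (nat_lit 0) (nat_lit 27738734481) (nat_lit 152) (nat_lit 8887501785) (nat_lit 0) (nat_lit 3741534772) (nat_lit 8) (nat_lit 5) (nat_lit 10) (nat_lit 4) (nat_lit 8) (nat_lit 4) (nat_lit 371) (nat_lit 242) (nat_lit 167))) (XT.nd (nat_lit 78) (nat_lit 76) (nat_lit 0) (XT.lf (nat_lit 0) (nat_lit 31139530965) (nat_lit 152) (nat_lit 3278116996) (nat_lit 0) (nat_lit 7056874120) (nat_lit 8) (nat_lit 5) (nat_lit 10) (nat_lit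 4) (nat_lit 8) (nat_lit 4) (nat_lit 372) (nat_lit 242) (nat_lit 166)) (XT.nd (nat_lit 78) (nat_lit 0) (nat_lit 0) (XT.lf (nat_lit 0) (nat_lit 2518440895) (nat_lit 76) (nat_lit 32130735163) (nat_lit 76) (nat_lit 7965110224) (nat_lit 7) (nat_lit 4) (nat_lit 8) (nat_lit 5) (nat_lit 8) (nat_lit 4) (nat_lit 373) (nat_lit 242) (nat_lit 165)) (XT.lf (nat_lit 0) (nat_lit 8526138007) (nat_lit 76) (nat_lit 29753909352) (nat_lit 76) (nat_lit 5507732866) (nat_lit 7) (nat_lit 4) (nat_lit 8) (nat_lit 5) (nat_lit 8) (nat_lit 4) (nat_lit 374) (nat_lit 242) (nat_lit 164))))) (XT.nd (nat_lit 234) (nat_lit 0) (nat_lit 0) (XT.nd (nat_lit 78) (nat_lit 76) (nat_lit 0) (XT.lf (nat_lit 0) (nat_lit 14684982825) (nat_lit 76) (nat_lit 27318196245) (nat_lit 76) (nat_lit 2993814374) (nat_lit 7) (nat_lit 4) (nat_lit 8) (nat_lit 5) (nat_lit 8) (nat_lit 4) (nat_lit 375) (nat_lit 242) (nat_lit 163)) (XT.nd (nat_lit 78) (nat_lit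 76) (nat_lit 0) (XT.lf (nat_lit 0) (nat_lit 21000356866) (nat_lit 76) (nat_lit 24821467548) (nat_lit 76) (nat_lit 421158118) (nat_lit 7) (nat_lit 4) (nat_lit 8) (nat_lit 5) (nat_lit 8) (nat_lit 4) (nat_lit 376) (nat_lit 242) (nat_lit 162)) (XT.lf (nat_lit 0) (nat_lit 2169310323) (nat_lit 152) (nat_lit 20070325549) (nat_lit 76) (nat_lit 25286562313) (nat_lit 6) (nat_lit 5) (nat_lit 8) (nat_lit 5) (nat_lit 7) (nat_lit 4) (nat_lit 377) (nat_lit 242) (nat_lit 161)))) (XT.nd (nat_lit 78) (nat_lit 0) (nat_lit 0) (XT.lf (nat_lit 0) (nat_lit 4813612452) (nat_lit 152) (nat_lit 14773961234) (nat_lit 76) (nat_lit 29260686862) (nat_lit 6) (nat_lit 5) (nat_lit 8) (nat_lit 5) (nat_lit 7) (nat_lit 4) (nat_lit 378) (nat_lit 242) (nat_lit 160)) (XT.nd (nat_lit 78) (nat_lit 0) (nat_lit 0) (XT.lf (nat_lit 0) (nat_lit 7522277135) (nat_lit 152) (nat_lit 9344856399) (nat_lit 76) (nat_lit 33343312738) (nat_lit 6)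 (nat_lit 5) (nat_lit 8) (nat_lit 5) (nat_lit 7) (nat_lit 4) (nat_lit 379) (nat_lit 242) (nat_lit 159)) (XT.lf (nat_lit 0) (nat_lit 10297671166) (nat_lit 152) (nat_lit 3778267168) (nat_lit 76) (nat_lit 37538007283) (nat_lit 6) (nat_lit 5) (nat_lit 8) (nat_lit 5) (nat_lit 7) (nat_lit 4) (nat_lit 380) (nat_lit 242) (nat_lit 158)))))) (XT.nd (nat_lit 390) (nat_lit 0) (nat_lit 0) (XT.nd (nat_lit 156) (nat_lit 0) (nat_lit 0) (XT.nd (nat_lit 78) (nat_lit 0) (nat_lit 0) (XT.lf (nat_lit 0) (nat_lit 1969094599) (nat_lit 76) (nat_lit 11192053191) (nat_lit 152) (nat_lit 39898269308) (nat_lit 5) (nat_lit 5) (nat_lit 6) (nat_lit 5) (nat_lit 7) (nat_lit 4) (nat_lit 381) (nat_lit 242) (nat_lit 157)) (XT.lf (nat_lit 0) (nat_lit 7941920381) (nat_lit 76) (nat_lit 8192830323) (nat_lit 152) (nat_lit 38412786793) (nat_lit 5) (nat_lit 5) (nat_lit 6) (nat_lit 5) (nat_lit 7) (nat_lit 4) (nat_lit 382) (nat_lit 242) (nat_lit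 156))) (XT.nd (nat_lit 78) (nat_lit 0) (nat_lit 0) (XT.lf (nat_lit 0) (nat_lit 14070234229) (nat_lit 76) (nat_lit 5113802141) (nat_lit 152) (nat_lit 36896682002) (nat_lit 5) (nat_lit 5) (nat_lit 6) (nat_lit 5) (nat_lit 7) (nat_lit 4) (nat_lit 383) (nat_lit 242) (nat_lit 155)) (XT.nd (nat_lit 78) (nat_lit 0) (nat_lit 0) (XT.lf (nat_lit 0) (nat_lit 20359390978) (nat_lit 76) (nat_lit 1952278232) (nat_lit 152) (nat_lit 35348630183) (nat_lit 5) (nat_lit 5) (nat_lit 6) (nat_lit 5) (nat_lit 7) (nat_lit 4) (nat_lit 384) (nat_lit 242) (nat_lit 154)) (XT.lf (nat_lit 0) (nat_lit 25532825672) (nat_lit 152) (nat_lit 32485218332) (nat_lit 0) (nat_lit 1269243467) (nat_lit 5) (nat_lit 5) (nat_lit 7) (nat_lit 4) (nat_lit 5) (nat_lit 4) (nat_lit 385) (nat_lit 242) (nat_lit 153))))) (XT.nd (nat_lit 234) (nat_lit 0) (nat_lit 0) (XT.nd (nat_lit 78) (nat_lit 0) (nat_lit 0) (XT.lf (nat_lit 0) (nat_lit 28857479238)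 (nat_lit 152) (nat_lit 27566364890) (nat_lit 0) (nat_lit 4539045349) (nat_lit 5) (nat_lit 5) (nat_lit 7) (nat_lit 4) (nat_lit 5) (nat_lit 4) (nat_lit 386) (nat_lit 242) (nat_lit 152)) (XT.nd (nat_lit 78) (nat_lit 0) (nat_lit 0) (XT.lf (nat_lit 0) (nat_lit 32269768454) (nat_lit 152) (nat_lit 22521283570) (nat_lit 0) (nat_lit 7898080503) (nat_lit 5) (nat_lit 5) (nat_lit 7) (nat_lit 4) (nat_lit 5) (nat_lit 4) (nat_lit 387) (nat_lit 242) (nat_lit 151)) (XT.lf (nat_lit 0) (nat_lit 35772674932) (nat_lit 152) (nat_lit 17345566049) (nat_lit 0) (nat_lit 11349284008) (nat_lit 5) (nat_lit 5) (nat_lit 7) (nat_lit 4) (nat_lit 5) (nat_lit 4) (nat_lit 388) (nat_lit 242) (nat_lit 150)))) (XT.nd (nat_lit 78) (nat_lit 0) (nat_lit 0) (XT.lf (nat_lit 0) (nat_lit 39369259463) (nat_lit 152) (nat_lit 12034689854) (nat_lit 0) (nat_lit 14895671478) (nat_lit 5) (nat_lit 5) (nat_lit 7) (nat_lit 4) (nat_lit 5) (nat_lit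 4) (nat_lit 389) (nat_lit 242) (nat_lit 149)) (XT.nd (nat_lit 78) (nat_lit 0) (nat_lit 0) (XT.lf (nat_lit 0) (nat_lit 43062664694) (nat_lit 152) (nat_lit 6584014415) (nat_lit 0) (nat_lit 18540341699) (nat_lit 5) (nat_lit 5) (nat_lit 7) (nat_lit 4) (nat_lit 5) (nat_lit 4) (nat_lit 390) (nat_lit 242) (nat_lit 148)) (XT.lf (nat_lit 0) (nat_lit 46856117874) (nat_lit 152) (nat_lit 988777005) (nat_lit 0) (nat_lit 22286479334) (nat_lit 5) (nat_lit 5) (nat_lit 7) (nat_lit 4) (nat_lit 5) (nat_lit 4) (nat_lit 391) (nat_lit 242) (nat_lit 147))))))) (XT.nd (nat_lit 33150) (nat_lit 0) (nat_lit 5168) (XT.nd (nat_lit 390) (nat_lit 0) (nat_lit 0) (XT.nd (nat_lit 156) (nat_lit 0) (nat_lit 0) (XT.nd (nat_lit 78) (nat_lit 0) (nat_lit 0) (XT.lf (nat_lit 0) (nat_lit 4850563380) (nat_lit 76) (nat_lit 45948996870) (nat_lit 76) (nat_lit 21333420909) (nat_lit 4) (nat_lit 4) (nat_lit 5) (nat_lit 5) (nat_lit 5) (nat_lit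 4) (nat_lit 392) (nat_lit 242) (nat_lit 146)) (XT.lf (nat_lit 0) (nat_lit 10867127279) (nat_lit 76) (nat_lit 43993851258) (nat_lit 76) (nat_lit 19333675858) (nat_lit 4) (nat_lit 4) (nat_lit 5) (nat_lit 5) (nat_lit 5) (nat_lit 4) (nat_lit 393) (nat_lit 242) (nat_lit 145))) (XT.nd (nat_lit 78) (nat_lit 0) (nat_lit 0) (XT.lf (nat_lit 0) (nat_lit 17046493283) (nat_lit 76) (nat_lit 41987734372) (nat_lit 76) (nat_lit 17284258547) (nat_lit 4) (nat_lit 4) (nat_lit 5) (nat_lit 5) (nat_lit 5) (nat_lit 4) (nat_lit 394) (nat_lit 242) (nat_lit 144)) (XT.nd (nat_lit 78) (nat_lit 0) (nat_lit 0) (XT.lf (nat_lit 0) (nat_lit 23394060837) (nat_lit 76) (nat_lit 39928893294) (nat_lit 76) (nat_lit 15183378220) (nat_lit 4) (nat_lit 4) (nat_lit 5) (nat_lit 5) (nat_lit 5) (nat_lit 4) (nat_lit 395) (nat_lit 242) (nat_lit 143)) (XT.lf (nat_lit 0) (nat_lit 29915376360) (nat_lit 76) (nat_lit 37815529037) (nat_lit 76) (nat_lit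 13029199159) (nat_lit 4) (nat_lit 4) (nat_lit 5) (nat_lit 5) (nat_lit 5) (nat_lit 4) (nat_lit 396) (nat_lit 242) (nat_lit 142))))) (XT.nd (nat_lit 312) (nat_lit 0) (nat_lit 0) (XT.nd (nat_lit 78) (nat_lit 0) (nat_lit 0) (XT.lf (nat_lit 0) (nat_lit 36616138088) (nat_lit 76) (nat_lit 35645794973) (nat_lit 76) (nat_lit 10819839071) (nat_lit 4) (nat_lit 4) (nat_lit 5) (nat_lit 5) (nat_lit 5) (nat_lit 4) (nat_lit 397) (nat_lit 242) (nat_lit 141)) (XT.nd (nat_lit 78) (nat_lit 0) (nat_lit 0) (XT.lf (nat_lit 0) (nat_lit 43502201056) (nat_lit 76) (nat_lit 33417795216) (nat_lit 76) (nat_lit 8553367447) (nat_lit 4) (nat_lit 4) (nat_lit 5) (nat_lit 5) (nat_lit 5) (nat_lit 4) (nat_lit 398) (nat_lit 242) (nat_lit 140)) (XT.lf (nat_lit 0) (nat_lit 50579582213) (nat_lit 76) (nat_lit 31129582970) (nat_lit 76) (nat_lit 6227803874) (nat_lit 4) (nat_lit 4) (nat_lit 5) (nat_lit 5) (nat_lit 5) (nat_lit 4) (nat_lit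 399) (nat_lit 242) (nat_lit 139)))) (XT.nd (nat_lit 32292) (nat_lit 0) (nat_lit 8284) (XT.lf (nat_lit 0) (nat_lit 65333208143) (nat_lit 76) (nat_lit 26364469021) (nat_lit 76) (nat_lit 1391219291) (nat_lit 4) (nat_lit 4) (nat_lit 5) (nat_lit 5) (nat_lit 5) (nat_lit 4) (nat_lit 401) (nat_lit 242) (nat_lit 137)) (XT.nd (nat_lit 78) (nat_lit 456) (nat_lit 0) (XT.lf (nat_lit 0) (nat_lit 1954783641) (nat_lit 532) (nat_lit 35368198) (nat_lit 0) (nat_lit 1954783641) (nat_lit 119) (nat_lit 5) (nat_lit 126) (nat_lit 4) (nat_lit 119) (nat_lit 4) (nat_lit 294) (nat_lit 243) (nat_lit 243)) (XT.lf (nat_lit 0) (nat_lit 4998381096) (nat_lit 456) (nat_lit 2121758348) (nat_lit 456) (nat_lit 863019075) (nat_lit 113) (nat_lit 4) (nat_lit 119) (nat_lit 5) (nat_lit 119) (nat_lit 4) (nat_lit 295) (nat_lit 243) (nat_lit 242)))))) (XT.nd (nat_lit 468) (nat_lit 1216) (nat_lit 0) (XT.nd (nat_lit 234) (nat_lit 836) (nat_lit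 0) (XT.nd (nat_lit 78) (nat_lit 532) (nat_lit 0) (XT.lf (nat_lit 0) (nat_lit 2059465790) (nat_lit 456) (nat_lit 177126342) (nat_lit 532) (nat_lit 5844156632) (nat_lit 106) (nat_lit 5) (nat_lit 112) (nat_lit 5) (nat_lit 113) (nat_lit 4) (nat_lit 296) (nat_lit 243) (nat_lit 241)) (XT.nd (nat_lit 78) (nat_lit 532) (nat_lit 0) (XT.lf (nat_lit 0) (nat_lit 5375349362) (nat_lit 532) (nat_lit 992104112) (nat_lit 0) (nat_lit 1814865160) (nat_lit 106) (nat_lit 5) (nat_lit 113) (nat_lit 4) (nat_lit 106) (nat_lit 4) (nat_lit 297) (nat_lit 243) (nat_lit 240)) (XT.lf (nat_lit 0) (nat_lit 274264654) (nat_lit 532) (nat_lit 4122100495) (nat_lit 76) (nat_lit 3891902865) (nat_lit 99) (nat_lit 5) (nat_lit 106) (nat_lit 5) (nat_lit 100) (nat_lit 4) (nat_lit 298) (nat_lit 243) (nat_lit 239)))) (XT.nd (nat_lit 78) (nat_lit 456) (nat_lit 0) (XT.lf (nat_lit 0) (nat_lit 994481882) (nat_lit 380) (nat_lit 2335143329) (nat_lit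 456) (nat_lit 5068988963) (nat_lit 94) (nat_lit 5) (nat_lit 99) (nat_lit 5) (nat_lit 100) (nat_lit 4) (nat_lit 299) (nat_lit 243) (nat_lit 238)) (XT.nd (nat_lit 78) (nat_lit 456) (nat_lit 0) (XT.lf (nat_lit 0) (nat_lit 6250573661) (nat_lit 380) (nat_lit 187557021) (nat_lit 456) (nat_lit 2075485089) (nat_lit 94) (nat_lit 5) (nat_lit 99) (nat_lit 5) (nat_lit 100) (nat_lit 4) (nat_lit 300) (nat_lit 243) (nat_lit 237)) (XT.lf (nat_lit 0) (nat_lit 957740001) (nat_lit 456) (nat_lit 5669673081) (nat_lit 76) (nat_lit 2005454917) (nat_lit 88) (nat_lit 5) (nat_lit 94) (nat_lit 5) (nat_lit 89) (nat_lit 4) (nat_lit 301) (nat_lit 243) (nat_lit 236))))) (XT.nd (nat_lit 234) (nat_lit 380) (nat_lit 0) (XT.nd (nat_lit 78) (nat_lit 836) (nat_lit 0) (XT.lf (nat_lit 0) (nat_lit 3987608870) (nat_lit 456) (nat_lit 483758116) (nat_lit 76) (nat_lit 4285466946) (nat_lit 88) (nat_lit 5) (nat_lit 94) (nat_lit 5) (nat_lit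 89) (nat_lit 4) (nat_lit 302) (nat_lit 243) (nat_lit 235)) (XT.nd (nat_lit 78) (nat_lit 456) (nat_lit 0) (XT.lf (nat_lit 0) (nat_lit 4856658127) (nat_lit 380) (nat_lit 2223086939) (nat_lit 456) (nat_lit 1805801074) (nat_lit 83) (nat_lit 5) (nat_lit 88) (nat_lit 5) (nat_lit 89) (nat_lit 4) (nat_lit 303) (nat_lit 243) (nat_lit 234)) (XT.lf (nat_lit 0) (nat_lit 1165342524) (nat_lit 456) (nat_lit 7755290977) (nat_lit 76) (nat_lit 98991273) (nat_lit 77) (nat_lit 5) (nat_lit 83) (nat_lit 5) (nat_lit 78) (nat_lit 4) (nat_lit 304) (nat_lit 243) (nat_lit 233)))) (XT.nd (nat_lit 78) (nat_lit 380) (nat_lit 0) (XT.lf (nat_lit 0) (nat_lit 4178549382) (nat_lit 456) (nat_lit 2495621250) (nat_lit 76) (nat_lit 2483496186) (nat_lit 77) (nat_lit 5) (nat_lit 83) (nat_lit 5) (nat_lit 78) (nat_lit 4) (nat_lit 305) (nat_lit 243) (nat_lit 232)) (XT.nd (nat_lit 78) (nat_lit 76) (nat_lit 0) (XT.lf (nat_lit 0) (nat_lit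 2883183626) (nat_lit 304) (nat_lit 4354961729) (nat_lit 380) (nat_lit 2063174634) (nat_lit 73) (nat_lit 5) (nat_lit 77) (nat_lit 5) (nat_lit 78) (nat_lit 4) (nat_lit 306) (nat_lit 243) (nat_lit 231)) (XT.lf (nat_lit 0) (nat_lit 875971941) (nat_lit 380) (nat_lit 1078851323) (nat_lit 76) (nat_lit 7495707209) (nat_lit 72) (nat_lit 5) (nat_lit 77) (nat_lit 5) (nat_lit 73) (nat_lit 5) (nat_lit 307) (nat_lit 243) (nat_lit 230))))))))
noncomputable def xc65 : XT := (XT.nd (nat_lit 1716) (nat_lit 1368) (nat_lit 0) (XT.nd (nat_lit 858) (nat_lit 1216) (nat_lit 0) (XT.nd (nat_lit 390) (nat_lit 912) (nat_lit 0) (XT.nd (nat_lit 156) (nat_lit 380) (nat_lit 0) (XT.nd (nat_lit 78) (nat_lit 304) (nat_lit 0) (XT.lf (nat_lit 0) (nat_lit 3840123985) (nat_lit 380) (nat_lit 5216774509) (nat_lit 76) (nat_lit 547493941) (nat_lit 68) (nat_lit 5) (nat_lit 73) (nat_lit 5) (nat_lit 69) (nat_lit 4) (nat_lit 308) (nat_lit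 243) (nat_lit 229)) (XT.lf (nat_lit 0) (nat_lit 167657247) (nat_lit 304) (nat_lit 6689121131) (nat_lit 380) (nat_lit 2907317507) (nat_lit 64) (nat_lit 5) (nat_lit 68) (nat_lit 5) (nat_lit 69) (nat_lit 4) (nat_lit 309) (nat_lit 243) (nat_lit 228))) (XT.nd (nat_lit 78) (nat_lit 304) (nat_lit 0) (XT.lf (nat_lit 0) (nat_lit 19768682) (nat_lit 380) (nat_lit 4201676354) (nat_lit 76) (nat_lit 5707707050) (nat_lit 63) (nat_lit 5) (nat_lit 68) (nat_lit 5) (nat_lit 64) (nat_lit 5) (nat_lit 310) (nat_lit 243) (nat_lit 227)) (XT.nd (nat_lit 78) (nat_lit 0) (nat_lit 0) (XT.lf (nat_lit 0) (nat_lit 1259095780) (nat_lit 304) (nat_lit 1663139310) (nat_lit 380) (nat_lit 7177802948) (nat_lit 59) (nat_lit 5) (nat_lit 63) (nat_lit 5) (nat_lit 64) (nat_lit 5) (nat_lit 311) (nat_lit 243) (nat_lit 226)) (XT.lf (nat_lit 0) (nat_lit 5898672026) (nat_lit 380) (nat_lit 3407260915) (nat_lit 76) (nat_lit 970628867) (nat_lit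 59) (nat_lit 5) (nat_lit 64) (nat_lit 5) (nat_lit 60) (nat_lit 4) (nat_lit 312) (nat_lit 243) (nat_lit 225))))) (XT.nd (nat_lit 234) (nat_lit 304) (nat_lit 0) (XT.nd (nat_lit 78) (nat_lit 380) (nat_lit 0) (XT.lf (nat_lit 0) (nat_lit 2124575864) (nat_lit 228) (nat_lit 6813322558) (nat_lit 304) (nat_lit 1521392674) (nat_lit 56) (nat_lit 5) (nat_lit 59) (nat_lit 5) (nat_lit 60) (nat_lit 4) (nat_lit 313) (nat_lit 243) (nat_lit 224)) (XT.nd (nat_lit 78) (nat_lit 304) (nat_lit 0) (XT.lf (nat_lit 0) (nat_lit 1364692839) (nat_lit 304) (nat_lit 2858585118) (nat_lit 76) (nat_lit 6424774135) (nat_lit 55) (nat_lit 5) (nat_lit 59) (nat_lit 5) (nat_lit 56) (nat_lit 5) (nat_lit 314) (nat_lit 243) (nat_lit 223)) (XT.lf (nat_lit 0) (nat_lit 2732385195) (nat_lit 304) (nat_lit 1539372390) (nat_lit 380) (nat_lit 6571422143) (nat_lit 51) (nat_lit 5) (nat_lit 55) (nat_lit 5) (nat_lit 56) (nat_lit 5) (nat_lit 315)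 (nat_lit 243) (nat_lit 222)))) (XT.nd (nat_lit 78) (nat_lit 304) (nat_lit 0) (XT.lf (nat_lit 0) (nat_lit 7246367582) (nat_lit 380) (nat_lit 2594170796) (nat_lit 76) (nat_lit 1204314719) (nat_lit 51) (nat_lit 5) (nat_lit 56) (nat_lit 5) (nat_lit 52) (nat_lit 4) (nat_lit 316) (nat_lit 243) (nat_lit 221)) (XT.nd (nat_lit 78) (nat_lit 76) (nat_lit 0) (XT.lf (nat_lit 0) (nat_lit 3046234255) (nat_lit 228) (nat_lit 7249675557) (nat_lit 304) (nat_lit 957194976) (nat_lit 48) (nat_lit 5) (nat_lit 51) (nat_lit 5) (nat_lit 52) (nat_lit 4) (nat_lit 317) (nat_lit 243) (nat_lit 220)) (XT.lf (nat_lit 0) (nat_lit 1898759126) (nat_lit 304) (nat_lit 2663314835) (nat_lit 76) (nat_lit 6906019802) (nat_lit 47) (nat_lit 5) (nat_lit 51) (nat_lit 5) (nat_lit 48) (nat_lit 5) (nat_lit 318) (nat_lit 243) (nat_lit 219)))))) (XT.nd (nat_lit 390) (nat_lit 456) (nat_lit 0) (XT.nd (nat_lit 156) (nat_lit 532) (nat_lit 0) (XT.nd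 (nat_lit 78) (nat_lit 0) (nat_lit 0) (XT.lf (nat_lit 0) (nat_lit 3012024153) (nat_lit 228) (nat_lit 1781187539) (nat_lit 304) (nat_lit 6896965186) (nat_lit 44) (nat_lit 5) (nat_lit 47) (nat_lit 5) (nat_lit 48) (nat_lit 5) (nat_lit 319) (nat_lit 243) (nat_lit 218)) (XT.lf (nat_lit 0) (nat_lit 7755775223) (nat_lit 304) (nat_lit 3101084586) (nat_lit 76) (nat_lit 1062712260) (nat_lit 44) (nat_lit 5) (nat_lit 48) (nat_lit 5) (nat_lit 45) (nat_lit 4) (nat_lit 320) (nat_lit 243) (nat_lit 217))) (XT.nd (nat_lit 78) (nat_lit 304) (nat_lit 0) (XT.lf (nat_lit 0) (nat_lit 2594234748) (nat_lit 228) (nat_lit 8200898641) (nat_lit 304) (nat_lit 1361163537) (nat_lit 41) (nat_lit 5) (nat_lit 44) (nat_lit 5) (nat_lit 45) (nat_lit 4) (nat_lit 321) (nat_lit 243) (nat_lit 216)) (XT.nd (nat_lit 78) (nat_lit 228) (nat_lit 0) (XT.lf (nat_lit 0) (nat_lit 1472946160) (nat_lit 304) (nat_lit 3972583859) (nat_lit 76) (nat_lit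 6954919032) (nat_lit 40) (nat_lit 5) (nat_lit 44) (nat_lit 5) (nat_lit 41) (nat_lit 5) (nat_lit 322) (nat_lit 243) (nat_lit 215)) (XT.lf (nat_lit 0) (nat_lit 1724750193) (nat_lit 228) (nat_lit 2603677863) (nat_lit 304) (nat_lit 8324260269) (nat_lit 37) (nat_lit 5) (nat_lit 40) (nat_lit 5) (nat_lit 41) (nat_lit 5) (nat_lit 323) (nat_lit 243) (nat_lit 214))))) (XT.nd (nat_lit 234) (nat_lit 304) (nat_lit 0) (XT.nd (nat_lit 78) (nat_lit 152) (nat_lit 0) (XT.lf (nat_lit 0) (nat_lit 7260841140) (nat_lit 304) (nat_lit 5320960474) (nat_lit 76) (nat_lit 331030988) (nat_lit 37) (nat_lit 5) (nat_lit 41) (nat_lit 5) (nat_lit 38) (nat_lit 4) (nat_lit 324) (nat_lit 243) (nat_lit 213)) (XT.nd (nat_lit 78) (nat_lit 0) (nat_lit 0) (XT.lf (nat_lit 0) (nat_lit 357163369) (nat_lit 152) (nat_lit 9902445640) (nat_lit 228) (nat_lit 2921894345) (nat_lit 35) (nat_lit 5) (nat_lit 37) (nat_lit 5) (nat_lit 38) (nat_lit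 4) (nat_lit 325) (nat_lit 243) (nat_lit 212)) (XT.lf (nat_lit 0) (nat_lit 6237218896) (nat_lit 152) (nat_lit 7114758052) (nat_lit 228) (nat_lit 106219644) (nat_lit 35) (nat_lit 5) (nat_lit 37) (nat_lit 5) (nat_lit 38) (nat_lit 4) (nat_lit 326) (nat_lit 243) (nat_lit 211)))) (XT.nd (nat_lit 78) (nat_lit 228) (nat_lit 0) (XT.lf (nat_lit 0) (nat_lit 2690220998) (nat_lit 228) (nat_lit 1552647319) (nat_lit 76) (nat_lit 9501059516) (nat_lit 34) (nat_lit 5) (nat_lit 37) (nat_lit 5) (nat_lit 35) (nat_lit 5) (nat_lit 327) (nat_lit 243) (nat_lit 210)) (XT.nd (nat_lit 78) (nat_lit 0) (nat_lit 0) (XT.lf (nat_lit 0) (nat_lit 4294426789) (nat_lit 228) (nat_lit 1267521631) (nat_lit 304) (nat_lit 8476510596) (nat_lit 31) (nat_lit 5) (nat_lit 34) (nat_lit 5) (nat_lit 35) (nat_lit 5) (nat_lit 328) (nat_lit 243) (nat_lit 209)) (XT.lf (nat_lit 0) (nat_lit 8505617609) (nat_lit 304) (nat_lit 4084596081) (nat_lit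 76) (nat_lit 1752102250) (nat_lit 31) (nat_lit 5) (nat_lit 35) (nat_lit 5) (nat_lit 32) (nat_lit 4) (nat_lit 329) (nat_lit 243) (nat_lit 208))))))) (XT.nd (nat_lit 858) (nat_lit 608) (nat_lit 0) (XT.nd (nat_lit 390) (nat_lit 380) (nat_lit 0) (XT.nd (nat_lit 156) (nat_lit 228) (nat_lit 0) (XT.nd (nat_lit 78) (nat_lit 0) (nat_lit 0) (XT.lf (nat_lit 0) (nat_lit 1692724725) (nat_lit 152) (nat_lit 9827752916) (nat_lit 228) (nat_lit 3135386161) (nat_lit 29) (nat_lit 5) (nat_lit 31) (nat_lit 5) (nat_lit 32) (nat_lit 4) (nat_lit 330) (nat_lit 243) (nat_lit 207)) (XT.lf (nat_lit 0) (nat_lit 7655425117) (nat_lit 152) (nat_lit 6966313447) (nat_lit 228) (nat_lit 357260742) (nat_lit 29) (nat_lit 5) (nat_lit 31) (nat_lit 5) (nat_lit 32) (nat_lit 4) (nat_lit 331) (nat_lit 243) (nat_lit 206))) (XT.nd (nat_lit 78) (nat_lit 152) (nat_lit 0) (XT.lf (nat_lit 0) (nat_lit 2410877806) (nat_lit 228) (nat_lit 1609418462)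 (nat_lit 76) (nat_lit 11292200805) (nat_lit 28) (nat_lit 5) (nat_lit 31) (nat_lit 5) (nat_lit 29) (nat_lit 5) (nat_lit 332) (nat_lit 243) (nat_lit 205)) (XT.nd (nat_lit 78) (nat_lit 0) (nat_lit 0) (XT.lf (nat_lit 0) (nat_lit 4287825599) (nat_lit 152) (nat_lit 965102103) (nat_lit 228) (nat_lit 10403079299) (nat_lit 26) (nat_lit 5) (nat_lit 28) (nat_lit 5) (nat_lit 29) (nat_lit 5) (nat_lit 333) (nat_lit 243) (nat_lit 204)) (XT.lf (nat_lit 0) (nat_lit 8174817914) (nat_lit 228) (nat_lit 5704375664) (nat_lit 76) (nat_lit 2130844468) (nat_lit 26) (nat_lit 5) (nat_lit 29) (nat_lit 5) (nat_lit 27) (nat_lit 4) (nat_lit 334) (nat_lit 243) (nat_lit 203))))) (XT.nd (nat_lit 234) (nat_lit 152) (nat_lit 0) (XT.nd (nat_lit 78) (nat_lit 76) (nat_lit 0) (XT.lf (nat_lit 0) (nat_lit 53961895) (nat_lit 152) (nat_lit 11098917545) (nat_lit 228) (nat_lit 5222806779) (nat_lit 24) (nat_lit 5) (nat_lit 26) (nat_lit 5)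 (nat_lit 27) (nat_lit 4) (nat_lit 335) (nat_lit 243) (nat_lit 202)) (XT.nd (nat_lit 78) (nat_lit 76) (nat_lit 0) (XT.lf (nat_lit 0) (nat_lit 6035759499) (nat_lit 152) (nat_lit 8201140637) (nat_lit 228) (nat_lit 2514955311) (nat_lit 24) (nat_lit 5) (nat_lit 26) (nat_lit 5) (nat_lit 27) (nat_lit 4) (nat_lit 336) (nat_lit 243) (nat_lit 201)) (XT.lf (nat_lit 0) (nat_lit 228548773) (nat_lit 228) (nat_lit 5010077155) (nat_lit 76) (nat_lit 11901859033) (nat_lit 23) (nat_lit 5) (nat_lit 26) (nat_lit 5) (nat_lit 24) (nat_lit 5) (nat_lit 337) (nat_lit 243) (nat_lit 200)))) (XT.nd (nat_lit 78) (nat_lit 0) (nat_lit 0) (XT.lf (nat_lit 0) (nat_lit 794478865) (nat_lit 152) (nat_lit 2177906246) (nat_lit 228) (nat_lit 14568629851) (nat_lit 21) (nat_lit 5) (nat_lit 23) (nat_lit 5) (nat_lit 24) (nat_lit 5) (nat_lit 338) (nat_lit 243) (nat_lit 199)) (XT.nd (nat_lit 78) (nat_lit 0) (nat_lit 0) (XT.lf (nat_lit 0)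 (nat_lit 5820240480) (nat_lit 228) (nat_lit 11149634103) (nat_lit 76) (nat_lit 983079703) (nat_lit 21) (nat_lit 5) (nat_lit 24) (nat_lit 5) (nat_lit 22) (nat_lit 4) (nat_lit 339) (nat_lit 243) (nat_lit 198)) (XT.lf (nat_lit 0) (nat_lit 8737466089) (nat_lit 228) (nat_lit 5468130743) (nat_lit 76) (nat_lit 4172180163) (nat_lit 21) (nat_lit 5) (nat_lit 24) (nat_lit 5) (nat_lit 22) (nat_lit 4) (nat_lit 340) (nat_lit 243) (nat_lit 197)))))) (XT.nd (nat_lit 468) (nat_lit 304) (nat_lit 0) (XT.nd (nat_lit 234) (nat_lit 228) (nat_lit 0) (XT.nd (nat_lit 78) (nat_lit 0) (nat_lit 0) (XT.lf (nat_lit 0) (nat_lit 330319491) (nat_lit 76) (nat_lit 11378531346) (nat_lit 152) (nat_lit 7107536261) (nat_lit 20) (nat_lit 5) (nat_lit 21) (nat_lit 5) (nat_lit 22) (nat_lit 4) (nat_lit 341) (nat_lit 243) (nat_lit 196)) (XT.nd (nat_lit 78) (nat_lit 0) (nat_lit 0) (XT.lf (nat_lit 0) (nat_lit 6355458289) (nat_lit 76) (nat_lit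 8433096868) (nat_lit 152) (nat_lit 4479065765) (nat_lit 20) (nat_lit 5) (nat_lit 21) (nat_lit 5) (nat_lit 22) (nat_lit 4) (nat_lit 342) (nat_lit 243) (nat_lit 195)) (XT.lf (nat_lit 0) (nat_lit 12503723812) (nat_lit 76) (nat_lit 5421937119) (nat_lit 152) (nat_lit 1807820096) (nat_lit 20) (nat_lit 5) (nat_lit 21) (nat_lit 5) (nat_lit 22) (nat_lit 4) (nat_lit 343) (nat_lit 243) (nat_lit 194)))) (XT.nd (nat_lit 78) (nat_lit 152) (nat_lit 0) (XT.lf (nat_lit 0) (nat_lit 890806058) (nat_lit 152) (nat_lit 1442619535) (nat_lit 76) (nat_lit 17880686877) (nat_lit 19) (nat_lit 5) (nat_lit 21) (nat_lit 5) (nat_lit 20) (nat_lit 5) (nat_lit 344) (nat_lit 243) (nat_lit 193)) (XT.nd (nat_lit 78) (nat_lit 0) (nat_lit 0) (XT.lf (nat_lit 0) (nat_lit 3652841250) (nat_lit 228) (nat_lit 16183222053) (nat_lit 76) (nat_lit 872035222) (nat_lit 17) (nat_lit 5) (nat_lit 20) (nat_lit 5) (nat_lit 18) (nat_lit 4) (nat_lit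 345) (nat_lit 243) (nat_lit 192)) (XT.lf (nat_lit 0) (nat_lit 6502448366) (nat_lit 228) (nat_lit 10594039354) (nat_lit 76) (nat_lit 4120310277) (nat_lit 17) (nat_lit 5) (nat_lit 20) (nat_lit 5) (nat_lit 18) (nat_lit 4) (nat_lit 346) (nat_lit 243) (nat_lit 191))))) (XT.nd (nat_lit 234) (nat_lit 228) (nat_lit 0) (XT.nd (nat_lit 78) (nat_lit 76) (nat_lit 0) (XT.lf (nat_lit 0) (nat_lit 9405403679) (nat_lit 228) (nat_lit 4890865066) (nat_lit 76) (nat_lit 7445488045) (nat_lit 17) (nat_lit 5) (nat_lit 20) (nat_lit 5) (nat_lit 18) (nat_lit 4) (nat_lit 347) (nat_lit 243) (nat_lit 190)) (XT.nd (nat_lit 78) (nat_lit 0) (nat_lit 0) (XT.lf (nat_lit 0) (nat_lit 949818546) (nat_lit 76) (nat_lit 11423555441) (nat_lit 152) (nat_lit 9909785712) (nat_lit 16) (nat_lit 5) (nat_lit 17) (nat_lit 5) (nat_lit 18) (nat_lit 4) (nat_lit 348) (nat_lit 243) (nat_lit 189)) (XT.lf (nat_lit 0) (nat_lit 7014371306) (nat_lit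 76) (nat_lit 8434609098) (nat_lit 152) (nat_lit 7391298558) (nat_lit 16) (nat_lit 5) (nat_lit 17) (nat_lit 5) (nat_lit 18) (nat_lit 4) (nat_lit 349) (nat_lit 243) (nat_lit 188)))) (XT.nd (nat_lit 78) (nat_lit 228) (nat_lit 0) (XT.lf (nat_lit 0) (nat_lit 13210754532) (nat_lit 76) (nat_lit 5376206162) (nat_lit 152) (nat_lit 4828079178) (nat_lit 16) (nat_lit 5) (nat_lit 17) (nat_lit 5) (nat_lit 18) (nat_lit 4) (nat_lit 350) (nat_lit 243) (nat_lit 187)) (XT.nd (nat_lit 78) (nat_lit 228) (nat_lit 0) (XT.lf (nat_lit 0) (nat_lit 19544382538) (nat_lit 76) (nat_lit 2245674243) (nat_lit 152) (nat_lit 2217887866) (nat_lit 16) (nat_lit 5) (nat_lit 17) (nat_lit 5) (nat_lit 18) (nat_lit 4) (nat_lit 351) (nat_lit 243) (nat_lit 186)) (XT.lf (nat_lit 0) (nat_lit 456039254) (nat_lit 228) (nat_lit 23203538796) (nat_lit 76) (nat_lit 959112990) (nat_lit 13) (nat_lit 5) (nat_lit 16) (nat_lit 5) (nat_lit 14) (nat_lit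 4) (nat_lit 352) (nat_lit 243) (nat_lit 185))))))))
noncomputable def xc66 : XT := (XT.nd (nat_lit 1716) (nat_lit 228) (nat_lit 0) (XT.nd (nat_lit 858) (nat_lit 152) (nat_lit 0) (XT.nd (nat_lit 390) (nat_lit 228) (nat_lit 0) (XT.nd (nat_lit 156) (nat_lit 76) (nat_lit 0) (XT.nd (nat_lit 78) (nat_lit 0) (nat_lit 0) (XT.lf (nat_lit 0) (nat_lit 3205064086) (nat_lit 228) (nat_lit 17777363482) (nat_lit 76) (nat_lit 4263517517) (nat_lit 13) (nat_lit 5) (nat_lit 16) (nat_lit 5) (nat_lit 14) (nat_lit 4) (nat_lit 353) (nat_lit 243) (nat_lit 184)) (XT.lf (nat_lit 0) (nat_lit 6009087190) (nat_lit 228) (nat_lit 12235046187) (nat_lit 76) (nat_lit 7648734497) (nat_lit 13) (nat_lit 5) (nat_lit 16) (nat_lit 5) (nat_lit 14) (nat_lit 4) (nat_lit 354) (nat_lit 243) (nat_lit 183))) (XT.nd (nat_lit 78) (nat_lit 76) (nat_lit 0) (XT.lf (nat_lit 0) (nat_lit 8870558683) (nat_lit 228) (nat_lit 6571744109) (nat_lit 76)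 (nat_lit 11117721885) (nat_lit 13) (nat_lit 5) (nat_lit 16) (nat_lit 5) (nat_lit 14) (nat_lit 4) (nat_lit 355) (nat_lit 243) (nat_lit 182)) (XT.nd (nat_lit 78) (nat_lit 76) (nat_lit 0) (XT.lf (nat_lit 0) (nat_lit 11791978882) (nat_lit 228) (nat_lit 782508731) (nat_lit 76) (nat_lit 14673510836) (nat_lit 13) (nat_lit 5) (nat_lit 16) (nat_lit 5) (nat_lit 14) (nat_lit 4) (nat_lit 356) (nat_lit 243) (nat_lit 181)) (XT.lf (nat_lit 0) (nat_lit 5239969172) (nat_lit 76) (nat_lit 9586301099) (nat_lit 152) (nat_lit 13129608966) (nat_lit 12) (nat_lit 5) (nat_lit 13) (nat_lit 5) (nat_lit 14) (nat_lit 4) (nat_lit 357) (nat_lit 243) (nat_lit 180))))) (XT.nd (nat_lit 234) (nat_lit 228) (nat_lit 0) (XT.nd (nat_lit 78) (nat_lit 0) (nat_lit 0) (XT.lf (nat_lit 0) (nat_lit 11416895350) (nat_lit 76) (nat_lit 6517781626) (nat_lit 152) (nat_lit 10750850818) (nat_lit 12) (nat_lit 5) (nat_lit 13) (nat_lit 5) (nat_lit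 14) (nat_lit 4) (nat_lit 358) (nat_lit 243) (nat_lit 179)) (XT.nd (nat_lit 78) (nat_lit 0) (nat_lit 0) (XT.lf (nat_lit 0) (nat_lit 17738093659) (nat_lit 76) (nat_lit 3374149768) (nat_lit 152) (nat_lit 8325568400) (nat_lit 12) (nat_lit 5) (nat_lit 13) (nat_lit 5) (nat_lit 14) (nat_lit 4) (nat_lit 359) (nat_lit 243) (nat_lit 178)) (XT.lf (nat_lit 0) (nat_lit 24209087476) (nat_lit 76) (nat_lit 152658661) (nat_lit 152) (nat_lit 5851642534) (nat_lit 12) (nat_lit 5) (nat_lit 13) (nat_lit 5) (nat_lit 14) (nat_lit 4) (nat_lit 360) (nat_lit 243) (nat_lit 177)))) (XT.nd (nat_lit 78) (nat_lit 228) (nat_lit 0) (XT.lf (nat_lit 0) (nat_lit 27716299463) (nat_lit 152) (nat_lit 207679932) (nat_lit 0) (nat_lit 3088048370) (nat_lit 12) (nat_lit 5) (nat_lit 14) (nat_lit 4) (nat_lit 12) (nat_lit 4) (nat_lit 361) (nat_lit 243) (nat_lit 176)) (XT.nd (nat_lit 78) (nat_lit 76) (nat_lit 0) (XT.lf (nat_lit 0) (nat_lit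 5837145119) (nat_lit 152) (nat_lit 25369768893) (nat_lit 152) (nat_lit 626670554) (nat_lit 10) (nat_lit 4) (nat_lit 12) (nat_lit 5) (nat_lit 12) (nat_lit 4) (nat_lit 362) (nat_lit 243) (nat_lit 175)) (XT.lf (nat_lit 0) (nat_lit 2061009752) (nat_lit 228) (nat_lit 20670750721) (nat_lit 76) (nat_lit 9948036549) (nat_lit 9) (nat_lit 5) (nat_lit 12) (nat_lit 5) (nat_lit 10) (nat_lit 4) (nat_lit 363) (nat_lit 243) (nat_lit 174)))))) (XT.nd (nat_lit 390) (nat_lit 76) (nat_lit 0) (XT.nd (nat_lit 156) (nat_lit 76) (nat_lit 0) (XT.nd (nat_lit 78) (nat_lit 0) (nat_lit 0) (XT.lf (nat_lit 0) (nat_lit 4795219884) (nat_lit 228) (nat_lit 15228558696) (nat_lit 76) (nat_lit 13528095753) (nat_lit 9) (nat_lit 5) (nat_lit 12) (nat_lit 5) (nat_lit 10) (nat_lit 4) (nat_lit 364) (nat_lit 243) (nat_lit 173)) (XT.lf (nat_lit 0) (nat_lit 7590577557) (nat_lit 228) (nat_lit 9659084118) (nat_lit 76) (nat_lit 17201097552)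 (nat_lit 9) (nat_lit 5) (nat_lit 12) (nat_lit 5) (nat_lit 10) (nat_lit 4) (nat_lit 365) (nat_lit 243) (nat_lit 172))) (XT.nd (nat_lit 78) (nat_lit 76) (nat_lit 0) (XT.lf (nat_lit 0) (nat_lit 10449525316) (nat_lit 228) (nat_lit 3957460456) (nat_lit 76) (nat_lit 20970251364) (nat_lit 9) (nat_lit 5) (nat_lit 12) (nat_lit 5) (nat_lit 10) (nat_lit 4) (nat_lit 366) (nat_lit 243) (nat_lit 171)) (XT.nd (nat_lit 78) (nat_lit 0) (nat_lit 0) (XT.lf (nat_lit 0) (nat_lit 1918735736) (nat_lit 76) (nat_lit 11474269597) (nat_lit 152) (nat_lit 22938558952) (nat_lit 8) (nat_lit 5) (nat_lit 9) (nat_lit 5) (nat_lit 10) (nat_lit 4) (nat_lit 367) (nat_lit 243) (nat_lit 170)) (XT.lf (nat_lit 0) (nat_lit 8018756775) (nat_lit 76) (nat_lit 8426565700) (nat_lit 152) (nat_lit 20868600087) (nat_lit 8) (nat_lit 5) (nat_lit 9) (nat_lit 5) (nat_lit 10) (nat_lit 4) (nat_lit 368) (nat_lit 243) (nat_lit 169))))) (XT.nd (nat_lit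 234) (nat_lit 76) (nat_lit 0) (XT.nd (nat_lit 78) (nat_lit 0) (nat_lit 0) (XT.lf (nat_lit 0) (nat_lit 14269171553) (nat_lit 76) (nat_lit 5301173631) (nat_lit 152) (nat_lit 18755989115) (nat_lit 8) (nat_lit 5) (nat_lit 9) (nat_lit 5) (nat_lit 10) (nat_lit 4) (nat_lit 369) (nat_lit 243) (nat_lit 168)) (XT.nd (nat_lit 78) (nat_lit 0) (nat_lit 0) (XT.lf (nat_lit 0) (nat_lit 20675441599) (nat_lit 76) (nat_lit 2095362463) (nat_lit 152) (nat_lit 16598880066) (nat_lit 8) (nat_lit 5) (nat_lit 9) (nat_lit 5) (nat_lit 10) (nat_lit 4) (nat_lit 370) (nat_lit 243) (nat_lit 167)) (XT.lf (nat_lit 0) (nat_lit 26060969902) (nat_lit 152) (nat_lit 13213193367) (nat_lit 0) (nat_lit 1170376215) (nat_lit 8) (nat_lit 5) (nat_lit 10) (nat_lit 4) (nat_lit 8) (nat_lit 4) (nat_lit 371) (nat_lit 243) (nat_lit 166)))) (XT.nd (nat_lit 78) (nat_lit 76) (nat_lit 0) (XT.lf (nat_lit 0) (nat_lit 29453202800) (nat_lit 152) (nat_lit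 7618711185) (nat_lit 0) (nat_lit 4479641020) (nat_lit 8) (nat_lit 5) (nat_lit 10) (nat_lit 4) (nat_lit 8) (nat_lit 4) (nat_lit 372) (nat_lit 243) (nat_lit 165)) (XT.nd (nat_lit 78) (nat_lit 76) (nat_lit 0) (XT.lf (nat_lit 0) (nat_lit 32930324938) (nat_lit 152) (nat_lit 1885765697) (nat_lit 0) (nat_lit 7876211611) (nat_lit 8) (nat_lit 5) (nat_lit 10) (nat_lit 4) (nat_lit 8) (nat_lit 4) (nat_lit 373) (nat_lit 243) (nat_lit 164)) (XT.lf (nat_lit 0) (nat_lit 4070074276) (nat_lit 76) (nat_lit 32464424345) (nat_lit 76) (nat_lit 7332105632) (nat_lit 7) (nat_lit 4) (nat_lit 8) (nat_lit 5) (nat_lit 8) (nat_lit 4) (nat_lit 374) (nat_lit 243) (nat_lit 163))))))) (XT.nd (nat_lit 858) (nat_lit 76) (nat_lit 0) (XT.nd (nat_lit 390) (nat_lit 76) (nat_lit 0) (XT.nd (nat_lit 156) (nat_lit 76) (nat_lit 0) (XT.nd (nat_lit 78) (nat_lit 0) (nat_lit 0) (XT.lf (nat_lit 0) (nat_lit 10215009674) (nat_lit 76) (nat_lit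 30034650057) (nat_lit 76) (nat_lit 4826403785) (nat_lit 7) (nat_lit 4) (nat_lit 8) (nat_lit 5) (nat_lit 8) (nat_lit 4) (nat_lit 375) (nat_lit 243) (nat_lit 162)) (XT.lf (nat_lit 0) (nat_lit 16516879424) (nat_lit 76) (nat_lit 27543687204) (nat_lit 76) (nat_lit 2261724856) (nat_lit 7) (nat_lit 4) (nat_lit 8) (nat_lit 5) (nat_lit 8) (nat_lit 4) (nat_lit 376) (nat_lit 243) (nat_lit 161))) (XT.nd (nat_lit 78) (nat_lit 0) (nat_lit 0) (XT.lf (nat_lit 0) (nat_lit 357065826) (nat_lit 152) (nat_lit 24628687725) (nat_lit 76) (nat_lit 22620518522) (nat_lit 6) (nat_lit 5) (nat_lit 8) (nat_lit 5) (nat_lit 7) (nat_lit 4) (nat_lit 377) (nat_lit 243) (nat_lit 160)) (XT.nd (nat_lit 78) (nat_lit 0) (nat_lit 0) (XT.lf (nat_lit 0) (nat_lit 2993995290) (nat_lit 152) (nat_lit 19345205385) (nat_lit 76) (nat_lit 26589361095) (nat_lit 6) (nat_lit 5) (nat_lit 8) (nat_lit 5) (nat_lit 7) (nat_lit 4) (nat_lit 378) (nat_lit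 243) (nat_lit 159)) (XT.lf (nat_lit 0) (nat_lit 5695502046) (nat_lit 152) (nat_lit 13928607323) (nat_lit 76) (nat_lit 30666858840) (nat_lit 6) (nat_lit 5) (nat_lit 8) (nat_lit 5) (nat_lit 7) (nat_lit 4) (nat_lit 379) (nat_lit 243) (nat_lit 158))))) (XT.nd (nat_lit 234) (nat_lit 0) (nat_lit 0) (XT.nd (nat_lit 78) (nat_lit 76) (nat_lit 0) (XT.lf (nat_lit 0) (nat_lit 8463946634) (nat_lit 152) (nat_lit 8374160589) (nat_lit 76) (nat_lit 34856574617) (nat_lit 6) (nat_lit 5) (nat_lit 8) (nat_lit 5) (nat_lit 7) (nat_lit 4) (nat_lit 380) (nat_lit 243) (nat_lit 157)) (XT.nd (nat_lit 78) (nat_lit 76) (nat_lit 0) (XT.lf (nat_lit 0) (nat_lit 11301748083) (nat_lit 152) (nat_lit 2677011782) (nat_lit 76) (nat_lit 39162169343) (nat_lit 6) (nat_lit 5) (nat_lit 8) (nat_lit 5) (nat_lit 7) (nat_lit 4) (nat_lit 381) (nat_lit 243) (nat_lit 156)) (XT.lf (nat_lit 0) (nat_lit 3230862961) (nat_lit 76) (nat_lit 11011580096)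 (nat_lit 152) (nat_lit 40387599259) (nat_lit 5) (nat_lit 5) (nat_lit 6) (nat_lit 5) (nat_lit 7) (nat_lit 4) (nat_lit 382) (nat_lit 243) (nat_lit 155)))) (XT.nd (nat_lit 78) (nat_lit 0) (nat_lit 0) (XT.lf (nat_lit 0) (nat_lit 9347843551) (nat_lit 76) (nat_lit 7937416504) (nat_lit 152) (nat_lit 38878162505) (nat_lit 5) (nat_lit 5) (nat_lit 6) (nat_lit 5) (nat_lit 7) (nat_lit 4) (nat_lit 383) (nat_lit 243) (nat_lit 154)) (XT.nd (nat_lit 78) (nat_lit 0) (nat_lit 0) (XT.lf (nat_lit 0) (nat_lit 15625997137) (nat_lit 76) (nat_lit 4780615498) (nat_lit 152) (nat_lit 37336584509) (nat_lit 5) (nat_lit 5) (nat_lit 6) (nat_lit 5) (nat_lit 7) (nat_lit 4) (nat_lit 384) (nat_lit 243) (nat_lit 153)) (XT.lf (nat_lit 0) (nat_lit 22070809486) (nat_lit 76) (nat_lit 1538418707) (nat_lit 152) (nat_lit 35761518260) (nat_lit 5) (nat_lit 5) (nat_lit 6) (nat_lit 5) (nat_lit 7) (nat_lit 4) (nat_lit 385) (nat_lit 243) (nat_lit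 152)))))) (XT.nd (nat_lit 468) (nat_lit 76) (nat_lit 0) (XT.nd (nat_lit 234) (nat_lit 0) (nat_lit 0) (XT.nd (nat_lit 78) (nat_lit 0) (nat_lit 0) (XT.lf (nat_lit 0) (nat_lit 26913130997) (nat_lit 152) (nat_lit 32376806499) (nat_lit 0) (nat_lit 1757038346) (nat_lit 5) (nat_lit 5) (nat_lit 7) (nat_lit 4) (nat_lit 5) (nat_lit 4) (nat_lit 386) (nat_lit 243) (nat_lit 151)) (XT.nd (nat_lit 78) (nat_lit 0) (nat_lit 0) (XT.lf (nat_lit 0) (nat_lit 30319631339) (nat_lit 152) (nat_lit 27341930222) (nat_lit 0) (nat_lit 5111835715) (nat_lit 5) (nat_lit 5) (nat_lit 7) (nat_lit 4) (nat_lit 5) (nat_lit 4) (nat_lit 387) (nat_lit 243) (nat_lit 150)) (XT.lf (nat_lit 0) (nat_lit 33816917550) (nat_lit 152) (nat_lit 22176120510) (nat_lit 0) (nat_lit 8558924865) (nat_lit 5) (nat_lit 5) (nat_lit 7) (nat_lit 4) (nat_lit 5) (nat_lit 4) (nat_lit 388) (nat_lit 243) (nat_lit 149)))) (XT.nd (nat_lit 78) (nat_lit 0) (nat_lit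 0) (XT.lf (nat_lit 0) (nat_lit 37408045512) (nat_lit 152) (nat_lit 16874863548) (nat_lit 0) (nat_lit 12101317816) (nat_lit 5) (nat_lit 5) (nat_lit 7) (nat_lit 4) (nat_lit 5) (nat_lit 4) (nat_lit 389) (nat_lit 243) (nat_lit 148)) (XT.nd (nat_lit 78) (nat_lit 0) (nat_lit 0) (XT.lf (nat_lit 0) (nat_lit 41096153104) (nat_lit 152) (nat_lit 11433527169) (nat_lit 0) (nat_lit 15742109863) (nat_lit 5) (nat_lit 5) (nat_lit 7) (nat_lit 4) (nat_lit 5) (nat_lit 4) (nat_lit 390) (nat_lit 243) (nat_lit 147)) (XT.lf (nat_lit 0) (nat_lit 44884462943) (nat_lit 152) (nat_lit 5847356807) (nat_lit 0) (nat_lit 19484482281) (nat_lit 5) (nat_lit 5) (nat_lit 7) (nat_lit 4) (nat_lit 5) (nat_lit 4) (nat_lit 391) (nat_lit 243) (nat_lit 146))))) (XT.nd (nat_lit 234) (nat_lit 0) (nat_lit 0) (XT.nd (nat_lit 78) (nat_lit 76) (nat_lit 0) (XT.lf (nat_lit 0) (nat_lit 48776285203) (nat_lit 152) (nat_lit 111471344) (nat_lit 0)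 (nat_lit 23331705103) (nat_lit 5) (nat_lit 5) (nat_lit 7) (nat_lit 4) (nat_lit 5) (nat_lit 4) (nat_lit 392) (nat_lit 243) (nat_lit 145)) (XT.nd (nat_lit 78) (nat_lit 0) (nat_lit 0) (XT.lf (nat_lit 0) (nat_lit 5894157400) (nat_lit 76) (nat_lit 46937521354) (nat_lit 76) (nat_lit 21449640827) (nat_lit 4) (nat_lit 4) (nat_lit 5) (nat_lit 5) (nat_lit 5) (nat_lit 4) (nat_lit 393) (nat_lit 243) (nat_lit 144)) (XT.lf (nat_lit 0) (nat_lit 12065060630) (nat_lit 76) (nat_lit 44935079007) (nat_lit 76) (nat_lit 19405159232) (nat_lit 4) (nat_lit 4) (nat_lit 5) (nat_lit 5) (nat_lit 5) (nat_lit 4) (nat_lit 394) (nat_lit 243) (nat_lit 143)))) (XT.nd (nat_lit 78) (nat_lit 0) (nat_lit 0) (XT.lf (nat_lit 0) (nat_lit 18404411899) (nat_lit 76) (nat_lit 42879805443) (nat_lit 76) (nat_lit 17309070864) (nat_lit 4) (nat_lit 4) (nat_lit 5) (nat_lit 5) (nat_lit 5) (nat_lit 4) (nat_lit 395) (nat_lit 243) (nat_lit 142))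 (XT.nd (nat_lit 78) (nat_lit 0) (nat_lit 0) (XT.lf (nat_lit 0) (nat_lit 24917750447) (nat_lit 76) (nat_lit 40769904792) (nat_lit 76) (nat_lit 15159544190) (nat_lit 4) (nat_lit 4) (nat_lit 5) (nat_lit 5) (nat_lit 5) (nat_lit 4) (nat_lit 396) (nat_lit 243) (nat_lit 141)) (XT.lf (nat_lit 0) (nat_lit 31610767539) (nat_lit 76) (nat_lit 38603533451) (nat_lit 76) (nat_lit 12954700981) (nat_lit 4) (nat_lit 4) (nat_lit 5) (nat_lit 5) (nat_lit 5) (nat_lit 4) (nat_lit 397) (nat_lit 243) (nat_lit 140))))))))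
noncomputable def xc67 : XT := (XT.nd (nat_lit 33852) (nat_lit 0) (nat_lit 1672) (XT.nd (nat_lit 32994) (nat_lit 0) (nat_lit 4484) (XT.nd (nat_lit 32526) (nat_lit 0) (nat_lit 6840) (XT.nd (nat_lit 234) (nat_lit 0) (nat_lit 0) (XT.nd (nat_lit 78) (nat_lit 0) (nat_lit 0) (XT.lf (nat_lit 0) (nat_lit 38489311442) (nat_lit 76) (nat_lit 36378798474) (nat_lit 76) (nat_lit 10692614677) (nat_lit 4) (nat_lit 4) (nat_lit 5) (nat_lit 5) (nat_lit 5) (nat_lit 4) (nat_lit 398) (nat_lit 243) (nat_lit 139)) (XT.lf (nat_lit 0) (nat_lit 45559392536) (nat_lit 76) (nat_lit 34093755919) (nat_lit 76) (nat_lit 8371308697) (nat_lit 4) (nat_lit 4) (nat_lit 5) (nat_lit 5) (nat_lit 5) (nat_lit 4) (nat_lit 399) (nat_lit 243) (nat_lit 138))) (XT.nd (nat_lit 32136) (nat_lit 0) (nat_lit 8740) (XT.lf (nat_lit 0) (nat_lit 60299050017) (nat_lit 76) (nat_lit 29334707076) (nat_lit 76) (nat_lit 3542870889) (nat_lit 4) (nat_lit 4)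 (nat_lit 5) (nat_lit 5) (nat_lit 5) (nat_lit 4) (nat_lit 401) (nat_lit 243) (nat_lit 136)) (XT.nd (nat_lit 78) (nat_lit 532) (nat_lit 0) (XT.lf (nat_lit 0) (nat_lit 2814185684) (nat_lit 532) (nat_lit 521453927) (nat_lit 532) (nat_lit 521453927) (nat_lit 126) (nat_lit 4) (nat_lit 133) (nat_lit 5) (nat_lit 133) (nat_lit 4) (nat_lit 292) (nat_lit 244) (nat_lit 244)) (XT.lf (nat_lit 0) (nat_lit 2051764089) (nat_lit 532) (nat_lit 4993617484) (nat_lit 0) (nat_lit 755262637) (nat_lit 119) (nat_lit 5) (nat_lit 126) (nat_lit 4) (nat_lit 119) (nat_lit 4) (nat_lit 293) (nat_lit 244) (nat_lit 243))))) (XT.nd (nat_lit 234) (nat_lit 912) (nat_lit 0) (XT.nd (nat_lit 78) (nat_lit 988) (nat_lit 0) (XT.lf (nat_lit 0) (nat_lit 5163502666) (nat_lit 532) (nat_lit 119498192) (nat_lit 0) (nat_lit 2608261940) (nat_lit 119) (nat_lit 5) (nat_lit 126) (nat_lit 4) (nat_lit 119) (nat_lit 4) (nat_lit 294) (nat_lit 244) (nat_lit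 242)) (XT.nd (nat_lit 78) (nat_lit 456) (nat_lit 0) (XT.lf (nat_lit 0) (nat_lit 339127145) (nat_lit 532) (nat_lit 3088889586) (nat_lit 76) (nat_lit 4557813441) (nat_lit 112) (nat_lit 5) (nat_lit 119) (nat_lit 5) (nat_lit 113) (nat_lit 4) (nat_lit 295) (nat_lit 244) (nat_lit 241)) (XT.lf (nat_lit 0) (nat_lit 1896069187) (nat_lit 456) (nat_lit 1483176806) (nat_lit 532) (nat_lit 4705310206) (nat_lit 106) (nat_lit 5) (nat_lit 112) (nat_lit 5) (nat_lit 113) (nat_lit 4) (nat_lit 296) (nat_lit 244) (nat_lit 240)))) (XT.nd (nat_lit 78) (nat_lit 912) (nat_lit 0) (XT.lf (nat_lit 0) (nat_lit 6465041934) (nat_lit 532) (nat_lit 1195330103) (nat_lit 0) (nat_lit 527444916) (nat_lit 106) (nat_lit 5) (nat_lit 113) (nat_lit 4) (nat_lit 106) (nat_lit 4) (nat_lit 297) (nat_lit 244) (nat_lit 239)) (XT.nd (nat_lit 78) (nat_lit 380) (nat_lit 0) (XT.lf (nat_lit 0) (nat_lit 1295107893) (nat_lit 532) (nat_lit 4394327548)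 (nat_lit 76) (nat_lit 2605380256) (nat_lit 99) (nat_lit 5) (nat_lit 106) (nat_lit 5) (nat_lit 100) (nat_lit 4) (nat_lit 298) (nat_lit 244) (nat_lit 238)) (XT.lf (nat_lit 0) (nat_lit 668321169) (nat_lit 380) (nat_lit 3640000045) (nat_lit 456) (nat_lit 4098198446) (nat_lit 94) (nat_lit 5) (nat_lit 99) (nat_lit 5) (nat_lit 100) (nat_lit 4) (nat_lit 299) (nat_lit 244) (nat_lit 237)))))) (XT.nd (nat_lit 390) (nat_lit 1064) (nat_lit 0) (XT.nd (nat_lit 156) (nat_lit 836) (nat_lit 0) (XT.nd (nat_lit 78) (nat_lit 456) (nat_lit 0) (XT.lf (nat_lit 0) (nat_lit 5877310221) (nat_lit 380) (nat_lit 1501187974) (nat_lit 456) (nat_lit 1144263582) (nat_lit 94) (nat_lit 5) (nat_lit 99) (nat_lit 5) (nat_lit 100) (nat_lit 4) (nat_lit 300) (nat_lit 244) (nat_lit 236)) (XT.lf (nat_lit 0) (nat_lit 1816162904) (nat_lit 456) (nat_lit 6113870392) (nat_lit 76) (nat_lit 713436439) (nat_lit 88) (nat_lit 5) (nat_lit 94) (nat_lit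 5) (nat_lit 89) (nat_lit 4) (nat_lit 301) (nat_lit 244) (nat_lit 235))) (XT.nd (nat_lit 78) (nat_lit 836) (nat_lit 0) (XT.lf (nat_lit 0) (nat_lit 4808931326) (nat_lit 456) (nat_lit 975170730) (nat_lit 76) (nat_lit 2984529599) (nat_lit 88) (nat_lit 5) (nat_lit 94) (nat_lit 5) (nat_lit 89) (nat_lit 4) (nat_lit 302) (nat_lit 244) (nat_lit 234)) (XT.nd (nat_lit 78) (nat_lit 456) (nat_lit 0) (XT.lf (nat_lit 0) (nat_lit 4308713032) (nat_lit 380) (nat_lit 3551067454) (nat_lit 456) (nat_lit 1038882543) (nat_lit 83) (nat_lit 5) (nat_lit 88) (nat_lit 5) (nat_lit 89) (nat_lit 4) (nat_lit 303) (nat_lit 244) (nat_lit 233)) (XT.lf (nat_lit 0) (nat_lit 638487531) (nat_lit 380) (nat_lit 1235977751) (nat_lit 456) (nat_lit 7159416063) (nat_lit 77) (nat_lit 5) (nat_lit 82) (nat_lit 5) (nat_lit 83) (nat_lit 5) (nat_lit 304) (nat_lit 244) (nat_lit 232))))) (XT.nd (nat_lit 234) (nat_lit 684) (nat_lit 0) (XT.nd (nat_lit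 78) (nat_lit 380) (nat_lit 0) (XT.lf (nat_lit 0) (nat_lit 4840460124) (nat_lit 456) (nat_lit 3170599882) (nat_lit 76) (nat_lit 1162353464) (nat_lit 77) (nat_lit 5) (nat_lit 83) (nat_lit 5) (nat_lit 78) (nat_lit 4) (nat_lit 305) (nat_lit 244) (nat_lit 231)) (XT.nd (nat_lit 78) (nat_lit 76) (nat_lit 0) (XT.lf (nat_lit 0) (nat_lit 2148473227) (nat_lit 304) (nat_lit 5710218399) (nat_lit 380) (nat_lit 1459687518) (nat_lit 73) (nat_lit 5) (nat_lit 77) (nat_lit 5) (nat_lit 78) (nat_lit 4) (nat_lit 306) (nat_lit 244) (nat_lit 230)) (XT.lf (nat_lit 0) (nat_lit 1433545725) (nat_lit 380) (nat_lit 1882118698) (nat_lit 76) (nat_lit 6152842752) (nat_lit 72) (nat_lit 5) (nat_lit 77) (nat_lit 5) (nat_lit 73) (nat_lit 5) (nat_lit 307) (nat_lit 244) (nat_lit 229)))) (XT.nd (nat_lit 78) (nat_lit 380) (nat_lit 0) (XT.lf (nat_lit 0) (nat_lit 3528643847) (nat_lit 304) (nat_lit 822233368) (nat_lit 380) (nat_lit 5272962038)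 (nat_lit 68) (nat_lit 5) (nat_lit 72) (nat_lit 5) (nat_lit 73) (nat_lit 5) (nat_lit 308) (nat_lit 244) (nat_lit 228)) (XT.nd (nat_lit 78) (nat_lit 380) (nat_lit 0) (XT.lf (nat_lit 0) (nat_lit 7325307452) (nat_lit 380) (nat_lit 750994901) (nat_lit 76) (nat_lit 1708570666) (nat_lit 68) (nat_lit 5) (nat_lit 73) (nat_lit 5) (nat_lit 69) (nat_lit 4) (nat_lit 309) (nat_lit 244) (nat_lit 227)) (XT.lf (nat_lit 0) (nat_lit 418785527) (nat_lit 380) (nat_lit 5205635577) (nat_lit 76) (nat_lit 4326638869) (nat_lit 63) (nat_lit 5) (nat_lit 68) (nat_lit 5) (nat_lit 64) (nat_lit 5) (nat_lit 310) (nat_lit 244) (nat_lit 226))))))) (XT.nd (nat_lit 858) (nat_lit 1140) (nat_lit 0) (XT.nd (nat_lit 390) (nat_lit 760) (nat_lit 0) (XT.nd (nat_lit 156) (nat_lit 608) (nat_lit 0) (XT.nd (nat_lit 78) (nat_lit 0) (nat_lit 0) (XT.lf (nat_lit 0) (nat_lit 190466645) (nat_lit 304) (nat_lit 3088899140) (nat_lit 380) (nat_lit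 6843894919) (nat_lit 59) (nat_lit 5) (nat_lit 63) (nat_lit 5) (nat_lit 64) (nat_lit 5) (nat_lit 311) (nat_lit 244) (nat_lit 225)) (XT.lf (nat_lit 0) (nat_lit 5767085679) (nat_lit 304) (nat_lit 448090965) (nat_lit 380) (nat_lit 4085883113) (nat_lit 59) (nat_lit 5) (nat_lit 63) (nat_lit 5) (nat_lit 64) (nat_lit 5) (nat_lit 312) (nat_lit 244) (nat_lit 224))) (XT.nd (nat_lit 78) (nat_lit 380) (nat_lit 0) (XT.lf (nat_lit 0) (nat_lit 936006549) (nat_lit 228) (nat_lit 8272345341) (nat_lit 304) (nat_lit 1276873543) (nat_lit 56) (nat_lit 5) (nat_lit 59) (nat_lit 5) (nat_lit 60) (nat_lit 4) (nat_lit 313) (nat_lit 244) (nat_lit 223)) (XT.nd (nat_lit 78) (nat_lit 304) (nat_lit 0) (XT.lf (nat_lit 0) (nat_lit 1574248302) (nat_lit 304) (nat_lit 4118640759) (nat_lit 76) (nat_lit 4981984328) (nat_lit 55) (nat_lit 5) (nat_lit 59) (nat_lit 5) (nat_lit 56) (nat_lit 5) (nat_lit 314) (nat_lit 244) (nat_lit 222))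 (XT.lf (nat_lit 0) (nat_lit 1404474000) (nat_lit 304) (nat_lit 3034761519) (nat_lit 380) (nat_lit 6432078029) (nat_lit 51) (nat_lit 5) (nat_lit 55) (nat_lit 5) (nat_lit 56) (nat_lit 5) (nat_lit 315) (nat_lit 244) (nat_lit 221))))) (XT.nd (nat_lit 234) (nat_lit 456) (nat_lit 0) (XT.nd (nat_lit 78) (nat_lit 304) (nat_lit 0) (XT.lf (nat_lit 0) (nat_lit 7093400309) (nat_lit 304) (nat_lit 279779907) (nat_lit 380) (nat_lit 3701075399) (nat_lit 51) (nat_lit 5) (nat_lit 55) (nat_lit 5) (nat_lit 56) (nat_lit 5) (nat_lit 316) (nat_lit 244) (nat_lit 220)) (XT.nd (nat_lit 78) (nat_lit 76) (nat_lit 0) (XT.lf (nat_lit 0) (nat_lit 1592785218) (nat_lit 228) (nat_lit 8785140332) (nat_lit 304) (nat_lit 905972980) (nat_lit 48) (nat_lit 5) (nat_lit 51) (nat_lit 5) (nat_lit 52) (nat_lit 4) (nat_lit 317) (nat_lit 244) (nat_lit 219)) (XT.lf (nat_lit 0) (nat_lit 1920954549) (nat_lit 304) (nat_lit 4189341441) (nat_lit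 76) (nat_lit 5389462157) (nat_lit 47) (nat_lit 5) (nat_lit 51) (nat_lit 5) (nat_lit 48) (nat_lit 5) (nat_lit 318) (nat_lit 244) (nat_lit 218)))) (XT.nd (nat_lit 78) (nat_lit 228) (nat_lit 0) (XT.lf (nat_lit 0) (nat_lit 1414739994) (nat_lit 228) (nat_lit 3358102323) (nat_lit 304) (nat_lit 6950319191) (nat_lit 44) (nat_lit 5) (nat_lit 47) (nat_lit 5) (nat_lit 48) (nat_lit 5) (nat_lit 319) (nat_lit 244) (nat_lit 217)) (XT.nd (nat_lit 78) (nat_lit 228) (nat_lit 0) (XT.lf (nat_lit 0) (nat_lit 7192238876) (nat_lit 228) (nat_lit 505948464) (nat_lit 304) (nat_lit 4255527956) (nat_lit 44) (nat_lit 5) (nat_lit 47) (nat_lit 5) (nat_lit 48) (nat_lit 5) (nat_lit 320) (nat_lit 244) (nat_lit 216)) (XT.lf (nat_lit 0) (nat_lit 865736565) (nat_lit 228) (nat_lit 9824190535) (nat_lit 304) (nat_lit 1501982422) (nat_lit 41) (nat_lit 5) (nat_lit 44) (nat_lit 5) (nat_lit 45) (nat_lit 4) (nat_lit 321) (nat_lit 244)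 (nat_lit 215)))))) (XT.nd (nat_lit 468) (nat_lit 608) (nat_lit 0) (XT.nd (nat_lit 234) (nat_lit 228) (nat_lit 0) (XT.nd (nat_lit 78) (nat_lit 228) (nat_lit 0) (XT.lf (nat_lit 0) (nat_lit 1308829638) (nat_lit 304) (nat_lit 5774753729) (nat_lit 76) (nat_lit 5353338728) (nat_lit 40) (nat_lit 5) (nat_lit 44) (nat_lit 5) (nat_lit 41) (nat_lit 5) (nat_lit 322) (nat_lit 244) (nat_lit 214)) (XT.nd (nat_lit 78) (nat_lit 228) (nat_lit 0) (XT.lf (nat_lit 0) (nat_lit 4122445267) (nat_lit 304) (nat_lit 149340550) (nat_lit 76) (nat_lit 8418668893) (nat_lit 40) (nat_lit 5) (nat_lit 44) (nat_lit 5) (nat_lit 41) (nat_lit 5) (nat_lit 323) (nat_lit 244) (nat_lit 213)) (XT.lf (nat_lit 0) (nat_lit 5680262339) (nat_lit 228) (nat_lit 1344971866) (nat_lit 304) (nat_lit 5926289772) (nat_lit 37) (nat_lit 5) (nat_lit 40) (nat_lit 5) (nat_lit 41) (nat_lit 5) (nat_lit 324) (nat_lit 244) (nat_lit 212)))) (XT.nd (nat_lit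 78) (nat_lit 228) (nat_lit 0) (XT.lf (nat_lit 0) (nat_lit 9983330067) (nat_lit 304) (nat_lit 1624604491) (nat_lit 76) (nat_lit 1613515540) (nat_lit 37) (nat_lit 5) (nat_lit 41) (nat_lit 5) (nat_lit 38) (nat_lit 4) (nat_lit 325) (nat_lit 244) (nat_lit 211)) (XT.nd (nat_lit 78) (nat_lit 76) (nat_lit 0) (XT.lf (nat_lit 0) (nat_lit 4186059295) (nat_lit 152) (nat_lit 8849752999) (nat_lit 228) (nat_lit 463561796) (nat_lit 35) (nat_lit 5) (nat_lit 37) (nat_lit 5) (nat_lit 38) (nat_lit 4) (nat_lit 326) (nat_lit 244) (nat_lit 210)) (XT.lf (nat_lit 0) (nat_lit 2316328633) (nat_lit 228) (nat_lit 3678029346) (nat_lit 76) (nat_lit 7791588321) (nat_lit 34) (nat_lit 5) (nat_lit 37) (nat_lit 5) (nat_lit 35) (nat_lit 5) (nat_lit 327) (nat_lit 244) (nat_lit 209))))) (XT.nd (nat_lit 234) (nat_lit 380) (nat_lit 0) (XT.nd (nat_lit 78) (nat_lit 0) (nat_lit 0) (XT.lf (nat_lit 0) (nat_lit 2090623220) (nat_lit 228)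 (nat_lit 3053410424) (nat_lit 304) (nat_lit 8937795793) (nat_lit 31) (nat_lit 5) (nat_lit 34) (nat_lit 5) (nat_lit 35) (nat_lit 5) (nat_lit 328) (nat_lit 244) (nat_lit 208)) (XT.nd (nat_lit 78) (nat_lit 0) (nat_lit 0) (XT.lf (nat_lit 0) (nat_lit 8036538920) (nat_lit 228) (nat_lit 11476409) (nat_lit 304) (nat_lit 6338892029) (nat_lit 31) (nat_lit 5) (nat_lit 34) (nat_lit 5) (nat_lit 35) (nat_lit 5) (nat_lit 329) (nat_lit 244) (nat_lit 207)) (XT.lf (nat_lit 0) (nat_lit 11024521920) (nat_lit 304) (nat_lit 640585075) (nat_lit 76) (nat_lit 3036528315) (nat_lit 31) (nat_lit 5) (nat_lit 35) (nat_lit 5) (nat_lit 32) (nat_lit 4) (nat_lit 330) (nat_lit 244) (nat_lit 206)))) (XT.nd (nat_lit 78) (nat_lit 228) (nat_lit 0) (XT.lf (nat_lit 0) (nat_lit 5275089190) (nat_lit 152) (nat_lit 8822752246) (nat_lit 228) (nat_lit 927796249) (nat_lit 29) (nat_lit 5) (nat_lit 31) (nat_lit 5) (nat_lit 32) (nat_lit 4) (nat_lit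 331) (nat_lit 244) (nat_lit 205)) (XT.nd (nat_lit 78) (nat_lit 152) (nat_lit 0) (XT.lf (nat_lit 0) (nat_lit 1830209775) (nat_lit 228) (nat_lit 4064637508) (nat_lit 76) (nat_lit 9465117655) (nat_lit 28) (nat_lit 5) (nat_lit 31) (nat_lit 5) (nat_lit 29) (nat_lit 5) (nat_lit 332) (nat_lit 244) (nat_lit 204)) (XT.lf (nat_lit 0) (nat_lit 1750344481) (nat_lit 152) (nat_lit 2876877034) (nat_lit 228) (nat_lit 11077630695) (nat_lit 26) (nat_lit 5) (nat_lit 28) (nat_lit 5) (nat_lit 29) (nat_lit 5) (nat_lit 333) (nat_lit 244) (nat_lit 203))))))))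
noncomputable def xc68 : XT := (XT.nd (nat_lit 1716) (nat_lit 532) (nat_lit 0) (XT.nd (nat_lit 858) (nat_lit 532) (nat_lit 0) (XT.nd (nat_lit 390) (nat_lit 228) (nat_lit 0) (XT.nd (nat_lit 156) (nat_lit 228) (nat_lit 0) (XT.nd (nat_lit 78) (nat_lit 0) (nat_lit 0) (XT.lf (nat_lit 0) (nat_lit 7510261881) (nat_lit 228) (nat_lit 8305270592) (nat_lit 76) (nat_lit 244541713) (nat_lit 26) (nat_lit 5) (nat_lit 29) (nat_lit 5) (nat_lit 27) (nat_lit 4) (nat_lit 334) (nat_lit 244) (nat_lit 202)) (XT.lf (nat_lit 0) (nat_lit 10467928290) (nat_lit 228) (nat_lit 2579972189) (nat_lit 76) (nat_lit 3378458428) (nat_lit 26) (nat_lit 5) (nat_lit 29) (nat_lit 5) (nat_lit 27) (nat_lit 4) (nat_lit 335) (nat_lit 244) (nat_lit 201))) (XT.nd (nat_lit 78) (nat_lit 76) (nat_lit 0) (XT.lf (nat_lit 0) (nat_lit 3318806332) (nat_lit 152) (nat_lit 10188246873) (nat_lit 228) (nat_lit 3296845780) (nat_lit 24) (nat_lit 5) (nat_lit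 26) (nat_lit 5) (nat_lit 27) (nat_lit 4) (nat_lit 336) (nat_lit 244) (nat_lit 200)) (XT.nd (nat_lit 78) (nat_lit 76) (nat_lit 0) (XT.lf (nat_lit 0) (nat_lit 9385012459) (nat_lit 152) (nat_lit 7239759129) (nat_lit 228) (nat_lit 568418338) (nat_lit 24) (nat_lit 5) (nat_lit 26) (nat_lit 5) (nat_lit 27) (nat_lit 4) (nat_lit 337) (nat_lit 244) (nat_lit 199)) (XT.lf (nat_lit 0) (nat_lit 2160191072) (nat_lit 228) (nat_lit 2043908792) (nat_lit 76) (nat_lit 13390595488) (nat_lit 23) (nat_lit 5) (nat_lit 26) (nat_lit 5) (nat_lit 24) (nat_lit 5) (nat_lit 338) (nat_lit 244) (nat_lit 198))))) (XT.nd (nat_lit 234) (nat_lit 76) (nat_lit 0) (XT.nd (nat_lit 78) (nat_lit 0) (nat_lit 0) (XT.lf (nat_lit 0) (nat_lit 3904230274) (nat_lit 152) (nat_lit 1055714225) (nat_lit 228) (nat_lit 13048154537) (nat_lit 21) (nat_lit 5) (nat_lit 23) (nat_lit 5) (nat_lit 24) (nat_lit 5) (nat_lit 339) (nat_lit 244) (nat_lit 197))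 (XT.nd (nat_lit 78) (nat_lit 0) (nat_lit 0) (XT.lf (nat_lit 0) (nat_lit 7849025454) (nat_lit 228) (nat_lit 8441746270) (nat_lit 76) (nat_lit 2143015042) (nat_lit 21) (nat_lit 5) (nat_lit 24) (nat_lit 5) (nat_lit 22) (nat_lit 4) (nat_lit 340) (nat_lit 244) (nat_lit 196)) (XT.lf (nat_lit 0) (nat_lit 10799762654) (nat_lit 228) (nat_lit 2678410728) (nat_lit 76) (nat_lit 5394862993) (nat_lit 21) (nat_lit 5) (nat_lit 24) (nat_lit 5) (nat_lit 22) (nat_lit 4) (nat_lit 341) (nat_lit 244) (nat_lit 195)))) (XT.nd (nat_lit 78) (nat_lit 0) (nat_lit 0) (XT.lf (nat_lit 0) (nat_lit 3265034543) (nat_lit 76) (nat_lit 10570937208) (nat_lit 152) (nat_lit 5489622799) (nat_lit 20) (nat_lit 5) (nat_lit 21) (nat_lit 5) (nat_lit 22) (nat_lit 4) (nat_lit 342) (nat_lit 244) (nat_lit 194)) (XT.nd (nat_lit 78) (nat_lit 0) (nat_lit 0) (XT.lf (nat_lit 0) (nat_lit 9385738997) (nat_lit 76) (nat_lit 7570604262) (nat_lit 152)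 (nat_lit 2835632350) (nat_lit 20) (nat_lit 5) (nat_lit 21) (nat_lit 5) (nat_lit 22) (nat_lit 4) (nat_lit 343) (nat_lit 244) (nat_lit 193)) (XT.lf (nat_lit 0) (nat_lit 15635745195) (nat_lit 76) (nat_lit 4501599590) (nat_lit 152) (nat_lit 136030050) (nat_lit 20) (nat_lit 5) (nat_lit 21) (nat_lit 5) (nat_lit 22) (nat_lit 4) (nat_lit 344) (nat_lit 244) (nat_lit 192)))))) (XT.nd (nat_lit 390) (nat_lit 228) (nat_lit 0) (XT.nd (nat_lit 156) (nat_lit 76) (nat_lit 0) (XT.nd (nat_lit 78) (nat_lit 0) (nat_lit 0) (XT.lf (nat_lit 0) (nat_lit 1249581527) (nat_lit 152) (nat_lit 1323012581) (nat_lit 228) (nat_lit 18196505294) (nat_lit 17) (nat_lit 5) (nat_lit 19) (nat_lit 5) (nat_lit 20) (nat_lit 5) (nat_lit 345) (nat_lit 244) (nat_lit 191)) (XT.lf (nat_lit 0) (nat_lit 5393651098) (nat_lit 228) (nat_lit 13944062838) (nat_lit 76) (nat_lit 1940958258) (nat_lit 17) (nat_lit 5) (nat_lit 20) (nat_lit 5) (nat_lit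 18) (nat_lit 4) (nat_lit 346) (nat_lit 244) (nat_lit 190))) (XT.nd (nat_lit 78) (nat_lit 76) (nat_lit 0) (XT.lf (nat_lit 0) (nat_lit 8281235032) (nat_lit 228) (nat_lit 8266563567) (nat_lit 76) (nat_lit 5256309857) (nat_lit 17) (nat_lit 5) (nat_lit 20) (nat_lit 5) (nat_lit 18) (nat_lit 4) (nat_lit 347) (nat_lit 244) (nat_lit 189)) (XT.nd (nat_lit 78) (nat_lit 76) (nat_lit 0) (XT.lf (nat_lit 0) (nat_lit 11225151434) (nat_lit 228) (nat_lit 2469341535) (nat_lit 76) (nat_lit 8651755862) (nat_lit 17) (nat_lit 5) (nat_lit 20) (nat_lit 5) (nat_lit 18) (nat_lit 4) (nat_lit 348) (nat_lit 244) (nat_lit 188)) (XT.lf (nat_lit 0) (nat_lit 3521383669) (nat_lit 76) (nat_lit 10740438685) (nat_lit 152) (nat_lit 8642729194) (nat_lit 16) (nat_lit 5) (nat_lit 17) (nat_lit 5) (nat_lit 18) (nat_lit 4) (nat_lit 349) (nat_lit 244) (nat_lit 187))))) (XT.nd (nat_lit 234) (nat_lit 228) (nat_lit 0) (XT.nd (nat_lit 78) (nat_lit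 0) (nat_lit 0) (XT.lf (nat_lit 0) (nat_lit 9693802996) (nat_lit 76) (nat_lit 7691702303) (nat_lit 152) (nat_lit 6094251021) (nat_lit 16) (nat_lit 5) (nat_lit 17) (nat_lit 5) (nat_lit 18) (nat_lit 4) (nat_lit 350) (nat_lit 244) (nat_lit 186)) (XT.nd (nat_lit 78) (nat_lit 0) (nat_lit 0) (XT.lf (nat_lit 0) (nat_lit 16004165081) (nat_lit 76) (nat_lit 4570555388) (nat_lit 152) (nat_lit 3498371559) (nat_lit 16) (nat_lit 5) (nat_lit 17) (nat_lit 5) (nat_lit 18) (nat_lit 4) (nat_lit 351) (nat_lit 244) (nat_lit 185)) (XT.lf (nat_lit 0) (nat_lit 22457983833) (nat_lit 76) (nat_lit 1374270724) (nat_lit 152) (nat_lit 852822566) (nat_lit 16) (nat_lit 5) (nat_lit 17) (nat_lit 5) (nat_lit 18) (nat_lit 4) (nat_lit 352) (nat_lit 244) (nat_lit 184)))) (XT.nd (nat_lit 78) (nat_lit 0) (nat_lit 0) (XT.lf (nat_lit 0) (nat_lit 1864049907) (nat_lit 228) (nat_lit 21532326271) (nat_lit 76) (nat_lit 1917678019) (nat_lit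 13) (nat_lit 5) (nat_lit 16) (nat_lit 5) (nat_lit 14) (nat_lit 4) (nat_lit 353) (nat_lit 244) (nat_lit 183)) (XT.nd (nat_lit 78) (nat_lit 0) (nat_lit 0) (XT.lf (nat_lit 0) (nat_lit 4654933946) (nat_lit 228) (nat_lit 16012316727) (nat_lit 76) (nat_lit 5294133373) (nat_lit 13) (nat_lit 5) (nat_lit 16) (nat_lit 5) (nat_lit 14) (nat_lit 4) (nat_lit 354) (nat_lit 244) (nat_lit 182)) (XT.lf (nat_lit 0) (nat_lit 7503649065) (nat_lit 228) (nat_lit 10370672660) (nat_lit 76) (nat_lit 8754614328) (nat_lit 13) (nat_lit 5) (nat_lit 16) (nat_lit 5) (nat_lit 14) (nat_lit 4) (nat_lit 355) (nat_lit 244) (nat_lit 181))))))) (XT.nd (nat_lit 858) (nat_lit 228) (nat_lit 0) (XT.nd (nat_lit 390) (nat_lit 228) (nat_lit 0) (XT.nd (nat_lit 156) (nat_lit 0) (nat_lit 0) (XT.nd (nat_lit 78) (nat_lit 76) (nat_lit 0) (XT.lf (nat_lit 0) (nat_lit 10412684433) (nat_lit 228) (nat_lit 4602464479) (nat_lit 76) (nat_lit 12302144606)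 (nat_lit 13) (nat_lit 5) (nat_lit 16) (nat_lit 5) (nat_lit 14) (nat_lit 4) (nat_lit 356) (nat_lit 244) (nat_lit 180)) (XT.lf (nat_lit 0) (nat_lit 1323167768) (nat_lit 76) (nat_lit 12074133256) (nat_lit 152) (nat_lit 14629375320) (nat_lit 12) (nat_lit 5) (nat_lit 13) (nat_lit 5) (nat_lit 14) (nat_lit 4) (nat_lit 357) (nat_lit 244) (nat_lit 179))) (XT.nd (nat_lit 78) (nat_lit 0) (nat_lit 0) (XT.lf (nat_lit 0) (nat_lit 7479879339) (nat_lit 76) (nat_lit 9013960187) (nat_lit 152) (nat_lit 12262852873) (nat_lit 12) (nat_lit 5) (nat_lit 13) (nat_lit 5) (nat_lit 14) (nat_lit 4) (nat_lit 358) (nat_lit 244) (nat_lit 178)) (XT.nd (nat_lit 78) (nat_lit 0) (nat_lit 0) (XT.lf (nat_lit 0) (nat_lit 13781451814) (nat_lit 76) (nat_lit 5878431633) (nat_lit 152) (nat_lit 9849449777) (nat_lit 12) (nat_lit 5) (nat_lit 13) (nat_lit 5) (nat_lit 14) (nat_lit 4) (nat_lit 359) (nat_lit 244) (nat_lit 177)) (XT.lf (nat_lit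 0) (nat_lit 20233391424) (nat_lit 76) (nat_lit 2664807812) (nat_lit 152) (nat_lit 7387057233) (nat_lit 12) (nat_lit 5) (nat_lit 13) (nat_lit 5) (nat_lit 14) (nat_lit 4) (nat_lit 360) (nat_lit 244) (nat_lit 176))))) (XT.nd (nat_lit 234) (nat_lit 0) (nat_lit 0) (XT.nd (nat_lit 78) (nat_lit 228) (nat_lit 0) (XT.lf (nat_lit 0) (nat_lit 26217669737) (nat_lit 152) (nat_lit 4249857588) (nat_lit 0) (nat_lit 617431203) (nat_lit 12) (nat_lit 5) (nat_lit 14) (nat_lit 4) (nat_lit 12) (nat_lit 4) (nat_lit 361) (nat_lit 244) (nat_lit 175)) (XT.nd (nat_lit 78) (nat_lit 76) (nat_lit 0) (XT.lf (nat_lit 0) (nat_lit 1695942025) (nat_lit 152) (nat_lit 27961918453) (nat_lit 152) (nat_lit 2250177739) (nat_lit 10) (nat_lit 4) (nat_lit 12) (nat_lit 5) (nat_lit 12) (nat_lit 4) (nat_lit 362) (nat_lit 244) (nat_lit 174)) (XT.lf (nat_lit 0) (nat_lit 458589381) (nat_lit 228) (nat_lit 24889058812) (nat_lit 76) (nat_lit 7407398064)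 (nat_lit 9) (nat_lit 5) (nat_lit 12) (nat_lit 5) (nat_lit 10) (nat_lit 4) (nat_lit 363) (nat_lit 244) (nat_lit 173)))) (XT.nd (nat_lit 78) (nat_lit 0) (nat_lit 0) (XT.lf (nat_lit 0) (nat_lit 3182514408) (nat_lit 228) (nat_lit 19464592505) (nat_lit 76) (nat_lit 10980334518) (nat_lit 9) (nat_lit 5) (nat_lit 12) (nat_lit 5) (nat_lit 10) (nat_lit 4) (nat_lit 364) (nat_lit 244) (nat_lit 172)) (XT.nd (nat_lit 78) (nat_lit 0) (nat_lit 0) (XT.lf (nat_lit 0) (nat_lit 5967886542) (nat_lit 228) (nat_lit 13912327362) (nat_lit 76) (nat_lit 14646421026) (nat_lit 9) (nat_lit 5) (nat_lit 12) (nat_lit 5) (nat_lit 10) (nat_lit 4) (nat_lit 365) (nat_lit 244) (nat_lit 171)) (XT.lf (nat_lit 0) (nat_lit 8817139604) (nat_lit 228) (nat_lit 8227411889) (nat_lit 76) (nat_lit 18408860965) (nat_lit 9) (nat_lit 5) (nat_lit 12) (nat_lit 5) (nat_lit 10) (nat_lit 4) (nat_lit 366) (nat_lit 244) (nat_lit 170)))))) (XT.nd (nat_lit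 468) (nat_lit 152) (nat_lit 0) (XT.nd (nat_lit 234) (nat_lit 0) (nat_lit 0) (XT.nd (nat_lit 78) (nat_lit 76) (nat_lit 0) (XT.lf (nat_lit 0) (nat_lit 11732763232) (nat_lit 228) (nat_lit 2404878685) (nat_lit 76) (nat_lit 22270941902) (nat_lit 9) (nat_lit 5) (nat_lit 12) (nat_lit 5) (nat_lit 10) (nat_lit 4) (nat_lit 367) (nat_lit 244) (nat_lit 169)) (XT.nd (nat_lit 78) (nat_lit 0) (nat_lit 0) (XT.lf (nat_lit 0) (nat_lit 3631218044) (nat_lit 76) (nat_lit 11120992503) (nat_lit 152) (nat_lit 22639725917) (nat_lit 8) (nat_lit 5) (nat_lit 9) (nat_lit 5) (nat_lit 10) (nat_lit 4) (nat_lit 368) (nat_lit 244) (nat_lit 168)) (XT.lf (nat_lit 0) (nat_lit 9866038154) (nat_lit 76) (nat_lit 8002173174) (nat_lit 152) (nat_lit 20536415561) (nat_lit 8) (nat_lit 5) (nat_lit 9) (nat_lit 5) (nat_lit 10) (nat_lit 4) (nat_lit 369) (nat_lit 244) (nat_lit 167)))) (XT.nd (nat_lit 78) (nat_lit 0) (nat_lit 0) (XT.lf (nat_lit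 0) (nat_lit 16257167744) (nat_lit 76) (nat_lit 4802743308) (nat_lit 152) (nat_lit 18388336237) (nat_lit 8) (nat_lit 5) (nat_lit 9) (nat_lit 5) (nat_lit 10) (nat_lit 4) (nat_lit 370) (nat_lit 244) (nat_lit 166)) (XT.nd (nat_lit 78) (nat_lit 0) (nat_lit 0) (XT.lf (nat_lit 0) (nat_lit 22810191297) (nat_lit 76) (nat_lit 1519907286) (nat_lit 152) (nat_lit 16193610981) (nat_lit 8) (nat_lit 5) (nat_lit 9) (nat_lit 5) (nat_lit 10) (nat_lit 4) (nat_lit 371) (nat_lit 244) (nat_lit 165)) (XT.lf (nat_lit 0) (nat_lit 27699407042) (nat_lit 152) (nat_lit 12118894359) (nat_lit 0) (nat_lit 1813118768) (nat_lit 8) (nat_lit 5) (nat_lit 10) (nat_lit 4) (nat_lit 8) (nat_lit 4) (nat_lit 372) (nat_lit 244) (nat_lit 164))))) (XT.nd (nat_lit 234) (nat_lit 76) (nat_lit 0) (XT.nd (nat_lit 78) (nat_lit 76) (nat_lit 0) (XT.lf (nat_lit 0) (nat_lit 31168457179) (nat_lit 152) (nat_lit 6399996008) (nat_lit 0) (nat_lit 5203963519)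 (nat_lit 8) (nat_lit 5) (nat_lit 10) (nat_lit 4) (nat_lit 8) (nat_lit 4) (nat_lit 373) (nat_lit 244) (nat_lit 163)) (XT.nd (nat_lit 78) (nat_lit 76) (nat_lit 0) (XT.lf (nat_lit 0) (nat_lit 34725669924) (nat_lit 152) (nat_lit 537215840) (nat_lit 0) (nat_lit 8685248706) (nat_lit 8) (nat_lit 5) (nat_lit 10) (nat_lit 4) (nat_lit 8) (nat_lit 4) (nat_lit 374) (nat_lit 244) (nat_lit 162)) (XT.lf (nat_lit 0) (nat_lit 5583523618) (nat_lit 76) (nat_lit 32844302147) (nat_lit 76) (nat_lit 6730164852) (nat_lit 7) (nat_lit 4) (nat_lit 8) (nat_lit 5) (nat_lit 8) (nat_lit 4) (nat_lit 375) (nat_lit 244) (nat_lit 161)))) (XT.nd (nat_lit 78) (nat_lit 76) (nat_lit 0) (XT.lf (nat_lit 0) (nat_lit 11872282406) (nat_lit 76) (nat_lit 30358937201) (nat_lit 76) (nat_lit 4173230900) (nat_lit 7) (nat_lit 4) (nat_lit 8) (nat_lit 5) (nat_lit 8) (nat_lit 4) (nat_lit 376) (nat_lit 244) (nat_lit 160)) (XT.nd (nat_lit 78) (nat_lit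 76) (nat_lit 0) (XT.lf (nat_lit 0) (nat_lit 18323863905) (nat_lit 76) (nat_lit 27810044075) (nat_lit 76) (nat_lit 1554853302) (nat_lit 7) (nat_lit 4) (nat_lit 8) (nat_lit 5) (nat_lit 8) (nat_lit 4) (nat_lit 377) (nat_lit 244) (nat_lit 159)) (XT.lf (nat_lit 0) (nat_lit 1105259022) (nat_lit 152) (nat_lit 24078975609) (nat_lit 76) (nat_lit 23827485449) (nat_lit 6) (nat_lit 5) (nat_lit 8) (nat_lit 5) (nat_lit 7) (nat_lit 4) (nat_lit 378) (nat_lit 244) (nat_lit 158))))))))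
noncomputable def xc69 : XT := (XT.nd (nat_lit 33696) (nat_lit 0) (nat_lit 4180) (XT.nd (nat_lit 858) (nat_lit 76) (nat_lit 0) (XT.nd (nat_lit 390) (nat_lit 0) (nat_lit 0) (XT.nd (nat_lit 156) (nat_lit 76) (nat_lit 0) (XT.nd (nat_lit 78) (nat_lit 0) (nat_lit 0) (XT.lf (nat_lit 0) (nat_lit 3799816334) (nat_lit 152) (nat_lit 18674520044) (nat_lit 76) (nat_lit 27900004425) (nat_lit 6) (nat_lit 5) (nat_lit 8) (nat_lit 5) (nat_lit 7) (nat_lit 4) (nat_lit 379) (nat_lit 244) (nat_lit 157)) (XT.lf (nat_lit 0) (nat_lit 6561513889) (nat_lit 152) (nat_lit 13131862142) (nat_lit 76) (nat_lit 32084886446) (nat_lit 6) (nat_lit 5) (nat_lit 8) (nat_lit 5) (nat_lit 7) (nat_lit 4) (nat_lit 380) (nat_lit 244) (nat_lit 156))) (XT.nd (nat_lit 78) (nat_lit 76) (nat_lit 0) (XT.lf (nat_lit 0) (nat_lit 9392764821) (nat_lit 152) (nat_lit 7446158803) (nat_lit 76) (nat_lit 36385788206) (nat_lit 6) (nat_lit 5) (nat_lit 8)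 (nat_lit 5) (nat_lit 7) (nat_lit 4) (nat_lit 381) (nat_lit 244) (nat_lit 155)) (XT.nd (nat_lit 78) (nat_lit 76) (nat_lit 0) (XT.lf (nat_lit 0) (nat_lit 12296043039) (nat_lit 152) (nat_lit 1612441938) (nat_lit 76) (nat_lit 40806467774) (nat_lit 6) (nat_lit 5) (nat_lit 8) (nat_lit 5) (nat_lit 7) (nat_lit 4) (nat_lit 382) (nat_lit 244) (nat_lit 154)) (XT.lf (nat_lit 0) (nat_lit 4461444731) (nat_lit 76) (nat_lit 10855326791) (nat_lit 152) (nat_lit 40932229283) (nat_lit 5) (nat_lit 5) (nat_lit 6) (nat_lit 5) (nat_lit 7) (nat_lit 4) (nat_lit 383) (nat_lit 244) (nat_lit 153))))) (XT.nd (nat_lit 234) (nat_lit 0) (nat_lit 0) (XT.nd (nat_lit 78) (nat_lit 0) (nat_lit 0) (XT.lf (nat_lit 0) (nat_lit 10728915635) (nat_lit 76) (nat_lit 7703111127) (nat_lit 152) (nat_lit 39396936552) (nat_lit 5) (nat_lit 5) (nat_lit 6) (nat_lit 5) (nat_lit 7) (nat_lit 4) (nat_lit 384) (nat_lit 244) (nat_lit 152)) (XT.nd (nat_lit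 78) (nat_lit 0) (nat_lit 0) (XT.lf (nat_lit 0) (nat_lit 17163356447) (nat_lit 76) (nat_lit 4465366126) (nat_lit 152) (nat_lit 37827972502) (nat_lit 5) (nat_lit 5) (nat_lit 6) (nat_lit 5) (nat_lit 7) (nat_lit 4) (nat_lit 385) (nat_lit 244) (nat_lit 151)) (XT.lf (nat_lit 0) (nat_lit 23770389495) (nat_lit 76) (nat_lit 1139262689) (nat_lit 152) (nat_lit 36223966194) (nat_lit 5) (nat_lit 5) (nat_lit 6) (nat_lit 5) (nat_lit 7) (nat_lit 4) (nat_lit 386) (nat_lit 244) (nat_lit 150)))) (XT.nd (nat_lit 78) (nat_lit 0) (nat_lit 0) (XT.lf (nat_lit 0) (nat_lit 28299580970) (nat_lit 152) (nat_lit 32327309126) (nat_lit 0) (nat_lit 2233651443) (nat_lit 5) (nat_lit 5) (nat_lit 7) (nat_lit 4) (nat_lit 5) (nat_lit 4) (nat_lit 387) (nat_lit 244) (nat_lit 149)) (XT.nd (nat_lit 78) (nat_lit 0) (nat_lit 0) (XT.lf (nat_lit 0) (nat_lit 31791410611) (nat_lit 152) (nat_lit 27171118646) (nat_lit 0) (nat_lit 5676746074)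 (nat_lit 5) (nat_lit 5) (nat_lit 7) (nat_lit 4) (nat_lit 5) (nat_lit 4) (nat_lit 388) (nat_lit 244) (nat_lit 148)) (XT.lf (nat_lit 0) (nat_lit 35377240933) (nat_lit 152) (nat_lit 21879200744) (nat_lit 0) (nat_lit 9215260852) (nat_lit 5) (nat_lit 5) (nat_lit 7) (nat_lit 4) (nat_lit 5) (nat_lit 4) (nat_lit 389) (nat_lit 244) (nat_lit 147)))))) (XT.nd (nat_lit 390) (nat_lit 0) (nat_lit 0) (XT.nd (nat_lit 156) (nat_lit 76) (nat_lit 0) (XT.nd (nat_lit 78) (nat_lit 0) (nat_lit 0) (XT.lf (nat_lit 0) (nat_lit 39060205185) (nat_lit 152) (nat_lit 16446931414) (nat_lit 0) (nat_lit 12852287681) (nat_lit 5) (nat_lit 5) (nat_lit 7) (nat_lit 4) (nat_lit 5) (nat_lit 4) (nat_lit 390) (nat_lit 244) (nat_lit 146)) (XT.lf (nat_lit 0) (nat_lit 42843521490) (nat_lit 152) (nat_lit 10869564013) (nat_lit 0) (nat_lit 16591004548) (nat_lit 5) (nat_lit 5) (nat_lit 7) (nat_lit 4) (nat_lit 5) (nat_lit 4) (nat_lit 391) (nat_lit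 244) (nat_lit 145))) (XT.nd (nat_lit 78) (nat_lit 76) (nat_lit 0) (XT.lf (nat_lit 0) (nat_lit 46730495660) (nat_lit 152) (nat_lit 5142225113) (nat_lit 0) (nat_lit 20434678292) (nat_lit 5) (nat_lit 5) (nat_lit 7) (nat_lit 4) (nat_lit 5) (nat_lit 4) (nat_lit 392) (nat_lit 244) (nat_lit 144)) (XT.nd (nat_lit 78) (nat_lit 0) (nat_lit 0) (XT.lf (nat_lit 0) (nat_lit 754818994) (nat_lit 76) (nat_lit 49976960866) (nat_lit 76) (nat_lit 23639104250) (nat_lit 4) (nat_lit 4) (nat_lit 5) (nat_lit 5) (nat_lit 5) (nat_lit 4) (nat_lit 393) (nat_lit 244) (nat_lit 143)) (XT.lf (nat_lit 0) (nat_lit 6917505939) (nat_lit 76) (nat_lit 47978086034) (nat_lit 76) (nat_lit 21599414613) (nat_lit 4) (nat_lit 4) (nat_lit 5) (nat_lit 5) (nat_lit 5) (nat_lit 4) (nat_lit 394) (nat_lit 244) (nat_lit 142))))) (XT.nd (nat_lit 234) (nat_lit 0) (nat_lit 0) (XT.nd (nat_lit 78) (nat_lit 0) (nat_lit 0) (XT.lf (nat_lit 0) (nat_lit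 13248880233) (nat_lit 76) (nat_lit 45926276075) (nat_lit 76) (nat_lit 19507978632) (nat_lit 4) (nat_lit 4) (nat_lit 5) (nat_lit 5) (nat_lit 5) (nat_lit 4) (nat_lit 395) (nat_lit 244) (nat_lit 141)) (XT.nd (nat_lit 78) (nat_lit 0) (nat_lit 0) (XT.lf (nat_lit 0) (nat_lit 19754474144) (nat_lit 76) (nat_lit 43819738148) (nat_lit 76) (nat_lit 17362968837) (nat_lit 4) (nat_lit 4) (nat_lit 5) (nat_lit 5) (nat_lit 5) (nat_lit 4) (nat_lit 396) (nat_lit 244) (nat_lit 140)) (XT.lf (nat_lit 0) (nat_lit 26439972172) (nat_lit 76) (nat_lit 41656631588) (nat_lit 76) (nat_lit 15162510950) (nat_lit 4) (nat_lit 4) (nat_lit 5) (nat_lit 5) (nat_lit 5) (nat_lit 4) (nat_lit 397) (nat_lit 244) (nat_lit 139)))) (XT.nd (nat_lit 78) (nat_lit 0) (nat_lit 0) (XT.lf (nat_lit 0) (nat_lit 33311216013) (nat_lit 76) (nat_lit 39435066302) (nat_lit 76) (nat_lit 12904682238) (nat_lit 4) (nat_lit 4) (nat_lit 5) (nat_lit 5) (nat_lit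 5) (nat_lit 4) (nat_lit 398) (nat_lit 244) (nat_lit 138)) (XT.nd (nat_lit 156) (nat_lit 0) (nat_lit 0) (XT.lf (nat_lit 0) (nat_lit 40374209667) (nat_lit 76) (nat_lit 37153101115) (nat_lit 76) (nat_lit 10587509843) (nat_lit 4) (nat_lit 4) (nat_lit 5) (nat_lit 5) (nat_lit 5) (nat_lit 4) (nat_lit 399) (nat_lit 244) (nat_lit 137)) (XT.lf (nat_lit 0) (nat_lit 55100305548) (nat_lit 76) (nat_lit 32399940724) (nat_lit 76) (nat_lit 5766981525) (nat_lit 4) (nat_lit 4) (nat_lit 5) (nat_lit 5) (nat_lit 5) (nat_lit 4) (nat_lit 401) (nat_lit 244) (nat_lit 135))))))) (XT.nd (nat_lit 858) (nat_lit 2660) (nat_lit 0) (XT.nd (nat_lit 390) (nat_lit 1900) (nat_lit 0) (XT.nd (nat_lit 156) (nat_lit 532) (nat_lit 0) (XT.nd (nat_lit 78) (nat_lit 532) (nat_lit 0) (XT.lf (nat_lit 0) (nat_lit 887997122) (nat_lit 608) (nat_lit 1999669857) (nat_lit 0) (nat_lit 887997122) (nat_lit 133) (nat_lit 5) (nat_lit 141) (nat_lit 4)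 (nat_lit 133) (nat_lit 4) (nat_lit 290) (nat_lit 245) (nat_lit 245)) (XT.lf (nat_lit 0) (nat_lit 726789926) (nat_lit 532) (nat_lit 4140053253) (nat_lit 532) (nat_lit 2764594863) (nat_lit 126) (nat_lit 4) (nat_lit 133) (nat_lit 5) (nat_lit 133) (nat_lit 4) (nat_lit 291) (nat_lit 245) (nat_lit 244))) (XT.nd (nat_lit 78) (nat_lit 456) (nat_lit 0) (XT.lf (nat_lit 0) (nat_lit 282736225) (nat_lit 608) (nat_lit 2136900348) (nat_lit 76) (nat_lit 5295872654) (nat_lit 125) (nat_lit 5) (nat_lit 133) (nat_lit 5) (nat_lit 126) (nat_lit 4) (nat_lit 292) (nat_lit 245) (nat_lit 243)) (XT.nd (nat_lit 78) (nat_lit 0) (nat_lit 0) (XT.lf (nat_lit 0) (nat_lit 2704909017) (nat_lit 456) (nat_lit 601625640) (nat_lit 532) (nat_lit 4496761483) (nat_lit 119) (nat_lit 5) (nat_lit 125) (nat_lit 5) (nat_lit 126) (nat_lit 4) (nat_lit 293) (nat_lit 245) (nat_lit 242)) (XT.lf (nat_lit 0) (nat_lit 6371163759) (nat_lit 532) (nat_lit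 265826187) (nat_lit 0) (nat_lit 1258449573) (nat_lit 119) (nat_lit 5) (nat_lit 126) (nat_lit 4) (nat_lit 119) (nat_lit 4) (nat_lit 294) (nat_lit 245) (nat_lit 241))))) (XT.nd (nat_lit 234) (nat_lit 912) (nat_lit 0) (XT.nd (nat_lit 78) (nat_lit 456) (nat_lit 0) (XT.lf (nat_lit 0) (nat_lit 1476597331) (nat_lit 532) (nat_lit 3301704094) (nat_lit 76) (nat_lit 3212739412) (nat_lit 112) (nat_lit 5) (nat_lit 119) (nat_lit 5) (nat_lit 113) (nat_lit 4) (nat_lit 295) (nat_lit 245) (nat_lit 240)) (XT.nd (nat_lit 78) (nat_lit 0) (nat_lit 0) (XT.lf (nat_lit 0) (nat_lit 1631687765) (nat_lit 456) (nat_lit 2842602475) (nat_lit 532) (nat_lit 3616851447) (nat_lit 106) (nat_lit 5) (nat_lit 112) (nat_lit 5) (nat_lit 113) (nat_lit 4) (nat_lit 296) (nat_lit 245) (nat_lit 239)) (XT.lf (nat_lit 0) (nat_lit 6687478687) (nat_lit 456) (nat_lit 828271880) (nat_lit 532) (nat_lit 680081016) (nat_lit 106) (nat_lit 5) (nat_lit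 112) (nat_lit 5) (nat_lit 113) (nat_lit 4) (nat_lit 297) (nat_lit 245) (nat_lit 238)))) (XT.nd (nat_lit 78) (nat_lit 380) (nat_lit 0) (XT.lf (nat_lit 0) (nat_lit 2267382110) (nat_lit 532) (nat_lit 4771286665) (nat_lit 76) (nat_lit 1265456439) (nat_lit 99) (nat_lit 5) (nat_lit 106) (nat_lit 5) (nat_lit 100) (nat_lit 4) (nat_lit 298) (nat_lit 245) (nat_lit 237)) (XT.nd (nat_lit 78) (nat_lit 0) (nat_lit 0) (XT.lf (nat_lit 0) (nat_lit 236757100) (nat_lit 380) (nat_lit 5001814164) (nat_lit 456) (nat_lit 3178609303) (nat_lit 94) (nat_lit 5) (nat_lit 99) (nat_lit 5) (nat_lit 100) (nat_lit 4) (nat_lit 299) (nat_lit 245) (nat_lit 236)) (XT.lf (nat_lit 0) (nat_lit 5400015350) (nat_lit 380) (nat_lit 2871520769) (nat_lit 456) (nat_lit 263090953) (nat_lit 94) (nat_lit 5) (nat_lit 99) (nat_lit 5) (nat_lit 100) (nat_lit 4) (nat_lit 300) (nat_lit 245) (nat_lit 235)))))) (XT.nd (nat_lit 468) (nat_lit 1064) (nat_lit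 0) (XT.nd (nat_lit 234) (nat_lit 760) (nat_lit 0) (XT.nd (nat_lit 78) (nat_lit 380) (nat_lit 0) (XT.lf (nat_lit 0) (nat_lit 1983159913) (nat_lit 380) (nat_lit 648094555) (nat_lit 456) (nat_lit 6025376012) (nat_lit 88) (nat_lit 5) (nat_lit 93) (nat_lit 5) (nat_lit 94) (nat_lit 5) (nat_lit 301) (nat_lit 245) (nat_lit 234)) (XT.nd (nat_lit 78) (nat_lit 380) (nat_lit 0) (XT.lf (nat_lit 0) (nat_lit 5581773156) (nat_lit 456) (nat_lit 1574381122) (nat_lit 76) (nat_lit 1626986168) (nat_lit 88) (nat_lit 5) (nat_lit 94) (nat_lit 5) (nat_lit 89) (nat_lit 4) (nat_lit 302) (nat_lit 245) (nat_lit 233)) (XT.lf (nat_lit 0) (nat_lit 3652186492) (nat_lit 380) (nat_lit 4939154159) (nat_lit 456) (nat_lit 323147828) (nat_lit 83) (nat_lit 5) (nat_lit 88) (nat_lit 5) (nat_lit 89) (nat_lit 4) (nat_lit 303) (nat_lit 245) (nat_lit 232)))) (XT.nd (nat_lit 78) (nat_lit 684) (nat_lit 0) (XT.lf (nat_lit 0) (nat_lit 2535305319)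 (nat_lit 456) (nat_lit 98038477) (nat_lit 76) (nat_lit 6417458160) (nat_lit 82) (nat_lit 5) (nat_lit 88) (nat_lit 5) (nat_lit 83) (nat_lit 5) (nat_lit 304) (nat_lit 245) (nat_lit 231)) (XT.nd (nat_lit 78) (nat_lit 304) (nat_lit 0) (XT.lf (nat_lit 0) (nat_lit 5231678721) (nat_lit 380) (nat_lit 223060636) (nat_lit 456) (nat_lit 3737063120) (nat_lit 77) (nat_lit 5) (nat_lit 82) (nat_lit 5) (nat_lit 83) (nat_lit 5) (nat_lit 305) (nat_lit 245) (nat_lit 230)) (XT.lf (nat_lit 0) (nat_lit 1300473276) (nat_lit 304) (nat_lit 7128898998) (nat_lit 380) (nat_lit 908773324) (nat_lit 73) (nat_lit 5) (nat_lit 77) (nat_lit 5) (nat_lit 78) (nat_lit 4) (nat_lit 306) (nat_lit 245) (nat_lit 229))))) (XT.nd (nat_lit 234) (nat_lit 684) (nat_lit 0) (XT.nd (nat_lit 78) (nat_lit 304) (nat_lit 0) (XT.lf (nat_lit 0) (nat_lit 1940566762) (nat_lit 380) (nat_lit 2799546585) (nat_lit 76) (nat_lit 4749061193) (nat_lit 72) (nat_lit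 5) (nat_lit 77) (nat_lit 5) (nat_lit 73) (nat_lit 5) (nat_lit 307) (nat_lit 245) (nat_lit 228)) (XT.nd (nat_lit 78) (nat_lit 0) (nat_lit 0) (XT.lf (nat_lit 0) (nat_lit 2549026545) (nat_lit 304) (nat_lit 2267277512) (nat_lit 380) (nat_lit 4829513977) (nat_lit 68) (nat_lit 5) (nat_lit 72) (nat_lit 5) (nat_lit 73) (nat_lit 5) (nat_lit 308) (nat_lit 245) (nat_lit 227)) (XT.lf (nat_lit 0) (nat_lit 7745087604) (nat_lit 380) (nat_lit 1782257099) (nat_lit 76) (nat_lit 280938237) (nat_lit 68) (nat_lit 5) (nat_lit 73) (nat_lit 5) (nat_lit 69) (nat_lit 4) (nat_lit 309) (nat_lit 245) (nat_lit 226)))) (XT.nd (nat_lit 78) (nat_lit 304) (nat_lit 0) (XT.lf (nat_lit 0) (nat_lit 765596798) (nat_lit 380) (nat_lit 6328662306) (nat_lit 76) (nat_lit 2881409412) (nat_lit 63) (nat_lit 5) (nat_lit 68) (nat_lit 5) (nat_lit 64) (nat_lit 5) (nat_lit 310) (nat_lit 245) (nat_lit 225)) (XT.nd (nat_lit 78) (nat_lit 304) (nat_lit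 0) (XT.lf (nat_lit 0) (nat_lit 3593653134) (nat_lit 380) (nat_lit 978817654) (nat_lit 76) (nat_lit 5576430677) (nat_lit 63) (nat_lit 5) (nat_lit 68) (nat_lit 5) (nat_lit 64) (nat_lit 5) (nat_lit 311) (nat_lit 245) (nat_lit 224)) (XT.lf (nat_lit 0) (nat_lit 4536197174) (nat_lit 304) (nat_lit 1953466576) (nat_lit 380) (nat_lit 3838285627) (nat_lit 59) (nat_lit 5) (nat_lit 63) (nat_lit 5) (nat_lit 64) (nat_lit 5) (nat_lit 312) (nat_lit 245) (nat_lit 223))))))))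
noncomputable def xc70 : XT := (XT.nd (nat_lit 1716) (nat_lit 988) (nat_lit 0) (XT.nd (nat_lit 858) (nat_lit 1064) (nat_lit 0) (XT.nd (nat_lit 390) (nat_lit 608) (nat_lit 0) (XT.nd (nat_lit 156) (nat_lit 532) (nat_lit 0) (XT.nd (nat_lit 78) (nat_lit 304) (nat_lit 0) (XT.lf (nat_lit 0) (nat_lit 9429935434) (nat_lit 380) (nat_lit 367284491) (nat_lit 76) (nat_lit 716535493) (nat_lit 59) (nat_lit 5) (nat_lit 64) (nat_lit 5) (nat_lit 60) (nat_lit 4) (nat_lit 313) (nat_lit 245) (nat_lit 222)) (XT.lf (nat_lit 0) (nat_lit 1730585377) (nat_lit 304) (nat_lit 5501642812) (nat_lit 76) (nat_lit 3472158191) (nat_lit 55) (nat_lit 5) (nat_lit 59) (nat_lit 5) (nat_lit 56) (nat_lit 5) (nat_lit 314) (nat_lit 245) (nat_lit 221))) (XT.nd (nat_lit 78) (nat_lit 532) (nat_lit 0) (XT.lf (nat_lit 0) (nat_lit 4553612870) (nat_lit 304) (nat_lit 46655975) (nat_lit 76) (nat_lit 6301865224) (nat_lit 55) (nat_lit 5) (nat_lit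 59) (nat_lit 5) (nat_lit 56) (nat_lit 5) (nat_lit 315) (nat_lit 245) (nat_lit 220)) (XT.nd (nat_lit 78) (nat_lit 228) (nat_lit 0) (XT.lf (nat_lit 0) (nat_lit 5601019443) (nat_lit 304) (nat_lit 1858062952) (nat_lit 380) (nat_lit 3646895314) (nat_lit 51) (nat_lit 5) (nat_lit 55) (nat_lit 5) (nat_lit 56) (nat_lit 5) (nat_lit 316) (nat_lit 245) (nat_lit 219)) (XT.lf (nat_lit 0) (nat_lit 13133929) (nat_lit 228) (nat_lit 10393021260) (nat_lit 304) (nat_lit 911241550) (nat_lit 48) (nat_lit 5) (nat_lit 51) (nat_lit 5) (nat_lit 52) (nat_lit 4) (nat_lit 317) (nat_lit 245) (nat_lit 218))))) (XT.nd (nat_lit 234) (nat_lit 304) (nat_lit 0) (XT.nd (nat_lit 78) (nat_lit 228) (nat_lit 0) (XT.lf (nat_lit 0) (nat_lit 1888578062) (nat_lit 304) (nat_lit 5842529080) (nat_lit 76) (nat_lit 3803010358) (nat_lit 47) (nat_lit 5) (nat_lit 51) (nat_lit 5) (nat_lit 48) (nat_lit 5) (nat_lit 318) (nat_lit 245) (nat_lit 217))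 (XT.nd (nat_lit 78) (nat_lit 228) (nat_lit 0) (XT.lf (nat_lit 0) (nat_lit 4700448304) (nat_lit 304) (nat_lit 304975468) (nat_lit 76) (nat_lit 6753339656) (nat_lit 47) (nat_lit 5) (nat_lit 51) (nat_lit 5) (nat_lit 48) (nat_lit 5) (nat_lit 319) (nat_lit 245) (nat_lit 216)) (XT.lf (nat_lit 0) (nat_lit 5427914232) (nat_lit 228) (nat_lit 2168869954) (nat_lit 304) (nat_lit 4393444121) (nat_lit 44) (nat_lit 5) (nat_lit 47) (nat_lit 5) (nat_lit 48) (nat_lit 5) (nat_lit 320) (nat_lit 245) (nat_lit 215)))) (XT.nd (nat_lit 78) (nat_lit 304) (nat_lit 0) (XT.lf (nat_lit 0) (nat_lit 10538838747) (nat_lit 304) (nat_lit 974107388) (nat_lit 76) (nat_lit 717006583) (nat_lit 44) (nat_lit 5) (nat_lit 48) (nat_lit 5) (nat_lit 45) (nat_lit 4) (nat_lit 321) (nat_lit 245) (nat_lit 214)) (XT.nd (nat_lit 78) (nat_lit 0) (nat_lit 0) (XT.lf (nat_lit 0) (nat_lit 1088457185) (nat_lit 304) (nat_lit 7708666210) (nat_lit 76)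 (nat_lit 3678981735) (nat_lit 40) (nat_lit 5) (nat_lit 44) (nat_lit 5) (nat_lit 41) (nat_lit 5) (nat_lit 322) (nat_lit 245) (nat_lit 213)) (XT.lf (nat_lit 0) (nat_lit 3877522412) (nat_lit 304) (nat_lit 2120403308) (nat_lit 76) (nat_lit 6732484803) (nat_lit 40) (nat_lit 5) (nat_lit 44) (nat_lit 5) (nat_lit 41) (nat_lit 5) (nat_lit 323) (nat_lit 245) (nat_lit 212)))))) (XT.nd (nat_lit 390) (nat_lit 608) (nat_lit 0) (XT.nd (nat_lit 156) (nat_lit 228) (nat_lit 0) (XT.nd (nat_lit 78) (nat_lit 0) (nat_lit 0) (XT.lf (nat_lit 0) (nat_lit 3633185509) (nat_lit 228) (nat_lit 3103612745) (nat_lit 304) (nat_lit 6256022137) (nat_lit 37) (nat_lit 5) (nat_lit 40) (nat_lit 5) (nat_lit 41) (nat_lit 5) (nat_lit 324) (nat_lit 245) (nat_lit 211)) (XT.lf (nat_lit 0) (nat_lit 9530347501) (nat_lit 228) (nat_lit 125243416) (nat_lit 304) (nat_lit 3608368875) (nat_lit 37) (nat_lit 5) (nat_lit 40) (nat_lit 5) (nat_lit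 41) (nat_lit 5) (nat_lit 325) (nat_lit 245) (nat_lit 210))) (XT.nd (nat_lit 78) (nat_lit 76) (nat_lit 0) (XT.lf (nat_lit 0) (nat_lit 2000326443) (nat_lit 152) (nat_lit 10662617638) (nat_lit 228) (nat_lit 880326764) (nat_lit 35) (nat_lit 5) (nat_lit 37) (nat_lit 5) (nat_lit 38) (nat_lit 4) (nat_lit 326) (nat_lit 245) (nat_lit 209)) (XT.nd (nat_lit 78) (nat_lit 0) (nat_lit 0) (XT.lf (nat_lit 0) (nat_lit 1884858149) (nat_lit 228) (nat_lit 5939070149) (nat_lit 76) (nat_lit 6006751367) (nat_lit 34) (nat_lit 5) (nat_lit 37) (nat_lit 5) (nat_lit 35) (nat_lit 5) (nat_lit 327) (nat_lit 245) (nat_lit 208)) (XT.lf (nat_lit 0) (nat_lit 4670293897) (nat_lit 228) (nat_lit 245598993) (nat_lit 76) (nat_lit 9211968362) (nat_lit 34) (nat_lit 5) (nat_lit 37) (nat_lit 5) (nat_lit 35) (nat_lit 5) (nat_lit 328) (nat_lit 245) (nat_lit 207))))) (XT.nd (nat_lit 234) (nat_lit 228) (nat_lit 0) (XT.nd (nat_lit 78) (nat_lit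 152) (nat_lit 0) (XT.lf (nat_lit 0) (nat_lit 5661380098) (nat_lit 228) (nat_lit 1888633251) (nat_lit 304) (nat_lit 6883683177) (nat_lit 31) (nat_lit 5) (nat_lit 34) (nat_lit 5) (nat_lit 35) (nat_lit 5) (nat_lit 329) (nat_lit 245) (nat_lit 206)) (XT.nd (nat_lit 78) (nat_lit 152) (nat_lit 0) (XT.lf (nat_lit 0) (nat_lit 10487143893) (nat_lit 304) (nat_lit 3078097040) (nat_lit 76) (nat_lit 1184393455) (nat_lit 31) (nat_lit 5) (nat_lit 35) (nat_lit 5) (nat_lit 32) (nat_lit 4) (nat_lit 330) (nat_lit 245) (nat_lit 205)) (XT.lf (nat_lit 0) (nat_lit 2755787096) (nat_lit 152) (nat_lit 10759748882) (nat_lit 228) (nat_lit 1559476401) (nat_lit 29) (nat_lit 5) (nat_lit 31) (nat_lit 5) (nat_lit 32) (nat_lit 4) (nat_lit 331) (nat_lit 245) (nat_lit 204)))) (XT.nd (nat_lit 78) (nat_lit 152) (nat_lit 0) (XT.lf (nat_lit 0) (nat_lit 1190209642) (nat_lit 228) (nat_lit 6659988876) (nat_lit 76) (nat_lit 7559968867)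 (nat_lit 28) (nat_lit 5) (nat_lit 31) (nat_lit 5) (nat_lit 29) (nat_lit 5) (nat_lit 332) (nat_lit 245) (nat_lit 203)) (XT.nd (nat_lit 78) (nat_lit 152) (nat_lit 0) (XT.lf (nat_lit 0) (nat_lit 3950351014) (nat_lit 228) (nat_lit 910955300) (nat_lit 76) (nat_lit 10894879889) (nat_lit 28) (nat_lit 5) (nat_lit 31) (nat_lit 5) (nat_lit 29) (nat_lit 5) (nat_lit 333) (nat_lit 245) (nat_lit 202)) (XT.lf (nat_lit 0) (nat_lit 5046362214) (nat_lit 152) (nat_lit 1755936995) (nat_lit 228) (nat_lit 9310066431) (nat_lit 26) (nat_lit 5) (nat_lit 28) (nat_lit 5) (nat_lit 29) (nat_lit 5) (nat_lit 334) (nat_lit 245) (nat_lit 201))))))) (XT.nd (nat_lit 858) (nat_lit 456) (nat_lit 0) (XT.nd (nat_lit 390) (nat_lit 152) (nat_lit 0) (XT.nd (nat_lit 156) (nat_lit 228) (nat_lit 0) (XT.nd (nat_lit 78) (nat_lit 152) (nat_lit 0) (XT.lf (nat_lit 0) (nat_lit 9723788998) (nat_lit 228) (nat_lit 5354880414) (nat_lit 76) (nat_lit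 1401090222) (nat_lit 26) (nat_lit 5) (nat_lit 29) (nat_lit 5) (nat_lit 27) (nat_lit 4) (nat_lit 335) (nat_lit 245) (nat_lit 200)) (XT.lf (nat_lit 0) (nat_lit 457921918) (nat_lit 152) (nat_lit 12258756007) (nat_lit 228) (nat_lit 4142032143) (nat_lit 24) (nat_lit 5) (nat_lit 26) (nat_lit 5) (nat_lit 27) (nat_lit 4) (nat_lit 336) (nat_lit 245) (nat_lit 199))) (XT.nd (nat_lit 78) (nat_lit 228) (nat_lit 0) (XT.lf (nat_lit 0) (nat_lit 6494273605) (nat_lit 152) (nat_lit 9321646000) (nat_lit 228) (nat_lit 1432658305) (nat_lit 24) (nat_lit 5) (nat_lit 26) (nat_lit 5) (nat_lit 27) (nat_lit 4) (nat_lit 337) (nat_lit 245) (nat_lit 198)) (XT.nd (nat_lit 78) (nat_lit 152) (nat_lit 0) (XT.lf (nat_lit 0) (nat_lit 1294677869) (nat_lit 228) (nat_lit 5011095199) (nat_lit 76) (nat_lit 11345124928) (nat_lit 23) (nat_lit 5) (nat_lit 26) (nat_lit 5) (nat_lit 24) (nat_lit 5) (nat_lit 338) (nat_lit 245) (nat_lit 197))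 (XT.lf (nat_lit 0) (nat_lit 848911781) (nat_lit 152) (nat_lit 3198540537) (nat_lit 228) (nat_lit 14018279413) (nat_lit 21) (nat_lit 5) (nat_lit 23) (nat_lit 5) (nat_lit 24) (nat_lit 5) (nat_lit 339) (nat_lit 245) (nat_lit 196))))) (XT.nd (nat_lit 234) (nat_lit 76) (nat_lit 0) (XT.nd (nat_lit 78) (nat_lit 76) (nat_lit 0) (XT.lf (nat_lit 0) (nat_lit 6898462800) (nat_lit 228) (nat_lit 11562768271) (nat_lit 76) (nat_lit 31350583) (nat_lit 21) (nat_lit 5) (nat_lit 24) (nat_lit 5) (nat_lit 22) (nat_lit 4) (nat_lit 340) (nat_lit 245) (nat_lit 195)) (XT.nd (nat_lit 78) (nat_lit 76) (nat_lit 0) (XT.lf (nat_lit 0) (nat_lit 9832236588) (nat_lit 228) (nat_lit 5827266680) (nat_lit 76) (nat_lit 3272856392) (nat_lit 21) (nat_lit 5) (nat_lit 24) (nat_lit 5) (nat_lit 22) (nat_lit 4) (nat_lit 341) (nat_lit 245) (nat_lit 194)) (XT.lf (nat_lit 0) (nat_lit 25949114) (nat_lit 76) (nat_lit 12794891169) (nat_lit 152)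 (nat_lit 6565524642) (nat_lit 20) (nat_lit 5) (nat_lit 21) (nat_lit 5) (nat_lit 22) (nat_lit 4) (nat_lit 342) (nat_lit 245) (nat_lit 193)))) (XT.nd (nat_lit 78) (nat_lit 76) (nat_lit 0) (XT.lf (nat_lit 0) (nat_lit 6119895248) (nat_lit 76) (nat_lit 9805069682) (nat_lit 152) (nat_lit 3928286834) (nat_lit 20) (nat_lit 5) (nat_lit 21) (nat_lit 5) (nat_lit 22) (nat_lit 4) (nat_lit 343) (nat_lit 245) (nat_lit 192)) (XT.nd (nat_lit 78) (nat_lit 76) (nat_lit 0) (XT.lf (nat_lit 0) (nat_lit 12343922495) (nat_lit 76) (nat_lit 6746270309) (nat_lit 152) (nat_lit 1244949234) (nat_lit 20) (nat_lit 5) (nat_lit 21) (nat_lit 5) (nat_lit 22) (nat_lit 4) (nat_lit 344) (nat_lit 245) (nat_lit 191)) (XT.lf (nat_lit 0) (nat_lit 1457819357) (nat_lit 152) (nat_lit 2143279840) (nat_lit 76) (nat_lit 17230928852) (nat_lit 19) (nat_lit 5) (nat_lit 21) (nat_lit 5) (nat_lit 20) (nat_lit 5) (nat_lit 345) (nat_lit 245) (nat_lit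 190)))))) (XT.nd (nat_lit 468) (nat_lit 228) (nat_lit 0) (XT.nd (nat_lit 234) (nat_lit 76) (nat_lit 0) (XT.nd (nat_lit 78) (nat_lit 0) (nat_lit 0) (XT.lf (nat_lit 0) (nat_lit 3893395616) (nat_lit 152) (nat_lit 330164136) (nat_lit 228) (nat_lit 17119716913) (nat_lit 17) (nat_lit 5) (nat_lit 19) (nat_lit 5) (nat_lit 20) (nat_lit 5) (nat_lit 346) (nat_lit 245) (nat_lit 189)) (XT.nd (nat_lit 78) (nat_lit 0) (nat_lit 0) (XT.lf (nat_lit 0) (nat_lit 7093046276) (nat_lit 228) (nat_lit 11794135239) (nat_lit 76) (nat_lit 2982090182) (nat_lit 17) (nat_lit 5) (nat_lit 20) (nat_lit 5) (nat_lit 18) (nat_lit 4) (nat_lit 347) (nat_lit 245) (nat_lit 188)) (XT.lf (nat_lit 0) (nat_lit 10022473680) (nat_lit 228) (nat_lit 6021114373) (nat_lit 76) (nat_lit 6368274081) (nat_lit 17) (nat_lit 5) (nat_lit 20) (nat_lit 5) (nat_lit 18) (nat_lit 4) (nat_lit 348) (nat_lit 245) (nat_lit 187)))) (XT.nd (nat_lit 78) (nat_lit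 76) (nat_lit 0) (XT.lf (nat_lit 0) (nat_lit 13011227916) (nat_lit 228) (nat_lit 122600324) (nat_lit 76) (nat_lit 9837789051) (nat_lit 17) (nat_lit 5) (nat_lit 20) (nat_lit 5) (nat_lit 18) (nat_lit 4) (nat_lit 349) (nat_lit 245) (nat_lit 186)) (XT.nd (nat_lit 78) (nat_lit 0) (nat_lit 0) (XT.lf (nat_lit 0) (nat_lit 6024113092) (nat_lit 76) (nat_lit 10095714886) (nat_lit 152) (nat_lit 7427461076) (nat_lit 16) (nat_lit 5) (nat_lit 17) (nat_lit 5) (nat_lit 18) (nat_lit 4) (nat_lit 350) (nat_lit 245) (nat_lit 185)) (XT.lf (nat_lit 0) (nat_lit 12311886904) (nat_lit 76) (nat_lit 6983679625) (nat_lit 152) (nat_lit 4845476615) (nat_lit 16) (nat_lit 5) (nat_lit 17) (nat_lit 5) (nat_lit 18) (nat_lit 4) (nat_lit 351) (nat_lit 245) (nat_lit 184))))) (XT.nd (nat_lit 234) (nat_lit 0) (nat_lit 0) (XT.nd (nat_lit 78) (nat_lit 228) (nat_lit 0) (XT.lf (nat_lit 0) (nat_lit 18743775294) (nat_lit 76) (nat_lit 3796241228)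 (nat_lit 152) (nat_lit 2213417914) (nat_lit 16) (nat_lit 5) (nat_lit 17) (nat_lit 5) (nat_lit 18) (nat_lit 4) (nat_lit 352) (nat_lit 245) (nat_lit 183)) (XT.nd (nat_lit 78) (nat_lit 152) (nat_lit 0) (XT.lf (nat_lit 0) (nat_lit 461823688) (nat_lit 152) (nat_lit 64127350) (nat_lit 76) (nat_lit 24858911156) (nat_lit 15) (nat_lit 5) (nat_lit 17) (nat_lit 5) (nat_lit 16) (nat_lit 5) (nat_lit 353) (nat_lit 245) (nat_lit 182)) (XT.lf (nat_lit 0) (nat_lit 3234260664) (nat_lit 228) (nat_lit 19946871147) (nat_lit 76) (nat_lit 2851626156) (nat_lit 13) (nat_lit 5) (nat_lit 16) (nat_lit 5) (nat_lit 14) (nat_lit 4) (nat_lit 354) (nat_lit 245) (nat_lit 181)))) (XT.nd (nat_lit 78) (nat_lit 0) (nat_lit 0) (XT.lf (nat_lit 0) (nat_lit 6070590954) (nat_lit 228) (nat_lit 14326254276) (nat_lit 76) (nat_lit 6303848438) (nat_lit 13) (nat_lit 5) (nat_lit 16) (nat_lit 5) (nat_lit 14) (nat_lit 4) (nat_lit 355) (nat_lit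 245) (nat_lit 180)) (XT.nd (nat_lit 78) (nat_lit 0) (nat_lit 0) (XT.lf (nat_lit 0) (nat_lit 8967602216) (nat_lit 228) (nat_lit 8578460847) (nat_lit 76) (nat_lit 9843360587) (nat_lit 13) (nat_lit 5) (nat_lit 16) (nat_lit 5) (nat_lit 14) (nat_lit 4) (nat_lit 356) (nat_lit 245) (nat_lit 179)) (XT.lf (nat_lit 0) (nat_lit 11927825820) (nat_lit 228) (nat_lit 2698468516) (nat_lit 76) (nat_lit 13473255381) (nat_lit 13) (nat_lit 5) (nat_lit 16) (nat_lit 5) (nat_lit 14) (nat_lit 4) (nat_lit 357) (nat_lit 245) (nat_lit 178))))))))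
noncomputable def xc71 : XT := (XT.nd (nat_lit 1716) (nat_lit 152) (nat_lit 0) (XT.nd (nat_lit 858) (nat_lit 228) (nat_lit 0) (XT.nd (nat_lit 390) (nat_lit 228) (nat_lit 0) (XT.nd (nat_lit 156) (nat_lit 0) (nat_lit 0) (XT.nd (nat_lit 78) (nat_lit 0) (nat_lit 0) (XT.lf (nat_lit 0) (nat_lit 3384912405) (nat_lit 76) (nat_lit 11601473813) (nat_lit 152) (nat_lit 13844330014) (nat_lit 12) (nat_lit 5) (nat_lit 13) (nat_lit 5) (nat_lit 14) (nat_lit 4) (nat_lit 358) (nat_lit 245) (nat_lit 177)) (XT.lf (nat_lit 0) (nat_lit 9667430674) (nat_lit 76) (nat_lit 8473812544) (nat_lit 152) (nat_lit 11442460241) (nat_lit 12) (nat_lit 5) (nat_lit 13) (nat_lit 5) (nat_lit 14) (nat_lit 4) (nat_lit 359) (nat_lit 245) (nat_lit 176))) (XT.nd (nat_lit 78) (nat_lit 0) (nat_lit 0) (XT.lf (nat_lit 0) (nat_lit 16100871053) (nat_lit 76) (nat_lit 5267826865) (nat_lit 152) (nat_lit 8991265097) (nat_lit 12) (nat_lit 5) (nat_lit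 13) (nat_lit 5) (nat_lit 14) (nat_lit 4) (nat_lit 360) (nat_lit 245) (nat_lit 175)) (XT.nd (nat_lit 78) (nat_lit 0) (nat_lit 0) (XT.lf (nat_lit 0) (nat_lit 22690854996) (nat_lit 76) (nat_lit 1980715429) (nat_lit 152) (nat_lit 6488602763) (nat_lit 12) (nat_lit 5) (nat_lit 13) (nat_lit 5) (nat_lit 14) (nat_lit 4) (nat_lit 361) (nat_lit 245) (nat_lit 174)) (XT.lf (nat_lit 0) (nat_lit 28066112061) (nat_lit 152) (nat_lit 2555257764) (nat_lit 0) (nat_lit 1363262403) (nat_lit 12) (nat_lit 5) (nat_lit 14) (nat_lit 4) (nat_lit 12) (nat_lit 4) (nat_lit 362) (nat_lit 245) (nat_lit 173))))) (XT.nd (nat_lit 234) (nat_lit 0) (nat_lit 0) (XT.nd (nat_lit 78) (nat_lit 76) (nat_lit 0) (XT.lf (nat_lit 0) (nat_lit 3551052156) (nat_lit 152) (nat_lit 28044870266) (nat_lit 152) (nat_lit 1236919110) (nat_lit 10) (nat_lit 4) (nat_lit 12) (nat_lit 5) (nat_lit 12) (nat_lit 4) (nat_lit 363) (nat_lit 245) (nat_lit 172))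 (XT.nd (nat_lit 78) (nat_lit 0) (nat_lit 0) (XT.lf (nat_lit 0) (nat_lit 1501157125) (nat_lit 228) (nat_lit 23862642481) (nat_lit 76) (nat_lit 8342102407) (nat_lit 9) (nat_lit 5) (nat_lit 12) (nat_lit 5) (nat_lit 10) (nat_lit 4) (nat_lit 364) (nat_lit 245) (nat_lit 171)) (XT.lf (nat_lit 0) (nat_lit 4276834561) (nat_lit 228) (nat_lit 18327085528) (nat_lit 76) (nat_lit 12001475040) (nat_lit 9) (nat_lit 5) (nat_lit 12) (nat_lit 5) (nat_lit 10) (nat_lit 4) (nat_lit 365) (nat_lit 245) (nat_lit 170)))) (XT.nd (nat_lit 78) (nat_lit 0) (nat_lit 0) (XT.lf (nat_lit 0) (nat_lit 7116675295) (nat_lit 228) (nat_lit 12658391598) (nat_lit 76) (nat_lit 15757396654) (nat_lit 9) (nat_lit 5) (nat_lit 12) (nat_lit 5) (nat_lit 10) (nat_lit 4) (nat_lit 366) (nat_lit 245) (nat_lit 169)) (XT.nd (nat_lit 78) (nat_lit 0) (nat_lit 0) (XT.lf (nat_lit 0) (nat_lit 10023160740) (nat_lit 228) (nat_lit 6851607465) (nat_lit 76)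 (nat_lit 19613149120) (nat_lit 9) (nat_lit 5) (nat_lit 12) (nat_lit 5) (nat_lit 10) (nat_lit 4) (nat_lit 367) (nat_lit 245) (nat_lit 168)) (XT.lf (nat_lit 0) (nat_lit 12998830544) (nat_lit 228) (nat_lit 901659238) (nat_lit 76) (nat_lit 23572101544) (nat_lit 9) (nat_lit 5) (nat_lit 12) (nat_lit 5) (nat_lit 10) (nat_lit 4) (nat_lit 368) (nat_lit 245) (nat_lit 167)))))) (XT.nd (nat_lit 390) (nat_lit 152) (nat_lit 0) (XT.nd (nat_lit 156) (nat_lit 0) (nat_lit 0) (XT.nd (nat_lit 78) (nat_lit 0) (nat_lit 0) (XT.lf (nat_lit 0) (nat_lit 5300075629) (nat_lit 76) (nat_lit 10797156746) (nat_lit 152) (nat_lit 22388585143) (nat_lit 8) (nat_lit 5) (nat_lit 9) (nat_lit 5) (nat_lit 10) (nat_lit 4) (nat_lit 369) (nat_lit 245) (nat_lit 166)) (XT.lf (nat_lit 0) (nat_lit 11676505749) (nat_lit 76) (nat_lit 7603922319) (nat_lit 152) (nat_lit 20249272542) (nat_lit 8) (nat_lit 5) (nat_lit 9) (nat_lit 5) (nat_lit 10)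 (nat_lit 4) (nat_lit 370) (nat_lit 245) (nat_lit 165))) (XT.nd (nat_lit 78) (nat_lit 0) (nat_lit 0) (XT.lf (nat_lit 0) (nat_lit 18215257972) (nat_lit 76) (nat_lit 4327101286) (nat_lit 152) (nat_lit 18063058667) (nat_lit 8) (nat_lit 5) (nat_lit 9) (nat_lit 5) (nat_lit 10) (nat_lit 4) (nat_lit 371) (nat_lit 245) (nat_lit 164)) (XT.nd (nat_lit 78) (nat_lit 0) (nat_lit 0) (XT.lf (nat_lit 0) (nat_lit 24922045769) (nat_lit 76) (nat_lit 963830407) (nat_lit 152) (nat_lit 15828033236) (nat_lit 8) (nat_lit 5) (nat_lit 9) (nat_lit 5) (nat_lit 10) (nat_lit 4) (nat_lit 372) (nat_lit 245) (nat_lit 163)) (XT.lf (nat_lit 0) (nat_lit 29337824491) (nat_lit 152) (nat_lit 11077338362) (nat_lit 0) (nat_lit 2440263078) (nat_lit 8) (nat_lit 5) (nat_lit 10) (nat_lit 4) (nat_lit 8) (nat_lit 4) (nat_lit 373) (nat_lit 245) (nat_lit 162))))) (XT.nd (nat_lit 234) (nat_lit 76) (nat_lit 0) (XT.nd (nat_lit 78) (nat_lit 76)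 (nat_lit 0) (XT.lf (nat_lit 0) (nat_lit 32887428601) (nat_lit 152) (nat_lit 5227798968) (nat_lit 0) (nat_lit 5916151111) (nat_lit 8) (nat_lit 5) (nat_lit 10) (nat_lit 4) (nat_lit 8) (nat_lit 4) (nat_lit 374) (nat_lit 245) (nat_lit 161)) (XT.nd (nat_lit 78) (nat_lit 0) (nat_lit 0) (XT.lf (nat_lit 0) (nat_lit 786477727) (nat_lit 76) (nat_lit 35749607551) (nat_lit 76) (nat_lit 8706761055) (nat_lit 7) (nat_lit 4) (nat_lit 8) (nat_lit 5) (nat_lit 8) (nat_lit 4) (nat_lit 375) (nat_lit 245) (nat_lit 160)) (XT.lf (nat_lit 0) (nat_lit 7062507425) (nat_lit 76) (nat_lit 33269677466) (nat_lit 76) (nat_lit 6157346498) (nat_lit 7) (nat_lit 4) (nat_lit 8) (nat_lit 5) (nat_lit 8) (nat_lit 4) (nat_lit 376) (nat_lit 245) (nat_lit 159)))) (XT.nd (nat_lit 78) (nat_lit 76) (nat_lit 0) (XT.lf (nat_lit 0) (nat_lit 13501730585) (nat_lit 76) (nat_lit 30726060904) (nat_lit 76) (nat_lit 3546269284) (nat_lit 7) (nat_lit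 4) (nat_lit 8) (nat_lit 5) (nat_lit 8) (nat_lit 4) (nat_lit 377) (nat_lit 245) (nat_lit 158)) (XT.nd (nat_lit 78) (nat_lit 76) (nat_lit 0) (XT.lf (nat_lit 0) (nat_lit 20109773712) (nat_lit 76) (nat_lit 28116535288) (nat_lit 76) (nat_lit 871247888) (nat_lit 7) (nat_lit 4) (nat_lit 8) (nat_lit 5) (nat_lit 8) (nat_lit 4) (nat_lit 378) (nat_lit 245) (nat_lit 157)) (XT.lf (nat_lit 0) (nat_lit 1833563575) (nat_lit 152) (nat_lit 23586741476) (nat_lit 76) (nat_lit 25040331854) (nat_lit 6) (nat_lit 5) (nat_lit 8) (nat_lit 5) (nat_lit 7) (nat_lit 4) (nat_lit 379) (nat_lit 245) (nat_lit 156))))))) (XT.nd (nat_lit 858) (nat_lit 76) (nat_lit 0) (XT.nd (nat_lit 390) (nat_lit 0) (nat_lit 0) (XT.nd (nat_lit 156) (nat_lit 76) (nat_lit 0) (XT.nd (nat_lit 78) (nat_lit 0) (nat_lit 0) (XT.lf (nat_lit 0) (nat_lit 4588710613) (nat_lit 152) (nat_lit 18055529042) (nat_lit 76) (nat_lit 29220520909) (nat_lit 6) (nat_lit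 5) (nat_lit 8) (nat_lit 5) (nat_lit 7) (nat_lit 4) (nat_lit 380) (nat_lit 245) (nat_lit 155)) (XT.lf (nat_lit 0) (nat_lit 7413601819) (nat_lit 152) (nat_lit 12380937809) (nat_lit 76) (nat_lit 33516866390) (nat_lit 6) (nat_lit 5) (nat_lit 8) (nat_lit 5) (nat_lit 7) (nat_lit 4) (nat_lit 381) (nat_lit 245) (nat_lit 154))) (XT.nd (nat_lit 78) (nat_lit 76) (nat_lit 0) (XT.lf (nat_lit 0) (nat_lit 10310705546) (nat_lit 152) (nat_lit 6558009396) (nat_lit 76) (nat_lit 37933122387) (nat_lit 6) (nat_lit 5) (nat_lit 8) (nat_lit 5) (nat_lit 7) (nat_lit 4) (nat_lit 382) (nat_lit 245) (nat_lit 153)) (XT.nd (nat_lit 78) (nat_lit 76) (nat_lit 0) (XT.lf (nat_lit 0) (nat_lit 13282553242) (nat_lit 152) (nat_lit 581655806) (nat_lit 76) (nat_lit 42473147762) (nat_lit 6) (nat_lit 5) (nat_lit 8) (nat_lit 5) (nat_lit 7) (nat_lit 4) (nat_lit 383) (nat_lit 245) (nat_lit 152)) (XT.lf (nat_lit 0) (nat_lit 5663867469) (nat_lit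 76) (nat_lit 10722318758) (nat_lit 152) (nat_lit 41531486620) (nat_lit 5) (nat_lit 5) (nat_lit 6) (nat_lit 5) (nat_lit 7) (nat_lit 4) (nat_lit 384) (nat_lit 245) (nat_lit 151))))) (XT.nd (nat_lit 234) (nat_lit 0) (nat_lit 0) (XT.nd (nat_lit 78) (nat_lit 0) (nat_lit 0) (XT.lf (nat_lit 0) (nat_lit 12088238829) (nat_lit 76) (nat_lit 7488895882) (nat_lit 152) (nat_lit 39968447035) (nat_lit 5) (nat_lit 5) (nat_lit 6) (nat_lit 5) (nat_lit 7) (nat_lit 4) (nat_lit 385) (nat_lit 245) (nat_lit 150)) (XT.nd (nat_lit 78) (nat_lit 0) (nat_lit 0) (XT.lf (nat_lit 0) (nat_lit 18685495708) (nat_lit 76) (nat_lit 4166988683) (nat_lit 152) (nat_lit 38370192635) (nat_lit 5) (nat_lit 5) (nat_lit 6) (nat_lit 5) (nat_lit 7) (nat_lit 4) (nat_lit 386) (nat_lit 245) (nat_lit 149)) (XT.lf (nat_lit 0) (nat_lit 25461402701) (nat_lit 76) (nat_lit 753694525) (nat_lit 152) (nat_lit 36735326886) (nat_lit 5) (nat_lit 5) (nat_lit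 6) (nat_lit 5) (nat_lit 7) (nat_lit 4) (nat_lit 387) (nat_lit 245) (nat_lit 148)))) (XT.nd (nat_lit 78) (nat_lit 0) (nat_lit 0) (XT.lf (nat_lit 0) (nat_lit 29694384255) (nat_lit 152) (nat_lit 32334925019) (nat_lit 0) (nat_lit 2700229227) (nat_lit 5) (nat_lit 5) (nat_lit 7) (nat_lit 4) (nat_lit 5) (nat_lit 4) (nat_lit 388) (nat_lit 245) (nat_lit 147)) (XT.nd (nat_lit 78) (nat_lit 0) (nat_lit 0) (XT.lf (nat_lit 0) (nat_lit 33275071237) (nat_lit 152) (nat_lit 27052074165) (nat_lit 0) (nat_lit 6234978787) (nat_lit 5) (nat_lit 5) (nat_lit 7) (nat_lit 4) (nat_lit 5) (nat_lit 4) (nat_lit 389) (nat_lit 245) (nat_lit 146)) (XT.lf (nat_lit 0) (nat_lit 36953041955) (nat_lit 152) (nat_lit 21628607795) (nat_lit 0) (nat_lit 9868350066) (nat_lit 5) (nat_lit 5) (nat_lit 7) (nat_lit 4) (nat_lit 5) (nat_lit 4) (nat_lit 390) (nat_lit 245) (nat_lit 145)))))) (XT.nd (nat_lit 468) (nat_lit 0) (nat_lit 0) (XT.nd (nat_lit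 234) (nat_lit 76) (nat_lit 0) (XT.nd (nat_lit 78) (nat_lit 0) (nat_lit 0) (XT.lf (nat_lit 0) (nat_lit 40731510169) (nat_lit 152) (nat_lit 16059786957) (nat_lit 0) (nat_lit 13603517855) (nat_lit 5) (nat_lit 5) (nat_lit 7) (nat_lit 4) (nat_lit 5) (nat_lit 4) (nat_lit 391) (nat_lit 245) (nat_lit 144)) (XT.nd (nat_lit 78) (nat_lit 0) (nat_lit 0) (XT.lf (nat_lit 0) (nat_lit 44613777454) (nat_lit 152) (nat_lit 10340745691) (nat_lit 0) (nat_lit 17443745891) (nat_lit 5) (nat_lit 5) (nat_lit 7) (nat_lit 4) (nat_lit 5) (nat_lit 4) (nat_lit 392) (nat_lit 245) (nat_lit 143)) (XT.lf (nat_lit 0) (nat_lit 48603236082) (nat_lit 152) (nat_lit 4466486777) (nat_lit 0) (nat_lit 21392389715) (nat_lit 5) (nat_lit 5) (nat_lit 7) (nat_lit 4) (nat_lit 5) (nat_lit 4) (nat_lit 393) (nat_lit 245) (nat_lit 142)))) (XT.nd (nat_lit 78) (nat_lit 0) (nat_lit 0) (XT.lf (nat_lit 0) (nat_lit 1599331348) (nat_lit 76) (nat_lit 51119414391)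 (nat_lit 76) (nat_lit 23868942001) (nat_lit 4) (nat_lit 4) (nat_lit 5) (nat_lit 5) (nat_lit 5) (nat_lit 4) (nat_lit 394) (nat_lit 245) (nat_lit 141)) (XT.nd (nat_lit 78) (nat_lit 0) (nat_lit 0) (XT.lf (nat_lit 0) (nat_lit 7922961005) (nat_lit 76) (nat_lit 49070967157) (nat_lit 76) (nat_lit 21782022899) (nat_lit 4) (nat_lit 4) (nat_lit 5) (nat_lit 5) (nat_lit 5) (nat_lit 4) (nat_lit 395) (nat_lit 245) (nat_lit 140)) (XT.lf (nat_lit 0) (nat_lit 14421035852) (nat_lit 76) (nat_lit 46967694010) (nat_lit 76) (nat_lit 19641398425) (nat_lit 4) (nat_lit 4) (nat_lit 5) (nat_lit 5) (nat_lit 5) (nat_lit 4) (nat_lit 396) (nat_lit 245) (nat_lit 139))))) (XT.nd (nat_lit 32136) (nat_lit 0) (nat_lit 9804) (XT.nd (nat_lit 78) (nat_lit 0) (nat_lit 0) (XT.lf (nat_lit 0) (nat_lit 21099233817) (nat_lit 76) (nat_lit 44807757140) (nat_lit 76) (nat_lit 17445198130) (nat_lit 4) (nat_lit 4) (nat_lit 5) (nat_lit 5) (nat_lit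 5) (nat_lit 4) (nat_lit 397) (nat_lit 245) (nat_lit 138)) (XT.nd (nat_lit 78) (nat_lit 0) (nat_lit 0) (XT.lf (nat_lit 0) (nat_lit 27963390218) (nat_lit 76) (nat_lit 42589269222) (nat_lit 76) (nat_lit 15191503004) (nat_lit 4) (nat_lit 4) (nat_lit 5) (nat_lit 5) (nat_lit 5) (nat_lit 4) (nat_lit 398) (nat_lit 245) (nat_lit 137)) (XT.lf (nat_lit 0) (nat_lit 35019502863) (nat_lit 76) (nat_lit 40310291773) (nat_lit 76) (nat_lit 12878343798) (nat_lit 4) (nat_lit 4) (nat_lit 5) (nat_lit 5) (nat_lit 5) (nat_lit 4) (nat_lit 399) (nat_lit 245) (nat_lit 136)))) (XT.nd (nat_lit 78) (nat_lit 608) (nat_lit 0) (XT.lf (nat_lit 0) (nat_lit 808142210) (nat_lit 684) (nat_lit 1446242573) (nat_lit 684) (nat_lit 1446242573) (nat_lit 141) (nat_lit 4) (nat_lit 150) (nat_lit 5) (nat_lit 150) (nat_lit 4) (nat_lit 288) (nat_lit 246) (nat_lit 246)) (XT.nd (nat_lit 78) (nat_lit 532) (nat_lit 0) (XT.lf (nat_lit 0) (nat_lit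 137104495) (nat_lit 760) (nat_lit 1180901679) (nat_lit 76) (nat_lit 6157436469) (nat_lit 140) (nat_lit 5) (nat_lit 150) (nat_lit 5) (nat_lit 141) (nat_lit 4) (nat_lit 289) (nat_lit 246) (nat_lit 245)) (XT.lf (nat_lit 0) (nat_lit 3149115359) (nat_lit 608) (nat_lit 4046711553) (nat_lit 0) (nat_lit 356934826) (nat_lit 133) (nat_lit 5) (nat_lit 141) (nat_lit 4) (nat_lit 133) (nat_lit 4) (nat_lit 290) (nat_lit 246) (nat_lit 244))))))))
noncomputable def xc72 : XT := (XT.nd (nat_lit 1716) (nat_lit 2508) (nat_lit 0) (XT.nd (nat_lit 858) (nat_lit 2204) (nat_lit 0) (XT.nd (nat_lit 390) (nat_lit 1824) (nat_lit 0) (XT.nd (nat_lit 156) (nat_lit 988) (nat_lit 0) (XT.nd (nat_lit 78) (nat_lit 76) (nat_lit 0) (XT.lf (nat_lit 0) (nat_lit 631567886) (nat_lit 532) (nat_lit 5565149979) (nat_lit 532) (nat_lit 1437572951) (nat_lit 126) (nat_lit 4) (nat_lit 133) (nat_lit 5) (nat_lit 133) (nat_lit 4) (nat_lit 291)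 (nat_lit 246) (nat_lit 243)) (XT.lf (nat_lit 0) (nat_lit 1541800002) (nat_lit 608) (nat_lit 2294224474) (nat_lit 76) (nat_lit 3883331587) (nat_lit 125) (nat_lit 5) (nat_lit 133) (nat_lit 5) (nat_lit 126) (nat_lit 4) (nat_lit 292) (nat_lit 246) (nat_lit 242))) (XT.nd (nat_lit 78) (nat_lit 532) (nat_lit 0) (XT.lf (nat_lit 0) (nat_lit 2498416482) (nat_lit 456) (nat_lit 2024359003) (nat_lit 532) (nat_lit 3285763687) (nat_lit 119) (nat_lit 5) (nat_lit 125) (nat_lit 5) (nat_lit 126) (nat_lit 4) (nat_lit 293) (nat_lit 246) (nat_lit 241)) (XT.nd (nat_lit 78) (nat_lit 532) (nat_lit 0) (XT.lf (nat_lit 0) (nat_lit 7391132214) (nat_lit 456) (nat_lit 143856422) (nat_lit 532) (nat_lit 367374654) (nat_lit 119) (nat_lit 5) (nat_lit 125) (nat_lit 5) (nat_lit 126) (nat_lit 4) (nat_lit 294) (nat_lit 246) (nat_lit 240)) (XT.lf (nat_lit 0) (nat_lit 2567225999) (nat_lit 532) (nat_lit 3615111034) (nat_lit 76) (nat_lit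 1816706907) (nat_lit 112) (nat_lit 5) (nat_lit 119) (nat_lit 5) (nat_lit 113) (nat_lit 4) (nat_lit 295) (nat_lit 246) (nat_lit 239))))) (XT.nd (nat_lit 234) (nat_lit 836) (nat_lit 0) (XT.nd (nat_lit 78) (nat_lit 532) (nat_lit 0) (XT.lf (nat_lit 0) (nat_lit 1266090510) (nat_lit 456) (nat_lit 4256591197) (nat_lit 532) (nat_lit 2577829274) (nat_lit 106) (nat_lit 5) (nat_lit 112) (nat_lit 5) (nat_lit 113) (nat_lit 4) (nat_lit 296) (nat_lit 246) (nat_lit 238)) (XT.nd (nat_lit 78) (nat_lit 456) (nat_lit 0) (XT.lf (nat_lit 0) (nat_lit 313442268) (nat_lit 532) (nat_lit 1932243779) (nat_lit 76) (nat_lit 5960659544) (nat_lit 105) (nat_lit 5) (nat_lit 112) (nat_lit 5) (nat_lit 106) (nat_lit 5) (nat_lit 297) (nat_lit 246) (nat_lit 237)) (XT.lf (nat_lit 0) (nat_lit 3061594426) (nat_lit 456) (nat_lit 131607530) (nat_lit 532) (nat_lit 5122964790) (nat_lit 99) (nat_lit 5) (nat_lit 105) (nat_lit 5) (nat_lit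 106) (nat_lit 5) (nat_lit 298) (nat_lit 246) (nat_lit 236)))) (XT.nd (nat_lit 78) (nat_lit 836) (nat_lit 0) (XT.lf (nat_lit 0) (nat_lit 6124077632) (nat_lit 532) (nat_lit 294721875) (nat_lit 76) (nat_lit 2011720022) (nat_lit 99) (nat_lit 5) (nat_lit 106) (nat_lit 5) (nat_lit 100) (nat_lit 4) (nat_lit 299) (nat_lit 246) (nat_lit 235)) (XT.nd (nat_lit 78) (nat_lit 380) (nat_lit 0) (XT.lf (nat_lit 0) (nat_lit 557703363) (nat_lit 456) (nat_lit 3736417712) (nat_lit 76) (nat_lit 4254936921) (nat_lit 93) (nat_lit 5) (nat_lit 99) (nat_lit 5) (nat_lit 94) (nat_lit 5) (nat_lit 300) (nat_lit 246) (nat_lit 234)) (XT.lf (nat_lit 0) (nat_lit 1322031093) (nat_lit 380) (nat_lit 2083024027) (nat_lit 456) (nat_lit 5267266762) (nat_lit 88) (nat_lit 5) (nat_lit 93) (nat_lit 5) (nat_lit 94) (nat_lit 5) (nat_lit 301) (nat_lit 246) (nat_lit 233)))))) (XT.nd (nat_lit 390) (nat_lit 1064) (nat_lit 0) (XT.nd (nat_lit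 156) (nat_lit 684) (nat_lit 0) (XT.nd (nat_lit 78) (nat_lit 456) (nat_lit 0) (XT.lf (nat_lit 0) (nat_lit 6306809659) (nat_lit 456) (nat_lit 2281912875) (nat_lit 76) (nat_lit 211650449) (nat_lit 88) (nat_lit 5) (nat_lit 94) (nat_lit 5) (nat_lit 89) (nat_lit 4) (nat_lit 302) (nat_lit 246) (nat_lit 232)) (XT.lf (nat_lit 0) (nat_lit 335354262) (nat_lit 456) (nat_lit 6049819263) (nat_lit 76) (nat_lit 2547764160) (nat_lit 82) (nat_lit 5) (nat_lit 88) (nat_lit 5) (nat_lit 83) (nat_lit 5) (nat_lit 303) (nat_lit 246) (nat_lit 231))) (XT.nd (nat_lit 78) (nat_lit 684) (nat_lit 0) (XT.lf (nat_lit 0) (nat_lit 3153724366) (nat_lit 456) (nat_lit 932190928) (nat_lit 76) (nat_lit 4984327568) (nat_lit 82) (nat_lit 5) (nat_lit 88) (nat_lit 5) (nat_lit 83) (nat_lit 5) (nat_lit 304) (nat_lit 246) (nat_lit 230)) (XT.nd (nat_lit 78) (nat_lit 304) (nat_lit 0) (XT.lf (nat_lit 0) (nat_lit 4337822873) (nat_lit 380) (nat_lit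 1693949780) (nat_lit 456) (nat_lit 3180781791) (nat_lit 77) (nat_lit 5) (nat_lit 82) (nat_lit 5) (nat_lit 83) (nat_lit 5) (nat_lit 305) (nat_lit 246) (nat_lit 229)) (XT.lf (nat_lit 0) (nat_lit 338442801) (nat_lit 304) (nat_lit 8612243148) (nat_lit 380) (nat_lit 409950668) (nat_lit 73) (nat_lit 5) (nat_lit 77) (nat_lit 5) (nat_lit 78) (nat_lit 4) (nat_lit 306) (nat_lit 246) (nat_lit 228))))) (XT.nd (nat_lit 234) (nat_lit 684) (nat_lit 0) (XT.nd (nat_lit 78) (nat_lit 304) (nat_lit 0) (XT.lf (nat_lit 0) (nat_lit 2397478078) (nat_lit 380) (nat_lit 3831936620) (nat_lit 76) (nat_lit 3283135928) (nat_lit 72) (nat_lit 5) (nat_lit 77) (nat_lit 5) (nat_lit 73) (nat_lit 5) (nat_lit 307) (nat_lit 246) (nat_lit 227)) (XT.nd (nat_lit 78) (nat_lit 0) (nat_lit 0) (XT.lf (nat_lit 0) (nat_lit 1453438661) (nat_lit 304) (nat_lit 3778004947) (nat_lit 380) (nat_lit 4439065404) (nat_lit 68) (nat_lit 5) (nat_lit 72)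 (nat_lit 5) (nat_lit 73) (nat_lit 5) (nat_lit 308) (nat_lit 246) (nat_lit 226)) (XT.lf (nat_lit 0) (nat_lit 6891865890) (nat_lit 304) (nat_lit 1234878527) (nat_lit 380) (nat_lit 1707293923) (nat_lit 68) (nat_lit 5) (nat_lit 72) (nat_lit 5) (nat_lit 73) (nat_lit 5) (nat_lit 309) (nat_lit 246) (nat_lit 225)))) (XT.nd (nat_lit 78) (nat_lit 304) (nat_lit 0) (XT.lf (nat_lit 0) (nat_lit 1060505533) (nat_lit 380) (nat_lit 7571737826) (nat_lit 76) (nat_lit 1370755856) (nat_lit 63) (nat_lit 5) (nat_lit 68) (nat_lit 5) (nat_lit 64) (nat_lit 5) (nat_lit 310) (nat_lit 246) (nat_lit 224)) (XT.nd (nat_lit 78) (nat_lit 304) (nat_lit 0) (XT.lf (nat_lit 0) (nat_lit 3858762800) (nat_lit 380) (nat_lit 2263195000) (nat_lit 76) (nat_lit 4055223191) (nat_lit 63) (nat_lit 5) (nat_lit 68) (nat_lit 5) (nat_lit 64) (nat_lit 5) (nat_lit 311) (nat_lit 246) (nat_lit 223)) (XT.lf (nat_lit 0) (nat_lit 3185361294) (nat_lit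 304) (nat_lit 3527495926) (nat_lit 380) (nat_lit 3644682426) (nat_lit 59) (nat_lit 5) (nat_lit 63) (nat_lit 5) (nat_lit 64) (nat_lit 5) (nat_lit 312) (nat_lit 246) (nat_lit 222))))))) (XT.nd (nat_lit 858) (nat_lit 1064) (nat_lit 0) (XT.nd (nat_lit 390) (nat_lit 836) (nat_lit 0) (XT.nd (nat_lit 156) (nat_lit 304) (nat_lit 0) (XT.nd (nat_lit 78) (nat_lit 304) (nat_lit 0) (XT.lf (nat_lit 0) (nat_lit 8763164916) (nat_lit 304) (nat_lit 854468973) (nat_lit 380) (nat_lit 926828353) (nat_lit 59) (nat_lit 5) (nat_lit 63) (nat_lit 5) (nat_lit 64) (nat_lit 5) (nat_lit 313) (nat_lit 246) (nat_lit 221)) (XT.lf (nat_lit 0) (nat_lit 1833840669) (nat_lit 304) (nat_lit 7008799727) (nat_lit 76) (nat_lit 1893976458) (nat_lit 55) (nat_lit 5) (nat_lit 59) (nat_lit 5) (nat_lit 56) (nat_lit 5) (nat_lit 314) (nat_lit 246) (nat_lit 220))) (XT.nd (nat_lit 78) (nat_lit 304) (nat_lit 0) (XT.lf (nat_lit 0) (nat_lit 4629238005)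 (nat_lit 304) (nat_lit 1593348401) (nat_lit 76) (nat_lit 4712654360) (nat_lit 55) (nat_lit 5) (nat_lit 59) (nat_lit 5) (nat_lit 56) (nat_lit 5) (nat_lit 315) (nat_lit 246) (nat_lit 219)) (XT.nd (nat_lit 78) (nat_lit 0) (nat_lit 0) (XT.lf (nat_lit 0) (nat_lit 3984396897) (nat_lit 304) (nat_lit 3507945273) (nat_lit 380) (nat_lit 3648059136) (nat_lit 51) (nat_lit 5) (nat_lit 55) (nat_lit 5) (nat_lit 56) (nat_lit 5) (nat_lit 316) (nat_lit 246) (nat_lit 218)) (XT.lf (nat_lit 0) (nat_lit 9684981049) (nat_lit 304) (nat_lit 718836972) (nat_lit 380) (nat_lit 949114826) (nat_lit 51) (nat_lit 5) (nat_lit 55) (nat_lit 5) (nat_lit 56) (nat_lit 5) (nat_lit 317) (nat_lit 246) (nat_lit 217))))) (XT.nd (nat_lit 234) (nat_lit 304) (nat_lit 0) (XT.nd (nat_lit 78) (nat_lit 228) (nat_lit 0) (XT.lf (nat_lit 0) (nat_lit 1801601374) (nat_lit 304) (nat_lit 7624322285) (nat_lit 76) (nat_lit 2145278185) (nat_lit 47) (nat_lit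 5) (nat_lit 51) (nat_lit 5) (nat_lit 48) (nat_lit 5) (nat_lit 318) (nat_lit 246) (nat_lit 216)) (XT.nd (nat_lit 78) (nat_lit 228) (nat_lit 0) (XT.lf (nat_lit 0) (nat_lit 4587822898) (nat_lit 304) (nat_lit 2124556199) (nat_lit 76) (nat_lit 5084278954) (nat_lit 47) (nat_lit 5) (nat_lit 51) (nat_lit 5) (nat_lit 48) (nat_lit 5) (nat_lit 319) (nat_lit 246) (nat_lit 215)) (XT.lf (nat_lit 0) (nat_lit 3534703217) (nat_lit 228) (nat_lit 3906355191) (nat_lit 304) (nat_lit 4588397160) (nat_lit 44) (nat_lit 5) (nat_lit 47) (nat_lit 5) (nat_lit 48) (nat_lit 5) (nat_lit 320) (nat_lit 246) (nat_lit 214)))) (XT.nd (nat_lit 78) (nat_lit 304) (nat_lit 0) (XT.lf (nat_lit 0) (nat_lit 9333547433) (nat_lit 228) (nat_lit 1018010482) (nat_lit 304) (nat_lit 1918607189) (nat_lit 44) (nat_lit 5) (nat_lit 47) (nat_lit 5) (nat_lit 48) (nat_lit 5) (nat_lit 321) (nat_lit 246) (nat_lit 213)) (XT.nd (nat_lit 78) (nat_lit 0)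 (nat_lit 0) (XT.lf (nat_lit 0) (nat_lit 811636243) (nat_lit 304) (nat_lit 9776011127) (nat_lit 76) (nat_lit 1930385024) (nat_lit 40) (nat_lit 5) (nat_lit 44) (nat_lit 5) (nat_lit 41) (nat_lit 5) (nat_lit 322) (nat_lit 246) (nat_lit 212)) (XT.lf (nat_lit 0) (nat_lit 3576866129) (nat_lit 304) (nat_lit 4223816455) (nat_lit 76) (nat_lit 4972405472) (nat_lit 40) (nat_lit 5) (nat_lit 44) (nat_lit 5) (nat_lit 41) (nat_lit 5) (nat_lit 323) (nat_lit 246) (nat_lit 211)))))) (XT.nd (nat_lit 468) (nat_lit 380) (nat_lit 0) (XT.nd (nat_lit 234) (nat_lit 456) (nat_lit 0) (XT.nd (nat_lit 78) (nat_lit 0) (nat_lit 0) (XT.lf (nat_lit 0) (nat_lit 1452195696) (nat_lit 228) (nat_lit 4939840159) (nat_lit 304) (nat_lit 6644819437) (nat_lit 37) (nat_lit 5) (nat_lit 40) (nat_lit 5) (nat_lit 41) (nat_lit 5) (nat_lit 324) (nat_lit 246) (nat_lit 210)) (XT.nd (nat_lit 78) (nat_lit 0) (nat_lit 0) (XT.lf (nat_lit 0) (nat_lit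 7314683300) (nat_lit 228) (nat_lit 1973344811) (nat_lit 304) (nat_lit 4020683781) (nat_lit 37) (nat_lit 5) (nat_lit 40) (nat_lit 5) (nat_lit 41) (nat_lit 5) (nat_lit 325) (nat_lit 246) (nat_lit 209)) (XT.lf (nat_lit 0) (nat_lit 12236140699) (nat_lit 304) (nat_lit 315608300) (nat_lit 76) (nat_lit 1038083383) (nat_lit 37) (nat_lit 5) (nat_lit 41) (nat_lit 5) (nat_lit 38) (nat_lit 4) (nat_lit 326) (nat_lit 246) (nat_lit 208)))) (XT.nd (nat_lit 78) (nat_lit 228) (nat_lit 0) (XT.lf (nat_lit 0) (nat_lit 1395432534) (nat_lit 228) (nat_lit 8337745394) (nat_lit 76) (nat_lit 4144989088) (nat_lit 34) (nat_lit 5) (nat_lit 37) (nat_lit 5) (nat_lit 35) (nat_lit 5) (nat_lit 327) (nat_lit 246) (nat_lit 207)) (XT.nd (nat_lit 78) (nat_lit 228) (nat_lit 0) (XT.lf (nat_lit 0) (nat_lit 4159341180) (nat_lit 228) (nat_lit 2677658532) (nat_lit 76) (nat_lit 7339024191) (nat_lit 34) (nat_lit 5) (nat_lit 37) (nat_lit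 5) (nat_lit 35) (nat_lit 5) (nat_lit 328) (nat_lit 246) (nat_lit 206)) (XT.lf (nat_lit 0) (nat_lit 3147860810) (nat_lit 228) (nat_lit 3846138238) (nat_lit 304) (nat_lit 7489240604) (nat_lit 31) (nat_lit 5) (nat_lit 34) (nat_lit 5) (nat_lit 35) (nat_lit 5) (nat_lit 329) (nat_lit 246) (nat_lit 205))))) (XT.nd (nat_lit 234) (nat_lit 152) (nat_lit 0) (XT.nd (nat_lit 78) (nat_lit 228) (nat_lit 0) (XT.lf (nat_lit 0) (nat_lit 9137883941) (nat_lit 228) (nat_lit 761034084) (nat_lit 304) (nat_lit 4901253631) (nat_lit 31) (nat_lit 5) (nat_lit 34) (nat_lit 5) (nat_lit 35) (nat_lit 5) (nat_lit 330) (nat_lit 246) (nat_lit 204)) (XT.nd (nat_lit 78) (nat_lit 76) (nat_lit 0) (XT.lf (nat_lit 0) (nat_lit 95317503) (nat_lit 152) (nat_lit 12778995877) (nat_lit 228) (nat_lit 2252853152) (nat_lit 29) (nat_lit 5) (nat_lit 31) (nat_lit 5) (nat_lit 32) (nat_lit 4) (nat_lit 331) (nat_lit 246) (nat_lit 203)) (XT.lf (nat_lit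 0) (nat_lit 490318182) (nat_lit 228) (nat_lit 9397740349) (nat_lit 76) (nat_lit 5575089747) (nat_lit 28) (nat_lit 5) (nat_lit 31) (nat_lit 5) (nat_lit 29) (nat_lit 5) (nat_lit 332) (nat_lit 246) (nat_lit 202)))) (XT.nd (nat_lit 78) (nat_lit 152) (nat_lit 0) (XT.lf (nat_lit 0) (nat_lit 3230998402) (nat_lit 228) (nat_lit 3679573656) (nat_lit 76) (nat_lit 8899203568) (nat_lit 28) (nat_lit 5) (nat_lit 31) (nat_lit 5) (nat_lit 29) (nat_lit 5) (nat_lit 333) (nat_lit 246) (nat_lit 201)) (XT.nd (nat_lit 78) (nat_lit 0) (nat_lit 0) (XT.lf (nat_lit 0) (nat_lit 2192078658) (nat_lit 152) (nat_lit 3844536497) (nat_lit 228) (nat_lit 10130753826) (nat_lit 26) (nat_lit 5) (nat_lit 28) (nat_lit 5) (nat_lit 29) (nat_lit 5) (nat_lit 334) (nat_lit 246) (nat_lit 200)) (XT.lf (nat_lit 0) (nat_lit 8255069885) (nat_lit 152) (nat_lit 670669634) (nat_lit 228) (nat_lit 7610017698) (nat_lit 26) (nat_lit 5) (nat_lit 28)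 (nat_lit 5) (nat_lit 29) (nat_lit 5) (nat_lit 335) (nat_lit 246) (nat_lit 199))))))))
noncomputable def xc73 : XT := (XT.nd (nat_lit 1716) (nat_lit 532) (nat_lit 0) (XT.nd (nat_lit 858) (nat_lit 304) (nat_lit 0) (XT.nd (nat_lit 390) (nat_lit 304) (nat_lit 0) (XT.nd (nat_lit 156) (nat_lit 228) (nat_lit 0) (XT.nd (nat_lit 78) (nat_lit 152) (nat_lit 0) (XT.lf (nat_lit 0) (nat_lit 11889590010) (nat_lit 228) (nat_lit 2499645692) (nat_lit 76) (nat_lit 2526365702) (nat_lit 26) (nat_lit 5) (nat_lit 29) (nat_lit 5) (nat_lit 27) (nat_lit 4) (nat_lit 336) (nat_lit 246) (nat_lit 198)) (XT.lf (nat_lit 0) (nat_lit 3457973249) (nat_lit 152) (nat_lit 11488413562) (nat_lit 228) (nat_lit 2360377721) (nat_lit 24) (nat_lit 5) (nat_lit 26) (nat_lit 5) (nat_lit 27) (nat_lit 4) (nat_lit 337) (nat_lit 246) (nat_lit 197))) (XT.nd (nat_lit 78) (nat_lit 152) (nat_lit 0) (XT.lf (nat_lit 0) (nat_lit 367452213) (nat_lit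 228) (nat_lit 8125176188) (nat_lit 76) (nat_lit 9217272715) (nat_lit 23) (nat_lit 5) (nat_lit 26) (nat_lit 5) (nat_lit 24) (nat_lit 5) (nat_lit 338) (nat_lit 246) (nat_lit 196)) (XT.nd (nat_lit 78) (nat_lit 152) (nat_lit 0) (XT.lf (nat_lit 0) (nat_lit 3094969909) (nat_lit 228) (nat_lit 2309415908) (nat_lit 76) (nat_lit 12721126815) (nat_lit 23) (nat_lit 5) (nat_lit 26) (nat_lit 5) (nat_lit 24) (nat_lit 5) (nat_lit 339) (nat_lit 246) (nat_lit 195)) (XT.lf (nat_lit 0) (nat_lit 3698430378) (nat_lit 152) (nat_lit 2207739302) (nat_lit 228) (nat_lit 12647406691) (nat_lit 21) (nat_lit 5) (nat_lit 23) (nat_lit 5) (nat_lit 24) (nat_lit 5) (nat_lit 340) (nat_lit 246) (nat_lit 194))))) (XT.nd (nat_lit 234) (nat_lit 228) (nat_lit 0) (XT.nd (nat_lit 78) (nat_lit 76) (nat_lit 0) (XT.lf (nat_lit 0) (nat_lit 8802251995) (nat_lit 228) (nat_lit 9125445515) (nat_lit 76) (nat_lit 1066806536) (nat_lit 21) (nat_lit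 5) (nat_lit 24) (nat_lit 5) (nat_lit 22) (nat_lit 4) (nat_lit 341) (nat_lit 246) (nat_lit 193)) (XT.nd (nat_lit 78) (nat_lit 76) (nat_lit 0) (XT.lf (nat_lit 0) (nat_lit 11774616609) (nat_lit 228) (nat_lit 3298972249) (nat_lit 76) (nat_lit 4375426001) (nat_lit 21) (nat_lit 5) (nat_lit 24) (nat_lit 5) (nat_lit 22) (nat_lit 4) (nat_lit 342) (nat_lit 246) (nat_lit 192)) (XT.lf (nat_lit 0) (nat_lit 2703338916) (nat_lit 76) (nat_lit 12127285823) (nat_lit 152) (nat_lit 5086738295) (nat_lit 20) (nat_lit 5) (nat_lit 21) (nat_lit 5) (nat_lit 22) (nat_lit 4) (nat_lit 343) (nat_lit 246) (nat_lit 191)))) (XT.nd (nat_lit 78) (nat_lit 228) (nat_lit 0) (XT.lf (nat_lit 0) (nat_lit 8902143881) (nat_lit 76) (nat_lit 9078394509) (nat_lit 152) (nat_lit 2419191666) (nat_lit 20) (nat_lit 5) (nat_lit 21) (nat_lit 5) (nat_lit 22) (nat_lit 4) (nat_lit 344) (nat_lit 246) (nat_lit 190)) (XT.nd (nat_lit 78) (nat_lit 152)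 (nat_lit 0) (XT.lf (nat_lit 0) (nat_lit 291458748) (nat_lit 152) (nat_lit 5663162078) (nat_lit 76) (nat_lit 14942801149) (nat_lit 19) (nat_lit 5) (nat_lit 21) (nat_lit 5) (nat_lit 20) (nat_lit 5) (nat_lit 345) (nat_lit 246) (nat_lit 189)) (XT.lf (nat_lit 0) (nat_lit 278900844) (nat_lit 152) (nat_lit 2728959509) (nat_lit 228) (nat_lit 18402306252) (nat_lit 17) (nat_lit 5) (nat_lit 19) (nat_lit 5) (nat_lit 20) (nat_lit 5) (nat_lit 346) (nat_lit 246) (nat_lit 188)))))) (XT.nd (nat_lit 390) (nat_lit 228) (nat_lit 0) (XT.nd (nat_lit 156) (nat_lit 76) (nat_lit 0) (XT.nd (nat_lit 78) (nat_lit 0) (nat_lit 0) (XT.lf (nat_lit 0) (nat_lit 5839799190) (nat_lit 228) (nat_lit 15476662429) (nat_lit 76) (nat_lit 620841840) (nat_lit 17) (nat_lit 5) (nat_lit 20) (nat_lit 5) (nat_lit 18) (nat_lit 4) (nat_lit 347) (nat_lit 246) (nat_lit 187)) (XT.lf (nat_lit 0) (nat_lit 8755159604) (nat_lit 228) (nat_lit 9727137840)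 (nat_lit 76) (nat_lit 3998033401) (nat_lit 17) (nat_lit 5) (nat_lit 20) (nat_lit 5) (nat_lit 18) (nat_lit 4) (nat_lit 348) (nat_lit 246) (nat_lit 186))) (XT.nd (nat_lit 78) (nat_lit 76) (nat_lit 0) (XT.lf (nat_lit 0) (nat_lit 11730256569) (nat_lit 228) (nat_lit 3851435711) (nat_lit 76) (nat_lit 7458817947) (nat_lit 17) (nat_lit 5) (nat_lit 20) (nat_lit 5) (nat_lit 18) (nat_lit 4) (nat_lit 349) (nat_lit 246) (nat_lit 185)) (XT.nd (nat_lit 78) (nat_lit 0) (nat_lit 0) (XT.lf (nat_lit 0) (nat_lit 2198478297) (nat_lit 76) (nat_lit 12590344505) (nat_lit 152) (nat_lit 8828874285) (nat_lit 16) (nat_lit 5) (nat_lit 17) (nat_lit 5) (nat_lit 18) (nat_lit 4) (nat_lit 350) (nat_lit 246) (nat_lit 184)) (XT.lf (nat_lit 0) (nat_lit 8464321746) (nat_lit 76) (nat_lit 9487155511) (nat_lit 152) (nat_lit 6260380116) (nat_lit 16) (nat_lit 5) (nat_lit 17) (nat_lit 5) (nat_lit 18) (nat_lit 4) (nat_lit 351) (nat_lit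 246) (nat_lit 183))))) (XT.nd (nat_lit 234) (nat_lit 0) (nat_lit 0) (XT.nd (nat_lit 78) (nat_lit 228) (nat_lit 0) (XT.lf (nat_lit 0) (nat_lit 14874918521) (nat_lit 76) (nat_lit 6308305721) (nat_lit 152) (nat_lit 3641418786) (nat_lit 16) (nat_lit 5) (nat_lit 17) (nat_lit 5) (nat_lit 18) (nat_lit 4) (nat_lit 352) (nat_lit 246) (nat_lit 182)) (XT.nd (nat_lit 78) (nat_lit 228) (nat_lit 0) (XT.lf (nat_lit 0) (nat_lit 21435870116) (nat_lit 76) (nat_lit 3051017500) (nat_lit 152) (nat_lit 969701880) (nat_lit 16) (nat_lit 5) (nat_lit 17) (nat_lit 5) (nat_lit 18) (nat_lit 4) (nat_lit 353) (nat_lit 246) (nat_lit 181)) (XT.lf (nat_lit 0) (nat_lit 1745825980) (nat_lit 228) (nat_lit 24042147406) (nat_lit 76) (nat_lit 319078617) (nat_lit 13) (nat_lit 5) (nat_lit 16) (nat_lit 5) (nat_lit 14) (nat_lit 4) (nat_lit 354) (nat_lit 246) (nat_lit 180)))) (XT.nd (nat_lit 78) (nat_lit 0) (nat_lit 0) (XT.lf (nat_lit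 0) (nat_lit 4570132163) (nat_lit 228) (nat_lit 18441945288) (nat_lit 76) (nat_lit 3763282770) (nat_lit 13) (nat_lit 5) (nat_lit 16) (nat_lit 5) (nat_lit 14) (nat_lit 4) (nat_lit 355) (nat_lit 246) (nat_lit 179)) (XT.nd (nat_lit 78) (nat_lit 0) (nat_lit 0) (XT.lf (nat_lit 0) (nat_lit 7455469536) (nat_lit 228) (nat_lit 12713972007) (nat_lit 76) (nat_lit 7295010328) (nat_lit 13) (nat_lit 5) (nat_lit 16) (nat_lit 5) (nat_lit 14) (nat_lit 4) (nat_lit 356) (nat_lit 246) (nat_lit 178)) (XT.lf (nat_lit 0) (nat_lit 10404359267) (nat_lit 228) (nat_lit 6853222539) (nat_lit 76) (nat_lit 10917347266) (nat_lit 13) (nat_lit 5) (nat_lit 16) (nat_lit 5) (nat_lit 14) (nat_lit 4) (nat_lit 357) (nat_lit 246) (nat_lit 177))))))) (XT.nd (nat_lit 858) (nat_lit 228) (nat_lit 0) (XT.nd (nat_lit 390) (nat_lit 228) (nat_lit 0) (XT.nd (nat_lit 156) (nat_lit 0) (nat_lit 0) (XT.nd (nat_lit 78) (nat_lit 76) (nat_lit 0) (XT.lf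 (nat_lit 0) (nat_lit 13419378055) (nat_lit 228) (nat_lit 854575841) (nat_lit 76) (nat_lit 14633458732) (nat_lit 13) (nat_lit 5) (nat_lit 16) (nat_lit 5) (nat_lit 14) (nat_lit 4) (nat_lit 358) (nat_lit 246) (nat_lit 176)) (XT.lf (nat_lit 0) (nat_lit 5392435462) (nat_lit 76) (nat_lit 11162560310) (nat_lit 152) (nat_lit 13105991741) (nat_lit 12) (nat_lit 5) (nat_lit 13) (nat_lit 5) (nat_lit 14) (nat_lit 4) (nat_lit 359) (nat_lit 246) (nat_lit 175))) (XT.nd (nat_lit 78) (nat_lit 0) (nat_lit 0) (XT.lf (nat_lit 0) (nat_lit 11807915423) (nat_lit 76) (nat_lit 7963990303) (nat_lit 152) (nat_lit 10665667860) (nat_lit 12) (nat_lit 5) (nat_lit 13) (nat_lit 5) (nat_lit 14) (nat_lit 4) (nat_lit 360) (nat_lit 246) (nat_lit 174)) (XT.nd (nat_lit 78) (nat_lit 0) (nat_lit 0) (XT.lf (nat_lit 0) (nat_lit 18380462068) (nat_lit 76) (nat_lit 4684078547) (nat_lit 152) (nat_lit 8173560149) (nat_lit 12) (nat_lit 5) (nat_lit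 13) (nat_lit 5) (nat_lit 14) (nat_lit 4) (nat_lit 361) (nat_lit 246) (nat_lit 173)) (XT.lf (nat_lit 0) (nat_lit 25115818396) (nat_lit 76) (nat_lit 1319959101) (nat_lit 152) (nat_lit 5627491039) (nat_lit 12) (nat_lit 5) (nat_lit 13) (nat_lit 5) (nat_lit 14) (nat_lit 4) (nat_lit 362) (nat_lit 246) (nat_lit 172))))) (XT.nd (nat_lit 234) (nat_lit 0) (nat_lit 0) (XT.nd (nat_lit 78) (nat_lit 228) (nat_lit 0) (XT.lf (nat_lit 0) (nat_lit 29909049548) (nat_lit 152) (nat_lit 914415683) (nat_lit 0) (nat_lit 2089718069) (nat_lit 12) (nat_lit 5) (nat_lit 14) (nat_lit 4) (nat_lit 12) (nat_lit 4) (nat_lit 363) (nat_lit 246) (nat_lit 171)) (XT.nd (nat_lit 78) (nat_lit 76) (nat_lit 0) (XT.lf (nat_lit 0) (nat_lit 5358245300) (nat_lit 152) (nat_lit 28173702715) (nat_lit 152) (nat_lit 255302994) (nat_lit 10) (nat_lit 4) (nat_lit 12) (nat_lit 5) (nat_lit 12) (nat_lit 4) (nat_lit 364) (nat_lit 246) (nat_lit 170))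 (XT.lf (nat_lit 0) (nat_lit 2515943994) (nat_lit 228) (nat_lit 22907216171) (nat_lit 76) (nat_lit 9263948475) (nat_lit 9) (nat_lit 5) (nat_lit 12) (nat_lit 5) (nat_lit 10) (nat_lit 4) (nat_lit 365) (nat_lit 246) (nat_lit 169)))) (XT.nd (nat_lit 78) (nat_lit 0) (nat_lit 0) (XT.lf (nat_lit 0) (nat_lit 5346646545) (nat_lit 228) (nat_lit 17254271312) (nat_lit 76) (nat_lit 13013541618) (nat_lit 9) (nat_lit 5) (nat_lit 12) (nat_lit 5) (nat_lit 10) (nat_lit 4) (nat_lit 366) (nat_lit 246) (nat_lit 168)) (XT.nd (nat_lit 78) (nat_lit 0) (nat_lit 0) (XT.lf (nat_lit 0) (nat_lit 8244259968) (nat_lit 228) (nat_lit 11462777539) (nat_lit 76) (nat_lit 16863149938) (nat_lit 9) (nat_lit 5) (nat_lit 12) (nat_lit 5) (nat_lit 10) (nat_lit 4) (nat_lit 367) (nat_lit 246) (nat_lit 167)) (XT.lf (nat_lit 0) (nat_lit 11211316159) (nat_lit 228) (nat_lit 5527674323) (nat_lit 76) (nat_lit 20816137171) (nat_lit 9) (nat_lit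 5) (nat_lit 12) (nat_lit 5) (nat_lit 10) (nat_lit 4) (nat_lit 368) (nat_lit 246) (nat_lit 166)))))) (XT.nd (nat_lit 468) (nat_lit 152) (nat_lit 0) (XT.nd (nat_lit 234) (nat_lit 0) (nat_lit 0) (XT.nd (nat_lit 78) (nat_lit 0) (nat_lit 0) (XT.lf (nat_lit 0) (nat_lit 567294304) (nat_lit 76) (nat_lit 13688566566) (nat_lit 152) (nat_lit 24314116259) (nat_lit 8) (nat_lit 5) (nat_lit 9) (nat_lit 5) (nat_lit 10) (nat_lit 4) (nat_lit 369) (nat_lit 246) (nat_lit 165)) (XT.nd (nat_lit 78) (nat_lit 0) (nat_lit 0) (XT.lf (nat_lit 0) (nat_lit 6929453093) (nat_lit 76) (nat_lit 10501347128) (nat_lit 152) (nat_lit 22183315040) (nat_lit 8) (nat_lit 5) (nat_lit 9) (nat_lit 5) (nat_lit 10) (nat_lit 4) (nat_lit 370) (nat_lit 246) (nat_lit 164)) (XT.lf (nat_lit 0) (nat_lit 13454349655) (nat_lit 76) (nat_lit 7230365890) (nat_lit 152) (nat_lit 20005364643) (nat_lit 8) (nat_lit 5) (nat_lit 9) (nat_lit 5) (nat_lit 10)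 (nat_lit 4) (nat_lit 371) (nat_lit 246) (nat_lit 163)))) (XT.nd (nat_lit 78) (nat_lit 0) (nat_lit 0) (XT.lf (nat_lit 0) (nat_lit 20147685354) (nat_lit 76) (nat_lit 3872764715) (nat_lit 152) (nat_lit 17778362005) (nat_lit 8) (nat_lit 5) (nat_lit 9) (nat_lit 5) (nat_lit 10) (nat_lit 4) (nat_lit 372) (nat_lit 246) (nat_lit 162)) (XT.nd (nat_lit 78) (nat_lit 0) (nat_lit 0) (XT.lf (nat_lit 0) (nat_lit 27015308738) (nat_lit 76) (nat_lit 425609776) (nat_lit 152) (nat_lit 15500361202) (nat_lit 8) (nat_lit 5) (nat_lit 9) (nat_lit 5) (nat_lit 10) (nat_lit 4) (nat_lit 373) (nat_lit 246) (nat_lit 161)) (XT.lf (nat_lit 0) (nat_lit 30979044378) (nat_lit 152) (nat_lit 10085195483) (nat_lit 0) (nat_lit 3053343481) (nat_lit 8) (nat_lit 5) (nat_lit 10) (nat_lit 4) (nat_lit 8) (nat_lit 4) (nat_lit 374) (nat_lit 246) (nat_lit 160))))) (XT.nd (nat_lit 234) (nat_lit 76) (nat_lit 0) (XT.nd (nat_lit 78) (nat_lit 76)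 (nat_lit 0) (XT.lf (nat_lit 0) (nat_lit 34612969082) (nat_lit 152) (nat_lit 4098746500) (nat_lit 0) (nat_lit 6617783713) (nat_lit 8) (nat_lit 5) (nat_lit 10) (nat_lit 4) (nat_lit 8) (nat_lit 4) (nat_lit 375) (nat_lit 246) (nat_lit 159)) (XT.nd (nat_lit 78) (nat_lit 0) (nat_lit 0) (XT.lf (nat_lit 0) (nat_lit 2083351765) (nat_lit 76) (nat_lit 36278451365) (nat_lit 76) (nat_lit 8215805343) (nat_lit 7) (nat_lit 4) (nat_lit 8) (nat_lit 5) (nat_lit 8) (nat_lit 4) (nat_lit 376) (nat_lit 246) (nat_lit 158)) (XT.lf (nat_lit 0) (nat_lit 8510576538) (nat_lit 76) (nat_lit 33739957681) (nat_lit 76) (nat_lit 5611815880) (nat_lit 7) (nat_lit 4) (nat_lit 8) (nat_lit 5) (nat_lit 8) (nat_lit 4) (nat_lit 377) (nat_lit 246) (nat_lit 157)))) (XT.nd (nat_lit 78) (nat_lit 76) (nat_lit 0) (XT.lf (nat_lit 0) (nat_lit 15106970745) (nat_lit 76) (nat_lit 31135405732) (nat_lit 76) (nat_lit 2943675797) (nat_lit 7) (nat_lit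 4) (nat_lit 8) (nat_lit 5) (nat_lit 8) (nat_lit 4) (nat_lit 378) (nat_lit 246) (nat_lit 156)) (XT.nd (nat_lit 78) (nat_lit 76) (nat_lit 0) (XT.lf (nat_lit 0) (nat_lit 21878298227) (nat_lit 76) (nat_lit 28462519696) (nat_lit 76) (nat_lit 209053708) (nat_lit 7) (nat_lit 4) (nat_lit 8) (nat_lit 5) (nat_lit 8) (nat_lit 4) (nat_lit 379) (nat_lit 246) (nat_lit 155)) (XT.lf (nat_lit 0) (nat_lit 2543812995) (nat_lit 152) (nat_lit 23149463524) (nat_lit 76) (nat_lit 26260975160) (nat_lit 6) (nat_lit 5) (nat_lit 8) (nat_lit 5) (nat_lit 7) (nat_lit 4) (nat_lit 380) (nat_lit 246) (nat_lit 154))))))))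
noncomputable def xc74 : XT := (XT.nd (nat_lit 33462) (nat_lit 0) (nat_lit 4484) (XT.nd (nat_lit 858) (nat_lit 76) (nat_lit 0) (XT.nd (nat_lit 390) (nat_lit 0) (nat_lit 0) (XT.nd (nat_lit 156) (nat_lit 76) (nat_lit 0) (XT.nd (nat_lit 78) (nat_lit 0) (nat_lit 0) (XT.lf (nat_lit 0) (nat_lit 5362529711) (nat_lit 152) (nat_lit 17485660742) (nat_lit 76) (nat_lit 30552897070) (nat_lit 6) (nat_lit 5) (nat_lit 8) (nat_lit 5) (nat_lit 7) (nat_lit 4) (nat_lit 381) (nat_lit 246) (nat_lit 153)) (XT.lf (nat_lit 0) (nat_lit 8253638786) (nat_lit 152) (nat_lit 11673206553) (nat_lit 76) (nat_lit 34964858337) (nat_lit 6) (nat_lit 5) (nat_lit 8) (nat_lit 5) (nat_lit 7) (nat_lit 4) (nat_lit 382) (nat_lit 246) (nat_lit 152))) (XT.nd (nat_lit 78) (nat_lit 76) (nat_lit 0) (XT.lf (nat_lit 0) (nat_lit 11219666433) (nat_lit 152) (nat_lit 5707022114) (nat_lit 76) (nat_lit 39500714073) (nat_lit 6) (nat_lit 5) (nat_lit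 8) (nat_lit 5) (nat_lit 7) (nat_lit 4) (nat_lit 383) (nat_lit 246) (nat_lit 151)) (XT.nd (nat_lit 78) (nat_lit 0) (nat_lit 0) (XT.lf (nat_lit 0) (nat_lit 426426869) (nat_lit 76) (nat_lit 13840876532) (nat_lit 152) (nat_lit 43742099853) (nat_lit 5) (nat_lit 5) (nat_lit 6) (nat_lit 5) (nat_lit 7) (nat_lit 4) (nat_lit 384) (nat_lit 246) (nat_lit 150)) (XT.lf (nat_lit 0) (nat_lit 6841022061) (nat_lit 76) (nat_lit 10611649894) (nat_lit 152) (nat_lit 42184812176) (nat_lit 5) (nat_lit 5) (nat_lit 6) (nat_lit 5) (nat_lit 7) (nat_lit 4) (nat_lit 385) (nat_lit 246) (nat_lit 149))))) (XT.nd (nat_lit 234) (nat_lit 0) (nat_lit 0) (XT.nd (nat_lit 78) (nat_lit 0) (nat_lit 0) (XT.lf (nat_lit 0) (nat_lit 13428787515) (nat_lit 76) (nat_lit 7293816713) (nat_lit 152) (nat_lit 40592142152) (nat_lit 5) (nat_lit 5) (nat_lit 6) (nat_lit 5) (nat_lit 7) (nat_lit 4) (nat_lit 386) (nat_lit 246) (nat_lit 148)) (XT.nd (nat_lit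 78) (nat_lit 0) (nat_lit 0) (XT.lf (nat_lit 0) (nat_lit 20195479532) (nat_lit 76) (nat_lit 3884477912) (nat_lit 152) (nat_lit 38962698129) (nat_lit 5) (nat_lit 5) (nat_lit 6) (nat_lit 5) (nat_lit 7) (nat_lit 4) (nat_lit 387) (nat_lit 246) (nat_lit 147)) (XT.lf (nat_lit 0) (nat_lit 27147010756) (nat_lit 76) (nat_lit 380654455) (nat_lit 152) (nat_lit 37295056319) (nat_lit 5) (nat_lit 5) (nat_lit 6) (nat_lit 5) (nat_lit 7) (nat_lit 4) (nat_lit 388) (nat_lit 246) (nat_lit 146)))) (XT.nd (nat_lit 78) (nat_lit 0) (nat_lit 0) (XT.lf (nat_lit 0) (nat_lit 31099699577) (nat_lit 152) (nat_lit 32398003798) (nat_lit 0) (nat_lit 3157867493) (nat_lit 5) (nat_lit 5) (nat_lit 7) (nat_lit 4) (nat_lit 5) (nat_lit 4) (nat_lit 389) (nat_lit 246) (nat_lit 145)) (XT.nd (nat_lit 78) (nat_lit 0) (nat_lit 0) (XT.lf (nat_lit 0) (nat_lit 34772822203) (nat_lit 152) (nat_lit 26983083991) (nat_lit 0) (nat_lit 6787689693)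 (nat_lit 5) (nat_lit 5) (nat_lit 7) (nat_lit 4) (nat_lit 5) (nat_lit 4) (nat_lit 390) (nat_lit 246) (nat_lit 144)) (XT.lf (nat_lit 0) (nat_lit 38546583533) (nat_lit 152) (nat_lit 21422560787) (nat_lit 0) (nat_lit 10519411775) (nat_lit 5) (nat_lit 5) (nat_lit 7) (nat_lit 4) (nat_lit 5) (nat_lit 4) (nat_lit 391) (nat_lit 246) (nat_lit 143)))))) (XT.nd (nat_lit 390) (nat_lit 0) (nat_lit 0) (XT.nd (nat_lit 156) (nat_lit 76) (nat_lit 0) (XT.nd (nat_lit 78) (nat_lit 0) (nat_lit 0) (XT.lf (nat_lit 0) (nat_lit 42424281027) (nat_lit 152) (nat_lit 15711575477) (nat_lit 0) (nat_lit 14356294465) (nat_lit 5) (nat_lit 5) (nat_lit 7) (nat_lit 4) (nat_lit 5) (nat_lit 4) (nat_lit 392) (nat_lit 246) (nat_lit 142)) (XT.lf (nat_lit 0) (nat_lit 46409302965) (nat_lit 152) (nat_lit 9845137878) (nat_lit 0) (nat_lit 18301690379) (nat_lit 5) (nat_lit 5) (nat_lit 7) (nat_lit 4) (nat_lit 5) (nat_lit 4) (nat_lit 393) (nat_lit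 246) (nat_lit 141))) (XT.nd (nat_lit 78) (nat_lit 76) (nat_lit 0) (XT.lf (nat_lit 0) (nat_lit 50505131404) (nat_lit 152) (nat_lit 3818121978) (nat_lit 0) (nat_lit 22359046951) (nat_lit 5) (nat_lit 5) (nat_lit 7) (nat_lit 4) (nat_lit 5) (nat_lit 4) (nat_lit 394) (nat_lit 246) (nat_lit 140)) (XT.nd (nat_lit 78) (nat_lit 0) (nat_lit 0) (XT.lf (nat_lit 0) (nat_lit 2422000500) (nat_lit 76) (nat_lit 52316626475) (nat_lit 76) (nat_lit 24133190695) (nat_lit 4) (nat_lit 4) (nat_lit 5) (nat_lit 5) (nat_lit 5) (nat_lit 4) (nat_lit 395) (nat_lit 246) (nat_lit 139)) (XT.lf (nat_lit 0) (nat_lit 8912775284) (nat_lit 76) (nat_lit 50216523019) (nat_lit 76) (nat_lit 21996823813) (nat_lit 4) (nat_lit 4) (nat_lit 5) (nat_lit 5) (nat_lit 5) (nat_lit 4) (nat_lit 396) (nat_lit 246) (nat_lit 138))))) (XT.nd (nat_lit 31980) (nat_lit 0) (nat_lit 10412) (XT.nd (nat_lit 78) (nat_lit 0) (nat_lit 0) (XT.lf (nat_lit 0) (nat_lit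 15583885809) (nat_lit 76) (nat_lit 48059663517) (nat_lit 76) (nat_lit 19804757103) (nat_lit 4) (nat_lit 4) (nat_lit 5) (nat_lit 5) (nat_lit 5) (nat_lit 4) (nat_lit 397) (nat_lit 246) (nat_lit 137)) (XT.nd (nat_lit 78) (nat_lit 0) (nat_lit 0) (XT.lf (nat_lit 0) (nat_lit 22441161201) (nat_lit 76) (nat_lit 45844163336) (nat_lit 76) (nat_lit 17555075167) (nat_lit 4) (nat_lit 4) (nat_lit 5) (nat_lit 5) (nat_lit 5) (nat_lit 4) (nat_lit 398) (nat_lit 246) (nat_lit 136)) (XT.lf (nat_lit 0) (nat_lit 29490593255) (nat_lit 76) (nat_lit 43568086602) (nat_lit 76) (nat_lit 15245812261) (nat_lit 4) (nat_lit 4) (nat_lit 5) (nat_lit 5) (nat_lit 5) (nat_lit 4) (nat_lit 399) (nat_lit 246) (nat_lit 135)))) (XT.nd (nat_lit 78) (nat_lit 1824) (nat_lit 0) (XT.lf (nat_lit 0) (nat_lit 3558645868) (nat_lit 988) (nat_lit 36685356) (nat_lit 988) (nat_lit 36685356) (nat_lit 165) (nat_lit 4) (nat_lit 178) (nat_lit 5) (nat_lit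 178) (nat_lit 4) (nat_lit 286) (nat_lit 247) (nat_lit 247)) (XT.nd (nat_lit 78) (nat_lit 684) (nat_lit 0) (XT.lf (nat_lit 0) (nat_lit 2938248896) (nat_lit 1140) (nat_lit 2957677288) (nat_lit 0) (nat_lit 1435248375) (nat_lit 150) (nat_lit 5) (nat_lit 165) (nat_lit 4) (nat_lit 150) (nat_lit 4) (nat_lit 287) (nat_lit 247) (nat_lit 246)) (XT.lf (nat_lit 0) (nat_lit 1570880965) (nat_lit 684) (nat_lit 4397023594) (nat_lit 684) (nat_lit 1434799267) (nat_lit 141) (nat_lit 4) (nat_lit 150) (nat_lit 5) (nat_lit 150) (nat_lit 4) (nat_lit 288) (nat_lit 247) (nat_lit 245))))))) (XT.nd (nat_lit 858) (nat_lit 2736) (nat_lit 0) (XT.nd (nat_lit 390) (nat_lit 1520) (nat_lit 0) (XT.nd (nat_lit 156) (nat_lit 1064) (nat_lit 0) (XT.nd (nat_lit 78) (nat_lit 532) (nat_lit 0) (XT.lf (nat_lit 0) (nat_lit 1523209373) (nat_lit 760) (nat_lit 1286831440) (nat_lit 76) (nat_lit 4667850168) (nat_lit 140) (nat_lit 5) (nat_lit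 150) (nat_lit 5) (nat_lit 141) (nat_lit 4) (nat_lit 289) (nat_lit 247) (nat_lit 244)) (XT.lf (nat_lit 0) (nat_lit 3356993346) (nat_lit 532) (nat_lit 1131380153) (nat_lit 608) (nat_lit 3068363826) (nat_lit 133) (nat_lit 5) (nat_lit 140) (nat_lit 5) (nat_lit 141) (nat_lit 4) (nat_lit 290) (nat_lit 247) (nat_lit 243))) (XT.nd (nat_lit 78) (nat_lit 532) (nat_lit 0) (XT.lf (nat_lit 0) (nat_lit 441040602) (nat_lit 532) (nat_lit 7041130270) (nat_lit 532) (nat_lit 157827984) (nat_lit 126) (nat_lit 4) (nat_lit 133) (nat_lit 5) (nat_lit 133) (nat_lit 4) (nat_lit 291) (nat_lit 247) (nat_lit 242)) (XT.nd (nat_lit 78) (nat_lit 456) (nat_lit 0) (XT.lf (nat_lit 0) (nat_lit 2755734519) (nat_lit 608) (nat_lit 2547900485) (nat_lit 76) (nat_lit 2422396696) (nat_lit 125) (nat_lit 5) (nat_lit 133) (nat_lit 5) (nat_lit 126) (nat_lit 4) (nat_lit 292) (nat_lit 247) (nat_lit 241)) (XT.lf (nat_lit 0) (nat_lit 2194995365)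 (nat_lit 456) (nat_lit 3499149408) (nat_lit 532) (nat_lit 2122455253) (nat_lit 119) (nat_lit 5) (nat_lit 125) (nat_lit 5) (nat_lit 126) (nat_lit 4) (nat_lit 293) (nat_lit 247) (nat_lit 240))))) (XT.nd (nat_lit 234) (nat_lit 532) (nat_lit 0) (XT.nd (nat_lit 78) (nat_lit 912) (nat_lit 0) (XT.lf (nat_lit 0) (nat_lit 741003049) (nat_lit 532) (nat_lit 874644834) (nat_lit 76) (nat_lit 6295830751) (nat_lit 118) (nat_lit 5) (nat_lit 125) (nat_lit 5) (nat_lit 119) (nat_lit 5) (nat_lit 294) (nat_lit 247) (nat_lit 239)) (XT.nd (nat_lit 78) (nat_lit 456) (nat_lit 0) (XT.lf (nat_lit 0) (nat_lit 3611966127) (nat_lit 532) (nat_lit 4029384259) (nat_lit 76) (nat_lit 368496093) (nat_lit 112) (nat_lit 5) (nat_lit 119) (nat_lit 5) (nat_lit 113) (nat_lit 4) (nat_lit 295) (nat_lit 247) (nat_lit 238)) (XT.lf (nat_lit 0) (nat_lit 798957969) (nat_lit 456) (nat_lit 5726378494) (nat_lit 532) (nat_lit 1587335804) (nat_lit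 106) (nat_lit 5) (nat_lit 112) (nat_lit 5) (nat_lit 113) (nat_lit 4) (nat_lit 296) (nat_lit 247) (nat_lit 237)))) (XT.nd (nat_lit 78) (nat_lit 456) (nat_lit 0) (XT.lf (nat_lit 0) (nat_lit 1247234193) (nat_lit 532) (nat_lit 2465208323) (nat_lit 76) (nat_lit 4506990594) (nat_lit 105) (nat_lit 5) (nat_lit 112) (nat_lit 5) (nat_lit 106) (nat_lit 5) (nat_lit 297) (nat_lit 247) (nat_lit 236)) (XT.nd (nat_lit 78) (nat_lit 0) (nat_lit 0) (XT.lf (nat_lit 0) (nat_lit 2474306193) (nat_lit 456) (nat_lit 1610757412) (nat_lit 532) (nat_lit 4245536593) (nat_lit 99) (nat_lit 5) (nat_lit 105) (nat_lit 5) (nat_lit 106) (nat_lit 5) (nat_lit 298) (nat_lit 247) (nat_lit 235)) (XT.lf (nat_lit 0) (nat_lit 6966019299) (nat_lit 532) (nat_lit 925757522) (nat_lit 76) (nat_lit 554759220) (nat_lit 99) (nat_lit 5) (nat_lit 106) (nat_lit 5) (nat_lit 100) (nat_lit 4) (nat_lit 299) (nat_lit 247) (nat_lit 234)))))) (XT.nd (nat_lit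 468) (nat_lit 1064) (nat_lit 0) (XT.nd (nat_lit 234) (nat_lit 836) (nat_lit 0) (XT.nd (nat_lit 78) (nat_lit 380) (nat_lit 0) (XT.lf (nat_lit 0) (nat_lit 1325759227) (nat_lit 456) (nat_lit 4447985196) (nat_lit 76) (nat_lit 2792425037) (nat_lit 93) (nat_lit 5) (nat_lit 99) (nat_lit 5) (nat_lit 94) (nat_lit 5) (nat_lit 300) (nat_lit 247) (nat_lit 233)) (XT.nd (nat_lit 78) (nat_lit 0) (nat_lit 0) (XT.lf (nat_lit 0) (nat_lit 552839508) (nat_lit 380) (nat_lit 3578407015) (nat_lit 456) (nat_lit 4559520967) (nat_lit 88) (nat_lit 5) (nat_lit 93) (nat_lit 5) (nat_lit 94) (nat_lit 5) (nat_lit 301) (nat_lit 247) (nat_lit 232)) (XT.lf (nat_lit 0) (nat_lit 5709209164) (nat_lit 380) (nat_lit 1287844747) (nat_lit 456) (nat_lit 1822919024) (nat_lit 88) (nat_lit 5) (nat_lit 93) (nat_lit 5) (nat_lit 94) (nat_lit 5) (nat_lit 302) (nat_lit 247) (nat_lit 231)))) (XT.nd (nat_lit 78) (nat_lit 380) (nat_lit 0) (XT.lf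 (nat_lit 0) (nat_lit 938548614) (nat_lit 456) (nat_lit 6952525169) (nat_lit 76) (nat_lit 1062972926) (nat_lit 82) (nat_lit 5) (nat_lit 88) (nat_lit 5) (nat_lit 83) (nat_lit 5) (nat_lit 303) (nat_lit 247) (nat_lit 230)) (XT.nd (nat_lit 78) (nat_lit 380) (nat_lit 0) (XT.lf (nat_lit 0) (nat_lit 3724125257) (nat_lit 456) (nat_lit 1877157884) (nat_lit 76) (nat_lit 3491122038) (nat_lit 82) (nat_lit 5) (nat_lit 88) (nat_lit 5) (nat_lit 83) (nat_lit 5) (nat_lit 304) (nat_lit 247) (nat_lit 229)) (XT.lf (nat_lit 0) (nat_lit 3332202496) (nat_lit 380) (nat_lit 3228466097) (nat_lit 456) (nat_lit 2675360779) (nat_lit 77) (nat_lit 5) (nat_lit 82) (nat_lit 5) (nat_lit 83) (nat_lit 5) (nat_lit 305) (nat_lit 247) (nat_lit 228))))) (XT.nd (nat_lit 234) (nat_lit 380) (nat_lit 0) (XT.nd (nat_lit 78) (nat_lit 608) (nat_lit 0) (XT.lf (nat_lit 0) (nat_lit 51268558) (nat_lit 456) (nat_lit 732086512) (nat_lit 76) (nat_lit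 8602062700) (nat_lit 76) (nat_lit 5) (nat_lit 82) (nat_lit 5) (nat_lit 77) (nat_lit 5) (nat_lit 306) (nat_lit 247) (nat_lit 227)) (XT.nd (nat_lit 78) (nat_lit 304) (nat_lit 0) (XT.lf (nat_lit 0) (nat_lit 2804678917) (nat_lit 380) (nat_lit 4980190892) (nat_lit 76) (nat_lit 1753786051) (nat_lit 72) (nat_lit 5) (nat_lit 77) (nat_lit 5) (nat_lit 73) (nat_lit 5) (nat_lit 307) (nat_lit 247) (nat_lit 226)) (XT.lf (nat_lit 0) (nat_lit 240922885) (nat_lit 304) (nat_lit 5355735727) (nat_lit 380) (nat_lit 4101275150) (nat_lit 68) (nat_lit 5) (nat_lit 72) (nat_lit 5) (nat_lit 73) (nat_lit 5) (nat_lit 308) (nat_lit 247) (nat_lit 225)))) (XT.nd (nat_lit 78) (nat_lit 380) (nat_lit 0) (XT.lf (nat_lit 0) (nat_lit 5639147208) (nat_lit 304) (nat_lit 2822978775) (nat_lit 380) (nat_lit 1400290305) (nat_lit 68) (nat_lit 5) (nat_lit 72) (nat_lit 5) (nat_lit 73) (nat_lit 5) (nat_lit 309) (nat_lit 247) (nat_lit 224))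 (XT.nd (nat_lit 78) (nat_lit 0) (nat_lit 0) (XT.lf (nat_lit 0) (nat_lit 1095040959) (nat_lit 304) (nat_lit 210754361) (nat_lit 380) (nat_lit 8727219857) (nat_lit 63) (nat_lit 5) (nat_lit 67) (nat_lit 5) (nat_lit 68) (nat_lit 5) (nat_lit 310) (nat_lit 247) (nat_lit 223)) (XT.lf (nat_lit 0) (nat_lit 4073095551) (nat_lit 380) (nat_lit 3667504353) (nat_lit 76) (nat_lit 2467579015) (nat_lit 63) (nat_lit 5) (nat_lit 68) (nat_lit 5) (nat_lit 64) (nat_lit 5) (nat_lit 311) (nat_lit 247) (nat_lit 222))))))))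
noncomputable def xc75 : XT := (XT.nd (nat_lit 1716) (nat_lit 1140) (nat_lit 0) (XT.nd (nat_lit 858) (nat_lit 912) (nat_lit 0) (XT.nd (nat_lit 390) (nat_lit 836) (nat_lit 0) (XT.nd (nat_lit 156) (nat_lit 608) (nat_lit 0) (XT.nd (nat_lit 78) (nat_lit 0) (nat_lit 0) (XT.lf (nat_lit 0) (nat_lit 1713397697) (nat_lit 304) (nat_lit 5171554380) (nat_lit 380) (nat_lit 3504904341) (nat_lit 59) (nat_lit 5) (nat_lit 63) (nat_lit 5) (nat_lit 64) (nat_lit 5) (nat_lit 312) (nat_lit 247) (nat_lit 221)) (XT.lf (nat_lit 0) (nat_lit 7252652062) (nat_lit 304) (nat_lit 2509435755) (nat_lit 380) (nat_lit 815570624) (nat_lit 59) (nat_lit 5) (nat_lit 63) (nat_lit 5) (nat_lit 64) (nat_lit 5) (nat_lit 313) (nat_lit 247) (nat_lit 220))) (XT.nd (nat_lit 78) (nat_lit 304) (nat_lit 0) (XT.lf (nat_lit 0) (nat_lit 1884104401) (nat_lit 304) (nat_lit 8641428437) (nat_lit 76) (nat_lit 246060137) (nat_lit 55) (nat_lit 5) (nat_lit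 59) (nat_lit 5) (nat_lit 56) (nat_lit 5) (nat_lit 314) (nat_lit 247) (nat_lit 219)) (XT.nd (nat_lit 78) (nat_lit 304) (nat_lit 0) (XT.lf (nat_lit 0) (nat_lit 4652676343) (nat_lit 304) (nat_lit 3264361102) (nat_lit 76) (nat_lit 3054030144) (nat_lit 55) (nat_lit 5) (nat_lit 59) (nat_lit 5) (nat_lit 56) (nat_lit 5) (nat_lit 315) (nat_lit 247) (nat_lit 218)) (XT.lf (nat_lit 0) (nat_lit 2242120089) (nat_lit 304) (nat_lit 5230868515) (nat_lit 380) (nat_lit 3704567883) (nat_lit 51) (nat_lit 5) (nat_lit 55) (nat_lit 5) (nat_lit 56) (nat_lit 5) (nat_lit 316) (nat_lit 247) (nat_lit 217))))) (XT.nd (nat_lit 234) (nat_lit 532) (nat_lit 0) (XT.nd (nat_lit 78) (nat_lit 304) (nat_lit 0) (XT.lf (nat_lit 0) (nat_lit 7905803583) (nat_lit 304) (nat_lit 2453020652) (nat_lit 380) (nat_lit 1032076301) (nat_lit 51) (nat_lit 5) (nat_lit 55) (nat_lit 5) (nat_lit 56) (nat_lit 5) (nat_lit 317) (nat_lit 247) (nat_lit 216))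 (XT.nd (nat_lit 78) (nat_lit 0) (nat_lit 0) (XT.lf (nat_lit 0) (nat_lit 1659948487) (nat_lit 304) (nat_lit 9536277963) (nat_lit 76) (nat_lit 414817133) (nat_lit 47) (nat_lit 5) (nat_lit 51) (nat_lit 5) (nat_lit 48) (nat_lit 5) (nat_lit 318) (nat_lit 247) (nat_lit 215)) (XT.lf (nat_lit 0) (nat_lit 4421268341) (nat_lit 304) (nat_lit 4073198795) (nat_lit 76) (nat_lit 3342819332) (nat_lit 47) (nat_lit 5) (nat_lit 51) (nat_lit 5) (nat_lit 48) (nat_lit 5) (nat_lit 319) (nat_lit 247) (nat_lit 214)))) (XT.nd (nat_lit 78) (nat_lit 304) (nat_lit 0) (XT.lf (nat_lit 0) (nat_lit 1510951570) (nat_lit 228) (nat_lit 5719922366) (nat_lit 304) (nat_lit 4840557421) (nat_lit 44) (nat_lit 5) (nat_lit 47) (nat_lit 5) (nat_lit 48) (nat_lit 5) (nat_lit 320) (nat_lit 247) (nat_lit 213)) (XT.nd (nat_lit 78) (nat_lit 304) (nat_lit 0) (XT.lf (nat_lit 0) (nat_lit 7274526619) (nat_lit 228) (nat_lit 2843035584) (nat_lit 304)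 (nat_lit 2195330380) (nat_lit 44) (nat_lit 5) (nat_lit 47) (nat_lit 5) (nat_lit 48) (nat_lit 5) (nat_lit 321) (nat_lit 247) (nat_lit 212)) (XT.lf (nat_lit 0) (nat_lit 478124930) (nat_lit 304) (nat_lit 11978594898) (nat_lit 76) (nat_lit 106020694) (nat_lit 40) (nat_lit 5) (nat_lit 44) (nat_lit 5) (nat_lit 41) (nat_lit 5) (nat_lit 322) (nat_lit 247) (nat_lit 211)))))) (XT.nd (nat_lit 390) (nat_lit 456) (nat_lit 0) (XT.nd (nat_lit 156) (nat_lit 456) (nat_lit 0) (XT.nd (nat_lit 78) (nat_lit 0) (nat_lit 0) (XT.lf (nat_lit 0) (nat_lit 3220213708) (nat_lit 304) (nat_lit 6461417925) (nat_lit 76) (nat_lit 3136892968) (nat_lit 40) (nat_lit 5) (nat_lit 44) (nat_lit 5) (nat_lit 41) (nat_lit 5) (nat_lit 323) (nat_lit 247) (nat_lit 210)) (XT.lf (nat_lit 0) (nat_lit 5998956945) (nat_lit 304) (nat_lit 847741108) (nat_lit 76) (nat_lit 6236719766) (nat_lit 40) (nat_lit 5) (nat_lit 44) (nat_lit 5) (nat_lit 41)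 (nat_lit 5) (nat_lit 324) (nat_lit 247) (nat_lit 209))) (XT.nd (nat_lit 78) (nat_lit 228) (nat_lit 0) (XT.lf (nat_lit 0) (nat_lit 4964210330) (nat_lit 228) (nat_lit 3900291366) (nat_lit 304) (nat_lit 4491718370) (nat_lit 37) (nat_lit 5) (nat_lit 40) (nat_lit 5) (nat_lit 41) (nat_lit 5) (nat_lit 325) (nat_lit 247) (nat_lit 208)) (XT.nd (nat_lit 78) (nat_lit 228) (nat_lit 0) (XT.lf (nat_lit 0) (nat_lit 10901549783) (nat_lit 228) (nat_lit 879395643) (nat_lit 304) (nat_lit 1857376479) (nat_lit 37) (nat_lit 5) (nat_lit 40) (nat_lit 5) (nat_lit 41) (nat_lit 5) (nat_lit 326) (nat_lit 247) (nat_lit 207)) (XT.lf (nat_lit 0) (nat_lit 847624134) (nat_lit 228) (nat_lit 10876151012) (nat_lit 76) (nat_lit 2204674700) (nat_lit 34) (nat_lit 5) (nat_lit 37) (nat_lit 5) (nat_lit 35) (nat_lit 5) (nat_lit 327) (nat_lit 247) (nat_lit 206))))) (XT.nd (nat_lit 234) (nat_lit 228) (nat_lit 0) (XT.nd (nat_lit 78) (nat_lit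 228) (nat_lit 0) (XT.lf (nat_lit 0) (nat_lit 3590632681) (nat_lit 228) (nat_lit 5248476085) (nat_lit 76) (nat_lit 5387853598) (nat_lit 34) (nat_lit 5) (nat_lit 37) (nat_lit 5) (nat_lit 35) (nat_lit 5) (nat_lit 328) (nat_lit 247) (nat_lit 205)) (XT.nd (nat_lit 78) (nat_lit 0) (nat_lit 0) (XT.lf (nat_lit 0) (nat_lit 493784776) (nat_lit 228) (nat_lit 5885701813) (nat_lit 304) (nat_lit 8156093437) (nat_lit 31) (nat_lit 5) (nat_lit 34) (nat_lit 5) (nat_lit 35) (nat_lit 5) (nat_lit 329) (nat_lit 247) (nat_lit 204)) (XT.lf (nat_lit 0) (nat_lit 6452648517) (nat_lit 228) (nat_lit 2811757177) (nat_lit 304) (nat_lit 5588733316) (nat_lit 31) (nat_lit 5) (nat_lit 34) (nat_lit 5) (nat_lit 35) (nat_lit 5) (nat_lit 330) (nat_lit 247) (nat_lit 203)))) (XT.nd (nat_lit 78) (nat_lit 228) (nat_lit 0) (XT.lf (nat_lit 0) (nat_lit 12199650499) (nat_lit 304) (nat_lit 2655788863) (nat_lit 76) (nat_lit 325925242) (nat_lit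 31) (nat_lit 5) (nat_lit 35) (nat_lit 5) (nat_lit 32) (nat_lit 4) (nat_lit 331) (nat_lit 247) (nat_lit 202)) (XT.nd (nat_lit 78) (nat_lit 76) (nat_lit 0) (XT.lf (nat_lit 0) (nat_lit 3235942537) (nat_lit 152) (nat_lit 12007480740) (nat_lit 228) (nat_lit 275451203) (nat_lit 29) (nat_lit 5) (nat_lit 31) (nat_lit 5) (nat_lit 32) (nat_lit 4) (nat_lit 332) (nat_lit 247) (nat_lit 201)) (XT.lf (nat_lit 0) (nat_lit 2451709738) (nat_lit 228) (nat_lit 6592085292) (nat_lit 76) (nat_lit 6822377037) (nat_lit 28) (nat_lit 5) (nat_lit 31) (nat_lit 5) (nat_lit 29) (nat_lit 5) (nat_lit 333) (nat_lit 247) (nat_lit 200))))))) (XT.nd (nat_lit 858) (nat_lit 532) (nat_lit 0) (XT.nd (nat_lit 390) (nat_lit 304) (nat_lit 0) (XT.nd (nat_lit 156) (nat_lit 152) (nat_lit 0) (XT.nd (nat_lit 78) (nat_lit 152) (nat_lit 0) (XT.lf (nat_lit 0) (nat_lit 5217910889) (nat_lit 228) (nat_lit 792303324) (nat_lit 76) (nat_lit 10214756955)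 (nat_lit 28) (nat_lit 5) (nat_lit 31) (nat_lit 5) (nat_lit 29) (nat_lit 5) (nat_lit 334) (nat_lit 247) (nat_lit 199)) (XT.lf (nat_lit 0) (nat_lit 5226109760) (nat_lit 152) (nat_lit 2855071164) (nat_lit 228) (nat_lit 8512976707) (nat_lit 26) (nat_lit 5) (nat_lit 28) (nat_lit 5) (nat_lit 29) (nat_lit 5) (nat_lit 335) (nat_lit 247) (nat_lit 198))) (XT.nd (nat_lit 78) (nat_lit 152) (nat_lit 0) (XT.lf (nat_lit 0) (nat_lit 11006373685) (nat_lit 228) (nat_lit 5594427722) (nat_lit 76) (nat_lit 374382084) (nat_lit 26) (nat_lit 5) (nat_lit 29) (nat_lit 5) (nat_lit 27) (nat_lit 4) (nat_lit 336) (nat_lit 247) (nat_lit 197)) (XT.nd (nat_lit 78) (nat_lit 0) (nat_lit 0) (XT.lf (nat_lit 0) (nat_lit 273458313) (nat_lit 152) (nat_lit 13741955107) (nat_lit 228) (nat_lit 3352387214) (nat_lit 24) (nat_lit 5) (nat_lit 26) (nat_lit 5) (nat_lit 27) (nat_lit 4) (nat_lit 337) (nat_lit 247) (nat_lit 196)) (XT.lf (nat_lit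 0) (nat_lit 6376599497) (nat_lit 152) (nat_lit 10760292734) (nat_lit 228) (nat_lit 634681007) (nat_lit 24) (nat_lit 5) (nat_lit 26) (nat_lit 5) (nat_lit 27) (nat_lit 4) (nat_lit 338) (nat_lit 247) (nat_lit 195))))) (XT.nd (nat_lit 234) (nat_lit 76) (nat_lit 0) (XT.nd (nat_lit 78) (nat_lit 152) (nat_lit 0) (XT.lf (nat_lit 0) (nat_lit 2088623064) (nat_lit 228) (nat_lit 5599987642) (nat_lit 76) (nat_lit 10499274527) (nat_lit 23) (nat_lit 5) (nat_lit 26) (nat_lit 5) (nat_lit 24) (nat_lit 5) (nat_lit 339) (nat_lit 247) (nat_lit 194)) (XT.nd (nat_lit 78) (nat_lit 0) (nat_lit 0) (XT.lf (nat_lit 0) (nat_lit 315758175) (nat_lit 152) (nat_lit 4535433261) (nat_lit 228) (nat_lit 13766235404) (nat_lit 21) (nat_lit 5) (nat_lit 23) (nat_lit 5) (nat_lit 24) (nat_lit 5) (nat_lit 340) (nat_lit 247) (nat_lit 193)) (XT.lf (nat_lit 0) (nat_lit 6471322439) (nat_lit 152) (nat_lit 1249598354) (nat_lit 228) (nat_lit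 11338242686) (nat_lit 21) (nat_lit 5) (nat_lit 23) (nat_lit 5) (nat_lit 24) (nat_lit 5) (nat_lit 341) (nat_lit 247) (nat_lit 192)))) (XT.nd (nat_lit 78) (nat_lit 76) (nat_lit 0) (XT.lf (nat_lit 0) (nat_lit 10665749578) (nat_lit 228) (nat_lit 6774827879) (nat_lit 76) (nat_lit 2073940749) (nat_lit 21) (nat_lit 5) (nat_lit 24) (nat_lit 5) (nat_lit 22) (nat_lit 4) (nat_lit 342) (nat_lit 247) (nat_lit 191)) (XT.nd (nat_lit 78) (nat_lit 76) (nat_lit 0) (XT.lf (nat_lit 0) (nat_lit 13680699790) (nat_lit 228) (nat_lit 849998697) (nat_lit 76) (nat_lit 5453416953) (nat_lit 21) (nat_lit 5) (nat_lit 24) (nat_lit 5) (nat_lit 22) (nat_lit 4) (nat_lit 343) (nat_lit 247) (nat_lit 190)) (XT.lf (nat_lit 0) (nat_lit 5307401973) (nat_lit 76) (nat_lit 11500009968) (nat_lit 152) (nat_lit 3659783383) (nat_lit 20) (nat_lit 5) (nat_lit 21) (nat_lit 5) (nat_lit 22) (nat_lit 4) (nat_lit 344) (nat_lit 247) (nat_lit 189))))))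 (XT.nd (nat_lit 468) (nat_lit 304) (nat_lit 0) (XT.nd (nat_lit 234) (nat_lit 0) (nat_lit 0) (XT.nd (nat_lit 78) (nat_lit 228) (nat_lit 0) (XT.lf (nat_lit 0) (nat_lit 11618686730) (nat_lit 76) (nat_lit 8388518743) (nat_lit 152) (nat_lit 958216872) (nat_lit 20) (nat_lit 5) (nat_lit 21) (nat_lit 5) (nat_lit 22) (nat_lit 4) (nat_lit 345) (nat_lit 247) (nat_lit 188)) (XT.nd (nat_lit 78) (nat_lit 152) (nat_lit 0) (XT.lf (nat_lit 0) (nat_lit 1760033045) (nat_lit 152) (nat_lit 3424283426) (nat_lit 76) (nat_lit 16294647721) (nat_lit 19) (nat_lit 5) (nat_lit 21) (nat_lit 5) (nat_lit 20) (nat_lit 5) (nat_lit 346) (nat_lit 247) (nat_lit 187)) (XT.lf (nat_lit 0) (nat_lit 2672425958) (nat_lit 152) (nat_lit 1865909002) (nat_lit 228) (nat_lit 17469390132) (nat_lit 17) (nat_lit 5) (nat_lit 19) (nat_lit 5) (nat_lit 20) (nat_lit 5) (nat_lit 347) (nat_lit 247) (nat_lit 186)))) (XT.nd (nat_lit 78) (nat_lit 0) (nat_lit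 0) (XT.lf (nat_lit 0) (nat_lit 7422101844) (nat_lit 228) (nat_lit 13590650207) (nat_lit 76) (nat_lit 1538962738) (nat_lit 17) (nat_lit 5) (nat_lit 20) (nat_lit 5) (nat_lit 18) (nat_lit 4) (nat_lit 348) (nat_lit 247) (nat_lit 185)) (XT.nd (nat_lit 78) (nat_lit 0) (nat_lit 0) (XT.lf (nat_lit 0) (nat_lit 10383939323) (nat_lit 228) (nat_lit 7737095573) (nat_lit 76) (nat_lit 4991271144) (nat_lit 17) (nat_lit 5) (nat_lit 20) (nat_lit 5) (nat_lit 18) (nat_lit 4) (nat_lit 349) (nat_lit 247) (nat_lit 184)) (XT.lf (nat_lit 0) (nat_lit 13408499150) (nat_lit 228) (nat_lit 1751584217) (nat_lit 76) (nat_lit 8530443399) (nat_lit 17) (nat_lit 5) (nat_lit 20) (nat_lit 5) (nat_lit 18) (nat_lit 4) (nat_lit 350) (nat_lit 247) (nat_lit 183))))) (XT.nd (nat_lit 234) (nat_lit 228) (nat_lit 0) (XT.nd (nat_lit 78) (nat_lit 0) (nat_lit 0) (XT.lf (nat_lit 0) (nat_lit 4458107656) (nat_lit 76) (nat_lit 12083170547) (nat_lit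 152) (nat_lit 7744318385) (nat_lit 16) (nat_lit 5) (nat_lit 17) (nat_lit 5) (nat_lit 18) (nat_lit 4) (nat_lit 351) (nat_lit 247) (nat_lit 182)) (XT.nd (nat_lit 78) (nat_lit 0) (nat_lit 0) (XT.lf (nat_lit 0) (nat_lit 10848032962) (nat_lit 76) (nat_lit 8912659212) (nat_lit 152) (nat_lit 5138072948) (nat_lit 16) (nat_lit 5) (nat_lit 17) (nat_lit 5) (nat_lit 18) (nat_lit 4) (nat_lit 352) (nat_lit 247) (nat_lit 181)) (XT.lf (nat_lit 0) (nat_lit 17388915168) (nat_lit 76) (nat_lit 5663466578) (nat_lit 152) (nat_lit 2478701571) (nat_lit 16) (nat_lit 5) (nat_lit 17) (nat_lit 5) (nat_lit 18) (nat_lit 4) (nat_lit 353) (nat_lit 247) (nat_lit 180)))) (XT.nd (nat_lit 78) (nat_lit 152) (nat_lit 0) (XT.lf (nat_lit 0) (nat_lit 231511927) (nat_lit 152) (nat_lit 2098903801) (nat_lit 76) (nat_lit 23852619865) (nat_lit 15) (nat_lit 5) (nat_lit 17) (nat_lit 5) (nat_lit 16) (nat_lit 5) (nat_lit 354) (nat_lit 247)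 (nat_lit 179)) (XT.nd (nat_lit 78) (nat_lit 0) (nat_lit 0) (XT.lf (nat_lit 0) (nat_lit 3000961613) (nat_lit 228) (nat_lit 22721341932) (nat_lit 76) (nat_lit 1130697412) (nat_lit 13) (nat_lit 5) (nat_lit 16) (nat_lit 5) (nat_lit 14) (nat_lit 4) (nat_lit 355) (nat_lit 247) (nat_lit 178)) (XT.lf (nat_lit 0) (nat_lit 5874965112) (nat_lit 228) (nat_lit 17012611514) (nat_lit 76) (nat_lit 4654867114) (nat_lit 13) (nat_lit 5) (nat_lit 16) (nat_lit 5) (nat_lit 14) (nat_lit 4) (nat_lit 356) (nat_lit 247) (nat_lit 177))))))))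
noncomputable def xc76 : XT := (XT.nd (nat_lit 1716) (nat_lit 228) (nat_lit 0) (XT.nd (nat_lit 858) (nat_lit 152) (nat_lit 0) (XT.nd (nat_lit 390) (nat_lit 228) (nat_lit 0) (XT.nd (nat_lit 156) (nat_lit 76) (nat_lit 0) (XT.nd (nat_lit 78) (nat_lit 0) (nat_lit 0) (XT.lf (nat_lit 0) (nat_lit 8812851082) (nat_lit 228) (nat_lit 11170544437) (nat_lit 76) (nat_lit 8269866328) (nat_lit 13) (nat_lit 5) (nat_lit 16) (nat_lit 5) (nat_lit 14) (nat_lit 4) (nat_lit 357) (nat_lit 247) (nat_lit 176)) (XT.lf (nat_lit 0) (nat_lit 11817186608) (nat_lit 228) (nat_lit 5190035982) (nat_lit 76) (nat_lit 11978853790) (nat_lit 13) (nat_lit 5) (nat_lit 16) (nat_lit 5) (nat_lit 14) (nat_lit 4) (nat_lit 358) (nat_lit 247) (nat_lit 175))) (XT.nd (nat_lit 78) (nat_lit 0) (nat_lit 0) (XT.lf (nat_lit 0) (nat_lit 952730745) (nat_lit 76) (nat_lit 13947024322) (nat_lit 152) (nat_lit 14841497849) (nat_lit 12) (nat_lit 5) (nat_lit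 13) (nat_lit 5) (nat_lit 14) (nat_lit 4) (nat_lit 359) (nat_lit 247) (nat_lit 174)) (XT.nd (nat_lit 78) (nat_lit 0) (nat_lit 0) (XT.lf (nat_lit 0) (nat_lit 7350773408) (nat_lit 76) (nat_lit 10755653995) (nat_lit 152) (nat_lit 12411728592) (nat_lit 12) (nat_lit 5) (nat_lit 13) (nat_lit 5) (nat_lit 14) (nat_lit 4) (nat_lit 360) (nat_lit 247) (nat_lit 173)) (XT.lf (nat_lit 0) (nat_lit 13906390637) (nat_lit 76) (nat_lit 7482732221) (nat_lit 152) (nat_lit 9929868089) (nat_lit 12) (nat_lit 5) (nat_lit 13) (nat_lit 5) (nat_lit 14) (nat_lit 4) (nat_lit 361) (nat_lit 247) (nat_lit 172))))) (XT.nd (nat_lit 234) (nat_lit 76) (nat_lit 0) (XT.nd (nat_lit 78) (nat_lit 152) (nat_lit 0) (XT.lf (nat_lit 0) (nat_lit 20625310639) (nat_lit 76) (nat_lit 4125399165) (nat_lit 152) (nat_lit 7393747724) (nat_lit 12) (nat_lit 5) (nat_lit 13) (nat_lit 5) (nat_lit 14) (nat_lit 4) (nat_lit 362) (nat_lit 247) (nat_lit 171))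 (XT.nd (nat_lit 78) (nat_lit 152) (nat_lit 0) (XT.lf (nat_lit 0) (nat_lit 27513404317) (nat_lit 76) (nat_lit 680721235) (nat_lit 152) (nat_lit 4801151469) (nat_lit 12) (nat_lit 5) (nat_lit 13) (nat_lit 5) (nat_lit 14) (nat_lit 4) (nat_lit 363) (nat_lit 247) (nat_lit 170)) (XT.lf (nat_lit 0) (nat_lit 690534968) (nat_lit 152) (nat_lit 31065919175) (nat_lit 152) (nat_lit 2114716460) (nat_lit 10) (nat_lit 4) (nat_lit 12) (nat_lit 5) (nat_lit 12) (nat_lit 4) (nat_lit 364) (nat_lit 247) (nat_lit 169)))) (XT.nd (nat_lit 78) (nat_lit 0) (nat_lit 0) (XT.lf (nat_lit 0) (nat_lit 683676200) (nat_lit 228) (nat_lit 27656721348) (nat_lit 76) (nat_lit 6431449318) (nat_lit 9) (nat_lit 5) (nat_lit 12) (nat_lit 5) (nat_lit 10) (nat_lit 4) (nat_lit 365) (nat_lit 247) (nat_lit 168)) (XT.nd (nat_lit 78) (nat_lit 0) (nat_lit 0) (XT.lf (nat_lit 0) (nat_lit 3505506729) (nat_lit 228) (nat_lit 22019066849) (nat_lit 76)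 (nat_lit 10174898314) (nat_lit 9) (nat_lit 5) (nat_lit 12) (nat_lit 5) (nat_lit 10) (nat_lit 4) (nat_lit 366) (nat_lit 247) (nat_lit 167)) (XT.lf (nat_lit 0) (nat_lit 6394506539) (nat_lit 228) (nat_lit 16242418086) (nat_lit 76) (nat_lit 14018541444) (nat_lit 9) (nat_lit 5) (nat_lit 12) (nat_lit 5) (nat_lit 10) (nat_lit 4) (nat_lit 367) (nat_lit 247) (nat_lit 166)))))) (XT.nd (nat_lit 390) (nat_lit 76) (nat_lit 0) (XT.nd (nat_lit 156) (nat_lit 76) (nat_lit 0) (XT.nd (nat_lit 78) (nat_lit 0) (nat_lit 0) (XT.lf (nat_lit 0) (nat_lit 9353199998) (nat_lit 228) (nat_lit 10321727500) (nat_lit 76) (nat_lit 17965737230) (nat_lit 9) (nat_lit 5) (nat_lit 12) (nat_lit 5) (nat_lit 10) (nat_lit 4) (nat_lit 368) (nat_lit 247) (nat_lit 165)) (XT.lf (nat_lit 0) (nat_lit 12384172372) (nat_lit 228) (nat_lit 4251821673) (nat_lit 76) (nat_lit 22019934679) (nat_lit 9) (nat_lit 5) (nat_lit 12) (nat_lit 5) (nat_lit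 10) (nat_lit 4) (nat_lit 369) (nat_lit 247) (nat_lit 164))) (XT.nd (nat_lit 78) (nat_lit 0) (nat_lit 0) (XT.lf (nat_lit 0) (nat_lit 2011861866) (nat_lit 76) (nat_lit 13497549465) (nat_lit 152) (nat_lit 24192153672) (nat_lit 8) (nat_lit 5) (nat_lit 9) (nat_lit 5) (nat_lit 10) (nat_lit 4) (nat_lit 370) (nat_lit 247) (nat_lit 163)) (XT.nd (nat_lit 78) (nat_lit 0) (nat_lit 0) (XT.lf (nat_lit 0) (nat_lit 8523306330) (nat_lit 76) (nat_lit 10232237932) (nat_lit 152) (nat_lit 22022226069) (nat_lit 8) (nat_lit 5) (nat_lit 9) (nat_lit 5) (nat_lit 10) (nat_lit 4) (nat_lit 371) (nat_lit 247) (nat_lit 162)) (XT.lf (nat_lit 0) (nat_lit 15203581740) (nat_lit 76) (nat_lit 6880141324) (nat_lit 152) (nat_lit 19803012551) (nat_lit 8) (nat_lit 5) (nat_lit 9) (nat_lit 5) (nat_lit 10) (nat_lit 4) (nat_lit 372) (nat_lit 247) (nat_lit 161))))) (XT.nd (nat_lit 234) (nat_lit 76) (nat_lit 0) (XT.nd (nat_lit 78) (nat_lit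 0) (nat_lit 0) (XT.lf (nat_lit 0) (nat_lit 22058525231) (nat_lit 76) (nat_lit 3438330625) (nat_lit 152) (nat_lit 17532574000) (nat_lit 8) (nat_lit 5) (nat_lit 9) (nat_lit 5) (nat_lit 10) (nat_lit 4) (nat_lit 373) (nat_lit 247) (nat_lit 160)) (XT.nd (nat_lit 78) (nat_lit 0) (nat_lit 0) (XT.lf (nat_lit 0) (nat_lit 28998849735) (nat_lit 152) (nat_lit 15113649713) (nat_lit 0) (nat_lit 94324333) (nat_lit 8) (nat_lit 5) (nat_lit 10) (nat_lit 4) (nat_lit 8) (nat_lit 4) (nat_lit 374) (nat_lit 247) (nat_lit 159)) (XT.lf (nat_lit 0) (nat_lit 32625811460) (nat_lit 152) (nat_lit 9139317914) (nat_lit 0) (nat_lit 3653825406) (nat_lit 8) (nat_lit 5) (nat_lit 10) (nat_lit 4) (nat_lit 8) (nat_lit 4) (nat_lit 375) (nat_lit 247) (nat_lit 158)))) (XT.nd (nat_lit 78) (nat_lit 76) (nat_lit 0) (XT.lf (nat_lit 0) (nat_lit 36347858883) (nat_lit 152) (nat_lit 3009637600) (nat_lit 0) (nat_lit 7310377050) (nat_lit 8) (nat_lit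 5) (nat_lit 10) (nat_lit 4) (nat_lit 8) (nat_lit 4) (nat_lit 376) (nat_lit 247) (nat_lit 157)) (XT.nd (nat_lit 78) (nat_lit 0) (nat_lit 0) (XT.lf (nat_lit 0) (nat_lit 3346040561) (nat_lit 76) (nat_lit 36854367906) (nat_lit 76) (nat_lit 7753297938) (nat_lit 7) (nat_lit 4) (nat_lit 8) (nat_lit 5) (nat_lit 8) (nat_lit 4) (nat_lit 377) (nat_lit 247) (nat_lit 156)) (XT.lf (nat_lit 0) (nat_lit 9931125138) (nat_lit 76) (nat_lit 34254644761) (nat_lit 76) (nat_lit 5091838739) (nat_lit 7) (nat_lit 4) (nat_lit 8) (nat_lit 5) (nat_lit 8) (nat_lit 4) (nat_lit 378) (nat_lit 247) (nat_lit 155))))))) (XT.nd (nat_lit 858) (nat_lit 76) (nat_lit 0) (XT.nd (nat_lit 390) (nat_lit 76) (nat_lit 0) (XT.nd (nat_lit 156) (nat_lit 0) (nat_lit 0) (XT.nd (nat_lit 78) (nat_lit 76) (nat_lit 0) (XT.lf (nat_lit 0) (nat_lit 16691472395) (nat_lit 76) (nat_lit 31586446884) (nat_lit 76) (nat_lit 2363702947) (nat_lit 7) (nat_lit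 4) (nat_lit 8) (nat_lit 5) (nat_lit 8) (nat_lit 4) (nat_lit 379) (nat_lit 247) (nat_lit 154)) (XT.lf (nat_lit 0) (nat_lit 425034232) (nat_lit 152) (nat_lit 28418116596) (nat_lit 76) (nat_lit 23203663189) (nat_lit 6) (nat_lit 5) (nat_lit 8) (nat_lit 5) (nat_lit 7) (nat_lit 4) (nat_lit 380) (nat_lit 247) (nat_lit 153))) (XT.nd (nat_lit 78) (nat_lit 0) (nat_lit 0) (XT.lf (nat_lit 0) (nat_lit 3237756297) (nat_lit 152) (nat_lit 22764788039) (nat_lit 76) (nat_lit 27491290370) (nat_lit 6) (nat_lit 5) (nat_lit 8) (nat_lit 5) (nat_lit 7) (nat_lit 4) (nat_lit 381) (nat_lit 247) (nat_lit 152)) (XT.nd (nat_lit 78) (nat_lit 0) (nat_lit 0) (XT.lf (nat_lit 0) (nat_lit 6123045322) (nat_lit 152) (nat_lit 16962503001) (nat_lit 76) (nat_lit 31899081998) (nat_lit 6) (nat_lit 5) (nat_lit 8) (nat_lit 5) (nat_lit 7) (nat_lit 4) (nat_lit 382) (nat_lit 247) (nat_lit 151)) (XT.lf (nat_lit 0) (nat_lit 9083422435) (nat_lit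 152) (nat_lit 11006191524) (nat_lit 76) (nat_lit 36430889539) (nat_lit 6) (nat_lit 5) (nat_lit 8) (nat_lit 5) (nat_lit 7) (nat_lit 4) (nat_lit 383) (nat_lit 247) (nat_lit 150))))) (XT.nd (nat_lit 234) (nat_lit 0) (nat_lit 0) (XT.nd (nat_lit 78) (nat_lit 76) (nat_lit 0) (XT.lf (nat_lit 0) (nat_lit 12121474373) (nat_lit 152) (nat_lit 4890649063) (nat_lit 76) (nat_lit 41090672827) (nat_lit 6) (nat_lit 5) (nat_lit 8) (nat_lit 5) (nat_lit 7) (nat_lit 4) (nat_lit 384) (nat_lit 247) (nat_lit 149)) (XT.nd (nat_lit 78) (nat_lit 0) (nat_lit 0) (XT.lf (nat_lit 0) (nat_lit 1417121197) (nat_lit 76) (nat_lit 13836356783) (nat_lit 152) (nat_lit 44479004556) (nat_lit 5) (nat_lit 5) (nat_lit 6) (nat_lit 5) (nat_lit 7) (nat_lit 4) (nat_lit 385) (nat_lit 247) (nat_lit 148)) (XT.lf (nat_lit 0) (nat_lit 7995671675) (nat_lit 76) (nat_lit 10522478959) (nat_lit 152) (nat_lit 42891756256) (nat_lit 5) (nat_lit 5) (nat_lit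 6) (nat_lit 5) (nat_lit 7) (nat_lit 4) (nat_lit 386) (nat_lit 247) (nat_lit 147)))) (XT.nd (nat_lit 78) (nat_lit 0) (nat_lit 0) (XT.lf (nat_lit 0) (nat_lit 14753417114) (nat_lit 76) (nat_lit 7116980310) (nat_lit 152) (nat_lit 41267576043) (nat_lit 5) (nat_lit 5) (nat_lit 6) (nat_lit 5) (nat_lit 7) (nat_lit 4) (nat_lit 387) (nat_lit 247) (nat_lit 146)) (XT.nd (nat_lit 78) (nat_lit 0) (nat_lit 0) (XT.lf (nat_lit 0) (nat_lit 21696262340) (nat_lit 76) (nat_lit 3616885157) (nat_lit 152) (nat_lit 39605044729) (nat_lit 5) (nat_lit 5) (nat_lit 6) (nat_lit 5) (nat_lit 7) (nat_lit 4) (nat_lit 388) (nat_lit 247) (nat_lit 145)) (XT.lf (nat_lit 0) (nat_lit 28830273915) (nat_lit 76) (nat_lit 19135165) (nat_lit 152) (nat_lit 37902709617) (nat_lit 5) (nat_lit 5) (nat_lit 6) (nat_lit 5) (nat_lit 7) (nat_lit 4) (nat_lit 389) (nat_lit 247) (nat_lit 144)))))) (XT.nd (nat_lit 468) (nat_lit 76) (nat_lit 0) (XT.nd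 (nat_lit 234) (nat_lit 0) (nat_lit 0) (XT.nd (nat_lit 78) (nat_lit 0) (nat_lit 0) (XT.lf (nat_lit 0) (nat_lit 32517640883) (nat_lit 152) (nat_lit 32515038670) (nat_lit 0) (nat_lit 3607614724) (nat_lit 5) (nat_lit 5) (nat_lit 7) (nat_lit 4) (nat_lit 5) (nat_lit 4) (nat_lit 390) (nat_lit 247) (nat_lit 143)) (XT.nd (nat_lit 78) (nat_lit 0) (nat_lit 0) (XT.lf (nat_lit 0) (nat_lit 36286832422) (nat_lit 152) (nat_lit 26962571422) (nat_lit 0) (nat_lit 7335991459) (nat_lit 5) (nat_lit 5) (nat_lit 7) (nat_lit 4) (nat_lit 5) (nat_lit 4) (nat_lit 391) (nat_lit 247) (nat_lit 142)) (XT.lf (nat_lit 0) (nat_lit 40160093226) (nat_lit 152) (nat_lit 21259407427) (nat_lit 0) (nat_lit 11169626239) (nat_lit 5) (nat_lit 5) (nat_lit 7) (nat_lit 4) (nat_lit 5) (nat_lit 4) (nat_lit 392) (nat_lit 247) (nat_lit 141)))) (XT.nd (nat_lit 78) (nat_lit 0) (nat_lit 0) (XT.lf (nat_lit 0) (nat_lit 44140807697) (nat_lit 152) (nat_lit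 15400563339) (nat_lit 0) (nat_lit 15111868843) (nat_lit 5) (nat_lit 5) (nat_lit 7) (nat_lit 4) (nat_lit 5) (nat_lit 4) (nat_lit 393) (nat_lit 247) (nat_lit 140)) (XT.nd (nat_lit 78) (nat_lit 0) (nat_lit 0) (XT.lf (nat_lit 0) (nat_lit 48232454131) (nat_lit 152) (nat_lit 9380919780) (nat_lit 0) (nat_lit 19166163950) (nat_lit 5) (nat_lit 5) (nat_lit 7) (nat_lit 4) (nat_lit 5) (nat_lit 4) (nat_lit 394) (nat_lit 247) (nat_lit 139)) (XT.lf (nat_lit 0) (nat_lit 52438607752) (nat_lit 152) (nat_lit 3195216866) (nat_lit 0) (nat_lit 23336054145) (nat_lit 5) (nat_lit 5) (nat_lit 7) (nat_lit 4) (nat_lit 5) (nat_lit 4) (nat_lit 395) (nat_lit 247) (nat_lit 138))))) (XT.nd (nat_lit 31902) (nat_lit 0) (nat_lit 12160) (XT.nd (nat_lit 78) (nat_lit 0) (nat_lit 0) (XT.lf (nat_lit 0) (nat_lit 3224879396) (nat_lit 76) (nat_lit 53569063956) (nat_lit 76) (nat_lit 24431303141) (nat_lit 4) (nat_lit 4) (nat_lit 5) (nat_lit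 5) (nat_lit 5) (nat_lit 4) (nat_lit 396) (nat_lit 247) (nat_lit 137)) (XT.nd (nat_lit 78) (nat_lit 0) (nat_lit 0) (XT.lf (nat_lit 0) (nat_lit 9889108912) (nat_lit 76) (nat_lit 51415192191) (nat_lit 76) (nat_lit 22243249621) (nat_lit 4) (nat_lit 4) (nat_lit 5) (nat_lit 5) (nat_lit 5) (nat_lit 4) (nat_lit 397) (nat_lit 247) (nat_lit 136)) (XT.lf (nat_lit 0) (nat_lit 16739703714) (nat_lit 76) (nat_lit 49202592726) (nat_lit 76) (nat_lit 19997463984) (nat_lit 4) (nat_lit 4) (nat_lit 5) (nat_lit 5) (nat_lit 5) (nat_lit 4) (nat_lit 398) (nat_lit 247) (nat_lit 135)))) (XT.nd (nat_lit 78) (nat_lit 1064) (nat_lit 0) (XT.lf (nat_lit 0) (nat_lit 1345349045) (nat_lit 988) (nat_lit 877947659) (nat_lit 0) (nat_lit 1345349045) (nat_lit 178) (nat_lit 5) (nat_lit 191) (nat_lit 4) (nat_lit 178) (nat_lit 4) (nat_lit 284) (nat_lit 248) (nat_lit 248)) (XT.nd (nat_lit 78) (nat_lit 76) (nat_lit 0) (XT.lf (nat_lit 0)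 (nat_lit 2618958361) (nat_lit 988) (nat_lit 3087412658) (nat_lit 988) (nat_lit 1492879405) (nat_lit 165) (nat_lit 4) (nat_lit 178) (nat_lit 5) (nat_lit 178) (nat_lit 4) (nat_lit 285) (nat_lit 248) (nat_lit 247)) (XT.lf (nat_lit 0) (nat_lit 1447170226) (nat_lit 1064) (nat_lit 204868228) (nat_lit 76) (nat_lit 5613022448) (nat_lit 164) (nat_lit 5) (nat_lit 178) (nat_lit 5) (nat_lit 165) (nat_lit 4) (nat_lit 286) (nat_lit 248) (nat_lit 246))))))))
noncomputable def xc77 : XT := (XT.nd (nat_lit 1716) (nat_lit 3116) (nat_lit 0) (XT.nd (nat_lit 858) (nat_lit 2508) (nat_lit 0) (XT.nd (nat_lit 390) (nat_lit 1520) (nat_lit 0) (XT.nd (nat_lit 156) (nat_lit 1216) (nat_lit 0) (XT.nd (nat_lit 78) (nat_lit 684) (nat_lit 0) (XT.lf (nat_lit 0) (nat_lit 4284909564) (nat_lit 1064) (nat_lit 114368205) (nat_lit 1140) (nat_lit 2934778926) (nat_lit 150) (nat_lit 5) (nat_lit 164) (nat_lit 5) (nat_lit 165) (nat_lit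 4) (nat_lit 287) (nat_lit 248) (nat_lit 245)) (XT.lf (nat_lit 0) (nat_lit 1434630924) (nat_lit 684) (nat_lit 5949729254) (nat_lit 684) (nat_lit 22692249) (nat_lit 141) (nat_lit 4) (nat_lit 150) (nat_lit 5) (nat_lit 150) (nat_lit 4) (nat_lit 288) (nat_lit 248) (nat_lit 244))) (XT.nd (nat_lit 78) (nat_lit 1140) (nat_lit 0) (XT.lf (nat_lit 0) (nat_lit 2865881195) (nat_lit 760) (nat_lit 1484756569) (nat_lit 76) (nat_lit 3132572842) (nat_lit 140) (nat_lit 5) (nat_lit 150) (nat_lit 5) (nat_lit 141) (nat_lit 4) (nat_lit 289) (nat_lit 248) (nat_lit 243)) (XT.nd (nat_lit 78) (nat_lit 608) (nat_lit 0) (XT.lf (nat_lit 0) (nat_lit 3111805613) (nat_lit 532) (nat_lit 2676222713) (nat_lit 608) (nat_lit 1775437432) (nat_lit 133) (nat_lit 5) (nat_lit 140) (nat_lit 5) (nat_lit 141) (nat_lit 4) (nat_lit 290) (nat_lit 248) (nat_lit 242)) (XT.lf (nat_lit 0) (nat_lit 135197512) (nat_lit 532) (nat_lit 928494084) (nat_lit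 608) (nat_lit 6584297571) (nat_lit 125) (nat_lit 5) (nat_lit 132) (nat_lit 5) (nat_lit 133) (nat_lit 5) (nat_lit 291) (nat_lit 248) (nat_lit 241))))) (XT.nd (nat_lit 234) (nat_lit 988) (nat_lit 0) (XT.nd (nat_lit 78) (nat_lit 532) (nat_lit 0) (XT.lf (nat_lit 0) (nat_lit 3925600495) (nat_lit 608) (nat_lit 2898150040) (nat_lit 76) (nat_lit 911791437) (nat_lit 125) (nat_lit 5) (nat_lit 133) (nat_lit 5) (nat_lit 126) (nat_lit 4) (nat_lit 292) (nat_lit 248) (nat_lit 240)) (XT.nd (nat_lit 78) (nat_lit 76) (nat_lit 0) (XT.lf (nat_lit 0) (nat_lit 1794380539) (nat_lit 456) (nat_lit 5027285507) (nat_lit 532) (nat_lit 1005819698) (nat_lit 119) (nat_lit 5) (nat_lit 125) (nat_lit 5) (nat_lit 126) (nat_lit 4) (nat_lit 293) (nat_lit 248) (nat_lit 239)) (XT.lf (nat_lit 0) (nat_lit 1797597377) (nat_lit 532) (nat_lit 1339870215) (nat_lit 76) (nat_lit 4785821369) (nat_lit 118) (nat_lit 5) (nat_lit 125) (nat_lit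 5) (nat_lit 119) (nat_lit 5) (nat_lit 294) (nat_lit 248) (nat_lit 238)))) (XT.nd (nat_lit 78) (nat_lit 532) (nat_lit 0) (XT.lf (nat_lit 0) (nat_lit 3467129458) (nat_lit 456) (nat_lit 1155710532) (nat_lit 532) (nat_lit 3400284617) (nat_lit 112) (nat_lit 5) (nat_lit 118) (nat_lit 5) (nat_lit 119) (nat_lit 5) (nat_lit 295) (nat_lit 248) (nat_lit 237)) (XT.nd (nat_lit 78) (nat_lit 76) (nat_lit 0) (XT.lf (nat_lit 0) (nat_lit 229881967) (nat_lit 456) (nat_lit 7253248648) (nat_lit 532) (nat_lit 644505557) (nat_lit 106) (nat_lit 5) (nat_lit 112) (nat_lit 5) (nat_lit 113) (nat_lit 4) (nat_lit 296) (nat_lit 248) (nat_lit 236)) (XT.lf (nat_lit 0) (nat_lit 2135381523) (nat_lit 532) (nat_lit 3101174871) (nat_lit 76) (nat_lit 2998745301) (nat_lit 105) (nat_lit 5) (nat_lit 112) (nat_lit 5) (nat_lit 106) (nat_lit 5) (nat_lit 297) (nat_lit 248) (nat_lit 235)))))) (XT.nd (nat_lit 390) (nat_lit 1216) (nat_lit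 0) (XT.nd (nat_lit 156) (nat_lit 836) (nat_lit 0) (XT.nd (nat_lit 78) (nat_lit 0) (nat_lit 0) (XT.lf (nat_lit 0) (nat_lit 1783239314) (nat_lit 456) (nat_lit 3148100602) (nat_lit 532) (nat_lit 3416470458) (nat_lit 99) (nat_lit 5) (nat_lit 105) (nat_lit 5) (nat_lit 106) (nat_lit 5) (nat_lit 298) (nat_lit 248) (nat_lit 234)) (XT.lf (nat_lit 0) (nat_lit 6794106487) (nat_lit 456) (nat_lit 978152199) (nat_lit 532) (nat_lit 692771613) (nat_lit 99) (nat_lit 5) (nat_lit 105) (nat_lit 5) (nat_lit 106) (nat_lit 5) (nat_lit 299) (nat_lit 248) (nat_lit 233))) (XT.nd (nat_lit 78) (nat_lit 380) (nat_lit 0) (XT.lf (nat_lit 0) (nat_lit 2046881610) (nat_lit 456) (nat_lit 5267406941) (nat_lit 76) (nat_lit 1271763737) (nat_lit 93) (nat_lit 5) (nat_lit 99) (nat_lit 5) (nat_lit 94) (nat_lit 5) (nat_lit 300) (nat_lit 248) (nat_lit 232)) (XT.nd (nat_lit 78) (nat_lit 380) (nat_lit 0) (XT.lf (nat_lit 0) (nat_lit 4813588148)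 (nat_lit 456) (nat_lit 318743332) (nat_lit 76) (nat_lit 3579558191) (nat_lit 93) (nat_lit 5) (nat_lit 99) (nat_lit 5) (nat_lit 94) (nat_lit 5) (nat_lit 301) (nat_lit 248) (nat_lit 231)) (XT.lf (nat_lit 0) (nat_lit 4790315120) (nat_lit 380) (nat_lit 2853069904) (nat_lit 456) (nat_lit 1198864129) (nat_lit 88) (nat_lit 5) (nat_lit 93) (nat_lit 5) (nat_lit 94) (nat_lit 5) (nat_lit 302) (nat_lit 248) (nat_lit 230))))) (XT.nd (nat_lit 234) (nat_lit 380) (nat_lit 0) (XT.nd (nat_lit 78) (nat_lit 380) (nat_lit 0) (XT.lf (nat_lit 0) (nat_lit 1004943176) (nat_lit 380) (nat_lit 493064531) (nat_lit 456) (nat_lit 7479777289) (nat_lit 82) (nat_lit 5) (nat_lit 87) (nat_lit 5) (nat_lit 88) (nat_lit 5) (nat_lit 303) (nat_lit 248) (nat_lit 229)) (XT.nd (nat_lit 78) (nat_lit 380) (nat_lit 0) (XT.lf (nat_lit 0) (nat_lit 4247006400) (nat_lit 456) (nat_lit 2933765043) (nat_lit 76) (nat_lit 1936536825) (nat_lit 82)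 (nat_lit 5) (nat_lit 88) (nat_lit 5) (nat_lit 83) (nat_lit 5) (nat_lit 304) (nat_lit 248) (nat_lit 228)) (XT.lf (nat_lit 0) (nat_lit 2213938894) (nat_lit 380) (nat_lit 4827950426) (nat_lit 456) (nat_lit 2220358454) (nat_lit 77) (nat_lit 5) (nat_lit 82) (nat_lit 5) (nat_lit 83) (nat_lit 5) (nat_lit 305) (nat_lit 248) (nat_lit 227)))) (XT.nd (nat_lit 78) (nat_lit 304) (nat_lit 0) (XT.lf (nat_lit 0) (nat_lit 466639081) (nat_lit 456) (nat_lit 1921060614) (nat_lit 76) (nat_lit 7024789594) (nat_lit 76) (nat_lit 5) (nat_lit 82) (nat_lit 5) (nat_lit 77) (nat_lit 5) (nat_lit 306) (nat_lit 248) (nat_lit 226)) (XT.nd (nat_lit 78) (nat_lit 0) (nat_lit 0) (XT.lf (nat_lit 0) (nat_lit 3162525085) (nat_lit 380) (nat_lit 6245312729) (nat_lit 76) (nat_lit 159675237) (nat_lit 72) (nat_lit 5) (nat_lit 77) (nat_lit 5) (nat_lit 73) (nat_lit 5) (nat_lit 307) (nat_lit 248) (nat_lit 225)) (XT.lf (nat_lit 0) (nat_lit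 5922741900) (nat_lit 380) (nat_lit 1068318627) (nat_lit 76) (nat_lit 2736741508) (nat_lit 72) (nat_lit 5) (nat_lit 77) (nat_lit 5) (nat_lit 73) (nat_lit 5) (nat_lit 308) (nat_lit 248) (nat_lit 224))))))) (XT.nd (nat_lit 858) (nat_lit 1216) (nat_lit 0) (XT.nd (nat_lit 390) (nat_lit 912) (nat_lit 0) (XT.nd (nat_lit 156) (nat_lit 608) (nat_lit 0) (XT.nd (nat_lit 78) (nat_lit 76) (nat_lit 0) (XT.lf (nat_lit 0) (nat_lit 4269612113) (nat_lit 304) (nat_lit 4479158944) (nat_lit 380) (nat_lit 1144753151) (nat_lit 68) (nat_lit 5) (nat_lit 72) (nat_lit 5) (nat_lit 73) (nat_lit 5) (nat_lit 309) (nat_lit 248) (nat_lit 223)) (XT.lf (nat_lit 0) (nat_lit 1517366736) (nat_lit 380) (nat_lit 367941251) (nat_lit 76) (nat_lit 8179964053) (nat_lit 67) (nat_lit 5) (nat_lit 72) (nat_lit 5) (nat_lit 68) (nat_lit 5) (nat_lit 310) (nat_lit 248) (nat_lit 222))) (XT.nd (nat_lit 78) (nat_lit 304) (nat_lit 0) (XT.lf (nat_lit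 0) (nat_lit 4236838670) (nat_lit 380) (nat_lit 5192972780) (nat_lit 76) (nat_lit 812110886) (nat_lit 63) (nat_lit 5) (nat_lit 68) (nat_lit 5) (nat_lit 64) (nat_lit 5) (nat_lit 311) (nat_lit 248) (nat_lit 221)) (XT.nd (nat_lit 78) (nat_lit 0) (nat_lit 0) (XT.lf (nat_lit 0) (nat_lit 119020200) (nat_lit 304) (nat_lit 6887078494) (nat_lit 380) (nat_lit 3418829235) (nat_lit 59) (nat_lit 5) (nat_lit 63) (nat_lit 5) (nat_lit 64) (nat_lit 5) (nat_lit 312) (nat_lit 248) (nat_lit 220)) (XT.lf (nat_lit 0) (nat_lit 5620848102) (nat_lit 304) (nat_lit 4235550478) (nat_lit 380) (nat_lit 757185184) (nat_lit 59) (nat_lit 5) (nat_lit 63) (nat_lit 5) (nat_lit 64) (nat_lit 5) (nat_lit 313) (nat_lit 248) (nat_lit 219))))) (XT.nd (nat_lit 234) (nat_lit 304) (nat_lit 0) (XT.nd (nat_lit 78) (nat_lit 304) (nat_lit 0) (XT.lf (nat_lit 0) (nat_lit 393515072) (nat_lit 228) (nat_lit 1502346898) (nat_lit 304) (nat_lit 8913050088)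 (nat_lit 55) (nat_lit 5) (nat_lit 58) (nat_lit 5) (nat_lit 59) (nat_lit 5) (nat_lit 314) (nat_lit 248) (nat_lit 218)) (XT.nd (nat_lit 78) (nat_lit 304) (nat_lit 0) (XT.lf (nat_lit 0) (nat_lit 4623948362) (nat_lit 304) (nat_lit 5061154186) (nat_lit 76) (nat_lit 1324543293) (nat_lit 55) (nat_lit 5) (nat_lit 59) (nat_lit 5) (nat_lit 56) (nat_lit 5) (nat_lit 315) (nat_lit 248) (nat_lit 217)) (XT.lf (nat_lit 0) (nat_lit 372666642) (nat_lit 304) (nat_lit 7028338144) (nat_lit 380) (nat_lit 3816470931) (nat_lit 51) (nat_lit 5) (nat_lit 55) (nat_lit 5) (nat_lit 56) (nat_lit 5) (nat_lit 316) (nat_lit 248) (nat_lit 216)))) (XT.nd (nat_lit 78) (nat_lit 304) (nat_lit 0) (XT.lf (nat_lit 0) (nat_lit 6000524254) (nat_lit 304) (nat_lit 4261422745) (nat_lit 380) (nat_lit 1169661610) (nat_lit 51) (nat_lit 5) (nat_lit 55) (nat_lit 5) (nat_lit 56) (nat_lit 5) (nat_lit 317) (nat_lit 248) (nat_lit 215)) (XT.nd (nat_lit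 78) (nat_lit 0) (nat_lit 0) (XT.lf (nat_lit 0) (nat_lit 59575665) (nat_lit 228) (nat_lit 1417546282) (nat_lit 304) (nat_lit 10176146795) (nat_lit 47) (nat_lit 5) (nat_lit 50) (nat_lit 5) (nat_lit 51) (nat_lit 5) (nat_lit 318) (nat_lit 248) (nat_lit 214)) (XT.lf (nat_lit 0) (nat_lit 4200639103) (nat_lit 304) (nat_lit 6152605954) (nat_lit 76) (nat_lit 1527439125) (nat_lit 47) (nat_lit 5) (nat_lit 51) (nat_lit 5) (nat_lit 48) (nat_lit 5) (nat_lit 319) (nat_lit 248) (nat_lit 213)))))) (XT.nd (nat_lit 468) (nat_lit 456) (nat_lit 0) (XT.nd (nat_lit 234) (nat_lit 456) (nat_lit 0) (XT.nd (nat_lit 78) (nat_lit 304) (nat_lit 0) (XT.lf (nat_lit 0) (nat_lit 6972248296) (nat_lit 304) (nat_lit 632520634) (nat_lit 76) (nat_lit 4511237385) (nat_lit 47) (nat_lit 5) (nat_lit 51) (nat_lit 5) (nat_lit 48) (nat_lit 5) (nat_lit 320) (nat_lit 248) (nat_lit 212)) (XT.nd (nat_lit 78) (nat_lit 76) (nat_lit 0) (XT.lf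 (nat_lit 0) (nat_lit 5084224103) (nat_lit 228) (nat_lit 4745393568) (nat_lit 304) (nat_lit 2528765702) (nat_lit 44) (nat_lit 5) (nat_lit 47) (nat_lit 5) (nat_lit 48) (nat_lit 5) (nat_lit 321) (nat_lit 248) (nat_lit 211)) (XT.lf (nat_lit 0) (nat_lit 121830137) (nat_lit 304) (nat_lit 1692522124) (nat_lit 76) (nat_lit 10794890371) (nat_lit 43) (nat_lit 5) (nat_lit 47) (nat_lit 5) (nat_lit 44) (nat_lit 5) (nat_lit 322) (nat_lit 248) (nat_lit 210)))) (XT.nd (nat_lit 78) (nat_lit 228) (nat_lit 0) (XT.lf (nat_lit 0) (nat_lit 2807253510) (nat_lit 304) (nat_lit 8835162905) (nat_lit 76) (nat_lit 1224343444) (nat_lit 40) (nat_lit 5) (nat_lit 44) (nat_lit 5) (nat_lit 41) (nat_lit 5) (nat_lit 323) (nat_lit 248) (nat_lit 209)) (XT.nd (nat_lit 78) (nat_lit 228) (nat_lit 0) (XT.lf (nat_lit 0) (nat_lit 5564184033) (nat_lit 304) (nat_lit 3254493628) (nat_lit 76) (nat_lit 4313662019) (nat_lit 40) (nat_lit 5) (nat_lit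 44) (nat_lit 5) (nat_lit 41) (nat_lit 5) (nat_lit 324) (nat_lit 248) (nat_lit 208)) (XT.lf (nat_lit 0) (nat_lit 2476874779) (nat_lit 228) (nat_lit 5907766822) (nat_lit 304) (nat_lit 5021884224) (nat_lit 37) (nat_lit 5) (nat_lit 40) (nat_lit 5) (nat_lit 41) (nat_lit 5) (nat_lit 325) (nat_lit 248) (nat_lit 207))))) (XT.nd (nat_lit 234) (nat_lit 228) (nat_lit 0) (XT.nd (nat_lit 78) (nat_lit 228) (nat_lit 0) (XT.lf (nat_lit 0) (nat_lit 8382482255) (nat_lit 228) (nat_lit 2897737474) (nat_lit 304) (nat_lit 2409064274) (nat_lit 37) (nat_lit 5) (nat_lit 40) (nat_lit 5) (nat_lit 41) (nat_lit 5) (nat_lit 326) (nat_lit 248) (nat_lit 206)) (XT.nd (nat_lit 78) (nat_lit 0) (nat_lit 0) (XT.lf (nat_lit 0) (nat_lit 240954281) (nat_lit 228) (nat_lit 13556505027) (nat_lit 76) (nat_lit 184112784) (nat_lit 34) (nat_lit 5) (nat_lit 37) (nat_lit 5) (nat_lit 35) (nat_lit 5) (nat_lit 327) (nat_lit 248) (nat_lit 205))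 (XT.lf (nat_lit 0) (nat_lit 2963671471) (nat_lit 228) (nat_lit 7960297997) (nat_lit 76) (nat_lit 3356751677) (nat_lit 34) (nat_lit 5) (nat_lit 37) (nat_lit 5) (nat_lit 35) (nat_lit 5) (nat_lit 328) (nat_lit 248) (nat_lit 204)))) (XT.nd (nat_lit 78) (nat_lit 228) (nat_lit 0) (XT.lf (nat_lit 0) (nat_lit 5728078470) (nat_lit 228) (nat_lit 2258224013) (nat_lit 76) (nat_lit 6603796716) (nat_lit 34) (nat_lit 5) (nat_lit 37) (nat_lit 5) (nat_lit 35) (nat_lit 5) (nat_lit 329) (nat_lit 248) (nat_lit 203)) (XT.nd (nat_lit 78) (nat_lit 0) (nat_lit 0) (XT.lf (nat_lit 0) (nat_lit 3625444808) (nat_lit 228) (nat_lit 4945995966) (nat_lit 304) (nat_lit 6337490312) (nat_lit 31) (nat_lit 5) (nat_lit 34) (nat_lit 5) (nat_lit 35) (nat_lit 5) (nat_lit 330) (nat_lit 248) (nat_lit 202)) (XT.lf (nat_lit 0) (nat_lit 9672292525) (nat_lit 228) (nat_lit 1812345911) (nat_lit 304) (nat_lit 3753205093) (nat_lit 31) (nat_lit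 5) (nat_lit 34) (nat_lit 5) (nat_lit 35) (nat_lit 5) (nat_lit 331) (nat_lit 248) (nat_lit 201))))))))
noncomputable def xc78 : XT := (XT.nd (nat_lit 1716) (nat_lit 608) (nat_lit 0) (XT.nd (nat_lit 858) (nat_lit 380) (nat_lit 0) (XT.nd (nat_lit 390) (nat_lit 380) (nat_lit 0) (XT.nd (nat_lit 156) (nat_lit 152) (nat_lit 0) (XT.nd (nat_lit 78) (nat_lit 76) (nat_lit 0) (XT.lf (nat_lit 0) (nat_lit 256470682) (nat_lit 152) (nat_lit 14207477764) (nat_lit 228) (nat_lit 1113363537) (nat_lit 29) (nat_lit 5) (nat_lit 31) (nat_lit 5) (nat_lit 32) (nat_lit 4) (nat_lit 332) (nat_lit 248) (nat_lit 200)) (XT.lf (nat_lit 0) (nat_lit 1611804090) (nat_lit 228) (nat_lit 9651035121) (nat_lit 76) (nat_lit 4662585592) (nat_lit 28) (nat_lit 5) (nat_lit 31) (nat_lit 5) (nat_lit 29) (nat_lit 5) (nat_lit 333) (nat_lit 248) (nat_lit 199))) (XT.nd (nat_lit 78) (nat_lit 152) (nat_lit 0) (XT.lf (nat_lit 0) (nat_lit 4360195530)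 (nat_lit 228) (nat_lit 3879500723) (nat_lit 76) (nat_lit 8045084542) (nat_lit 28) (nat_lit 5) (nat_lit 31) (nat_lit 5) (nat_lit 29) (nat_lit 5) (nat_lit 334) (nat_lit 248) (nat_lit 198)) (XT.nd (nat_lit 78) (nat_lit 0) (nat_lit 0) (XT.lf (nat_lit 0) (nat_lit 2049500447) (nat_lit 152) (nat_lit 5126138625) (nat_lit 228) (nat_lit 9479784922) (nat_lit 26) (nat_lit 5) (nat_lit 28) (nat_lit 5) (nat_lit 29) (nat_lit 5) (nat_lit 335) (nat_lit 248) (nat_lit 197)) (XT.lf (nat_lit 0) (nat_lit 8180771027) (nat_lit 152) (nat_lit 1899341993) (nat_lit 228) (nat_lit 6956979701) (nat_lit 26) (nat_lit 5) (nat_lit 28) (nat_lit 5) (nat_lit 29) (nat_lit 5) (nat_lit 336) (nat_lit 248) (nat_lit 196))))) (XT.nd (nat_lit 234) (nat_lit 152) (nat_lit 0) (XT.nd (nat_lit 78) (nat_lit 228) (nat_lit 0) (XT.lf (nat_lit 0) (nat_lit 13051620295) (nat_lit 228) (nat_lit 3002302088) (nat_lit 76) (nat_lit 1376934135) (nat_lit 26)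 (nat_lit 5) (nat_lit 29) (nat_lit 5) (nat_lit 27) (nat_lit 4) (nat_lit 337) (nat_lit 248) (nat_lit 195)) (XT.nd (nat_lit 78) (nat_lit 76) (nat_lit 0) (XT.lf (nat_lit 0) (nat_lit 3014562112) (nat_lit 152) (nat_lit 13112686347) (nat_lit 228) (nat_lit 1708776261) (nat_lit 24) (nat_lit 5) (nat_lit 26) (nat_lit 5) (nat_lit 27) (nat_lit 4) (nat_lit 338) (nat_lit 248) (nat_lit 194)) (XT.lf (nat_lit 0) (nat_lit 1019372192) (nat_lit 228) (nat_lit 9042244000) (nat_lit 76) (nat_lit 8191532648) (nat_lit 23) (nat_lit 5) (nat_lit 26) (nat_lit 5) (nat_lit 24) (nat_lit 5) (nat_lit 339) (nat_lit 248) (nat_lit 193)))) (XT.nd (nat_lit 78) (nat_lit 152) (nat_lit 0) (XT.lf (nat_lit 0) (nat_lit 3763259591) (nat_lit 228) (nat_lit 3157992142) (nat_lit 76) (nat_lit 11762017519) (nat_lit 23) (nat_lit 5) (nat_lit 26) (nat_lit 5) (nat_lit 24) (nat_lit 5) (nat_lit 340) (nat_lit 248) (nat_lit 192)) (XT.nd (nat_lit 78) (nat_lit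 0) (nat_lit 0) (XT.lf (nat_lit 0) (nat_lit 2909637862) (nat_lit 152) (nat_lit 3676959243) (nat_lit 228) (nat_lit 12539818383) (nat_lit 21) (nat_lit 5) (nat_lit 23) (nat_lit 5) (nat_lit 24) (nat_lit 5) (nat_lit 341) (nat_lit 248) (nat_lit 191)) (XT.lf (nat_lit 0) (nat_lit 9174595065) (nat_lit 152) (nat_lit 321516386) (nat_lit 228) (nat_lit 10086735518) (nat_lit 21) (nat_lit 5) (nat_lit 23) (nat_lit 5) (nat_lit 24) (nat_lit 5) (nat_lit 342) (nat_lit 248) (nat_lit 190)))))) (XT.nd (nat_lit 390) (nat_lit 228) (nat_lit 0) (XT.nd (nat_lit 156) (nat_lit 76) (nat_lit 0) (XT.nd (nat_lit 78) (nat_lit 76) (nat_lit 0) (XT.lf (nat_lit 0) (nat_lit 12493338262) (nat_lit 228) (nat_lit 4504341920) (nat_lit 76) (nat_lit 3055312537) (nat_lit 21) (nat_lit 5) (nat_lit 24) (nat_lit 5) (nat_lit 22) (nat_lit 4) (nat_lit 343) (nat_lit 248) (nat_lit 189)) (XT.lf (nat_lit 0) (nat_lit 1556555734) (nat_lit 76) (nat_lit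 14013232660) (nat_lit 152) (nat_lit 4967808396) (nat_lit 20) (nat_lit 5) (nat_lit 21) (nat_lit 5) (nat_lit 22) (nat_lit 4) (nat_lit 344) (nat_lit 248) (nat_lit 188))) (XT.nd (nat_lit 78) (nat_lit 76) (nat_lit 0) (XT.lf (nat_lit 0) (nat_lit 7844758530) (nat_lit 76) (nat_lit 10910808712) (nat_lit 152) (nat_lit 2280692860) (nat_lit 20) (nat_lit 5) (nat_lit 21) (nat_lit 5) (nat_lit 22) (nat_lit 4) (nat_lit 345) (nat_lit 248) (nat_lit 187)) (XT.nd (nat_lit 78) (nat_lit 0) (nat_lit 0) (XT.lf (nat_lit 0) (nat_lit 449607030) (nat_lit 152) (nat_lit 7279035324) (nat_lit 76) (nat_lit 13821968597) (nat_lit 19) (nat_lit 5) (nat_lit 21) (nat_lit 5) (nat_lit 20) (nat_lit 5) (nat_lit 346) (nat_lit 248) (nat_lit 186)) (XT.lf (nat_lit 0) (nat_lit 3188864325) (nat_lit 152) (nat_lit 1256511867) (nat_lit 76) (nat_lit 17635181505) (nat_lit 19) (nat_lit 5) (nat_lit 21) (nat_lit 5) (nat_lit 20) (nat_lit 5) (nat_lit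 347) (nat_lit 248) (nat_lit 185))))) (XT.nd (nat_lit 234) (nat_lit 76) (nat_lit 0) (XT.nd (nat_lit 78) (nat_lit 0) (nat_lit 0) (XT.lf (nat_lit 0) (nat_lit 5000838994) (nat_lit 152) (nat_lit 1031209214) (nat_lit 228) (nat_lit 16593730761) (nat_lit 17) (nat_lit 5) (nat_lit 19) (nat_lit 5) (nat_lit 20) (nat_lit 5) (nat_lit 348) (nat_lit 248) (nat_lit 184)) (XT.nd (nat_lit 78) (nat_lit 0) (nat_lit 0) (XT.lf (nat_lit 0) (nat_lit 8971099784) (nat_lit 228) (nat_lit 11782975149) (nat_lit 76) (nat_lit 2432992535) (nat_lit 17) (nat_lit 5) (nat_lit 20) (nat_lit 5) (nat_lit 18) (nat_lit 4) (nat_lit 349) (nat_lit 248) (nat_lit 183)) (XT.lf (nat_lit 0) (nat_lit 11983161273) (nat_lit 228) (nat_lit 5818339931) (nat_lit 76) (nat_lit 5964175214) (nat_lit 17) (nat_lit 5) (nat_lit 20) (nat_lit 5) (nat_lit 18) (nat_lit 4) (nat_lit 350) (nat_lit 248) (nat_lit 182)))) (XT.nd (nat_lit 78) (nat_lit 0) (nat_lit 0) (XT.lf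 (nat_lit 0) (nat_lit 289744060) (nat_lit 76) (nat_lit 14773993098) (nat_lit 152) (nat_lit 9298588067) (nat_lit 16) (nat_lit 5) (nat_lit 17) (nat_lit 5) (nat_lit 18) (nat_lit 4) (nat_lit 351) (nat_lit 248) (nat_lit 181)) (XT.nd (nat_lit 78) (nat_lit 0) (nat_lit 0) (XT.lf (nat_lit 0) (nat_lit 6659599977) (nat_lit 76) (nat_lit 11611577349) (nat_lit 152) (nat_lit 6704688159) (nat_lit 16) (nat_lit 5) (nat_lit 17) (nat_lit 5) (nat_lit 18) (nat_lit 4) (nat_lit 352) (nat_lit 248) (nat_lit 180)) (XT.lf (nat_lit 0) (nat_lit 13180997340) (nat_lit 76) (nat_lit 8370244508) (nat_lit 152) (nat_lit 4057302731) (nat_lit 16) (nat_lit 5) (nat_lit 17) (nat_lit 5) (nat_lit 18) (nat_lit 4) (nat_lit 353) (nat_lit 248) (nat_lit 179))))))) (XT.nd (nat_lit 858) (nat_lit 304) (nat_lit 0) (XT.nd (nat_lit 390) (nat_lit 76) (nat_lit 0) (XT.nd (nat_lit 156) (nat_lit 152) (nat_lit 0) (XT.nd (nat_lit 78) (nat_lit 76) (nat_lit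 0) (XT.lf (nat_lit 0) (nat_lit 19859634457) (nat_lit 76) (nat_lit 5047162342) (nat_lit 152) (nat_lit 1354118535) (nat_lit 16) (nat_lit 5) (nat_lit 17) (nat_lit 5) (nat_lit 18) (nat_lit 4) (nat_lit 354) (nat_lit 248) (nat_lit 178)) (XT.lf (nat_lit 0) (nat_lit 1379766378) (nat_lit 152) (nat_lit 245727874) (nat_lit 76) (nat_lit 25307647718) (nat_lit 15) (nat_lit 5) (nat_lit 17) (nat_lit 5) (nat_lit 16) (nat_lit 5) (nat_lit 355) (nat_lit 248) (nat_lit 177))) (XT.nd (nat_lit 78) (nat_lit 0) (nat_lit 0) (XT.lf (nat_lit 0) (nat_lit 4224707922) (nat_lit 228) (nat_lit 21478135459) (nat_lit 76) (nat_lit 1920624024) (nat_lit 13) (nat_lit 5) (nat_lit 16) (nat_lit 5) (nat_lit 14) (nat_lit 4) (nat_lit 356) (nat_lit 248) (nat_lit 176)) (XT.nd (nat_lit 78) (nat_lit 0) (nat_lit 0) (XT.lf (nat_lit 0) (nat_lit 7151910629) (nat_lit 228) (nat_lit 15654206626) (nat_lit 76) (nat_lit 5528499234) (nat_lit 13) (nat_lit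 5) (nat_lit 16) (nat_lit 5) (nat_lit 14) (nat_lit 4) (nat_lit 357) (nat_lit 248) (nat_lit 175)) (XT.lf (nat_lit 0) (nat_lit 10145874055) (nat_lit 228) (nat_lit 9691308116) (nat_lit 76) (nat_lit 9230570188) (nat_lit 13) (nat_lit 5) (nat_lit 16) (nat_lit 5) (nat_lit 14) (nat_lit 4) (nat_lit 358) (nat_lit 248) (nat_lit 174))))) (XT.nd (nat_lit 234) (nat_lit 0) (nat_lit 0) (XT.nd (nat_lit 78) (nat_lit 76) (nat_lit 0) (XT.lf (nat_lit 0) (nat_lit 13209214284) (nat_lit 228) (nat_lit 3584229630) (nat_lit 76) (nat_lit 13030071705) (nat_lit 13) (nat_lit 5) (nat_lit 16) (nat_lit 5) (nat_lit 14) (nat_lit 4) (nat_lit 359) (nat_lit 248) (nat_lit 173)) (XT.nd (nat_lit 78) (nat_lit 0) (nat_lit 0) (XT.lf (nat_lit 0) (nat_lit 2725550418) (nat_lit 76) (nat_lit 13645257261) (nat_lit 152) (nat_lit 14230972978) (nat_lit 12) (nat_lit 5) (nat_lit 13) (nat_lit 5) (nat_lit 14) (nat_lit 4) (nat_lit 360) (nat_lit 248)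 (nat_lit 172)) (XT.lf (nat_lit 0) (nat_lit 9264731320) (nat_lit 76) (nat_lit 10379121877) (nat_lit 152) (nat_lit 11759061220) (nat_lit 12) (nat_lit 5) (nat_lit 13) (nat_lit 5) (nat_lit 14) (nat_lit 4) (nat_lit 361) (nat_lit 248) (nat_lit 171)))) (XT.nd (nat_lit 78) (nat_lit 0) (nat_lit 0) (XT.lf (nat_lit 0) (nat_lit 15967693724) (nat_lit 76) (nat_lit 7028377548) (nat_lit 152) (nat_lit 9232599831) (nat_lit 12) (nat_lit 5) (nat_lit 13) (nat_lit 5) (nat_lit 14) (nat_lit 4) (nat_lit 362) (nat_lit 248) (nat_lit 170)) (XT.nd (nat_lit 78) (nat_lit 0) (nat_lit 0) (XT.lf (nat_lit 0) (nat_lit 22840294587) (nat_lit 76) (nat_lit 3590096441) (nat_lit 152) (nat_lit 6649381223) (nat_lit 12) (nat_lit 5) (nat_lit 13) (nat_lit 5) (nat_lit 14) (nat_lit 4) (nat_lit 363) (nat_lit 248) (nat_lit 169)) (XT.lf (nat_lit 0) (nat_lit 29888539096) (nat_lit 76) (nat_lit 61274233) (nat_lit 152) (nat_lit 4007148215) (nat_lit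 12) (nat_lit 5) (nat_lit 13) (nat_lit 5) (nat_lit 14) (nat_lit 4) (nat_lit 364) (nat_lit 248) (nat_lit 168)))))) (XT.nd (nat_lit 468) (nat_lit 76) (nat_lit 0) (XT.nd (nat_lit 234) (nat_lit 0) (nat_lit 0) (XT.nd (nat_lit 78) (nat_lit 76) (nat_lit 0) (XT.lf (nat_lit 0) (nat_lit 2267597277) (nat_lit 152) (nat_lit 31345845818) (nat_lit 152) (nat_lit 1245881467) (nat_lit 10) (nat_lit 4) (nat_lit 12) (nat_lit 5) (nat_lit 12) (nat_lit 4) (nat_lit 365) (nat_lit 248) (nat_lit 167)) (XT.nd (nat_lit 78) (nat_lit 0) (nat_lit 0) (XT.lf (nat_lit 0) (nat_lit 1591647083) (nat_lit 228) (nat_lit 26956941622) (nat_lit 76) (nat_lit 7238986375) (nat_lit 9) (nat_lit 5) (nat_lit 12) (nat_lit 5) (nat_lit 10) (nat_lit 4) (nat_lit 366) (nat_lit 248) (nat_lit 166)) (XT.lf (nat_lit 0) (nat_lit 4472284161) (nat_lit 228) (nat_lit 21194705489) (nat_lit 76) (nat_lit 11076838058) (nat_lit 9) (nat_lit 5) (nat_lit 12) (nat_lit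 5) (nat_lit 10) (nat_lit 4) (nat_lit 367) (nat_lit 248) (nat_lit 165)))) (XT.nd (nat_lit 78) (nat_lit 0) (nat_lit 0) (XT.lf (nat_lit 0) (nat_lit 7422858463) (nat_lit 228) (nat_lit 15288007749) (nat_lit 76) (nat_lit 15018411080) (nat_lit 9) (nat_lit 5) (nat_lit 12) (nat_lit 5) (nat_lit 10) (nat_lit 4) (nat_lit 368) (nat_lit 248) (nat_lit 164)) (XT.nd (nat_lit 78) (nat_lit 0) (nat_lit 0) (XT.lf (nat_lit 0) (nat_lit 10445948161) (nat_lit 228) (nat_lit 9231687210) (nat_lit 76) (nat_lit 19067149534) (nat_lit 9) (nat_lit 5) (nat_lit 12) (nat_lit 5) (nat_lit 10) (nat_lit 4) (nat_lit 369) (nat_lit 248) (nat_lit 163)) (XT.lf (nat_lit 0) (nat_lit 13544194789) (nat_lit 228) (nat_lit 3020451940) (nat_lit 76) (nat_lit 23226591152) (nat_lit 9) (nat_lit 5) (nat_lit 12) (nat_lit 5) (nat_lit 10) (nat_lit 4) (nat_lit 370) (nat_lit 248) (nat_lit 162))))) (XT.nd (nat_lit 234) (nat_lit 0) (nat_lit 0) (XT.nd (nat_lit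 78) (nat_lit 0) (nat_lit 0) (XT.lf (nat_lit 0) (nat_lit 3417819318) (nat_lit 76) (nat_lit 13335340406) (nat_lit 152) (nat_lit 24115405251) (nat_lit 8) (nat_lit 5) (nat_lit 9) (nat_lit 5) (nat_lit 10) (nat_lit 4) (nat_lit 371) (nat_lit 248) (nat_lit 161)) (XT.nd (nat_lit 78) (nat_lit 0) (nat_lit 0) (XT.lf (nat_lit 0) (nat_lit 10085414836) (nat_lit 76) (nat_lit 9988588038) (nat_lit 152) (nat_lit 21903753986) (nat_lit 8) (nat_lit 5) (nat_lit 9) (nat_lit 5) (nat_lit 10) (nat_lit 4) (nat_lit 372) (nat_lit 248) (nat_lit 160)) (XT.lf (nat_lit 0) (nat_lit 16928047752) (nat_lit 76) (nat_lit 6551965921) (nat_lit 152) (nat_lit 19640657428) (nat_lit 8) (nat_lit 5) (nat_lit 9) (nat_lit 5) (nat_lit 10) (nat_lit 4) (nat_lit 373) (nat_lit 248) (nat_lit 159)))) (XT.nd (nat_lit 78) (nat_lit 0) (nat_lit 0) (XT.lf (nat_lit 0) (nat_lit 23951697065) (nat_lit 76) (nat_lit 3022471181) (nat_lit 152) (nat_lit 17324138113)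 (nat_lit 8) (nat_lit 5) (nat_lit 9) (nat_lit 5) (nat_lit 10) (nat_lit 4) (nat_lit 374) (nat_lit 248) (nat_lit 158)) (XT.nd (nat_lit 78) (nat_lit 0) (nat_lit 0) (XT.lf (nat_lit 0) (nat_lit 30565315956) (nat_lit 152) (nat_lit 14354987910) (nat_lit 0) (nat_lit 591213889) (nat_lit 8) (nat_lit 5) (nat_lit 10) (nat_lit 4) (nat_lit 8) (nat_lit 4) (nat_lit 375) (nat_lit 248) (nat_lit 157)) (XT.lf (nat_lit 0) (nat_lit 34280800103) (nat_lit 152) (nat_lit 8236729204) (nat_lit 0) (nat_lit 4243109901) (nat_lit 8) (nat_lit 5) (nat_lit 10) (nat_lit 4) (nat_lit 8) (nat_lit 4) (nat_lit 376) (nat_lit 248) (nat_lit 156))))))))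
noncomputable def xc79 : XT := (XT.nd (nat_lit 33306) (nat_lit 0) (nat_lit 5548) (XT.nd (nat_lit 858) (nat_lit 76) (nat_lit 0) (XT.nd (nat_lit 390) (nat_lit 76) (nat_lit 0) (XT.nd (nat_lit 156) (nat_lit 76) (nat_lit 0) (XT.nd (nat_lit 78) (nat_lit 76) (nat_lit 0) (XT.lf (nat_lit 0) (nat_lit 38094813387) (nat_lit 152) (nat_lit 1957433284) (nat_lit 0) (nat_lit 7995387131) (nat_lit 8) (nat_lit 5) (nat_lit 10) (nat_lit 4) (nat_lit 8) (nat_lit 4) (nat_lit 377) (nat_lit 248) (nat_lit 155)) (XT.lf (nat_lit 0) (nat_lit 4577714306) (nat_lit 76) (nat_lit 37476977924) (nat_lit 76) (nat_lit 7317613752) (nat_lit 7) (nat_lit 4) (nat_lit 8) (nat_lit 5) (nat_lit 8) (nat_lit 4) (nat_lit 378) (nat_lit 248) (nat_lit 154))) (XT.nd (nat_lit 78) (nat_lit 76) (nat_lit 0) (XT.lf (nat_lit 0) (nat_lit 11327401152) (nat_lit 76) (nat_lit 34813331658) (nat_lit 76) (nat_lit 4595775335) (nat_lit 7) (nat_lit 4) (nat_lit 8)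 (nat_lit 5) (nat_lit 8) (nat_lit 4) (nat_lit 379) (nat_lit 248) (nat_lit 153)) (XT.nd (nat_lit 78) (nat_lit 76) (nat_lit 0) (XT.lf (nat_lit 0) (nat_lit 18258568276) (nat_lit 76) (nat_lit 32078746654) (nat_lit 76) (nat_lit 1804693097) (nat_lit 7) (nat_lit 4) (nat_lit 8) (nat_lit 5) (nat_lit 8) (nat_lit 4) (nat_lit 380) (nat_lit 248) (nat_lit 152)) (XT.lf (nat_lit 0) (nat_lit 1037424980) (nat_lit 152) (nat_lit 28222932531) (nat_lit 76) (nat_lit 24329371100) (nat_lit 6) (nat_lit 5) (nat_lit 8) (nat_lit 5) (nat_lit 7) (nat_lit 4) (nat_lit 381) (nat_lit 248) (nat_lit 151))))) (XT.nd (nat_lit 234) (nat_lit 76) (nat_lit 0) (XT.nd (nat_lit 78) (nat_lit 0) (nat_lit 0) (XT.lf (nat_lit 0) (nat_lit 3917063472) (nat_lit 152) (nat_lit 22430520454) (nat_lit 76) (nat_lit 28733114533) (nat_lit 6) (nat_lit 5) (nat_lit 8) (nat_lit 5) (nat_lit 7) (nat_lit 4) (nat_lit 382) (nat_lit 248) (nat_lit 150)) (XT.nd (nat_lit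 78) (nat_lit 0) (nat_lit 0) (XT.lf (nat_lit 0) (nat_lit 6871954630) (nat_lit 152) (nat_lit 16483794376) (nat_lit 76) (nat_lit 33260991789) (nat_lit 6) (nat_lit 5) (nat_lit 8) (nat_lit 5) (nat_lit 7) (nat_lit 4) (nat_lit 383) (nat_lit 248) (nat_lit 149)) (XT.lf (nat_lit 0) (nat_lit 9904680397) (nat_lit 152) (nat_lit 10377558129) (nat_lit 76) (nat_lit 37916959266) (nat_lit 6) (nat_lit 5) (nat_lit 8) (nat_lit 5) (nat_lit 7) (nat_lit 4) (nat_lit 384) (nat_lit 248) (nat_lit 148)))) (XT.nd (nat_lit 78) (nat_lit 76) (nat_lit 0) (XT.lf (nat_lit 0) (nat_lit 13017890729) (nat_lit 152) (nat_lit 4106476165) (nat_lit 76) (nat_lit 42705085284) (nat_lit 6) (nat_lit 5) (nat_lit 8) (nat_lit 5) (nat_lit 7) (nat_lit 4) (nat_lit 385) (nat_lit 248) (nat_lit 147)) (XT.nd (nat_lit 78) (nat_lit 0) (nat_lit 0) (XT.lf (nat_lit 0) (nat_lit 2381400807) (nat_lit 76) (nat_lit 13855796581) (nat_lit 152) (nat_lit 45271044319)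 (nat_lit 5) (nat_lit 5) (nat_lit 6) (nat_lit 5) (nat_lit 7) (nat_lit 4) (nat_lit 386) (nat_lit 248) (nat_lit 146)) (XT.lf (nat_lit 0) (nat_lit 9130460247) (nat_lit 76) (nat_lit 10454026235) (nat_lit 152) (nat_lit 43651974601) (nat_lit 5) (nat_lit 5) (nat_lit 6) (nat_lit 5) (nat_lit 7) (nat_lit 4) (nat_lit 387) (nat_lit 248) (nat_lit 145)))))) (XT.nd (nat_lit 468) (nat_lit 76) (nat_lit 0) (XT.nd (nat_lit 234) (nat_lit 0) (nat_lit 0) (XT.nd (nat_lit 78) (nat_lit 0) (nat_lit 0) (XT.lf (nat_lit 0) (nat_lit 16064872464) (nat_lit 76) (nat_lit 6957550794) (nat_lit 152) (nat_lit 41994404933) (nat_lit 5) (nat_lit 5) (nat_lit 6) (nat_lit 5) (nat_lit 7) (nat_lit 4) (nat_lit 388) (nat_lit 248) (nat_lit 144)) (XT.nd (nat_lit 78) (nat_lit 0) (nat_lit 0) (XT.lf (nat_lit 0) (nat_lit 23190696653) (nat_lit 76) (nat_lit 3363315086) (nat_lit 152) (nat_lit 40296886953) (nat_lit 5) (nat_lit 5) (nat_lit 6) (nat_lit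 5) (nat_lit 7) (nat_lit 4) (nat_lit 389) (nat_lit 248) (nat_lit 143)) (XT.lf (nat_lit 0) (nat_lit 30185527448) (nat_lit 152) (nat_lit 38229305579) (nat_lit 0) (nat_lit 325346452) (nat_lit 5) (nat_lit 5) (nat_lit 7) (nat_lit 4) (nat_lit 5) (nat_lit 4) (nat_lit 390) (nat_lit 248) (nat_lit 142)))) (XT.nd (nat_lit 78) (nat_lit 0) (nat_lit 0) (XT.lf (nat_lit 0) (nat_lit 33950282296) (nat_lit 152) (nat_lit 32684659647) (nat_lit 0) (nat_lit 4050475277) (nat_lit 5) (nat_lit 5) (nat_lit 7) (nat_lit 4) (nat_lit 5) (nat_lit 4) (nat_lit 391) (nat_lit 248) (nat_lit 141)) (XT.nd (nat_lit 78) (nat_lit 0) (nat_lit 0) (XT.lf (nat_lit 0) (nat_lit 37819235634) (nat_lit 152) (nat_lit 26989089163) (nat_lit 0) (nat_lit 7880956747) (nat_lit 5) (nat_lit 5) (nat_lit 7) (nat_lit 4) (nat_lit 5) (nat_lit 4) (nat_lit 392) (nat_lit 248) (nat_lit 140)) (XT.lf (nat_lit 0) (nat_lit 41795768100) (nat_lit 152) (nat_lit 21137617416)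 (nat_lit 0) (nat_lit 11820137885) (nat_lit 5) (nat_lit 5) (nat_lit 7) (nat_lit 4) (nat_lit 5) (nat_lit 4) (nat_lit 393) (nat_lit 248) (nat_lit 139))))) (XT.nd (nat_lit 234) (nat_lit 76) (nat_lit 0) (XT.nd (nat_lit 78) (nat_lit 0) (nat_lit 0) (XT.lf (nat_lit 0) (nat_lit 45883354334) (nat_lit 152) (nat_lit 15125131468) (nat_lit 0) (nat_lit 15871460694) (nat_lit 5) (nat_lit 5) (nat_lit 7) (nat_lit 4) (nat_lit 5) (nat_lit 4) (nat_lit 394) (nat_lit 248) (nat_lit 138)) (XT.nd (nat_lit 78) (nat_lit 0) (nat_lit 0) (XT.lf (nat_lit 0) (nat_lit 50085566013) (nat_lit 152) (nat_lit 8946377692) (nat_lit 0) (nat_lit 20038465165) (nat_lit 5) (nat_lit 5) (nat_lit 7) (nat_lit 4) (nat_lit 5) (nat_lit 4) (nat_lit 395) (nat_lit 248) (nat_lit 137)) (XT.lf (nat_lit 0) (nat_lit 54406074972) (nat_lit 152) (nat_lit 2595957177) (nat_lit 0) (nat_lit 24324792368) (nat_lit 5) (nat_lit 5) (nat_lit 7) (nat_lit 4) (nat_lit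 5) (nat_lit 4) (nat_lit 396) (nat_lit 248) (nat_lit 136)))) (XT.nd (nat_lit 78) (nat_lit 0) (nat_lit 0) (XT.lf (nat_lit 0) (nat_lit 4009927109) (nat_lit 76) (nat_lit 54877275178) (nat_lit 76) (nat_lit 24762806403) (nat_lit 4) (nat_lit 4) (nat_lit 5) (nat_lit 5) (nat_lit 5) (nat_lit 4) (nat_lit 397) (nat_lit 248) (nat_lit 135)) (XT.nd (nat_lit 31590) (nat_lit 0) (nat_lit 14212) (XT.lf (nat_lit 0) (nat_lit 10854035899) (nat_lit 76) (nat_lit 52667491941) (nat_lit 76) (nat_lit 22520803583) (nat_lit 4) (nat_lit 4) (nat_lit 5) (nat_lit 5) (nat_lit 5) (nat_lit 4) (nat_lit 398) (nat_lit 248) (nat_lit 134)) (XT.lf (nat_lit 0) (nat_lit 1919952093) (nat_lit 836) (nat_lit 795693132) (nat_lit 836) (nat_lit 795693132) (nat_lit 191) (nat_lit 4) (nat_lit 202) (nat_lit 5) (nat_lit 202) (nat_lit 4) (nat_lit 282) (nat_lit 249) (nat_lit 249))))))) (XT.nd (nat_lit 858) (nat_lit 3116) (nat_lit 0) (XT.nd (nat_lit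 390) (nat_lit 2432) (nat_lit 0) (XT.nd (nat_lit 156) (nat_lit 2128) (nat_lit 0) (XT.nd (nat_lit 78) (nat_lit 0) (nat_lit 0) (XT.lf (nat_lit 0) (nat_lit 1038021562) (nat_lit 912) (nat_lit 306639467) (nat_lit 988) (nat_lit 5734579973) (nat_lit 178) (nat_lit 5) (nat_lit 190) (nat_lit 5) (nat_lit 191) (nat_lit 4) (nat_lit 283) (nat_lit 249) (nat_lit 248)) (XT.lf (nat_lit 0) (nat_lit 4288438455) (nat_lit 988) (nat_lit 1798801447) (nat_lit 0) (nat_lit 1051535953) (nat_lit 178) (nat_lit 5) (nat_lit 191) (nat_lit 4) (nat_lit 178) (nat_lit 4) (nat_lit 284) (nat_lit 249) (nat_lit 247))) (XT.nd (nat_lit 78) (nat_lit 1064) (nat_lit 0) (XT.lf (nat_lit 0) (nat_lit 56625586) (nat_lit 1064) (nat_lit 4670043098) (nat_lit 76) (nat_lit 2475515440) (nat_lit 164) (nat_lit 5) (nat_lit 178) (nat_lit 5) (nat_lit 165) (nat_lit 4) (nat_lit 285) (nat_lit 249) (nat_lit 246)) (XT.nd (nat_lit 78) (nat_lit 1064) (nat_lit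 0) (XT.lf (nat_lit 0) (nat_lit 2924525364) (nat_lit 1064) (nat_lit 351207069) (nat_lit 76) (nat_lit 3993255353) (nat_lit 164) (nat_lit 5) (nat_lit 178) (nat_lit 5) (nat_lit 165) (nat_lit 4) (nat_lit 286) (nat_lit 249) (nat_lit 245)) (XT.lf (nat_lit 0) (nat_lit 4093835048) (nat_lit 1064) (nat_lit 1739195696) (nat_lit 1140) (nat_lit 1506390167) (nat_lit 150) (nat_lit 5) (nat_lit 164) (nat_lit 5) (nat_lit 165) (nat_lit 4) (nat_lit 287) (nat_lit 249) (nat_lit 244))))) (XT.nd (nat_lit 234) (nat_lit 1140) (nat_lit 0) (XT.nd (nat_lit 78) (nat_lit 532) (nat_lit 0) (XT.lf (nat_lit 0) (nat_lit 1192838246) (nat_lit 684) (nat_lit 127207177) (nat_lit 760) (nat_lit 6093834321) (nat_lit 140) (nat_lit 5) (nat_lit 149) (nat_lit 5) (nat_lit 150) (nat_lit 5) (nat_lit 288) (nat_lit 249) (nat_lit 243)) (XT.nd (nat_lit 78) (nat_lit 532) (nat_lit 0) (XT.lf (nat_lit 0) (nat_lit 4166293168) (nat_lit 760) (nat_lit 1774850011)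 (nat_lit 76) (nat_lit 1550262985) (nat_lit 140) (nat_lit 5) (nat_lit 150) (nat_lit 5) (nat_lit 141) (nat_lit 4) (nat_lit 289) (nat_lit 249) (nat_lit 242)) (XT.lf (nat_lit 0) (nat_lit 2773877086) (nat_lit 532) (nat_lit 4271839012) (nat_lit 608) (nat_lit 527341797) (nat_lit 133) (nat_lit 5) (nat_lit 140) (nat_lit 5) (nat_lit 141) (nat_lit 4) (nat_lit 290) (nat_lit 249) (nat_lit 241)))) (XT.nd (nat_lit 78) (nat_lit 1064) (nat_lit 0) (XT.lf (nat_lit 0) (nat_lit 2246921515) (nat_lit 608) (nat_lit 268684000) (nat_lit 76) (nat_lit 5142939451) (nat_lit 132) (nat_lit 5) (nat_lit 140) (nat_lit 5) (nat_lit 133) (nat_lit 5) (nat_lit 291) (nat_lit 249) (nat_lit 240)) (XT.nd (nat_lit 78) (nat_lit 532) (nat_lit 0) (XT.lf (nat_lit 0) (nat_lit 4396054256) (nat_lit 532) (nat_lit 662736514) (nat_lit 608) (nat_lit 2688913296) (nat_lit 125) (nat_lit 5) (nat_lit 132) (nat_lit 5) (nat_lit 133) (nat_lit 5) (nat_lit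 292) (nat_lit 249) (nat_lit 239)) (XT.lf (nat_lit 0) (nat_lit 63847978) (nat_lit 532) (nat_lit 6545609847) (nat_lit 76) (nat_lit 1231729235) (nat_lit 118) (nat_lit 5) (nat_lit 125) (nat_lit 5) (nat_lit 119) (nat_lit 5) (nat_lit 293) (nat_lit 249) (nat_lit 238)))))) (XT.nd (nat_lit 468) (nat_lit 1596) (nat_lit 0) (XT.nd (nat_lit 234) (nat_lit 988) (nat_lit 0) (XT.nd (nat_lit 78) (nat_lit 532) (nat_lit 0) (XT.lf (nat_lit 0) (nat_lit 2810500369) (nat_lit 532) (nat_lit 1903782297) (nat_lit 76) (nat_lit 3223627867) (nat_lit 118) (nat_lit 5) (nat_lit 125) (nat_lit 5) (nat_lit 119) (nat_lit 5) (nat_lit 294) (nat_lit 249) (nat_lit 237)) (XT.nd (nat_lit 78) (nat_lit 76) (nat_lit 0) (XT.lf (nat_lit 0) (nat_lit 2850664739) (nat_lit 456) (nat_lit 2743096563) (nat_lit 532) (nat_lit 2445337714) (nat_lit 112) (nat_lit 5) (nat_lit 118) (nat_lit 5) (nat_lit 119) (nat_lit 5) (nat_lit 295) (nat_lit 249) (nat_lit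 236)) (XT.lf (nat_lit 0) (nat_lit 257685753) (nat_lit 532) (nat_lit 442296865) (nat_lit 76) (nat_lit 7445027397) (nat_lit 111) (nat_lit 5) (nat_lit 118) (nat_lit 5) (nat_lit 112) (nat_lit 5) (nat_lit 296) (nat_lit 249) (nat_lit 235)))) (XT.nd (nat_lit 78) (nat_lit 532) (nat_lit 0) (XT.lf (nat_lit 0) (nat_lit 2978660310) (nat_lit 532) (nat_lit 3840699122) (nat_lit 76) (nat_lit 1434605782) (nat_lit 105) (nat_lit 5) (nat_lit 112) (nat_lit 5) (nat_lit 106) (nat_lit 5) (nat_lit 297) (nat_lit 249) (nat_lit 234)) (XT.nd (nat_lit 78) (nat_lit 76) (nat_lit 0) (XT.lf (nat_lit 0) (nat_lit 987789946) (nat_lit 456) (nat_lit 4744980411) (nat_lit 532) (nat_lit 2635041959) (nat_lit 99) (nat_lit 5) (nat_lit 105) (nat_lit 5) (nat_lit 106) (nat_lit 5) (nat_lit 298) (nat_lit 249) (nat_lit 233)) (XT.lf (nat_lit 0) (nat_lit 52924911) (nat_lit 532) (nat_lit 2527989188) (nat_lit 76) (nat_lit 5905190842) (nat_lit 98)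 (nat_lit 5) (nat_lit 105) (nat_lit 5) (nat_lit 99) (nat_lit 5) (nat_lit 299) (nat_lit 249) (nat_lit 232))))) (XT.nd (nat_lit 234) (nat_lit 836) (nat_lit 0) (XT.nd (nat_lit 78) (nat_lit 380) (nat_lit 0) (XT.lf (nat_lit 0) (nat_lit 2410210916) (nat_lit 380) (nat_lit 314512991) (nat_lit 456) (nat_lit 5883909247) (nat_lit 93) (nat_lit 5) (nat_lit 98) (nat_lit 5) (nat_lit 99) (nat_lit 5) (nat_lit 300) (nat_lit 249) (nat_lit 231)) (XT.nd (nat_lit 78) (nat_lit 380) (nat_lit 0) (XT.lf (nat_lit 0) (nat_lit 5455915382) (nat_lit 456) (nat_lit 1286903499) (nat_lit 76) (nat_lit 1992790827) (nat_lit 93) (nat_lit 5) (nat_lit 99) (nat_lit 5) (nat_lit 94) (nat_lit 5) (nat_lit 301) (nat_lit 249) (nat_lit 230)) (XT.lf (nat_lit 0) (nat_lit 3763112311) (nat_lit 380) (nat_lit 4481180435) (nat_lit 456) (nat_lit 622990602) (nat_lit 88) (nat_lit 5) (nat_lit 93) (nat_lit 5) (nat_lit 94) (nat_lit 5) (nat_lit 302) (nat_lit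 249) (nat_lit 229)))) (XT.nd (nat_lit 78) (nat_lit 760) (nat_lit 0) (XT.lf (nat_lit 0) (nat_lit 2021610888) (nat_lit 456) (nat_lit 111747260) (nat_lit 76) (nat_lit 6870593427) (nat_lit 87) (nat_lit 5) (nat_lit 93) (nat_lit 5) (nat_lit 88) (nat_lit 5) (nat_lit 303) (nat_lit 249) (nat_lit 228)) (XT.nd (nat_lit 78) (nat_lit 380) (nat_lit 0) (XT.lf (nat_lit 0) (nat_lit 4722824683) (nat_lit 456) (nat_lit 4102935655) (nat_lit 76) (nat_lit 319213555) (nat_lit 82) (nat_lit 5) (nat_lit 88) (nat_lit 5) (nat_lit 83) (nat_lit 5) (nat_lit 304) (nat_lit 249) (nat_lit 227)) (XT.lf (nat_lit 0) (nat_lit 982054941) (nat_lit 380) (nat_lit 6493800376) (nat_lit 456) (nat_lit 1815377241) (nat_lit 77) (nat_lit 5) (nat_lit 82) (nat_lit 5) (nat_lit 83) (nat_lit 5) (nat_lit 305) (nat_lit 249) (nat_lit 226))))))))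
noncomputable def xc80 : XT := (XT.nd (nat_lit 1716) (nat_lit 1520) (nat_lit 0) (XT.nd (nat_lit 858) (nat_lit 1368) (nat_lit 0) (XT.nd (nat_lit 390) (nat_lit 912) (nat_lit 0) (XT.nd (nat_lit 156) (nat_lit 380) (nat_lit 0) (XT.nd (nat_lit 78) (nat_lit 304) (nat_lit 0) (XT.lf (nat_lit 0) (nat_lit 833860304) (nat_lit 456) (nat_lit 3224772121) (nat_lit 76) (nat_lit 5383680522) (nat_lit 76) (nat_lit 5) (nat_lit 82) (nat_lit 5) (nat_lit 77) (nat_lit 5) (nat_lit 306) (nat_lit 249) (nat_lit 225)) (XT.lf (nat_lit 0) (nat_lit 1955586826) (nat_lit 304) (nat_lit 1530454098) (nat_lit 380) (nat_lit 6112665141) (nat_lit 72) (nat_lit 5) (nat_lit 76) (nat_lit 5) (nat_lit 77) (nat_lit 5) (nat_lit 307) (nat_lit 249) (nat_lit 224))) (XT.nd (nat_lit 78) (nat_lit 380) (nat_lit 0) (XT.lf (nat_lit 0) (nat_lit 6202956775) (nat_lit 380) (nat_lit 2489683769) (nat_lit 76) (nat_lit 1067710033) (nat_lit 72) (nat_lit 5) (nat_lit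 77) (nat_lit 5) (nat_lit 73) (nat_lit 5) (nat_lit 308) (nat_lit 249) (nat_lit 223)) (XT.nd (nat_lit 78) (nat_lit 76) (nat_lit 0) (XT.lf (nat_lit 0) (nat_lit 2782063922) (nat_lit 304) (nat_lit 6204866181) (nat_lit 380) (nat_lit 940459176) (nat_lit 68) (nat_lit 5) (nat_lit 72) (nat_lit 5) (nat_lit 73) (nat_lit 5) (nat_lit 309) (nat_lit 249) (nat_lit 222)) (XT.lf (nat_lit 0) (nat_lit 1690049845) (nat_lit 380) (nat_lit 1928711150) (nat_lit 76) (nat_lit 6481197638) (nat_lit 67) (nat_lit 5) (nat_lit 72) (nat_lit 5) (nat_lit 68) (nat_lit 5) (nat_lit 310) (nat_lit 249) (nat_lit 221))))) (XT.nd (nat_lit 234) (nat_lit 304) (nat_lit 0) (XT.nd (nat_lit 78) (nat_lit 304) (nat_lit 0) (XT.lf (nat_lit 0) (nat_lit 3428291762) (nat_lit 304) (nat_lit 930790800) (nat_lit 380) (nat_lit 5919089745) (nat_lit 63) (nat_lit 5) (nat_lit 67) (nat_lit 5) (nat_lit 68) (nat_lit 5) (nat_lit 311) (nat_lit 249) (nat_lit 220))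 (XT.nd (nat_lit 78) (nat_lit 304) (nat_lit 0) (XT.lf (nat_lit 0) (nat_lit 7091775074) (nat_lit 380) (nat_lit 1567958884) (nat_lit 76) (nat_lit 1802589704) (nat_lit 63) (nat_lit 5) (nat_lit 68) (nat_lit 5) (nat_lit 64) (nat_lit 5) (nat_lit 312) (nat_lit 249) (nat_lit 219)) (XT.lf (nat_lit 0) (nat_lit 3866327189) (nat_lit 304) (nat_lit 6034321399) (nat_lit 380) (nat_lit 751621019) (nat_lit 59) (nat_lit 5) (nat_lit 63) (nat_lit 5) (nat_lit 64) (nat_lit 5) (nat_lit 313) (nat_lit 249) (nat_lit 218)))) (XT.nd (nat_lit 78) (nat_lit 228) (nat_lit 0) (XT.lf (nat_lit 0) (nat_lit 1871943994) (nat_lit 380) (nat_lit 1443256005) (nat_lit 76) (nat_lit 7533322105) (nat_lit 58) (nat_lit 5) (nat_lit 63) (nat_lit 5) (nat_lit 59) (nat_lit 5) (nat_lit 314) (nat_lit 249) (nat_lit 217)) (XT.nd (nat_lit 78) (nat_lit 0) (nat_lit 0) (XT.lf (nat_lit 0) (nat_lit 4060891596) (nat_lit 228) (nat_lit 486816948) (nat_lit 304)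 (nat_lit 6503160300) (nat_lit 55) (nat_lit 5) (nat_lit 58) (nat_lit 5) (nat_lit 59) (nat_lit 5) (nat_lit 315) (nat_lit 249) (nat_lit 216)) (XT.lf (nat_lit 0) (nat_lit 7291954049) (nat_lit 304) (nat_lit 1593875696) (nat_lit 76) (nat_lit 2373895344) (nat_lit 55) (nat_lit 5) (nat_lit 59) (nat_lit 5) (nat_lit 56) (nat_lit 5) (nat_lit 316) (nat_lit 249) (nat_lit 215)))))) (XT.nd (nat_lit 390) (nat_lit 532) (nat_lit 0) (XT.nd (nat_lit 156) (nat_lit 456) (nat_lit 0) (XT.nd (nat_lit 78) (nat_lit 76) (nat_lit 0) (XT.lf (nat_lit 0) (nat_lit 3967478255) (nat_lit 304) (nat_lit 6145623409) (nat_lit 380) (nat_lit 1361990972) (nat_lit 51) (nat_lit 5) (nat_lit 55) (nat_lit 5) (nat_lit 56) (nat_lit 5) (nat_lit 317) (nat_lit 249) (nat_lit 214)) (XT.lf (nat_lit 0) (nat_lit 1264237338) (nat_lit 380) (nat_lit 2050548297) (nat_lit 76) (nat_lit 8382790320) (nat_lit 50) (nat_lit 5) (nat_lit 55) (nat_lit 5) (nat_lit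 51) (nat_lit 5) (nat_lit 318) (nat_lit 249) (nat_lit 213))) (XT.nd (nat_lit 78) (nat_lit 228) (nat_lit 0) (XT.lf (nat_lit 0) (nat_lit 3558624366) (nat_lit 228) (nat_lit 370681247) (nat_lit 304) (nat_lit 7997476601) (nat_lit 47) (nat_lit 5) (nat_lit 50) (nat_lit 5) (nat_lit 51) (nat_lit 5) (nat_lit 319) (nat_lit 249) (nat_lit 212)) (XT.nd (nat_lit 78) (nat_lit 228) (nat_lit 0) (XT.lf (nat_lit 0) (nat_lit 6674563037) (nat_lit 304) (nat_lit 2878083041) (nat_lit 76) (nat_lit 2610285088) (nat_lit 47) (nat_lit 5) (nat_lit 51) (nat_lit 5) (nat_lit 48) (nat_lit 5) (nat_lit 320) (nat_lit 249) (nat_lit 211)) (XT.lf (nat_lit 0) (nat_lit 2760726029) (nat_lit 228) (nat_lit 6726746688) (nat_lit 304) (nat_lit 2919204507) (nat_lit 44) (nat_lit 5) (nat_lit 47) (nat_lit 5) (nat_lit 48) (nat_lit 5) (nat_lit 321) (nat_lit 249) (nat_lit 210))))) (XT.nd (nat_lit 234) (nat_lit 228) (nat_lit 0) (XT.nd (nat_lit 78)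 (nat_lit 304) (nat_lit 0) (XT.lf (nat_lit 0) (nat_lit 8562176395) (nat_lit 228) (nat_lit 3807421254) (nat_lit 304) (nat_lit 288662569) (nat_lit 44) (nat_lit 5) (nat_lit 47) (nat_lit 5) (nat_lit 48) (nat_lit 5) (nat_lit 322) (nat_lit 249) (nat_lit 209)) (XT.nd (nat_lit 78) (nat_lit 0) (nat_lit 0) (XT.lf (nat_lit 0) (nat_lit 1562966109) (nat_lit 228) (nat_lit 782177355) (nat_lit 304) (nat_lit 10572466952) (nat_lit 40) (nat_lit 5) (nat_lit 43) (nat_lit 5) (nat_lit 44) (nat_lit 5) (nat_lit 323) (nat_lit 249) (nat_lit 208)) (XT.lf (nat_lit 0) (nat_lit 5073377829) (nat_lit 304) (nat_lit 5798502419) (nat_lit 76) (nat_lit 2312202157) (nat_lit 40) (nat_lit 5) (nat_lit 44) (nat_lit 5) (nat_lit 41) (nat_lit 5) (nat_lit 324) (nat_lit 249) (nat_lit 207)))) (XT.nd (nat_lit 78) (nat_lit 228) (nat_lit 0) (XT.lf (nat_lit 0) (nat_lit 7849465587) (nat_lit 304) (nat_lit 146579531) (nat_lit 76) (nat_lit 5463584898)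 (nat_lit 40) (nat_lit 5) (nat_lit 44) (nat_lit 5) (nat_lit 41) (nat_lit 5) (nat_lit 325) (nat_lit 249) (nat_lit 206)) (XT.nd (nat_lit 78) (nat_lit 0) (nat_lit 0) (XT.lf (nat_lit 0) (nat_lit 5725302979) (nat_lit 228) (nat_lit 4998045814) (nat_lit 304) (nat_lit 3019719734) (nat_lit 37) (nat_lit 5) (nat_lit 40) (nat_lit 5) (nat_lit 41) (nat_lit 5) (nat_lit 326) (nat_lit 249) (nat_lit 205)) (XT.lf (nat_lit 0) (nat_lit 11715628525) (nat_lit 228) (nat_lit 1929374441) (nat_lit 304) (nat_lit 391218711) (nat_lit 37) (nat_lit 5) (nat_lit 40) (nat_lit 5) (nat_lit 41) (nat_lit 5) (nat_lit 327) (nat_lit 249) (nat_lit 204))))))) (XT.nd (nat_lit 858) (nat_lit 684) (nat_lit 0) (XT.nd (nat_lit 390) (nat_lit 380) (nat_lit 0) (XT.nd (nat_lit 156) (nat_lit 228) (nat_lit 0) (XT.nd (nat_lit 78) (nat_lit 0) (nat_lit 0) (XT.lf (nat_lit 0) (nat_lit 2277909718) (nat_lit 228) (nat_lit 10815493823) (nat_lit 76) (nat_lit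 1243943678) (nat_lit 34) (nat_lit 5) (nat_lit 37) (nat_lit 5) (nat_lit 35) (nat_lit 5) (nat_lit 328) (nat_lit 249) (nat_lit 203)) (XT.lf (nat_lit 0) (nat_lit 5023190167) (nat_lit 228) (nat_lit 5143081350) (nat_lit 76) (nat_lit 4481053751) (nat_lit 34) (nat_lit 5) (nat_lit 37) (nat_lit 5) (nat_lit 35) (nat_lit 5) (nat_lit 329) (nat_lit 249) (nat_lit 202))) (XT.nd (nat_lit 78) (nat_lit 0) (nat_lit 0) (XT.lf (nat_lit 0) (nat_lit 653802439) (nat_lit 228) (nat_lit 7165615320) (nat_lit 304) (nat_lit 7148178873) (nat_lit 31) (nat_lit 5) (nat_lit 34) (nat_lit 5) (nat_lit 35) (nat_lit 5) (nat_lit 330) (nat_lit 249) (nat_lit 201)) (XT.nd (nat_lit 78) (nat_lit 0) (nat_lit 0) (XT.lf (nat_lit 0) (nat_lit 6672134901) (nat_lit 228) (nat_lit 4042177805) (nat_lit 304) (nat_lit 4582770146) (nat_lit 31) (nat_lit 5) (nat_lit 34) (nat_lit 5) (nat_lit 35) (nat_lit 5) (nat_lit 331) (nat_lit 249) (nat_lit 200)) (XT.lf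 (nat_lit 0) (nat_lit 12814817368) (nat_lit 228) (nat_lit 845164793) (nat_lit 304) (nat_lit 1977602338) (nat_lit 31) (nat_lit 5) (nat_lit 34) (nat_lit 5) (nat_lit 35) (nat_lit 5) (nat_lit 332) (nat_lit 249) (nat_lit 199))))) (XT.nd (nat_lit 234) (nat_lit 152) (nat_lit 0) (XT.nd (nat_lit 78) (nat_lit 0) (nat_lit 0) (XT.lf (nat_lit 0) (nat_lit 710547560) (nat_lit 228) (nat_lit 12859096011) (nat_lit 76) (nat_lit 2417942038) (nat_lit 28) (nat_lit 5) (nat_lit 31) (nat_lit 5) (nat_lit 29) (nat_lit 5) (nat_lit 333) (nat_lit 249) (nat_lit 198)) (XT.nd (nat_lit 78) (nat_lit 0) (nat_lit 0) (XT.lf (nat_lit 0) (nat_lit 3441648019) (nat_lit 228) (nat_lit 7114986438) (nat_lit 76) (nat_lit 5790847814) (nat_lit 28) (nat_lit 5) (nat_lit 31) (nat_lit 5) (nat_lit 29) (nat_lit 5) (nat_lit 334) (nat_lit 249) (nat_lit 197)) (XT.lf (nat_lit 0) (nat_lit 6220603149) (nat_lit 228) (nat_lit 1252604447) (nat_lit 76) (nat_lit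 9246033829) (nat_lit 28) (nat_lit 5) (nat_lit 31) (nat_lit 5) (nat_lit 29) (nat_lit 5) (nat_lit 335) (nat_lit 249) (nat_lit 196)))) (XT.nd (nat_lit 78) (nat_lit 0) (nat_lit 0) (XT.lf (nat_lit 0) (nat_lit 4827371843) (nat_lit 152) (nat_lit 4268872972) (nat_lit 228) (nat_lit 8005550986) (nat_lit 26) (nat_lit 5) (nat_lit 28) (nat_lit 5) (nat_lit 29) (nat_lit 5) (nat_lit 336) (nat_lit 249) (nat_lit 195)) (XT.nd (nat_lit 78) (nat_lit 0) (nat_lit 0) (XT.lf (nat_lit 0) (nat_lit 11063462490) (nat_lit 152) (nat_lit 974720493) (nat_lit 228) (nat_lit 5458283768) (nat_lit 26) (nat_lit 5) (nat_lit 28) (nat_lit 5) (nat_lit 29) (nat_lit 5) (nat_lit 337) (nat_lit 249) (nat_lit 194)) (XT.lf (nat_lit 0) (nat_lit 15059773107) (nat_lit 228) (nat_lit 490845591) (nat_lit 76) (nat_lit 2352656891) (nat_lit 26) (nat_lit 5) (nat_lit 29) (nat_lit 5) (nat_lit 27) (nat_lit 4) (nat_lit 338) (nat_lit 249) (nat_lit 193))))))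 (XT.nd (nat_lit 468) (nat_lit 304) (nat_lit 0) (XT.nd (nat_lit 234) (nat_lit 152) (nat_lit 0) (XT.nd (nat_lit 78) (nat_lit 76) (nat_lit 0) (XT.lf (nat_lit 0) (nat_lit 5681019382) (nat_lit 152) (nat_lit 12524327459) (nat_lit 228) (nat_lit 115980195) (nat_lit 24) (nat_lit 5) (nat_lit 26) (nat_lit 5) (nat_lit 27) (nat_lit 4) (nat_lit 339) (nat_lit 249) (nat_lit 192)) (XT.nd (nat_lit 78) (nat_lit 0) (nat_lit 0) (XT.lf (nat_lit 0) (nat_lit 2614980382) (nat_lit 228) (nat_lit 6779535467) (nat_lit 76) (nat_lit 9357438585) (nat_lit 23) (nat_lit 5) (nat_lit 26) (nat_lit 5) (nat_lit 24) (nat_lit 5) (nat_lit 340) (nat_lit 249) (nat_lit 191)) (XT.lf (nat_lit 0) (nat_lit 5395601091) (nat_lit 228) (nat_lit 792561175) (nat_lit 76) (nat_lit 13008237227) (nat_lit 23) (nat_lit 5) (nat_lit 26) (nat_lit 5) (nat_lit 24) (nat_lit 5) (nat_lit 341) (nat_lit 249) (nat_lit 190)))) (XT.nd (nat_lit 78) (nat_lit 0) (nat_lit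 0) (XT.lf (nat_lit 0) (nat_lit 5432978408) (nat_lit 152) (nat_lit 2849821497) (nat_lit 228) (nat_lit 11370717353) (nat_lit 21) (nat_lit 5) (nat_lit 23) (nat_lit 5) (nat_lit 24) (nat_lit 5) (nat_lit 342) (nat_lit 249) (nat_lit 189)) (XT.nd (nat_lit 78) (nat_lit 0) (nat_lit 0) (XT.lf (nat_lit 0) (nat_lit 11241516509) (nat_lit 228) (nat_lit 8315635746) (nat_lit 76) (nat_lit 567682384) (nat_lit 21) (nat_lit 5) (nat_lit 24) (nat_lit 5) (nat_lit 22) (nat_lit 4) (nat_lit 343) (nat_lit 249) (nat_lit 188)) (XT.lf (nat_lit 0) (nat_lit 14289211269) (nat_lit 228) (nat_lit 2307743650) (nat_lit 76) (nat_lit 4013362303) (nat_lit 21) (nat_lit 5) (nat_lit 24) (nat_lit 5) (nat_lit 22) (nat_lit 4) (nat_lit 344) (nat_lit 249) (nat_lit 187))))) (XT.nd (nat_lit 234) (nat_lit 152) (nat_lit 0) (XT.nd (nat_lit 78) (nat_lit 76) (nat_lit 0) (XT.lf (nat_lit 0) (nat_lit 3912120851) (nat_lit 76) (nat_lit 13526637839) (nat_lit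 152) (nat_lit 3671324177) (nat_lit 20) (nat_lit 5) (nat_lit 21) (nat_lit 5) (nat_lit 22) (nat_lit 4) (nat_lit 345) (nat_lit 249) (nat_lit 186)) (XT.nd (nat_lit 78) (nat_lit 76) (nat_lit 0) (XT.lf (nat_lit 0) (nat_lit 10321721135) (nat_lit 76) (nat_lit 10357558409) (nat_lit 152) (nat_lit 945697656) (nat_lit 20) (nat_lit 5) (nat_lit 21) (nat_lit 5) (nat_lit 22) (nat_lit 4) (nat_lit 346) (nat_lit 249) (nat_lit 185)) (XT.lf (nat_lit 0) (nat_lit 1799046978) (nat_lit 152) (nat_lit 5293037393) (nat_lit 76) (nat_lit 15063515376) (nat_lit 19) (nat_lit 5) (nat_lit 21) (nat_lit 5) (nat_lit 20) (nat_lit 5) (nat_lit 347) (nat_lit 249) (nat_lit 184)))) (XT.nd (nat_lit 78) (nat_lit 0) (nat_lit 0) (XT.lf (nat_lit 0) (nat_lit 862793045) (nat_lit 152) (nat_lit 3727071426) (nat_lit 228) (nat_lit 18112541210) (nat_lit 17) (nat_lit 5) (nat_lit 19) (nat_lit 5) (nat_lit 20) (nat_lit 5) (nat_lit 348) (nat_lit 249)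 (nat_lit 183)) (XT.nd (nat_lit 78) (nat_lit 0) (nat_lit 0) (XT.lf (nat_lit 0) (nat_lit 7270046232) (nat_lit 152) (nat_lit 222596938) (nat_lit 228) (nat_lit 15772152472) (nat_lit 17) (nat_lit 5) (nat_lit 19) (nat_lit 5) (nat_lit 20) (nat_lit 5) (nat_lit 349) (nat_lit 249) (nat_lit 182)) (XT.lf (nat_lit 0) (nat_lit 10490430614) (nat_lit 228) (nat_lit 10048242549) (nat_lit 76) (nat_lit 3305172540) (nat_lit 17) (nat_lit 5) (nat_lit 20) (nat_lit 5) (nat_lit 18) (nat_lit 4) (nat_lit 350) (nat_lit 249) (nat_lit 181))))))))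
noncomputable def xc81 : XT := (XT.nd (nat_lit 1716) (nat_lit 228) (nat_lit 0) (XT.nd (nat_lit 858) (nat_lit 304) (nat_lit 0) (XT.nd (nat_lit 390) (nat_lit 304) (nat_lit 0) (XT.nd (nat_lit 156) (nat_lit 0) (nat_lit 0) (XT.nd (nat_lit 78) (nat_lit 76) (nat_lit 0) (XT.lf (nat_lit 0) (nat_lit 13556440418) (nat_lit 228) (nat_lit 3965490270) (nat_lit 76) (nat_lit 6919013314) (nat_lit 17) (nat_lit 5) (nat_lit 20) (nat_lit 5) (nat_lit 18) (nat_lit 4) (nat_lit 351) (nat_lit 249) (nat_lit 180)) (XT.lf (nat_lit 0) (nat_lit 2305959771) (nat_lit 76) (nat_lit 14407418410) (nat_lit 152) (nat_lit 8342633303) (nat_lit 16) (nat_lit 5) (nat_lit 17) (nat_lit 5) (nat_lit 18) (nat_lit 4) (nat_lit 352) (nat_lit 249) (nat_lit 179))) (XT.nd (nat_lit 78) (nat_lit 0) (nat_lit 0) (XT.lf (nat_lit 0) (nat_lit 8808439810) (nat_lit 76) (nat_lit 11173716436) (nat_lit 152) (nat_lit 5706884720) (nat_lit 16) (nat_lit 5) (nat_lit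 17) (nat_lit 5) (nat_lit 18) (nat_lit 4) (nat_lit 353) (nat_lit 249) (nat_lit 178)) (XT.nd (nat_lit 78) (nat_lit 0) (nat_lit 0) (XT.lf (nat_lit 0) (nat_lit 15468710594) (nat_lit 76) (nat_lit 7858042879) (nat_lit 152) (nat_lit 3014998431) (nat_lit 16) (nat_lit 5) (nat_lit 17) (nat_lit 5) (nat_lit 18) (nat_lit 4) (nat_lit 354) (nat_lit 249) (nat_lit 177)) (XT.lf (nat_lit 0) (nat_lit 22292591776) (nat_lit 76) (nat_lit 4457500548) (nat_lit 152) (nat_lit 264622303) (nat_lit 16) (nat_lit 5) (nat_lit 17) (nat_lit 5) (nat_lit 18) (nat_lit 4) (nat_lit 355) (nat_lit 249) (nat_lit 176))))) (XT.nd (nat_lit 234) (nat_lit 76) (nat_lit 0) (XT.nd (nat_lit 78) (nat_lit 0) (nat_lit 0) (XT.lf (nat_lit 0) (nat_lit 1583957599) (nat_lit 152) (nat_lit 928221021) (nat_lit 228) (nat_lit 25195147364) (nat_lit 13) (nat_lit 5) (nat_lit 15) (nat_lit 5) (nat_lit 16) (nat_lit 5) (nat_lit 356) (nat_lit 249) (nat_lit 175))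 (XT.nd (nat_lit 78) (nat_lit 0) (nat_lit 0) (XT.lf (nat_lit 0) (nat_lit 5420086600) (nat_lit 228) (nat_lit 20308126869) (nat_lit 76) (nat_lit 2690850615) (nat_lit 13) (nat_lit 5) (nat_lit 16) (nat_lit 5) (nat_lit 14) (nat_lit 4) (nat_lit 357) (nat_lit 249) (nat_lit 174)) (XT.lf (nat_lit 0) (nat_lit 8403980026) (nat_lit 228) (nat_lit 14362325393) (nat_lit 76) (nat_lit 6386206512) (nat_lit 13) (nat_lit 5) (nat_lit 16) (nat_lit 5) (nat_lit 14) (nat_lit 4) (nat_lit 358) (nat_lit 249) (nat_lit 173)))) (XT.nd (nat_lit 78) (nat_lit 76) (nat_lit 0) (XT.lf (nat_lit 0) (nat_lit 11457543556) (nat_lit 228) (nat_lit 8271845970) (nat_lit 76) (nat_lit 10179188557) (nat_lit 13) (nat_lit 5) (nat_lit 16) (nat_lit 5) (nat_lit 14) (nat_lit 4) (nat_lit 359) (nat_lit 249) (nat_lit 172)) (XT.nd (nat_lit 78) (nat_lit 76) (nat_lit 0) (XT.lf (nat_lit 0) (nat_lit 14583445353) (nat_lit 228) (nat_lit 2031366821) (nat_lit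 76) (nat_lit 14073111006) (nat_lit 13) (nat_lit 5) (nat_lit 16) (nat_lit 5) (nat_lit 14) (nat_lit 4) (nat_lit 360) (nat_lit 249) (nat_lit 171)) (XT.lf (nat_lit 0) (nat_lit 4451428299) (nat_lit 76) (nat_lit 13375778340) (nat_lit 152) (nat_lit 13662737867) (nat_lit 12) (nat_lit 5) (nat_lit 13) (nat_lit 5) (nat_lit 14) (nat_lit 4) (nat_lit 361) (nat_lit 249) (nat_lit 170)))))) (XT.nd (nat_lit 390) (nat_lit 152) (nat_lit 0) (XT.nd (nat_lit 156) (nat_lit 152) (nat_lit 0) (XT.nd (nat_lit 78) (nat_lit 0) (nat_lit 0) (XT.lf (nat_lit 0) (nat_lit 11138897889) (nat_lit 76) (nat_lit 10031430835) (nat_lit 152) (nat_lit 11145654124) (nat_lit 12) (nat_lit 5) (nat_lit 13) (nat_lit 5) (nat_lit 14) (nat_lit 4) (nat_lit 362) (nat_lit 249) (nat_lit 169)) (XT.lf (nat_lit 0) (nat_lit 17996457185) (nat_lit 76) (nat_lit 6599360236) (nat_lit 152) (nat_lit 8571540027) (nat_lit 12) (nat_lit 5) (nat_lit 13) (nat_lit 5)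 (nat_lit 14) (nat_lit 4) (nat_lit 363) (nat_lit 249) (nat_lit 168))) (XT.nd (nat_lit 78) (nat_lit 152) (nat_lit 0) (XT.lf (nat_lit 0) (nat_lit 25030098231) (nat_lit 76) (nat_lit 3076567646) (nat_lit 152) (nat_lit 5938146350) (nat_lit 12) (nat_lit 5) (nat_lit 13) (nat_lit 5) (nat_lit 14) (nat_lit 4) (nat_lit 364) (nat_lit 249) (nat_lit 167)) (XT.nd (nat_lit 78) (nat_lit 152) (nat_lit 0) (XT.lf (nat_lit 0) (nat_lit 31711132875) (nat_lit 152) (nat_lit 2708338019) (nat_lit 0) (nat_lit 529487266) (nat_lit 12) (nat_lit 5) (nat_lit 14) (nat_lit 4) (nat_lit 12) (nat_lit 4) (nat_lit 365) (nat_lit 249) (nat_lit 166)) (XT.lf (nat_lit 0) (nat_lit 3802630813) (nat_lit 152) (nat_lit 31671600652) (nat_lit 152) (nat_lit 404497908) (nat_lit 10) (nat_lit 4) (nat_lit 12) (nat_lit 5) (nat_lit 12) (nat_lit 4) (nat_lit 366) (nat_lit 249) (nat_lit 165))))) (XT.nd (nat_lit 234) (nat_lit 76) (nat_lit 0) (XT.nd (nat_lit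 78) (nat_lit 0) (nat_lit 0) (XT.lf (nat_lit 0) (nat_lit 2475913224) (nat_lit 228) (nat_lit 26323966992) (nat_lit 76) (nat_lit 8035469358) (nat_lit 9) (nat_lit 5) (nat_lit 12) (nat_lit 5) (nat_lit 10) (nat_lit 4) (nat_lit 367) (nat_lit 249) (nat_lit 164)) (XT.nd (nat_lit 78) (nat_lit 0) (nat_lit 0) (XT.lf (nat_lit 0) (nat_lit 5418604850) (nat_lit 228) (nat_lit 20430854539) (nat_lit 76) (nat_lit 11971583386) (nat_lit 9) (nat_lit 5) (nat_lit 12) (nat_lit 5) (nat_lit 10) (nat_lit 4) (nat_lit 368) (nat_lit 249) (nat_lit 163)) (XT.lf (nat_lit 0) (nat_lit 8434041463) (nat_lit 228) (nat_lit 14387723598) (nat_lit 76) (nat_lit 16015021845) (nat_lit 9) (nat_lit 5) (nat_lit 12) (nat_lit 5) (nat_lit 10) (nat_lit 4) (nat_lit 369) (nat_lit 249) (nat_lit 162)))) (XT.nd (nat_lit 78) (nat_lit 76) (nat_lit 0) (XT.lf (nat_lit 0) (nat_lit 11524857913) (nat_lit 228) (nat_lit 8189293764) (nat_lit 76) (nat_lit 20169317838)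 (nat_lit 9) (nat_lit 5) (nat_lit 12) (nat_lit 5) (nat_lit 10) (nat_lit 4) (nat_lit 370) (nat_lit 249) (nat_lit 161)) (XT.nd (nat_lit 78) (nat_lit 76) (nat_lit 0) (XT.lf (nat_lit 0) (nat_lit 14693754912) (nat_lit 228) (nat_lit 1830148933) (nat_lit 76) (nat_lit 24438101332) (nat_lit 9) (nat_lit 5) (nat_lit 12) (nat_lit 5) (nat_lit 10) (nat_lit 4) (nat_lit 371) (nat_lit 249) (nat_lit 160)) (XT.lf (nat_lit 0) (nat_lit 4788712457) (nat_lit 76) (nat_lit 13200820975) (nat_lit 152) (nat_lit 24082421909) (nat_lit 8) (nat_lit 5) (nat_lit 9) (nat_lit 5) (nat_lit 10) (nat_lit 4) (nat_lit 372) (nat_lit 249) (nat_lit 159))))))) (XT.nd (nat_lit 858) (nat_lit 76) (nat_lit 0) (XT.nd (nat_lit 390) (nat_lit 152) (nat_lit 0) (XT.nd (nat_lit 156) (nat_lit 0) (nat_lit 0) (XT.nd (nat_lit 78) (nat_lit 0) (nat_lit 0) (XT.lf (nat_lit 0) (nat_lit 11619393358) (nat_lit 76) (nat_lit 9769236317) (nat_lit 152) (nat_lit 21826453499)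 (nat_lit 8) (nat_lit 5) (nat_lit 9) (nat_lit 5) (nat_lit 10) (nat_lit 4) (nat_lit 373) (nat_lit 249) (nat_lit 158)) (XT.lf (nat_lit 0) (nat_lit 18631438774) (nat_lit 76) (nat_lit 6244632314) (nat_lit 152) (nat_lit 19516854716) (nat_lit 8) (nat_lit 5) (nat_lit 9) (nat_lit 5) (nat_lit 10) (nat_lit 4) (nat_lit 374) (nat_lit 249) (nat_lit 157))) (XT.nd (nat_lit 78) (nat_lit 0) (nat_lit 0) (XT.lf (nat_lit 0) (nat_lit 25830975734) (nat_lit 76) (nat_lit 2623929215) (nat_lit 152) (nat_lit 17151607466) (nat_lit 8) (nat_lit 5) (nat_lit 9) (nat_lit 5) (nat_lit 10) (nat_lit 4) (nat_lit 375) (nat_lit 249) (nat_lit 156)) (XT.nd (nat_lit 78) (nat_lit 0) (nat_lit 0) (XT.lf (nat_lit 0) (nat_lit 32138794172) (nat_lit 152) (nat_lit 13643144103) (nat_lit 0) (nat_lit 1074649075) (nat_lit 8) (nat_lit 5) (nat_lit 10) (nat_lit 4) (nat_lit 8) (nat_lit 4) (nat_lit 376) (nat_lit 249) (nat_lit 155)) (XT.lf (nat_lit 0)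 (nat_lit 35946620939) (nat_lit 152) (nat_lit 7374614144) (nat_lit 0) (nat_lit 4822537926) (nat_lit 8) (nat_lit 5) (nat_lit 10) (nat_lit 4) (nat_lit 8) (nat_lit 4) (nat_lit 377) (nat_lit 249) (nat_lit 154))))) (XT.nd (nat_lit 234) (nat_lit 76) (nat_lit 0) (XT.nd (nat_lit 78) (nat_lit 76) (nat_lit 0) (XT.lf (nat_lit 0) (nat_lit 39856489665) (nat_lit 152) (nat_lit 939246636) (nat_lit 0) (nat_lit 8674214501) (nat_lit 8) (nat_lit 5) (nat_lit 10) (nat_lit 4) (nat_lit 8) (nat_lit 4) (nat_lit 378) (nat_lit 249) (nat_lit 153)) (XT.nd (nat_lit 78) (nat_lit 0) (nat_lit 0) (XT.lf (nat_lit 0) (nat_lit 5781397444) (nat_lit 76) (nat_lit 38145993625) (nat_lit 76) (nat_lit 6907221226) (nat_lit 7) (nat_lit 4) (nat_lit 8) (nat_lit 5) (nat_lit 8) (nat_lit 4) (nat_lit 379) (nat_lit 249) (nat_lit 152)) (XT.lf (nat_lit 0) (nat_lit 12702516108) (nat_lit 76) (nat_lit 35415698950) (nat_lit 76) (nat_lit 4122074868) (nat_lit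 7) (nat_lit 4) (nat_lit 8) (nat_lit 5) (nat_lit 8) (nat_lit 4) (nat_lit 380) (nat_lit 249) (nat_lit 151)))) (XT.nd (nat_lit 78) (nat_lit 76) (nat_lit 0) (XT.lf (nat_lit 0) (nat_lit 19811464083) (nat_lit 76) (nat_lit 32611951134) (nat_lit 76) (nat_lit 1265072990) (nat_lit 7) (nat_lit 4) (nat_lit 8) (nat_lit 5) (nat_lit 8) (nat_lit 4) (nat_lit 381) (nat_lit 249) (nat_lit 150)) (XT.nd (nat_lit 78) (nat_lit 0) (nat_lit 0) (XT.lf (nat_lit 0) (nat_lit 1633765677) (nat_lit 152) (nat_lit 28082036792) (nat_lit 76) (nat_lit 25464189565) (nat_lit 6) (nat_lit 5) (nat_lit 8) (nat_lit 5) (nat_lit 7) (nat_lit 4) (nat_lit 382) (nat_lit 249) (nat_lit 149)) (XT.lf (nat_lit 0) (nat_lit 4583330665) (nat_lit 152) (nat_lit 22144616927) (nat_lit 76) (nat_lit 29988251010) (nat_lit 6) (nat_lit 5) (nat_lit 8) (nat_lit 5) (nat_lit 7) (nat_lit 4) (nat_lit 383) (nat_lit 249) (nat_lit 148)))))) (XT.nd (nat_lit 468) (nat_lit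 0) (nat_lit 0) (XT.nd (nat_lit 234) (nat_lit 76) (nat_lit 0) (XT.nd (nat_lit 78) (nat_lit 0) (nat_lit 0) (XT.lf (nat_lit 0) (nat_lit 7610885394) (nat_lit 152) (nat_lit 16047415838) (nat_lit 76) (nat_lit 34640513815) (nat_lit 6) (nat_lit 5) (nat_lit 8) (nat_lit 5) (nat_lit 7) (nat_lit 4) (nat_lit 384) (nat_lit 249) (nat_lit 147)) (XT.nd (nat_lit 78) (nat_lit 0) (nat_lit 0) (XT.lf (nat_lit 0) (nat_lit 10719075300) (nat_lit 152) (nat_lit 9785105873) (nat_lit 76) (nat_lit 39425043066) (nat_lit 6) (nat_lit 5) (nat_lit 8) (nat_lit 5) (nat_lit 7) (nat_lit 4) (nat_lit 385) (nat_lit 249) (nat_lit 146)) (XT.lf (nat_lit 0) (nat_lit 13910616277) (nat_lit 152) (nat_lit 3352215111) (nat_lit 76) (nat_lit 44346019417) (nat_lit 6) (nat_lit 5) (nat_lit 8) (nat_lit 5) (nat_lit 7) (nat_lit 4) (nat_lit 386) (nat_lit 249) (nat_lit 145)))) (XT.nd (nat_lit 78) (nat_lit 0) (nat_lit 0) (XT.lf (nat_lit 0) (nat_lit 3321695667)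 (nat_lit 76) (nat_lit 13898531554) (nat_lit 152) (nat_lit 46117977256) (nat_lit 5) (nat_lit 5) (nat_lit 6) (nat_lit 5) (nat_lit 7) (nat_lit 4) (nat_lit 387) (nat_lit 249) (nat_lit 144)) (XT.nd (nat_lit 78) (nat_lit 0) (nat_lit 0) (XT.lf (nat_lit 0) (nat_lit 10247920497) (nat_lit 76) (nat_lit 10405570397) (nat_lit 152) (nat_lit 44465224721) (nat_lit 5) (nat_lit 5) (nat_lit 6) (nat_lit 5) (nat_lit 7) (nat_lit 4) (nat_lit 388) (nat_lit 249) (nat_lit 143)) (XT.lf (nat_lit 0) (nat_lit 17365795767) (nat_lit 76) (nat_lit 6814746614) (nat_lit 152) (nat_lit 42772383568) (nat_lit 5) (nat_lit 5) (nat_lit 6) (nat_lit 5) (nat_lit 7) (nat_lit 4) (nat_lit 389) (nat_lit 249) (nat_lit 142))))) (XT.nd (nat_lit 234) (nat_lit 0) (nat_lit 0) (XT.nd (nat_lit 78) (nat_lit 0) (nat_lit 0) (XT.lf (nat_lit 0) (nat_lit 24681540978) (nat_lit 76) (nat_lit 3122922592) (nat_lit 152) (nat_lit 41037974617) (nat_lit 5) (nat_lit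 5) (nat_lit 6) (nat_lit 5) (nat_lit 7) (nat_lit 4) (nat_lit 390) (nat_lit 249) (nat_lit 141)) (XT.nd (nat_lit 78) (nat_lit 0) (nat_lit 0) (XT.lf (nat_lit 0) (nat_lit 31534891511) (nat_lit 152) (nat_lit 38593825345) (nat_lit 0) (nat_lit 659992390) (nat_lit 5) (nat_lit 5) (nat_lit 7) (nat_lit 4) (nat_lit 5) (nat_lit 4) (nat_lit 391) (nat_lit 249) (nat_lit 140)) (XT.lf (nat_lit 0) (nat_lit 35399662843) (nat_lit 152) (nat_lit 32905627202) (nat_lit 0) (nat_lit 4487412394) (nat_lit 5) (nat_lit 5) (nat_lit 7) (nat_lit 4) (nat_lit 5) (nat_lit 4) (nat_lit 392) (nat_lit 249) (nat_lit 139)))) (XT.nd (nat_lit 78) (nat_lit 0) (nat_lit 0) (XT.lf (nat_lit 0) (nat_lit 39372135108) (nat_lit 152) (nat_lit 27061313066) (nat_lit 0) (nat_lit 8423621235) (nat_lit 5) (nat_lit 5) (nat_lit 7) (nat_lit 4) (nat_lit 5) (nat_lit 4) (nat_lit 393) (nat_lit 249) (nat_lit 138)) (XT.nd (nat_lit 78) (nat_lit 0) (nat_lit 0) (XT.lf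 (nat_lit 0) (nat_lit 43455779400) (nat_lit 152) (nat_lit 21055776257) (nat_lit 0) (nat_lit 12472058318) (nat_lit 5) (nat_lit 5) (nat_lit 7) (nat_lit 4) (nat_lit 5) (nat_lit 4) (nat_lit 394) (nat_lit 249) (nat_lit 137)) (XT.lf (nat_lit 0) (nat_lit 47654163952) (nat_lit 152) (nat_lit 14883769217) (nat_lit 0) (nat_lit 16636261114) (nat_lit 5) (nat_lit 5) (nat_lit 7) (nat_lit 4) (nat_lit 5) (nat_lit 4) (nat_lit 395) (nat_lit 249) (nat_lit 136))))))))
noncomputable def xc82 : XT := (XT.nd (nat_lit 33072) (nat_lit 0) (nat_lit 3040) (XT.nd (nat_lit 32214) (nat_lit 0) (nat_lit 7220) (XT.nd (nat_lit 31746) (nat_lit 0) (nat_lit 11096) (XT.nd (nat_lit 156) (nat_lit 76) (nat_lit 0) (XT.nd (nat_lit 78) (nat_lit 0) (nat_lit 0) (XT.lf (nat_lit 0) (nat_lit 51970957253) (nat_lit 152) (nat_lit 8539898931) (nat_lit 0) (nat_lit 20919868244) (nat_lit 5) (nat_lit 5) (nat_lit 7) (nat_lit 4) (nat_lit 5) (nat_lit 4)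 (nat_lit 396) (nat_lit 249) (nat_lit 135)) (XT.lf (nat_lit 0) (nat_lit 56409931260) (nat_lit 152) (nat_lit 2018622211) (nat_lit 0) (nat_lit 25326622668) (nat_lit 5) (nat_lit 5) (nat_lit 7) (nat_lit 4) (nat_lit 5) (nat_lit 4) (nat_lit 397) (nat_lit 249) (nat_lit 134))) (XT.nd (nat_lit 31434) (nat_lit 0) (nat_lit 15048) (XT.lf (nat_lit 0) (nat_lit 4779014940) (nat_lit 76) (nat_lit 56241888563) (nat_lit 76) (nat_lit 25127298822) (nat_lit 4) (nat_lit 4) (nat_lit 5) (nat_lit 5) (nat_lit 5) (nat_lit 4) (nat_lit 398) (nat_lit 249) (nat_lit 133)) (XT.nd (nat_lit 78) (nat_lit 0) (nat_lit 0) (XT.lf (nat_lit 0) (nat_lit 619071955) (nat_lit 836) (nat_lit 2221435510) (nat_lit 0) (nat_lit 619071955) (nat_lit 202) (nat_lit 5) (nat_lit 213) (nat_lit 4) (nat_lit 202) (nat_lit 4) (nat_lit 280) (nat_lit 250) (nat_lit 250)) (XT.lf (nat_lit 0) (nat_lit 4166500812) (nat_lit 836) (nat_lit 379329041) (nat_lit 0) (nat_lit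 2424111274) (nat_lit 202) (nat_lit 5) (nat_lit 213) (nat_lit 4) (nat_lit 202) (nat_lit 4) (nat_lit 281) (nat_lit 250) (nat_lit 249))))) (XT.nd (nat_lit 234) (nat_lit 2128) (nat_lit 0) (XT.nd (nat_lit 78) (nat_lit 912) (nat_lit 0) (XT.lf (nat_lit 0) (nat_lit 102466313) (nat_lit 912) (nat_lit 3226023247) (nat_lit 76) (nat_lit 3695661176) (nat_lit 190) (nat_lit 5) (nat_lit 202) (nat_lit 5) (nat_lit 191) (nat_lit 4) (nat_lit 282) (nat_lit 250) (nat_lit 248)) (XT.nd (nat_lit 78) (nat_lit 0) (nat_lit 0) (XT.lf (nat_lit 0) (nat_lit 936918859) (nat_lit 912) (nat_lit 2025306743) (nat_lit 988) (nat_lit 4119533021) (nat_lit 178) (nat_lit 5) (nat_lit 190) (nat_lit 5) (nat_lit 191) (nat_lit 4) (nat_lit 283) (nat_lit 250) (nat_lit 247)) (XT.lf (nat_lit 0) (nat_lit 5209306288) (nat_lit 912) (nat_lit 643028024) (nat_lit 988) (nat_lit 1290710481) (nat_lit 178) (nat_lit 5) (nat_lit 190) (nat_lit 5) (nat_lit 191)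 (nat_lit 4) (nat_lit 284) (nat_lit 250) (nat_lit 246)))) (XT.nd (nat_lit 78) (nat_lit 1064) (nat_lit 0) (XT.lf (nat_lit 0) (nat_lit 1535282977) (nat_lit 1064) (nat_lit 4863009441) (nat_lit 76) (nat_lit 809360094) (nat_lit 164) (nat_lit 5) (nat_lit 178) (nat_lit 5) (nat_lit 165) (nat_lit 4) (nat_lit 285) (nat_lit 250) (nat_lit 245)) (XT.nd (nat_lit 78) (nat_lit 1064) (nat_lit 0) (XT.lf (nat_lit 0) (nat_lit 4361417319) (nat_lit 1064) (nat_lit 585180534) (nat_lit 76) (nat_lit 2329240551) (nat_lit 164) (nat_lit 5) (nat_lit 178) (nat_lit 5) (nat_lit 165) (nat_lit 4) (nat_lit 286) (nat_lit 250) (nat_lit 244)) (XT.lf (nat_lit 0) (nat_lit 3814599960) (nat_lit 1064) (nat_lit 3412089593) (nat_lit 1140) (nat_lit 121004474) (nat_lit 150) (nat_lit 5) (nat_lit 164) (nat_lit 5) (nat_lit 165) (nat_lit 4) (nat_lit 287) (nat_lit 250) (nat_lit 243)))))) (XT.nd (nat_lit 390) (nat_lit 1976) (nat_lit 0) (XT.nd (nat_lit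 156) (nat_lit 1140) (nat_lit 0) (XT.nd (nat_lit 78) (nat_lit 0) (nat_lit 0) (XT.lf (nat_lit 0) (nat_lit 844880999) (nat_lit 684) (nat_lit 1789911589) (nat_lit 760) (nat_lit 4788387196) (nat_lit 140) (nat_lit 5) (nat_lit 149) (nat_lit 5) (nat_lit 150) (nat_lit 5) (nat_lit 288) (nat_lit 250) (nat_lit 242)) (XT.lf (nat_lit 0) (nat_lit 5344307064) (nat_lit 684) (nat_lit 82063353) (nat_lit 760) (nat_lit 2076090736) (nat_lit 140) (nat_lit 5) (nat_lit 149) (nat_lit 5) (nat_lit 150) (nat_lit 5) (nat_lit 289) (nat_lit 250) (nat_lit 241))) (XT.nd (nat_lit 78) (nat_lit 532) (nat_lit 0) (XT.lf (nat_lit 0) (nat_lit 663802671) (nat_lit 608) (nat_lit 5249117500) (nat_lit 76) (nat_lit 1672406712) (nat_lit 132) (nat_lit 5) (nat_lit 140) (nat_lit 5) (nat_lit 133) (nat_lit 5) (nat_lit 290) (nat_lit 250) (nat_lit 240)) (XT.nd (nat_lit 78) (nat_lit 532) (nat_lit 0) (XT.lf (nat_lit 0) (nat_lit 3389706449) (nat_lit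 608) (nat_lit 764199726) (nat_lit 76) (nat_lit 3518002888) (nat_lit 132) (nat_lit 5) (nat_lit 140) (nat_lit 5) (nat_lit 133) (nat_lit 5) (nat_lit 291) (nat_lit 250) (nat_lit 239)) (XT.lf (nat_lit 0) (nat_lit 3850564049) (nat_lit 532) (nat_lit 2308807683) (nat_lit 608) (nat_lit 1603064595) (nat_lit 125) (nat_lit 5) (nat_lit 132) (nat_lit 5) (nat_lit 133) (nat_lit 5) (nat_lit 292) (nat_lit 250) (nat_lit 238))))) (XT.nd (nat_lit 234) (nat_lit 988) (nat_lit 0) (XT.nd (nat_lit 78) (nat_lit 456) (nat_lit 0) (XT.lf (nat_lit 0) (nat_lit 685434879) (nat_lit 456) (nat_lit 388298221) (nat_lit 532) (nat_lit 6783612516) (nat_lit 118) (nat_lit 5) (nat_lit 124) (nat_lit 5) (nat_lit 125) (nat_lit 5) (nat_lit 293) (nat_lit 250) (nat_lit 237)) (XT.nd (nat_lit 78) (nat_lit 456) (nat_lit 0) (XT.lf (nat_lit 0) (nat_lit 3780597087) (nat_lit 532) (nat_lit 2566873818) (nat_lit 76) (nat_lit 1607885222) (nat_lit 118)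 (nat_lit 5) (nat_lit 125) (nat_lit 5) (nat_lit 119) (nat_lit 5) (nat_lit 294) (nat_lit 250) (nat_lit 236)) (XT.lf (nat_lit 0) (nat_lit 2134250492) (nat_lit 456) (nat_lit 4387715240) (nat_lit 532) (nat_lit 1535926311) (nat_lit 112) (nat_lit 5) (nat_lit 118) (nat_lit 5) (nat_lit 119) (nat_lit 5) (nat_lit 295) (nat_lit 250) (nat_lit 235)))) (XT.nd (nat_lit 78) (nat_lit 912) (nat_lit 0) (XT.lf (nat_lit 0) (nat_lit 1114564181) (nat_lit 532) (nat_lit 1225980939) (nat_lit 76) (nat_lit 5824124741) (nat_lit 111) (nat_lit 5) (nat_lit 118) (nat_lit 5) (nat_lit 112) (nat_lit 5) (nat_lit 296) (nat_lit 250) (nat_lit 234)) (XT.nd (nat_lit 78) (nat_lit 456) (nat_lit 0) (XT.lf (nat_lit 0) (nat_lit 3589126451) (nat_lit 456) (nat_lit 190512268) (nat_lit 532) (nat_lit 4495746315) (nat_lit 105) (nat_lit 5) (nat_lit 111) (nat_lit 5) (nat_lit 112) (nat_lit 5) (nat_lit 297) (nat_lit 250) (nat_lit 233)) (XT.lf (nat_lit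 0) (nat_lit 87263034) (nat_lit 456) (nat_lit 6402792169) (nat_lit 532) (nat_lit 1900568294) (nat_lit 99) (nat_lit 5) (nat_lit 105) (nat_lit 5) (nat_lit 106) (nat_lit 5) (nat_lit 298) (nat_lit 250) (nat_lit 232))))))) (XT.nd (nat_lit 858) (nat_lit 1824) (nat_lit 0) (XT.nd (nat_lit 390) (nat_lit 1444) (nat_lit 0) (XT.nd (nat_lit 156) (nat_lit 456) (nat_lit 0) (XT.nd (nat_lit 78) (nat_lit 380) (nat_lit 0) (XT.lf (nat_lit 0) (nat_lit 740054740) (nat_lit 532) (nat_lit 3497962095) (nat_lit 76) (nat_lit 4271753761) (nat_lit 98) (nat_lit 5) (nat_lit 105) (nat_lit 5) (nat_lit 99) (nat_lit 5) (nat_lit 299) (nat_lit 250) (nat_lit 231)) (XT.lf (nat_lit 0) (nat_lit 1381747029) (nat_lit 380) (nat_lit 1988170375) (nat_lit 456) (nat_lit 5263713214) (nat_lit 93) (nat_lit 5) (nat_lit 98) (nat_lit 5) (nat_lit 99) (nat_lit 5) (nat_lit 300) (nat_lit 250) (nat_lit 230))) (XT.nd (nat_lit 78) (nat_lit 456) (nat_lit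 0) (XT.lf (nat_lit 0) (nat_lit 6053475251) (nat_lit 456) (nat_lit 2363274847) (nat_lit 76) (nat_lit 345357657) (nat_lit 93) (nat_lit 5) (nat_lit 99) (nat_lit 5) (nat_lit 94) (nat_lit 5) (nat_lit 301) (nat_lit 250) (nat_lit 229)) (XT.nd (nat_lit 78) (nat_lit 76) (nat_lit 0) (XT.lf (nat_lit 0) (nat_lit 2626703184) (nat_lit 380) (nat_lit 6173598959) (nat_lit 456) (nat_lit 94795253) (nat_lit 88) (nat_lit 5) (nat_lit 93) (nat_lit 5) (nat_lit 94) (nat_lit 5) (nat_lit 302) (nat_lit 250) (nat_lit 228)) (XT.lf (nat_lit 0) (nat_lit 2509040163) (nat_lit 456) (nat_lit 1319210611) (nat_lit 76) (nat_lit 5204341799) (nat_lit 87) (nat_lit 5) (nat_lit 93) (nat_lit 5) (nat_lit 88) (nat_lit 5) (nat_lit 303) (nat_lit 250) (nat_lit 227))))) (XT.nd (nat_lit 234) (nat_lit 608) (nat_lit 0) (XT.nd (nat_lit 78) (nat_lit 456) (nat_lit 0) (XT.lf (nat_lit 0) (nat_lit 3775978736) (nat_lit 380) (nat_lit 1389372631) (nat_lit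 456) (nat_lit 4009674194) (nat_lit 82) (nat_lit 5) (nat_lit 87) (nat_lit 5) (nat_lit 88) (nat_lit 5) (nat_lit 304) (nat_lit 250) (nat_lit 226)) (XT.nd (nat_lit 78) (nat_lit 456) (nat_lit 0) (XT.lf (nat_lit 0) (nat_lit 7866449823) (nat_lit 456) (nat_lit 357412553) (nat_lit 76) (nat_lit 1099041553) (nat_lit 82) (nat_lit 5) (nat_lit 88) (nat_lit 5) (nat_lit 83) (nat_lit 5) (nat_lit 305) (nat_lit 250) (nat_lit 225)) (XT.lf (nat_lit 0) (nat_lit 1153253101) (nat_lit 456) (nat_lit 4644360196) (nat_lit 76) (nat_lit 3677301505) (nat_lit 76) (nat_lit 5) (nat_lit 82) (nat_lit 5) (nat_lit 77) (nat_lit 5) (nat_lit 306) (nat_lit 250) (nat_lit 224)))) (XT.nd (nat_lit 78) (nat_lit 304) (nat_lit 0) (XT.lf (nat_lit 0) (nat_lit 470301523) (nat_lit 304) (nat_lit 3292711314) (nat_lit 380) (nat_lit 5869624210) (nat_lit 72) (nat_lit 5) (nat_lit 76) (nat_lit 5) (nat_lit 77) (nat_lit 5) (nat_lit 307) (nat_lit 250) (nat_lit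 223)) (XT.nd (nat_lit 78) (nat_lit 304) (nat_lit 0) (XT.lf (nat_lit 0) (nat_lit 5759809261) (nat_lit 304) (nat_lit 681978521) (nat_lit 380) (nat_lit 3353692858) (nat_lit 72) (nat_lit 5) (nat_lit 76) (nat_lit 5) (nat_lit 77) (nat_lit 5) (nat_lit 308) (nat_lit 250) (nat_lit 222)) (XT.lf (nat_lit 0) (nat_lit 1175202837) (nat_lit 304) (nat_lit 8001608386) (nat_lit 380) (nat_lit 787229872) (nat_lit 68) (nat_lit 5) (nat_lit 72) (nat_lit 5) (nat_lit 73) (nat_lit 5) (nat_lit 309) (nat_lit 250) (nat_lit 221)))))) (XT.nd (nat_lit 468) (nat_lit 836) (nat_lit 0) (XT.nd (nat_lit 234) (nat_lit 608) (nat_lit 0) (XT.nd (nat_lit 78) (nat_lit 304) (nat_lit 0) (XT.lf (nat_lit 0) (nat_lit 1813469332) (nat_lit 380) (nat_lit 3610000711) (nat_lit 76) (nat_lit 4713951010) (nat_lit 67) (nat_lit 5) (nat_lit 72) (nat_lit 5) (nat_lit 68) (nat_lit 5) (nat_lit 310) (nat_lit 250) (nat_lit 220)) (XT.nd (nat_lit 78) (nat_lit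 0) (nat_lit 0) (XT.lf (nat_lit 0) (nat_lit 1677593434) (nat_lit 304) (nat_lit 2762041229) (nat_lit 380) (nat_lit 5877334823) (nat_lit 63) (nat_lit 5) (nat_lit 67) (nat_lit 5) (nat_lit 68) (nat_lit 5) (nat_lit 311) (nat_lit 250) (nat_lit 219)) (XT.lf (nat_lit 0) (nat_lit 7126968289) (nat_lit 304) (nat_lit 2070753) (nat_lit 380) (nat_lit 3373427761) (nat_lit 63) (nat_lit 5) (nat_lit 67) (nat_lit 5) (nat_lit 68) (nat_lit 5) (nat_lit 312) (nat_lit 250) (nat_lit 218)))) (XT.nd (nat_lit 78) (nat_lit 304) (nat_lit 0) (XT.lf (nat_lit 0) (nat_lit 1987556246) (nat_lit 304) (nat_lit 7907320258) (nat_lit 380) (nat_lit 798873265) (nat_lit 59) (nat_lit 5) (nat_lit 63) (nat_lit 5) (nat_lit 64) (nat_lit 5) (nat_lit 313) (nat_lit 250) (nat_lit 217)) (XT.nd (nat_lit 78) (nat_lit 228) (nat_lit 0) (XT.lf (nat_lit 0) (nat_lit 1800768317) (nat_lit 380) (nat_lit 3397841185) (nat_lit 76) (nat_lit 5692195058) (nat_lit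 58) (nat_lit 5) (nat_lit 63) (nat_lit 5) (nat_lit 59) (nat_lit 5) (nat_lit 314) (nat_lit 250) (nat_lit 216)) (XT.lf (nat_lit 0) (nat_lit 2032959108) (nat_lit 228) (nat_lit 2399958192) (nat_lit 304) (nat_lit 6661584507) (nat_lit 55) (nat_lit 5) (nat_lit 58) (nat_lit 5) (nat_lit 59) (nat_lit 5) (nat_lit 315) (nat_lit 250) (nat_lit 215))))) (XT.nd (nat_lit 234) (nat_lit 456) (nat_lit 0) (XT.nd (nat_lit 78) (nat_lit 380) (nat_lit 0) (XT.lf (nat_lit 0) (nat_lit 7134938506) (nat_lit 304) (nat_lit 3681154543) (nat_lit 76) (nat_lit 488572550) (nat_lit 55) (nat_lit 5) (nat_lit 59) (nat_lit 5) (nat_lit 56) (nat_lit 5) (nat_lit 316) (nat_lit 250) (nat_lit 214)) (XT.nd (nat_lit 78) (nat_lit 76) (nat_lit 0) (XT.lf (nat_lit 0) (nat_lit 1804889137) (nat_lit 304) (nat_lit 8107269033) (nat_lit 380) (nat_lit 1609232442) (nat_lit 51) (nat_lit 5) (nat_lit 55) (nat_lit 5) (nat_lit 56) (nat_lit 5) (nat_lit 317) (nat_lit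 250) (nat_lit 213)) (XT.lf (nat_lit 0) (nat_lit 998776159) (nat_lit 380) (nat_lit 4290340491) (nat_lit 76) (nat_lit 6455557262) (nat_lit 50) (nat_lit 5) (nat_lit 55) (nat_lit 5) (nat_lit 51) (nat_lit 5) (nat_lit 318) (nat_lit 250) (nat_lit 212)))) (XT.nd (nat_lit 78) (nat_lit 228) (nat_lit 0) (XT.lf (nat_lit 0) (nat_lit 1241300471) (nat_lit 228) (nat_lit 2377895340) (nat_lit 304) (nat_lit 8356060083) (nat_lit 47) (nat_lit 5) (nat_lit 50) (nat_lit 5) (nat_lit 51) (nat_lit 5) (nat_lit 319) (nat_lit 250) (nat_lit 211)) (XT.nd (nat_lit 78) (nat_lit 228) (nat_lit 0) (XT.lf (nat_lit 0) (nat_lit 6323033856) (nat_lit 304) (nat_lit 5257181898) (nat_lit 76) (nat_lit 632466883) (nat_lit 47) (nat_lit 5) (nat_lit 51) (nat_lit 5) (nat_lit 48) (nat_lit 5) (nat_lit 320) (nat_lit 250) (nat_lit 210)) (XT.lf (nat_lit 0) (nat_lit 302002155) (nat_lit 228) (nat_lit 8788826224) (nat_lit 304) (nat_lit 3366987953) (nat_lit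 44) (nat_lit 5) (nat_lit 47) (nat_lit 5) (nat_lit 48) (nat_lit 5) (nat_lit 321) (nat_lit 250) (nat_lit 209))))))))
noncomputable def xc83 : XT := (XT.nd (nat_lit 1716) (nat_lit 684) (nat_lit 0) (XT.nd (nat_lit 858) (nat_lit 760) (nat_lit 0) (XT.nd (nat_lit 390) (nat_lit 456) (nat_lit 0) (XT.nd (nat_lit 156) (nat_lit 456) (nat_lit 0) (XT.nd (nat_lit 78) (nat_lit 76) (nat_lit 0) (XT.lf (nat_lit 0) (nat_lit 6072116323) (nat_lit 228) (nat_lit 5879681010) (nat_lit 304) (nat_lit 758269860) (nat_lit 44) (nat_lit 5) (nat_lit 47) (nat_lit 5) (nat_lit 48) (nat_lit 5) (nat_lit 322) (nat_lit 250) (nat_lit 208)) (XT.lf (nat_lit 0) (nat_lit 1848900975) (nat_lit 304) (nat_lit 1035754118) (nat_lit 76) (nat_lit 10086002974) (nat_lit 43) (nat_lit 5) (nat_lit 47) (nat_lit 5) (nat_lit 44) (nat_lit 5) (nat_lit 323) (nat_lit 250) (nat_lit 207))) (XT.nd (nat_lit 78) (nat_lit 228) (nat_lit 0) (XT.lf (nat_lit 0) (nat_lit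 4526109471) (nat_lit 304) (nat_lit 8481990400) (nat_lit 76) (nat_lit 230591332) (nat_lit 40) (nat_lit 5) (nat_lit 44) (nat_lit 5) (nat_lit 41) (nat_lit 5) (nat_lit 324) (nat_lit 250) (nat_lit 206)) (XT.nd (nat_lit 78) (nat_lit 228) (nat_lit 0) (XT.lf (nat_lit 0) (nat_lit 7282235505) (nat_lit 304) (nat_lit 2860274087) (nat_lit 76) (nat_lit 3372357560) (nat_lit 40) (nat_lit 5) (nat_lit 44) (nat_lit 5) (nat_lit 41) (nat_lit 5) (nat_lit 325) (nat_lit 250) (nat_lit 205)) (XT.lf (nat_lit 0) (nat_lit 2927690148) (nat_lit 228) (nat_lit 7182155884) (nat_lit 304) (nat_lit 3689876441) (nat_lit 37) (nat_lit 5) (nat_lit 40) (nat_lit 5) (nat_lit 41) (nat_lit 5) (nat_lit 326) (nat_lit 250) (nat_lit 204))))) (XT.nd (nat_lit 234) (nat_lit 228) (nat_lit 0) (XT.nd (nat_lit 78) (nat_lit 228) (nat_lit 0) (XT.lf (nat_lit 0) (nat_lit 8888976440) (nat_lit 228) (nat_lit 4123428783) (nat_lit 304) (nat_lit 1081071044)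 (nat_lit 37) (nat_lit 5) (nat_lit 40) (nat_lit 5) (nat_lit 41) (nat_lit 5) (nat_lit 327) (nat_lit 250) (nat_lit 203)) (XT.nd (nat_lit 78) (nat_lit 0) (nat_lit 0) (XT.lf (nat_lit 0) (nat_lit 570714134) (nat_lit 152) (nat_lit 971371498) (nat_lit 228) (nat_lit 12854524312) (nat_lit 34) (nat_lit 5) (nat_lit 36) (nat_lit 5) (nat_lit 37) (nat_lit 5) (nat_lit 328) (nat_lit 250) (nat_lit 202)) (XT.lf (nat_lit 0) (nat_lit 4259459196) (nat_lit 228) (nat_lit 8172943505) (nat_lit 76) (nat_lit 2275047934) (nat_lit 34) (nat_lit 5) (nat_lit 37) (nat_lit 5) (nat_lit 35) (nat_lit 5) (nat_lit 329) (nat_lit 250) (nat_lit 201)))) (XT.nd (nat_lit 78) (nat_lit 228) (nat_lit 0) (XT.lf (nat_lit 0) (nat_lit 7031373432) (nat_lit 228) (nat_lit 2416776575) (nat_lit 76) (nat_lit 5580326088) (nat_lit 34) (nat_lit 5) (nat_lit 37) (nat_lit 5) (nat_lit 35) (nat_lit 5) (nat_lit 330) (nat_lit 250) (nat_lit 200)) (XT.nd (nat_lit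 78) (nat_lit 0) (nat_lit 0) (XT.lf (nat_lit 0) (nat_lit 3525772580) (nat_lit 228) (nat_lit 6359032284) (nat_lit 304) (nat_lit 5474425331) (nat_lit 31) (nat_lit 5) (nat_lit 34) (nat_lit 5) (nat_lit 35) (nat_lit 5) (nat_lit 331) (nat_lit 250) (nat_lit 199)) (XT.lf (nat_lit 0) (nat_lit 9641576683) (nat_lit 228) (nat_lit 3171645571) (nat_lit 304) (nat_lit 2887050426) (nat_lit 31) (nat_lit 5) (nat_lit 34) (nat_lit 5) (nat_lit 35) (nat_lit 5) (nat_lit 332) (nat_lit 250) (nat_lit 198)))))) (XT.nd (nat_lit 390) (nat_lit 380) (nat_lit 0) (XT.nd (nat_lit 156) (nat_lit 152) (nat_lit 0) (XT.nd (nat_lit 78) (nat_lit 228) (nat_lit 0) (XT.lf (nat_lit 0) (nat_lit 15796378640) (nat_lit 304) (nat_lit 165619432) (nat_lit 76) (nat_lit 90587651) (nat_lit 31) (nat_lit 5) (nat_lit 35) (nat_lit 5) (nat_lit 32) (nat_lit 4) (nat_lit 333) (nat_lit 250) (nat_lit 197)) (XT.lf (nat_lit 0) (nat_lit 2461465740) (nat_lit 228)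 (nat_lit 10501587595) (nat_lit 76) (nat_lit 3450077051) (nat_lit 28) (nat_lit 5) (nat_lit 31) (nat_lit 5) (nat_lit 29) (nat_lit 5) (nat_lit 334) (nat_lit 250) (nat_lit 196))) (XT.nd (nat_lit 78) (nat_lit 152) (nat_lit 0) (XT.lf (nat_lit 0) (nat_lit 5224122462) (nat_lit 228) (nat_lit 4665056132) (nat_lit 76) (nat_lit 6896220580) (nat_lit 28) (nat_lit 5) (nat_lit 31) (nat_lit 5) (nat_lit 29) (nat_lit 5) (nat_lit 335) (nat_lit 250) (nat_lit 195)) (XT.nd (nat_lit 78) (nat_lit 0) (nat_lit 0) (XT.lf (nat_lit 0) (nat_lit 1321408587) (nat_lit 152) (nat_lit 6728830380) (nat_lit 228) (nat_lit 9119220416) (nat_lit 26) (nat_lit 5) (nat_lit 28) (nat_lit 5) (nat_lit 29) (nat_lit 5) (nat_lit 336) (nat_lit 250) (nat_lit 194)) (XT.lf (nat_lit 0) (nat_lit 7532647690) (nat_lit 152) (nat_lit 3443927745) (nat_lit 228) (nat_lit 6588042445) (nat_lit 26) (nat_lit 5) (nat_lit 28) (nat_lit 5) (nat_lit 29) (nat_lit 5)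 (nat_lit 337) (nat_lit 250) (nat_lit 193))))) (XT.nd (nat_lit 234) (nat_lit 152) (nat_lit 0) (XT.nd (nat_lit 78) (nat_lit 228) (nat_lit 0) (XT.lf (nat_lit 0) (nat_lit 13881244706) (nat_lit 152) (nat_lit 78708305) (nat_lit 228) (nat_lit 4012639008) (nat_lit 26) (nat_lit 5) (nat_lit 28) (nat_lit 5) (nat_lit 29) (nat_lit 5) (nat_lit 338) (nat_lit 250) (nat_lit 192)) (XT.nd (nat_lit 78) (nat_lit 76) (nat_lit 0) (XT.lf (nat_lit 0) (nat_lit 1985357873) (nat_lit 152) (nat_lit 15069097411) (nat_lit 228) (nat_lit 1337738702) (nat_lit 24) (nat_lit 5) (nat_lit 26) (nat_lit 5) (nat_lit 27) (nat_lit 4) (nat_lit 339) (nat_lit 250) (nat_lit 191)) (XT.lf (nat_lit 0) (nat_lit 1402315198) (nat_lit 228) (nat_lit 10558197834) (nat_lit 76) (nat_lit 6863120428) (nat_lit 23) (nat_lit 5) (nat_lit 26) (nat_lit 5) (nat_lit 24) (nat_lit 5) (nat_lit 340) (nat_lit 250) (nat_lit 190)))) (XT.nd (nat_lit 78) (nat_lit 152)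 (nat_lit 0) (XT.lf (nat_lit 0) (nat_lit 4168617864) (nat_lit 228) (nat_lit 4594406258) (nat_lit 76) (nat_lit 10505500755) (nat_lit 23) (nat_lit 5) (nat_lit 26) (nat_lit 5) (nat_lit 24) (nat_lit 5) (nat_lit 341) (nat_lit 250) (nat_lit 189)) (XT.nd (nat_lit 78) (nat_lit 0) (nat_lit 0) (XT.lf (nat_lit 0) (nat_lit 1532513718) (nat_lit 152) (nat_lit 5471908293) (nat_lit 228) (nat_lit 12722778796) (nat_lit 21) (nat_lit 5) (nat_lit 23) (nat_lit 5) (nat_lit 24) (nat_lit 5) (nat_lit 342) (nat_lit 250) (nat_lit 188)) (XT.lf (nat_lit 0) (nat_lit 7892179854) (nat_lit 152) (nat_lit 2051682884) (nat_lit 228) (nat_lit 10255249579) (nat_lit 21) (nat_lit 5) (nat_lit 23) (nat_lit 5) (nat_lit 24) (nat_lit 5) (nat_lit 343) (nat_lit 250) (nat_lit 187))))))) (XT.nd (nat_lit 858) (nat_lit 304) (nat_lit 0) (XT.nd (nat_lit 390) (nat_lit 228) (nat_lit 0) (XT.nd (nat_lit 156) (nat_lit 152) (nat_lit 0) (XT.nd (nat_lit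 78) (nat_lit 0) (nat_lit 0) (XT.lf (nat_lit 0) (nat_lit 12958444392) (nat_lit 228) (nat_lit 6301290714) (nat_lit 76) (nat_lit 1425868575) (nat_lit 21) (nat_lit 5) (nat_lit 24) (nat_lit 5) (nat_lit 22) (nat_lit 4) (nat_lit 344) (nat_lit 250) (nat_lit 186)) (XT.lf (nat_lit 0) (nat_lit 16057385071) (nat_lit 228) (nat_lit 179098187) (nat_lit 76) (nat_lit 4950419210) (nat_lit 21) (nat_lit 5) (nat_lit 24) (nat_lit 5) (nat_lit 22) (nat_lit 4) (nat_lit 345) (nat_lit 250) (nat_lit 185))) (XT.nd (nat_lit 78) (nat_lit 76) (nat_lit 0) (XT.lf (nat_lit 0) (nat_lit 6205814427) (nat_lit 76) (nat_lit 13077510213) (nat_lit 152) (nat_lit 2418924106) (nat_lit 20) (nat_lit 5) (nat_lit 21) (nat_lit 5) (nat_lit 22) (nat_lit 4) (nat_lit 346) (nat_lit 250) (nat_lit 184)) (XT.nd (nat_lit 78) (nat_lit 0) (nat_lit 0) (XT.lf (nat_lit 0) (nat_lit 341979522) (nat_lit 152) (nat_lit 9492826335) (nat_lit 76) (nat_lit 12398881624)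 (nat_lit 19) (nat_lit 5) (nat_lit 21) (nat_lit 5) (nat_lit 20) (nat_lit 5) (nat_lit 347) (nat_lit 250) (nat_lit 183)) (XT.lf (nat_lit 0) (nat_lit 3112281030) (nat_lit 152) (nat_lit 3373999321) (nat_lit 76) (nat_lit 16294841819) (nat_lit 19) (nat_lit 5) (nat_lit 21) (nat_lit 5) (nat_lit 20) (nat_lit 5) (nat_lit 348) (nat_lit 250) (nat_lit 182))))) (XT.nd (nat_lit 234) (nat_lit 76) (nat_lit 0) (XT.nd (nat_lit 78) (nat_lit 0) (nat_lit 0) (XT.lf (nat_lit 0) (nat_lit 2946135156) (nat_lit 152) (nat_lit 3023787887) (nat_lit 228) (nat_lit 17374956076) (nat_lit 17) (nat_lit 5) (nat_lit 19) (nat_lit 5) (nat_lit 20) (nat_lit 5) (nat_lit 349) (nat_lit 250) (nat_lit 181)) (XT.nd (nat_lit 78) (nat_lit 0) (nat_lit 0) (XT.lf (nat_lit 0) (nat_lit 8929002843) (nat_lit 228) (nat_lit 14444988104) (nat_lit 76) (nat_lit 551111975) (nat_lit 17) (nat_lit 5) (nat_lit 20) (nat_lit 5) (nat_lit 18) (nat_lit 4) (nat_lit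 350) (nat_lit 250) (nat_lit 180)) (XT.lf (nat_lit 0) (nat_lit 11983574898) (nat_lit 228) (nat_lit 8381340449) (nat_lit 76) (nat_lit 4157641156) (nat_lit 17) (nat_lit 5) (nat_lit 20) (nat_lit 5) (nat_lit 18) (nat_lit 4) (nat_lit 351) (nat_lit 250) (nat_lit 179)))) (XT.nd (nat_lit 78) (nat_lit 76) (nat_lit 0) (XT.lf (nat_lit 0) (nat_lit 15107241753) (nat_lit 228) (nat_lit 2173436166) (nat_lit 76) (nat_lit 7857955986) (nat_lit 17) (nat_lit 5) (nat_lit 20) (nat_lit 5) (nat_lit 18) (nat_lit 4) (nat_lit 352) (nat_lit 250) (nat_lit 178)) (XT.nd (nat_lit 78) (nat_lit 0) (nat_lit 0) (XT.lf (nat_lit 0) (nat_lit 4267421898) (nat_lit 76) (nat_lit 14076331998) (nat_lit 152) (nat_lit 7428888920) (nat_lit 16) (nat_lit 5) (nat_lit 17) (nat_lit 5) (nat_lit 18) (nat_lit 4) (nat_lit 353) (nat_lit 250) (nat_lit 177)) (XT.lf (nat_lit 0) (nat_lit 10909861290) (nat_lit 76) (nat_lit 10767851265) (nat_lit 152) (nat_lit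 4747971474) (nat_lit 16) (nat_lit 5) (nat_lit 17) (nat_lit 5) (nat_lit 18) (nat_lit 4) (nat_lit 354) (nat_lit 250) (nat_lit 176)))))) (XT.nd (nat_lit 468) (nat_lit 76) (nat_lit 0) (XT.nd (nat_lit 234) (nat_lit 0) (nat_lit 0) (XT.nd (nat_lit 78) (nat_lit 228) (nat_lit 0) (XT.lf (nat_lit 0) (nat_lit 17716430441) (nat_lit 76) (nat_lit 7374292258) (nat_lit 152) (nat_lit 2008244706) (nat_lit 16) (nat_lit 5) (nat_lit 17) (nat_lit 5) (nat_lit 18) (nat_lit 4) (nat_lit 355) (nat_lit 250) (nat_lit 175)) (XT.nd (nat_lit 78) (nat_lit 152) (nat_lit 0) (XT.lf (nat_lit 0) (nat_lit 777217170) (nat_lit 152) (nat_lit 3107624192) (nat_lit 76) (nat_lit 23908011300) (nat_lit 15) (nat_lit 5) (nat_lit 17) (nat_lit 5) (nat_lit 16) (nat_lit 5) (nat_lit 356) (nat_lit 250) (nat_lit 174)) (XT.lf (nat_lit 0) (nat_lit 3367827058) (nat_lit 152) (nat_lit 250446133) (nat_lit 228) (nat_lit 24888333007) (nat_lit 13) (nat_lit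 5) (nat_lit 15) (nat_lit 5) (nat_lit 16) (nat_lit 5) (nat_lit 357) (nat_lit 250) (nat_lit 173)))) (XT.nd (nat_lit 78) (nat_lit 0) (nat_lit 0) (XT.lf (nat_lit 0) (nat_lit 6589982477) (nat_lit 228) (nat_lit 19207169285) (nat_lit 76) (nat_lit 3443277397) (nat_lit 13) (nat_lit 5) (nat_lit 16) (nat_lit 5) (nat_lit 14) (nat_lit 4) (nat_lit 358) (nat_lit 250) (nat_lit 172)) (XT.nd (nat_lit 78) (nat_lit 0) (nat_lit 0) (XT.lf (nat_lit 0) (nat_lit 9634054067) (nat_lit 228) (nat_lit 13132805456) (nat_lit 76) (nat_lit 7229929857) (nat_lit 13) (nat_lit 5) (nat_lit 16) (nat_lit 5) (nat_lit 14) (nat_lit 4) (nat_lit 359) (nat_lit 250) (nat_lit 171)) (XT.lf (nat_lit 0) (nat_lit 12750740388) (nat_lit 228) (nat_lit 6907972515) (nat_lit 76) (nat_lit 11117707077) (nat_lit 13) (nat_lit 5) (nat_lit 16) (nat_lit 5) (nat_lit 14) (nat_lit 4) (nat_lit 360) (nat_lit 250) (nat_lit 170))))) (XT.nd (nat_lit 234) (nat_lit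 0) (nat_lit 0) (XT.nd (nat_lit 78) (nat_lit 76) (nat_lit 0) (XT.lf (nat_lit 0) (nat_lit 15942764757) (nat_lit 228) (nat_lit 527231288) (nat_lit 76) (nat_lit 15110006145) (nat_lit 13) (nat_lit 5) (nat_lit 16) (nat_lit 5) (nat_lit 14) (nat_lit 4) (nat_lit 361) (nat_lit 250) (nat_lit 169)) (XT.nd (nat_lit 78) (nat_lit 0) (nat_lit 0) (XT.lf (nat_lit 0) (nat_lit 6134703798) (nat_lit 76) (nat_lit 13137183051) (nat_lit 152) (nat_lit 13134582204) (nat_lit 12) (nat_lit 5) (nat_lit 13) (nat_lit 5) (nat_lit 14) (nat_lit 4) (nat_lit 362) (nat_lit 250) (nat_lit 168)) (XT.lf (nat_lit 0) (nat_lit 12977659631) (nat_lit 76) (nat_lit 9711142071) (nat_lit 152) (nat_lit 10569307438) (nat_lit 12) (nat_lit 5) (nat_lit 13) (nat_lit 5) (nat_lit 14) (nat_lit 4) (nat_lit 363) (nat_lit 250) (nat_lit 167)))) (XT.nd (nat_lit 78) (nat_lit 0) (nat_lit 0) (XT.lf (nat_lit 0) (nat_lit 19997122557) (nat_lit 76) (nat_lit 6194203481)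 (nat_lit 152) (nat_lit 7944495636) (nat_lit 12) (nat_lit 5) (nat_lit 13) (nat_lit 5) (nat_lit 14) (nat_lit 4) (nat_lit 364) (nat_lit 250) (nat_lit 166)) (XT.nd (nat_lit 78) (nat_lit 0) (nat_lit 0) (XT.lf (nat_lit 0) (nat_lit 27199226086) (nat_lit 76) (nat_lit 2583294227) (nat_lit 152) (nat_lit 5257853273) (nat_lit 12) (nat_lit 5) (nat_lit 13) (nat_lit 5) (nat_lit 14) (nat_lit 4) (nat_lit 365) (nat_lit 250) (nat_lit 165)) (XT.lf (nat_lit 0) (nat_lit 33476334164) (nat_lit 152) (nat_lit 1393103641) (nat_lit 0) (nat_lit 1102793107) (nat_lit 12) (nat_lit 5) (nat_lit 14) (nat_lit 4) (nat_lit 12) (nat_lit 4) (nat_lit 366) (nat_lit 250) (nat_lit 164))))))))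
noncomputable def xc84 : XT := (XT.nd (nat_lit 1716) (nat_lit 0) (nat_lit 0) (XT.nd (nat_lit 858) (nat_lit 228) (nat_lit 0) (XT.nd (nat_lit 390) (nat_lit 76) (nat_lit 0) (XT.nd (nat_lit 156) (nat_lit 0) (nat_lit 0) (XT.nd (nat_lit 78) (nat_lit 0) (nat_lit 0) (XT.lf (nat_lit 0) (nat_lit 403649325) (nat_lit 228) (nat_lit 31634684472) (nat_lit 76) (nat_lit 4891777840) (nat_lit 9) (nat_lit 5) (nat_lit 12) (nat_lit 5) (nat_lit 10) (nat_lit 4) (nat_lit 367) (nat_lit 250) (nat_lit 163)) (XT.lf (nat_lit 0) (nat_lit 3338687867) (nat_lit 228) (nat_lit 25754761618) (nat_lit 76) (nat_lit 8822591873) (nat_lit 9) (nat_lit 5) (nat_lit 12) (nat_lit 5) (nat_lit 10) (nat_lit 4) (nat_lit 368) (nat_lit 250) (nat_lit 162))) (XT.nd (nat_lit 78) (nat_lit 0) (nat_lit 0) (XT.lf (nat_lit 0) (nat_lit 6346694302) (nat_lit 228) (nat_lit 19724436113) (nat_lit 76) (nat_lit 12860884706) (nat_lit 9) (nat_lit 5) (nat_lit 12)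 (nat_lit 5) (nat_lit 10) (nat_lit 4) (nat_lit 369) (nat_lit 250) (nat_lit 161)) (XT.nd (nat_lit 78) (nat_lit 0) (nat_lit 0) (XT.lf (nat_lit 0) (nat_lit 9430296986) (nat_lit 228) (nat_lit 13538438741) (nat_lit 76) (nat_lit 17010184946) (nat_lit 9) (nat_lit 5) (nat_lit 12) (nat_lit 5) (nat_lit 10) (nat_lit 4) (nat_lit 370) (nat_lit 250) (nat_lit 160)) (XT.lf (nat_lit 0) (nat_lit 12592190328) (nat_lit 228) (nat_lit 7191364261) (nat_lit 76) (nat_lit 21274118195) (nat_lit 9) (nat_lit 5) (nat_lit 12) (nat_lit 5) (nat_lit 10) (nat_lit 4) (nat_lit 371) (nat_lit 250) (nat_lit 159))))) (XT.nd (nat_lit 234) (nat_lit 0) (nat_lit 0) (XT.nd (nat_lit 78) (nat_lit 76) (nat_lit 0) (XT.lf (nat_lit 0) (nat_lit 15835137149) (nat_lit 228) (nat_lit 677666687) (nat_lit 76) (nat_lit 25656410218) (nat_lit 9) (nat_lit 5) (nat_lit 12) (nat_lit 5) (nat_lit 10) (nat_lit 4) (nat_lit 372) (nat_lit 250) (nat_lit 158)) (XT.nd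 (nat_lit 78) (nat_lit 0) (nat_lit 0) (XT.lf (nat_lit 0) (nat_lit 6127923420) (nat_lit 76) (nat_lit 13092953020) (nat_lit 152) (nat_lit 24091872132) (nat_lit 8) (nat_lit 5) (nat_lit 9) (nat_lit 5) (nat_lit 10) (nat_lit 4) (nat_lit 373) (nat_lit 250) (nat_lit 157)) (XT.lf (nat_lit 0) (nat_lit 13128702916) (nat_lit 76) (nat_lit 9573097305) (nat_lit 152) (nat_lit 21788992313) (nat_lit 8) (nat_lit 5) (nat_lit 9) (nat_lit 5) (nat_lit 10) (nat_lit 4) (nat_lit 374) (nat_lit 250) (nat_lit 156)))) (XT.nd (nat_lit 78) (nat_lit 0) (nat_lit 0) (XT.lf (nat_lit 0) (nat_lit 20317302089) (nat_lit 76) (nat_lit 5957004194) (nat_lit 152) (nat_lit 19430268329) (nat_lit 8) (nat_lit 5) (nat_lit 9) (nat_lit 5) (nat_lit 10) (nat_lit 4) (nat_lit 375) (nat_lit 250) (nat_lit 155)) (XT.nd (nat_lit 78) (nat_lit 0) (nat_lit 0) (XT.lf (nat_lit 0) (nat_lit 27700002241) (nat_lit 76) (nat_lit 2241513996) (nat_lit 152) (nat_lit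 17013639157) (nat_lit 8) (nat_lit 5) (nat_lit 9) (nat_lit 5) (nat_lit 10) (nat_lit 4) (nat_lit 376) (nat_lit 250) (nat_lit 154)) (XT.lf (nat_lit 0) (nat_lit 33721789874) (nat_lit 152) (nat_lit 12975528780) (nat_lit 0) (nat_lit 1545854303) (nat_lit 8) (nat_lit 5) (nat_lit 10) (nat_lit 4) (nat_lit 8) (nat_lit 4) (nat_lit 377) (nat_lit 250) (nat_lit 153)))))) (XT.nd (nat_lit 390) (nat_lit 152) (nat_lit 0) (XT.nd (nat_lit 156) (nat_lit 0) (nat_lit 0) (XT.nd (nat_lit 78) (nat_lit 76) (nat_lit 0) (XT.lf (nat_lit 0) (nat_lit 37625827214) (nat_lit 152) (nat_lit 6550309222) (nat_lit 0) (nat_lit 5393394410) (nat_lit 8) (nat_lit 5) (nat_lit 10) (nat_lit 4) (nat_lit 8) (nat_lit 4) (nat_lit 378) (nat_lit 250) (nat_lit 152)) (XT.lf (nat_lit 0) (nat_lit 48615250) (nat_lit 76) (nat_lit 41587344819) (nat_lit 76) (nat_lit 9300060331) (nat_lit 7) (nat_lit 4) (nat_lit 8) (nat_lit 5) (nat_lit 8) (nat_lit 4) (nat_lit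 379) (nat_lit 250) (nat_lit 151))) (XT.nd (nat_lit 78) (nat_lit 0) (nat_lit 0) (XT.lf (nat_lit 0) (nat_lit 6959978126) (nat_lit 76) (nat_lit 38861215514) (nat_lit 76) (nat_lit 6520676963) (nat_lit 7) (nat_lit 4) (nat_lit 8) (nat_lit 5) (nat_lit 8) (nat_lit 4) (nat_lit 380) (nat_lit 250) (nat_lit 150)) (XT.nd (nat_lit 78) (nat_lit 0) (nat_lit 0) (XT.lf (nat_lit 0) (nat_lit 14059454463) (nat_lit 76) (nat_lit 36061511744) (nat_lit 76) (nat_lit 3669270221) (nat_lit 7) (nat_lit 4) (nat_lit 8) (nat_lit 5) (nat_lit 8) (nat_lit 4) (nat_lit 381) (nat_lit 250) (nat_lit 149)) (XT.lf (nat_lit 0) (nat_lit 21353247687) (nat_lit 76) (nat_lit 33185787169) (nat_lit 76) (nat_lit 743348584) (nat_lit 7) (nat_lit 4) (nat_lit 8) (nat_lit 5) (nat_lit 8) (nat_lit 4) (nat_lit 382) (nat_lit 250) (nat_lit 148))))) (XT.nd (nat_lit 234) (nat_lit 76) (nat_lit 0) (XT.nd (nat_lit 78) (nat_lit 0) (nat_lit 0) (XT.lf (nat_lit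 0) (nat_lit 2215550772) (nat_lit 152) (nat_lit 27993605526) (nat_lit 76) (nat_lit 26609807524) (nat_lit 6) (nat_lit 5) (nat_lit 8) (nat_lit 5) (nat_lit 7) (nat_lit 4) (nat_lit 383) (nat_lit 250) (nat_lit 147)) (XT.nd (nat_lit 78) (nat_lit 0) (nat_lit 0) (XT.lf (nat_lit 0) (nat_lit 5238085075) (nat_lit 152) (nat_lit 21905176435) (nat_lit 76) (nat_lit 31258473562) (nat_lit 6) (nat_lit 5) (nat_lit 8) (nat_lit 5) (nat_lit 7) (nat_lit 4) (nat_lit 384) (nat_lit 250) (nat_lit 146)) (XT.lf (nat_lit 0) (nat_lit 8341400781) (nat_lit 152) (nat_lit 15651382973) (nat_lit 76) (nat_lit 36039510804) (nat_lit 6) (nat_lit 5) (nat_lit 8) (nat_lit 5) (nat_lit 7) (nat_lit 4) (nat_lit 385) (nat_lit 250) (nat_lit 145)))) (XT.nd (nat_lit 78) (nat_lit 76) (nat_lit 0) (XT.lf (nat_lit 0) (nat_lit 11528209525) (nat_lit 152) (nat_lit 9226760661) (nat_lit 76) (nat_lit 40957096857) (nat_lit 6) (nat_lit 5) (nat_lit 8) (nat_lit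 5) (nat_lit 7) (nat_lit 4) (nat_lit 386) (nat_lit 250) (nat_lit 144)) (XT.nd (nat_lit 78) (nat_lit 76) (nat_lit 0) (XT.lf (nat_lit 0) (nat_lit 14801295898) (nat_lit 152) (nat_lit 2625695751) (nat_lit 76) (nat_lit 46015528640) (nat_lit 6) (nat_lit 5) (nat_lit 8) (nat_lit 5) (nat_lit 7) (nat_lit 4) (nat_lit 387) (nat_lit 250) (nat_lit 143)) (XT.lf (nat_lit 0) (nat_lit 4240323666) (nat_lit 76) (nat_lit 13963956796) (nat_lit 152) (nat_lit 47019663061) (nat_lit 5) (nat_lit 5) (nat_lit 6) (nat_lit 5) (nat_lit 7) (nat_lit 4) (nat_lit 388) (nat_lit 250) (nat_lit 142))))))) (XT.nd (nat_lit 32058) (nat_lit 0) (nat_lit 9652) (XT.nd (nat_lit 390) (nat_lit 0) (nat_lit 0) (XT.nd (nat_lit 156) (nat_lit 0) (nat_lit 0) (XT.nd (nat_lit 78) (nat_lit 0) (nat_lit 0) (XT.lf (nat_lit 0) (nat_lit 11350481538) (nat_lit 76) (nat_lit 10376445562) (nat_lit 152) (nat_lit 45331362518) (nat_lit 5) (nat_lit 5) (nat_lit 6)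 (nat_lit 5) (nat_lit 7) (nat_lit 4) (nat_lit 389) (nat_lit 250) (nat_lit 141)) (XT.lf (nat_lit 0) (nat_lit 18658734131) (nat_lit 76) (nat_lit 6687837608) (nat_lit 152) (nat_lit 43601361925) (nat_lit 5) (nat_lit 5) (nat_lit 6) (nat_lit 5) (nat_lit 7) (nat_lit 4) (nat_lit 390) (nat_lit 250) (nat_lit 140))) (XT.nd (nat_lit 78) (nat_lit 0) (nat_lit 0) (XT.lf (nat_lit 0) (nat_lit 26171467297) (nat_lit 76) (nat_lit 2894909878) (nat_lit 152) (nat_lit 41828149632) (nat_lit 5) (nat_lit 5) (nat_lit 6) (nat_lit 5) (nat_lit 7) (nat_lit 4) (nat_lit 391) (nat_lit 250) (nat_lit 139)) (XT.nd (nat_lit 78) (nat_lit 0) (nat_lit 0) (XT.lf (nat_lit 0) (nat_lit 32899260662) (nat_lit 152) (nat_lit 39014191334) (nat_lit 0) (nat_lit 986027947) (nat_lit 5) (nat_lit 5) (nat_lit 7) (nat_lit 4) (nat_lit 5) (nat_lit 4) (nat_lit 392) (nat_lit 250) (nat_lit 138)) (XT.lf (nat_lit 0) (nat_lit 36867790986) (nat_lit 152) (nat_lit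 33176826337) (nat_lit 0) (nat_lit 4919351062) (nat_lit 5) (nat_lit 5) (nat_lit 7) (nat_lit 4) (nat_lit 5) (nat_lit 4) (nat_lit 393) (nat_lit 250) (nat_lit 137))))) (XT.nd (nat_lit 234) (nat_lit 0) (nat_lit 0) (XT.nd (nat_lit 78) (nat_lit 0) (nat_lit 0) (XT.lf (nat_lit 0) (nat_lit 40947608150) (nat_lit 152) (nat_lit 27178036263) (nat_lit 0) (nat_lit 8964986471) (nat_lit 5) (nat_lit 5) (nat_lit 7) (nat_lit 4) (nat_lit 5) (nat_lit 4) (nat_lit 394) (nat_lit 250) (nat_lit 136)) (XT.nd (nat_lit 78) (nat_lit 0) (nat_lit 0) (XT.lf (nat_lit 0) (nat_lit 45142277043) (nat_lit 152) (nat_lit 21012579452) (nat_lit 0) (nat_lit 13126469193) (nat_lit 5) (nat_lit 5) (nat_lit 7) (nat_lit 4) (nat_lit 5) (nat_lit 4) (nat_lit 395) (nat_lit 250) (nat_lit 135)) (XT.lf (nat_lit 0) (nat_lit 49455462909) (nat_lit 152) (nat_lit 14675068612) (nat_lit 0) (nat_lit 17407435476) (nat_lit 5) (nat_lit 5) (nat_lit 7) (nat_lit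 4) (nat_lit 5) (nat_lit 4) (nat_lit 396) (nat_lit 250) (nat_lit 134)))) (XT.nd (nat_lit 78) (nat_lit 0) (nat_lit 0) (XT.lf (nat_lit 0) (nat_lit 53890934552) (nat_lit 152) (nat_lit 8159966111) (nat_lit 0) (nat_lit 21811625970) (nat_lit 5) (nat_lit 5) (nat_lit 7) (nat_lit 4) (nat_lit 5) (nat_lit 4) (nat_lit 397) (nat_lit 250) (nat_lit 133)) (XT.nd (nat_lit 31278) (nat_lit 0) (nat_lit 15808) (XT.lf (nat_lit 0) (nat_lit 58452567627) (nat_lit 152) (nat_lit 1461579141) (nat_lit 0) (nat_lit 26342888997) (nat_lit 5) (nat_lit 5) (nat_lit 7) (nat_lit 4) (nat_lit 5) (nat_lit 4) (nat_lit 398) (nat_lit 250) (nat_lit 132)) (XT.lf (nat_lit 0) (nat_lit 645625701) (nat_lit 684) (nat_lit 1383751240) (nat_lit 684) (nat_lit 1383751240) (nat_lit 213) (nat_lit 4) (nat_lit 222) (nat_lit 5) (nat_lit 222) (nat_lit 4) (nat_lit 278) (nat_lit 251) (nat_lit 251)))))) (XT.nd (nat_lit 468) (nat_lit 3420) (nat_lit 0) (XT.nd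 (nat_lit 234) (nat_lit 1900) (nat_lit 0) (XT.nd (nat_lit 78) (nat_lit 760) (nat_lit 0) (XT.lf (nat_lit 0) (nat_lit 131329391) (nat_lit 760) (nat_lit 1581902394) (nat_lit 76) (nat_lit 5158689528) (nat_lit 212) (nat_lit 5) (nat_lit 222) (nat_lit 5) (nat_lit 213) (nat_lit 4) (nat_lit 279) (nat_lit 251) (nat_lit 250)) (XT.nd (nat_lit 78) (nat_lit 0) (nat_lit 0) (XT.lf (nat_lit 0) (nat_lit 2431123834) (nat_lit 760) (nat_lit 561135336) (nat_lit 836) (nat_lit 3928275034) (nat_lit 202) (nat_lit 5) (nat_lit 212) (nat_lit 5) (nat_lit 213) (nat_lit 4) (nat_lit 280) (nat_lit 251) (nat_lit 249)) (XT.lf (nat_lit 0) (nat_lit 5870620213) (nat_lit 836) (nat_lit 460421379) (nat_lit 0) (nat_lit 641929125) (nat_lit 202) (nat_lit 5) (nat_lit 213) (nat_lit 4) (nat_lit 202) (nat_lit 4) (nat_lit 281) (nat_lit 251) (nat_lit 248)))) (XT.nd (nat_lit 78) (nat_lit 988) (nat_lit 0) (XT.lf (nat_lit 0) (nat_lit 1725296374)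 (nat_lit 912) (nat_lit 3368708697) (nat_lit 76) (nat_lit 1934182151) (nat_lit 190) (nat_lit 5) (nat_lit 202) (nat_lit 5) (nat_lit 191) (nat_lit 4) (nat_lit 282) (nat_lit 251) (nat_lit 247)) (XT.nd (nat_lit 78) (nat_lit 76) (nat_lit 0) (XT.lf (nat_lit 0) (nat_lit 751209819) (nat_lit 912) (nat_lit 3789087426) (nat_lit 988) (nat_lit 2546981870) (nat_lit 178) (nat_lit 5) (nat_lit 190) (nat_lit 5) (nat_lit 191) (nat_lit 4) (nat_lit 283) (nat_lit 251) (nat_lit 246)) (XT.lf (nat_lit 0) (nat_lit 233693038) (nat_lit 988) (nat_lit 2167672651) (nat_lit 76) (nat_lit 4748530902) (nat_lit 177) (nat_lit 5) (nat_lit 190) (nat_lit 5) (nat_lit 178) (nat_lit 5) (nat_lit 284) (nat_lit 251) (nat_lit 245))))) (XT.nd (nat_lit 234) (nat_lit 1292) (nat_lit 0) (XT.nd (nat_lit 78) (nat_lit 1140) (nat_lit 0) (XT.lf (nat_lit 0) (nat_lit 2061968827) (nat_lit 988) (nat_lit 920394824) (nat_lit 1064) (nat_lit 4233461807) (nat_lit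 164) (nat_lit 5) (nat_lit 177) (nat_lit 5) (nat_lit 178) (nat_lit 5) (nat_lit 285) (nat_lit 251) (nat_lit 244)) (XT.nd (nat_lit 78) (nat_lit 1140) (nat_lit 0) (XT.lf (nat_lit 0) (nat_lit 5759101627) (nat_lit 1064) (nat_lit 906993067) (nat_lit 76) (nat_lit 619524050) (nat_lit 164) (nat_lit 5) (nat_lit 178) (nat_lit 5) (nat_lit 165) (nat_lit 4) (nat_lit 286) (nat_lit 251) (nat_lit 243)) (XT.lf (nat_lit 0) (nat_lit 1198731573) (nat_lit 1140) (nat_lit 3923675235) (nat_lit 76) (nat_lit 2236123895) (nat_lit 149) (nat_lit 5) (nat_lit 164) (nat_lit 5) (nat_lit 150) (nat_lit 5) (nat_lit 287) (nat_lit 251) (nat_lit 242)))) (XT.nd (nat_lit 78) (nat_lit 608) (nat_lit 0) (XT.lf (nat_lit 0) (nat_lit 405393723) (nat_lit 684) (nat_lit 3503461792) (nat_lit 760) (nat_lit 3526540259) (nat_lit 140) (nat_lit 5) (nat_lit 149) (nat_lit 5) (nat_lit 150) (nat_lit 5) (nat_lit 288) (nat_lit 251) (nat_lit 241)) (XT.nd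 (nat_lit 78) (nat_lit 608) (nat_lit 0) (XT.lf (nat_lit 0) (nat_lit 4866036819) (nat_lit 684) (nat_lit 1796074917) (nat_lit 760) (nat_lit 853826564) (nat_lit 140) (nat_lit 5) (nat_lit 149) (nat_lit 5) (nat_lit 150) (nat_lit 5) (nat_lit 289) (nat_lit 251) (nat_lit 240)) (XT.lf (nat_lit 0) (nat_lit 1800305528) (nat_lit 532) (nat_lit 2520657) (nat_lit 608) (nat_lit 5797512173) (nat_lit 132) (nat_lit 5) (nat_lit 139) (nat_lit 5) (nat_lit 140) (nat_lit 5) (nat_lit 290) (nat_lit 251) (nat_lit 239))))))))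
noncomputable def xc85 : XT := (XT.nd (nat_lit 1716) (nat_lit 2660) (nat_lit 0) (XT.nd (nat_lit 858) (nat_lit 2280) (nat_lit 0) (XT.nd (nat_lit 390) (nat_lit 1444) (nat_lit 0) (XT.nd (nat_lit 156) (nat_lit 988) (nat_lit 0) (XT.nd (nat_lit 78) (nat_lit 532) (nat_lit 0) (XT.lf (nat_lit 0) (nat_lit 4491745347) (nat_lit 608) (nat_lit 1354420829) (nat_lit 76) (nat_lit 1841965946) (nat_lit 132) (nat_lit 5) (nat_lit 140) (nat_lit 5) (nat_lit 133) (nat_lit 5) (nat_lit 291) (nat_lit 251) (nat_lit 238)) (XT.lf (nat_lit 0) (nat_lit 3209651974) (nat_lit 532) (nat_lit 4009713947) (nat_lit 608) (nat_lit 560653879) (nat_lit 125) (nat_lit 5) (nat_lit 132) (nat_lit 5) (nat_lit 133) (nat_lit 5) (nat_lit 292) (nat_lit 251) (nat_lit 237))) (XT.nd (nat_lit 78) (nat_lit 912) (nat_lit 0) (XT.lf (nat_lit 0) (nat_lit 2053568799) (nat_lit 608) (nat_lit 35069163) (nat_lit 76) (nat_lit 5787350917) (nat_lit 124) (nat_lit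 5) (nat_lit 132) (nat_lit 5) (nat_lit 125) (nat_lit 5) (nat_lit 293) (nat_lit 251) (nat_lit 236)) (XT.nd (nat_lit 78) (nat_lit 456) (nat_lit 0) (XT.lf (nat_lit 0) (nat_lit 4645282465) (nat_lit 456) (nat_lit 64068588) (nat_lit 532) (nat_lit 3266271456) (nat_lit 118) (nat_lit 5) (nat_lit 124) (nat_lit 5) (nat_lit 125) (nat_lit 5) (nat_lit 294) (nat_lit 251) (nat_lit 235)) (XT.lf (nat_lit 0) (nat_lit 1317260724) (nat_lit 456) (nat_lit 6091003611) (nat_lit 532) (nat_lit 671255776) (nat_lit 112) (nat_lit 5) (nat_lit 118) (nat_lit 5) (nat_lit 119) (nat_lit 5) (nat_lit 295) (nat_lit 251) (nat_lit 234))))) (XT.nd (nat_lit 234) (nat_lit 912) (nat_lit 0) (XT.nd (nat_lit 78) (nat_lit 456) (nat_lit 0) (XT.lf (nat_lit 0) (nat_lit 1928588012) (nat_lit 532) (nat_lit 2111488168) (nat_lit 76) (nat_lit 4147068584) (nat_lit 111) (nat_lit 5) (nat_lit 118) (nat_lit 5) (nat_lit 112) (nat_lit 5) (nat_lit 296) (nat_lit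 251) (nat_lit 233)) (XT.nd (nat_lit 78) (nat_lit 0) (nat_lit 0) (XT.lf (nat_lit 0) (nat_lit 2647796453) (nat_lit 456) (nat_lit 1904027296) (nat_lit 532) (nat_lit 3747371909) (nat_lit 105) (nat_lit 5) (nat_lit 111) (nat_lit 5) (nat_lit 112) (nat_lit 5) (nat_lit 297) (nat_lit 251) (nat_lit 232)) (XT.lf (nat_lit 0) (nat_lit 7212691387) (nat_lit 532) (nat_lit 901192784) (nat_lit 76) (nat_lit 302114624) (nat_lit 105) (nat_lit 5) (nat_lit 112) (nat_lit 5) (nat_lit 106) (nat_lit 5) (nat_lit 298) (nat_lit 251) (nat_lit 231)))) (XT.nd (nat_lit 78) (nat_lit 380) (nat_lit 0) (XT.lf (nat_lit 0) (nat_lit 1382736745) (nat_lit 532) (nat_lit 4575030738) (nat_lit 76) (nat_lit 2578480239) (nat_lit 98) (nat_lit 5) (nat_lit 105) (nat_lit 5) (nat_lit 99) (nat_lit 5) (nat_lit 299) (nat_lit 251) (nat_lit 230)) (XT.nd (nat_lit 78) (nat_lit 0) (nat_lit 0) (XT.lf (nat_lit 0) (nat_lit 245197348) (nat_lit 380) (nat_lit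 3725360242) (nat_lit 456) (nat_lit 4690882982) (nat_lit 93) (nat_lit 5) (nat_lit 98) (nat_lit 5) (nat_lit 99) (nat_lit 5) (nat_lit 300) (nat_lit 251) (nat_lit 229)) (XT.lf (nat_lit 0) (nat_lit 5228833517) (nat_lit 380) (nat_lit 1391330697) (nat_lit 456) (nat_lit 2170841518) (nat_lit 93) (nat_lit 5) (nat_lit 98) (nat_lit 5) (nat_lit 99) (nat_lit 5) (nat_lit 301) (nat_lit 251) (nat_lit 228)))))) (XT.nd (nat_lit 390) (nat_lit 988) (nat_lit 0) (XT.nd (nat_lit 156) (nat_lit 836) (nat_lit 0) (XT.nd (nat_lit 78) (nat_lit 0) (nat_lit 0) (XT.lf (nat_lit 0) (nat_lit 378647617) (nat_lit 456) (nat_lit 7549333073) (nat_lit 76) (nat_lit 997623542) (nat_lit 87) (nat_lit 5) (nat_lit 93) (nat_lit 5) (nat_lit 88) (nat_lit 5) (nat_lit 302) (nat_lit 251) (nat_lit 227)) (XT.lf (nat_lit 0) (nat_lit 2951061315) (nat_lit 456) (nat_lit 2638112003) (nat_lit 76) (nat_lit 3474849505) (nat_lit 87) (nat_lit 5) (nat_lit 93)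 (nat_lit 5) (nat_lit 88) (nat_lit 5) (nat_lit 303) (nat_lit 251) (nat_lit 226))) (XT.nd (nat_lit 78) (nat_lit 456) (nat_lit 0) (XT.lf (nat_lit 0) (nat_lit 2394140568) (nat_lit 380) (nat_lit 3171238273) (nat_lit 456) (nat_lit 3642398518) (nat_lit 82) (nat_lit 5) (nat_lit 87) (nat_lit 5) (nat_lit 88) (nat_lit 5) (nat_lit 304) (nat_lit 251) (nat_lit 225)) (XT.nd (nat_lit 78) (nat_lit 456) (nat_lit 0) (XT.lf (nat_lit 0) (nat_lit 7559131906) (nat_lit 380) (nat_lit 668353704) (nat_lit 456) (nat_lit 1129399808) (nat_lit 82) (nat_lit 5) (nat_lit 87) (nat_lit 5) (nat_lit 88) (nat_lit 5) (nat_lit 305) (nat_lit 251) (nat_lit 224)) (XT.lf (nat_lit 0) (nat_lit 1425096552) (nat_lit 456) (nat_lit 6181065257) (nat_lit 76) (nat_lit 1904161532) (nat_lit 76) (nat_lit 5) (nat_lit 82) (nat_lit 5) (nat_lit 77) (nat_lit 5) (nat_lit 306) (nat_lit 251) (nat_lit 223))))) (XT.nd (nat_lit 234) (nat_lit 684) (nat_lit 0)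 (XT.nd (nat_lit 78) (nat_lit 304) (nat_lit 0) (XT.lf (nat_lit 0) (nat_lit 4003011760) (nat_lit 456) (nat_lit 1111225437) (nat_lit 76) (nat_lit 4554818579) (nat_lit 76) (nat_lit 5) (nat_lit 82) (nat_lit 5) (nat_lit 77) (nat_lit 5) (nat_lit 307) (nat_lit 251) (nat_lit 222)) (XT.nd (nat_lit 78) (nat_lit 0) (nat_lit 0) (XT.lf (nat_lit 0) (nat_lit 4120871569) (nat_lit 304) (nat_lit 2523153624) (nat_lit 380) (nat_lit 3189060279) (nat_lit 72) (nat_lit 5) (nat_lit 76) (nat_lit 5) (nat_lit 77) (nat_lit 5) (nat_lit 308) (nat_lit 251) (nat_lit 221)) (XT.lf (nat_lit 0) (nat_lit 9323890102) (nat_lit 380) (nat_lit 541596365) (nat_lit 76) (nat_lit 137865922) (nat_lit 72) (nat_lit 5) (nat_lit 77) (nat_lit 5) (nat_lit 73) (nat_lit 5) (nat_lit 309) (nat_lit 251) (nat_lit 220)))) (XT.nd (nat_lit 78) (nat_lit 304) (nat_lit 0) (XT.lf (nat_lit 0) (nat_lit 1887733040) (nat_lit 380) (nat_lit 5413279022) (nat_lit 76)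 (nat_lit 2876679972) (nat_lit 67) (nat_lit 5) (nat_lit 72) (nat_lit 5) (nat_lit 68) (nat_lit 5) (nat_lit 310) (nat_lit 251) (nat_lit 219)) (XT.nd (nat_lit 78) (nat_lit 304) (nat_lit 0) (XT.lf (nat_lit 0) (nat_lit 4472492120) (nat_lit 380) (nat_lit 192640510) (nat_lit 76) (nat_lit 5693397342) (nat_lit 67) (nat_lit 5) (nat_lit 72) (nat_lit 5) (nat_lit 68) (nat_lit 5) (nat_lit 311) (nat_lit 251) (nat_lit 218)) (XT.lf (nat_lit 0) (nat_lit 5219016164) (nat_lit 304) (nat_lit 1916122106) (nat_lit 380) (nat_lit 3409737706) (nat_lit 63) (nat_lit 5) (nat_lit 67) (nat_lit 5) (nat_lit 68) (nat_lit 5) (nat_lit 312) (nat_lit 251) (nat_lit 217))))))) (XT.nd (nat_lit 858) (nat_lit 1140) (nat_lit 0) (XT.nd (nat_lit 390) (nat_lit 912) (nat_lit 0) (XT.nd (nat_lit 156) (nat_lit 228) (nat_lit 0) (XT.nd (nat_lit 78) (nat_lit 380) (nat_lit 0) (XT.lf (nat_lit 0) (nat_lit 9839241723) (nat_lit 380) (nat_lit 16772563)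 (nat_lit 76) (nat_lit 882041277) (nat_lit 63) (nat_lit 5) (nat_lit 68) (nat_lit 5) (nat_lit 64) (nat_lit 5) (nat_lit 313) (nat_lit 251) (nat_lit 216)) (XT.lf (nat_lit 0) (nat_lit 1678490038) (nat_lit 380) (nat_lit 5479627253) (nat_lit 76) (nat_lit 3777792562) (nat_lit 58) (nat_lit 5) (nat_lit 63) (nat_lit 5) (nat_lit 59) (nat_lit 5) (nat_lit 314) (nat_lit 251) (nat_lit 215))) (XT.nd (nat_lit 78) (nat_lit 228) (nat_lit 0) (XT.lf (nat_lit 0) (nat_lit 4267677716) (nat_lit 380) (nat_lit 121288615) (nat_lit 76) (nat_lit 6751970426) (nat_lit 58) (nat_lit 5) (nat_lit 63) (nat_lit 5) (nat_lit 59) (nat_lit 5) (nat_lit 315) (nat_lit 251) (nat_lit 214)) (XT.nd (nat_lit 78) (nat_lit 0) (nat_lit 0) (XT.lf (nat_lit 0) (nat_lit 5439313258) (nat_lit 228) (nat_lit 1501357367) (nat_lit 304) (nat_lit 4411340400) (nat_lit 55) (nat_lit 5) (nat_lit 58) (nat_lit 5) (nat_lit 59) (nat_lit 5) (nat_lit 316) (nat_lit 251)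 (nat_lit 213)) (XT.lf (nat_lit 0) (nat_lit 9663642780) (nat_lit 304) (nat_lit 479587997) (nat_lit 76) (nat_lit 1427171161) (nat_lit 55) (nat_lit 5) (nat_lit 59) (nat_lit 5) (nat_lit 56) (nat_lit 5) (nat_lit 317) (nat_lit 251) (nat_lit 212))))) (XT.nd (nat_lit 234) (nat_lit 304) (nat_lit 0) (XT.nd (nat_lit 78) (nat_lit 228) (nat_lit 0) (XT.lf (nat_lit 0) (nat_lit 679933777) (nat_lit 380) (nat_lit 6662920551) (nat_lit 76) (nat_lit 4451766618) (nat_lit 50) (nat_lit 5) (nat_lit 55) (nat_lit 5) (nat_lit 51) (nat_lit 5) (nat_lit 318) (nat_lit 251) (nat_lit 211)) (XT.nd (nat_lit 78) (nat_lit 228) (nat_lit 0) (XT.lf (nat_lit 0) (nat_lit 3266699846) (nat_lit 380) (nat_lit 1186873060) (nat_lit 76) (nat_lit 7572674839) (nat_lit 50) (nat_lit 5) (nat_lit 55) (nat_lit 5) (nat_lit 51) (nat_lit 5) (nat_lit 319) (nat_lit 251) (nat_lit 210)) (XT.lf (nat_lit 0) (nat_lit 4479029114) (nat_lit 228) (nat_lit 1452284725)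 (nat_lit 304) (nat_lit 6333571553) (nat_lit 47) (nat_lit 5) (nat_lit 50) (nat_lit 5) (nat_lit 51) (nat_lit 5) (nat_lit 320) (nat_lit 251) (nat_lit 209)))) (XT.nd (nat_lit 78) (nat_lit 304) (nat_lit 0) (XT.lf (nat_lit 0) (nat_lit 8661390330) (nat_lit 304) (nat_lit 2249329842) (nat_lit 76) (nat_lit 1600463646) (nat_lit 47) (nat_lit 5) (nat_lit 51) (nat_lit 5) (nat_lit 48) (nat_lit 5) (nat_lit 321) (nat_lit 251) (nat_lit 208)) (XT.nd (nat_lit 78) (nat_lit 76) (nat_lit 0) (XT.lf (nat_lit 0) (nat_lit 3445594757) (nat_lit 228) (nat_lit 8034172488) (nat_lit 304) (nat_lit 1284977415) (nat_lit 44) (nat_lit 5) (nat_lit 47) (nat_lit 5) (nat_lit 48) (nat_lit 5) (nat_lit 322) (nat_lit 251) (nat_lit 207)) (XT.lf (nat_lit 0) (nat_lit 1312301730) (nat_lit 304) (nat_lit 3741859275) (nat_lit 76) (nat_lit 7971961882) (nat_lit 43) (nat_lit 5) (nat_lit 47) (nat_lit 5) (nat_lit 44) (nat_lit 5) (nat_lit 323) (nat_lit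 251) (nat_lit 206)))))) (XT.nd (nat_lit 468) (nat_lit 456) (nat_lit 0) (XT.nd (nat_lit 234) (nat_lit 456) (nat_lit 0) (XT.nd (nat_lit 78) (nat_lit 0) (nat_lit 0) (XT.lf (nat_lit 0) (nat_lit 1969392023) (nat_lit 228) (nat_lit 1971459616) (nat_lit 304) (nat_lit 9354793628) (nat_lit 40) (nat_lit 5) (nat_lit 43) (nat_lit 5) (nat_lit 44) (nat_lit 5) (nat_lit 324) (nat_lit 251) (nat_lit 205)) (XT.nd (nat_lit 78) (nat_lit 0) (nat_lit 0) (XT.lf (nat_lit 0) (nat_lit 6658646485) (nat_lit 304) (nat_lit 5714912827) (nat_lit 76) (nat_lit 1199440469) (nat_lit 40) (nat_lit 5) (nat_lit 44) (nat_lit 5) (nat_lit 41) (nat_lit 5) (nat_lit 325) (nat_lit 251) (nat_lit 204)) (XT.lf (nat_lit 0) (nat_lit 9439298425) (nat_lit 304) (nat_lit 12550964) (nat_lit 76) (nat_lit 4407442264) (nat_lit 40) (nat_lit 5) (nat_lit 44) (nat_lit 5) (nat_lit 41) (nat_lit 5) (nat_lit 326) (nat_lit 251) (nat_lit 203)))) (XT.nd (nat_lit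 78) (nat_lit 228) (nat_lit 0) (XT.lf (nat_lit 0) (nat_lit 5920292087) (nat_lit 228) (nat_lit 6402903662) (nat_lit 304) (nat_lit 1830436538) (nat_lit 37) (nat_lit 5) (nat_lit 40) (nat_lit 5) (nat_lit 41) (nat_lit 5) (nat_lit 327) (nat_lit 251) (nat_lit 202)) (XT.nd (nat_lit 78) (nat_lit 152) (nat_lit 0) (XT.lf (nat_lit 0) (nat_lit 783654159) (nat_lit 304) (nat_lit 2489819555) (nat_lit 76) (nat_lit 11184244450) (nat_lit 36) (nat_lit 5) (nat_lit 40) (nat_lit 5) (nat_lit 37) (nat_lit 5) (nat_lit 328) (nat_lit 251) (nat_lit 201)) (XT.lf (nat_lit 0) (nat_lit 3419906841) (nat_lit 152) (nat_lit 16469696) (nat_lit 228) (nat_lit 11334146549) (nat_lit 34) (nat_lit 5) (nat_lit 36) (nat_lit 5) (nat_lit 37) (nat_lit 5) (nat_lit 329) (nat_lit 251) (nat_lit 200))))) (XT.nd (nat_lit 234) (nat_lit 228) (nat_lit 0) (XT.nd (nat_lit 78) (nat_lit 228) (nat_lit 0) (XT.lf (nat_lit 0) (nat_lit 6190628953) (nat_lit 228)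 (nat_lit 5621435483) (nat_lit 76) (nat_lit 3280037940) (nat_lit 34) (nat_lit 5) (nat_lit 37) (nat_lit 5) (nat_lit 35) (nat_lit 5) (nat_lit 330) (nat_lit 251) (nat_lit 199)) (XT.nd (nat_lit 78) (nat_lit 0) (nat_lit 0) (XT.lf (nat_lit 0) (nat_lit 230456312) (nat_lit 228) (nat_lit 8764933784) (nat_lit 304) (nat_lit 6428949766) (nat_lit 31) (nat_lit 5) (nat_lit 34) (nat_lit 5) (nat_lit 35) (nat_lit 5) (nat_lit 331) (nat_lit 251) (nat_lit 198)) (XT.lf (nat_lit 0) (nat_lit 6320164918) (nat_lit 228) (nat_lit 5586892992) (nat_lit 304) (nat_lit 3858849524) (nat_lit 31) (nat_lit 5) (nat_lit 34) (nat_lit 5) (nat_lit 35) (nat_lit 5) (nat_lit 332) (nat_lit 251) (nat_lit 197)))) (XT.nd (nat_lit 78) (nat_lit 228) (nat_lit 0) (XT.lf (nat_lit 0) (nat_lit 12541133848) (nat_lit 228) (nat_lit 2331930607) (nat_lit 304) (nat_lit 1245692457) (nat_lit 31) (nat_lit 5) (nat_lit 34) (nat_lit 5) (nat_lit 35) (nat_lit 5)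 (nat_lit 333) (nat_lit 251) (nat_lit 196)) (XT.nd (nat_lit 78) (nat_lit 0) (nat_lit 0) (XT.lf (nat_lit 0) (nat_lit 1418792224) (nat_lit 228) (nat_lit 14042263357) (nat_lit 76) (nat_lit 1020726918) (nat_lit 28) (nat_lit 5) (nat_lit 31) (nat_lit 5) (nat_lit 29) (nat_lit 5) (nat_lit 334) (nat_lit 251) (nat_lit 195)) (XT.lf (nat_lit 0) (nat_lit 4165625249) (nat_lit 228) (nat_lit 8230829494) (nat_lit 76) (nat_lit 4458091335) (nat_lit 28) (nat_lit 5) (nat_lit 31) (nat_lit 5) (nat_lit 29) (nat_lit 5) (nat_lit 335) (nat_lit 251) (nat_lit 194))))))))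
noncomputable def xc86 : XT := (XT.nd (nat_lit 1716) (nat_lit 608) (nat_lit 0) (XT.nd (nat_lit 858) (nat_lit 380) (nat_lit 0) (XT.nd (nat_lit 390) (nat_lit 228) (nat_lit 0) (XT.nd (nat_lit 156) (nat_lit 228) (nat_lit 0) (XT.nd (nat_lit 78) (nat_lit 152) (nat_lit 0) (XT.lf (nat_lit 0) (nat_lit 6963676754) (nat_lit 228) (nat_lit 2294516817) (nat_lit 76) (nat_lit 7981274161) (nat_lit 28) (nat_lit 5) (nat_lit 31) (nat_lit 5) (nat_lit 29) (nat_lit 5) (nat_lit 336) (nat_lit 251) (nat_lit 193)) (XT.lf (nat_lit 0) (nat_lit 3846929186) (nat_lit 152) (nat_lit 6005441488) (nat_lit 228) (nat_lit 7783403755) (nat_lit 26) (nat_lit 5) (nat_lit 28) (nat_lit 5) (nat_lit 29) (nat_lit 5) (nat_lit 337) (nat_lit 251) (nat_lit 192))) (XT.nd (nat_lit 78) (nat_lit 228) (nat_lit 0) (XT.lf (nat_lit 0) (nat_lit 10172101238) (nat_lit 152) (nat_lit 2648940914) (nat_lit 228) (nat_lit 5223165977) (nat_lit 26) (nat_lit 5)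 (nat_lit 28) (nat_lit 5) (nat_lit 29) (nat_lit 5) (nat_lit 338) (nat_lit 251) (nat_lit 191)) (XT.nd (nat_lit 78) (nat_lit 228) (nat_lit 0) (XT.lf (nat_lit 0) (nat_lit 15857394166) (nat_lit 228) (nat_lit 1832544026) (nat_lit 76) (nat_lit 775634251) (nat_lit 26) (nat_lit 5) (nat_lit 29) (nat_lit 5) (nat_lit 27) (nat_lit 4) (nat_lit 339) (nat_lit 251) (nat_lit 190)) (XT.lf (nat_lit 0) (nat_lit 124204430) (nat_lit 228) (nat_lit 14497280986) (nat_lit 76) (nat_lit 4276883547) (nat_lit 23) (nat_lit 5) (nat_lit 26) (nat_lit 5) (nat_lit 24) (nat_lit 5) (nat_lit 340) (nat_lit 251) (nat_lit 189))))) (XT.nd (nat_lit 234) (nat_lit 76) (nat_lit 0) (XT.nd (nat_lit 78) (nat_lit 152) (nat_lit 0) (XT.lf (nat_lit 0) (nat_lit 2876606082) (nat_lit 228) (nat_lit 8555996902) (nat_lit 76) (nat_lit 7911090752) (nat_lit 23) (nat_lit 5) (nat_lit 26) (nat_lit 5) (nat_lit 24) (nat_lit 5) (nat_lit 341) (nat_lit 251) (nat_lit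 188)) (XT.nd (nat_lit 78) (nat_lit 152) (nat_lit 0) (XT.lf (nat_lit 0) (nat_lit 5684182640) (nat_lit 228) (nat_lit 2480833721) (nat_lit 76) (nat_lit 11638215982) (nat_lit 23) (nat_lit 5) (nat_lit 26) (nat_lit 5) (nat_lit 24) (nat_lit 5) (nat_lit 342) (nat_lit 251) (nat_lit 187)) (XT.lf (nat_lit 0) (nat_lit 3807821259) (nat_lit 152) (nat_lit 4778169175) (nat_lit 228) (nat_lit 11690297797) (nat_lit 21) (nat_lit 5) (nat_lit 23) (nat_lit 5) (nat_lit 24) (nat_lit 5) (nat_lit 343) (nat_lit 251) (nat_lit 186)))) (XT.nd (nat_lit 78) (nat_lit 76) (nat_lit 0) (XT.lf (nat_lit 0) (nat_lit 10293345375) (nat_lit 152) (nat_lit 1280324276) (nat_lit 228) (nat_lit 9189931957) (nat_lit 21) (nat_lit 5) (nat_lit 23) (nat_lit 5) (nat_lit 24) (nat_lit 5) (nat_lit 344) (nat_lit 251) (nat_lit 185)) (XT.nd (nat_lit 78) (nat_lit 76) (nat_lit 0) (XT.lf (nat_lit 0) (nat_lit 14647680699) (nat_lit 228) (nat_lit 4356467521)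 (nat_lit 76) (nat_lit 2261514571) (nat_lit 21) (nat_lit 5) (nat_lit 24) (nat_lit 5) (nat_lit 22) (nat_lit 4) (nat_lit 345) (nat_lit 251) (nat_lit 184)) (XT.lf (nat_lit 0) (nat_lit 1924799229) (nat_lit 76) (nat_lit 15895414571) (nat_lit 152) (nat_lit 3962411545) (nat_lit 20) (nat_lit 5) (nat_lit 21) (nat_lit 5) (nat_lit 22) (nat_lit 4) (nat_lit 346) (nat_lit 251) (nat_lit 183)))))) (XT.nd (nat_lit 390) (nat_lit 152) (nat_lit 0) (XT.nd (nat_lit 156) (nat_lit 152) (nat_lit 0) (XT.nd (nat_lit 78) (nat_lit 76) (nat_lit 0) (XT.lf (nat_lit 0) (nat_lit 8443388568) (nat_lit 76) (nat_lit 12663985051) (nat_lit 152) (nat_lit 1207167391) (nat_lit 20) (nat_lit 5) (nat_lit 21) (nat_lit 5) (nat_lit 22) (nat_lit 4) (nat_lit 347) (nat_lit 251) (nat_lit 182)) (XT.lf (nat_lit 0) (nat_lit 1574823997) (nat_lit 152) (nat_lit 7760301228) (nat_lit 76) (nat_lit 13527567473) (nat_lit 19) (nat_lit 5) (nat_lit 21) (nat_lit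 5) (nat_lit 20) (nat_lit 5) (nat_lit 348) (nat_lit 251) (nat_lit 181))) (XT.nd (nat_lit 78) (nat_lit 152) (nat_lit 0) (XT.lf (nat_lit 0) (nat_lit 4392625276) (nat_lit 152) (nat_lit 1516666002) (nat_lit 76) (nat_lit 17518366104) (nat_lit 19) (nat_lit 5) (nat_lit 21) (nat_lit 5) (nat_lit 20) (nat_lit 5) (nat_lit 349) (nat_lit 251) (nat_lit 180)) (XT.nd (nat_lit 78) (nat_lit 0) (nat_lit 0) (XT.lf (nat_lit 0) (nat_lit 4973871006) (nat_lit 152) (nat_lit 2346195668) (nat_lit 228) (nat_lit 16688775810) (nat_lit 17) (nat_lit 5) (nat_lit 19) (nat_lit 5) (nat_lit 20) (nat_lit 5) (nat_lit 350) (nat_lit 251) (nat_lit 179)) (XT.lf (nat_lit 0) (nat_lit 10340981050) (nat_lit 228) (nat_lit 12967318934) (nat_lit 76) (nat_lit 1299017606) (nat_lit 17) (nat_lit 5) (nat_lit 20) (nat_lit 5) (nat_lit 18) (nat_lit 4) (nat_lit 351) (nat_lit 251) (nat_lit 178))))) (XT.nd (nat_lit 234) (nat_lit 76) (nat_lit 0) (XT.nd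 (nat_lit 78) (nat_lit 76) (nat_lit 0) (XT.lf (nat_lit 0) (nat_lit 13453866729) (nat_lit 228) (nat_lit 6777422592) (nat_lit 76) (nat_lit 4992440558) (nat_lit 17) (nat_lit 5) (nat_lit 20) (nat_lit 5) (nat_lit 18) (nat_lit 4) (nat_lit 352) (nat_lit 251) (nat_lit 177)) (XT.nd (nat_lit 78) (nat_lit 76) (nat_lit 0) (XT.lf (nat_lit 0) (nat_lit 16638890641) (nat_lit 228) (nat_lit 437320736) (nat_lit 76) (nat_lit 8783083177) (nat_lit 17) (nat_lit 5) (nat_lit 20) (nat_lit 5) (nat_lit 18) (nat_lit 4) (nat_lit 353) (nat_lit 251) (nat_lit 176)) (XT.lf (nat_lit 0) (nat_lit 6179103084) (nat_lit 76) (nat_lit 13779130051) (nat_lit 152) (nat_lit 6554551910) (nat_lit 16) (nat_lit 5) (nat_lit 17) (nat_lit 5) (nat_lit 18) (nat_lit 4) (nat_lit 354) (nat_lit 251) (nat_lit 175)))) (XT.nd (nat_lit 78) (nat_lit 76) (nat_lit 0) (XT.lf (nat_lit 0) (nat_lit 12968864439) (nat_lit 76) (nat_lit 10392350971) (nat_lit 152) (nat_lit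 3825164329) (nat_lit 16) (nat_lit 5) (nat_lit 17) (nat_lit 5) (nat_lit 18) (nat_lit 4) (nat_lit 355) (nat_lit 251) (nat_lit 174)) (XT.nd (nat_lit 78) (nat_lit 76) (nat_lit 0) (XT.lf (nat_lit 0) (nat_lit 19929192588) (nat_lit 76) (nat_lit 6917330897) (nat_lit 152) (nat_lit 1034272349) (nat_lit 16) (nat_lit 5) (nat_lit 17) (nat_lit 5) (nat_lit 18) (nat_lit 4) (nat_lit 356) (nat_lit 251) (nat_lit 173)) (XT.lf (nat_lit 0) (nat_lit 1785036935) (nat_lit 152) (nat_lit 1547971098) (nat_lit 76) (nat_lit 25263107063) (nat_lit 15) (nat_lit 5) (nat_lit 17) (nat_lit 5) (nat_lit 16) (nat_lit 5) (nat_lit 357) (nat_lit 251) (nat_lit 172))))))) (XT.nd (nat_lit 858) (nat_lit 152) (nat_lit 0) (XT.nd (nat_lit 390) (nat_lit 228) (nat_lit 0) (XT.nd (nat_lit 156) (nat_lit 76) (nat_lit 0) (XT.nd (nat_lit 78) (nat_lit 0) (nat_lit 0) (XT.lf (nat_lit 0) (nat_lit 4702296363) (nat_lit 228) (nat_lit 24230073151) (nat_lit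 76) (nat_lit 399211351) (nat_lit 13) (nat_lit 5) (nat_lit 16) (nat_lit 5) (nat_lit 14) (nat_lit 4) (nat_lit 358) (nat_lit 251) (nat_lit 171)) (XT.lf (nat_lit 0) (nat_lit 7737152476) (nat_lit 228) (nat_lit 18171355530) (nat_lit 76) (nat_lit 4179718582) (nat_lit 13) (nat_lit 5) (nat_lit 16) (nat_lit 5) (nat_lit 14) (nat_lit 4) (nat_lit 359) (nat_lit 251) (nat_lit 170))) (XT.nd (nat_lit 78) (nat_lit 76) (nat_lit 0) (XT.lf (nat_lit 0) (nat_lit 10844891732) (nat_lit 228) (nat_lit 11961713083) (nat_lit 76) (nat_lit 8061529561) (nat_lit 13) (nat_lit 5) (nat_lit 16) (nat_lit 5) (nat_lit 14) (nat_lit 4) (nat_lit 360) (nat_lit 251) (nat_lit 169)) (XT.nd (nat_lit 78) (nat_lit 76) (nat_lit 0) (XT.lf (nat_lit 0) (nat_lit 14028229632) (nat_lit 228) (nat_lit 5595719907) (nat_lit 76) (nat_lit 12048036162) (nat_lit 13) (nat_lit 5) (nat_lit 16) (nat_lit 5) (nat_lit 14) (nat_lit 4) (nat_lit 361) (nat_lit 251)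 (nat_lit 168)) (XT.lf (nat_lit 0) (nat_lit 950738854) (nat_lit 76) (nat_lit 16348347961) (nat_lit 152) (nat_lit 15201121969) (nat_lit 12) (nat_lit 5) (nat_lit 13) (nat_lit 5) (nat_lit 14) (nat_lit 4) (nat_lit 362) (nat_lit 251) (nat_lit 167))))) (XT.nd (nat_lit 234) (nat_lit 228) (nat_lit 0) (XT.nd (nat_lit 78) (nat_lit 0) (nat_lit 0) (XT.lf (nat_lit 0) (nat_lit 7779516567) (nat_lit 76) (nat_lit 12928160980) (nat_lit 152) (nat_lit 12644429078) (nat_lit 12) (nat_lit 5) (nat_lit 13) (nat_lit 5) (nat_lit 14) (nat_lit 4) (nat_lit 363) (nat_lit 251) (nat_lit 166)) (XT.nd (nat_lit 78) (nat_lit 0) (nat_lit 0) (XT.lf (nat_lit 0) (nat_lit 14785214329) (nat_lit 76) (nat_lit 9416905885) (nat_lit 152) (nat_lit 10027949194) (nat_lit 12) (nat_lit 5) (nat_lit 13) (nat_lit 5) (nat_lit 14) (nat_lit 4) (nat_lit 364) (nat_lit 251) (nat_lit 165)) (XT.lf (nat_lit 0) (nat_lit 21973953621) (nat_lit 76) (nat_lit 5811514587)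 (nat_lit 152) (nat_lit 7349396071) (nat_lit 12) (nat_lit 5) (nat_lit 13) (nat_lit 5) (nat_lit 14) (nat_lit 4) (nat_lit 365) (nat_lit 251) (nat_lit 164)))) (XT.nd (nat_lit 78) (nat_lit 228) (nat_lit 0) (XT.lf (nat_lit 0) (nat_lit 29352015866) (nat_lit 76) (nat_lit 2108836745) (nat_lit 152) (nat_lit 4606429226) (nat_lit 12) (nat_lit 5) (nat_lit 13) (nat_lit 5) (nat_lit 14) (nat_lit 4) (nat_lit 366) (nat_lit 251) (nat_lit 163)) (XT.nd (nat_lit 78) (nat_lit 228) (nat_lit 0) (XT.lf (nat_lit 0) (nat_lit 35247772179) (nat_lit 152) (nat_lit 118576155) (nat_lit 0) (nat_lit 1661299865) (nat_lit 12) (nat_lit 5) (nat_lit 14) (nat_lit 4) (nat_lit 12) (nat_lit 4) (nat_lit 367) (nat_lit 251) (nat_lit 162)) (XT.lf (nat_lit 0) (nat_lit 1181290112) (nat_lit 228) (nat_lit 31264380944) (nat_lit 76) (nat_lit 5568684994) (nat_lit 9) (nat_lit 5) (nat_lit 12) (nat_lit 5) (nat_lit 10) (nat_lit 4) (nat_lit 368) (nat_lit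 251) (nat_lit 161)))))) (XT.nd (nat_lit 468) (nat_lit 76) (nat_lit 0) (XT.nd (nat_lit 234) (nat_lit 76) (nat_lit 0) (XT.nd (nat_lit 78) (nat_lit 0) (nat_lit 0) (XT.lf (nat_lit 0) (nat_lit 4182082781) (nat_lit 228) (nat_lit 25246487901) (nat_lit 76) (nat_lit 9601982074) (nat_lit 9) (nat_lit 5) (nat_lit 12) (nat_lit 5) (nat_lit 10) (nat_lit 4) (nat_lit 369) (nat_lit 251) (nat_lit 160)) (XT.nd (nat_lit 78) (nat_lit 0) (nat_lit 0) (XT.lf (nat_lit 0) (nat_lit 7258681809) (nat_lit 228) (nat_lit 19072560881) (nat_lit 76) (nat_lit 13746432069) (nat_lit 9) (nat_lit 5) (nat_lit 12) (nat_lit 5) (nat_lit 10) (nat_lit 4) (nat_lit 370) (nat_lit 251) (nat_lit 159)) (XT.lf (nat_lit 0) (nat_lit 10413775486) (nat_lit 228) (nat_lit 12737205189) (nat_lit 76) (nat_lit 18005656340) (nat_lit 9) (nat_lit 5) (nat_lit 12) (nat_lit 5) (nat_lit 10) (nat_lit 4) (nat_lit 371) (nat_lit 251) (nat_lit 158)))) (XT.nd (nat_lit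 78) (nat_lit 76) (nat_lit 0) (XT.lf (nat_lit 0) (nat_lit 13650120689) (nat_lit 228) (nat_lit 6234885078) (nat_lit 76) (nat_lit 22383376542) (nat_lit 9) (nat_lit 5) (nat_lit 12) (nat_lit 5) (nat_lit 10) (nat_lit 4) (nat_lit 372) (nat_lit 251) (nat_lit 157)) (XT.nd (nat_lit 78) (nat_lit 0) (nat_lit 0) (XT.lf (nat_lit 0) (nat_lit 448839566) (nat_lit 76) (nat_lit 16526020248) (nat_lit 152) (nat_lit 26438892820) (nat_lit 8) (nat_lit 5) (nat_lit 9) (nat_lit 5) (nat_lit 10) (nat_lit 4) (nat_lit 373) (nat_lit 251) (nat_lit 156)) (XT.lf (nat_lit 0) (nat_lit 7438681275) (nat_lit 76) (nat_lit 13010774521) (nat_lit 152) (nat_lit 24142536267) (nat_lit 8) (nat_lit 5) (nat_lit 9) (nat_lit 5) (nat_lit 10) (nat_lit 4) (nat_lit 374) (nat_lit 251) (nat_lit 155))))) (XT.nd (nat_lit 234) (nat_lit 76) (nat_lit 0) (XT.nd (nat_lit 78) (nat_lit 0) (nat_lit 0) (XT.lf (nat_lit 0) (nat_lit 14616661238) (nat_lit 76) (nat_lit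 9399157128) (nat_lit 152) (nat_lit 21790145549) (nat_lit 8) (nat_lit 5) (nat_lit 9) (nat_lit 5) (nat_lit 10) (nat_lit 4) (nat_lit 375) (nat_lit 251) (nat_lit 154)) (XT.nd (nat_lit 78) (nat_lit 0) (nat_lit 0) (XT.lf (nat_lit 0) (nat_lit 21989051477) (nat_lit 76) (nat_lit 5688012285) (nat_lit 152) (nat_lit 19379665181) (nat_lit 8) (nat_lit 5) (nat_lit 9) (nat_lit 5) (nat_lit 10) (nat_lit 4) (nat_lit 376) (nat_lit 251) (nat_lit 153)) (XT.lf (nat_lit 0) (nat_lit 29562293887) (nat_lit 76) (nat_lit 1874097246) (nat_lit 152) (nat_lit 16908988917) (nat_lit 8) (nat_lit 5) (nat_lit 9) (nat_lit 5) (nat_lit 10) (nat_lit 4) (nat_lit 377) (nat_lit 251) (nat_lit 152)))) (XT.nd (nat_lit 78) (nat_lit 76) (nat_lit 0) (XT.lf (nat_lit 0) (nat_lit 35316751965) (nat_lit 152) (nat_lit 12349704016) (nat_lit 0) (nat_lit 2005997258) (nat_lit 8) (nat_lit 5) (nat_lit 10) (nat_lit 4) (nat_lit 8) (nat_lit 4) (nat_lit 378)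 (nat_lit 251) (nat_lit 151)) (XT.nd (nat_lit 78) (nat_lit 76) (nat_lit 0) (XT.lf (nat_lit 0) (nat_lit 39320920861) (nat_lit 152) (nat_lit 5761293618) (nat_lit 0) (nat_lit 5956912092) (nat_lit 8) (nat_lit 5) (nat_lit 10) (nat_lit 4) (nat_lit 8) (nat_lit 4) (nat_lit 379) (nat_lit 251) (nat_lit 150)) (XT.lf (nat_lit 0) (nat_lit 1025936579) (nat_lit 76) (nat_lit 42418306990) (nat_lit 76) (nat_lit 9002595248) (nat_lit 7) (nat_lit 4) (nat_lit 8) (nat_lit 5) (nat_lit 8) (nat_lit 4) (nat_lit 380) (nat_lit 251) (nat_lit 149))))))))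
noncomputable def xc87 : XT := (XT.nd (nat_lit 32760) (nat_lit 0) (nat_lit 6232) (XT.nd (nat_lit 858) (nat_lit 0) (nat_lit 0) (XT.nd (nat_lit 390) (nat_lit 76) (nat_lit 0) (XT.nd (nat_lit 156) (nat_lit 76) (nat_lit 0) (XT.nd (nat_lit 78) (nat_lit 0) (nat_lit 0) (XT.lf (nat_lit 0) (nat_lit 8116217151) (nat_lit 76) (nat_lit 39622529480) (nat_lit 76) (nat_lit 6156620677) (nat_lit 7) (nat_lit 4) (nat_lit 8) (nat_lit 5) (nat_lit 8) (nat_lit 4) (nat_lit 381) (nat_lit 251) (nat_lit 148)) (XT.lf (nat_lit 0) (nat_lit 15401082448) (nat_lit 76) (nat_lit 36750616806) (nat_lit 76) (nat_lit 3235972993) (nat_lit 7) (nat_lit 4) (nat_lit 8) (nat_lit 5) (nat_lit 8) (nat_lit 4) (nat_lit 382) (nat_lit 251) (nat_lit 147))) (XT.nd (nat_lit 78) (nat_lit 76) (nat_lit 0) (XT.lf (nat_lit 0) (nat_lit 22886897886) (nat_lit 76) (nat_lit 33800059531) (nat_lit 76) (nat_lit 238100173) (nat_lit 7) (nat_lit 4) (nat_lit 8) (nat_lit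 5) (nat_lit 8) (nat_lit 4) (nat_lit 383) (nat_lit 251) (nat_lit 146)) (XT.nd (nat_lit 78) (nat_lit 0) (nat_lit 0) (XT.lf (nat_lit 0) (nat_lit 2784206121) (nat_lit 152) (nat_lit 27955958352) (nat_lit 76) (nat_lit 27767883324) (nat_lit 6) (nat_lit 5) (nat_lit 8) (nat_lit 5) (nat_lit 7) (nat_lit 4) (nat_lit 384) (nat_lit 251) (nat_lit 145)) (XT.lf (nat_lit 0) (nat_lit 5882789594) (nat_lit 152) (nat_lit 21710433340) (nat_lit 76) (nat_lit 32545530268) (nat_lit 6) (nat_lit 5) (nat_lit 8) (nat_lit 5) (nat_lit 7) (nat_lit 4) (nat_lit 385) (nat_lit 251) (nat_lit 144))))) (XT.nd (nat_lit 234) (nat_lit 76) (nat_lit 0) (XT.nd (nat_lit 78) (nat_lit 0) (nat_lit 0) (XT.lf (nat_lit 0) (nat_lit 9065003937) (nat_lit 152) (nat_lit 15293838649) (nat_lit 76) (nat_lit 37459824769) (nat_lit 6) (nat_lit 5) (nat_lit 8) (nat_lit 5) (nat_lit 7) (nat_lit 4) (nat_lit 386) (nat_lit 251) (nat_lit 143)) (XT.nd (nat_lit 78)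 (nat_lit 0) (nat_lit 0) (XT.lf (nat_lit 0) (nat_lit 12333629726) (nat_lit 152) (nat_lit 8700567546) (nat_lit 76) (nat_lit 42515060870) (nat_lit 6) (nat_lit 5) (nat_lit 8) (nat_lit 5) (nat_lit 7) (nat_lit 4) (nat_lit 387) (nat_lit 251) (nat_lit 142)) (XT.lf (nat_lit 0) (nat_lit 15691523042) (nat_lit 152) (nat_lit 1924858919) (nat_lit 76) (nat_lit 47715655768) (nat_lit 6) (nat_lit 5) (nat_lit 8) (nat_lit 5) (nat_lit 7) (nat_lit 4) (nat_lit 388) (nat_lit 251) (nat_lit 141)))) (XT.nd (nat_lit 78) (nat_lit 0) (nat_lit 0) (XT.lf (nat_lit 0) (nat_lit 5139497867) (nat_lit 76) (nat_lit 14051524096) (nat_lit 152) (nat_lit 47976059803) (nat_lit 5) (nat_lit 5) (nat_lit 6) (nat_lit 5) (nat_lit 7) (nat_lit 4) (nat_lit 389) (nat_lit 251) (nat_lit 140)) (XT.nd (nat_lit 78) (nat_lit 0) (nat_lit 0) (XT.lf (nat_lit 0) (nat_lit 12440476073) (nat_lit 76) (nat_lit 10366038537) (nat_lit 152) (nat_lit 46250339170)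 (nat_lit 5) (nat_lit 5) (nat_lit 6) (nat_lit 5) (nat_lit 7) (nat_lit 4) (nat_lit 390) (nat_lit 251) (nat_lit 139)) (XT.lf (nat_lit 0) (nat_lit 19946146727) (nat_lit 76) (nat_lit 6576142258) (nat_lit 152) (nat_lit 44481282178) (nat_lit 5) (nat_lit 5) (nat_lit 6) (nat_lit 5) (nat_lit 7) (nat_lit 4) (nat_lit 391) (nat_lit 251) (nat_lit 138)))))) (XT.nd (nat_lit 390) (nat_lit 0) (nat_lit 0) (XT.nd (nat_lit 156) (nat_lit 0) (nat_lit 0) (XT.nd (nat_lit 78) (nat_lit 0) (nat_lit 0) (XT.lf (nat_lit 0) (nat_lit 27663068181) (nat_lit 76) (nat_lit 2678523700) (nat_lit 152) (nat_lit 42667343048) (nat_lit 5) (nat_lit 5) (nat_lit 6) (nat_lit 5) (nat_lit 7) (nat_lit 4) (nat_lit 392) (nat_lit 251) (nat_lit 137)) (XT.lf (nat_lit 0) (nat_lit 34280547469) (nat_lit 152) (nat_lit 39489500879) (nat_lit 0) (nat_lit 1304265384) (nat_lit 5) (nat_lit 5) (nat_lit 7) (nat_lit 4) (nat_lit 5) (nat_lit 4) (nat_lit 393) (nat_lit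 251) (nat_lit 136))) (XT.nd (nat_lit 78) (nat_lit 0) (nat_lit 0) (XT.lf (nat_lit 0) (nat_lit 38356648975) (nat_lit 152) (nat_lit 33497261035) (nat_lit 0) (nat_lit 5347180719) (nat_lit 5) (nat_lit 5) (nat_lit 7) (nat_lit 4) (nat_lit 5) (nat_lit 4) (nat_lit 394) (nat_lit 251) (nat_lit 135)) (XT.nd (nat_lit 78) (nat_lit 0) (nat_lit 0) (XT.lf (nat_lit 0) (nat_lit 42547710433) (nat_lit 152) (nat_lit 27338163669) (nat_lit 0) (nat_lit 9506022594) (nat_lit 5) (nat_lit 5) (nat_lit 7) (nat_lit 4) (nat_lit 5) (nat_lit 4) (nat_lit 395) (nat_lit 251) (nat_lit 134)) (XT.lf (nat_lit 0) (nat_lit 46857393935) (nat_lit 152) (nat_lit 21006827048) (nat_lit 0) (nat_lit 13784424947) (nat_lit 5) (nat_lit 5) (nat_lit 7) (nat_lit 4) (nat_lit 5) (nat_lit 4) (nat_lit 396) (nat_lit 251) (nat_lit 133))))) (XT.nd (nat_lit 31278) (nat_lit 0) (nat_lit 15732) (XT.nd (nat_lit 78) (nat_lit 0) (nat_lit 0) (XT.lf (nat_lit 0) (nat_lit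 51289465225) (nat_lit 152) (nat_lit 14497718934) (nat_lit 0) (nat_lit 18186126189) (nat_lit 5) (nat_lit 5) (nat_lit 7) (nat_lit 4) (nat_lit 5) (nat_lit 4) (nat_lit 397) (nat_lit 251) (nat_lit 132)) (XT.nd (nat_lit 31122) (nat_lit 0) (nat_lit 16492) (XT.lf (nat_lit 0) (nat_lit 55847796985) (nat_lit 152) (nat_lit 7805151758) (nat_lit 0) (nat_lit 22714972467) (nat_lit 5) (nat_lit 5) (nat_lit 7) (nat_lit 4) (nat_lit 5) (nat_lit 4) (nat_lit 398) (nat_lit 251) (nat_lit 131)) (XT.lf (nat_lit 0) (nat_lit 79974010) (nat_lit 684) (nat_lit 3212318090) (nat_lit 0) (nat_lit 79974010) (nat_lit 222) (nat_lit 5) (nat_lit 231) (nat_lit 4) (nat_lit 222) (nat_lit 4) (nat_lit 276) (nat_lit 252) (nat_lit 252)))) (XT.nd (nat_lit 78) (nat_lit 760) (nat_lit 0) (XT.lf (nat_lit 0) (nat_lit 3035673252) (nat_lit 684) (nat_lit 2616797773) (nat_lit 0) (nat_lit 1131717161) (nat_lit 222) (nat_lit 5) (nat_lit 231) (nat_lit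 4) (nat_lit 222) (nat_lit 4) (nat_lit 277) (nat_lit 252) (nat_lit 251)) (XT.nd (nat_lit 78) (nat_lit 76) (nat_lit 0) (XT.lf (nat_lit 0) (nat_lit 1252414578) (nat_lit 684) (nat_lit 4663929293) (nat_lit 684) (nat_lit 911472142) (nat_lit 213) (nat_lit 4) (nat_lit 222) (nat_lit 5) (nat_lit 222) (nat_lit 4) (nat_lit 278) (nat_lit 252) (nat_lit 250)) (XT.lf (nat_lit 0) (nat_lit 1905520002) (nat_lit 760) (nat_lit 1678912769) (nat_lit 76) (nat_lit 3290040591) (nat_lit 212) (nat_lit 5) (nat_lit 222) (nat_lit 5) (nat_lit 213) (nat_lit 4) (nat_lit 279) (nat_lit 252) (nat_lit 249))))))) (XT.nd (nat_lit 858) (nat_lit 3420) (nat_lit 0) (XT.nd (nat_lit 390) (nat_lit 3420) (nat_lit 0) (XT.nd (nat_lit 156) (nat_lit 1824) (nat_lit 0) (XT.nd (nat_lit 78) (nat_lit 76) (nat_lit 0) (XT.lf (nat_lit 0) (nat_lit 2293790282) (nat_lit 760) (nat_lit 2427046266) (nat_lit 836) (nat_lit 2203772455) (nat_lit 202) (nat_lit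 5) (nat_lit 212) (nat_lit 5) (nat_lit 213) (nat_lit 4) (nat_lit 280) (nat_lit 252) (nat_lit 248)) (XT.lf (nat_lit 0) (nat_lit 559718348) (nat_lit 836) (nat_lit 639748690) (nat_lit 76) (nat_lit 5779053353) (nat_lit 201) (nat_lit 5) (nat_lit 212) (nat_lit 5) (nat_lit 202) (nat_lit 5) (nat_lit 281) (nat_lit 252) (nat_lit 247))) (XT.nd (nat_lit 78) (nat_lit 988) (nat_lit 0) (XT.lf (nat_lit 0) (nat_lit 3309575601) (nat_lit 912) (nat_lit 3595656177) (nat_lit 76) (nat_lit 130016841) (nat_lit 190) (nat_lit 5) (nat_lit 202) (nat_lit 5) (nat_lit 191) (nat_lit 4) (nat_lit 282) (nat_lit 252) (nat_lit 246)) (XT.nd (nat_lit 78) (nat_lit 76) (nat_lit 0) (XT.lf (nat_lit 0) (nat_lit 480732173) (nat_lit 912) (nat_lit 5599522683) (nat_lit 988) (nat_lit 1015552446) (nat_lit 178) (nat_lit 5) (nat_lit 190) (nat_lit 5) (nat_lit 191) (nat_lit 4) (nat_lit 283) (nat_lit 252) (nat_lit 245)) (XT.lf (nat_lit 0) (nat_lit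 1693833027) (nat_lit 988) (nat_lit 2500229994) (nat_lit 76) (nat_lit 2965291566) (nat_lit 177) (nat_lit 5) (nat_lit 190) (nat_lit 5) (nat_lit 178) (nat_lit 5) (nat_lit 284) (nat_lit 252) (nat_lit 244))))) (XT.nd (nat_lit 234) (nat_lit 1292) (nat_lit 0) (XT.nd (nat_lit 78) (nat_lit 1140) (nat_lit 0) (XT.lf (nat_lit 0) (nat_lit 1684343158) (nat_lit 988) (nat_lit 2714330773) (nat_lit 1064) (nat_lit 2828049916) (nat_lit 164) (nat_lit 5) (nat_lit 177) (nat_lit 5) (nat_lit 178) (nat_lit 5) (nat_lit 285) (nat_lit 252) (nat_lit 243)) (XT.nd (nat_lit 78) (nat_lit 1140) (nat_lit 0) (XT.lf (nat_lit 0) (nat_lit 5969926099) (nat_lit 988) (nat_lit 1160024331) (nat_lit 1064) (nat_lit 168052395) (nat_lit 164) (nat_lit 5) (nat_lit 177) (nat_lit 5) (nat_lit 178) (nat_lit 5) (nat_lit 286) (nat_lit 252) (nat_lit 242)) (XT.lf (nat_lit 0) (nat_lit 2476280480) (nat_lit 1140) (nat_lit 4406680830) (nat_lit 76) (nat_lit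 489308794) (nat_lit 149) (nat_lit 5) (nat_lit 164) (nat_lit 5) (nat_lit 150) (nat_lit 5) (nat_lit 287) (nat_lit 252) (nat_lit 241)))) (XT.nd (nat_lit 78) (nat_lit 1292) (nat_lit 0) (XT.lf (nat_lit 0) (nat_lit 5144558726) (nat_lit 1140) (nat_lit 123548736) (nat_lit 76) (nat_lit 2182394590) (nat_lit 149) (nat_lit 5) (nat_lit 164) (nat_lit 5) (nat_lit 150) (nat_lit 5) (nat_lit 288) (nat_lit 252) (nat_lit 240)) (XT.nd (nat_lit 78) (nat_lit 532) (nat_lit 0) (XT.lf (nat_lit 0) (nat_lit 320710138) (nat_lit 760) (nat_lit 3238467430) (nat_lit 76) (nat_lit 3973033445) (nat_lit 139) (nat_lit 5) (nat_lit 149) (nat_lit 5) (nat_lit 140) (nat_lit 5) (nat_lit 289) (nat_lit 252) (nat_lit 239)) (XT.lf (nat_lit 0) (nat_lit 1153524267) (nat_lit 532) (nat_lit 1764377643) (nat_lit 608) (nat_lit 4699848973) (nat_lit 132) (nat_lit 5) (nat_lit 139) (nat_lit 5) (nat_lit 140) (nat_lit 5) (nat_lit 290) (nat_lit 252) (nat_lit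 238)))))) (XT.nd (nat_lit 468) (nat_lit 1824) (nat_lit 0) (XT.nd (nat_lit 234) (nat_lit 988) (nat_lit 0) (XT.nd (nat_lit 78) (nat_lit 608) (nat_lit 0) (XT.lf (nat_lit 0) (nat_lit 5554001155) (nat_lit 608) (nat_lit 2039863037) (nat_lit 76) (nat_lit 113364125) (nat_lit 132) (nat_lit 5) (nat_lit 140) (nat_lit 5) (nat_lit 133) (nat_lit 5) (nat_lit 291) (nat_lit 252) (nat_lit 237)) (XT.nd (nat_lit 78) (nat_lit 0) (nat_lit 0) (XT.lf (nat_lit 0) (nat_lit 430658742) (nat_lit 608) (nat_lit 5331933982) (nat_lit 76) (nat_lit 2037750460) (nat_lit 124) (nat_lit 5) (nat_lit 132) (nat_lit 5) (nat_lit 125) (nat_lit 5) (nat_lit 292) (nat_lit 252) (nat_lit 236)) (XT.lf (nat_lit 0) (nat_lit 2999334239) (nat_lit 608) (nat_lit 839512923) (nat_lit 76) (nat_lit 4058432292) (nat_lit 124) (nat_lit 5) (nat_lit 132) (nat_lit 5) (nat_lit 125) (nat_lit 5) (nat_lit 293) (nat_lit 252) (nat_lit 235)))) (XT.nd (nat_lit 78)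 (nat_lit 532) (nat_lit 0) (XT.lf (nat_lit 0) (nat_lit 3787707974) (nat_lit 456) (nat_lit 1825566148) (nat_lit 532) (nat_lit 2384982257) (nat_lit 118) (nat_lit 5) (nat_lit 124) (nat_lit 5) (nat_lit 125) (nat_lit 5) (nat_lit 294) (nat_lit 252) (nat_lit 234)) (XT.nd (nat_lit 78) (nat_lit 0) (nat_lit 0) (XT.lf (nat_lit 0) (nat_lit 146513520) (nat_lit 532) (nat_lit 7706456964) (nat_lit 76) (nat_lit 250988542) (nat_lit 111) (nat_lit 5) (nat_lit 118) (nat_lit 5) (nat_lit 112) (nat_lit 5) (nat_lit 295) (nat_lit 252) (nat_lit 233)) (XT.lf (nat_lit 0) (nat_lit 2700468529) (nat_lit 532) (nat_lit 3099592297) (nat_lit 76) (nat_lit 2412393539) (nat_lit 111) (nat_lit 5) (nat_lit 118) (nat_lit 5) (nat_lit 112) (nat_lit 5) (nat_lit 296) (nat_lit 252) (nat_lit 232))))) (XT.nd (nat_lit 234) (nat_lit 836) (nat_lit 0) (XT.nd (nat_lit 78) (nat_lit 532) (nat_lit 0) (XT.lf (nat_lit 0) (nat_lit 1602940280) (nat_lit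 456) (nat_lit 3678885079) (nat_lit 532) (nat_lit 3044014473) (nat_lit 105) (nat_lit 5) (nat_lit 111) (nat_lit 5) (nat_lit 112) (nat_lit 5) (nat_lit 297) (nat_lit 252) (nat_lit 231)) (XT.nd (nat_lit 78) (nat_lit 532) (nat_lit 0) (XT.lf (nat_lit 0) (nat_lit 6436993970) (nat_lit 456) (nat_lit 1471483130) (nat_lit 532) (nat_lit 535268280) (nat_lit 105) (nat_lit 5) (nat_lit 111) (nat_lit 5) (nat_lit 112) (nat_lit 5) (nat_lit 298) (nat_lit 252) (nat_lit 230)) (XT.lf (nat_lit 0) (nat_lit 1981532495) (nat_lit 532) (nat_lit 5760136246) (nat_lit 76) (nat_lit 823890716) (nat_lit 98) (nat_lit 5) (nat_lit 105) (nat_lit 5) (nat_lit 99) (nat_lit 5) (nat_lit 299) (nat_lit 252) (nat_lit 229)))) (XT.nd (nat_lit 78) (nat_lit 836) (nat_lit 0) (XT.lf (nat_lit 0) (nat_lit 4536786053) (nat_lit 532) (nat_lit 980909211) (nat_lit 76) (nat_lit 3174103549) (nat_lit 98) (nat_lit 5) (nat_lit 105) (nat_lit 5) (nat_lit 99)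 (nat_lit 5) (nat_lit 300) (nat_lit 252) (nat_lit 228)) (XT.nd (nat_lit 78) (nat_lit 456) (nat_lit 0) (XT.lf (nat_lit 0) (nat_lit 3947343634) (nat_lit 380) (nat_lit 3199757176) (nat_lit 456) (nat_lit 1675509382) (nat_lit 93) (nat_lit 5) (nat_lit 98) (nat_lit 5) (nat_lit 99) (nat_lit 5) (nat_lit 301) (nat_lit 252) (nat_lit 227)) (XT.lf (nat_lit 0) (nat_lit 6095031) (nat_lit 380) (nat_lit 806010314) (nat_lit 456) (nat_lit 8146590356) (nat_lit 87) (nat_lit 5) (nat_lit 92) (nat_lit 5) (nat_lit 93) (nat_lit 5) (nat_lit 302) (nat_lit 252) (nat_lit 226))))))))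
noncomputable def xc88 : XT := (XT.nd (nat_lit 1716) (nat_lit 1748) (nat_lit 0) (XT.nd (nat_lit 858) (nat_lit 1520) (nat_lit 0) (XT.nd (nat_lit 390) (nat_lit 988) (nat_lit 0) (XT.nd (nat_lit 156) (nat_lit 456) (nat_lit 0) (XT.nd (nat_lit 78) (nat_lit 380) (nat_lit 0) (XT.lf (nat_lit 0) (nat_lit 3348060575) (nat_lit 456) (nat_lit 4069603872) (nat_lit 76) (nat_lit 1680605337) (nat_lit 87) (nat_lit 5) (nat_lit 93) (nat_lit 5) (nat_lit 88) (nat_lit 5) (nat_lit 303) (nat_lit 252) (nat_lit 225)) (XT.lf (nat_lit 0) (nat_lit 898539735) (nat_lit 380) (nat_lit 5021587363) (nat_lit 456) (nat_lit 3323224694) (nat_lit 82) (nat_lit 5) (nat_lit 87) (nat_lit 5) (nat_lit 88) (nat_lit 5) (nat_lit 304) (nat_lit 252) (nat_lit 224))) (XT.nd (nat_lit 78) (nat_lit 456) (nat_lit 0) (XT.lf (nat_lit 0) (nat_lit 6028949066) (nat_lit 380) (nat_lit 2525889881) (nat_lit 456) (nat_lit 838500948) (nat_lit 82) (nat_lit 5) (nat_lit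 87) (nat_lit 5) (nat_lit 88) (nat_lit 5) (nat_lit 305) (nat_lit 252) (nat_lit 223)) (XT.nd (nat_lit 78) (nat_lit 0) (nat_lit 0) (XT.lf (nat_lit 0) (nat_lit 1649628191) (nat_lit 456) (nat_lit 7836230055) (nat_lit 76) (nat_lit 62711258) (nat_lit 76) (nat_lit 5) (nat_lit 82) (nat_lit 5) (nat_lit 77) (nat_lit 5) (nat_lit 306) (nat_lit 252) (nat_lit 222)) (XT.lf (nat_lit 0) (nat_lit 4201015532) (nat_lit 456) (nat_lit 2800996666) (nat_lit 76) (nat_lit 2706138833) (nat_lit 76) (nat_lit 5) (nat_lit 82) (nat_lit 5) (nat_lit 77) (nat_lit 5) (nat_lit 307) (nat_lit 252) (nat_lit 221))))) (XT.nd (nat_lit 234) (nat_lit 304) (nat_lit 0) (XT.nd (nat_lit 78) (nat_lit 380) (nat_lit 0) (XT.lf (nat_lit 0) (nat_lit 2363203427) (nat_lit 304) (nat_lit 4436174546) (nat_lit 380) (nat_lit 3074133990) (nat_lit 72) (nat_lit 5) (nat_lit 76) (nat_lit 5) (nat_lit 77) (nat_lit 5) (nat_lit 308) (nat_lit 252) (nat_lit 220))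 (XT.nd (nat_lit 78) (nat_lit 380) (nat_lit 0) (XT.lf (nat_lit 0) (nat_lit 7672210979) (nat_lit 304) (nat_lit 1780355416) (nat_lit 380) (nat_lit 592062979) (nat_lit 72) (nat_lit 5) (nat_lit 76) (nat_lit 5) (nat_lit 77) (nat_lit 5) (nat_lit 309) (nat_lit 252) (nat_lit 219)) (XT.lf (nat_lit 0) (nat_lit 1912905860) (nat_lit 380) (nat_lit 7340121762) (nat_lit 76) (nat_lit 967779142) (nat_lit 67) (nat_lit 5) (nat_lit 72) (nat_lit 5) (nat_lit 68) (nat_lit 5) (nat_lit 310) (nat_lit 252) (nat_lit 218)))) (XT.nd (nat_lit 78) (nat_lit 304) (nat_lit 0) (XT.lf (nat_lit 0) (nat_lit 4473121058) (nat_lit 380) (nat_lit 2152706302) (nat_lit 76) (nat_lit 3776599596) (nat_lit 67) (nat_lit 5) (nat_lit 72) (nat_lit 5) (nat_lit 68) (nat_lit 5) (nat_lit 311) (nat_lit 252) (nat_lit 217)) (XT.nd (nat_lit 78) (nat_lit 0) (nat_lit 0) (XT.lf (nat_lit 0) (nat_lit 3187043883) (nat_lit 304) (nat_lit 3905361754) (nat_lit 380)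 (nat_lit 3497712773) (nat_lit 63) (nat_lit 5) (nat_lit 67) (nat_lit 5) (nat_lit 68) (nat_lit 5) (nat_lit 312) (nat_lit 252) (nat_lit 216)) (XT.lf (nat_lit 0) (nat_lit 8666278445) (nat_lit 304) (nat_lit 1098141201) (nat_lit 380) (nat_lit 1019884337) (nat_lit 63) (nat_lit 5) (nat_lit 67) (nat_lit 5) (nat_lit 68) (nat_lit 5) (nat_lit 313) (nat_lit 252) (nat_lit 215)))))) (XT.nd (nat_lit 390) (nat_lit 532) (nat_lit 0) (XT.nd (nat_lit 156) (nat_lit 608) (nat_lit 0) (XT.nd (nat_lit 78) (nat_lit 0) (nat_lit 0) (XT.lf (nat_lit 0) (nat_lit 1505002314) (nat_lit 380) (nat_lit 7690433244) (nat_lit 76) (nat_lit 1788441838) (nat_lit 58) (nat_lit 5) (nat_lit 63) (nat_lit 5) (nat_lit 59) (nat_lit 5) (nat_lit 314) (nat_lit 252) (nat_lit 214)) (XT.lf (nat_lit 0) (nat_lit 4071452846) (nat_lit 380) (nat_lit 2363930822) (nat_lit 76) (nat_lit 4754242374) (nat_lit 58) (nat_lit 5) (nat_lit 63) (nat_lit 5) (nat_lit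 59) (nat_lit 5) (nat_lit 315) (nat_lit 252) (nat_lit 213))) (XT.nd (nat_lit 78) (nat_lit 380) (nat_lit 0) (XT.lf (nat_lit 0) (nat_lit 3120513978) (nat_lit 228) (nat_lit 3579567161) (nat_lit 304) (nat_lit 4701988583) (nat_lit 55) (nat_lit 5) (nat_lit 58) (nat_lit 5) (nat_lit 59) (nat_lit 5) (nat_lit 316) (nat_lit 252) (nat_lit 212)) (XT.nd (nat_lit 78) (nat_lit 380) (nat_lit 0) (XT.lf (nat_lit 0) (nat_lit 8755820374) (nat_lit 228) (nat_lit 631514902) (nat_lit 304) (nat_lit 2234234253) (nat_lit 55) (nat_lit 5) (nat_lit 58) (nat_lit 5) (nat_lit 59) (nat_lit 5) (nat_lit 317) (nat_lit 252) (nat_lit 211)) (XT.lf (nat_lit 0) (nat_lit 307431591) (nat_lit 380) (nat_lit 9170361607) (nat_lit 76) (nat_lit 2369667504) (nat_lit 50) (nat_lit 5) (nat_lit 55) (nat_lit 5) (nat_lit 51) (nat_lit 5) (nat_lit 318) (nat_lit 252) (nat_lit 210))))) (XT.nd (nat_lit 234) (nat_lit 304) (nat_lit 0) (XT.nd (nat_lit 78) (nat_lit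 228) (nat_lit 0) (XT.lf (nat_lit 0) (nat_lit 2873108880) (nat_lit 380) (nat_lit 3724771619) (nat_lit 76) (nat_lit 5481873849) (nat_lit 50) (nat_lit 5) (nat_lit 55) (nat_lit 5) (nat_lit 51) (nat_lit 5) (nat_lit 319) (nat_lit 252) (nat_lit 209)) (XT.nd (nat_lit 78) (nat_lit 0) (nat_lit 0) (XT.lf (nat_lit 0) (nat_lit 1860462497) (nat_lit 228) (nat_lit 3631614567) (nat_lit 304) (nat_lit 6827717493) (nat_lit 47) (nat_lit 5) (nat_lit 50) (nat_lit 5) (nat_lit 51) (nat_lit 5) (nat_lit 320) (nat_lit 252) (nat_lit 208)) (XT.lf (nat_lit 0) (nat_lit 7630168419) (nat_lit 228) (nat_lit 556134656) (nat_lit 304) (nat_lit 4380897644) (nat_lit 47) (nat_lit 5) (nat_lit 50) (nat_lit 5) (nat_lit 51) (nat_lit 5) (nat_lit 321) (nat_lit 252) (nat_lit 207)))) (XT.nd (nat_lit 78) (nat_lit 76) (nat_lit 0) (XT.lf (nat_lit 0) (nat_lit 680316679) (nat_lit 228) (nat_lit 10272778253) (nat_lit 304) (nat_lit 1869245464) (nat_lit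 44) (nat_lit 5) (nat_lit 47) (nat_lit 5) (nat_lit 48) (nat_lit 5) (nat_lit 322) (nat_lit 252) (nat_lit 206)) (XT.nd (nat_lit 78) (nat_lit 0) (nat_lit 0) (XT.lf (nat_lit 0) (nat_lit 719852669) (nat_lit 304) (nat_lit 6588213018) (nat_lit 76) (nat_lit 5776438377) (nat_lit 43) (nat_lit 5) (nat_lit 47) (nat_lit 5) (nat_lit 44) (nat_lit 5) (nat_lit 323) (nat_lit 252) (nat_lit 205)) (XT.lf (nat_lit 0) (nat_lit 3310459747) (nat_lit 304) (nat_lit 943640458) (nat_lit 76) (nat_lit 9101093153) (nat_lit 43) (nat_lit 5) (nat_lit 47) (nat_lit 5) (nat_lit 44) (nat_lit 5) (nat_lit 324) (nat_lit 252) (nat_lit 204))))))) (XT.nd (nat_lit 858) (nat_lit 608) (nat_lit 0) (XT.nd (nat_lit 390) (nat_lit 456) (nat_lit 0) (XT.nd (nat_lit 156) (nat_lit 456) (nat_lit 0) (XT.nd (nat_lit 78) (nat_lit 0) (nat_lit 0) (XT.lf (nat_lit 0) (nat_lit 4910414315) (nat_lit 228) (nat_lit 1078102708) (nat_lit 304) (nat_lit 7645250768)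 (nat_lit 40) (nat_lit 5) (nat_lit 43) (nat_lit 5) (nat_lit 44) (nat_lit 5) (nat_lit 325) (nat_lit 252) (nat_lit 203)) (XT.lf (nat_lit 0) (nat_lit 8740537777) (nat_lit 304) (nat_lit 3038271527) (nat_lit 76) (nat_lit 2142136282) (nat_lit 40) (nat_lit 5) (nat_lit 44) (nat_lit 5) (nat_lit 41) (nat_lit 5) (nat_lit 326) (nat_lit 252) (nat_lit 202))) (XT.nd (nat_lit 78) (nat_lit 228) (nat_lit 0) (XT.lf (nat_lit 0) (nat_lit 2806981470) (nat_lit 228) (nat_lit 8769790852) (nat_lit 304) (nat_lit 2639969979) (nat_lit 37) (nat_lit 5) (nat_lit 40) (nat_lit 5) (nat_lit 41) (nat_lit 5) (nat_lit 327) (nat_lit 252) (nat_lit 201)) (XT.nd (nat_lit 78) (nat_lit 228) (nat_lit 0) (XT.lf (nat_lit 0) (nat_lit 8835926331) (nat_lit 228) (nat_lit 5657374693) (nat_lit 304) (nat_lit 28307314) (nat_lit 37) (nat_lit 5) (nat_lit 40) (nat_lit 5) (nat_lit 41) (nat_lit 5) (nat_lit 328) (nat_lit 252) (nat_lit 200)) (XT.lf (nat_lit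 0) (nat_lit 134030768) (nat_lit 152) (nat_lit 2442192989) (nat_lit 228) (nat_lit 12259683954) (nat_lit 34) (nat_lit 5) (nat_lit 36) (nat_lit 5) (nat_lit 37) (nat_lit 5) (nat_lit 329) (nat_lit 252) (nat_lit 199))))) (XT.nd (nat_lit 234) (nat_lit 228) (nat_lit 0) (XT.nd (nat_lit 78) (nat_lit 228) (nat_lit 0) (XT.lf (nat_lit 0) (nat_lit 5290164943) (nat_lit 228) (nat_lit 8975732514) (nat_lit 76) (nat_lit 892822157) (nat_lit 34) (nat_lit 5) (nat_lit 37) (nat_lit 5) (nat_lit 35) (nat_lit 5) (nat_lit 330) (nat_lit 252) (nat_lit 198)) (XT.nd (nat_lit 78) (nat_lit 228) (nat_lit 0) (XT.lf (nat_lit 0) (nat_lit 8076212069) (nat_lit 228) (nat_lit 3153924031) (nat_lit 76) (nat_lit 4261405019) (nat_lit 34) (nat_lit 5) (nat_lit 37) (nat_lit 5) (nat_lit 35) (nat_lit 5) (nat_lit 331) (nat_lit 252) (nat_lit 197)) (XT.lf (nat_lit 0) (nat_lit 2847679866) (nat_lit 228) (nat_lit 8093017467) (nat_lit 304) (nat_lit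 4893848776) (nat_lit 31) (nat_lit 5) (nat_lit 34) (nat_lit 5) (nat_lit 35) (nat_lit 5) (nat_lit 332) (nat_lit 252) (nat_lit 196)))) (XT.nd (nat_lit 78) (nat_lit 228) (nat_lit 0) (XT.lf (nat_lit 0) (nat_lit 9044051287) (nat_lit 228) (nat_lit 4846864509) (nat_lit 304) (nat_lit 2296974736) (nat_lit 31) (nat_lit 5) (nat_lit 34) (nat_lit 5) (nat_lit 35) (nat_lit 5) (nat_lit 333) (nat_lit 252) (nat_lit 195)) (XT.nd (nat_lit 78) (nat_lit 152) (nat_lit 0) (XT.lf (nat_lit 0) (nat_lit 338967613) (nat_lit 304) (nat_lit 1178298710) (nat_lit 76) (nat_lit 15035444742) (nat_lit 30) (nat_lit 5) (nat_lit 34) (nat_lit 5) (nat_lit 31) (nat_lit 5) (nat_lit 334) (nat_lit 252) (nat_lit 194)) (XT.lf (nat_lit 0) (nat_lit 3044186609) (nat_lit 228) (nat_lit 11953040260) (nat_lit 76) (nat_lit 1929515689) (nat_lit 28) (nat_lit 5) (nat_lit 31) (nat_lit 5) (nat_lit 29) (nat_lit 5) (nat_lit 335) (nat_lit 252) (nat_lit 193))))))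 (XT.nd (nat_lit 468) (nat_lit 228) (nat_lit 0) (XT.nd (nat_lit 234) (nat_lit 228) (nat_lit 0) (XT.nd (nat_lit 78) (nat_lit 152) (nat_lit 0) (XT.lf (nat_lit 0) (nat_lit 5827322762) (nat_lit 228) (nat_lit 6040384478) (nat_lit 76) (nat_lit 5444423360) (nat_lit 28) (nat_lit 5) (nat_lit 31) (nat_lit 5) (nat_lit 29) (nat_lit 5) (nat_lit 336) (nat_lit 252) (nat_lit 192)) (XT.nd (nat_lit 78) (nat_lit 0) (nat_lit 0) (XT.lf (nat_lit 0) (nat_lit 3086450) (nat_lit 152) (nat_lit 8661499940) (nat_lit 228) (nat_lit 9045412191) (nat_lit 26) (nat_lit 5) (nat_lit 28) (nat_lit 5) (nat_lit 29) (nat_lit 5) (nat_lit 337) (nat_lit 252) (nat_lit 191)) (XT.lf (nat_lit 0) (nat_lit 6305515817) (nat_lit 152) (nat_lit 5313464284) (nat_lit 228) (nat_lit 6499898353) (nat_lit 26) (nat_lit 5) (nat_lit 28) (nat_lit 5) (nat_lit 29) (nat_lit 5) (nat_lit 338) (nat_lit 252) (nat_lit 190)))) (XT.nd (nat_lit 78) (nat_lit 228) (nat_lit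 0) (XT.lf (nat_lit 0) (nat_lit 12752195106) (nat_lit 152) (nat_lit 1881670841) (nat_lit 228) (nat_lit 3907038126) (nat_lit 26) (nat_lit 5) (nat_lit 28) (nat_lit 5) (nat_lit 29) (nat_lit 5) (nat_lit 339) (nat_lit 252) (nat_lit 189)) (XT.nd (nat_lit 78) (nat_lit 76) (nat_lit 0) (XT.lf (nat_lit 0) (nat_lit 363675063) (nat_lit 152) (nat_lit 17367433781) (nat_lit 228) (nat_lit 1244758438) (nat_lit 24) (nat_lit 5) (nat_lit 26) (nat_lit 5) (nat_lit 27) (nat_lit 4) (nat_lit 340) (nat_lit 252) (nat_lit 188)) (XT.lf (nat_lit 0) (nat_lit 1518436804) (nat_lit 228) (nat_lit 12680794690) (nat_lit 76) (nat_lit 5222740258) (nat_lit 23) (nat_lit 5) (nat_lit 26) (nat_lit 5) (nat_lit 24) (nat_lit 5) (nat_lit 341) (nat_lit 252) (nat_lit 187))))) (XT.nd (nat_lit 234) (nat_lit 76) (nat_lit 0) (XT.nd (nat_lit 78) (nat_lit 152) (nat_lit 0) (XT.lf (nat_lit 0) (nat_lit 4312910323) (nat_lit 228) (nat_lit 6626846979) (nat_lit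 76) (nat_lit 8942161537) (nat_lit 23) (nat_lit 5) (nat_lit 26) (nat_lit 5) (nat_lit 24) (nat_lit 5) (nat_lit 342) (nat_lit 252) (nat_lit 186)) (XT.nd (nat_lit 78) (nat_lit 152) (nat_lit 0) (XT.lf (nat_lit 0) (nat_lit 7165393614) (nat_lit 228) (nat_lit 433093849) (nat_lit 76) (nat_lit 12757981940) (nat_lit 23) (nat_lit 5) (nat_lit 26) (nat_lit 5) (nat_lit 24) (nat_lit 5) (nat_lit 343) (nat_lit 252) (nat_lit 185)) (XT.lf (nat_lit 0) (nat_lit 6023415243) (nat_lit 152) (nat_lit 4112864644) (nat_lit 228) (nat_lit 10708021187) (nat_lit 21) (nat_lit 5) (nat_lit 23) (nat_lit 5) (nat_lit 24) (nat_lit 5) (nat_lit 344) (nat_lit 252) (nat_lit 184)))) (XT.nd (nat_lit 78) (nat_lit 76) (nat_lit 0) (XT.lf (nat_lit 0) (nat_lit 12642300441) (nat_lit 152) (nat_lit 533637300) (nat_lit 228) (nat_lit 8171469194) (nat_lit 21) (nat_lit 5) (nat_lit 23) (nat_lit 5) (nat_lit 24) (nat_lit 5) (nat_lit 345) (nat_lit 252)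 (nat_lit 183)) (XT.nd (nat_lit 78) (nat_lit 76) (nat_lit 0) (XT.lf (nat_lit 0) (nat_lit 16312941051) (nat_lit 228) (nat_lit 2475792035) (nat_lit 76) (nat_lit 3076715970) (nat_lit 21) (nat_lit 5) (nat_lit 24) (nat_lit 5) (nat_lit 22) (nat_lit 4) (nat_lit 346) (nat_lit 252) (nat_lit 182)) (XT.lf (nat_lit 0) (nat_lit 3974193408) (nat_lit 76) (nat_lit 15589897914) (nat_lit 152) (nat_lit 2834366961) (nat_lit 20) (nat_lit 5) (nat_lit 21) (nat_lit 5) (nat_lit 22) (nat_lit 4) (nat_lit 347) (nat_lit 252) (nat_lit 181))))))))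
noncomputable def xc89 : XT := (XT.nd (nat_lit 1716) (nat_lit 304) (nat_lit 0) (XT.nd (nat_lit 858) (nat_lit 456) (nat_lit 0) (XT.nd (nat_lit 390) (nat_lit 152) (nat_lit 0) (XT.nd (nat_lit 156) (nat_lit 152) (nat_lit 0) (XT.nd (nat_lit 78) (nat_lit 76) (nat_lit 0) (XT.lf (nat_lit 0) (nat_lit 10630331198) (nat_lit 76) (nat_lit 12284313249) (nat_lit 152) (nat_lit 32783452) (nat_lit 20) (nat_lit 5) (nat_lit 21) (nat_lit 5) (nat_lit 22) (nat_lit 4) (nat_lit 348) (nat_lit 252) (nat_lit 180)) (XT.lf (nat_lit 0) (nat_lit 2774472421) (nat_lit 152) (nat_lit 6091602209) (nat_lit 76) (nat_lit 14646675108) (nat_lit 19) (nat_lit 5) (nat_lit 21) (nat_lit 5) (nat_lit 20) (nat_lit 5) (nat_lit 349) (nat_lit 252) (nat_lit 179))) (XT.nd (nat_lit 78) (nat_lit 0) (nat_lit 0) (XT.lf (nat_lit 0) (nat_lit 289609671) (nat_lit 152) (nat_lit 5356416816) (nat_lit 228) (nat_lit 18449596769) (nat_lit 17) (nat_lit 5) (nat_lit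 19) (nat_lit 5) (nat_lit 20) (nat_lit 5) (nat_lit 350) (nat_lit 252) (nat_lit 178)) (XT.nd (nat_lit 78) (nat_lit 0) (nat_lit 0) (XT.lf (nat_lit 0) (nat_lit 6951112204) (nat_lit 152) (nat_lit 1692379583) (nat_lit 228) (nat_lit 16051321498) (nat_lit 17) (nat_lit 5) (nat_lit 19) (nat_lit 5) (nat_lit 20) (nat_lit 5) (nat_lit 351) (nat_lit 252) (nat_lit 177)) (XT.lf (nat_lit 0) (nat_lit 11729642117) (nat_lit 228) (nat_lit 11555019987) (nat_lit 76) (nat_lit 2027376646) (nat_lit 17) (nat_lit 5) (nat_lit 20) (nat_lit 5) (nat_lit 18) (nat_lit 4) (nat_lit 352) (nat_lit 252) (nat_lit 176))))) (XT.nd (nat_lit 234) (nat_lit 76) (nat_lit 0) (XT.nd (nat_lit 78) (nat_lit 76) (nat_lit 0) (XT.lf (nat_lit 0) (nat_lit 14904503737) (nat_lit 228) (nat_lit 5231892342) (nat_lit 76) (nat_lit 5811523010) (nat_lit 17) (nat_lit 5) (nat_lit 20) (nat_lit 5) (nat_lit 18) (nat_lit 4) (nat_lit 353) (nat_lit 252) (nat_lit 175))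 (XT.nd (nat_lit 78) (nat_lit 0) (nat_lit 0) (XT.lf (nat_lit 0) (nat_lit 1272302305) (nat_lit 76) (nat_lit 16894510451) (nat_lit 152) (nat_lit 8436318307) (nat_lit 16) (nat_lit 5) (nat_lit 17) (nat_lit 5) (nat_lit 18) (nat_lit 4) (nat_lit 354) (nat_lit 252) (nat_lit 174)) (XT.lf (nat_lit 0) (nat_lit 8045745410) (nat_lit 76) (nat_lit 13514313824) (nat_lit 152) (nat_lit 5716968769) (nat_lit 16) (nat_lit 5) (nat_lit 17) (nat_lit 5) (nat_lit 18) (nat_lit 4) (nat_lit 355) (nat_lit 252) (nat_lit 173)))) (XT.nd (nat_lit 78) (nat_lit 76) (nat_lit 0) (XT.lf (nat_lit 0) (nat_lit 14990230599) (nat_lit 76) (nat_lit 10045684482) (nat_lit 152) (nat_lit 2935822464) (nat_lit 16) (nat_lit 5) (nat_lit 17) (nat_lit 5) (nat_lit 18) (nat_lit 4) (nat_lit 356) (nat_lit 252) (nat_lit 172)) (XT.nd (nat_lit 78) (nat_lit 76) (nat_lit 0) (XT.lf (nat_lit 0) (nat_lit 22111825867) (nat_lit 76) (nat_lit 6485591584) (nat_lit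 152) (nat_lit 90449263) (nat_lit 16) (nat_lit 5) (nat_lit 17) (nat_lit 5) (nat_lit 18) (nat_lit 4) (nat_lit 357) (nat_lit 252) (nat_lit 171)) (XT.lf (nat_lit 0) (nat_lit 2766576778) (nat_lit 152) (nat_lit 36410589) (nat_lit 76) (nat_lit 26622240189) (nat_lit 15) (nat_lit 5) (nat_lit 17) (nat_lit 5) (nat_lit 16) (nat_lit 5) (nat_lit 358) (nat_lit 252) (nat_lit 170)))))) (XT.nd (nat_lit 390) (nat_lit 228) (nat_lit 0) (XT.nd (nat_lit 156) (nat_lit 76) (nat_lit 0) (XT.nd (nat_lit 78) (nat_lit 0) (nat_lit 0) (XT.lf (nat_lit 0) (nat_lit 5765181297) (nat_lit 228) (nat_lit 23391898808) (nat_lit 76) (nat_lit 1025889500) (nat_lit 13) (nat_lit 5) (nat_lit 16) (nat_lit 5) (nat_lit 14) (nat_lit 4) (nat_lit 359) (nat_lit 252) (nat_lit 169)) (XT.lf (nat_lit 0) (nat_lit 8864234083) (nat_lit 228) (nat_lit 17197004412) (nat_lit 76) (nat_lit 4901908012) (nat_lit 13) (nat_lit 5) (nat_lit 16) (nat_lit 5) (nat_lit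 14) (nat_lit 4) (nat_lit 360) (nat_lit 252) (nat_lit 168))) (XT.nd (nat_lit 78) (nat_lit 76) (nat_lit 0) (XT.lf (nat_lit 0) (nat_lit 12039138516) (nat_lit 228) (nat_lit 10845329734) (nat_lit 76) (nat_lit 8882790859) (nat_lit 13) (nat_lit 5) (nat_lit 16) (nat_lit 5) (nat_lit 14) (nat_lit 4) (nat_lit 361) (nat_lit 252) (nat_lit 167)) (XT.nd (nat_lit 78) (nat_lit 76) (nat_lit 0) (XT.lf (nat_lit 0) (nat_lit 15292668784) (nat_lit 228) (nat_lit 4331324765) (nat_lit 76) (nat_lit 12972016480) (nat_lit 13) (nat_lit 5) (nat_lit 16) (nat_lit 5) (nat_lit 14) (nat_lit 4) (nat_lit 362) (nat_lit 252) (nat_lit 166)) (XT.lf (nat_lit 0) (nat_lit 2397485928) (nat_lit 76) (nat_lit 16253227951) (nat_lit 152) (nat_lit 14798718160) (nat_lit 12) (nat_lit 5) (nat_lit 13) (nat_lit 5) (nat_lit 14) (nat_lit 4) (nat_lit 363) (nat_lit 252) (nat_lit 165))))) (XT.nd (nat_lit 234) (nat_lit 228) (nat_lit 0) (XT.nd (nat_lit 78)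 (nat_lit 0) (nat_lit 0) (XT.lf (nat_lit 0) (nat_lit 9389819452) (nat_lit 76) (nat_lit 12747490812) (nat_lit 152) (nat_lit 12190327516) (nat_lit 12) (nat_lit 5) (nat_lit 13) (nat_lit 5) (nat_lit 14) (nat_lit 4) (nat_lit 364) (nat_lit 252) (nat_lit 164)) (XT.nd (nat_lit 78) (nat_lit 0) (nat_lit 0) (XT.lf (nat_lit 0) (nat_lit 16565583756) (nat_lit 76) (nat_lit 9147456753) (nat_lit 152) (nat_lit 9519628024) (nat_lit 12) (nat_lit 5) (nat_lit 13) (nat_lit 5) (nat_lit 14) (nat_lit 4) (nat_lit 365) (nat_lit 252) (nat_lit 163)) (XT.lf (nat_lit 0) (nat_lit 23931048925) (nat_lit 76) (nat_lit 5449980113) (nat_lit 152) (nat_lit 6784286064) (nat_lit 12) (nat_lit 5) (nat_lit 13) (nat_lit 5) (nat_lit 14) (nat_lit 4) (nat_lit 366) (nat_lit 252) (nat_lit 162)))) (XT.nd (nat_lit 78) (nat_lit 228) (nat_lit 0) (XT.lf (nat_lit 0) (nat_lit 31492650804) (nat_lit 76) (nat_lit 1651830089) (nat_lit 152) (nat_lit 3981911531)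 (nat_lit 12) (nat_lit 5) (nat_lit 13) (nat_lit 5) (nat_lit 14) (nat_lit 4) (nat_lit 367) (nat_lit 252) (nat_lit 161)) (XT.nd (nat_lit 78) (nat_lit 76) (nat_lit 0) (XT.lf (nat_lit 0) (nat_lit 1140887797) (nat_lit 152) (nat_lit 35898395015) (nat_lit 152) (nat_lit 1076479512) (nat_lit 10) (nat_lit 4) (nat_lit 12) (nat_lit 5) (nat_lit 12) (nat_lit 4) (nat_lit 368) (nat_lit 252) (nat_lit 160)) (XT.lf (nat_lit 0) (nat_lit 1938315493) (nat_lit 228) (nat_lit 30958704056) (nat_lit 76) (nat_lit 6235466365) (nat_lit 9) (nat_lit 5) (nat_lit 12) (nat_lit 5) (nat_lit 10) (nat_lit 4) (nat_lit 369) (nat_lit 252) (nat_lit 159))))))) (XT.nd (nat_lit 858) (nat_lit 228) (nat_lit 0) (XT.nd (nat_lit 390) (nat_lit 0) (nat_lit 0) (XT.nd (nat_lit 156) (nat_lit 76) (nat_lit 0) (XT.nd (nat_lit 78) (nat_lit 0) (nat_lit 0) (XT.lf (nat_lit 0) (nat_lit 5008114855) (nat_lit 228) (nat_lit 24796495824) (nat_lit 76) (nat_lit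 10375207382) (nat_lit 9) (nat_lit 5) (nat_lit 12) (nat_lit 5) (nat_lit 10) (nat_lit 4) (nat_lit 370) (nat_lit 252) (nat_lit 158)) (XT.lf (nat_lit 0) (nat_lit 8156606914) (nat_lit 228) (nat_lit 18472517596) (nat_lit 76) (nat_lit 14629859832) (nat_lit 9) (nat_lit 5) (nat_lit 12) (nat_lit 5) (nat_lit 10) (nat_lit 4) (nat_lit 371) (nat_lit 252) (nat_lit 157))) (XT.nd (nat_lit 78) (nat_lit 76) (nat_lit 0) (XT.lf (nat_lit 0) (nat_lit 11386542780) (nat_lit 228) (nat_lit 11981243567) (nat_lit 76) (nat_lit 19003141372) (nat_lit 9) (nat_lit 5) (nat_lit 12) (nat_lit 5) (nat_lit 10) (nat_lit 4) (nat_lit 372) (nat_lit 252) (nat_lit 156)) (XT.nd (nat_lit 78) (nat_lit 76) (nat_lit 0) (XT.lf (nat_lit 0) (nat_lit 14700744727) (nat_lit 228) (nat_lit 5317001750) (nat_lit 76) (nat_lit 23498873315) (nat_lit 9) (nat_lit 5) (nat_lit 12) (nat_lit 5) (nat_lit 10) (nat_lit 4) (nat_lit 373) (nat_lit 252) (nat_lit 155))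 (XT.lf (nat_lit 0) (nat_lit 1556401988) (nat_lit 76) (nat_lit 16560667760) (nat_lit 152) (nat_lit 26579543071) (nat_lit 8) (nat_lit 5) (nat_lit 9) (nat_lit 5) (nat_lit 10) (nat_lit 4) (nat_lit 374) (nat_lit 252) (nat_lit 154))))) (XT.nd (nat_lit 234) (nat_lit 0) (nat_lit 0) (XT.nd (nat_lit 78) (nat_lit 0) (nat_lit 0) (XT.lf (nat_lit 0) (nat_lit 8724072038) (nat_lit 76) (nat_lit 12953395722) (nat_lit 152) (nat_lit 24233301157) (nat_lit 8) (nat_lit 5) (nat_lit 9) (nat_lit 5) (nat_lit 10) (nat_lit 4) (nat_lit 375) (nat_lit 252) (nat_lit 153)) (XT.nd (nat_lit 78) (nat_lit 0) (nat_lit 0) (XT.lf (nat_lit 0) (nat_lit 16086452653) (nat_lit 76) (nat_lit 9246469672) (nat_lit 152) (nat_lit 21828790501) (nat_lit 8) (nat_lit 5) (nat_lit 9) (nat_lit 5) (nat_lit 10) (nat_lit 4) (nat_lit 376) (nat_lit 252) (nat_lit 152)) (XT.lf (nat_lit 0) (nat_lit 23649976981) (nat_lit 76) (nat_lit 5436650547) (nat_lit 152)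 (nat_lit 19363910073) (nat_lit 8) (nat_lit 5) (nat_lit 9) (nat_lit 5) (nat_lit 10) (nat_lit 4) (nat_lit 377) (nat_lit 252) (nat_lit 151)))) (XT.nd (nat_lit 78) (nat_lit 0) (nat_lit 0) (XT.lf (nat_lit 0) (nat_lit 31421253926) (nat_lit 76) (nat_lit 1520609380) (nat_lit 152) (nat_lit 16836506096) (nat_lit 8) (nat_lit 5) (nat_lit 9) (nat_lit 5) (nat_lit 10) (nat_lit 4) (nat_lit 378) (nat_lit 252) (nat_lit 150)) (XT.nd (nat_lit 78) (nat_lit 0) (nat_lit 0) (XT.lf (nat_lit 0) (nat_lit 36926078631) (nat_lit 152) (nat_lit 11763374863) (nat_lit 0) (nat_lit 2456192564) (nat_lit 8) (nat_lit 5) (nat_lit 10) (nat_lit 4) (nat_lit 8) (nat_lit 4) (nat_lit 379) (nat_lit 252) (nat_lit 149)) (XT.lf (nat_lit 0) (nat_lit 41034358299) (nat_lit 152) (nat_lit 5005180705) (nat_lit 0) (nat_lit 6514275172) (nat_lit 8) (nat_lit 5) (nat_lit 10) (nat_lit 4) (nat_lit 8) (nat_lit 4) (nat_lit 380) (nat_lit 252) (nat_lit 148))))))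 (XT.nd (nat_lit 468) (nat_lit 76) (nat_lit 0) (XT.nd (nat_lit 234) (nat_lit 76) (nat_lit 0) (XT.nd (nat_lit 78) (nat_lit 0) (nat_lit 0) (XT.lf (nat_lit 0) (nat_lit 1976559028) (nat_lit 76) (nat_lit 43298115909) (nat_lit 76) (nat_lit 8729297770) (nat_lit 7) (nat_lit 4) (nat_lit 8) (nat_lit 5) (nat_lit 8) (nat_lit 4) (nat_lit 381) (nat_lit 252) (nat_lit 147)) (XT.nd (nat_lit 78) (nat_lit 0) (nat_lit 0) (XT.lf (nat_lit 0) (nat_lit 9252756434) (nat_lit 76) (nat_lit 40429904111) (nat_lit 76) (nat_lit 5813770428) (nat_lit 7) (nat_lit 4) (nat_lit 8) (nat_lit 5) (nat_lit 8) (nat_lit 4) (nat_lit 382) (nat_lit 252) (nat_lit 146)) (XT.lf (nat_lit 0) (nat_lit 16730156444) (nat_lit 76) (nat_lit 37482939919) (nat_lit 76) (nat_lit 2820868815) (nat_lit 7) (nat_lit 4) (nat_lit 8) (nat_lit 5) (nat_lit 8) (nat_lit 4) (nat_lit 383) (nat_lit 252) (nat_lit 145)))) (XT.nd (nat_lit 78) (nat_lit 0) (nat_lit 0) (XT.lf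 (nat_lit 0) (nat_lit 247104365) (nat_lit 152) (nat_lit 34205048680) (nat_lit 76) (nat_lit 24165693073) (nat_lit 6) (nat_lit 5) (nat_lit 8) (nat_lit 5) (nat_lit 7) (nat_lit 4) (nat_lit 384) (nat_lit 252) (nat_lit 144)) (XT.nd (nat_lit 78) (nat_lit 0) (nat_lit 0) (XT.lf (nat_lit 0) (nat_lit 3341093437) (nat_lit 152) (nat_lit 27967551289) (nat_lit 76) (nat_lit 28940048464) (nat_lit 6) (nat_lit 5) (nat_lit 8) (nat_lit 5) (nat_lit 7) (nat_lit 4) (nat_lit 385) (nat_lit 252) (nat_lit 143)) (XT.lf (nat_lit 0) (nat_lit 6518847197) (nat_lit 152) (nat_lit 21558750405) (nat_lit 76) (nat_lit 33851147283) (nat_lit 6) (nat_lit 5) (nat_lit 8) (nat_lit 5) (nat_lit 7) (nat_lit 4) (nat_lit 386) (nat_lit 252) (nat_lit 142))))) (XT.nd (nat_lit 234) (nat_lit 76) (nat_lit 0) (XT.nd (nat_lit 78) (nat_lit 0) (nat_lit 0) (XT.lf (nat_lit 0) (nat_lit 9783142323) (nat_lit 152) (nat_lit 14973046105) (nat_lit 76) (nat_lit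 38903280781) (nat_lit 6) (nat_lit 5) (nat_lit 8) (nat_lit 5) (nat_lit 7) (nat_lit 4) (nat_lit 387) (nat_lit 252) (nat_lit 141)) (XT.nd (nat_lit 78) (nat_lit 0) (nat_lit 0) (XT.lf (nat_lit 0) (nat_lit 13136831111) (nat_lit 152) (nat_lit 8204683888) (nat_lit 76) (nat_lit 44100863443) (nat_lit 6) (nat_lit 5) (nat_lit 8) (nat_lit 5) (nat_lit 7) (nat_lit 4) (nat_lit 388) (nat_lit 252) (nat_lit 140)) (XT.lf (nat_lit 0) (nat_lit 16582843969) (nat_lit 152) (nat_lit 1247749654) (nat_lit 76) (nat_lit 49448436846) (nat_lit 6) (nat_lit 5) (nat_lit 8) (nat_lit 5) (nat_lit 7) (nat_lit 4) (nat_lit 389) (nat_lit 252) (nat_lit 139)))) (XT.nd (nat_lit 78) (nat_lit 0) (nat_lit 0) (XT.lf (nat_lit 0) (nat_lit 6021333375) (nat_lit 76) (nat_lit 14160739341) (nat_lit 152) (nat_lit 48987220992) (nat_lit 5) (nat_lit 5) (nat_lit 6) (nat_lit 5) (nat_lit 7) (nat_lit 4) (nat_lit 390) (nat_lit 252) (nat_lit 138)) (XT.nd (nat_lit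 78) (nat_lit 0) (nat_lit 0) (XT.lf (nat_lit 0) (nat_lit 13520147221) (nat_lit 76) (nat_lit 10373786219) (nat_lit 152) (nat_lit 47222198272) (nat_lit 5) (nat_lit 5) (nat_lit 6) (nat_lit 5) (nat_lit 7) (nat_lit 4) (nat_lit 391) (nat_lit 252) (nat_lit 137)) (XT.lf (nat_lit 0) (nat_lit 21230411581) (nat_lit 76) (nat_lit 6479025095) (nat_lit 152) (nat_lit 45412175912) (nat_lit 5) (nat_lit 5) (nat_lit 6) (nat_lit 5) (nat_lit 7) (nat_lit 4) (nat_lit 392) (nat_lit 252) (nat_lit 136))))))))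
noncomputable def xc90 : XT := (XT.nd (nat_lit 32682) (nat_lit 0) (nat_lit 4408) (XT.nd (nat_lit 31824) (nat_lit 0) (nat_lit 9652) (XT.nd (nat_lit 31356) (nat_lit 0) (nat_lit 15732) (XT.nd (nat_lit 156) (nat_lit 0) (nat_lit 0) (XT.nd (nat_lit 78) (nat_lit 0) (nat_lit 0) (XT.lf (nat_lit 0) (nat_lit 29158863578) (nat_lit 76) (nat_lit 2473052779) (nat_lit 152) (nat_lit 43555572339) (nat_lit 5) (nat_lit 5) (nat_lit 6) (nat_lit 5) (nat_lit 7) (nat_lit 4) (nat_lit 393) (nat_lit 252) (nat_lit 135)) (XT.lf (nat_lit 0) (nat_lit 35680637932) (nat_lit 152) (nat_lit 40018972224) (nat_lit 0) (nat_lit 1615479875) (nat_lit 5) (nat_lit 5) (nat_lit 7) (nat_lit 4) (nat_lit 5) (nat_lit 4) (nat_lit 394) (nat_lit 252) (nat_lit 134))) (XT.nd (nat_lit 78) (nat_lit 0) (nat_lit 0) (XT.lf (nat_lit 0) (nat_lit 39868197026) (nat_lit 152) (nat_lit 33866049077) (nat_lit 0) (nat_lit 5771757819) (nat_lit 5) (nat_lit 5) (nat_lit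 7) (nat_lit 4) (nat_lit 5) (nat_lit 4) (nat_lit 395) (nat_lit 252) (nat_lit 133)) (XT.nd (nat_lit 78) (nat_lit 0) (nat_lit 0) (XT.lf (nat_lit 0) (nat_lit 44174480175) (nat_lit 152) (nat_lit 27540706843) (nat_lit 0) (nat_lit 10047670921) (nat_lit 5) (nat_lit 5) (nat_lit 7) (nat_lit 4) (nat_lit 5) (nat_lit 4) (nat_lit 396) (nat_lit 252) (nat_lit 132)) (XT.lf (nat_lit 0) (nat_lit 48603250150) (nat_lit 152) (nat_lit 21037418523) (nat_lit 0) (nat_lit 14446955413) (nat_lit 5) (nat_lit 5) (nat_lit 7) (nat_lit 4) (nat_lit 5) (nat_lit 4) (nat_lit 397) (nat_lit 252) (nat_lit 131))))) (XT.nd (nat_lit 234) (nat_lit 760) (nat_lit 0) (XT.nd (nat_lit 78) (nat_lit 1216) (nat_lit 0) (XT.lf (nat_lit 0) (nat_lit 1549670872) (nat_lit 532) (nat_lit 236715194) (nat_lit 0) (nat_lit 1549670872) (nat_lit 238) (nat_lit 5) (nat_lit 245) (nat_lit 4) (nat_lit 238) (nat_lit 4) (nat_lit 274) (nat_lit 253) (nat_lit 253)) (XT.nd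 (nat_lit 78) (nat_lit 684) (nat_lit 0) (XT.lf (nat_lit 0) (nat_lit 3251672070) (nat_lit 532) (nat_lit 2737693356) (nat_lit 532) (nat_lit 717786339) (nat_lit 231) (nat_lit 4) (nat_lit 238) (nat_lit 5) (nat_lit 238) (nat_lit 4) (nat_lit 275) (nat_lit 253) (nat_lit 252)) (XT.lf (nat_lit 0) (nat_lit 264180162) (nat_lit 608) (nat_lit 1827032623) (nat_lit 684) (nat_lit 4654387460) (nat_lit 222) (nat_lit 5) (nat_lit 230) (nat_lit 5) (nat_lit 231) (nat_lit 4) (nat_lit 276) (nat_lit 253) (nat_lit 251)))) (XT.nd (nat_lit 78) (nat_lit 760) (nat_lit 0) (XT.lf (nat_lit 0) (nat_lit 4085052519) (nat_lit 608) (nat_lit 826272802) (nat_lit 684) (nat_lit 1875767936) (nat_lit 222) (nat_lit 5) (nat_lit 230) (nat_lit 5) (nat_lit 231) (nat_lit 4) (nat_lit 277) (nat_lit 253) (nat_lit 250)) (XT.nd (nat_lit 78) (nat_lit 0) (nat_lit 0) (XT.lf (nat_lit 0) (nat_lit 888108399) (nat_lit 760) (nat_lit 5705333098) (nat_lit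 76) (nat_lit 238793615) (nat_lit 212) (nat_lit 5) (nat_lit 222) (nat_lit 5) (nat_lit 213) (nat_lit 4) (nat_lit 278) (nat_lit 253) (nat_lit 249)) (XT.lf (nat_lit 0) (nat_lit 3643021340) (nat_lit 760) (nat_lit 1855249364) (nat_lit 76) (nat_lit 1381842053) (nat_lit 212) (nat_lit 5) (nat_lit 222) (nat_lit 5) (nat_lit 213) (nat_lit 4) (nat_lit 279) (nat_lit 253) (nat_lit 248)))))) (XT.nd (nat_lit 390) (nat_lit 3420) (nat_lit 0) (XT.nd (nat_lit 156) (nat_lit 1824) (nat_lit 0) (XT.nd (nat_lit 78) (nat_lit 76) (nat_lit 0) (XT.lf (nat_lit 0) (nat_lit 2076669991) (nat_lit 760) (nat_lit 4336577794) (nat_lit 836) (nat_lit 518503173) (nat_lit 202) (nat_lit 5) (nat_lit 212) (nat_lit 5) (nat_lit 213) (nat_lit 4) (nat_lit 280) (nat_lit 253) (nat_lit 247)) (XT.lf (nat_lit 0) (nat_lit 2169444127) (nat_lit 836) (nat_lit 917389599) (nat_lit 76) (nat_lit 3899763615) (nat_lit 201) (nat_lit 5) (nat_lit 212) (nat_lit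 5) (nat_lit 202) (nat_lit 5) (nat_lit 281) (nat_lit 253) (nat_lit 246))) (XT.nd (nat_lit 78) (nat_lit 988) (nat_lit 0) (XT.lf (nat_lit 0) (nat_lit 3120924526) (nat_lit 836) (nat_lit 1752610959) (nat_lit 912) (nat_lit 2171300201) (nat_lit 190) (nat_lit 5) (nat_lit 201) (nat_lit 5) (nat_lit 202) (nat_lit 5) (nat_lit 282) (nat_lit 253) (nat_lit 245)) (XT.nd (nat_lit 78) (nat_lit 0) (nat_lit 0) (XT.lf (nat_lit 0) (nat_lit 117039165) (nat_lit 912) (nat_lit 353158707) (nat_lit 988) (nat_lit 6636913625) (nat_lit 177) (nat_lit 5) (nat_lit 189) (nat_lit 5) (nat_lit 190) (nat_lit 5) (nat_lit 283) (nat_lit 253) (nat_lit 244)) (XT.lf (nat_lit 0) (nat_lit 3116171743) (nat_lit 988) (nat_lit 2919294021) (nat_lit 76) (nat_lit 1136333493) (nat_lit 177) (nat_lit 5) (nat_lit 190) (nat_lit 5) (nat_lit 178) (nat_lit 5) (nat_lit 284) (nat_lit 253) (nat_lit 243))))) (XT.nd (nat_lit 234) (nat_lit 1292) (nat_lit 0)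 (XT.nd (nat_lit 78) (nat_lit 1140) (nat_lit 0) (XT.lf (nat_lit 0) (nat_lit 1219609049) (nat_lit 988) (nat_lit 4557907417) (nat_lit 1064) (nat_lit 1463078784) (nat_lit 164) (nat_lit 5) (nat_lit 177) (nat_lit 5) (nat_lit 178) (nat_lit 5) (nat_lit 285) (nat_lit 253) (nat_lit 242)) (XT.nd (nat_lit 78) (nat_lit 1064) (nat_lit 0) (XT.lf (nat_lit 0) (nat_lit 1134827436) (nat_lit 1064) (nat_lit 1855316119) (nat_lit 76) (nat_lit 4322662413) (nat_lit 163) (nat_lit 5) (nat_lit 177) (nat_lit 5) (nat_lit 164) (nat_lit 5) (nat_lit 286) (nat_lit 253) (nat_lit 241)) (XT.lf (nat_lit 0) (nat_lit 2394385909) (nat_lit 1064) (nat_lit 1333552799) (nat_lit 1140) (nat_lit 3660635853) (nat_lit 149) (nat_lit 5) (nat_lit 163) (nat_lit 5) (nat_lit 164) (nat_lit 5) (nat_lit 287) (nat_lit 253) (nat_lit 240)))) (XT.nd (nat_lit 78) (nat_lit 1292) (nat_lit 0) (XT.lf (nat_lit 0) (nat_lit 6346554531) (nat_lit 1140) (nat_lit 735156249)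 (nat_lit 76) (nat_lit 386693861) (nat_lit 149) (nat_lit 5) (nat_lit 164) (nat_lit 5) (nat_lit 150) (nat_lit 5) (nat_lit 288) (nat_lit 253) (nat_lit 239)) (XT.nd (nat_lit 78) (nat_lit 532) (nat_lit 0) (XT.lf (nat_lit 0) (nat_lit 1439059421) (nat_lit 760) (nat_lit 3929039243) (nat_lit 76) (nat_lit 2183054656) (nat_lit 139) (nat_lit 5) (nat_lit 149) (nat_lit 5) (nat_lit 140) (nat_lit 5) (nat_lit 289) (nat_lit 253) (nat_lit 238)) (XT.lf (nat_lit 0) (nat_lit 412188481) (nat_lit 532) (nat_lit 3581419560) (nat_lit 608) (nat_lit 3644463517) (nat_lit 132) (nat_lit 5) (nat_lit 139) (nat_lit 5) (nat_lit 140) (nat_lit 5) (nat_lit 290) (nat_lit 253) (nat_lit 237))))))) (XT.nd (nat_lit 858) (nat_lit 2280) (nat_lit 0) (XT.nd (nat_lit 390) (nat_lit 1824) (nat_lit 0) (XT.nd (nat_lit 156) (nat_lit 532) (nat_lit 0) (XT.nd (nat_lit 78) (nat_lit 608) (nat_lit 0) (XT.lf (nat_lit 0) (nat_lit 4891232269) (nat_lit 532)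 (nat_lit 1702535602) (nat_lit 608) (nat_lit 1134955490) (nat_lit 132) (nat_lit 5) (nat_lit 139) (nat_lit 5) (nat_lit 140) (nat_lit 5) (nat_lit 291) (nat_lit 253) (nat_lit 236)) (XT.lf (nat_lit 0) (nat_lit 1370190340) (nat_lit 608) (nat_lit 6197999310) (nat_lit 76) (nat_lit 255211696) (nat_lit 124) (nat_lit 5) (nat_lit 132) (nat_lit 5) (nat_lit 125) (nat_lit 5) (nat_lit 292) (nat_lit 253) (nat_lit 235))) (XT.nd (nat_lit 78) (nat_lit 532) (nat_lit 0) (XT.lf (nat_lit 0) (nat_lit 3905266997) (nat_lit 608) (nat_lit 1741974614) (nat_lit 76) (nat_lit 2274191994) (nat_lit 124) (nat_lit 5) (nat_lit 132) (nat_lit 5) (nat_lit 125) (nat_lit 5) (nat_lit 293) (nat_lit 253) (nat_lit 234)) (XT.nd (nat_lit 78) (nat_lit 76) (nat_lit 0) (XT.lf (nat_lit 0) (nat_lit 2831245989) (nat_lit 456) (nat_lit 3646146560) (nat_lit 532) (nat_lit 1546357873) (nat_lit 118) (nat_lit 5) (nat_lit 124) (nat_lit 5) (nat_lit 125)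 (nat_lit 5) (nat_lit 294) (nat_lit 253) (nat_lit 233)) (XT.lf (nat_lit 0) (nat_lit 930062532) (nat_lit 532) (nat_lit 633502311) (nat_lit 76) (nat_lit 6566888263) (nat_lit 117) (nat_lit 5) (nat_lit 124) (nat_lit 5) (nat_lit 118) (nat_lit 5) (nat_lit 295) (nat_lit 253) (nat_lit 232))))) (XT.nd (nat_lit 234) (nat_lit 836) (nat_lit 0) (XT.nd (nat_lit 78) (nat_lit 532) (nat_lit 0) (XT.lf (nat_lit 0) (nat_lit 3430880191) (nat_lit 532) (nat_lit 4191156716) (nat_lit 76) (nat_lit 618583868) (nat_lit 111) (nat_lit 5) (nat_lit 118) (nat_lit 5) (nat_lit 112) (nat_lit 5) (nat_lit 296) (nat_lit 253) (nat_lit 231)) (XT.nd (nat_lit 78) (nat_lit 76) (nat_lit 0) (XT.lf (nat_lit 0) (nat_lit 453644954) (nat_lit 456) (nat_lit 5516636465) (nat_lit 532) (nat_lit 2385059423) (nat_lit 105) (nat_lit 5) (nat_lit 111) (nat_lit 5) (nat_lit 112) (nat_lit 5) (nat_lit 297) (nat_lit 253) (nat_lit 230)) (XT.lf (nat_lit 0) (nat_lit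 90556801) (nat_lit 532) (nat_lit 3222377486) (nat_lit 76) (nat_lit 5161269497) (nat_lit 104) (nat_lit 5) (nat_lit 111) (nat_lit 5) (nat_lit 105) (nat_lit 5) (nat_lit 298) (nat_lit 253) (nat_lit 229)))) (XT.nd (nat_lit 78) (nat_lit 380) (nat_lit 0) (XT.lf (nat_lit 0) (nat_lit 1533384378) (nat_lit 456) (nat_lit 1013321496) (nat_lit 532) (nat_lit 6050733317) (nat_lit 98) (nat_lit 5) (nat_lit 104) (nat_lit 5) (nat_lit 105) (nat_lit 5) (nat_lit 299) (nat_lit 253) (nat_lit 228)) (XT.nd (nat_lit 78) (nat_lit 380) (nat_lit 0) (XT.lf (nat_lit 0) (nat_lit 5062888377) (nat_lit 532) (nat_lit 2310248635) (nat_lit 76) (nat_lit 1351781129) (nat_lit 98) (nat_lit 5) (nat_lit 105) (nat_lit 5) (nat_lit 99) (nat_lit 5) (nat_lit 300) (nat_lit 253) (nat_lit 227)) (XT.lf (nat_lit 0) (nat_lit 2556730947) (nat_lit 380) (nat_lit 5074628663) (nat_lit 456) (nat_lit 1225690716) (nat_lit 93) (nat_lit 5) (nat_lit 98) (nat_lit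 5) (nat_lit 99) (nat_lit 5) (nat_lit 301) (nat_lit 253) (nat_lit 226)))))) (XT.nd (nat_lit 468) (nat_lit 988) (nat_lit 0) (XT.nd (nat_lit 234) (nat_lit 836) (nat_lit 0) (XT.nd (nat_lit 78) (nat_lit 380) (nat_lit 0) (XT.lf (nat_lit 0) (nat_lit 1224776906) (nat_lit 456) (nat_lit 1457828560) (nat_lit 76) (nat_lit 6311313476) (nat_lit 92) (nat_lit 5) (nat_lit 98) (nat_lit 5) (nat_lit 93) (nat_lit 5) (nat_lit 302) (nat_lit 253) (nat_lit 225)) (XT.nd (nat_lit 78) (nat_lit 0) (nat_lit 0) (XT.lf (nat_lit 0) (nat_lit 3518609119) (nat_lit 380) (nat_lit 183540016) (nat_lit 456) (nat_lit 5433161321) (nat_lit 87) (nat_lit 5) (nat_lit 92) (nat_lit 5) (nat_lit 93) (nat_lit 5) (nat_lit 303) (nat_lit 253) (nat_lit 224)) (XT.lf (nat_lit 0) (nat_lit 6236751549) (nat_lit 456) (nat_lit 698234365) (nat_lit 76) (nat_lit 2346588668) (nat_lit 87) (nat_lit 5) (nat_lit 93) (nat_lit 5) (nat_lit 88) (nat_lit 5) (nat_lit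 304) (nat_lit 253) (nat_lit 223)))) (XT.nd (nat_lit 78) (nat_lit 456) (nat_lit 0) (XT.lf (nat_lit 0) (nat_lit 4384703966) (nat_lit 380) (nat_lit 4453316984) (nat_lit 456) (nat_lit 594601507) (nat_lit 82) (nat_lit 5) (nat_lit 87) (nat_lit 5) (nat_lit 88) (nat_lit 5) (nat_lit 305) (nat_lit 253) (nat_lit 222)) (XT.nd (nat_lit 78) (nat_lit 380) (nat_lit 0) (XT.lf (nat_lit 0) (nat_lit 1845555526) (nat_lit 456) (nat_lit 39495919) (nat_lit 76) (nat_lit 7704079926) (nat_lit 81) (nat_lit 5) (nat_lit 87) (nat_lit 5) (nat_lit 82) (nat_lit 5) (nat_lit 306) (nat_lit 253) (nat_lit 221)) (XT.lf (nat_lit 0) (nat_lit 4352676341) (nat_lit 456) (nat_lit 4609665939) (nat_lit 76) (nat_lit 787750319) (nat_lit 76) (nat_lit 5) (nat_lit 82) (nat_lit 5) (nat_lit 77) (nat_lit 5) (nat_lit 307) (nat_lit 253) (nat_lit 220))))) (XT.nd (nat_lit 234) (nat_lit 304) (nat_lit 0) (XT.nd (nat_lit 78) (nat_lit 380) (nat_lit 0) (XT.lf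 (nat_lit 0) (nat_lit 485269010) (nat_lit 304) (nat_lit 6422712859) (nat_lit 380) (nat_lit 3008813568) (nat_lit 72) (nat_lit 5) (nat_lit 76) (nat_lit 5) (nat_lit 77) (nat_lit 5) (nat_lit 308) (nat_lit 253) (nat_lit 219)) (XT.nd (nat_lit 78) (nat_lit 380) (nat_lit 0) (XT.lf (nat_lit 0) (nat_lit 5761976484) (nat_lit 304) (nat_lit 3774606562) (nat_lit 380) (nat_lit 552116156) (nat_lit 72) (nat_lit 5) (nat_lit 76) (nat_lit 5) (nat_lit 77) (nat_lit 5) (nat_lit 309) (nat_lit 253) (nat_lit 218)) (XT.lf (nat_lit 0) (nat_lit 864346686) (nat_lit 304) (nat_lit 1034608388) (nat_lit 380) (nat_lit 8367549482) (nat_lit 67) (nat_lit 5) (nat_lit 71) (nat_lit 5) (nat_lit 72) (nat_lit 5) (nat_lit 310) (nat_lit 253) (nat_lit 217)))) (XT.nd (nat_lit 78) (nat_lit 304) (nat_lit 0) (XT.lf (nat_lit 0) (nat_lit 4425395974) (nat_lit 380) (nat_lit 4237052512) (nat_lit 76) (nat_lit 1786734094) (nat_lit 67) (nat_lit 5) (nat_lit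 72) (nat_lit 5) (nat_lit 68) (nat_lit 5) (nat_lit 311) (nat_lit 253) (nat_lit 216)) (XT.nd (nat_lit 78) (nat_lit 0) (nat_lit 0) (XT.lf (nat_lit 0) (nat_lit 1029275935) (nat_lit 304) (nat_lit 5971527870) (nat_lit 380) (nat_lit 3637429831) (nat_lit 63) (nat_lit 5) (nat_lit 67) (nat_lit 5) (nat_lit 68) (nat_lit 5) (nat_lit 312) (nat_lit 253) (nat_lit 215)) (XT.lf (nat_lit 0) (nat_lit 6477501603) (nat_lit 304) (nat_lit 3172557007) (nat_lit 380) (nat_lit 1183085417) (nat_lit 63) (nat_lit 5) (nat_lit 67) (nat_lit 5) (nat_lit 68) (nat_lit 5) (nat_lit 313) (nat_lit 253) (nat_lit 214))))))))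
noncomputable def xc91 : XT := (XT.nd (nat_lit 1716) (nat_lit 988) (nat_lit 0) (XT.nd (nat_lit 858) (nat_lit 1140) (nat_lit 0) (XT.nd (nat_lit 390) (nat_lit 608) (nat_lit 0) (XT.nd (nat_lit 156) (nat_lit 532) (nat_lit 0) (XT.nd (nat_lit 78) (nat_lit 0) (nat_lit 0) (XT.lf (nat_lit 0) (nat_lit 999755001) (nat_lit 304) (nat_lit 283120074) (nat_lit 380) (nat_lit 9751792381) (nat_lit 58) (nat_lit 5) (nat_lit 62) (nat_lit 5) (nat_lit 63) (nat_lit 5) (nat_lit 314) (nat_lit 253) (nat_lit 213)) (XT.lf (nat_lit 0) (nat_lit 3824529186) (nat_lit 380) (nat_lit 4736597457) (nat_lit 76) (nat_lit 2680071826) (nat_lit 58) (nat_lit 5) (nat_lit 63) (nat_lit 5) (nat_lit 59) (nat_lit 5) (nat_lit 315) (nat_lit 253) (nat_lit 212))) (XT.nd (nat_lit 78) (nat_lit 304) (nat_lit 0) (XT.lf (nat_lit 0) (nat_lit 670020707) (nat_lit 228) (nat_lit 5738149191) (nat_lit 304) (nat_lit 5046859231) (nat_lit 55) (nat_lit 5) (nat_lit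 58) (nat_lit 5) (nat_lit 59) (nat_lit 5) (nat_lit 316) (nat_lit 253) (nat_lit 211)) (XT.nd (nat_lit 78) (nat_lit 304) (nat_lit 0) (XT.lf (nat_lit 0) (nat_lit 6275612619) (nat_lit 228) (nat_lit 2798718073) (nat_lit 304) (nat_lit 2600867309) (nat_lit 55) (nat_lit 5) (nat_lit 58) (nat_lit 5) (nat_lit 59) (nat_lit 5) (nat_lit 317) (nat_lit 253) (nat_lit 210)) (XT.lf (nat_lit 0) (nat_lit 87182493) (nat_lit 304) (nat_lit 11694596511) (nat_lit 380) (nat_lit 121425329) (nat_lit 51) (nat_lit 5) (nat_lit 55) (nat_lit 5) (nat_lit 56) (nat_lit 5) (nat_lit 318) (nat_lit 253) (nat_lit 209))))) (XT.nd (nat_lit 234) (nat_lit 304) (nat_lit 0) (XT.nd (nat_lit 78) (nat_lit 228) (nat_lit 0) (XT.lf (nat_lit 0) (nat_lit 2426146859) (nat_lit 380) (nat_lit 6398835030) (nat_lit 76) (nat_lit 3311198531) (nat_lit 50) (nat_lit 5) (nat_lit 55) (nat_lit 5) (nat_lit 51) (nat_lit 5) (nat_lit 319) (nat_lit 253) (nat_lit 208))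 (XT.nd (nat_lit 78) (nat_lit 228) (nat_lit 0) (XT.lf (nat_lit 0) (nat_lit 5007352942) (nat_lit 380) (nat_lit 878614354) (nat_lit 76) (nat_lit 6491418417) (nat_lit 50) (nat_lit 5) (nat_lit 55) (nat_lit 5) (nat_lit 51) (nat_lit 5) (nat_lit 320) (nat_lit 253) (nat_lit 207)) (XT.lf (nat_lit 0) (nat_lit 4845177762) (nat_lit 228) (nat_lit 2828214838) (nat_lit 304) (nat_lit 4952276148) (nat_lit 47) (nat_lit 5) (nat_lit 50) (nat_lit 5) (nat_lit 51) (nat_lit 5) (nat_lit 321) (nat_lit 253) (nat_lit 206)))) (XT.nd (nat_lit 78) (nat_lit 304) (nat_lit 0) (XT.lf (nat_lit 0) (nat_lit 10392719157) (nat_lit 304) (nat_lit 2182694278) (nat_lit 76) (nat_lit 306849320) (nat_lit 47) (nat_lit 5) (nat_lit 51) (nat_lit 5) (nat_lit 48) (nat_lit 5) (nat_lit 322) (nat_lit 253) (nat_lit 205)) (XT.nd (nat_lit 78) (nat_lit 0) (nat_lit 0) (XT.lf (nat_lit 0) (nat_lit 71036120) (nat_lit 304) (nat_lit 9577302452) (nat_lit 76)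 (nat_lit 3497514041) (nat_lit 43) (nat_lit 5) (nat_lit 47) (nat_lit 5) (nat_lit 44) (nat_lit 5) (nat_lit 323) (nat_lit 253) (nat_lit 204)) (XT.lf (nat_lit 0) (nat_lit 2643185109) (nat_lit 304) (nat_lit 3960155918) (nat_lit 76) (nat_lit 6813782416) (nat_lit 43) (nat_lit 5) (nat_lit 47) (nat_lit 5) (nat_lit 44) (nat_lit 5) (nat_lit 324) (nat_lit 253) (nat_lit 203)))))) (XT.nd (nat_lit 390) (nat_lit 608) (nat_lit 0) (XT.nd (nat_lit 156) (nat_lit 304) (nat_lit 0) (XT.nd (nat_lit 78) (nat_lit 0) (nat_lit 0) (XT.lf (nat_lit 0) (nat_lit 1806707139) (nat_lit 228) (nat_lit 3466780039) (nat_lit 304) (nat_lit 8423670339) (nat_lit 40) (nat_lit 5) (nat_lit 43) (nat_lit 5) (nat_lit 44) (nat_lit 5) (nat_lit 325) (nat_lit 253) (nat_lit 202)) (XT.lf (nat_lit 0) (nat_lit 7774232100) (nat_lit 228) (nat_lit 212622529) (nat_lit 304) (nat_lit 5998666480) (nat_lit 40) (nat_lit 5) (nat_lit 43) (nat_lit 5) (nat_lit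 44) (nat_lit 5) (nat_lit 326) (nat_lit 253) (nat_lit 201))) (XT.nd (nat_lit 78) (nat_lit 304) (nat_lit 0) (XT.lf (nat_lit 0) (nat_lit 10776843737) (nat_lit 304) (nat_lit 444822929) (nat_lit 76) (nat_lit 3061063957) (nat_lit 40) (nat_lit 5) (nat_lit 44) (nat_lit 5) (nat_lit 41) (nat_lit 5) (nat_lit 327) (nat_lit 253) (nat_lit 200)) (XT.nd (nat_lit 78) (nat_lit 76) (nat_lit 0) (XT.lf (nat_lit 0) (nat_lit 5549468081) (nat_lit 228) (nat_lit 8122577704) (nat_lit 304) (nat_lit 916215370) (nat_lit 37) (nat_lit 5) (nat_lit 40) (nat_lit 5) (nat_lit 41) (nat_lit 5) (nat_lit 328) (nat_lit 253) (nat_lit 199)) (XT.lf (nat_lit 0) (nat_lit 1687695509) (nat_lit 304) (nat_lit 3238564928) (nat_lit 76) (nat_lit 9977117815) (nat_lit 36) (nat_lit 5) (nat_lit 40) (nat_lit 5) (nat_lit 37) (nat_lit 5) (nat_lit 329) (nat_lit 253) (nat_lit 198))))) (XT.nd (nat_lit 234) (nat_lit 456) (nat_lit 0) (XT.nd (nat_lit 78) (nat_lit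 0) (nat_lit 0) (XT.lf (nat_lit 0) (nat_lit 2729798105) (nat_lit 152) (nat_lit 1614920083) (nat_lit 228) (nat_lit 10883202122) (nat_lit 34) (nat_lit 5) (nat_lit 36) (nat_lit 5) (nat_lit 37) (nat_lit 5) (nat_lit 330) (nat_lit 253) (nat_lit 197)) (XT.nd (nat_lit 78) (nat_lit 0) (nat_lit 0) (XT.lf (nat_lit 0) (nat_lit 7099223529) (nat_lit 228) (nat_lit 6685631173) (nat_lit 76) (nat_lit 1776855308) (nat_lit 34) (nat_lit 5) (nat_lit 37) (nat_lit 5) (nat_lit 35) (nat_lit 5) (nat_lit 331) (nat_lit 253) (nat_lit 196)) (XT.lf (nat_lit 0) (nat_lit 9920783517) (nat_lit 228) (nat_lit 763713289) (nat_lit 76) (nat_lit 5221527254) (nat_lit 34) (nat_lit 5) (nat_lit 37) (nat_lit 5) (nat_lit 35) (nat_lit 5) (nat_lit 332) (nat_lit 253) (nat_lit 195)))) (XT.nd (nat_lit 78) (nat_lit 228) (nat_lit 0) (XT.lf (nat_lit 0) (nat_lit 5393577662) (nat_lit 228) (nat_lit 7454608697) (nat_lit 304) (nat_lit 3411887275) (nat_lit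 31) (nat_lit 5) (nat_lit 34) (nat_lit 5) (nat_lit 35) (nat_lit 5) (nat_lit 333) (nat_lit 253) (nat_lit 194)) (XT.nd (nat_lit 78) (nat_lit 228) (nat_lit 0) (XT.lf (nat_lit 0) (nat_lit 11704176126) (nat_lit 228) (nat_lit 4136737149) (nat_lit 304) (nat_lit 784547119) (nat_lit 31) (nat_lit 5) (nat_lit 34) (nat_lit 5) (nat_lit 35) (nat_lit 5) (nat_lit 334) (nat_lit 253) (nat_lit 193)) (XT.lf (nat_lit 0) (nat_lit 1160125880) (nat_lit 152) (nat_lit 705482291) (nat_lit 228) (nat_lit 15136240081) (nat_lit 28) (nat_lit 5) (nat_lit 30) (nat_lit 5) (nat_lit 31) (nat_lit 5) (nat_lit 335) (nat_lit 253) (nat_lit 192))))))) (XT.nd (nat_lit 858) (nat_lit 456) (nat_lit 0) (XT.nd (nat_lit 390) (nat_lit 380) (nat_lit 0) (XT.nd (nat_lit 156) (nat_lit 152) (nat_lit 0) (XT.nd (nat_lit 78) (nat_lit 0) (nat_lit 0) (XT.lf (nat_lit 0) (nat_lit 4627481873) (nat_lit 228) (nat_lit 9945252923) (nat_lit 76) (nat_lit 2815157747)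 (nat_lit 28) (nat_lit 5) (nat_lit 31) (nat_lit 5) (nat_lit 29) (nat_lit 5) (nat_lit 336) (nat_lit 253) (nat_lit 191)) (XT.lf (nat_lit 0) (nat_lit 7450656683) (nat_lit 228) (nat_lit 3924141114) (nat_lit 76) (nat_lit 6411403232) (nat_lit 28) (nat_lit 5) (nat_lit 31) (nat_lit 5) (nat_lit 29) (nat_lit 5) (nat_lit 337) (nat_lit 253) (nat_lit 190))) (XT.nd (nat_lit 78) (nat_lit 0) (nat_lit 0) (XT.lf (nat_lit 0) (nat_lit 2278109874) (nat_lit 152) (nat_lit 8074606638) (nat_lit 228) (nat_lit 7843951727) (nat_lit 26) (nat_lit 5) (nat_lit 28) (nat_lit 5) (nat_lit 29) (nat_lit 5) (nat_lit 338) (nat_lit 253) (nat_lit 189)) (XT.nd (nat_lit 78) (nat_lit 0) (nat_lit 0) (XT.lf (nat_lit 0) (nat_lit 8703352001) (nat_lit 152) (nat_lit 4650792193) (nat_lit 228) (nat_lit 5264970225) (nat_lit 26) (nat_lit 5) (nat_lit 28) (nat_lit 5) (nat_lit 29) (nat_lit 5) (nat_lit 339) (nat_lit 253) (nat_lit 188)) (XT.lf (nat_lit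 0) (nat_lit 15279101453) (nat_lit 152) (nat_lit 1139988909) (nat_lit 228) (nat_lit 2635972494) (nat_lit 26) (nat_lit 5) (nat_lit 28) (nat_lit 5) (nat_lit 29) (nat_lit 5) (nat_lit 340) (nat_lit 253) (nat_lit 187))))) (XT.nd (nat_lit 234) (nat_lit 152) (nat_lit 0) (XT.nd (nat_lit 78) (nat_lit 0) (nat_lit 0) (XT.lf (nat_lit 0) (nat_lit 92923279) (nat_lit 228) (nat_lit 16972403815) (nat_lit 76) (nat_lit 2438100228) (nat_lit 23) (nat_lit 5) (nat_lit 26) (nat_lit 5) (nat_lit 24) (nat_lit 5) (nat_lit 341) (nat_lit 253) (nat_lit 186)) (XT.nd (nat_lit 78) (nat_lit 0) (nat_lit 0) (XT.lf (nat_lit 0) (nat_lit 2874675402) (nat_lit 228) (nat_lit 10939053647) (nat_lit 76) (nat_lit 6150041944) (nat_lit 23) (nat_lit 5) (nat_lit 26) (nat_lit 5) (nat_lit 24) (nat_lit 5) (nat_lit 342) (nat_lit 253) (nat_lit 185)) (XT.lf (nat_lit 0) (nat_lit 5714807821) (nat_lit 228) (nat_lit 4765298132) (nat_lit 76) (nat_lit 9958600634)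 (nat_lit 23) (nat_lit 5) (nat_lit 26) (nat_lit 5) (nat_lit 24) (nat_lit 5) (nat_lit 343) (nat_lit 253) (nat_lit 184)))) (XT.nd (nat_lit 78) (nat_lit 0) (nat_lit 0) (XT.lf (nat_lit 0) (nat_lit 1585190040) (nat_lit 152) (nat_lit 7045849983) (nat_lit 228) (nat_lit 12297151942) (nat_lit 21) (nat_lit 5) (nat_lit 23) (nat_lit 5) (nat_lit 24) (nat_lit 5) (nat_lit 344) (nat_lit 253) (nat_lit 183)) (XT.nd (nat_lit 78) (nat_lit 0) (nat_lit 0) (XT.lf (nat_lit 0) (nat_lit 8184850423) (nat_lit 152) (nat_lit 3474020773) (nat_lit 228) (nat_lit 9772795103) (nat_lit 21) (nat_lit 5) (nat_lit 23) (nat_lit 5) (nat_lit 24) (nat_lit 5) (nat_lit 345) (nat_lit 253) (nat_lit 182)) (XT.lf (nat_lit 0) (nat_lit 14756058483) (nat_lit 228) (nat_lit 7008190218) (nat_lit 76) (nat_lit 186667474) (nat_lit 21) (nat_lit 5) (nat_lit 24) (nat_lit 5) (nat_lit 22) (nat_lit 4) (nat_lit 346) (nat_lit 253) (nat_lit 181)))))) (XT.nd (nat_lit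 468) (nat_lit 152) (nat_lit 0) (XT.nd (nat_lit 234) (nat_lit 152) (nat_lit 0) (XT.nd (nat_lit 78) (nat_lit 152) (nat_lit 0) (XT.lf (nat_lit 0) (nat_lit 17957791562) (nat_lit 228) (nat_lit 654157123) (nat_lit 76) (nat_lit 3873472121) (nat_lit 21) (nat_lit 5) (nat_lit 24) (nat_lit 5) (nat_lit 22) (nat_lit 4) (nat_lit 347) (nat_lit 253) (nat_lit 180)) (XT.nd (nat_lit 78) (nat_lit 76) (nat_lit 0) (XT.lf (nat_lit 0) (nat_lit 5970740543) (nat_lit 76) (nat_lit 15320127517) (nat_lit 152) (nat_lit 1744059173) (nat_lit 20) (nat_lit 5) (nat_lit 21) (nat_lit 5) (nat_lit 22) (nat_lit 4) (nat_lit 348) (nat_lit 253) (nat_lit 179)) (XT.lf (nat_lit 0) (nat_lit 1085730506) (nat_lit 152) (nat_lit 10840160687) (nat_lit 76) (nat_lit 11675188949) (nat_lit 19) (nat_lit 5) (nat_lit 21) (nat_lit 5) (nat_lit 20) (nat_lit 5) (nat_lit 349) (nat_lit 253) (nat_lit 178)))) (XT.nd (nat_lit 78) (nat_lit 152) (nat_lit 0) (XT.lf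 (nat_lit 0) (nat_lit 3943957611) (nat_lit 152) (nat_lit 4481996560) (nat_lit 76) (nat_lit 15758410748) (nat_lit 19) (nat_lit 5) (nat_lit 21) (nat_lit 5) (nat_lit 20) (nat_lit 5) (nat_lit 350) (nat_lit 253) (nat_lit 177)) (XT.nd (nat_lit 78) (nat_lit 0) (nat_lit 0) (XT.lf (nat_lit 0) (nat_lit 2073079581) (nat_lit 152) (nat_lit 4814000626) (nat_lit 228) (nat_lit 17898116141) (nat_lit 17) (nat_lit 5) (nat_lit 19) (nat_lit 5) (nat_lit 20) (nat_lit 5) (nat_lit 351) (nat_lit 253) (nat_lit 176)) (XT.lf (nat_lit 0) (nat_lit 8882734521) (nat_lit 152) (nat_lit 1060521169) (nat_lit 228) (nat_lit 15460076161) (nat_lit 17) (nat_lit 5) (nat_lit 19) (nat_lit 5) (nat_lit 20) (nat_lit 5) (nat_lit 352) (nat_lit 253) (nat_lit 175))))) (XT.nd (nat_lit 234) (nat_lit 76) (nat_lit 0) (XT.nd (nat_lit 78) (nat_lit 76) (nat_lit 0) (XT.lf (nat_lit 0) (nat_lit 13098056629) (nat_lit 228) (nat_lit 10203755124) (nat_lit 76)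 (nat_lit 2738012737) (nat_lit 17) (nat_lit 5) (nat_lit 20) (nat_lit 5) (nat_lit 18) (nat_lit 4) (nat_lit 353) (nat_lit 253) (nat_lit 174)) (XT.nd (nat_lit 78) (nat_lit 76) (nat_lit 0) (XT.lf (nat_lit 0) (nat_lit 16338556565) (nat_lit 228) (nat_lit 3740387498) (nat_lit 76) (nat_lit 6616756847) (nat_lit 17) (nat_lit 5) (nat_lit 20) (nat_lit 5) (nat_lit 18) (nat_lit 4) (nat_lit 354) (nat_lit 253) (nat_lit 173)) (XT.lf (nat_lit 0) (nat_lit 2942771601) (nat_lit 76) (nat_lit 16742908747) (nat_lit 152) (nat_lit 7685311061) (nat_lit 16) (nat_lit 5) (nat_lit 17) (nat_lit 5) (nat_lit 18) (nat_lit 4) (nat_lit 355) (nat_lit 253) (nat_lit 172)))) (XT.nd (nat_lit 78) (nat_lit 76) (nat_lit 0) (XT.lf (nat_lit 0) (nat_lit 9871875274) (nat_lit 76) (nat_lit 13280483998) (nat_lit 152) (nat_lit 4913626576) (nat_lit 16) (nat_lit 5) (nat_lit 17) (nat_lit 5) (nat_lit 18) (nat_lit 4) (nat_lit 356) (nat_lit 253) (nat_lit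 171)) (XT.nd (nat_lit 78) (nat_lit 76) (nat_lit 0) (XT.lf (nat_lit 0) (nat_lit 16978537033) (nat_lit 76) (nat_lit 9726414977) (nat_lit 152) (nat_lit 2077439607) (nat_lit 16) (nat_lit 5) (nat_lit 17) (nat_lit 5) (nat_lit 18) (nat_lit 4) (nat_lit 357) (nat_lit 253) (nat_lit 170)) (XT.lf (nat_lit 0) (nat_lit 809615136) (nat_lit 152) (nat_lit 5259805525) (nat_lit 76) (nat_lit 23451175919) (nat_lit 15) (nat_lit 5) (nat_lit 17) (nat_lit 5) (nat_lit 16) (nat_lit 5) (nat_lit 358) (nat_lit 253) (nat_lit 169))))))))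
noncomputable def xc92 : XT := (XT.nd (nat_lit 1716) (nat_lit 228) (nat_lit 0) (XT.nd (nat_lit 858) (nat_lit 152) (nat_lit 0) (XT.nd (nat_lit 390) (nat_lit 228) (nat_lit 0) (XT.nd (nat_lit 156) (nat_lit 0) (nat_lit 0) (XT.nd (nat_lit 78) (nat_lit 0) (nat_lit 0) (XT.lf (nat_lit 0) (nat_lit 1459542104) (nat_lit 152) (nat_lit 2278780374) (nat_lit 228) (nat_lit 26542121586) (nat_lit 13) (nat_lit 5) (nat_lit 15) (nat_lit 5) (nat_lit 16) (nat_lit 5) (nat_lit 359) (nat_lit 253) (nat_lit 168)) (XT.lf (nat_lit 0) (nat_lit 6807036767) (nat_lit 228) (nat_lit 22618421031) (nat_lit 76) (nat_lit 1636081595) (nat_lit 13) (nat_lit 5) (nat_lit 16) (nat_lit 5) (nat_lit 14) (nat_lit 4) (nat_lit 360) (nat_lit 253) (nat_lit 167))) (XT.nd (nat_lit 78) (nat_lit 0) (nat_lit 0) (XT.lf (nat_lit 0) (nat_lit 9973753369) (nat_lit 228) (nat_lit 16280647805) (nat_lit 76) (nat_lit 5611504486) (nat_lit 13) (nat_lit 5) (nat_lit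 16) (nat_lit 5) (nat_lit 14) (nat_lit 4) (nat_lit 361) (nat_lit 253) (nat_lit 166)) (XT.nd (nat_lit 78) (nat_lit 0) (nat_lit 0) (XT.lf (nat_lit 0) (nat_lit 13219334286) (nat_lit 228) (nat_lit 9780139393) (nat_lit 76) (nat_lit 9695429180) (nat_lit 13) (nat_lit 5) (nat_lit 16) (nat_lit 5) (nat_lit 14) (nat_lit 4) (nat_lit 362) (nat_lit 253) (nat_lit 165)) (XT.lf (nat_lit 0) (nat_lit 16546615464) (nat_lit 228) (nat_lit 3111215738) (nat_lit 76) (nat_lit 13891424155) (nat_lit 13) (nat_lit 5) (nat_lit 16) (nat_lit 5) (nat_lit 14) (nat_lit 4) (nat_lit 363) (nat_lit 253) (nat_lit 164))))) (XT.nd (nat_lit 234) (nat_lit 152) (nat_lit 0) (XT.nd (nat_lit 78) (nat_lit 0) (nat_lit 0) (XT.lf (nat_lit 0) (nat_lit 3806223503) (nat_lit 76) (nat_lit 16188868481) (nat_lit 152) (nat_lit 14433520060) (nat_lit 12) (nat_lit 5) (nat_lit 13) (nat_lit 5) (nat_lit 14) (nat_lit 4) (nat_lit 364) (nat_lit 253) (nat_lit 163))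 (XT.nd (nat_lit 78) (nat_lit 0) (nat_lit 0) (XT.lf (nat_lit 0) (nat_lit 10969390731) (nat_lit 76) (nat_lit 12594035624) (nat_lit 152) (nat_lit 11770445453) (nat_lit 12) (nat_lit 5) (nat_lit 13) (nat_lit 5) (nat_lit 14) (nat_lit 4) (nat_lit 365) (nat_lit 253) (nat_lit 162)) (XT.lf (nat_lit 0) (nat_lit 18322625731) (nat_lit 76) (nat_lit 8901608696) (nat_lit 152) (nat_lit 9042506294) (nat_lit 12) (nat_lit 5) (nat_lit 13) (nat_lit 5) (nat_lit 14) (nat_lit 4) (nat_lit 366) (nat_lit 253) (nat_lit 161)))) (XT.nd (nat_lit 78) (nat_lit 152) (nat_lit 0) (XT.lf (nat_lit 0) (nat_lit 25872353658) (nat_lit 76) (nat_lit 5108361304) (nat_lit 152) (nat_lit 6247318946) (nat_lit 12) (nat_lit 5) (nat_lit 13) (nat_lit 5) (nat_lit 14) (nat_lit 4) (nat_lit 367) (nat_lit 253) (nat_lit 160)) (XT.nd (nat_lit 78) (nat_lit 152) (nat_lit 0) (XT.lf (nat_lit 0) (nat_lit 33625171362) (nat_lit 76) (nat_lit 1210978960) (nat_lit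 152) (nat_lit 3382441013) (nat_lit 12) (nat_lit 5) (nat_lit 13) (nat_lit 5) (nat_lit 14) (nat_lit 4) (nat_lit 368) (nat_lit 253) (nat_lit 159)) (XT.lf (nat_lit 0) (nat_lit 2367924246) (nat_lit 152) (nat_lit 36475604121) (nat_lit 152) (nat_lit 394261598) (nat_lit 10) (nat_lit 4) (nat_lit 12) (nat_lit 5) (nat_lit 12) (nat_lit 4) (nat_lit 369) (nat_lit 253) (nat_lit 158)))))) (XT.nd (nat_lit 390) (nat_lit 76) (nat_lit 0) (XT.nd (nat_lit 156) (nat_lit 0) (nat_lit 0) (XT.nd (nat_lit 78) (nat_lit 0) (nat_lit 0) (XT.lf (nat_lit 0) (nat_lit 2676629609) (nat_lit 228) (nat_lit 30715245067) (nat_lit 76) (nat_lit 6893565157) (nat_lit 9) (nat_lit 5) (nat_lit 12) (nat_lit 5) (nat_lit 10) (nat_lit 4) (nat_lit 370) (nat_lit 253) (nat_lit 157)) (XT.lf (nat_lit 0) (nat_lit 5818712331) (nat_lit 228) (nat_lit 24402312921) (nat_lit 76) (nat_lit 11143778945) (nat_lit 9) (nat_lit 5) (nat_lit 12) (nat_lit 5) (nat_lit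 10) (nat_lit 4) (nat_lit 371) (nat_lit 253) (nat_lit 156))) (XT.nd (nat_lit 78) (nat_lit 0) (nat_lit 0) (XT.lf (nat_lit 0) (nat_lit 9042425539) (nat_lit 228) (nat_lit 17921763243) (nat_lit 76) (nat_lit 15512751104) (nat_lit 9) (nat_lit 5) (nat_lit 12) (nat_lit 5) (nat_lit 10) (nat_lit 4) (nat_lit 372) (nat_lit 253) (nat_lit 155)) (XT.nd (nat_lit 78) (nat_lit 0) (nat_lit 0) (XT.lf (nat_lit 0) (nat_lit 12350586071) (nat_lit 228) (nat_lit 11267933417) (nat_lit 76) (nat_lit 20004299183) (nat_lit 9) (nat_lit 5) (nat_lit 12) (nat_lit 5) (nat_lit 10) (nat_lit 4) (nat_lit 373) (nat_lit 253) (nat_lit 154)) (XT.lf (nat_lit 0) (nat_lit 15746084552) (nat_lit 228) (nat_lit 4435009416) (nat_lit 76) (nat_lit 24622347835) (nat_lit 9) (nat_lit 5) (nat_lit 12) (nat_lit 5) (nat_lit 10) (nat_lit 4) (nat_lit 374) (nat_lit 253) (nat_lit 153))))) (XT.nd (nat_lit 234) (nat_lit 0) (nat_lit 0) (XT.nd (nat_lit 78) (nat_lit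 0) (nat_lit 0) (XT.lf (nat_lit 0) (nat_lit 2634385626) (nat_lit 76) (nat_lit 16622825623) (nat_lit 152) (nat_lit 26761869949) (nat_lit 8) (nat_lit 5) (nat_lit 9) (nat_lit 5) (nat_lit 10) (nat_lit 4) (nat_lit 375) (nat_lit 253) (nat_lit 152)) (XT.nd (nat_lit 78) (nat_lit 0) (nat_lit 0) (XT.lf (nat_lit 0) (nat_lit 9987048159) (nat_lit 76) (nat_lit 12919995487) (nat_lit 152) (nat_lit 24363155129) (nat_lit 8) (nat_lit 5) (nat_lit 9) (nat_lit 5) (nat_lit 10) (nat_lit 4) (nat_lit 376) (nat_lit 253) (nat_lit 151)) (XT.lf (nat_lit 0) (nat_lit 17541137456) (nat_lit 76) (nat_lit 9114152979) (nat_lit 152) (nat_lit 21903901727) (nat_lit 8) (nat_lit 5) (nat_lit 9) (nat_lit 5) (nat_lit 10) (nat_lit 4) (nat_lit 377) (nat_lit 253) (nat_lit 150)))) (XT.nd (nat_lit 78) (nat_lit 0) (nat_lit 0) (XT.lf (nat_lit 0) (nat_lit 25303254177) (nat_lit 76) (nat_lit 5201972604) (nat_lit 152) (nat_lit 19381960882) (nat_lit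 8) (nat_lit 5) (nat_lit 9) (nat_lit 5) (nat_lit 10) (nat_lit 4) (nat_lit 378) (nat_lit 253) (nat_lit 149)) (XT.nd (nat_lit 78) (nat_lit 0) (nat_lit 0) (XT.lf (nat_lit 0) (nat_lit 33280180754) (nat_lit 76) (nat_lit 1180035953) (nat_lit 152) (nat_lit 16795128955) (nat_lit 8) (nat_lit 5) (nat_lit 9) (nat_lit 5) (nat_lit 10) (nat_lit 4) (nat_lit 379) (nat_lit 253) (nat_lit 148)) (XT.lf (nat_lit 0) (nat_lit 38552122944) (nat_lit 152) (nat_lit 11214381234) (nat_lit 0) (nat_lit 2897505251) (nat_lit 8) (nat_lit 5) (nat_lit 10) (nat_lit 4) (nat_lit 8) (nat_lit 4) (nat_lit 380) (nat_lit 253) (nat_lit 147))))))) (XT.nd (nat_lit 858) (nat_lit 0) (nat_lit 0) (XT.nd (nat_lit 390) (nat_lit 76) (nat_lit 0) (XT.nd (nat_lit 156) (nat_lit 76) (nat_lit 0) (XT.nd (nat_lit 78) (nat_lit 76) (nat_lit 0) (XT.lf (nat_lit 0) (nat_lit 42768555994) (nat_lit 152) (nat_lit 4279710035) (nat_lit 0) (nat_lit 7066622756) (nat_lit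 8) (nat_lit 5) (nat_lit 10) (nat_lit 4) (nat_lit 8) (nat_lit 4) (nat_lit 381) (nat_lit 253) (nat_lit 146)) (XT.lf (nat_lit 0) (nat_lit 2902897322) (nat_lit 76) (nat_lit 44226863995) (nat_lit 76) (nat_lit 8478993335) (nat_lit 7) (nat_lit 4) (nat_lit 8) (nat_lit 5) (nat_lit 8) (nat_lit 4) (nat_lit 382) (nat_lit 253) (nat_lit 145))) (XT.nd (nat_lit 78) (nat_lit 76) (nat_lit 0) (XT.lf (nat_lit 0) (nat_lit 10372127013) (nat_lit 76) (nat_lit 41283388233) (nat_lit 76) (nat_lit 5490918135) (nat_lit 7) (nat_lit 4) (nat_lit 8) (nat_lit 5) (nat_lit 8) (nat_lit 4) (nat_lit 383) (nat_lit 253) (nat_lit 144)) (XT.nd (nat_lit 78) (nat_lit 76) (nat_lit 0) (XT.lf (nat_lit 0) (nat_lit 18049330930) (nat_lit 76) (nat_lit 38258483455) (nat_lit 76) (nat_lit 2422712932) (nat_lit 7) (nat_lit 4) (nat_lit 8) (nat_lit 5) (nat_lit 8) (nat_lit 4) (nat_lit 384) (nat_lit 253) (nat_lit 143)) (XT.lf (nat_lit 0) (nat_lit 714091411)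 (nat_lit 152) (nat_lit 34428204205) (nat_lit 76) (nat_lit 25219914973) (nat_lit 6) (nat_lit 5) (nat_lit 8) (nat_lit 5) (nat_lit 7) (nat_lit 4) (nat_lit 385) (nat_lit 253) (nat_lit 142))))) (XT.nd (nat_lit 234) (nat_lit 76) (nat_lit 0) (XT.nd (nat_lit 78) (nat_lit 0) (nat_lit 0) (XT.lf (nat_lit 0) (nat_lit 3887514508) (nat_lit 152) (nat_lit 28026970124) (nat_lit 76) (nat_lit 30127911187) (nat_lit 6) (nat_lit 5) (nat_lit 8) (nat_lit 5) (nat_lit 7) (nat_lit 4) (nat_lit 386) (nat_lit 253) (nat_lit 141)) (XT.nd (nat_lit 78) (nat_lit 0) (nat_lit 0) (XT.lf (nat_lit 0) (nat_lit 7147605105) (nat_lit 152) (nat_lit 21448612234) (nat_lit 76) (nat_lit 35177032448) (nat_lit 6) (nat_lit 5) (nat_lit 8) (nat_lit 5) (nat_lit 7) (nat_lit 4) (nat_lit 387) (nat_lit 253) (nat_lit 140)) (XT.lf (nat_lit 0) (nat_lit 10497211828) (nat_lit 152) (nat_lit 14687382455) (nat_lit 76) (nat_lit 40371690608) (nat_lit 6) (nat_lit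 5) (nat_lit 8) (nat_lit 5) (nat_lit 7) (nat_lit 4) (nat_lit 388) (nat_lit 253) (nat_lit 139)))) (XT.nd (nat_lit 78) (nat_lit 76) (nat_lit 0) (XT.lf (nat_lit 0) (nat_lit 13939261515) (nat_lit 152) (nat_lit 7737372917) (nat_lit 76) (nat_lit 45716424690) (nat_lit 6) (nat_lit 5) (nat_lit 8) (nat_lit 5) (nat_lit 7) (nat_lit 4) (nat_lit 389) (nat_lit 253) (nat_lit 138)) (XT.nd (nat_lit 78) (nat_lit 76) (nat_lit 0) (XT.lf (nat_lit 0) (nat_lit 17476761784) (nat_lit 152) (nat_lit 592510796) (nat_lit 76) (nat_lit 51215904849) (nat_lit 6) (nat_lit 5) (nat_lit 8) (nat_lit 5) (nat_lit 7) (nat_lit 4) (nat_lit 390) (nat_lit 253) (nat_lit 137)) (XT.lf (nat_lit 0) (nat_lit 6887853828) (nat_lit 76) (nat_lit 14291160090) (nat_lit 152) (nat_lit 50053292891) (nat_lit 5) (nat_lit 5) (nat_lit 6) (nat_lit 5) (nat_lit 7) (nat_lit 4) (nat_lit 391) (nat_lit 253) (nat_lit 136)))))) (XT.nd (nat_lit 31278) (nat_lit 0) (nat_lit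 16492) (XT.nd (nat_lit 234) (nat_lit 0) (nat_lit 0) (XT.nd (nat_lit 78) (nat_lit 0) (nat_lit 0) (XT.lf (nat_lit 0) (nat_lit 14591654989) (nat_lit 76) (nat_lit 10399173174) (nat_lit 152) (nat_lit 48247073219) (nat_lit 5) (nat_lit 5) (nat_lit 6) (nat_lit 5) (nat_lit 7) (nat_lit 4) (nat_lit 392) (nat_lit 253) (nat_lit 135)) (XT.nd (nat_lit 78) (nat_lit 0) (nat_lit 0) (XT.lf (nat_lit 0) (nat_lit 22513832037) (nat_lit 76) (nat_lit 6395894264) (nat_lit 152) (nat_lit 46394161577) (nat_lit 5) (nat_lit 5) (nat_lit 6) (nat_lit 5) (nat_lit 7) (nat_lit 4) (nat_lit 393) (nat_lit 253) (nat_lit 134)) (XT.lf (nat_lit 0) (nat_lit 30661307261) (nat_lit 76) (nat_lit 2277825349) (nat_lit 152) (nat_lit 44492938914) (nat_lit 5) (nat_lit 5) (nat_lit 6) (nat_lit 5) (nat_lit 7) (nat_lit 4) (nat_lit 394) (nat_lit 253) (nat_lit 133)))) (XT.nd (nat_lit 78) (nat_lit 0) (nat_lit 0) (XT.lf (nat_lit 0) (nat_lit 37101395499)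 (nat_lit 152) (nat_lit 40601939654) (nat_lit 0) (nat_lit 1920411920) (nat_lit 5) (nat_lit 5) (nat_lit 7) (nat_lit 4) (nat_lit 5) (nat_lit 4) (nat_lit 395) (nat_lit 253) (nat_lit 132)) (XT.nd (nat_lit 78) (nat_lit 0) (nat_lit 0) (XT.lf (nat_lit 0) (nat_lit 41404377334) (nat_lit 152) (nat_lit 34282417213) (nat_lit 0) (nat_lit 6193908271) (nat_lit 5) (nat_lit 5) (nat_lit 7) (nat_lit 4) (nat_lit 5) (nat_lit 4) (nat_lit 396) (nat_lit 253) (nat_lit 131)) (XT.lf (nat_lit 0) (nat_lit 45829942150) (nat_lit 152) (nat_lit 27784779178) (nat_lit 0) (nat_lit 10590846405) (nat_lit 5) (nat_lit 5) (nat_lit 7) (nat_lit 4) (nat_lit 5) (nat_lit 4) (nat_lit 397) (nat_lit 253) (nat_lit 130))))) (XT.nd (nat_lit 234) (nat_lit 1216) (nat_lit 0) (XT.nd (nat_lit 78) (nat_lit 532) (nat_lit 0) (XT.lf (nat_lit 0) (nat_lit 2788002129) (nat_lit 380) (nat_lit 258632007) (nat_lit 380) (nat_lit 258632007) (nat_lit 245) (nat_lit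 4) (nat_lit 250) (nat_lit 5) (nat_lit 250) (nat_lit 4) (nat_lit 272) (nat_lit 254) (nat_lit 254)) (XT.nd (nat_lit 78) (nat_lit 0) (nat_lit 0) (XT.lf (nat_lit 0) (nat_lit 2310702956) (nat_lit 532) (nat_lit 4099456909) (nat_lit 0) (nat_lit 230198728) (nat_lit 238) (nat_lit 5) (nat_lit 245) (nat_lit 4) (nat_lit 238) (nat_lit 4) (nat_lit 273) (nat_lit 254) (nat_lit 253)) (XT.lf (nat_lit 0) (nat_lit 5132333320) (nat_lit 532) (nat_lit 509468167) (nat_lit 0) (nat_lit 1031922074) (nat_lit 238) (nat_lit 5) (nat_lit 245) (nat_lit 4) (nat_lit 238) (nat_lit 4) (nat_lit 274) (nat_lit 254) (nat_lit 252)))) (XT.nd (nat_lit 78) (nat_lit 608) (nat_lit 0) (XT.lf (nat_lit 0) (nat_lit 1240498389) (nat_lit 608) (nat_lit 3543274290) (nat_lit 76) (nat_lit 1926207609) (nat_lit 230) (nat_lit 5) (nat_lit 238) (nat_lit 5) (nat_lit 231) (nat_lit 4) (nat_lit 275) (nat_lit 254) (nat_lit 251)) (XT.nd (nat_lit 78) (nat_lit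 0) (nat_lit 0) (XT.lf (nat_lit 0) (nat_lit 131166182) (nat_lit 608) (nat_lit 3857310809) (nat_lit 684) (nat_lit 2761323864) (nat_lit 222) (nat_lit 5) (nat_lit 230) (nat_lit 5) (nat_lit 231) (nat_lit 4) (nat_lit 276) (nat_lit 254) (nat_lit 250)) (XT.lf (nat_lit 0) (nat_lit 3916664772) (nat_lit 608) (nat_lit 2847181505) (nat_lit 684) (nat_lit 28953641) (nat_lit 222) (nat_lit 5) (nat_lit 230) (nat_lit 5) (nat_lit 231) (nat_lit 4) (nat_lit 277) (nat_lit 254) (nat_lit 249))))))))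
noncomputable def xc93 : XT := (XT.nd (nat_lit 1716) (nat_lit 3876) (nat_lit 0) (XT.nd (nat_lit 858) (nat_lit 3800) (nat_lit 0) (XT.nd (nat_lit 390) (nat_lit 3192) (nat_lit 0) (XT.nd (nat_lit 156) (nat_lit 1672) (nat_lit 0) (XT.nd (nat_lit 78) (nat_lit 0) (nat_lit 0) (XT.lf (nat_lit 0) (nat_lit 897570079) (nat_lit 684) (nat_lit 1752719814) (nat_lit 760) (nat_lit 4188731495) (nat_lit 212) (nat_lit 5) (nat_lit 221) (nat_lit 5) (nat_lit 222) (nat_lit 5) (nat_lit 278) (nat_lit 254) (nat_lit 248)) (XT.lf (nat_lit 0) (nat_lit 4772046791) (nat_lit 684) (nat_lit 578869266) (nat_lit 760) (nat_lit 1537761437) (nat_lit 212) (nat_lit 5) (nat_lit 221) (nat_lit 5) (nat_lit 222) (nat_lit 5) (nat_lit 279) (nat_lit 254) (nat_lit 247))) (XT.nd (nat_lit 78) (nat_lit 836) (nat_lit 0) (XT.lf (nat_lit 0) (nat_lit 1106974414) (nat_lit 836) (nat_lit 5173245757) (nat_lit 76) (nat_lit 661420560) (nat_lit 201) (nat_lit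 5) (nat_lit 212) (nat_lit 5) (nat_lit 202) (nat_lit 5) (nat_lit 280) (nat_lit 254) (nat_lit 246)) (XT.nd (nat_lit 78) (nat_lit 836) (nat_lit 0) (XT.lf (nat_lit 0) (nat_lit 3743388483) (nat_lit 836) (nat_lit 1276634503) (nat_lit 76) (nat_lit 1977694204) (nat_lit 201) (nat_lit 5) (nat_lit 212) (nat_lit 5) (nat_lit 202) (nat_lit 5) (nat_lit 281) (nat_lit 254) (nat_lit 245)) (XT.lf (nat_lit 0) (nat_lit 2718787881) (nat_lit 836) (nat_lit 3684617281) (nat_lit 912) (nat_lit 654005758) (nat_lit 190) (nat_lit 5) (nat_lit 201) (nat_lit 5) (nat_lit 202) (nat_lit 5) (nat_lit 282) (nat_lit 254) (nat_lit 244))))) (XT.nd (nat_lit 234) (nat_lit 1216) (nat_lit 0) (XT.nd (nat_lit 78) (nat_lit 1900) (nat_lit 0) (XT.lf (nat_lit 0) (nat_lit 1916871298) (nat_lit 912) (nat_lit 350162118) (nat_lit 76) (nat_lit 4853571659) (nat_lit 189) (nat_lit 5) (nat_lit 201) (nat_lit 5) (nat_lit 190) (nat_lit 5) (nat_lit 283) (nat_lit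 254) (nat_lit 243)) (XT.nd (nat_lit 78) (nat_lit 988) (nat_lit 0) (XT.lf (nat_lit 0) (nat_lit 3754538614) (nat_lit 912) (nat_lit 754667722) (nat_lit 988) (nat_lit 2677817510) (nat_lit 177) (nat_lit 5) (nat_lit 189) (nat_lit 5) (nat_lit 190) (nat_lit 5) (nat_lit 284) (nat_lit 254) (nat_lit 242)) (XT.lf (nat_lit 0) (nat_lit 667360421) (nat_lit 988) (nat_lit 6452735648) (nat_lit 1064) (nat_lit 137355717) (nat_lit 164) (nat_lit 5) (nat_lit 177) (nat_lit 5) (nat_lit 178) (nat_lit 5) (nat_lit 285) (nat_lit 254) (nat_lit 241)))) (XT.nd (nat_lit 78) (nat_lit 1140) (nat_lit 0) (XT.lf (nat_lit 0) (nat_lit 2397073973) (nat_lit 1064) (nat_lit 2473211900) (nat_lit 76) (nat_lit 2460234036) (nat_lit 163) (nat_lit 5) (nat_lit 177) (nat_lit 5) (nat_lit 164) (nat_lit 5) (nat_lit 286) (nat_lit 254) (nat_lit 240)) (XT.nd (nat_lit 78) (nat_lit 76) (nat_lit 0) (XT.lf (nat_lit 0) (nat_lit 1728499234) (nat_lit 1064)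 (nat_lit 3218773549) (nat_lit 1140) (nat_lit 2460411352) (nat_lit 149) (nat_lit 5) (nat_lit 163) (nat_lit 5) (nat_lit 164) (nat_lit 5) (nat_lit 287) (nat_lit 254) (nat_lit 239)) (XT.lf (nat_lit 0) (nat_lit 36777822) (nat_lit 1140) (nat_lit 1452554429) (nat_lit 76) (nat_lit 5999463424) (nat_lit 148) (nat_lit 5) (nat_lit 163) (nat_lit 5) (nat_lit 149) (nat_lit 5) (nat_lit 288) (nat_lit 254) (nat_lit 238)))))) (XT.nd (nat_lit 390) (nat_lit 1976) (nat_lit 0) (XT.nd (nat_lit 156) (nat_lit 1140) (nat_lit 0) (XT.nd (nat_lit 78) (nat_lit 0) (nat_lit 0) (XT.lf (nat_lit 0) (nat_lit 2518859715) (nat_lit 760) (nat_lit 4714012829) (nat_lit 76) (nat_lit 340155455) (nat_lit 139) (nat_lit 5) (nat_lit 149) (nat_lit 5) (nat_lit 140) (nat_lit 5) (nat_lit 289) (nat_lit 254) (nat_lit 237)) (XT.lf (nat_lit 0) (nat_lit 5034963623) (nat_lit 760) (nat_lit 416069010) (nat_lit 76) (nat_lit 2210163134) (nat_lit 139) (nat_lit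 5) (nat_lit 149) (nat_lit 5) (nat_lit 140) (nat_lit 5) (nat_lit 290) (nat_lit 254) (nat_lit 236))) (XT.nd (nat_lit 78) (nat_lit 608) (nat_lit 0) (XT.lf (nat_lit 0) (nat_lit 4019799062) (nat_lit 532) (nat_lit 3577431691) (nat_lit 608) (nat_lit 155846984) (nat_lit 132) (nat_lit 5) (nat_lit 139) (nat_lit 5) (nat_lit 140) (nat_lit 5) (nat_lit 291) (nat_lit 254) (nat_lit 235)) (XT.nd (nat_lit 78) (nat_lit 0) (nat_lit 0) (XT.lf (nat_lit 0) (nat_lit 669447003) (nat_lit 532) (nat_lit 1615787171) (nat_lit 608) (nat_lit 5563675979) (nat_lit 124) (nat_lit 5) (nat_lit 131) (nat_lit 5) (nat_lit 132) (nat_lit 5) (nat_lit 292) (nat_lit 254) (nat_lit 234)) (XT.lf (nat_lit 0) (nat_lit 4772158664) (nat_lit 608) (nat_lit 2743242796) (nat_lit 76) (nat_lit 433070980) (nat_lit 124) (nat_lit 5) (nat_lit 132) (nat_lit 5) (nat_lit 125) (nat_lit 5) (nat_lit 293) (nat_lit 254) (nat_lit 233))))) (XT.nd (nat_lit 234) (nat_lit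 988) (nat_lit 0) (XT.nd (nat_lit 78) (nat_lit 532) (nat_lit 0) (XT.lf (nat_lit 0) (nat_lit 1775060765) (nat_lit 456) (nat_lit 5527400623) (nat_lit 532) (nat_lit 749665524) (nat_lit 118) (nat_lit 5) (nat_lit 124) (nat_lit 5) (nat_lit 125) (nat_lit 5) (nat_lit 294) (nat_lit 254) (nat_lit 232)) (XT.nd (nat_lit 78) (nat_lit 456) (nat_lit 0) (XT.lf (nat_lit 0) (nat_lit 1679747649) (nat_lit 532) (nat_lit 1760397383) (nat_lit 76) (nat_lit 4719476853) (nat_lit 117) (nat_lit 5) (nat_lit 124) (nat_lit 5) (nat_lit 118) (nat_lit 5) (nat_lit 295) (nat_lit 254) (nat_lit 231)) (XT.lf (nat_lit 0) (nat_lit 2872052939) (nat_lit 456) (nat_lit 1260525221) (nat_lit 532) (nat_lit 4138726939) (nat_lit 111) (nat_lit 5) (nat_lit 117) (nat_lit 5) (nat_lit 118) (nat_lit 5) (nat_lit 296) (nat_lit 254) (nat_lit 230)))) (XT.nd (nat_lit 78) (nat_lit 988) (nat_lit 0) (XT.lf (nat_lit 0) (nat_lit 6625494093) (nat_lit 532) (nat_lit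 785461540) (nat_lit 76) (nat_lit 976537811) (nat_lit 111) (nat_lit 5) (nat_lit 118) (nat_lit 5) (nat_lit 112) (nat_lit 5) (nat_lit 297) (nat_lit 254) (nat_lit 229)) (XT.nd (nat_lit 78) (nat_lit 456) (nat_lit 0) (XT.lf (nat_lit 0) (nat_lit 663860138) (nat_lit 532) (nat_lit 4550015523) (nat_lit 76) (nat_lit 3293498494) (nat_lit 104) (nat_lit 5) (nat_lit 111) (nat_lit 5) (nat_lit 105) (nat_lit 5) (nat_lit 298) (nat_lit 254) (nat_lit 228)) (XT.lf (nat_lit 0) (nat_lit 145060276) (nat_lit 456) (nat_lit 2932650366) (nat_lit 532) (nat_lit 5554235339) (nat_lit 98) (nat_lit 5) (nat_lit 104) (nat_lit 5) (nat_lit 105) (nat_lit 5) (nat_lit 299) (nat_lit 254) (nat_lit 227))))))) (XT.nd (nat_lit 858) (nat_lit 1824) (nat_lit 0) (XT.nd (nat_lit 390) (nat_lit 1216) (nat_lit 0) (XT.nd (nat_lit 156) (nat_lit 456) (nat_lit 0) (XT.nd (nat_lit 78) (nat_lit 380) (nat_lit 0) (XT.lf (nat_lit 0) (nat_lit 5006730246) (nat_lit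 456) (nat_lit 545480525) (nat_lit 532) (nat_lit 3208530133) (nat_lit 98) (nat_lit 5) (nat_lit 104) (nat_lit 5) (nat_lit 105) (nat_lit 5) (nat_lit 300) (nat_lit 254) (nat_lit 226)) (XT.lf (nat_lit 0) (nat_lit 1055780357) (nat_lit 380) (nat_lit 7017583395) (nat_lit 456) (nat_lit 820992475) (nat_lit 93) (nat_lit 5) (nat_lit 98) (nat_lit 5) (nat_lit 99) (nat_lit 5) (nat_lit 301) (nat_lit 254) (nat_lit 225))) (XT.nd (nat_lit 78) (nat_lit 380) (nat_lit 0) (XT.lf (nat_lit 0) (nat_lit 1594091684) (nat_lit 456) (nat_lit 3033400405) (nat_lit 76) (nat_lit 4404500578) (nat_lit 92) (nat_lit 5) (nat_lit 98) (nat_lit 5) (nat_lit 93) (nat_lit 5) (nat_lit 302) (nat_lit 254) (nat_lit 224)) (XT.nd (nat_lit 78) (nat_lit 0) (nat_lit 0) (XT.lf (nat_lit 0) (nat_lit 1878582854) (nat_lit 380) (nat_lit 2150430352) (nat_lit 456) (nat_lit 5145702691) (nat_lit 87) (nat_lit 5) (nat_lit 92) (nat_lit 5) (nat_lit 93) (nat_lit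 5) (nat_lit 303) (nat_lit 254) (nat_lit 223)) (XT.lf (nat_lit 0) (nat_lit 6518434397) (nat_lit 456) (nat_lit 2391678719) (nat_lit 76) (nat_lit 412278843) (nat_lit 87) (nat_lit 5) (nat_lit 93) (nat_lit 5) (nat_lit 88) (nat_lit 5) (nat_lit 304) (nat_lit 254) (nat_lit 222))))) (XT.nd (nat_lit 234) (nat_lit 380) (nat_lit 0) (XT.nd (nat_lit 78) (nat_lit 456) (nat_lit 0) (XT.lf (nat_lit 0) (nat_lit 2624959890) (nat_lit 380) (nat_lit 6452319173) (nat_lit 456) (nat_lit 397488369) (nat_lit 82) (nat_lit 5) (nat_lit 87) (nat_lit 5) (nat_lit 88) (nat_lit 5) (nat_lit 305) (nat_lit 254) (nat_lit 221)) (XT.nd (nat_lit 78) (nat_lit 380) (nat_lit 0) (XT.lf (nat_lit 0) (nat_lit 2013451605) (nat_lit 456) (nat_lit 1875483809) (nat_lit 76) (nat_lit 5743096913) (nat_lit 81) (nat_lit 5) (nat_lit 87) (nat_lit 5) (nat_lit 82) (nat_lit 5) (nat_lit 306) (nat_lit 254) (nat_lit 220)) (XT.lf (nat_lit 0) (nat_lit 3243965403)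 (nat_lit 380) (nat_lit 1225945843) (nat_lit 456) (nat_lit 5324652345) (nat_lit 76) (nat_lit 5) (nat_lit 81) (nat_lit 5) (nat_lit 82) (nat_lit 5) (nat_lit 307) (nat_lit 254) (nat_lit 219)))) (XT.nd (nat_lit 78) (nat_lit 380) (nat_lit 0) (XT.lf (nat_lit 0) (nat_lit 6984490776) (nat_lit 456) (nat_lit 1485017829) (nat_lit 76) (nat_lit 1493028341) (nat_lit 76) (nat_lit 5) (nat_lit 82) (nat_lit 5) (nat_lit 77) (nat_lit 5) (nat_lit 308) (nat_lit 254) (nat_lit 218)) (XT.nd (nat_lit 78) (nat_lit 76) (nat_lit 0) (XT.lf (nat_lit 0) (nat_lit 3730775579) (nat_lit 304) (nat_lit 5843886264) (nat_lit 380) (nat_lit 560979089) (nat_lit 72) (nat_lit 5) (nat_lit 76) (nat_lit 5) (nat_lit 77) (nat_lit 5) (nat_lit 309) (nat_lit 254) (nat_lit 217)) (XT.lf (nat_lit 0) (nat_lit 1858506118) (nat_lit 380) (nat_lit 1261534499) (nat_lit 76) (nat_lit 7194405595) (nat_lit 71) (nat_lit 5) (nat_lit 76) (nat_lit 5) (nat_lit 72)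 (nat_lit 5) (nat_lit 310) (nat_lit 254) (nat_lit 216)))))) (XT.nd (nat_lit 468) (nat_lit 836) (nat_lit 0) (XT.nd (nat_lit 234) (nat_lit 380) (nat_lit 0) (XT.nd (nat_lit 78) (nat_lit 304) (nat_lit 0) (XT.lf (nat_lit 0) (nat_lit 4048530655) (nat_lit 304) (nat_lit 283469391) (nat_lit 380) (nat_lit 6166755902) (nat_lit 67) (nat_lit 5) (nat_lit 71) (nat_lit 5) (nat_lit 72) (nat_lit 5) (nat_lit 311) (nat_lit 254) (nat_lit 215)) (XT.nd (nat_lit 78) (nat_lit 304) (nat_lit 0) (XT.lf (nat_lit 0) (nat_lit 6872327839) (nat_lit 380) (nat_lit 1231660644) (nat_lit 76) (nat_lit 2584912964) (nat_lit 67) (nat_lit 5) (nat_lit 72) (nat_lit 5) (nat_lit 68) (nat_lit 5) (nat_lit 312) (nat_lit 254) (nat_lit 214)) (XT.lf (nat_lit 0) (nat_lit 4161946839) (nat_lit 304) (nat_lit 5325464386) (nat_lit 380) (nat_lit 1397466573) (nat_lit 63) (nat_lit 5) (nat_lit 67) (nat_lit 5) (nat_lit 68) (nat_lit 5) (nat_lit 313) (nat_lit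 254) (nat_lit 213)))) (XT.nd (nat_lit 78) (nat_lit 304) (nat_lit 0) (XT.lf (nat_lit 0) (nat_lit 1041363022) (nat_lit 380) (nat_lit 1414680873) (nat_lit 76) (nat_lit 8631397055) (nat_lit 62) (nat_lit 5) (nat_lit 67) (nat_lit 5) (nat_lit 63) (nat_lit 5) (nat_lit 314) (nat_lit 254) (nat_lit 212)) (XT.nd (nat_lit 78) (nat_lit 0) (nat_lit 0) (XT.lf (nat_lit 0) (nat_lit 3526690977) (nat_lit 380) (nat_lit 7241361724) (nat_lit 76) (nat_lit 527646399) (nat_lit 58) (nat_lit 5) (nat_lit 63) (nat_lit 5) (nat_lit 59) (nat_lit 5) (nat_lit 315) (nat_lit 254) (nat_lit 211)) (XT.lf (nat_lit 0) (nat_lit 6083083332) (nat_lit 380) (nat_lit 1876952723) (nat_lit 76) (nat_lit 3550347422) (nat_lit 58) (nat_lit 5) (nat_lit 63) (nat_lit 5) (nat_lit 59) (nat_lit 5) (nat_lit 316) (nat_lit 254) (nat_lit 210))))) (XT.nd (nat_lit 234) (nat_lit 228) (nat_lit 0) (XT.nd (nat_lit 78) (nat_lit 380) (nat_lit 0) (XT.lf (nat_lit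 0) (nat_lit 3662435136) (nat_lit 228) (nat_lit 5047928519) (nat_lit 304) (nat_lit 3021390317) (nat_lit 55) (nat_lit 5) (nat_lit 58) (nat_lit 5) (nat_lit 59) (nat_lit 5) (nat_lit 317) (nat_lit 254) (nat_lit 209)) (XT.nd (nat_lit 78) (nat_lit 380) (nat_lit 0) (XT.lf (nat_lit 0) (nat_lit 9349622559) (nat_lit 228) (nat_lit 2045431899) (nat_lit 304) (nat_lit 565422755) (nat_lit 55) (nat_lit 5) (nat_lit 58) (nat_lit 5) (nat_lit 59) (nat_lit 5) (nat_lit 318) (nat_lit 254) (nat_lit 208)) (XT.lf (nat_lit 0) (nat_lit 1925423235) (nat_lit 380) (nat_lit 9211399851) (nat_lit 76) (nat_lit 1058752179) (nat_lit 50) (nat_lit 5) (nat_lit 55) (nat_lit 5) (nat_lit 51) (nat_lit 5) (nat_lit 319) (nat_lit 254) (nat_lit 207)))) (XT.nd (nat_lit 78) (nat_lit 228) (nat_lit 0) (XT.lf (nat_lit 0) (nat_lit 4487330096) (nat_lit 380) (nat_lit 3719052106) (nat_lit 76) (nat_lit 4231008615) (nat_lit 50) (nat_lit 5) (nat_lit 55)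 (nat_lit 5) (nat_lit 51) (nat_lit 5) (nat_lit 320) (nat_lit 254) (nat_lit 206)) (XT.nd (nat_lit 78) (nat_lit 0) (nat_lit 0) (XT.lf (nat_lit 0) (nat_lit 1920610063) (nat_lit 228) (nat_lit 5185909848) (nat_lit 304) (nat_lit 5580589807) (nat_lit 47) (nat_lit 5) (nat_lit 50) (nat_lit 5) (nat_lit 51) (nat_lit 5) (nat_lit 321) (nat_lit 254) (nat_lit 205)) (XT.lf (nat_lit 0) (nat_lit 7751303563) (nat_lit 228) (nat_lit 2053085633) (nat_lit 304) (nat_lit 3139987735) (nat_lit 47) (nat_lit 5) (nat_lit 50) (nat_lit 5) (nat_lit 51) (nat_lit 5) (nat_lit 322) (nat_lit 254) (nat_lit 204))))))))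
noncomputable def xc94 : XT := (XT.nd (nat_lit 1716) (nat_lit 836) (nat_lit 0) (XT.nd (nat_lit 858) (nat_lit 608) (nat_lit 0) (XT.nd (nat_lit 390) (nat_lit 684) (nat_lit 0) (XT.nd (nat_lit 156) (nat_lit 228) (nat_lit 0) (XT.nd (nat_lit 78) (nat_lit 76) (nat_lit 0) (XT.lf (nat_lit 0) (nat_lit 492073360) (nat_lit 228) (nat_lit 12070615181) (nat_lit 304) (nat_lit 647346915) (nat_lit 44) (nat_lit 5) (nat_lit 47) (nat_lit 5) (nat_lit 48) (nat_lit 5) (nat_lit 323) (nat_lit 254) (nat_lit 203)) (XT.lf (nat_lit 0) (nat_lit 1919513669) (nat_lit 304) (nat_lit 7121220078) (nat_lit 76) (nat_lit 4441323819) (nat_lit 43) (nat_lit 5) (nat_lit 47) (nat_lit 5) (nat_lit 44) (nat_lit 5) (nat_lit 324) (nat_lit 254) (nat_lit 202))) (XT.nd (nat_lit 78) (nat_lit 228) (nat_lit 0) (XT.lf (nat_lit 0) (nat_lit 4515050046) (nat_lit 304) (nat_lit 1415464044) (nat_lit 76) (nat_lit 7832646720) (nat_lit 43) (nat_lit 5) (nat_lit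 47) (nat_lit 5) (nat_lit 44) (nat_lit 5) (nat_lit 325) (nat_lit 254) (nat_lit 201)) (XT.nd (nat_lit 78) (nat_lit 0) (nat_lit 0) (XT.lf (nat_lit 0) (nat_lit 4498292194) (nat_lit 228) (nat_lit 2699110373) (nat_lit 304) (nat_lit 6855077719) (nat_lit 40) (nat_lit 5) (nat_lit 43) (nat_lit 5) (nat_lit 44) (nat_lit 5) (nat_lit 326) (nat_lit 254) (nat_lit 200)) (XT.lf (nat_lit 0) (nat_lit 9946772403) (nat_lit 304) (nat_lit 3789117901) (nat_lit 76) (nat_lit 615042769) (nat_lit 40) (nat_lit 5) (nat_lit 44) (nat_lit 5) (nat_lit 41) (nat_lit 5) (nat_lit 327) (nat_lit 254) (nat_lit 199))))) (XT.nd (nat_lit 234) (nat_lit 380) (nat_lit 0) (XT.nd (nat_lit 78) (nat_lit 76) (nat_lit 0) (XT.lf (nat_lit 0) (nat_lit 2113565567) (nat_lit 228) (nat_lit 10679150181) (nat_lit 304) (nat_lit 1865249594) (nat_lit 37) (nat_lit 5) (nat_lit 40) (nat_lit 5) (nat_lit 41) (nat_lit 5) (nat_lit 328) (nat_lit 254) (nat_lit 198))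 (XT.nd (nat_lit 78) (nat_lit 0) (nat_lit 0) (XT.lf (nat_lit 0) (nat_lit 741007457) (nat_lit 304) (nat_lit 6759713321) (nat_lit 76) (nat_lit 7473143127) (nat_lit 36) (nat_lit 5) (nat_lit 40) (nat_lit 5) (nat_lit 37) (nat_lit 5) (nat_lit 329) (nat_lit 254) (nat_lit 197)) (XT.lf (nat_lit 0) (nat_lit 3356087799) (nat_lit 304) (nat_lit 868564491) (nat_lit 76) (nat_lit 11075033885) (nat_lit 36) (nat_lit 5) (nat_lit 40) (nat_lit 5) (nat_lit 37) (nat_lit 5) (nat_lit 330) (nat_lit 254) (nat_lit 196)))) (XT.nd (nat_lit 78) (nat_lit 228) (nat_lit 0) (XT.lf (nat_lit 0) (nat_lit 5254661615) (nat_lit 152) (nat_lit 814523596) (nat_lit 228) (nat_lit 9565554204) (nat_lit 34) (nat_lit 5) (nat_lit 36) (nat_lit 5) (nat_lit 37) (nat_lit 5) (nat_lit 331) (nat_lit 254) (nat_lit 195)) (XT.nd (nat_lit 78) (nat_lit 228) (nat_lit 0) (XT.lf (nat_lit 0) (nat_lit 8867816824) (nat_lit 228) (nat_lit 4473745289) (nat_lit 76)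 (nat_lit 2638199885) (nat_lit 34) (nat_lit 5) (nat_lit 37) (nat_lit 5) (nat_lit 35) (nat_lit 5) (nat_lit 332) (nat_lit 254) (nat_lit 194)) (XT.lf (nat_lit 0) (nat_lit 1586523238) (nat_lit 228) (nat_lit 10157441783) (nat_lit 304) (nat_lit 4591404268) (nat_lit 31) (nat_lit 5) (nat_lit 34) (nat_lit 5) (nat_lit 35) (nat_lit 5) (nat_lit 333) (nat_lit 254) (nat_lit 193)))))) (XT.nd (nat_lit 390) (nat_lit 380) (nat_lit 0) (XT.nd (nat_lit 156) (nat_lit 152) (nat_lit 0) (XT.nd (nat_lit 78) (nat_lit 76) (nat_lit 0) (XT.lf (nat_lit 0) (nat_lit 7874611497) (nat_lit 228) (nat_lit 6847632109) (nat_lit 304) (nat_lit 1978965389) (nat_lit 31) (nat_lit 5) (nat_lit 34) (nat_lit 5) (nat_lit 35) (nat_lit 5) (nat_lit 334) (nat_lit 254) (nat_lit 192)) (XT.lf (nat_lit 0) (nat_lit 669160515) (nat_lit 304) (nat_lit 2778499356) (nat_lit 76) (nat_lit 13631059905) (nat_lit 30) (nat_lit 5) (nat_lit 34) (nat_lit 5) (nat_lit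 31) (nat_lit 5) (nat_lit 335) (nat_lit 254) (nat_lit 191))) (XT.nd (nat_lit 78) (nat_lit 0) (nat_lit 0) (XT.lf (nat_lit 0) (nat_lit 3363105682) (nat_lit 228) (nat_lit 14012534173) (nat_lit 76) (nat_lit 91179906) (nat_lit 28) (nat_lit 5) (nat_lit 31) (nat_lit 5) (nat_lit 29) (nat_lit 5) (nat_lit 336) (nat_lit 254) (nat_lit 190)) (XT.nd (nat_lit 78) (nat_lit 0) (nat_lit 0) (XT.lf (nat_lit 0) (nat_lit 6172630832) (nat_lit 228) (nat_lit 8013071775) (nat_lit 76) (nat_lit 3679852452) (nat_lit 28) (nat_lit 5) (nat_lit 31) (nat_lit 5) (nat_lit 29) (nat_lit 5) (nat_lit 337) (nat_lit 254) (nat_lit 189)) (XT.lf (nat_lit 0) (nat_lit 9039539978) (nat_lit 228) (nat_lit 1876293760) (nat_lit 76) (nat_lit 7361259866) (nat_lit 28) (nat_lit 5) (nat_lit 31) (nat_lit 5) (nat_lit 29) (nat_lit 5) (nat_lit 338) (nat_lit 254) (nat_lit 188))))) (XT.nd (nat_lit 234) (nat_lit 228) (nat_lit 0) (XT.nd (nat_lit 78) (nat_lit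 0) (nat_lit 0) (XT.lf (nat_lit 0) (nat_lit 4490793664) (nat_lit 152) (nat_lit 7518712780) (nat_lit 228) (nat_lit 6690993503) (nat_lit 26) (nat_lit 5) (nat_lit 28) (nat_lit 5) (nat_lit 29) (nat_lit 5) (nat_lit 339) (nat_lit 254) (nat_lit 187)) (XT.nd (nat_lit 78) (nat_lit 0) (nat_lit 0) (XT.lf (nat_lit 0) (nat_lit 11046336536) (nat_lit 152) (nat_lit 4015430465) (nat_lit 228) (nat_lit 4075077803) (nat_lit 26) (nat_lit 5) (nat_lit 28) (nat_lit 5) (nat_lit 29) (nat_lit 5) (nat_lit 340) (nat_lit 254) (nat_lit 186)) (XT.lf (nat_lit 0) (nat_lit 17758721074) (nat_lit 152) (nat_lit 421872563) (nat_lit 228) (nat_lit 1406467660) (nat_lit 26) (nat_lit 5) (nat_lit 28) (nat_lit 5) (nat_lit 29) (nat_lit 5) (nat_lit 341) (nat_lit 254) (nat_lit 185)))) (XT.nd (nat_lit 78) (nat_lit 0) (nat_lit 0) (XT.lf (nat_lit 0) (nat_lit 1368221165) (nat_lit 228) (nat_lit 15421221674) (nat_lit 76) (nat_lit 3259417486) (nat_lit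 23) (nat_lit 5) (nat_lit 26) (nat_lit 5) (nat_lit 24) (nat_lit 5) (nat_lit 342) (nat_lit 254) (nat_lit 184)) (XT.nd (nat_lit 78) (nat_lit 0) (nat_lit 0) (XT.lf (nat_lit 0) (nat_lit 4196362449) (nat_lit 228) (nat_lit 9266881319) (nat_lit 76) (nat_lit 7060925970) (nat_lit 23) (nat_lit 5) (nat_lit 26) (nat_lit 5) (nat_lit 24) (nat_lit 5) (nat_lit 343) (nat_lit 254) (nat_lit 183)) (XT.lf (nat_lit 0) (nat_lit 7085714954) (nat_lit 228) (nat_lit 2966175583) (nat_lit 76) (nat_lit 10962584641) (nat_lit 23) (nat_lit 5) (nat_lit 26) (nat_lit 5) (nat_lit 24) (nat_lit 5) (nat_lit 344) (nat_lit 254) (nat_lit 182))))))) (XT.nd (nat_lit 858) (nat_lit 380) (nat_lit 0) (XT.nd (nat_lit 390) (nat_lit 228) (nat_lit 0) (XT.nd (nat_lit 156) (nat_lit 76) (nat_lit 0) (XT.nd (nat_lit 78) (nat_lit 0) (nat_lit 0) (XT.lf (nat_lit 0) (nat_lit 3555787220) (nat_lit 152) (nat_lit 6517196540) (nat_lit 228) (nat_lit 11446195898)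 (nat_lit 21) (nat_lit 5) (nat_lit 23) (nat_lit 5) (nat_lit 24) (nat_lit 5) (nat_lit 345) (nat_lit 254) (nat_lit 181)) (XT.lf (nat_lit 0) (nat_lit 10297426498) (nat_lit 152) (nat_lit 2859766695) (nat_lit 228) (nat_lit 8881638566) (nat_lit 21) (nat_lit 5) (nat_lit 23) (nat_lit 5) (nat_lit 24) (nat_lit 5) (nat_lit 346) (nat_lit 254) (nat_lit 180))) (XT.nd (nat_lit 78) (nat_lit 76) (nat_lit 0) (XT.lf (nat_lit 0) (nat_lit 16320548276) (nat_lit 228) (nat_lit 5377747893) (nat_lit 76) (nat_lit 876204073) (nat_lit 21) (nat_lit 5) (nat_lit 24) (nat_lit 5) (nat_lit 22) (nat_lit 4) (nat_lit 347) (nat_lit 254) (nat_lit 179)) (XT.nd (nat_lit 78) (nat_lit 0) (nat_lit 0) (XT.lf (nat_lit 0) (nat_lit 1135450654) (nat_lit 76) (nat_lit 18461123318) (nat_lit 152) (nat_lit 3529156369) (nat_lit 20) (nat_lit 5) (nat_lit 21) (nat_lit 5) (nat_lit 22) (nat_lit 4) (nat_lit 348) (nat_lit 254) (nat_lit 178)) (XT.lf (nat_lit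 0) (nat_lit 7919418168) (nat_lit 76) (nat_lit 15084597650) (nat_lit 152) (nat_lit 688511406) (nat_lit 20) (nat_lit 5) (nat_lit 21) (nat_lit 5) (nat_lit 22) (nat_lit 4) (nat_lit 349) (nat_lit 254) (nat_lit 177))))) (XT.nd (nat_lit 234) (nat_lit 0) (nat_lit 0) (XT.nd (nat_lit 78) (nat_lit 152) (nat_lit 0) (XT.lf (nat_lit 0) (nat_lit 2172915059) (nat_lit 152) (nat_lit 9425216270) (nat_lit 76) (nat_lit 12678197420) (nat_lit 19) (nat_lit 5) (nat_lit 21) (nat_lit 5) (nat_lit 20) (nat_lit 5) (nat_lit 350) (nat_lit 254) (nat_lit 176)) (XT.nd (nat_lit 78) (nat_lit 152) (nat_lit 0) (XT.lf (nat_lit 0) (nat_lit 5086172105) (nat_lit 152) (nat_lit 2926991177) (nat_lit 76) (nat_lit 16864903655) (nat_lit 19) (nat_lit 5) (nat_lit 21) (nat_lit 5) (nat_lit 20) (nat_lit 5) (nat_lit 351) (nat_lit 254) (nat_lit 175)) (XT.lf (nat_lit 0) (nat_lit 3808173862) (nat_lit 152) (nat_lit 4295673265) (nat_lit 228) (nat_lit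 17393520808) (nat_lit 17) (nat_lit 5) (nat_lit 19) (nat_lit 5) (nat_lit 20) (nat_lit 5) (nat_lit 352) (nat_lit 254) (nat_lit 174)))) (XT.nd (nat_lit 78) (nat_lit 0) (nat_lit 0) (XT.lf (nat_lit 0) (nat_lit 10773393154) (nat_lit 152) (nat_lit 448892746) (nat_lit 228) (nat_lit 14912675711) (nat_lit 17) (nat_lit 5) (nat_lit 19) (nat_lit 5) (nat_lit 20) (nat_lit 5) (nat_lit 353) (nat_lit 254) (nat_lit 173)) (XT.nd (nat_lit 78) (nat_lit 0) (nat_lit 0) (XT.lf (nat_lit 0) (nat_lit 14449170868) (nat_lit 228) (nat_lit 8909419608) (nat_lit 76) (nat_lit 3432665883) (nat_lit 17) (nat_lit 5) (nat_lit 20) (nat_lit 5) (nat_lit 18) (nat_lit 4) (nat_lit 354) (nat_lit 254) (nat_lit 172)) (XT.lf (nat_lit 0) (nat_lit 17758977865) (nat_lit 228) (nat_lit 2298765948) (nat_lit 76) (nat_lit 7409932138) (nat_lit 17) (nat_lit 5) (nat_lit 20) (nat_lit 5) (nat_lit 18) (nat_lit 4) (nat_lit 355) (nat_lit 254) (nat_lit 171))))))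 (XT.nd (nat_lit 468) (nat_lit 76) (nat_lit 0) (XT.nd (nat_lit 234) (nat_lit 228) (nat_lit 0) (XT.nd (nat_lit 78) (nat_lit 0) (nat_lit 0) (XT.lf (nat_lit 0) (nat_lit 4569654265) (nat_lit 76) (nat_lit 16624555970) (nat_lit 152) (nat_lit 6969412862) (nat_lit 16) (nat_lit 5) (nat_lit 17) (nat_lit 5) (nat_lit 18) (nat_lit 4) (nat_lit 356) (nat_lit 254) (nat_lit 170)) (XT.nd (nat_lit 78) (nat_lit 0) (nat_lit 0) (XT.lf (nat_lit 0) (nat_lit 11661817470) (nat_lit 76) (nat_lit 13076335373) (nat_lit 152) (nat_lit 4142144566) (nat_lit 16) (nat_lit 5) (nat_lit 17) (nat_lit 5) (nat_lit 18) (nat_lit 4) (nat_lit 357) (nat_lit 254) (nat_lit 169)) (XT.lf (nat_lit 0) (nat_lit 18938170753) (nat_lit 76) (nat_lit 9433194664) (nat_lit 152) (nat_lit 1247635799) (nat_lit 16) (nat_lit 5) (nat_lit 17) (nat_lit 5) (nat_lit 18) (nat_lit 4) (nat_lit 358) (nat_lit 254) (nat_lit 168)))) (XT.nd (nat_lit 78) (nat_lit 152) (nat_lit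 0) (XT.lf (nat_lit 0) (nat_lit 1683144741) (nat_lit 152) (nat_lit 3991809313) (nat_lit 76) (nat_lit 24704930890) (nat_lit 15) (nat_lit 5) (nat_lit 17) (nat_lit 5) (nat_lit 16) (nat_lit 5) (nat_lit 359) (nat_lit 254) (nat_lit 167)) (XT.nd (nat_lit 78) (nat_lit 0) (nat_lit 0) (XT.lf (nat_lit 0) (nat_lit 2915140407) (nat_lit 152) (nat_lit 1773408918) (nat_lit 228) (nat_lit 26474338270) (nat_lit 13) (nat_lit 5) (nat_lit 15) (nat_lit 5) (nat_lit 16) (nat_lit 5) (nat_lit 360) (nat_lit 254) (nat_lit 166)) (XT.lf (nat_lit 0) (nat_lit 7830269485) (nat_lit 228) (nat_lit 21906423429) (nat_lit 76) (nat_lit 2231318639) (nat_lit 13) (nat_lit 5) (nat_lit 16) (nat_lit 5) (nat_lit 14) (nat_lit 4) (nat_lit 361) (nat_lit 254) (nat_lit 165))))) (XT.nd (nat_lit 234) (nat_lit 76) (nat_lit 0) (XT.nd (nat_lit 78) (nat_lit 0) (nat_lit 0) (XT.lf (nat_lit 0) (nat_lit 11068132586) (nat_lit 228) (nat_lit 15419018470) (nat_lit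 76) (nat_lit 6310096801) (nat_lit 13) (nat_lit 5) (nat_lit 16) (nat_lit 5) (nat_lit 14) (nat_lit 4) (nat_lit 362) (nat_lit 254) (nat_lit 164)) (XT.nd (nat_lit 78) (nat_lit 0) (nat_lit 0) (XT.lf (nat_lit 0) (nat_lit 14387920739) (nat_lit 228) (nat_lit 8762816614) (nat_lit 76) (nat_lit 10501095143) (nat_lit 13) (nat_lit 5) (nat_lit 16) (nat_lit 5) (nat_lit 14) (nat_lit 4) (nat_lit 363) (nat_lit 254) (nat_lit 163)) (XT.lf (nat_lit 0) (nat_lit 17792534728) (nat_lit 228) (nat_lit 1932001763) (nat_lit 76) (nat_lit 14807975702) (nat_lit 13) (nat_lit 5) (nat_lit 16) (nat_lit 5) (nat_lit 14) (nat_lit 4) (nat_lit 364) (nat_lit 254) (nat_lit 162)))) (XT.nd (nat_lit 78) (nat_lit 0) (nat_lit 0) (XT.lf (nat_lit 0) (nat_lit 5180484670) (nat_lit 76) (nat_lit 16154262776) (nat_lit 152) (nat_lit 14103815090) (nat_lit 12) (nat_lit 5) (nat_lit 13) (nat_lit 5) (nat_lit 14) (nat_lit 4) (nat_lit 365) (nat_lit 254)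 (nat_lit 161)) (XT.nd (nat_lit 78) (nat_lit 0) (nat_lit 0) (XT.lf (nat_lit 0) (nat_lit 12521845718) (nat_lit 76) (nat_lit 12466738480) (nat_lit 152) (nat_lit 11383063116) (nat_lit 12) (nat_lit 5) (nat_lit 13) (nat_lit 5) (nat_lit 14) (nat_lit 4) (nat_lit 366) (nat_lit 254) (nat_lit 160)) (XT.lf (nat_lit 0) (nat_lit 20060045536) (nat_lit 76) (nat_lit 8678250926) (nat_lit 152) (nat_lit 8594853618) (nat_lit 12) (nat_lit 5) (nat_lit 13) (nat_lit 5) (nat_lit 14) (nat_lit 4) (nat_lit 367) (nat_lit 254) (nat_lit 159))))))))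
noncomputable def xc95 : XT := (XT.nd (nat_lit 1794) (nat_lit 76) (nat_lit 0) (XT.nd (nat_lit 858) (nat_lit 152) (nat_lit 0) (XT.nd (nat_lit 390) (nat_lit 76) (nat_lit 0) (XT.nd (nat_lit 156) (nat_lit 228) (nat_lit 0) (XT.nd (nat_lit 78) (nat_lit 0) (nat_lit 0) (XT.lf (nat_lit 0) (nat_lit 27801670902) (nat_lit 76) (nat_lit 4785489782) (nat_lit 152) (nat_lit 5736750296) (nat_lit 12) (nat_lit 5) (nat_lit 13) (nat_lit 5) (nat_lit 14) (nat_lit 4) (nat_lit 368) (nat_lit 254) (nat_lit 158)) (XT.lf (nat_lit 0) (nat_lit 35753486342) (nat_lit 76) (nat_lit 785053609) (nat_lit 152) (nat_lit 2806255779) (nat_lit 12) (nat_lit 5) (nat_lit 13) (nat_lit 5) (nat_lit 14) (nat_lit 4) (nat_lit 369) (nat_lit 254) (nat_lit 157))) (XT.nd (nat_lit 78) (nat_lit 0) (nat_lit 0) (XT.lf (nat_lit 0) (nat_lit 262188851) (nat_lit 228) (nat_lit 36833980334) (nat_lit 76) (nat_lit 3298463181) (nat_lit 9) (nat_lit 5) (nat_lit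 12) (nat_lit 5) (nat_lit 10) (nat_lit 4) (nat_lit 370) (nat_lit 254) (nat_lit 156)) (XT.nd (nat_lit 78) (nat_lit 0) (nat_lit 0) (XT.lf (nat_lit 0) (nat_lit 3398048915) (nat_lit 228) (nat_lit 30531772538) (nat_lit 76) (nat_lit 7544367589) (nat_lit 9) (nat_lit 5) (nat_lit 12) (nat_lit 5) (nat_lit 10) (nat_lit 4) (nat_lit 371) (nat_lit 254) (nat_lit 155)) (XT.lf (nat_lit 0) (nat_lit 6615720708) (nat_lit 228) (nat_lit 24061634851) (nat_lit 76) (nat_lit 11909155883) (nat_lit 9) (nat_lit 5) (nat_lit 12) (nat_lit 5) (nat_lit 10) (nat_lit 4) (nat_lit 372) (nat_lit 254) (nat_lit 154))))) (XT.nd (nat_lit 234) (nat_lit 76) (nat_lit 0) (XT.nd (nat_lit 78) (nat_lit 0) (nat_lit 0) (XT.lf (nat_lit 0) (nat_lit 9918015788) (nat_lit 228) (nat_lit 17417913755) (nat_lit 76) (nat_lit 16396641957) (nat_lit 9) (nat_lit 5) (nat_lit 12) (nat_lit 5) (nat_lit 10) (nat_lit 4) (nat_lit 373) (nat_lit 254) (nat_lit 153))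 (XT.nd (nat_lit 78) (nat_lit 0) (nat_lit 0) (XT.lf (nat_lit 0) (nat_lit 13307819656) (nat_lit 228) (nat_lit 10594804055) (nat_lit 76) (nat_lit 21010746916) (nat_lit 9) (nat_lit 5) (nat_lit 12) (nat_lit 5) (nat_lit 10) (nat_lit 4) (nat_lit 374) (nat_lit 254) (nat_lit 152)) (XT.lf (nat_lit 0) (nat_lit 16788094276) (nat_lit 228) (nat_lit 3586343811) (nat_lit 76) (nat_lit 25755502501) (nat_lit 9) (nat_lit 5) (nat_lit 12) (nat_lit 5) (nat_lit 10) (nat_lit 4) (nat_lit 375) (nat_lit 254) (nat_lit 151)))) (XT.nd (nat_lit 78) (nat_lit 0) (nat_lit 0) (XT.lf (nat_lit 0) (nat_lit 3685508417) (nat_lit 76) (nat_lit 16711799608) (nat_lit 152) (nat_lit 26984973559) (nat_lit 8) (nat_lit 5) (nat_lit 9) (nat_lit 5) (nat_lit 10) (nat_lit 4) (nat_lit 376) (nat_lit 254) (nat_lit 150)) (XT.nd (nat_lit 78) (nat_lit 0) (nat_lit 0) (XT.lf (nat_lit 0) (nat_lit 11230437490) (nat_lit 76) (nat_lit 12909817893) (nat_lit 152)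 (nat_lit 24531183289) (nat_lit 8) (nat_lit 5) (nat_lit 9) (nat_lit 5) (nat_lit 10) (nat_lit 4) (nat_lit 377) (nat_lit 254) (nat_lit 149)) (XT.lf (nat_lit 0) (nat_lit 18983660789) (nat_lit 76) (nat_lit 9001385860) (nat_lit 152) (nat_lit 22014546455) (nat_lit 8) (nat_lit 5) (nat_lit 9) (nat_lit 5) (nat_lit 10) (nat_lit 4) (nat_lit 378) (nat_lit 254) (nat_lit 148)))))) (XT.nd (nat_lit 468) (nat_lit 76) (nat_lit 0) (XT.nd (nat_lit 234) (nat_lit 76) (nat_lit 0) (XT.nd (nat_lit 78) (nat_lit 0) (nat_lit 0) (XT.lf (nat_lit 0) (nat_lit 26951952976) (nat_lit 76) (nat_lit 4983088377) (nat_lit 152) (nat_lit 19432864054) (nat_lit 8) (nat_lit 5) (nat_lit 9) (nat_lit 5) (nat_lit 10) (nat_lit 4) (nat_lit 379) (nat_lit 254) (nat_lit 147)) (XT.nd (nat_lit 78) (nat_lit 0) (nat_lit 0) (XT.lf (nat_lit 0) (nat_lit 35142276637) (nat_lit 76) (nat_lit 851414308) (nat_lit 152) (nat_lit 16783880246) (nat_lit 8) (nat_lit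 5) (nat_lit 9) (nat_lit 5) (nat_lit 10) (nat_lit 4) (nat_lit 380) (nat_lit 254) (nat_lit 146)) (XT.lf (nat_lit 0) (nat_lit 40197198230) (nat_lit 152) (nat_lit 10700690252) (nat_lit 0) (nat_lit 3330954029) (nat_lit 8) (nat_lit 5) (nat_lit 10) (nat_lit 4) (nat_lit 8) (nat_lit 4) (nat_lit 381) (nat_lit 254) (nat_lit 145)))) (XT.nd (nat_lit 78) (nat_lit 76) (nat_lit 0) (XT.lf (nat_lit 0) (nat_lit 44525895778) (nat_lit 152) (nat_lit 3582739763) (nat_lit 0) (nat_lit 7615052139) (nat_lit 8) (nat_lit 5) (nat_lit 10) (nat_lit 4) (nat_lit 8) (nat_lit 4) (nat_lit 382) (nat_lit 254) (nat_lit 144)) (XT.nd (nat_lit 78) (nat_lit 0) (nat_lit 0) (XT.lf (nat_lit 0) (nat_lit 3807254033) (nat_lit 76) (nat_lit 45204725253) (nat_lit 76) (nat_lit 8250581188) (nat_lit 7) (nat_lit 4) (nat_lit 8) (nat_lit 5) (nat_lit 8) (nat_lit 4) (nat_lit 383) (nat_lit 254) (nat_lit 143)) (XT.lf (nat_lit 0) (nat_lit 11476756641) (nat_lit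 76) (nat_lit 42183108655) (nat_lit 76) (nat_lit 5186925342) (nat_lit 7) (nat_lit 4) (nat_lit 8) (nat_lit 5) (nat_lit 8) (nat_lit 4) (nat_lit 384) (nat_lit 254) (nat_lit 142))))) (XT.nd (nat_lit 234) (nat_lit 0) (nat_lit 0) (XT.nd (nat_lit 78) (nat_lit 76) (nat_lit 0) (XT.lf (nat_lit 0) (nat_lit 19361166021) (nat_lit 76) (nat_lit 39077324148) (nat_lit 76) (nat_lit 2040326031) (nat_lit 7) (nat_lit 4) (nat_lit 8) (nat_lit 5) (nat_lit 8) (nat_lit 4) (nat_lit 385) (nat_lit 254) (nat_lit 141)) (XT.nd (nat_lit 78) (nat_lit 0) (nat_lit 0) (XT.lf (nat_lit 0) (nat_lit 1168706646) (nat_lit 152) (nat_lit 34704149647) (nat_lit 76) (nat_lit 26286863168) (nat_lit 6) (nat_lit 5) (nat_lit 8) (nat_lit 5) (nat_lit 7) (nat_lit 4) (nat_lit 386) (nat_lit 254) (nat_lit 140)) (XT.lf (nat_lit 0) (nat_lit 4424715178) (nat_lit 152) (nat_lit 28132924195) (nat_lit 76) (nat_lit 31333059927) (nat_lit 6) (nat_lit 5) (nat_lit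 8) (nat_lit 5) (nat_lit 7) (nat_lit 4) (nat_lit 387) (nat_lit 254) (nat_lit 139)))) (XT.nd (nat_lit 78) (nat_lit 0) (nat_lit 0) (XT.lf (nat_lit 0) (nat_lit 7770358730) (nat_lit 152) (nat_lit 21378619113) (nat_lit 76) (nat_lit 36524878766) (nat_lit 6) (nat_lit 5) (nat_lit 8) (nat_lit 5) (nat_lit 7) (nat_lit 4) (nat_lit 388) (nat_lit 254) (nat_lit 138)) (XT.nd (nat_lit 78) (nat_lit 0) (nat_lit 0) (XT.lf (nat_lit 0) (nat_lit 11208560679) (nat_lit 152) (nat_lit 14435332581) (nat_lit 76) (nat_lit 41866856224) (nat_lit 6) (nat_lit 5) (nat_lit 8) (nat_lit 5) (nat_lit 7) (nat_lit 4) (nat_lit 389) (nat_lit 254) (nat_lit 137)) (XT.lf (nat_lit 0) (nat_lit 14742325279) (nat_lit 152) (nat_lit 7296997650) (nat_lit 76) (nat_lit 47363660049) (nat_lit 6) (nat_lit 5) (nat_lit 8) (nat_lit 5) (nat_lit 7) (nat_lit 4) (nat_lit 390) (nat_lit 254) (nat_lit 136))))))) (XT.nd (nat_lit 31512) (nat_lit 0) (nat_lit 12008)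 (XT.nd (nat_lit 390) (nat_lit 0) (nat_lit 0) (XT.nd (nat_lit 156) (nat_lit 0) (nat_lit 0) (XT.nd (nat_lit 78) (nat_lit 0) (nat_lit 0) (XT.lf (nat_lit 0) (nat_lit 43471341) (nat_lit 76) (nat_lit 18331686819) (nat_lit 152) (nat_lit 52977039806) (nat_lit 5) (nat_lit 5) (nat_lit 6) (nat_lit 5) (nat_lit 7) (nat_lit 4) (nat_lit 391) (nat_lit 254) (nat_lit 135)) (XT.lf (nat_lit 0) (nat_lit 7740997552) (nat_lit 76) (nat_lit 14442393308) (nat_lit 152) (nat_lit 51174512065) (nat_lit 5) (nat_lit 5) (nat_lit 6) (nat_lit 5) (nat_lit 7) (nat_lit 4) (nat_lit 392) (nat_lit 254) (nat_lit 134))) (XT.nd (nat_lit 78) (nat_lit 0) (nat_lit 0) (XT.lf (nat_lit 0) (nat_lit 15657082414) (nat_lit 76) (nat_lit 10441729355) (nat_lit 152) (nat_lit 49325184821) (nat_lit 5) (nat_lit 5) (nat_lit 6) (nat_lit 5) (nat_lit 7) (nat_lit 4) (nat_lit 393) (nat_lit 254) (nat_lit 133)) (XT.nd (nat_lit 78) (nat_lit 0) (nat_lit 0) (XT.lf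 (nat_lit 0) (nat_lit 23798642896) (nat_lit 76) (nat_lit 6326199233) (nat_lit 152) (nat_lit 47427442158) (nat_lit 5) (nat_lit 5) (nat_lit 6) (nat_lit 5) (nat_lit 7) (nat_lit 4) (nat_lit 394) (nat_lit 254) (nat_lit 132)) (XT.lf (nat_lit 0) (nat_lit 32172792981) (nat_lit 76) (nat_lit 2092206849) (nat_lit 152) (nat_lit 45479625852) (nat_lit 5) (nat_lit 5) (nat_lit 6) (nat_lit 5) (nat_lit 7) (nat_lit 4) (nat_lit 395) (nat_lit 254) (nat_lit 131))))) (XT.nd (nat_lit 30888) (nat_lit 0) (nat_lit 17708) (XT.nd (nat_lit 78) (nat_lit 0) (nat_lit 0) (XT.lf (nat_lit 0) (nat_lit 38544664934) (nat_lit 152) (nat_lit 41237848974) (nat_lit 0) (nat_lit 2219769634) (nat_lit 5) (nat_lit 5) (nat_lit 7) (nat_lit 4) (nat_lit 5) (nat_lit 4) (nat_lit 396) (nat_lit 254) (nat_lit 130)) (XT.nd (nat_lit 30732) (nat_lit 0) (nat_lit 18620) (XT.lf (nat_lit 0) (nat_lit 42967117945) (nat_lit 152) (nat_lit 34745696652) (nat_lit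 0) (nat_lit 6614429750) (nat_lit 5) (nat_lit 5) (nat_lit 7) (nat_lit 4) (nat_lit 5) (nat_lit 4) (nat_lit 397) (nat_lit 254) (nat_lit 129)) (XT.lf (nat_lit 0) (nat_lit 1286285918) (nat_lit 380) (nat_lit 706540334) (nat_lit 0) (nat_lit 1286285918) (nat_lit 250) (nat_lit 5) (nat_lit 255) (nat_lit 4) (nat_lit 250) (nat_lit 4) (nat_lit 270) (nat_lit 255) (nat_lit 255)))) (XT.nd (nat_lit 78) (nat_lit 532) (nat_lit 0) (XT.lf (nat_lit 0) (nat_lit 2032534255) (nat_lit 380) (nat_lit 3379022275) (nat_lit 380) (nat_lit 1171815339) (nat_lit 245) (nat_lit 4) (nat_lit 250) (nat_lit 5) (nat_lit 250) (nat_lit 4) (nat_lit 271) (nat_lit 255) (nat_lit 254)) (XT.nd (nat_lit 78) (nat_lit 456) (nat_lit 0) (XT.lf (nat_lit 0) (nat_lit 1608235451) (nat_lit 456) (nat_lit 1085408324) (nat_lit 76) (nat_lit 3918052919) (nat_lit 244) (nat_lit 5) (nat_lit 250) (nat_lit 5) (nat_lit 245) (nat_lit 4) (nat_lit 272) (nat_lit 255)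 (nat_lit 253)) (XT.lf (nat_lit 0) (nat_lit 2451966144) (nat_lit 456) (nat_lit 1923697236) (nat_lit 532) (nat_lit 2267408120) (nat_lit 238) (nat_lit 5) (nat_lit 244) (nat_lit 5) (nat_lit 245) (nat_lit 4) (nat_lit 273) (nat_lit 255) (nat_lit 252)))))) (XT.nd (nat_lit 468) (nat_lit 3648) (nat_lit 0) (XT.nd (nat_lit 234) (nat_lit 1444) (nat_lit 0) (XT.nd (nat_lit 78) (nat_lit 532) (nat_lit 0) (XT.lf (nat_lit 0) (nat_lit 455868887) (nat_lit 532) (nat_lit 632589477) (nat_lit 76) (nat_lit 5589646362) (nat_lit 237) (nat_lit 5) (nat_lit 244) (nat_lit 5) (nat_lit 238) (nat_lit 5) (nat_lit 274) (nat_lit 255) (nat_lit 251)) (XT.nd (nat_lit 78) (nat_lit 0) (nat_lit 0) (XT.lf (nat_lit 0) (nat_lit 3000986569) (nat_lit 532) (nat_lit 150724465) (nat_lit 608) (nat_lit 3564053632) (nat_lit 230) (nat_lit 5) (nat_lit 237) (nat_lit 5) (nat_lit 238) (nat_lit 5) (nat_lit 275) (nat_lit 255) (nat_lit 250)) (XT.lf (nat_lit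 0) (nat_lit 5852576717) (nat_lit 608) (nat_lit 76131791) (nat_lit 76) (nat_lit 828453867) (nat_lit 230) (nat_lit 5) (nat_lit 238) (nat_lit 5) (nat_lit 231) (nat_lit 4) (nat_lit 276) (nat_lit 255) (nat_lit 249)))) (XT.nd (nat_lit 78) (nat_lit 760) (nat_lit 0) (XT.lf (nat_lit 0) (nat_lit 1747338093) (nat_lit 684) (nat_lit 3145268617) (nat_lit 76) (nat_lit 1908525380) (nat_lit 221) (nat_lit 5) (nat_lit 230) (nat_lit 5) (nat_lit 222) (nat_lit 5) (nat_lit 277) (nat_lit 255) (nat_lit 248)) (XT.nd (nat_lit 78) (nat_lit 76) (nat_lit 0) (XT.lf (nat_lit 0) (nat_lit 587769250) (nat_lit 684) (nat_lit 3792525676) (nat_lit 760) (nat_lit 2468571793) (nat_lit 212) (nat_lit 5) (nat_lit 221) (nat_lit 5) (nat_lit 222) (nat_lit 5) (nat_lit 278) (nat_lit 255) (nat_lit 247)) (XT.lf (nat_lit 0) (nat_lit 136456597) (nat_lit 760) (nat_lit 2473021940) (nat_lit 76) (nat_lit 4290404415) (nat_lit 211) (nat_lit 5) (nat_lit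 221) (nat_lit 5) (nat_lit 212) (nat_lit 5) (nat_lit 279) (nat_lit 255) (nat_lit 246))))) (XT.nd (nat_lit 234) (nat_lit 1976) (nat_lit 0) (XT.nd (nat_lit 78) (nat_lit 912) (nat_lit 0) (XT.lf (nat_lit 0) (nat_lit 1361865114) (nat_lit 760) (nat_lit 1337715557) (nat_lit 836) (nat_lit 4254507335) (nat_lit 201) (nat_lit 5) (nat_lit 211) (nat_lit 5) (nat_lit 212) (nat_lit 5) (nat_lit 280) (nat_lit 255) (nat_lit 245)) (XT.nd (nat_lit 78) (nat_lit 912) (nat_lit 0) (XT.lf (nat_lit 0) (nat_lit 5282926706) (nat_lit 836) (nat_lit 1717797305) (nat_lit 76) (nat_lit 11165641) (nat_lit 201) (nat_lit 5) (nat_lit 212) (nat_lit 5) (nat_lit 202) (nat_lit 5) (nat_lit 281) (nat_lit 255) (nat_lit 244)) (XT.lf (nat_lit 0) (nat_lit 810100594) (nat_lit 912) (nat_lit 4846821673) (nat_lit 76) (nat_lit 1415863020) (nat_lit 189) (nat_lit 5) (nat_lit 201) (nat_lit 5) (nat_lit 190) (nat_lit 5) (nat_lit 282) (nat_lit 255) (nat_lit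 243)))) (XT.nd (nat_lit 78) (nat_lit 1976) (nat_lit 0) (XT.lf (nat_lit 0) (nat_lit 3329489345) (nat_lit 912) (nat_lit 899230353) (nat_lit 76) (nat_lit 2908354777) (nat_lit 189) (nat_lit 5) (nat_lit 201) (nat_lit 5) (nat_lit 190) (nat_lit 5) (nat_lit 283) (nat_lit 255) (nat_lit 242)) (XT.nd (nat_lit 78) (nat_lit 1064) (nat_lit 0) (XT.lf (nat_lit 0) (nat_lit 3160298994) (nat_lit 912) (nat_lit 2718214848) (nat_lit 988) (nat_lit 1326397019) (nat_lit 177) (nat_lit 5) (nat_lit 189) (nat_lit 5) (nat_lit 190) (nat_lit 5) (nat_lit 284) (nat_lit 255) (nat_lit 241)) (XT.lf (nat_lit 0) (nat_lit 4495753) (nat_lit 988) (nat_lit 1134238866) (nat_lit 1064) (nat_lit 6137914762) (nat_lit 163) (nat_lit 5) (nat_lit 176) (nat_lit 5) (nat_lit 177) (nat_lit 5) (nat_lit 285) (nat_lit 255) (nat_lit 240))))))))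
noncomputable def xc96 : XT := (XT.nd (nat_lit 1716) (nat_lit 3040) (nat_lit 0) (XT.nd (nat_lit 858) (nat_lit 2660) (nat_lit 0) (XT.nd (nat_lit 390) (nat_lit 2128) (nat_lit 0) (XT.nd (nat_lit 156) (nat_lit 760) (nat_lit 0) (XT.nd (nat_lit 78) (nat_lit 1064) (nat_lit 0) (XT.lf (nat_lit 0) (nat_lit 3623069457) (nat_lit 1064) (nat_lit 3180688558) (nat_lit 76) (nat_lit 547450574) (nat_lit 163) (nat_lit 5) (nat_lit 177) (nat_lit 5) (nat_lit 164) (nat_lit 5) (nat_lit 286) (nat_lit 255) (nat_lit 239)) (XT.lf (nat_lit 0) (nat_lit 972288467) (nat_lit 1064) (nat_lit 5158262532) (nat_lit 1140) (nat_lit 1299208441) (nat_lit 149) (nat_lit 5) (nat_lit 163) (nat_lit 5) (nat_lit 164) (nat_lit 5) (nat_lit 287) (nat_lit 255) (nat_lit 238))) (XT.nd (nat_lit 78) (nat_lit 684) (nat_lit 0) (XT.lf (nat_lit 0) (nat_lit 1140138426) (nat_lit 1140) (nat_lit 2276446578) (nat_lit 76) (nat_lit 4095105676) (nat_lit 148) (nat_lit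 5) (nat_lit 163) (nat_lit 5) (nat_lit 149) (nat_lit 5) (nat_lit 288) (nat_lit 255) (nat_lit 237)) (XT.nd (nat_lit 78) (nat_lit 0) (nat_lit 0) (XT.lf (nat_lit 0) (nat_lit 1988054657) (nat_lit 684) (nat_lit 1588267272) (nat_lit 760) (nat_lit 4021074212) (nat_lit 139) (nat_lit 5) (nat_lit 148) (nat_lit 5) (nat_lit 149) (nat_lit 5) (nat_lit 289) (nat_lit 255) (nat_lit 236)) (XT.lf (nat_lit 0) (nat_lit 6043680282) (nat_lit 760) (nat_lit 1330344466) (nat_lit 76) (nat_lit 313094913) (nat_lit 139) (nat_lit 5) (nat_lit 149) (nat_lit 5) (nat_lit 140) (nat_lit 5) (nat_lit 290) (nat_lit 255) (nat_lit 235))))) (XT.nd (nat_lit 234) (nat_lit 988) (nat_lit 0) (XT.nd (nat_lit 78) (nat_lit 532) (nat_lit 0) (XT.lf (nat_lit 0) (nat_lit 768514192) (nat_lit 608) (nat_lit 4734431550) (nat_lit 76) (nat_lit 2277174288) (nat_lit 131) (nat_lit 5) (nat_lit 139) (nat_lit 5) (nat_lit 132) (nat_lit 5) (nat_lit 291) (nat_lit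 255) (nat_lit 234)) (XT.nd (nat_lit 78) (nat_lit 532) (nat_lit 0) (XT.lf (nat_lit 0) (nat_lit 3167844650) (nat_lit 608) (nat_lit 379887079) (nat_lit 76) (nat_lit 4329422523) (nat_lit 131) (nat_lit 5) (nat_lit 139) (nat_lit 5) (nat_lit 132) (nat_lit 5) (nat_lit 292) (nat_lit 255) (nat_lit 233)) (XT.lf (nat_lit 0) (nat_lit 4119418047) (nat_lit 532) (nat_lit 1495726509) (nat_lit 608) (nat_lit 2362843691) (nat_lit 124) (nat_lit 5) (nat_lit 131) (nat_lit 5) (nat_lit 132) (nat_lit 5) (nat_lit 293) (nat_lit 255) (nat_lit 232)))) (XT.nd (nat_lit 78) (nat_lit 456) (nat_lit 0) (XT.lf (nat_lit 0) (nat_lit 5677924) (nat_lit 532) (nat_lit 7465236891) (nat_lit 76) (nat_lit 612494163) (nat_lit 117) (nat_lit 5) (nat_lit 124) (nat_lit 5) (nat_lit 118) (nat_lit 5) (nat_lit 294) (nat_lit 255) (nat_lit 231)) (XT.nd (nat_lit 78) (nat_lit 456) (nat_lit 0) (XT.lf (nat_lit 0) (nat_lit 2389917865) (nat_lit 532) (nat_lit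 2989439479) (nat_lit 76) (nat_lit 2812322686) (nat_lit 117) (nat_lit 5) (nat_lit 124) (nat_lit 5) (nat_lit 118) (nat_lit 5) (nat_lit 295) (nat_lit 255) (nat_lit 230)) (XT.lf (nat_lit 0) (nat_lit 1585215436) (nat_lit 456) (nat_lit 3215508160) (nat_lit 532) (nat_lit 3503974111) (nat_lit 111) (nat_lit 5) (nat_lit 117) (nat_lit 5) (nat_lit 118) (nat_lit 5) (nat_lit 296) (nat_lit 255) (nat_lit 229)))))) (XT.nd (nat_lit 390) (nat_lit 1672) (nat_lit 0) (XT.nd (nat_lit 156) (nat_lit 456) (nat_lit 0) (XT.nd (nat_lit 78) (nat_lit 532) (nat_lit 0) (XT.lf (nat_lit 0) (nat_lit 6292691383) (nat_lit 456) (nat_lit 962271966) (nat_lit 532) (nat_lit 1167154561) (nat_lit 111) (nat_lit 5) (nat_lit 117) (nat_lit 5) (nat_lit 118) (nat_lit 5) (nat_lit 297) (nat_lit 255) (nat_lit 228)) (XT.lf (nat_lit 0) (nat_lit 1195587687) (nat_lit 532) (nat_lit 5985680268) (nat_lit 76) (nat_lit 1362171881) (nat_lit 104) (nat_lit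 5) (nat_lit 111) (nat_lit 5) (nat_lit 105) (nat_lit 5) (nat_lit 298) (nat_lit 255) (nat_lit 227))) (XT.nd (nat_lit 78) (nat_lit 456) (nat_lit 0) (XT.lf (nat_lit 0) (nat_lit 3579933932) (nat_lit 532) (nat_lit 1326051485) (nat_lit 76) (nat_lit 3762976872) (nat_lit 104) (nat_lit 5) (nat_lit 111) (nat_lit 5) (nat_lit 105) (nat_lit 5) (nat_lit 299) (nat_lit 255) (nat_lit 226)) (XT.nd (nat_lit 78) (nat_lit 0) (nat_lit 0) (XT.lf (nat_lit 0) (nat_lit 3476930859) (nat_lit 456) (nat_lit 2536901124) (nat_lit 532) (nat_lit 2785206881) (nat_lit 98) (nat_lit 5) (nat_lit 104) (nat_lit 5) (nat_lit 105) (nat_lit 5) (nat_lit 300) (nat_lit 255) (nat_lit 225)) (XT.lf (nat_lit 0) (nat_lit 8387532905) (nat_lit 456) (nat_lit 92205374) (nat_lit 532) (nat_lit 454635049) (nat_lit 98) (nat_lit 5) (nat_lit 104) (nat_lit 5) (nat_lit 105) (nat_lit 5) (nat_lit 301) (nat_lit 255) (nat_lit 224))))) (XT.nd (nat_lit 234) (nat_lit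 836) (nat_lit 0) (XT.nd (nat_lit 78) (nat_lit 380) (nat_lit 0) (XT.lf (nat_lit 0) (nat_lit 1920313791) (nat_lit 456) (nat_lit 4722116154) (nat_lit 76) (nat_lit 2430521958) (nat_lit 92) (nat_lit 5) (nat_lit 98) (nat_lit 5) (nat_lit 93) (nat_lit 5) (nat_lit 302) (nat_lit 255) (nat_lit 223)) (XT.nd (nat_lit 78) (nat_lit 0) (nat_lit 0) (XT.lf (nat_lit 0) (nat_lit 124124903) (nat_lit 380) (nat_lit 4188336973) (nat_lit 456) (nat_lit 4904552961) (nat_lit 87) (nat_lit 5) (nat_lit 92) (nat_lit 5) (nat_lit 93) (nat_lit 5) (nat_lit 303) (nat_lit 255) (nat_lit 222)) (XT.lf (nat_lit 0) (nat_lit 5149220977) (nat_lit 380) (nat_lit 1623166353) (nat_lit 456) (nat_lit 2593243296) (nat_lit 87) (nat_lit 5) (nat_lit 92) (nat_lit 5) (nat_lit 93) (nat_lit 5) (nat_lit 304) (nat_lit 255) (nat_lit 221)))) (XT.nd (nat_lit 78) (nat_lit 456) (nat_lit 0) (XT.lf (nat_lit 0) (nat_lit 748179196) (nat_lit 380) (nat_lit 8524643148)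 (nat_lit 456) (nat_lit 246989300) (nat_lit 82) (nat_lit 5) (nat_lit 87) (nat_lit 5) (nat_lit 88) (nat_lit 5) (nat_lit 305) (nat_lit 255) (nat_lit 220)) (XT.nd (nat_lit 78) (nat_lit 380) (nat_lit 0) (XT.lf (nat_lit 0) (nat_lit 2136382176) (nat_lit 456) (nat_lit 3830021489) (nat_lit 76) (nat_lit 3711418624) (nat_lit 81) (nat_lit 5) (nat_lit 87) (nat_lit 5) (nat_lit 82) (nat_lit 5) (nat_lit 306) (nat_lit 255) (nat_lit 219)) (XT.lf (nat_lit 0) (nat_lit 1219569036) (nat_lit 380) (nat_lit 3329898754) (nat_lit 456) (nat_lit 5292235722) (nat_lit 76) (nat_lit 5) (nat_lit 81) (nat_lit 5) (nat_lit 82) (nat_lit 5) (nat_lit 307) (nat_lit 255) (nat_lit 218))))))) (XT.nd (nat_lit 858) (nat_lit 1444) (nat_lit 0) (XT.nd (nat_lit 390) (nat_lit 912) (nat_lit 0) (XT.nd (nat_lit 156) (nat_lit 380) (nat_lit 0) (XT.nd (nat_lit 78) (nat_lit 304) (nat_lit 0) (XT.lf (nat_lit 0) (nat_lit 6438141588) (nat_lit 380) (nat_lit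 587761505) (nat_lit 456) (nat_lit 2984965417) (nat_lit 76) (nat_lit 5) (nat_lit 81) (nat_lit 5) (nat_lit 82) (nat_lit 5) (nat_lit 308) (nat_lit 255) (nat_lit 217)) (XT.lf (nat_lit 0) (nat_lit 1576833428) (nat_lit 304) (nat_lit 7990002631) (nat_lit 380) (nat_lit 618659522) (nat_lit 72) (nat_lit 5) (nat_lit 76) (nat_lit 5) (nat_lit 77) (nat_lit 5) (nat_lit 309) (nat_lit 255) (nat_lit 216))) (XT.nd (nat_lit 78) (nat_lit 304) (nat_lit 0) (XT.lf (nat_lit 0) (nat_lit 1779183916) (nat_lit 380) (nat_lit 3494832401) (nat_lit 76) (nat_lit 5091027499) (nat_lit 71) (nat_lit 5) (nat_lit 76) (nat_lit 5) (nat_lit 72) (nat_lit 5) (nat_lit 310) (nat_lit 255) (nat_lit 215)) (XT.nd (nat_lit 78) (nat_lit 0) (nat_lit 0) (XT.lf (nat_lit 0) (nat_lit 1741024845) (nat_lit 304) (nat_lit 2467367644) (nat_lit 380) (nat_lit 6342331663) (nat_lit 67) (nat_lit 5) (nat_lit 71) (nat_lit 5) (nat_lit 72) (nat_lit 5) (nat_lit 311)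 (nat_lit 255) (nat_lit 214)) (XT.lf (nat_lit 0) (nat_lit 6705920397) (nat_lit 380) (nat_lit 3599659945) (nat_lit 76) (nat_lit 436614124) (nat_lit 67) (nat_lit 5) (nat_lit 72) (nat_lit 5) (nat_lit 68) (nat_lit 5) (nat_lit 312) (nat_lit 255) (nat_lit 213))))) (XT.nd (nat_lit 234) (nat_lit 228) (nat_lit 0) (XT.nd (nat_lit 78) (nat_lit 380) (nat_lit 0) (XT.lf (nat_lit 0) (nat_lit 1717590851) (nat_lit 304) (nat_lit 7558744519) (nat_lit 380) (nat_lit 1663215126) (nat_lit 63) (nat_lit 5) (nat_lit 67) (nat_lit 5) (nat_lit 68) (nat_lit 5) (nat_lit 313) (nat_lit 255) (nat_lit 212)) (XT.nd (nat_lit 78) (nat_lit 304) (nat_lit 0) (XT.lf (nat_lit 0) (nat_lit 759728344) (nat_lit 380) (nat_lit 3939989277) (nat_lit 76) (nat_lit 6443142172) (nat_lit 62) (nat_lit 5) (nat_lit 67) (nat_lit 5) (nat_lit 63) (nat_lit 5) (nat_lit 314) (nat_lit 255) (nat_lit 211)) (XT.lf (nat_lit 0) (nat_lit 1455547012) (nat_lit 304)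 (nat_lit 1738845810) (nat_lit 380) (nat_lit 8158281292) (nat_lit 58) (nat_lit 5) (nat_lit 62) (nat_lit 5) (nat_lit 63) (nat_lit 5) (nat_lit 315) (nat_lit 255) (nat_lit 210)))) (XT.nd (nat_lit 78) (nat_lit 228) (nat_lit 0) (XT.lf (nat_lit 0) (nat_lit 5713868668) (nat_lit 380) (nat_lit 4544289316) (nat_lit 76) (nat_lit 1310343210) (nat_lit 58) (nat_lit 5) (nat_lit 63) (nat_lit 5) (nat_lit 59) (nat_lit 5) (nat_lit 316) (nat_lit 255) (nat_lit 209)) (XT.nd (nat_lit 78) (nat_lit 0) (nat_lit 0) (XT.lf (nat_lit 0) (nat_lit 914004564) (nat_lit 228) (nat_lit 7381111569) (nat_lit 304) (nat_lit 3496170725) (nat_lit 55) (nat_lit 5) (nat_lit 58) (nat_lit 5) (nat_lit 59) (nat_lit 5) (nat_lit 317) (nat_lit 255) (nat_lit 208)) (XT.lf (nat_lit 0) (nat_lit 6573999025) (nat_lit 228) (nat_lit 4386504514) (nat_lit 304) (nat_lit 1060118849) (nat_lit 55) (nat_lit 5) (nat_lit 58) (nat_lit 5) (nat_lit 59) (nat_lit 5)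 (nat_lit 318) (nat_lit 255) (nat_lit 207)))))) (XT.nd (nat_lit 468) (nat_lit 532) (nat_lit 0) (XT.nd (nat_lit 234) (nat_lit 532) (nat_lit 0) (XT.nd (nat_lit 78) (nat_lit 0) (nat_lit 0) (XT.lf (nat_lit 0) (nat_lit 80167544) (nat_lit 304) (nat_lit 1302856794) (nat_lit 380) (nat_lit 10874590728) (nat_lit 50) (nat_lit 5) (nat_lit 54) (nat_lit 5) (nat_lit 55) (nat_lit 5) (nat_lit 319) (nat_lit 255) (nat_lit 206)) (XT.nd (nat_lit 78) (nat_lit 0) (nat_lit 0) (XT.lf (nat_lit 0) (nat_lit 3913670234) (nat_lit 380) (nat_lit 6699637018) (nat_lit 76) (nat_lit 1887091567) (nat_lit 50) (nat_lit 5) (nat_lit 55) (nat_lit 5) (nat_lit 51) (nat_lit 5) (nat_lit 320) (nat_lit 255) (nat_lit 205)) (XT.lf (nat_lit 0) (nat_lit 6496206603) (nat_lit 380) (nat_lit 1123725777) (nat_lit 76) (nat_lit 5131314430) (nat_lit 50) (nat_lit 5) (nat_lit 55) (nat_lit 5) (nat_lit 51) (nat_lit 5) (nat_lit 321) (nat_lit 255) (nat_lit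 204)))) (XT.nd (nat_lit 78) (nat_lit 304) (nat_lit 0) (XT.lf (nat_lit 0) (nat_lit 4658588043) (nat_lit 228) (nat_lit 4506559328) (nat_lit 304) (nat_lit 3844263135) (nat_lit 47) (nat_lit 5) (nat_lit 50) (nat_lit 5) (nat_lit 51) (nat_lit 5) (nat_lit 322) (nat_lit 255) (nat_lit 203)) (XT.nd (nat_lit 78) (nat_lit 304) (nat_lit 0) (XT.lf (nat_lit 0) (nat_lit 10586133620) (nat_lit 228) (nat_lit 1304068673) (nat_lit 304) (nat_lit 1385891866) (nat_lit 47) (nat_lit 5) (nat_lit 50) (nat_lit 5) (nat_lit 51) (nat_lit 5) (nat_lit 323) (nat_lit 255) (nat_lit 202)) (XT.lf (nat_lit 0) (nat_lit 1138813093) (nat_lit 304) (nat_lit 10429595033) (nat_lit 76) (nat_lit 1981644341) (nat_lit 43) (nat_lit 5) (nat_lit 47) (nat_lit 5) (nat_lit 44) (nat_lit 5) (nat_lit 324) (nat_lit 255) (nat_lit 201))))) (XT.nd (nat_lit 234) (nat_lit 304) (nat_lit 0) (XT.nd (nat_lit 78) (nat_lit 228) (nat_lit 0) (XT.lf (nat_lit 0) (nat_lit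 3717457704) (nat_lit 304) (nat_lit 4748937698) (nat_lit 76) (nat_lit 5365292497) (nat_lit 43) (nat_lit 5) (nat_lit 47) (nat_lit 5) (nat_lit 44) (nat_lit 5) (nat_lit 325) (nat_lit 255) (nat_lit 200)) (XT.nd (nat_lit 78) (nat_lit 0) (nat_lit 0) (XT.lf (nat_lit 0) (nat_lit 1073623244) (nat_lit 228) (nat_lit 5276867195) (nat_lit 304) (nat_lit 7772021224) (nat_lit 40) (nat_lit 5) (nat_lit 43) (nat_lit 5) (nat_lit 44) (nat_lit 5) (nat_lit 326) (nat_lit 255) (nat_lit 199)) (XT.lf (nat_lit 0) (nat_lit 7119228178) (nat_lit 228) (nat_lit 1958448216) (nat_lit 304) (nat_lit 5343977548) (nat_lit 40) (nat_lit 5) (nat_lit 43) (nat_lit 5) (nat_lit 44) (nat_lit 5) (nat_lit 327) (nat_lit 255) (nat_lit 198)))) (XT.nd (nat_lit 78) (nat_lit 304) (nat_lit 0) (XT.lf (nat_lit 0) (nat_lit 11868719083) (nat_lit 304) (nat_lit 1446005120) (nat_lit 76) (nat_lit 1415632305) (nat_lit 40) (nat_lit 5) (nat_lit 44) (nat_lit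 5) (nat_lit 41) (nat_lit 5) (nat_lit 328) (nat_lit 255) (nat_lit 197)) (XT.nd (nat_lit 78) (nat_lit 76) (nat_lit 0) (XT.lf (nat_lit 0) (nat_lit 4609672711) (nat_lit 228) (nat_lit 10166464944) (nat_lit 304) (nat_lit 271249034) (nat_lit 37) (nat_lit 5) (nat_lit 40) (nat_lit 5) (nat_lit 41) (nat_lit 5) (nat_lit 329) (nat_lit 255) (nat_lit 196)) (XT.lf (nat_lit 0) (nat_lit 2333879840) (nat_lit 304) (nat_lit 4567206289) (nat_lit 76) (nat_lit 8472679689) (nat_lit 36) (nat_lit 5) (nat_lit 40) (nat_lit 5) (nat_lit 37) (nat_lit 5) (nat_lit 330) (nat_lit 255) (nat_lit 195))))))))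
noncomputable def xc97 : XT := (XT.nd (nat_lit 1716) (nat_lit 760) (nat_lit 0) (XT.nd (nat_lit 858) (nat_lit 532) (nat_lit 0) (XT.nd (nat_lit 390) (nat_lit 380) (nat_lit 0) (XT.nd (nat_lit 156) (nat_lit 228) (nat_lit 0) (XT.nd (nat_lit 78) (nat_lit 0) (nat_lit 0) (XT.lf (nat_lit 0) (nat_lit 1459388967) (nat_lit 152) (nat_lit 3536305305) (nat_lit 228) (nat_lit 10714683957) (nat_lit 34) (nat_lit 5) (nat_lit 36) (nat_lit 5) (nat_lit 37) (nat_lit 5) (nat_lit 331) (nat_lit 255) (nat_lit 194)) (XT.lf (nat_lit 0) (nat_lit 7715034584) (nat_lit 152) (nat_lit 38842337) (nat_lit 228) (nat_lit 8302757439) (nat_lit 34) (nat_lit 5) (nat_lit 36) (nat_lit 5) (nat_lit 37) (nat_lit 5) (nat_lit 332) (nat_lit 255) (nat_lit 193))) (XT.nd (nat_lit 78) (nat_lit 228) (nat_lit 0) (XT.lf (nat_lit 0) (nat_lit 10600169160) (nat_lit 228) (nat_lit 2333987605) (nat_lit 76) (nat_lit 3479000059) (nat_lit 34) (nat_lit 5) (nat_lit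 37) (nat_lit 5) (nat_lit 35) (nat_lit 5) (nat_lit 333) (nat_lit 255) (nat_lit 192)) (XT.nd (nat_lit 78) (nat_lit 0) (nat_lit 0) (XT.lf (nat_lit 0) (nat_lit 3885795154) (nat_lit 228) (nat_lit 9655742852) (nat_lit 304) (nat_lit 3238584742) (nat_lit 31) (nat_lit 5) (nat_lit 34) (nat_lit 5) (nat_lit 35) (nat_lit 5) (nat_lit 334) (nat_lit 255) (nat_lit 191)) (XT.lf (nat_lit 0) (nat_lit 10296943259) (nat_lit 228) (nat_lit 6270126913) (nat_lit 304) (nat_lit 591187113) (nat_lit 31) (nat_lit 5) (nat_lit 34) (nat_lit 5) (nat_lit 35) (nat_lit 5) (nat_lit 335) (nat_lit 255) (nat_lit 190))))) (XT.nd (nat_lit 234) (nat_lit 152) (nat_lit 0) (XT.nd (nat_lit 78) (nat_lit 152) (nat_lit 0) (XT.lf (nat_lit 0) (nat_lit 2066816090) (nat_lit 304) (nat_lit 710232461) (nat_lit 76) (nat_lit 14770920871) (nat_lit 30) (nat_lit 5) (nat_lit 34) (nat_lit 5) (nat_lit 31) (nat_lit 5) (nat_lit 336) (nat_lit 255) (nat_lit 189))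 (XT.nd (nat_lit 78) (nat_lit 0) (nat_lit 0) (XT.lf (nat_lit 0) (nat_lit 4829362448) (nat_lit 228) (nat_lit 12267338610) (nat_lit 76) (nat_lit 851429840) (nat_lit 28) (nat_lit 5) (nat_lit 31) (nat_lit 5) (nat_lit 29) (nat_lit 5) (nat_lit 337) (nat_lit 255) (nat_lit 188)) (XT.lf (nat_lit 0) (nat_lit 7683405480) (nat_lit 228) (nat_lit 6150967240) (nat_lit 76) (nat_lit 4525699032) (nat_lit 28) (nat_lit 5) (nat_lit 31) (nat_lit 5) (nat_lit 29) (nat_lit 5) (nat_lit 338) (nat_lit 255) (nat_lit 187)))) (XT.nd (nat_lit 78) (nat_lit 0) (nat_lit 0) (XT.lf (nat_lit 0) (nat_lit 110839219) (nat_lit 152) (nat_lit 10487938552) (nat_lit 228) (nat_lit 8186354001) (nat_lit 26) (nat_lit 5) (nat_lit 28) (nat_lit 5) (nat_lit 29) (nat_lit 5) (nat_lit 339) (nat_lit 255) (nat_lit 186)) (XT.nd (nat_lit 78) (nat_lit 0) (nat_lit 0) (XT.lf (nat_lit 0) (nat_lit 6646764051) (nat_lit 152) (nat_lit 6991958150) (nat_lit 228)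 (nat_lit 5583139300) (nat_lit 26) (nat_lit 5) (nat_lit 28) (nat_lit 5) (nat_lit 29) (nat_lit 5) (nat_lit 340) (nat_lit 255) (nat_lit 185)) (XT.lf (nat_lit 0) (nat_lit 13340101950) (nat_lit 152) (nat_lit 3405489483) (nat_lit 228) (nat_lit 2926860225) (nat_lit 26) (nat_lit 5) (nat_lit 28) (nat_lit 5) (nat_lit 29) (nat_lit 5) (nat_lit 341) (nat_lit 255) (nat_lit 184)))))) (XT.nd (nat_lit 390) (nat_lit 152) (nat_lit 0) (XT.nd (nat_lit 156) (nat_lit 152) (nat_lit 0) (XT.nd (nat_lit 78) (nat_lit 76) (nat_lit 0) (XT.lf (nat_lit 0) (nat_lit 57895614) (nat_lit 152) (nat_lit 19867400755) (nat_lit 228) (nat_lit 211903709) (nat_lit 24) (nat_lit 5) (nat_lit 26) (nat_lit 5) (nat_lit 27) (nat_lit 4) (nat_lit 342) (nat_lit 255) (nat_lit 183)) (XT.lf (nat_lit 0) (nat_lit 2608730698) (nat_lit 228) (nat_lit 13941776831) (nat_lit 76) (nat_lit 4062425999) (nat_lit 23) (nat_lit 5) (nat_lit 26) (nat_lit 5) (nat_lit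 24) (nat_lit 5) (nat_lit 343) (nat_lit 255) (nat_lit 182))) (XT.nd (nat_lit 78) (nat_lit 152) (nat_lit 0) (XT.lf (nat_lit 0) (nat_lit 5486780407) (nat_lit 228) (nat_lit 7659371745) (nat_lit 76) (nat_lit 7957439174) (nat_lit 23) (nat_lit 5) (nat_lit 26) (nat_lit 5) (nat_lit 24) (nat_lit 5) (nat_lit 344) (nat_lit 255) (nat_lit 181)) (XT.nd (nat_lit 78) (nat_lit 152) (nat_lit 0) (XT.lf (nat_lit 0) (nat_lit 8428895223) (nat_lit 228) (nat_lit 1224562780) (nat_lit 76) (nat_lit 11956205312) (nat_lit 23) (nat_lit 5) (nat_lit 26) (nat_lit 5) (nat_lit 24) (nat_lit 5) (nat_lit 345) (nat_lit 255) (nat_lit 180)) (XT.lf (nat_lit 0) (nat_lit 5475111867) (nat_lit 152) (nat_lit 6015164183) (nat_lit 228) (nat_lit 10639736736) (nat_lit 21) (nat_lit 5) (nat_lit 23) (nat_lit 5) (nat_lit 24) (nat_lit 5) (nat_lit 346) (nat_lit 255) (nat_lit 179))))) (XT.nd (nat_lit 234) (nat_lit 76) (nat_lit 0) (XT.nd (nat_lit 78)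 (nat_lit 76) (nat_lit 0) (XT.lf (nat_lit 0) (nat_lit 12366204662) (nat_lit 152) (nat_lit 2268328382) (nat_lit 228) (nat_lit 8031733316) (nat_lit 21) (nat_lit 5) (nat_lit 23) (nat_lit 5) (nat_lit 24) (nat_lit 5) (nat_lit 347) (nat_lit 255) (nat_lit 178)) (XT.nd (nat_lit 78) (nat_lit 76) (nat_lit 0) (XT.lf (nat_lit 0) (nat_lit 17867576391) (nat_lit 228) (nat_lit 3804055320) (nat_lit 76) (nat_lit 1547166012) (nat_lit 21) (nat_lit 5) (nat_lit 24) (nat_lit 5) (nat_lit 22) (nat_lit 4) (nat_lit 348) (nat_lit 255) (nat_lit 177)) (XT.lf (nat_lit 0) (nat_lit 2887529133) (nat_lit 76) (nat_lit 18340069938) (nat_lit 152) (nat_lit 2559429562) (nat_lit 20) (nat_lit 5) (nat_lit 21) (nat_lit 5) (nat_lit 22) (nat_lit 4) (nat_lit 349) (nat_lit 255) (nat_lit 176)))) (XT.nd (nat_lit 78) (nat_lit 0) (nat_lit 0) (XT.lf (nat_lit 0) (nat_lit 328567414) (nat_lit 152) (nat_lit 14550020104) (nat_lit 76) (nat_lit 9493091102)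 (nat_lit 19) (nat_lit 5) (nat_lit 21) (nat_lit 5) (nat_lit 20) (nat_lit 5) (nat_lit 350) (nat_lit 255) (nat_lit 175)) (XT.nd (nat_lit 78) (nat_lit 0) (nat_lit 0) (XT.lf (nat_lit 0) (nat_lit 3232176070) (nat_lit 152) (nat_lit 8067715205) (nat_lit 76) (nat_lit 13673825464) (nat_lit 19) (nat_lit 5) (nat_lit 21) (nat_lit 5) (nat_lit 20) (nat_lit 5) (nat_lit 351) (nat_lit 255) (nat_lit 174)) (XT.lf (nat_lit 0) (nat_lit 6203877227) (nat_lit 152) (nat_lit 1422317852) (nat_lit 76) (nat_lit 17968212047) (nat_lit 19) (nat_lit 5) (nat_lit 21) (nat_lit 5) (nat_lit 20) (nat_lit 5) (nat_lit 352) (nat_lit 255) (nat_lit 173))))))) (XT.nd (nat_lit 858) (nat_lit 304) (nat_lit 0) (XT.nd (nat_lit 390) (nat_lit 228) (nat_lit 0) (XT.nd (nat_lit 156) (nat_lit 76) (nat_lit 0) (XT.nd (nat_lit 78) (nat_lit 0) (nat_lit 0) (XT.lf (nat_lit 0) (nat_lit 5499289560) (nat_lit 152) (nat_lit 3799840494) (nat_lit 228) (nat_lit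 16933576204) (nat_lit 17) (nat_lit 5) (nat_lit 19) (nat_lit 5) (nat_lit 20) (nat_lit 5) (nat_lit 353) (nat_lit 255) (nat_lit 172)) (XT.lf (nat_lit 0) (nat_lit 12484774597) (nat_lit 228) (nat_lit 14264137855) (nat_lit 76) (nat_lit 141335356) (nat_lit 17) (nat_lit 5) (nat_lit 20) (nat_lit 5) (nat_lit 18) (nat_lit 4) (nat_lit 354) (nat_lit 255) (nat_lit 171))) (XT.nd (nat_lit 78) (nat_lit 76) (nat_lit 0) (XT.lf (nat_lit 0) (nat_lit 15785815511) (nat_lit 228) (nat_lit 7668126298) (nat_lit 76) (nat_lit 4112997885) (nat_lit 17) (nat_lit 5) (nat_lit 20) (nat_lit 5) (nat_lit 18) (nat_lit 4) (nat_lit 355) (nat_lit 255) (nat_lit 170)) (XT.nd (nat_lit 78) (nat_lit 76) (nat_lit 0) (XT.lf (nat_lit 0) (nat_lit 19168610809) (nat_lit 228) (nat_lit 903092133) (nat_lit 76) (nat_lit 8192766050) (nat_lit 17) (nat_lit 5) (nat_lit 20) (nat_lit 5) (nat_lit 18) (nat_lit 4) (nat_lit 356) (nat_lit 255) (nat_lit 169))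 (XT.lf (nat_lit 0) (nat_lit 6157021502) (nat_lit 76) (nat_lit 16538279887) (nat_lit 152) (nat_lit 6286368252) (nat_lit 16) (nat_lit 5) (nat_lit 17) (nat_lit 5) (nat_lit 18) (nat_lit 4) (nat_lit 357) (nat_lit 255) (nat_lit 168))))) (XT.nd (nat_lit 234) (nat_lit 152) (nat_lit 0) (XT.nd (nat_lit 78) (nat_lit 76) (nat_lit 0) (XT.lf (nat_lit 0) (nat_lit 13419708508) (nat_lit 76) (nat_lit 12900651878) (nat_lit 152) (nat_lit 3400266188) (nat_lit 16) (nat_lit 5) (nat_lit 17) (nat_lit 5) (nat_lit 18) (nat_lit 4) (nat_lit 358) (nat_lit 255) (nat_lit 167)) (XT.nd (nat_lit 78) (nat_lit 76) (nat_lit 0) (XT.lf (nat_lit 0) (nat_lit 20873341618) (nat_lit 76) (nat_lit 9164759867) (nat_lit 152) (nat_lit 444149615) (nat_lit 16) (nat_lit 5) (nat_lit 17) (nat_lit 5) (nat_lit 18) (nat_lit 4) (nat_lit 359) (nat_lit 255) (nat_lit 166)) (XT.lf (nat_lit 0) (nat_lit 2534130318) (nat_lit 152) (nat_lit 2767619416) (nat_lit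 76) (nat_lit 25964713648) (nat_lit 15) (nat_lit 5) (nat_lit 17) (nat_lit 5) (nat_lit 16) (nat_lit 5) (nat_lit 360) (nat_lit 255) (nat_lit 165)))) (XT.nd (nat_lit 78) (nat_lit 0) (nat_lit 0) (XT.lf (nat_lit 0) (nat_lit 4333362873) (nat_lit 152) (nat_lit 1285811047) (nat_lit 228) (nat_lit 26454121286) (nat_lit 13) (nat_lit 5) (nat_lit 15) (nat_lit 5) (nat_lit 16) (nat_lit 5) (nat_lit 361) (nat_lit 255) (nat_lit 164)) (XT.nd (nat_lit 78) (nat_lit 0) (nat_lit 0) (XT.lf (nat_lit 0) (nat_lit 8837183994) (nat_lit 228) (nat_lit 21252889172) (nat_lit 76) (nat_lit 2813061286) (nat_lit 13) (nat_lit 5) (nat_lit 16) (nat_lit 5) (nat_lit 14) (nat_lit 4) (nat_lit 362) (nat_lit 255) (nat_lit 163)) (XT.lf (nat_lit 0) (nat_lit 12149697364) (nat_lit 228) (nat_lit 14609038577) (nat_lit 76) (nat_lit 6999208528) (nat_lit 13) (nat_lit 5) (nat_lit 16) (nat_lit 5) (nat_lit 14) (nat_lit 4) (nat_lit 363) (nat_lit 255)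 (nat_lit 162)))))) (XT.nd (nat_lit 468) (nat_lit 228) (nat_lit 0) (XT.nd (nat_lit 234) (nat_lit 0) (nat_lit 0) (XT.nd (nat_lit 78) (nat_lit 76) (nat_lit 0) (XT.lf (nat_lit 0) (nat_lit 15547248458) (nat_lit 228) (nat_lit 7790215242) (nat_lit 76) (nat_lit 11301379281) (nat_lit 13) (nat_lit 5) (nat_lit 16) (nat_lit 5) (nat_lit 14) (nat_lit 4) (nat_lit 364) (nat_lit 255) (nat_lit 161)) (XT.nd (nat_lit 78) (nat_lit 76) (nat_lit 0) (XT.lf (nat_lit 0) (nat_lit 19032806009) (nat_lit 228) (nat_lit 790460971) (nat_lit 76) (nat_lit 15723332725) (nat_lit 13) (nat_lit 5) (nat_lit 16) (nat_lit 5) (nat_lit 14) (nat_lit 4) (nat_lit 365) (nat_lit 255) (nat_lit 160)) (XT.lf (nat_lit 0) (nat_lit 6523640244) (nat_lit 76) (nat_lit 16148484628) (nat_lit 152) (nat_lit 13808001678) (nat_lit 12) (nat_lit 5) (nat_lit 13) (nat_lit 5) (nat_lit 14) (nat_lit 4) (nat_lit 366) (nat_lit 255) (nat_lit 159)))) (XT.nd (nat_lit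 78) (nat_lit 0) (nat_lit 0) (XT.lf (nat_lit 0) (nat_lit 14050647724) (nat_lit 76) (nat_lit 12364618274) (nat_lit 152) (nat_lit 11026566791) (nat_lit 12) (nat_lit 5) (nat_lit 13) (nat_lit 5) (nat_lit 14) (nat_lit 4) (nat_lit 367) (nat_lit 255) (nat_lit 158)) (XT.nd (nat_lit 78) (nat_lit 0) (nat_lit 0) (XT.lf (nat_lit 0) (nat_lit 21781406741) (nat_lit 76) (nat_lit 8476343734) (nat_lit 152) (nat_lit 8175040762) (nat_lit 12) (nat_lit 5) (nat_lit 13) (nat_lit 5) (nat_lit 14) (nat_lit 4) (nat_lit 368) (nat_lit 255) (nat_lit 157)) (XT.lf (nat_lit 0) (nat_lit 29722672329) (nat_lit 76) (nat_lit 4480263486) (nat_lit 152) (nat_lit 5250931966) (nat_lit 12) (nat_lit 5) (nat_lit 13) (nat_lit 5) (nat_lit 14) (nat_lit 4) (nat_lit 369) (nat_lit 255) (nat_lit 156))))) (XT.nd (nat_lit 234) (nat_lit 0) (nat_lit 0) (XT.nd (nat_lit 78) (nat_lit 228) (nat_lit 0) (XT.lf (nat_lit 0) (nat_lit 37881383457) (nat_lit 76)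 (nat_lit 372885810) (nat_lit 152) (nat_lit 2251685356) (nat_lit 12) (nat_lit 5) (nat_lit 13) (nat_lit 5) (nat_lit 14) (nat_lit 4) (nat_lit 370) (nat_lit 255) (nat_lit 155)) (XT.nd (nat_lit 78) (nat_lit 0) (nat_lit 0) (XT.lf (nat_lit 0) (nat_lit 892501524) (nat_lit 228) (nat_lit 36866252286) (nat_lit 76) (nat_lit 3828480647) (nat_lit 9) (nat_lit 5) (nat_lit 12) (nat_lit 5) (nat_lit 10) (nat_lit 4) (nat_lit 371) (nat_lit 255) (nat_lit 154)) (XT.lf (nat_lit 0) (nat_lit 4104307865) (nat_lit 228) (nat_lit 30406223329) (nat_lit 76) (nat_lit 8189206937) (nat_lit 9) (nat_lit 5) (nat_lit 12) (nat_lit 5) (nat_lit 10) (nat_lit 4) (nat_lit 372) (nat_lit 255) (nat_lit 153)))) (XT.nd (nat_lit 78) (nat_lit 0) (nat_lit 0) (XT.lf (nat_lit 0) (nat_lit 7400908332) (nat_lit 228) (nat_lit 23772316532) (nat_lit 76) (nat_lit 12672749317) (nat_lit 9) (nat_lit 5) (nat_lit 12) (nat_lit 5) (nat_lit 10) (nat_lit 4) (nat_lit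 373) (nat_lit 255) (nat_lit 152)) (XT.nd (nat_lit 78) (nat_lit 0) (nat_lit 0) (XT.lf (nat_lit 0) (nat_lit 10785183449) (nat_lit 228) (nat_lit 16958735279) (nat_lit 76) (nat_lit 17283025447) (nat_lit 9) (nat_lit 5) (nat_lit 12) (nat_lit 5) (nat_lit 10) (nat_lit 4) (nat_lit 374) (nat_lit 255) (nat_lit 151)) (XT.lf (nat_lit 0) (nat_lit 14260090350) (nat_lit 228) (nat_lit 9959525955) (nat_lit 76) (nat_lit 22024063722) (nat_lit 9) (nat_lit 5) (nat_lit 12) (nat_lit 5) (nat_lit 10) (nat_lit 4) (nat_lit 375) (nat_lit 255) (nat_lit 150))))))))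
noncomputable def xc98 : XT := (XT.nd (nat_lit 32214) (nat_lit 0) (nat_lit 10184) (XT.nd (nat_lit 858) (nat_lit 152) (nat_lit 0) (XT.nd (nat_lit 390) (nat_lit 76) (nat_lit 0) (XT.nd (nat_lit 156) (nat_lit 0) (nat_lit 0) (XT.nd (nat_lit 78) (nat_lit 76) (nat_lit 0) (XT.lf (nat_lit 0) (nat_lit 17828665360) (nat_lit 228) (nat_lit 2768572745) (nat_lit 76) (nat_lit 26900006798) (nat_lit 9) (nat_lit 5) (nat_lit 12) (nat_lit 5) (nat_lit 10) (nat_lit 4) (nat_lit 376) (nat_lit 255) (nat_lit 149)) (XT.lf (nat_lit 0) (nat_lit 4712362879) (nat_lit 76) (nat_lit 16826961888) (nat_lit 152) (nat_lit 27248050441) (nat_lit 8) (nat_lit 5) (nat_lit 9) (nat_lit 5) (nat_lit 10) (nat_lit 4) (nat_lit 377) (nat_lit 255) (nat_lit 148))) (XT.nd (nat_lit 78) (nat_lit 0) (nat_lit 0) (XT.lf (nat_lit 0) (nat_lit 12456951789) (nat_lit 76) (nat_lit 12922169023) (nat_lit 152) (nat_lit 24736563133) (nat_lit 8) (nat_lit 5) (nat_lit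 9) (nat_lit 5) (nat_lit 10) (nat_lit 4) (nat_lit 378) (nat_lit 255) (nat_lit 147)) (XT.nd (nat_lit 78) (nat_lit 0) (nat_lit 0) (XT.lf (nat_lit 0) (nat_lit 20416861074) (nat_lit 76) (nat_lit 8907404712) (nat_lit 152) (nat_lit 22159880272) (nat_lit 8) (nat_lit 5) (nat_lit 9) (nat_lit 5) (nat_lit 10) (nat_lit 4) (nat_lit 379) (nat_lit 255) (nat_lit 146)) (XT.lf (nat_lit 0) (nat_lit 28599045994) (nat_lit 76) (nat_lit 4779160907) (nat_lit 152) (nat_lit 19515750386) (nat_lit 8) (nat_lit 5) (nat_lit 9) (nat_lit 5) (nat_lit 10) (nat_lit 4) (nat_lit 380) (nat_lit 255) (nat_lit 145))))) (XT.nd (nat_lit 234) (nat_lit 76) (nat_lit 0) (XT.nd (nat_lit 78) (nat_lit 0) (nat_lit 0) (XT.lf (nat_lit 0) (nat_lit 37010656031) (nat_lit 76) (nat_lit 533830406) (nat_lit 152) (nat_lit 16801863072) (nat_lit 8) (nat_lit 5) (nat_lit 9) (nat_lit 5) (nat_lit 10) (nat_lit 4) (nat_lit 381) (nat_lit 255) (nat_lit 144)) (XT.nd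 (nat_lit 78) (nat_lit 0) (nat_lit 0) (XT.lf (nat_lit 0) (nat_lit 41863583210) (nat_lit 152) (nat_lit 10220389045) (nat_lit 0) (nat_lit 3757514398) (nat_lit 8) (nat_lit 5) (nat_lit 10) (nat_lit 4) (nat_lit 8) (nat_lit 4) (nat_lit 382) (nat_lit 255) (nat_lit 143)) (XT.lf (nat_lit 0) (nat_lit 46308729966) (nat_lit 152) (nat_lit 2912239515) (nat_lit 0) (nat_lit 8160621905) (nat_lit 8) (nat_lit 5) (nat_lit 10) (nat_lit 4) (nat_lit 8) (nat_lit 4) (nat_lit 383) (nat_lit 255) (nat_lit 142)))) (XT.nd (nat_lit 78) (nat_lit 0) (nat_lit 0) (XT.lf (nat_lit 0) (nat_lit 4691826817) (nat_lit 76) (nat_lit 46231953200) (nat_lit 76) (nat_lit 8043030335) (nat_lit 7) (nat_lit 4) (nat_lit 8) (nat_lit 5) (nat_lit 8) (nat_lit 4) (nat_lit 384) (nat_lit 255) (nat_lit 141)) (XT.nd (nat_lit 78) (nat_lit 0) (nat_lit 0) (XT.lf (nat_lit 0) (nat_lit 12568976974) (nat_lit 76) (nat_lit 43129268118) (nat_lit 76) (nat_lit 4900719230)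 (nat_lit 7) (nat_lit 4) (nat_lit 8) (nat_lit 5) (nat_lit 8) (nat_lit 4) (nat_lit 385) (nat_lit 255) (nat_lit 140)) (XT.lf (nat_lit 0) (nat_lit 20668134626) (nat_lit 76) (nat_lit 39939611061) (nat_lit 76) (nat_lit 1672590305) (nat_lit 7) (nat_lit 4) (nat_lit 8) (nat_lit 5) (nat_lit 8) (nat_lit 4) (nat_lit 386) (nat_lit 255) (nat_lit 139)))))) (XT.nd (nat_lit 390) (nat_lit 76) (nat_lit 0) (XT.nd (nat_lit 156) (nat_lit 0) (nat_lit 0) (XT.nd (nat_lit 78) (nat_lit 0) (nat_lit 0) (XT.lf (nat_lit 0) (nat_lit 1612093317) (nat_lit 152) (nat_lit 35031822649) (nat_lit 76) (nat_lit 27368004407) (nat_lit 6) (nat_lit 5) (nat_lit 8) (nat_lit 5) (nat_lit 7) (nat_lit 4) (nat_lit 387) (nat_lit 255) (nat_lit 138)) (XT.lf (nat_lit 0) (nat_lit 4953889130) (nat_lit 152) (nat_lit 28284240573) (nat_lit 76) (nat_lit 32557066623) (nat_lit 6) (nat_lit 5) (nat_lit 8) (nat_lit 5) (nat_lit 7) (nat_lit 4) (nat_lit 388) (nat_lit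 255) (nat_lit 137))) (XT.nd (nat_lit 78) (nat_lit 0) (nat_lit 0) (XT.lf (nat_lit 0) (nat_lit 8388355411) (nat_lit 152) (nat_lit 21347481232) (nat_lit 76) (nat_lit 37896367747) (nat_lit 6) (nat_lit 5) (nat_lit 8) (nat_lit 5) (nat_lit 7) (nat_lit 4) (nat_lit 389) (nat_lit 255) (nat_lit 136)) (XT.nd (nat_lit 78) (nat_lit 0) (nat_lit 0) (XT.lf (nat_lit 0) (nat_lit 11918493149) (nat_lit 152) (nat_lit 14215483380) (nat_lit 76) (nat_lit 43390573191) (nat_lit 6) (nat_lit 5) (nat_lit 8) (nat_lit 5) (nat_lit 7) (nat_lit 4) (nat_lit 390) (nat_lit 255) (nat_lit 135)) (XT.lf (nat_lit 0) (nat_lit 15547386930) (nat_lit 152) (nat_lit 6882015173) (nat_lit 76) (nat_lit 49044483715) (nat_lit 6) (nat_lit 5) (nat_lit 8) (nat_lit 5) (nat_lit 7) (nat_lit 4) (nat_lit 391) (nat_lit 255) (nat_lit 134))))) (XT.nd (nat_lit 234) (nat_lit 0) (nat_lit 0) (XT.nd (nat_lit 78) (nat_lit 0) (nat_lit 0) (XT.lf (nat_lit 0) (nat_lit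 672453256) (nat_lit 76) (nat_lit 18612218410) (nat_lit 152) (nat_lit 54197050406) (nat_lit 5) (nat_lit 5) (nat_lit 6) (nat_lit 5) (nat_lit 7) (nat_lit 4) (nat_lit 392) (nat_lit 255) (nat_lit 133)) (XT.nd (nat_lit 78) (nat_lit 0) (nat_lit 0) (XT.lf (nat_lit 0) (nat_lit 8582623376) (nat_lit 76) (nat_lit 14614093250) (nat_lit 152) (nat_lit 52351203161) (nat_lit 5) (nat_lit 5) (nat_lit 6) (nat_lit 5) (nat_lit 7) (nat_lit 4) (nat_lit 393) (nat_lit 255) (nat_lit 132)) (XT.lf (nat_lit 0) (nat_lit 16718441390) (nat_lit 76) (nat_lit 10501027975) (nat_lit 152) (nat_lit 50456839136) (nat_lit 5) (nat_lit 5) (nat_lit 6) (nat_lit 5) (nat_lit 7) (nat_lit 4) (nat_lit 394) (nat_lit 255) (nat_lit 131)))) (XT.nd (nat_lit 78) (nat_lit 0) (nat_lit 0) (XT.lf (nat_lit 0) (nat_lit 25087016263) (nat_lit 76) (nat_lit 6269428647) (nat_lit 152) (nat_lit 48512303063) (nat_lit 5) (nat_lit 5) (nat_lit 6) (nat_lit 5) (nat_lit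 7) (nat_lit 4) (nat_lit 395) (nat_lit 255) (nat_lit 130)) (XT.nd (nat_lit 78) (nat_lit 0) (nat_lit 0) (XT.lf (nat_lit 0) (nat_lit 33695660344) (nat_lit 76) (nat_lit 1915597750) (nat_lit 152) (nat_lit 46515895832) (nat_lit 5) (nat_lit 5) (nat_lit 6) (nat_lit 5) (nat_lit 7) (nat_lit 4) (nat_lit 396) (nat_lit 255) (nat_lit 129)) (XT.lf (nat_lit 0) (nat_lit 40012276038) (nat_lit 152) (nat_lit 41926253300) (nat_lit 0) (nat_lit 2514230908) (nat_lit 5) (nat_lit 5) (nat_lit 7) (nat_lit 4) (nat_lit 5) (nat_lit 4) (nat_lit 397) (nat_lit 255) (nat_lit 128))))))) (XT.nd (nat_lit 858) (nat_lit 5548) (nat_lit 0) (XT.nd (nat_lit 390) (nat_lit 2432) (nat_lit 0) (XT.nd (nat_lit 156) (nat_lit 456) (nat_lit 0) (XT.nd (nat_lit 78) (nat_lit 380) (nat_lit 0) (XT.lf (nat_lit 0) (nat_lit 2476754417) (nat_lit 228) (nat_lit 390687288) (nat_lit 228) (nat_lit 390687288) (nat_lit 255) (nat_lit 4) (nat_lit 258) (nat_lit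 5) (nat_lit 258) (nat_lit 4) (nat_lit 268) (nat_lit 256) (nat_lit 256)) (XT.lf (nat_lit 0) (nat_lit 1747441258) (nat_lit 304) (nat_lit 266877508) (nat_lit 380) (nat_lit 4522148836) (nat_lit 250) (nat_lit 5) (nat_lit 254) (nat_lit 5) (nat_lit 255) (nat_lit 4) (nat_lit 269) (nat_lit 256) (nat_lit 255))) (XT.nd (nat_lit 78) (nat_lit 456) (nat_lit 0) (XT.lf (nat_lit 0) (nat_lit 4796821522) (nat_lit 380) (nat_lit 1446887976) (nat_lit 0) (nat_lit 316191442) (nat_lit 250) (nat_lit 5) (nat_lit 255) (nat_lit 4) (nat_lit 250) (nat_lit 4) (nat_lit 270) (nat_lit 256) (nat_lit 254)) (XT.nd (nat_lit 78) (nat_lit 0) (nat_lit 0) (XT.lf (nat_lit 0) (nat_lit 981188356) (nat_lit 456) (nat_lit 4631737071) (nat_lit 76) (nat_lit 973481819) (nat_lit 244) (nat_lit 5) (nat_lit 250) (nat_lit 5) (nat_lit 245) (nat_lit 4) (nat_lit 271) (nat_lit 256) (nat_lit 253)) (XT.lf (nat_lit 0) (nat_lit 3691061550) (nat_lit 456) (nat_lit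 1211198715) (nat_lit 76) (nat_lit 1713737522) (nat_lit 244) (nat_lit 5) (nat_lit 250) (nat_lit 5) (nat_lit 245) (nat_lit 4) (nat_lit 272) (nat_lit 256) (nat_lit 252))))) (XT.nd (nat_lit 234) (nat_lit 1368) (nat_lit 0) (XT.nd (nat_lit 78) (nat_lit 608) (nat_lit 0) (XT.lf (nat_lit 0) (nat_lit 2290375222) (nat_lit 456) (nat_lit 4120627685) (nat_lit 532) (nat_lit 237973220) (nat_lit 238) (nat_lit 5) (nat_lit 244) (nat_lit 5) (nat_lit 245) (nat_lit 4) (nat_lit 273) (nat_lit 256) (nat_lit 251)) (XT.nd (nat_lit 78) (nat_lit 532) (nat_lit 0) (XT.lf (nat_lit 0) (nat_lit 2400181104) (nat_lit 532) (nat_lit 852995058) (nat_lit 76) (nat_lit 3431782245) (nat_lit 237) (nat_lit 5) (nat_lit 244) (nat_lit 5) (nat_lit 238) (nat_lit 5) (nat_lit 274) (nat_lit 256) (nat_lit 250)) (XT.lf (nat_lit 0) (nat_lit 2743120092) (nat_lit 532) (nat_lit 2306229147) (nat_lit 608) (nat_lit 1674833080) (nat_lit 230) (nat_lit 5)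 (nat_lit 237) (nat_lit 5) (nat_lit 238) (nat_lit 5) (nat_lit 275) (nat_lit 256) (nat_lit 249)))) (XT.nd (nat_lit 78) (nat_lit 1292) (nat_lit 0) (XT.lf (nat_lit 0) (nat_lit 913418164) (nat_lit 608) (nat_lit 376815448) (nat_lit 76) (nat_lit 5476776909) (nat_lit 229) (nat_lit 5) (nat_lit 237) (nat_lit 5) (nat_lit 230) (nat_lit 5) (nat_lit 276) (nat_lit 256) (nat_lit 248)) (XT.nd (nat_lit 78) (nat_lit 684) (nat_lit 0) (XT.lf (nat_lit 0) (nat_lit 3318421486) (nat_lit 608) (nat_lit 172806531) (nat_lit 684) (nat_lit 3321335080) (nat_lit 221) (nat_lit 5) (nat_lit 229) (nat_lit 5) (nat_lit 230) (nat_lit 5) (nat_lit 277) (nat_lit 256) (nat_lit 247)) (XT.lf (nat_lit 0) (nat_lit 199640176) (nat_lit 684) (nat_lit 5877653863) (nat_lit 760) (nat_lit 784555903) (nat_lit 212) (nat_lit 5) (nat_lit 221) (nat_lit 5) (nat_lit 222) (nat_lit 5) (nat_lit 278) (nat_lit 256) (nat_lit 246)))))) (XT.nd (nat_lit 468) (nat_lit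 2888) (nat_lit 0) (XT.nd (nat_lit 234) (nat_lit 1824) (nat_lit 0) (XT.nd (nat_lit 78) (nat_lit 760) (nat_lit 0) (XT.lf (nat_lit 0) (nat_lit 1746463291) (nat_lit 760) (nat_lit 2924294604) (nat_lit 76) (nat_lit 2242994225) (nat_lit 211) (nat_lit 5) (nat_lit 221) (nat_lit 5) (nat_lit 212) (nat_lit 5) (nat_lit 279) (nat_lit 256) (nat_lit 245)) (XT.nd (nat_lit 78) (nat_lit 0) (nat_lit 0) (XT.lf (nat_lit 0) (nat_lit 867971729) (nat_lit 760) (nat_lit 3396918537) (nat_lit 836) (nat_lit 2704540968) (nat_lit 201) (nat_lit 5) (nat_lit 211) (nat_lit 5) (nat_lit 212) (nat_lit 5) (nat_lit 280) (nat_lit 256) (nat_lit 244)) (XT.lf (nat_lit 0) (nat_lit 4767651993) (nat_lit 760) (nat_lit 2041374976) (nat_lit 836) (nat_lit 219511457) (nat_lit 201) (nat_lit 5) (nat_lit 211) (nat_lit 5) (nat_lit 212) (nat_lit 5) (nat_lit 281) (nat_lit 256) (nat_lit 243)))) (XT.nd (nat_lit 78) (nat_lit 912) (nat_lit 0) (XT.lf (nat_lit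 0) (nat_lit 1638207632) (nat_lit 836) (nat_lit 593871913) (nat_lit 912) (nat_lit 4858781601) (nat_lit 189) (nat_lit 5) (nat_lit 200) (nat_lit 5) (nat_lit 201) (nat_lit 5) (nat_lit 282) (nat_lit 256) (nat_lit 242)) (XT.nd (nat_lit 78) (nat_lit 912) (nat_lit 0) (XT.lf (nat_lit 0) (nat_lit 4708161290) (nat_lit 912) (nat_lit 1532929164) (nat_lit 76) (nat_lit 915477388) (nat_lit 189) (nat_lit 5) (nat_lit 201) (nat_lit 5) (nat_lit 190) (nat_lit 5) (nat_lit 283) (nat_lit 256) (nat_lit 241)) (XT.lf (nat_lit 0) (nat_lit 2480741876) (nat_lit 912) (nat_lit 4733408342) (nat_lit 988) (nat_lit 11659930) (nat_lit 177) (nat_lit 5) (nat_lit 189) (nat_lit 5) (nat_lit 190) (nat_lit 5) (nat_lit 284) (nat_lit 256) (nat_lit 240))))) (XT.nd (nat_lit 234) (nat_lit 760) (nat_lit 0) (XT.nd (nat_lit 78) (nat_lit 2052) (nat_lit 0) (XT.lf (nat_lit 0) (nat_lit 2391559617) (nat_lit 988) (nat_lit 741793532) (nat_lit 76) (nat_lit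 4165012343) (nat_lit 176) (nat_lit 5) (nat_lit 189) (nat_lit 5) (nat_lit 177) (nat_lit 5) (nat_lit 285) (nat_lit 256) (nat_lit 239)) (XT.nd (nat_lit 78) (nat_lit 1064) (nat_lit 0) (XT.lf (nat_lit 0) (nat_lit 3382213261) (nat_lit 988) (nat_lit 1445567564) (nat_lit 1064) (nat_lit 2546692390) (nat_lit 163) (nat_lit 5) (nat_lit 176) (nat_lit 5) (nat_lit 177) (nat_lit 5) (nat_lit 286) (nat_lit 256) (nat_lit 238)) (XT.lf (nat_lit 0) (nat_lit 125092840) (nat_lit 1064) (nat_lit 7153714446) (nat_lit 1140) (nat_lit 176012477) (nat_lit 149) (nat_lit 5) (nat_lit 163) (nat_lit 5) (nat_lit 164) (nat_lit 5) (nat_lit 287) (nat_lit 256) (nat_lit 237)))) (XT.nd (nat_lit 78) (nat_lit 684) (nat_lit 0) (XT.lf (nat_lit 0) (nat_lit 2207258484) (nat_lit 1140) (nat_lit 3192940039) (nat_lit 76) (nat_lit 2137349511) (nat_lit 148) (nat_lit 5) (nat_lit 163) (nat_lit 5) (nat_lit 149) (nat_lit 5) (nat_lit 288) (nat_lit 256)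 (nat_lit 236)) (XT.nd (nat_lit 78) (nat_lit 0) (nat_lit 0) (XT.lf (nat_lit 0) (nat_lit 1020208365) (nat_lit 684) (nat_lit 3580766687) (nat_lit 760) (nat_lit 3023645838) (nat_lit 139) (nat_lit 5) (nat_lit 148) (nat_lit 5) (nat_lit 149) (nat_lit 5) (nat_lit 289) (nat_lit 256) (nat_lit 235)) (XT.lf (nat_lit 0) (nat_lit 5359942185) (nat_lit 684) (nat_lit 1672815151) (nat_lit 760) (nat_lit 682745021) (nat_lit 139) (nat_lit 5) (nat_lit 148) (nat_lit 5) (nat_lit 149) (nat_lit 5) (nat_lit 290) (nat_lit 256) (nat_lit 234))))))))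
noncomputable def xc99 : XT := (XT.nd (nat_lit 1716) (nat_lit 2736) (nat_lit 0) (XT.nd (nat_lit 858) (nat_lit 2356) (nat_lit 0) (XT.nd (nat_lit 390) (nat_lit 1444) (nat_lit 0) (XT.nd (nat_lit 156) (nat_lit 1064) (nat_lit 0) (XT.nd (nat_lit 78) (nat_lit 0) (nat_lit 0) (XT.lf (nat_lit 0) (nat_lit 1651956738) (nat_lit 608) (nat_lit 5835410223) (nat_lit 76) (nat_lit 322699339) (nat_lit 131) (nat_lit 5) (nat_lit 139) (nat_lit 5) (nat_lit 132) (nat_lit 5) (nat_lit 291) (nat_lit 256) (nat_lit 233)) (XT.lf (nat_lit 0) (nat_lit 4019952797) (nat_lit 608) (nat_lit 1513506324) (nat_lit 76) (nat_lit 2374664405) (nat_lit 131) (nat_lit 5) (nat_lit 139) (nat_lit 5) (nat_lit 132) (nat_lit 5) (nat_lit 292) (nat_lit 256) (nat_lit 232))) (XT.nd (nat_lit 78) (nat_lit 532) (nat_lit 0) (XT.lf (nat_lit 0) (nat_lit 2930916989) (nat_lit 532) (nat_lit 3494489368) (nat_lit 608) (nat_lit 1584887111) (nat_lit 124) (nat_lit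 5) (nat_lit 131) (nat_lit 5) (nat_lit 132) (nat_lit 5) (nat_lit 293) (nat_lit 256) (nat_lit 231)) (XT.nd (nat_lit 78) (nat_lit 456) (nat_lit 0) (XT.lf (nat_lit 0) (nat_lit 726237808) (nat_lit 608) (nat_lit 648167199) (nat_lit 76) (nat_lit 6742427255) (nat_lit 123) (nat_lit 5) (nat_lit 131) (nat_lit 5) (nat_lit 124) (nat_lit 5) (nat_lit 294) (nat_lit 256) (nat_lit 230)) (XT.lf (nat_lit 0) (nat_lit 3061193720) (nat_lit 532) (nat_lit 4321702519) (nat_lit 76) (nat_lit 843759316) (nat_lit 117) (nat_lit 5) (nat_lit 124) (nat_lit 5) (nat_lit 118) (nat_lit 5) (nat_lit 295) (nat_lit 256) (nat_lit 229))))) (XT.nd (nat_lit 234) (nat_lit 456) (nat_lit 0) (XT.nd (nat_lit 78) (nat_lit 532) (nat_lit 0) (XT.lf (nat_lit 0) (nat_lit 194073614) (nat_lit 456) (nat_lit 5235762155) (nat_lit 532) (nat_lit 2911173945) (nat_lit 111) (nat_lit 5) (nat_lit 117) (nat_lit 5) (nat_lit 118) (nat_lit 5) (nat_lit 296) (nat_lit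 256) (nat_lit 228)) (XT.nd (nat_lit 78) (nat_lit 532) (nat_lit 0) (XT.lf (nat_lit 0) (nat_lit 4870128070) (nat_lit 456) (nat_lit 2985692812) (nat_lit 532) (nat_lit 603526163) (nat_lit 111) (nat_lit 5) (nat_lit 117) (nat_lit 5) (nat_lit 118) (nat_lit 5) (nat_lit 297) (nat_lit 256) (nat_lit 227)) (XT.lf (nat_lit 0) (nat_lit 1045399980) (nat_lit 456) (nat_lit 647023670) (nat_lit 532) (nat_lit 6889822100) (nat_lit 104) (nat_lit 5) (nat_lit 110) (nat_lit 5) (nat_lit 111) (nat_lit 5) (nat_lit 298) (nat_lit 256) (nat_lit 226)))) (XT.nd (nat_lit 78) (nat_lit 456) (nat_lit 0) (XT.lf (nat_lit 0) (nat_lit 4043259191) (nat_lit 532) (nat_lit 2902663778) (nat_lit 76) (nat_lit 1762914147) (nat_lit 104) (nat_lit 5) (nat_lit 111) (nat_lit 5) (nat_lit 105) (nat_lit 5) (nat_lit 299) (nat_lit 256) (nat_lit 225)) (XT.nd (nat_lit 78) (nat_lit 0) (nat_lit 0) (XT.lf (nat_lit 0) (nat_lit 1837584966) (nat_lit 456) (nat_lit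 4597317649) (nat_lit 532) (nat_lit 2405340455) (nat_lit 98) (nat_lit 5) (nat_lit 104) (nat_lit 5) (nat_lit 105) (nat_lit 5) (nat_lit 300) (nat_lit 256) (nat_lit 224)) (XT.lf (nat_lit 0) (nat_lit 6717744368) (nat_lit 456) (nat_lit 2157047413) (nat_lit 532) (nat_lit 101626206) (nat_lit 98) (nat_lit 5) (nat_lit 104) (nat_lit 5) (nat_lit 105) (nat_lit 5) (nat_lit 301) (nat_lit 256) (nat_lit 223)))))) (XT.nd (nat_lit 390) (nat_lit 1064) (nat_lit 0) (XT.nd (nat_lit 156) (nat_lit 836) (nat_lit 0) (XT.nd (nat_lit 78) (nat_lit 0) (nat_lit 0) (XT.lf (nat_lit 0) (nat_lit 2203728277) (nat_lit 456) (nat_lit 6525451384) (nat_lit 76) (nat_lit 387652779) (nat_lit 92) (nat_lit 5) (nat_lit 98) (nat_lit 5) (nat_lit 93) (nat_lit 5) (nat_lit 302) (nat_lit 256) (nat_lit 222)) (XT.lf (nat_lit 0) (nat_lit 4569529300) (nat_lit 456) (nat_lit 1712221195) (nat_lit 76) (nat_lit 2979990145) (nat_lit 92) (nat_lit 5) (nat_lit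 98) (nat_lit 5) (nat_lit 93) (nat_lit 5) (nat_lit 303) (nat_lit 256) (nat_lit 221))) (XT.nd (nat_lit 78) (nat_lit 456) (nat_lit 0) (XT.lf (nat_lit 0) (nat_lit 3248509463) (nat_lit 380) (nat_lit 3739446392) (nat_lit 456) (nat_lit 2423698796) (nat_lit 87) (nat_lit 5) (nat_lit 92) (nat_lit 5) (nat_lit 93) (nat_lit 5) (nat_lit 304) (nat_lit 256) (nat_lit 220)) (XT.nd (nat_lit 78) (nat_lit 456) (nat_lit 0) (XT.lf (nat_lit 0) (nat_lit 8333465385) (nat_lit 380) (nat_lit 1114054848) (nat_lit 456) (nat_lit 119593261) (nat_lit 87) (nat_lit 5) (nat_lit 92) (nat_lit 5) (nat_lit 93) (nat_lit 5) (nat_lit 305) (nat_lit 256) (nat_lit 219)) (XT.lf (nat_lit 0) (nat_lit 2214454654) (nat_lit 456) (nat_lit 5904816807) (nat_lit 76) (nat_lit 1607269807) (nat_lit 81) (nat_lit 5) (nat_lit 87) (nat_lit 5) (nat_lit 82) (nat_lit 5) (nat_lit 306) (nat_lit 256) (nat_lit 218))))) (XT.nd (nat_lit 234) (nat_lit 684) (nat_lit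 0) (XT.nd (nat_lit 78) (nat_lit 380) (nat_lit 0) (XT.lf (nat_lit 0) (nat_lit 4592599266) (nat_lit 456) (nat_lit 908495750) (nat_lit 76) (nat_lit 4390423022) (nat_lit 81) (nat_lit 5) (nat_lit 87) (nat_lit 5) (nat_lit 82) (nat_lit 5) (nat_lit 307) (nat_lit 256) (nat_lit 217)) (XT.nd (nat_lit 78) (nat_lit 0) (nat_lit 0) (XT.lf (nat_lit 0) (nat_lit 4262813605) (nat_lit 380) (nat_lit 2774492111) (nat_lit 456) (nat_lit 3024375125) (nat_lit 76) (nat_lit 5) (nat_lit 81) (nat_lit 5) (nat_lit 82) (nat_lit 5) (nat_lit 308) (nat_lit 256) (nat_lit 216)) (XT.lf (nat_lit 0) (nat_lit 9519844332) (nat_lit 456) (nat_lit 688038734) (nat_lit 76) (nat_lit 30221278) (nat_lit 76) (nat_lit 5) (nat_lit 82) (nat_lit 5) (nat_lit 77) (nat_lit 5) (nat_lit 309) (nat_lit 256) (nat_lit 215)))) (XT.nd (nat_lit 78) (nat_lit 304) (nat_lit 0) (XT.lf (nat_lit 0) (nat_lit 1652610528) (nat_lit 380) (nat_lit 5854364961) (nat_lit 76)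 (nat_lit 2911615347) (nat_lit 71) (nat_lit 5) (nat_lit 76) (nat_lit 5) (nat_lit 72) (nat_lit 5) (nat_lit 310) (nat_lit 256) (nat_lit 214)) (XT.nd (nat_lit 78) (nat_lit 304) (nat_lit 0) (XT.lf (nat_lit 0) (nat_lit 4043622921) (nat_lit 380) (nat_lit 680811631) (nat_lit 76) (nat_lit 5881023324) (nat_lit 71) (nat_lit 5) (nat_lit 76) (nat_lit 5) (nat_lit 72) (nat_lit 5) (nat_lit 311) (nat_lit 256) (nat_lit 213)) (XT.lf (nat_lit 0) (nat_lit 4683505002) (nat_lit 304) (nat_lit 1825585688) (nat_lit 380) (nat_lit 4288838931) (nat_lit 67) (nat_lit 5) (nat_lit 71) (nat_lit 5) (nat_lit 72) (nat_lit 5) (nat_lit 312) (nat_lit 256) (nat_lit 212))))))) (XT.nd (nat_lit 858) (nat_lit 1216) (nat_lit 0) (XT.nd (nat_lit 390) (nat_lit 836) (nat_lit 0) (XT.nd (nat_lit 156) (nat_lit 304) (nat_lit 0) (XT.nd (nat_lit 78) (nat_lit 380) (nat_lit 0) (XT.lf (nat_lit 0) (nat_lit 9024891370) (nat_lit 380) (nat_lit 840965344)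 (nat_lit 76) (nat_lit 1131105840) (nat_lit 67) (nat_lit 5) (nat_lit 72) (nat_lit 5) (nat_lit 68) (nat_lit 5) (nat_lit 313) (nat_lit 256) (nat_lit 211)) (XT.lf (nat_lit 0) (nat_lit 428114698) (nat_lit 380) (nat_lit 6597885611) (nat_lit 76) (nat_lit 4175260410) (nat_lit 62) (nat_lit 5) (nat_lit 67) (nat_lit 5) (nat_lit 63) (nat_lit 5) (nat_lit 314) (nat_lit 256) (nat_lit 210))) (XT.nd (nat_lit 78) (nat_lit 304) (nat_lit 0) (XT.lf (nat_lit 0) (nat_lit 2828925341) (nat_lit 380) (nat_lit 1257931337) (nat_lit 76) (nat_lit 7325269184) (nat_lit 62) (nat_lit 5) (nat_lit 67) (nat_lit 5) (nat_lit 63) (nat_lit 5) (nat_lit 315) (nat_lit 256) (nat_lit 209)) (XT.nd (nat_lit 78) (nat_lit 0) (nat_lit 0) (XT.lf (nat_lit 0) (nat_lit 4272017535) (nat_lit 304) (nat_lit 1031662074) (nat_lit 380) (nat_lit 6325649164) (nat_lit 58) (nat_lit 5) (nat_lit 62) (nat_lit 5) (nat_lit 63) (nat_lit 5) (nat_lit 316) (nat_lit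 256) (nat_lit 208)) (XT.lf (nat_lit 0) (nat_lit 7847182136) (nat_lit 380) (nat_lit 1933598240) (nat_lit 76) (nat_lit 2072499597) (nat_lit 58) (nat_lit 5) (nat_lit 63) (nat_lit 5) (nat_lit 59) (nat_lit 5) (nat_lit 317) (nat_lit 256) (nat_lit 207))))) (XT.nd (nat_lit 234) (nat_lit 228) (nat_lit 0) (XT.nd (nat_lit 78) (nat_lit 380) (nat_lit 0) (XT.lf (nat_lit 0) (nat_lit 3661512891) (nat_lit 228) (nat_lit 6813358644) (nat_lit 304) (nat_lit 1608907130) (nat_lit 55) (nat_lit 5) (nat_lit 58) (nat_lit 5) (nat_lit 59) (nat_lit 5) (nat_lit 318) (nat_lit 256) (nat_lit 206)) (XT.nd (nat_lit 78) (nat_lit 304) (nat_lit 0) (XT.lf (nat_lit 0) (nat_lit 825768147) (nat_lit 304) (nat_lit 2917792598) (nat_lit 76) (nat_lit 8577974530) (nat_lit 54) (nat_lit 5) (nat_lit 58) (nat_lit 5) (nat_lit 55) (nat_lit 5) (nat_lit 319) (nat_lit 256) (nat_lit 205)) (XT.lf (nat_lit 0) (nat_lit 2738014308) (nat_lit 304) (nat_lit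 553175251) (nat_lit 380) (nat_lit 9275115691) (nat_lit 50) (nat_lit 5) (nat_lit 54) (nat_lit 5) (nat_lit 55) (nat_lit 5) (nat_lit 320) (nat_lit 256) (nat_lit 204)))) (XT.nd (nat_lit 78) (nat_lit 228) (nat_lit 0) (XT.lf (nat_lit 0) (nat_lit 5850746947) (nat_lit 380) (nat_lit 4272569922) (nat_lit 76) (nat_lit 2694554369) (nat_lit 50) (nat_lit 5) (nat_lit 55) (nat_lit 5) (nat_lit 51) (nat_lit 5) (nat_lit 321) (nat_lit 256) (nat_lit 203)) (XT.nd (nat_lit 78) (nat_lit 0) (nat_lit 0) (XT.lf (nat_lit 0) (nat_lit 1421818122) (nat_lit 228) (nat_lit 7049608673) (nat_lit 304) (nat_lit 4606083762) (nat_lit 47) (nat_lit 5) (nat_lit 50) (nat_lit 5) (nat_lit 51) (nat_lit 5) (nat_lit 322) (nat_lit 256) (nat_lit 202)) (XT.lf (nat_lit 0) (nat_lit 7324841752) (nat_lit 228) (nat_lit 3854756565) (nat_lit 304) (nat_lit 2165129378) (nat_lit 47) (nat_lit 5) (nat_lit 50) (nat_lit 5) (nat_lit 51) (nat_lit 5) (nat_lit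 323) (nat_lit 256) (nat_lit 201)))))) (XT.nd (nat_lit 468) (nat_lit 456) (nat_lit 0) (XT.nd (nat_lit 234) (nat_lit 456) (nat_lit 0) (XT.nd (nat_lit 78) (nat_lit 228) (nat_lit 0) (XT.lf (nat_lit 0) (nat_lit 308585695) (nat_lit 304) (nat_lit 267411701) (nat_lit 76) (nat_lit 13044924626) (nat_lit 46) (nat_lit 5) (nat_lit 50) (nat_lit 5) (nat_lit 47) (nat_lit 5) (nat_lit 324) (nat_lit 256) (nat_lit 200)) (XT.nd (nat_lit 78) (nat_lit 0) (nat_lit 0) (XT.lf (nat_lit 0) (nat_lit 2862646054) (nat_lit 304) (nat_lit 8231881930) (nat_lit 76) (nat_lit 2808791693) (nat_lit 43) (nat_lit 5) (nat_lit 47) (nat_lit 5) (nat_lit 44) (nat_lit 5) (nat_lit 325) (nat_lit 256) (nat_lit 199)) (XT.lf (nat_lit 0) (nat_lit 5469436356) (nat_lit 304) (nat_lit 2453929175) (nat_lit 76) (nat_lit 6271589158) (nat_lit 43) (nat_lit 5) (nat_lit 47) (nat_lit 5) (nat_lit 44) (nat_lit 5) (nat_lit 326) (nat_lit 256) (nat_lit 198))))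 (XT.nd (nat_lit 78) (nat_lit 228) (nat_lit 0) (XT.lf (nat_lit 0) (nat_lit 3519411765) (nat_lit 228) (nat_lit 4637468873) (nat_lit 304) (nat_lit 6338431858) (nat_lit 40) (nat_lit 5) (nat_lit 43) (nat_lit 5) (nat_lit 44) (nat_lit 5) (nat_lit 327) (nat_lit 256) (nat_lit 197)) (XT.nd (nat_lit 78) (nat_lit 228) (nat_lit 0) (XT.lf (nat_lit 0) (nat_lit 9676086406) (nat_lit 228) (nat_lit 1242731432) (nat_lit 304) (nat_lit 3886092988) (nat_lit 40) (nat_lit 5) (nat_lit 43) (nat_lit 5) (nat_lit 44) (nat_lit 5) (nat_lit 328) (nat_lit 256) (nat_lit 196)) (XT.lf (nat_lit 0) (nat_lit 842817871) (nat_lit 228) (nat_lit 12920409934) (nat_lit 304) (nat_lit 1360625401) (nat_lit 37) (nat_lit 5) (nat_lit 40) (nat_lit 5) (nat_lit 41) (nat_lit 5) (nat_lit 329) (nat_lit 256) (nat_lit 195))))) (XT.nd (nat_lit 234) (nat_lit 228) (nat_lit 0) (XT.nd (nat_lit 78) (nat_lit 152) (nat_lit 0) (XT.lf (nat_lit 0) (nat_lit 1250960631)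 (nat_lit 304) (nat_lit 8422627305) (nat_lit 76) (nat_lit 5777423247) (nat_lit 36) (nat_lit 5) (nat_lit 40) (nat_lit 5) (nat_lit 37) (nat_lit 5) (nat_lit 330) (nat_lit 256) (nat_lit 194)) (XT.nd (nat_lit 78) (nat_lit 152) (nat_lit 0) (XT.lf (nat_lit 0) (nat_lit 3884377109) (nat_lit 304) (nat_lit 2446423975) (nat_lit 76) (nat_lit 9457694529) (nat_lit 36) (nat_lit 5) (nat_lit 40) (nat_lit 5) (nat_lit 37) (nat_lit 5) (nat_lit 331) (nat_lit 256) (nat_lit 193)) (XT.lf (nat_lit 0) (nat_lit 3738833859) (nat_lit 152) (nat_lit 2865581875) (nat_lit 228) (nat_lit 9531499824) (nat_lit 34) (nat_lit 5) (nat_lit 36) (nat_lit 5) (nat_lit 37) (nat_lit 5) (nat_lit 332) (nat_lit 256) (nat_lit 192)))) (XT.nd (nat_lit 78) (nat_lit 228) (nat_lit 0) (XT.lf (nat_lit 0) (nat_lit 9409718197) (nat_lit 228) (nat_lit 6383725286) (nat_lit 76) (nat_lit 700243160) (nat_lit 34) (nat_lit 5) (nat_lit 37) (nat_lit 5) (nat_lit 35)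 (nat_lit 5) (nat_lit 333) (nat_lit 256) (nat_lit 191)) (XT.nd (nat_lit 78) (nat_lit 228) (nat_lit 0) (XT.lf (nat_lit 0) (nat_lit 12300319425) (nat_lit 228) (nat_lit 260572373) (nat_lit 76) (nat_lit 4301302172) (nat_lit 34) (nat_lit 5) (nat_lit 37) (nat_lit 5) (nat_lit 35) (nat_lit 5) (nat_lit 334) (nat_lit 256) (nat_lit 190)) (XT.lf (nat_lit 0) (nat_lit 6124789802) (nat_lit 228) (nat_lit 9185284886) (nat_lit 304) (nat_lit 1930744966) (nat_lit 31) (nat_lit 5) (nat_lit 34) (nat_lit 5) (nat_lit 35) (nat_lit 5) (nat_lit 335) (nat_lit 256) (nat_lit 189))))))))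
noncomputable def xc100 : XT := (XT.nd (nat_lit 1716) (nat_lit 608) (nat_lit 0) (XT.nd (nat_lit 858) (nat_lit 380) (nat_lit 0) (XT.nd (nat_lit 390) (nat_lit 380) (nat_lit 0) (XT.nd (nat_lit 156) (nat_lit 152) (nat_lit 0) (XT.nd (nat_lit 78) (nat_lit 152) (nat_lit 0) (XT.lf (nat_lit 0) (nat_lit 740416596) (nat_lit 304) (nat_lit 4972346832) (nat_lit 76) (nat_lit 11918560915) (nat_lit 30) (nat_lit 5) (nat_lit 34) (nat_lit 5) (nat_lit 31) (nat_lit 5) (nat_lit 336) (nat_lit 256) (nat_lit 188)) (XT.lf (nat_lit 0) (nat_lit 1322374838) (nat_lit 152) (nat_lit 2117659198) (nat_lit 228) (nat_lit 14593355978) (nat_lit 28) (nat_lit 5) (nat_lit 30) (nat_lit 5) (nat_lit 31) (nat_lit 5) (nat_lit 337) (nat_lit 256) (nat_lit 187))) (XT.nd (nat_lit 78) (nat_lit 152) (nat_lit 0) (XT.lf (nat_lit 0) (nat_lit 6261229461) (nat_lit 228) (nat_lit 10594099848) (nat_lit 76) (nat_lit 1591002839) (nat_lit 28) (nat_lit 5)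 (nat_lit 31) (nat_lit 5) (nat_lit 29) (nat_lit 5) (nat_lit 338) (nat_lit 256) (nat_lit 186)) (XT.nd (nat_lit 78) (nat_lit 152) (nat_lit 0) (XT.lf (nat_lit 0) (nat_lit 9163408751) (nat_lit 228) (nat_lit 4353691481) (nat_lit 76) (nat_lit 5354703113) (nat_lit 28) (nat_lit 5) (nat_lit 31) (nat_lit 5) (nat_lit 29) (nat_lit 5) (nat_lit 339) (nat_lit 256) (nat_lit 185)) (XT.lf (nat_lit 0) (nat_lit 2076539713) (nat_lit 152) (nat_lit 10072172813) (nat_lit 228) (nat_lit 7161474709) (nat_lit 26) (nat_lit 5) (nat_lit 28) (nat_lit 5) (nat_lit 29) (nat_lit 5) (nat_lit 340) (nat_lit 256) (nat_lit 184))))) (XT.nd (nat_lit 234) (nat_lit 152) (nat_lit 0) (XT.nd (nat_lit 78) (nat_lit 228) (nat_lit 0) (XT.lf (nat_lit 0) (nat_lit 8751385728) (nat_lit 152) (nat_lit 6492586899) (nat_lit 228) (nat_lit 4517167545) (nat_lit 26) (nat_lit 5) (nat_lit 28) (nat_lit 5) (nat_lit 29) (nat_lit 5) (nat_lit 341) (nat_lit 256)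 (nat_lit 183)) (XT.nd (nat_lit 78) (nat_lit 228) (nat_lit 0) (XT.lf (nat_lit 0) (nat_lit 15590031955) (nat_lit 152) (nat_lit 2819178444) (nat_lit 228) (nat_lit 1817126291) (nat_lit 26) (nat_lit 5) (nat_lit 28) (nat_lit 5) (nat_lit 29) (nat_lit 5) (nat_lit 342) (nat_lit 256) (nat_lit 182)) (XT.lf (nat_lit 0) (nat_lit 950525319) (nat_lit 228) (nat_lit 18794069529) (nat_lit 76) (nat_lit 960480672) (nat_lit 23) (nat_lit 5) (nat_lit 26) (nat_lit 5) (nat_lit 24) (nat_lit 5) (nat_lit 343) (nat_lit 256) (nat_lit 181)))) (XT.nd (nat_lit 78) (nat_lit 152) (nat_lit 0) (XT.lf (nat_lit 0) (nat_lit 3817601440) (nat_lit 228) (nat_lit 12529432065) (nat_lit 76) (nat_lit 4849041910) (nat_lit 23) (nat_lit 5) (nat_lit 26) (nat_lit 5) (nat_lit 24) (nat_lit 5) (nat_lit 344) (nat_lit 256) (nat_lit 180)) (XT.nd (nat_lit 78) (nat_lit 152) (nat_lit 0) (XT.lf (nat_lit 0) (nat_lit 6749062286) (nat_lit 228) (nat_lit 6111873217)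 (nat_lit 76) (nat_lit 8841544031) (nat_lit 23) (nat_lit 5) (nat_lit 26) (nat_lit 5) (nat_lit 24) (nat_lit 5) (nat_lit 345) (nat_lit 256) (nat_lit 179)) (XT.lf (nat_lit 0) (nat_lit 473453369) (nat_lit 152) (nat_lit 9278567083) (nat_lit 228) (nat_lit 12472573381) (nat_lit 21) (nat_lit 5) (nat_lit 23) (nat_lit 5) (nat_lit 24) (nat_lit 5) (nat_lit 346) (nat_lit 256) (nat_lit 178)))))) (XT.nd (nat_lit 390) (nat_lit 228) (nat_lit 0) (XT.nd (nat_lit 156) (nat_lit 152) (nat_lit 0) (XT.nd (nat_lit 78) (nat_lit 0) (nat_lit 0) (XT.lf (nat_lit 0) (nat_lit 7347962670) (nat_lit 152) (nat_lit 5538112978) (nat_lit 228) (nat_lit 9875089608) (nat_lit 21) (nat_lit 5) (nat_lit 23) (nat_lit 5) (nat_lit 24) (nat_lit 5) (nat_lit 347) (nat_lit 256) (nat_lit 177)) (XT.lf (nat_lit 0) (nat_lit 14396023274) (nat_lit 152) (nat_lit 1698022767) (nat_lit 228) (nat_lit 7220414218) (nat_lit 21) (nat_lit 5) (nat_lit 23) (nat_lit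 5) (nat_lit 24) (nat_lit 5) (nat_lit 348) (nat_lit 256) (nat_lit 176))) (XT.nd (nat_lit 78) (nat_lit 152) (nat_lit 0) (XT.lf (nat_lit 0) (nat_lit 19400315595) (nat_lit 228) (nat_lit 2282749504) (nat_lit 76) (nat_lit 2201249781) (nat_lit 21) (nat_lit 5) (nat_lit 24) (nat_lit 5) (nat_lit 22) (nat_lit 4) (nat_lit 349) (nat_lit 256) (nat_lit 175)) (XT.nd (nat_lit 78) (nat_lit 76) (nat_lit 0) (XT.lf (nat_lit 0) (nat_lit 4593548880) (nat_lit 76) (nat_lit 18254126235) (nat_lit 152) (nat_lit 1622354878) (nat_lit 20) (nat_lit 5) (nat_lit 21) (nat_lit 5) (nat_lit 22) (nat_lit 4) (nat_lit 350) (nat_lit 256) (nat_lit 174)) (XT.lf (nat_lit 0) (nat_lit 1303544396) (nat_lit 152) (nat_lit 13394037646) (nat_lit 76) (nat_lit 10375245117) (nat_lit 19) (nat_lit 5) (nat_lit 21) (nat_lit 5) (nat_lit 20) (nat_lit 5) (nat_lit 351) (nat_lit 256) (nat_lit 173))))) (XT.nd (nat_lit 234) (nat_lit 76) (nat_lit 0) (XT.nd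 (nat_lit 78) (nat_lit 152) (nat_lit 0) (XT.lf (nat_lit 0) (nat_lit 4266151021) (nat_lit 152) (nat_lit 6763646602) (nat_lit 76) (nat_lit 14664002638) (nat_lit 19) (nat_lit 5) (nat_lit 21) (nat_lit 5) (nat_lit 20) (nat_lit 5) (nat_lit 352) (nat_lit 256) (nat_lit 172)) (XT.nd (nat_lit 78) (nat_lit 0) (nat_lit 0) (XT.lf (nat_lit 0) (nat_lit 36798706) (nat_lit 152) (nat_lit 7263266695) (nat_lit 228) (nat_lit 19033883735) (nat_lit 17) (nat_lit 5) (nat_lit 19) (nat_lit 5) (nat_lit 20) (nat_lit 5) (nat_lit 353) (nat_lit 256) (nat_lit 171)) (XT.lf (nat_lit 0) (nat_lit 7150619913) (nat_lit 152) (nat_lit 3324993246) (nat_lit 228) (nat_lit 16516189742) (nat_lit 17) (nat_lit 5) (nat_lit 19) (nat_lit 5) (nat_lit 20) (nat_lit 5) (nat_lit 354) (nat_lit 256) (nat_lit 170)))) (XT.nd (nat_lit 78) (nat_lit 76) (nat_lit 0) (XT.lf (nat_lit 0) (nat_lit 13736181443) (nat_lit 228) (nat_lit 13227425197) (nat_lit 76)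 (nat_lit 706111364) (nat_lit 17) (nat_lit 5) (nat_lit 20) (nat_lit 5) (nat_lit 18) (nat_lit 4) (nat_lit 355) (nat_lit 256) (nat_lit 169)) (XT.nd (nat_lit 78) (nat_lit 76) (nat_lit 0) (XT.lf (nat_lit 0) (nat_lit 17110713868) (nat_lit 228) (nat_lit 6476192618) (nat_lit 76) (nat_lit 4780597479) (nat_lit 17) (nat_lit 5) (nat_lit 20) (nat_lit 5) (nat_lit 18) (nat_lit 4) (nat_lit 356) (nat_lit 256) (nat_lit 168)) (XT.lf (nat_lit 0) (nat_lit 459339113) (nat_lit 76) (nat_lit 20115273518) (nat_lit 152) (nat_lit 8511984257) (nat_lit 16) (nat_lit 5) (nat_lit 17) (nat_lit 5) (nat_lit 18) (nat_lit 4) (nat_lit 357) (nat_lit 256) (nat_lit 167))))))) (XT.nd (nat_lit 858) (nat_lit 304) (nat_lit 0) (XT.nd (nat_lit 390) (nat_lit 76) (nat_lit 0) (XT.nd (nat_lit 156) (nat_lit 228) (nat_lit 0) (XT.nd (nat_lit 78) (nat_lit 0) (nat_lit 0) (XT.lf (nat_lit 0) (nat_lit 7708757889) (nat_lit 76) (nat_lit 16482997647) (nat_lit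 152) (nat_lit 5634044042) (nat_lit 16) (nat_lit 5) (nat_lit 17) (nat_lit 5) (nat_lit 18) (nat_lit 4) (nat_lit 358) (nat_lit 256) (nat_lit 166)) (XT.lf (nat_lit 0) (nat_lit 15149509222) (nat_lit 76) (nat_lit 12752301885) (nat_lit 152) (nat_lit 2685851594) (nat_lit 16) (nat_lit 5) (nat_lit 17) (nat_lit 5) (nat_lit 18) (nat_lit 4) (nat_lit 359) (nat_lit 256) (nat_lit 165))) (XT.nd (nat_lit 78) (nat_lit 152) (nat_lit 0) (XT.lf (nat_lit 0) (nat_lit 328628819) (nat_lit 152) (nat_lit 8587979075) (nat_lit 76) (nat_lit 22456147412) (nat_lit 15) (nat_lit 5) (nat_lit 17) (nat_lit 5) (nat_lit 16) (nat_lit 5) (nat_lit 360) (nat_lit 256) (nat_lit 164)) (XT.nd (nat_lit 78) (nat_lit 152) (nat_lit 0) (XT.lf (nat_lit 0) (nat_lit 3364693991) (nat_lit 152) (nat_lit 1583851715) (nat_lit 76) (nat_lit 27232518128) (nat_lit 15) (nat_lit 5) (nat_lit 17) (nat_lit 5) (nat_lit 16) (nat_lit 5) (nat_lit 361) (nat_lit 256)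 (nat_lit 163)) (XT.lf (nat_lit 0) (nat_lit 5717740471) (nat_lit 152) (nat_lit 814629380) (nat_lit 228) (nat_lit 26480050389) (nat_lit 13) (nat_lit 5) (nat_lit 15) (nat_lit 5) (nat_lit 16) (nat_lit 5) (nat_lit 362) (nat_lit 256) (nat_lit 162))))) (XT.nd (nat_lit 234) (nat_lit 76) (nat_lit 0) (XT.nd (nat_lit 78) (nat_lit 0) (nat_lit 0) (XT.lf (nat_lit 0) (nat_lit 9829989610) (nat_lit 228) (nat_lit 20654989976) (nat_lit 76) (nat_lit 3382704408) (nat_lit 13) (nat_lit 5) (nat_lit 16) (nat_lit 5) (nat_lit 14) (nat_lit 4) (nat_lit 363) (nat_lit 256) (nat_lit 161)) (XT.nd (nat_lit 78) (nat_lit 0) (nat_lit 0) (XT.lf (nat_lit 0) (nat_lit 13220683524) (nat_lit 228) (nat_lit 13847808889) (nat_lit 76) (nat_lit 7680302535) (nat_lit 13) (nat_lit 5) (nat_lit 16) (nat_lit 5) (nat_lit 14) (nat_lit 4) (nat_lit 364) (nat_lit 256) (nat_lit 160)) (XT.lf (nat_lit 0) (nat_lit 16699583620) (nat_lit 228) (nat_lit 6859357771)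 (nat_lit 76) (nat_lit 12097816535) (nat_lit 13) (nat_lit 5) (nat_lit 16) (nat_lit 5) (nat_lit 14) (nat_lit 4) (nat_lit 365) (nat_lit 256) (nat_lit 159)))) (XT.nd (nat_lit 78) (nat_lit 0) (nat_lit 0) (XT.lf (nat_lit 0) (nat_lit 322768159) (nat_lit 76) (nat_lit 19950064198) (nat_lit 152) (nat_lit 16319440858) (nat_lit 12) (nat_lit 5) (nat_lit 13) (nat_lit 5) (nat_lit 14) (nat_lit 4) (nat_lit 366) (nat_lit 256) (nat_lit 158)) (XT.nd (nat_lit 78) (nat_lit 0) (nat_lit 0) (XT.lf (nat_lit 0) (nat_lit 7838909290) (nat_lit 76) (nat_lit 16170684448) (nat_lit 152) (nat_lit 13544583264) (nat_lit 12) (nat_lit 5) (nat_lit 13) (nat_lit 5) (nat_lit 14) (nat_lit 4) (nat_lit 367) (nat_lit 256) (nat_lit 157)) (XT.lf (nat_lit 0) (nat_lit 15559118456) (nat_lit 76) (nat_lit 12286765833) (nat_lit 152) (nat_lit 10699442956) (nat_lit 12) (nat_lit 5) (nat_lit 13) (nat_lit 5) (nat_lit 14) (nat_lit 4) (nat_lit 368) (nat_lit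 256) (nat_lit 156)))))) (XT.nd (nat_lit 468) (nat_lit 76) (nat_lit 0) (XT.nd (nat_lit 234) (nat_lit 228) (nat_lit 0) (XT.nd (nat_lit 78) (nat_lit 0) (nat_lit 0) (XT.lf (nat_lit 0) (nat_lit 23490141468) (nat_lit 76) (nat_lit 8294914639) (nat_lit 152) (nat_lit 7781533889) (nat_lit 12) (nat_lit 5) (nat_lit 13) (nat_lit 5) (nat_lit 14) (nat_lit 4) (nat_lit 369) (nat_lit 256) (nat_lit 155)) (XT.nd (nat_lit 78) (nat_lit 0) (nat_lit 0) (XT.lf (nat_lit 0) (nat_lit 31638908348) (nat_lit 76) (nat_lit 4191642840) (nat_lit 152) (nat_lit 4788306434) (nat_lit 12) (nat_lit 5) (nat_lit 13) (nat_lit 5) (nat_lit 14) (nat_lit 4) (nat_lit 370) (nat_lit 256) (nat_lit 154)) (XT.lf (nat_lit 0) (nat_lit 39986160463) (nat_lit 152) (nat_lit 1690766234) (nat_lit 0) (nat_lit 26115202) (nat_lit 12) (nat_lit 5) (nat_lit 14) (nat_lit 4) (nat_lit 12) (nat_lit 4) (nat_lit 371) (nat_lit 256) (nat_lit 153)))) (XT.nd (nat_lit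 78) (nat_lit 0) (nat_lit 0) (XT.lf (nat_lit 0) (nat_lit 1505992572) (nat_lit 228) (nat_lit 36961072490) (nat_lit 76) (nat_lit 4349653823) (nat_lit 9) (nat_lit 5) (nat_lit 12) (nat_lit 5) (nat_lit 10) (nat_lit 4) (nat_lit 372) (nat_lit 256) (nat_lit 152)) (XT.nd (nat_lit 78) (nat_lit 0) (nat_lit 0) (XT.lf (nat_lit 0) (nat_lit 4797064288) (nat_lit 228) (nat_lit 30336694140) (nat_lit 76) (nat_lit 8829367375) (nat_lit 9) (nat_lit 5) (nat_lit 12) (nat_lit 5) (nat_lit 10) (nat_lit 4) (nat_lit 373) (nat_lit 256) (nat_lit 151)) (XT.lf (nat_lit 0) (nat_lit 8175971686) (nat_lit 228) (nat_lit 23532363807) (nat_lit 76) (nat_lit 13435926195) (nat_lit 9) (nat_lit 5) (nat_lit 12) (nat_lit 5) (nat_lit 10) (nat_lit 4) (nat_lit 374) (nat_lit 256) (nat_lit 150))))) (XT.nd (nat_lit 234) (nat_lit 76) (nat_lit 0) (XT.nd (nat_lit 78) (nat_lit 0) (nat_lit 0) (XT.lf (nat_lit 0) (nat_lit 11645667209) (nat_lit 228) (nat_lit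 16542135957) (nat_lit 76) (nat_lit 18173355432) (nat_lit 9) (nat_lit 5) (nat_lit 12) (nat_lit 5) (nat_lit 10) (nat_lit 4) (nat_lit 375) (nat_lit 256) (nat_lit 149)) (XT.nd (nat_lit 78) (nat_lit 0) (nat_lit 0) (XT.lf (nat_lit 0) (nat_lit 15209182629) (nat_lit 228) (nat_lit 9359902626) (nat_lit 76) (nat_lit 23045794587) (nat_lit 9) (nat_lit 5) (nat_lit 12) (nat_lit 5) (nat_lit 10) (nat_lit 4) (nat_lit 376) (nat_lit 256) (nat_lit 148)) (XT.lf (nat_lit 0) (nat_lit 18869631699) (nat_lit 228) (nat_lit 1979388076) (nat_lit 76) (nat_lit 28057501131) (nat_lit 9) (nat_lit 5) (nat_lit 12) (nat_lit 5) (nat_lit 10) (nat_lit 4) (nat_lit 377) (nat_lit 256) (nat_lit 147)))) (XT.nd (nat_lit 78) (nat_lit 0) (nat_lit 0) (XT.lf (nat_lit 0) (nat_lit 5717424226) (nat_lit 76) (nat_lit 16967748021) (nat_lit 152) (nat_lit 27550389378) (nat_lit 8) (nat_lit 5) (nat_lit 9) (nat_lit 5) (nat_lit 10) (nat_lit 4) (nat_lit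 378) (nat_lit 256) (nat_lit 146)) (XT.nd (nat_lit 78) (nat_lit 0) (nat_lit 0) (XT.lf (nat_lit 0) (nat_lit 13669194770) (nat_lit 76) (nat_lit 12956413974) (nat_lit 152) (nat_lit 24978560438) (nat_lit 8) (nat_lit 5) (nat_lit 9) (nat_lit 5) (nat_lit 10) (nat_lit 4) (nat_lit 379) (nat_lit 256) (nat_lit 145)) (XT.lf (nat_lit 0) (nat_lit 21843478001) (nat_lit 76) (nat_lit 8831500523) (nat_lit 152) (nat_lit 22339143098) (nat_lit 8) (nat_lit 5) (nat_lit 9) (nat_lit 5) (nat_lit 10) (nat_lit 4) (nat_lit 380) (nat_lit 256) (nat_lit 144))))))))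
noncomputable def xc101 : XT := (XT.nd (nat_lit 32058) (nat_lit 0) (nat_lit 9044) (XT.nd (nat_lit 858) (nat_lit 76) (nat_lit 0) (XT.nd (nat_lit 390) (nat_lit 76) (nat_lit 0) (XT.nd (nat_lit 156) (nat_lit 76) (nat_lit 0) (XT.nd (nat_lit 78) (nat_lit 0) (nat_lit 0) (XT.lf (nat_lit 0) (nat_lit 30247416495) (nat_lit 76) (nat_lit 4589403375) (nat_lit 152) (nat_lit 19629831071) (nat_lit 8) (nat_lit 5) (nat_lit 9) (nat_lit 5) (nat_lit 10) (nat_lit 4) (nat_lit 381) (nat_lit 256) (nat_lit 143)) (XT.lf (nat_lit 0) (nat_lit 38888353500) (nat_lit 76) (nat_lit 226415843) (nat_lit 152) (nat_lit 16848256996) (nat_lit 8) (nat_lit 5) (nat_lit 9) (nat_lit 5) (nat_lit 10) (nat_lit 4) (nat_lit 382) (nat_lit 256) (nat_lit 142))) (XT.nd (nat_lit 78) (nat_lit 76) (nat_lit 0) (XT.lf (nat_lit 0) (nat_lit 43553526934) (nat_lit 152) (nat_lit 9771677957) (nat_lit 0) (nat_lit 4178121579) (nat_lit 8) (nat_lit 5) (nat_lit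 10) (nat_lit 4) (nat_lit 8) (nat_lit 4) (nat_lit 383) (nat_lit 256) (nat_lit 141)) (XT.nd (nat_lit 78) (nat_lit 76) (nat_lit 0) (XT.lf (nat_lit 0) (nat_lit 48119386260) (nat_lit 152) (nat_lit 2266283633) (nat_lit 0) (nat_lit 8704354882) (nat_lit 8) (nat_lit 5) (nat_lit 10) (nat_lit 4) (nat_lit 8) (nat_lit 4) (nat_lit 384) (nat_lit 256) (nat_lit 140)) (XT.lf (nat_lit 0) (nat_lit 5558715247) (nat_lit 76) (nat_lit 47308878984) (nat_lit 76) (nat_lit 7855375738) (nat_lit 7) (nat_lit 4) (nat_lit 8) (nat_lit 5) (nat_lit 8) (nat_lit 4) (nat_lit 385) (nat_lit 256) (nat_lit 139))))) (XT.nd (nat_lit 234) (nat_lit 0) (nat_lit 0) (XT.nd (nat_lit 78) (nat_lit 76) (nat_lit 0) (XT.lf (nat_lit 0) (nat_lit 13651030386) (nat_lit 76) (nat_lit 44122143432) (nat_lit 76) (nat_lit 4631288858) (nat_lit 7) (nat_lit 4) (nat_lit 8) (nat_lit 5) (nat_lit 8) (nat_lit 4) (nat_lit 386) (nat_lit 256) (nat_lit 138)) (XT.nd (nat_lit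 78) (nat_lit 76) (nat_lit 0) (XT.lf (nat_lit 0) (nat_lit 21972629249) (nat_lit 76) (nat_lit 40845563732) (nat_lit 76) (nat_lit 1318445734) (nat_lit 7) (nat_lit 4) (nat_lit 8) (nat_lit 5) (nat_lit 8) (nat_lit 4) (nat_lit 387) (nat_lit 256) (nat_lit 137)) (XT.lf (nat_lit 0) (nat_lit 2045342035) (nat_lit 152) (nat_lit 35410280874) (nat_lit 76) (nat_lit 28464787158) (nat_lit 6) (nat_lit 5) (nat_lit 8) (nat_lit 5) (nat_lit 7) (nat_lit 4) (nat_lit 388) (nat_lit 256) (nat_lit 136)))) (XT.nd (nat_lit 78) (nat_lit 0) (nat_lit 0) (XT.lf (nat_lit 0) (nat_lit 5476181453) (nat_lit 152) (nat_lit 28479858611) (nat_lit 76) (nat_lit 33801489901) (nat_lit 6) (nat_lit 5) (nat_lit 8) (nat_lit 5) (nat_lit 7) (nat_lit 4) (nat_lit 389) (nat_lit 256) (nat_lit 135)) (XT.nd (nat_lit 78) (nat_lit 0) (nat_lit 0) (XT.lf (nat_lit 0) (nat_lit 9002797965) (nat_lit 152) (nat_lit 21354013262) (nat_lit 76) (nat_lit 39293172644)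 (nat_lit 6) (nat_lit 5) (nat_lit 8) (nat_lit 5) (nat_lit 7) (nat_lit 4) (nat_lit 390) (nat_lit 256) (nat_lit 134)) (XT.lf (nat_lit 0) (nat_lit 12628273081) (nat_lit 152) (nat_lit 14026518360) (nat_lit 76) (nat_lit 44944633944) (nat_lit 6) (nat_lit 5) (nat_lit 8) (nat_lit 5) (nat_lit 7) (nat_lit 4) (nat_lit 391) (nat_lit 256) (nat_lit 133)))))) (XT.nd (nat_lit 390) (nat_lit 0) (nat_lit 0) (XT.nd (nat_lit 156) (nat_lit 0) (nat_lit 0) (XT.nd (nat_lit 78) (nat_lit 76) (nat_lit 0) (XT.lf (nat_lit 0) (nat_lit 16355774692) (nat_lit 152) (nat_lit 6490971239) (nat_lit 76) (nat_lit 50760811972) (nat_lit 6) (nat_lit 5) (nat_lit 8) (nat_lit 5) (nat_lit 7) (nat_lit 4) (nat_lit 392) (nat_lit 256) (nat_lit 132)) (XT.lf (nat_lit 0) (nat_lit 1284273357) (nat_lit 76) (nat_lit 18916631702) (nat_lit 152) (nat_lit 55474860688) (nat_lit 5) (nat_lit 5) (nat_lit 6) (nat_lit 5) (nat_lit 7) (nat_lit 4) (nat_lit 393)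 (nat_lit 256) (nat_lit 131))) (XT.nd (nat_lit 78) (nat_lit 0) (nat_lit 0) (XT.lf (nat_lit 0) (nat_lit 9414516158) (nat_lit 76) (nat_lit 14805959484) (nat_lit 152) (nat_lit 53583776896) (nat_lit 5) (nat_lit 5) (nat_lit 6) (nat_lit 5) (nat_lit 7) (nat_lit 4) (nat_lit 394) (nat_lit 256) (nat_lit 130)) (XT.nd (nat_lit 78) (nat_lit 0) (nat_lit 0) (XT.lf (nat_lit 0) (nat_lit 17777678205) (nat_lit 76) (nat_lit 10576683510) (nat_lit 152) (nat_lit 51642425515) (nat_lit 5) (nat_lit 5) (nat_lit 6) (nat_lit 5) (nat_lit 7) (nat_lit 4) (nat_lit 395) (nat_lit 256) (nat_lit 129)) (XT.lf (nat_lit 0) (nat_lit 26381067114) (nat_lit 76) (nat_lit 6225108298) (nat_lit 152) (nat_lit 49649110218) (nat_lit 5) (nat_lit 5) (nat_lit 6) (nat_lit 5) (nat_lit 7) (nat_lit 4) (nat_lit 396) (nat_lit 256) (nat_lit 128))))) (XT.nd (nat_lit 30576) (nat_lit 0) (nat_lit 18544) (XT.nd (nat_lit 30420) (nat_lit 0) (nat_lit 19000) (XT.lf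 (nat_lit 0) (nat_lit 35232200409) (nat_lit 76) (nat_lit 1747431500) (nat_lit 152) (nat_lit 47602089273) (nat_lit 5) (nat_lit 5) (nat_lit 6) (nat_lit 5) (nat_lit 7) (nat_lit 4) (nat_lit 397) (nat_lit 256) (nat_lit 127)) (XT.nd (nat_lit 78) (nat_lit 228) (nat_lit 0) (XT.lf (nat_lit 0) (nat_lit 1242100425) (nat_lit 228) (nat_lit 757496426) (nat_lit 0) (nat_lit 1242100425) (nat_lit 258) (nat_lit 5) (nat_lit 261) (nat_lit 4) (nat_lit 258) (nat_lit 4) (nat_lit 266) (nat_lit 257) (nat_lit 257)) (XT.lf (nat_lit 0) (nat_lit 1671923478) (nat_lit 228) (nat_lit 3619447091) (nat_lit 228) (nat_lit 1207572478) (nat_lit 255) (nat_lit 4) (nat_lit 258) (nat_lit 5) (nat_lit 258) (nat_lit 4) (nat_lit 267) (nat_lit 257) (nat_lit 256)))) (XT.nd (nat_lit 78) (nat_lit 380) (nat_lit 0) (XT.lf (nat_lit 0) (nat_lit 1548178769) (nat_lit 304) (nat_lit 1610697548) (nat_lit 76) (nat_lit 3358634036) (nat_lit 254) (nat_lit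 5) (nat_lit 258) (nat_lit 5) (nat_lit 255) (nat_lit 4) (nat_lit 268) (nat_lit 257) (nat_lit 255)) (XT.nd (nat_lit 78) (nat_lit 76) (nat_lit 0) (XT.lf (nat_lit 0) (nat_lit 1658919451) (nat_lit 304) (nat_lit 2619820965) (nat_lit 380) (nat_lit 2260452143) (nat_lit 250) (nat_lit 5) (nat_lit 254) (nat_lit 5) (nat_lit 255) (nat_lit 4) (nat_lit 269) (nat_lit 257) (nat_lit 254)) (XT.lf (nat_lit 0) (nat_lit 437187400) (nat_lit 380) (nat_lit 1571981384) (nat_lit 76) (nat_lit 4555054159) (nat_lit 249) (nat_lit 5) (nat_lit 254) (nat_lit 5) (nat_lit 250) (nat_lit 5) (nat_lit 270) (nat_lit 257) (nat_lit 253))))))) (XT.nd (nat_lit 858) (nat_lit 5776) (nat_lit 0) (XT.nd (nat_lit 390) (nat_lit 2204) (nat_lit 0) (XT.nd (nat_lit 156) (nat_lit 1140) (nat_lit 0) (XT.nd (nat_lit 78) (nat_lit 0) (nat_lit 0) (XT.lf (nat_lit 0) (nat_lit 1784570709) (nat_lit 380) (nat_lit 1307182709) (nat_lit 456) (nat_lit 3500310633)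 (nat_lit 244) (nat_lit 5) (nat_lit 249) (nat_lit 5) (nat_lit 250) (nat_lit 5) (nat_lit 271) (nat_lit 257) (nat_lit 252)) (XT.lf (nat_lit 0) (nat_lit 5211234247) (nat_lit 380) (nat_lit 537056177) (nat_lit 456) (nat_lit 875143191) (nat_lit 244) (nat_lit 5) (nat_lit 249) (nat_lit 5) (nat_lit 250) (nat_lit 5) (nat_lit 272) (nat_lit 257) (nat_lit 251))) (XT.nd (nat_lit 78) (nat_lit 608) (nat_lit 0) (XT.lf (nat_lit 0) (nat_lit 1723790978) (nat_lit 532) (nat_lit 4616732971) (nat_lit 76) (nat_lit 317114392) (nat_lit 237) (nat_lit 5) (nat_lit 244) (nat_lit 5) (nat_lit 238) (nat_lit 5) (nat_lit 273) (nat_lit 257) (nat_lit 250)) (XT.nd (nat_lit 78) (nat_lit 608) (nat_lit 0) (XT.lf (nat_lit 0) (nat_lit 4313106346) (nat_lit 532) (nat_lit 1145843661) (nat_lit 76) (nat_lit 1236091597) (nat_lit 237) (nat_lit 5) (nat_lit 244) (nat_lit 5) (nat_lit 238) (nat_lit 5) (nat_lit 274) (nat_lit 257) (nat_lit 249)) (XT.lf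 (nat_lit 0) (nat_lit 176859755) (nat_lit 608) (nat_lit 4325208886) (nat_lit 76) (nat_lit 2233686474) (nat_lit 229) (nat_lit 5) (nat_lit 237) (nat_lit 5) (nat_lit 230) (nat_lit 5) (nat_lit 275) (nat_lit 257) (nat_lit 248))))) (XT.nd (nat_lit 234) (nat_lit 1520) (nat_lit 0) (XT.nd (nat_lit 78) (nat_lit 684) (nat_lit 0) (XT.lf (nat_lit 0) (nat_lit 2689904275) (nat_lit 608) (nat_lit 769233596) (nat_lit 76) (nat_lit 3320388059) (nat_lit 229) (nat_lit 5) (nat_lit 237) (nat_lit 5) (nat_lit 230) (nat_lit 5) (nat_lit 276) (nat_lit 257) (nat_lit 247)) (XT.nd (nat_lit 78) (nat_lit 76) (nat_lit 0) (XT.lf (nat_lit 0) (nat_lit 2886336890) (nat_lit 608) (nat_lit 2335937658) (nat_lit 684) (nat_lit 1604312636) (nat_lit 221) (nat_lit 5) (nat_lit 229) (nat_lit 5) (nat_lit 230) (nat_lit 5) (nat_lit 277) (nat_lit 257) (nat_lit 246)) (XT.lf (nat_lit 0) (nat_lit 861687958) (nat_lit 684) (nat_lit 281463338) (nat_lit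 76) (nat_lit 5734168454) (nat_lit 220) (nat_lit 5) (nat_lit 229) (nat_lit 5) (nat_lit 221) (nat_lit 5) (nat_lit 278) (nat_lit 257) (nat_lit 245)))) (XT.nd (nat_lit 78) (nat_lit 836) (nat_lit 0) (XT.lf (nat_lit 0) (nat_lit 3323672711) (nat_lit 760) (nat_lit 3456061106) (nat_lit 76) (nat_lit 151006756) (nat_lit 211) (nat_lit 5) (nat_lit 221) (nat_lit 5) (nat_lit 212) (nat_lit 5) (nat_lit 279) (nat_lit 257) (nat_lit 244)) (XT.nd (nat_lit 78) (nat_lit 76) (nat_lit 0) (XT.lf (nat_lit 0) (nat_lit 292962310) (nat_lit 760) (nat_lit 5504824115) (nat_lit 836) (nat_lit 1190091927) (nat_lit 201) (nat_lit 5) (nat_lit 211) (nat_lit 5) (nat_lit 212) (nat_lit 5) (nat_lit 280) (nat_lit 257) (nat_lit 243)) (XT.lf (nat_lit 0) (nat_lit 1231208749) (nat_lit 836) (nat_lit 2899386444) (nat_lit 76) (nat_lit 2917292565) (nat_lit 200) (nat_lit 5) (nat_lit 211) (nat_lit 5) (nat_lit 201) (nat_lit 5) (nat_lit 281) (nat_lit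 257) (nat_lit 242)))))) (XT.nd (nat_lit 468) (nat_lit 2888) (nat_lit 0) (XT.nd (nat_lit 234) (nat_lit 1064) (nat_lit 0) (XT.nd (nat_lit 78) (nat_lit 988) (nat_lit 0) (XT.lf (nat_lit 0) (nat_lit 952571972) (nat_lit 836) (nat_lit 2682013827) (nat_lit 912) (nat_lit 3476997590) (nat_lit 189) (nat_lit 5) (nat_lit 200) (nat_lit 5) (nat_lit 201) (nat_lit 5) (nat_lit 282) (nat_lit 257) (nat_lit 241)) (XT.nd (nat_lit 78) (nat_lit 988) (nat_lit 0) (XT.lf (nat_lit 0) (nat_lit 4915911453) (nat_lit 836) (nat_lit 1149227421) (nat_lit 912) (nat_lit 1113631924) (nat_lit 189) (nat_lit 5) (nat_lit 200) (nat_lit 5) (nat_lit 201) (nat_lit 5) (nat_lit 283) (nat_lit 257) (nat_lit 240)) (XT.lf (nat_lit 0) (nat_lit 1242808236) (nat_lit 988) (nat_lit 5546650890) (nat_lit 76) (nat_lit 459915312) (nat_lit 176) (nat_lit 5) (nat_lit 189) (nat_lit 5) (nat_lit 177) (nat_lit 5) (nat_lit 284) (nat_lit 257) (nat_lit 239))))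 (XT.nd (nat_lit 78) (nat_lit 1064) (nat_lit 0) (XT.lf (nat_lit 0) (nat_lit 3610641401) (nat_lit 988) (nat_lit 1575631043) (nat_lit 76) (nat_lit 2136813846) (nat_lit 176) (nat_lit 5) (nat_lit 189) (nat_lit 5) (nat_lit 177) (nat_lit 5) (nat_lit 285) (nat_lit 257) (nat_lit 238)) (XT.nd (nat_lit 78) (nat_lit 76) (nat_lit 0) (XT.lf (nat_lit 0) (nat_lit 2499953063) (nat_lit 988) (nat_lit 3504293912) (nat_lit 1064) (nat_lit 1396327553) (nat_lit 163) (nat_lit 5) (nat_lit 176) (nat_lit 5) (nat_lit 177) (nat_lit 5) (nat_lit 286) (nat_lit 257) (nat_lit 237)) (XT.lf (nat_lit 0) (nat_lit 917289692) (nat_lit 1064) (nat_lit 823765361) (nat_lit 76) (nat_lit 5740822715) (nat_lit 162) (nat_lit 5) (nat_lit 176) (nat_lit 5) (nat_lit 163) (nat_lit 5) (nat_lit 287) (nat_lit 257) (nat_lit 236))))) (XT.nd (nat_lit 234) (nat_lit 1064) (nat_lit 0) (XT.nd (nat_lit 78) (nat_lit 760) (nat_lit 0) (XT.lf (nat_lit 0) (nat_lit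 3239070432) (nat_lit 1140) (nat_lit 4202835632) (nat_lit 76) (nat_lit 124484270) (nat_lit 148) (nat_lit 5) (nat_lit 163) (nat_lit 5) (nat_lit 149) (nat_lit 5) (nat_lit 288) (nat_lit 257) (nat_lit 235)) (XT.nd (nat_lit 78) (nat_lit 760) (nat_lit 0) (XT.lf (nat_lit 0) (nat_lit 5590782653) (nat_lit 1140) (nat_lit 41116200) (nat_lit 76) (nat_lit 2022915133) (nat_lit 148) (nat_lit 5) (nat_lit 163) (nat_lit 5) (nat_lit 149) (nat_lit 5) (nat_lit 289) (nat_lit 257) (nat_lit 234)) (XT.lf (nat_lit 0) (nat_lit 239101172) (nat_lit 760) (nat_lit 3482499170) (nat_lit 76) (nat_lit 4025071697) (nat_lit 138) (nat_lit 5) (nat_lit 148) (nat_lit 5) (nat_lit 139) (nat_lit 5) (nat_lit 290) (nat_lit 257) (nat_lit 233)))) (XT.nd (nat_lit 78) (nat_lit 532) (nat_lit 0) (XT.lf (nat_lit 0) (nat_lit 790233409) (nat_lit 532) (nat_lit 1724638601) (nat_lit 608) (nat_lit 5327618298) (nat_lit 131) (nat_lit 5) (nat_lit 138) (nat_lit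 5) (nat_lit 139) (nat_lit 5) (nat_lit 291) (nat_lit 257) (nat_lit 232)) (XT.nd (nat_lit 78) (nat_lit 532) (nat_lit 0) (XT.lf (nat_lit 0) (nat_lit 4835868041) (nat_lit 608) (nat_lit 2745464596) (nat_lit 76) (nat_lit 360705454) (nat_lit 131) (nat_lit 5) (nat_lit 139) (nat_lit 5) (nat_lit 132) (nat_lit 5) (nat_lit 292) (nat_lit 257) (nat_lit 231)) (XT.lf (nat_lit 0) (nat_lit 1643061142) (nat_lit 532) (nat_lit 5556345125) (nat_lit 608) (nat_lit 846137435) (nat_lit 124) (nat_lit 5) (nat_lit 131) (nat_lit 5) (nat_lit 132) (nat_lit 5) (nat_lit 293) (nat_lit 257) (nat_lit 230))))))))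
noncomputable def xc102 : XT := (XT.nd (nat_lit 1716) (nat_lit 2584) (nat_lit 0) (XT.nd (nat_lit 858) (nat_lit 1900) (nat_lit 0) (XT.nd (nat_lit 390) (nat_lit 1748) (nat_lit 0) (XT.nd (nat_lit 156) (nat_lit 532) (nat_lit 0) (XT.nd (nat_lit 78) (nat_lit 456) (nat_lit 0) (XT.lf (nat_lit 0) (nat_lit 1421242288) (nat_lit 608) (nat_lit 2009497262) (nat_lit 76) (nat_lit 4722083511) (nat_lit 123) (nat_lit 5) (nat_lit 131) (nat_lit 5) (nat_lit 124) (nat_lit 5) (nat_lit 294) (nat_lit 257) (nat_lit 229)) (XT.lf (nat_lit 0) (nat_lit 2494232605) (nat_lit 456) (nat_lit 1211575564) (nat_lit 532) (nat_lit 4558421459) (nat_lit 117) (nat_lit 5) (nat_lit 123) (nat_lit 5) (nat_lit 124) (nat_lit 5) (nat_lit 295) (nat_lit 257) (nat_lit 228))) (XT.nd (nat_lit 78) (nat_lit 532) (nat_lit 0) (XT.lf (nat_lit 0) (nat_lit 6032985661) (nat_lit 532) (nat_lit 1277169903) (nat_lit 76) (nat_lit 1069741647) (nat_lit 117) (nat_lit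 5) (nat_lit 124) (nat_lit 5) (nat_lit 118) (nat_lit 5) (nat_lit 296) (nat_lit 257) (nat_lit 227)) (XT.nd (nat_lit 78) (nat_lit 76) (nat_lit 0) (XT.lf (nat_lit 0) (nat_lit 3342960066) (nat_lit 456) (nat_lit 5076057745) (nat_lit 532) (nat_lit 80482784) (nat_lit 111) (nat_lit 5) (nat_lit 117) (nat_lit 5) (nat_lit 118) (nat_lit 5) (nat_lit 297) (nat_lit 257) (nat_lit 226)) (XT.lf (nat_lit 0) (nat_lit 2168250926) (nat_lit 532) (nat_lit 577566834) (nat_lit 76) (nat_lit 5877604586) (nat_lit 110) (nat_lit 5) (nat_lit 117) (nat_lit 5) (nat_lit 111) (nat_lit 5) (nat_lit 298) (nat_lit 257) (nat_lit 225))))) (XT.nd (nat_lit 234) (nat_lit 760) (nat_lit 0) (XT.nd (nat_lit 78) (nat_lit 532) (nat_lit 0) (XT.lf (nat_lit 0) (nat_lit 4159592113) (nat_lit 456) (nat_lit 310085478) (nat_lit 532) (nat_lit 4281880128) (nat_lit 104) (nat_lit 5) (nat_lit 110) (nat_lit 5) (nat_lit 111) (nat_lit 5) (nat_lit 299) (nat_lit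 257) (nat_lit 224)) (XT.nd (nat_lit 78) (nat_lit 76) (nat_lit 0) (XT.lf (nat_lit 0) (nat_lit 87260129) (nat_lit 456) (nat_lit 6728530464) (nat_lit 532) (nat_lit 2068598931) (nat_lit 98) (nat_lit 5) (nat_lit 104) (nat_lit 5) (nat_lit 105) (nat_lit 5) (nat_lit 300) (nat_lit 257) (nat_lit 223)) (XT.lf (nat_lit 0) (nat_lit 204960870) (nat_lit 532) (nat_lit 4085526271) (nat_lit 76) (nat_lit 4730832994) (nat_lit 97) (nat_lit 5) (nat_lit 104) (nat_lit 5) (nat_lit 98) (nat_lit 5) (nat_lit 301) (nat_lit 257) (nat_lit 222)))) (XT.nd (nat_lit 78) (nat_lit 380) (nat_lit 0) (XT.lf (nat_lit 0) (nat_lit 701262671) (nat_lit 380) (nat_lit 1760240622) (nat_lit 456) (nat_lit 6701661710) (nat_lit 92) (nat_lit 5) (nat_lit 97) (nat_lit 5) (nat_lit 98) (nat_lit 5) (nat_lit 302) (nat_lit 257) (nat_lit 221)) (XT.nd (nat_lit 78) (nat_lit 380) (nat_lit 0) (XT.lf (nat_lit 0) (nat_lit 4785962547) (nat_lit 456) (nat_lit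 3661449446) (nat_lit 76) (nat_lit 861954721) (nat_lit 92) (nat_lit 5) (nat_lit 98) (nat_lit 5) (nat_lit 93) (nat_lit 5) (nat_lit 303) (nat_lit 257) (nat_lit 220)) (XT.lf (nat_lit 0) (nat_lit 1231081092) (nat_lit 380) (nat_lit 5930205294) (nat_lit 456) (nat_lit 2299339126) (nat_lit 87) (nat_lit 5) (nat_lit 92) (nat_lit 5) (nat_lit 93) (nat_lit 5) (nat_lit 304) (nat_lit 257) (nat_lit 219)))))) (XT.nd (nat_lit 390) (nat_lit 1064) (nat_lit 0) (XT.nd (nat_lit 156) (nat_lit 380) (nat_lit 0) (XT.nd (nat_lit 78) (nat_lit 456) (nat_lit 0) (XT.lf (nat_lit 0) (nat_lit 6287486862) (nat_lit 380) (nat_lit 3310070080) (nat_lit 456) (nat_lit 19276427) (nat_lit 87) (nat_lit 5) (nat_lit 92) (nat_lit 5) (nat_lit 93) (nat_lit 5) (nat_lit 305) (nat_lit 257) (nat_lit 218)) (XT.lf (nat_lit 0) (nat_lit 1670781261) (nat_lit 380) (nat_lit 582555878) (nat_lit 456) (nat_lit 7524726696) (nat_lit 81) (nat_lit 5) (nat_lit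 86) (nat_lit 5) (nat_lit 87) (nat_lit 5) (nat_lit 306) (nat_lit 257) (nat_lit 217))) (XT.nd (nat_lit 78) (nat_lit 380) (nat_lit 0) (XT.lf (nat_lit 0) (nat_lit 4603340356) (nat_lit 456) (nat_lit 3133974531) (nat_lit 76) (nat_lit 2206615900) (nat_lit 81) (nat_lit 5) (nat_lit 87) (nat_lit 5) (nat_lit 82) (nat_lit 5) (nat_lit 307) (nat_lit 257) (nat_lit 216)) (XT.nd (nat_lit 78) (nat_lit 0) (nat_lit 0) (XT.lf (nat_lit 0) (nat_lit 1964711054) (nat_lit 380) (nat_lit 5039360021) (nat_lit 456) (nat_lit 3111386389) (nat_lit 76) (nat_lit 5) (nat_lit 81) (nat_lit 5) (nat_lit 82) (nat_lit 5) (nat_lit 308) (nat_lit 257) (nat_lit 215)) (XT.lf (nat_lit 0) (nat_lit 7224761071) (nat_lit 380) (nat_lit 2240040378) (nat_lit 456) (nat_lit 827777066) (nat_lit 76) (nat_lit 5) (nat_lit 81) (nat_lit 5) (nat_lit 82) (nat_lit 5) (nat_lit 309) (nat_lit 257) (nat_lit 214))))) (XT.nd (nat_lit 234) (nat_lit 380) (nat_lit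 0) (XT.nd (nat_lit 78) (nat_lit 304) (nat_lit 0) (XT.lf (nat_lit 0) (nat_lit 1478675357) (nat_lit 380) (nat_lit 8342193908) (nat_lit 76) (nat_lit 654264798) (nat_lit 71) (nat_lit 5) (nat_lit 76) (nat_lit 5) (nat_lit 72) (nat_lit 5) (nat_lit 310) (nat_lit 257) (nat_lit 213)) (XT.nd (nat_lit 78) (nat_lit 304) (nat_lit 0) (XT.lf (nat_lit 0) (nat_lit 3848852425) (nat_lit 380) (nat_lit 3196145675) (nat_lit 76) (nat_lit 3617667691) (nat_lit 71) (nat_lit 5) (nat_lit 76) (nat_lit 5) (nat_lit 72) (nat_lit 5) (nat_lit 311) (nat_lit 257) (nat_lit 212)) (XT.lf (nat_lit 0) (nat_lit 2090875438) (nat_lit 304) (nat_lit 4178294343) (nat_lit 380) (nat_lit 4587360741) (nat_lit 67) (nat_lit 5) (nat_lit 71) (nat_lit 5) (nat_lit 72) (nat_lit 5) (nat_lit 312) (nat_lit 257) (nat_lit 211)))) (XT.nd (nat_lit 78) (nat_lit 380) (nat_lit 0) (XT.lf (nat_lit 0) (nat_lit 7548347423) (nat_lit 304) (nat_lit 1205640293) (nat_lit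 380) (nat_lit 2302542574) (nat_lit 67) (nat_lit 5) (nat_lit 71) (nat_lit 5) (nat_lit 72) (nat_lit 5) (nat_lit 313) (nat_lit 257) (nat_lit 210)) (XT.nd (nat_lit 78) (nat_lit 0) (nat_lit 0) (XT.lf (nat_lit 0) (nat_lit 46232323) (nat_lit 380) (nat_lit 9390692308) (nat_lit 76) (nat_lit 1825770123) (nat_lit 62) (nat_lit 5) (nat_lit 67) (nat_lit 5) (nat_lit 63) (nat_lit 5) (nat_lit 314) (nat_lit 257) (nat_lit 209)) (XT.lf (nat_lit 0) (nat_lit 2427759252) (nat_lit 380) (nat_lit 4077125462) (nat_lit 76) (nat_lit 4969287879) (nat_lit 62) (nat_lit 5) (nat_lit 67) (nat_lit 5) (nat_lit 63) (nat_lit 5) (nat_lit 315) (nat_lit 257) (nat_lit 208))))))) (XT.nd (nat_lit 858) (nat_lit 1140) (nat_lit 0) (XT.nd (nat_lit 390) (nat_lit 836) (nat_lit 0) (XT.nd (nat_lit 156) (nat_lit 304) (nat_lit 0) (XT.nd (nat_lit 78) (nat_lit 0) (nat_lit 0) (XT.lf (nat_lit 0) (nat_lit 1370587192) (nat_lit 304) (nat_lit 3485313952)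 (nat_lit 380) (nat_lit 6836905919) (nat_lit 58) (nat_lit 5) (nat_lit 62) (nat_lit 5) (nat_lit 63) (nat_lit 5) (nat_lit 316) (nat_lit 257) (nat_lit 207)) (XT.lf (nat_lit 0) (nat_lit 7013811875) (nat_lit 304) (nat_lit 346852571) (nat_lit 380) (nat_lit 4557288214) (nat_lit 58) (nat_lit 5) (nat_lit 62) (nat_lit 5) (nat_lit 63) (nat_lit 5) (nat_lit 317) (nat_lit 257) (nat_lit 206))) (XT.nd (nat_lit 78) (nat_lit 76) (nat_lit 0) (XT.lf (nat_lit 0) (nat_lit 609619264) (nat_lit 228) (nat_lit 9328114841) (nat_lit 304) (nat_lit 2212267122) (nat_lit 55) (nat_lit 5) (nat_lit 58) (nat_lit 5) (nat_lit 59) (nat_lit 5) (nat_lit 318) (nat_lit 257) (nat_lit 205)) (XT.nd (nat_lit 78) (nat_lit 0) (nat_lit 0) (XT.lf (nat_lit 0) (nat_lit 216311856) (nat_lit 304) (nat_lit 6055379470) (nat_lit 76) (nat_lit 6116806096) (nat_lit 54) (nat_lit 5) (nat_lit 58) (nat_lit 5) (nat_lit 55) (nat_lit 5) (nat_lit 319) (nat_lit 257)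 (nat_lit 204)) (XT.lf (nat_lit 0) (nat_lit 2638064260) (nat_lit 304) (nat_lit 477535595) (nat_lit 76) (nat_lit 9519006239) (nat_lit 54) (nat_lit 5) (nat_lit 58) (nat_lit 5) (nat_lit 55) (nat_lit 5) (nat_lit 320) (nat_lit 257) (nat_lit 203))))) (XT.nd (nat_lit 234) (nat_lit 304) (nat_lit 0) (XT.nd (nat_lit 78) (nat_lit 228) (nat_lit 0) (XT.lf (nat_lit 0) (nat_lit 5151114871) (nat_lit 380) (nat_lit 7566151808) (nat_lit 76) (nat_lit 170328401) (nat_lit 50) (nat_lit 5) (nat_lit 55) (nat_lit 5) (nat_lit 51) (nat_lit 5) (nat_lit 321) (nat_lit 257) (nat_lit 202)) (XT.nd (nat_lit 78) (nat_lit 228) (nat_lit 0) (XT.lf (nat_lit 0) (nat_lit 7741479654) (nat_lit 380) (nat_lit 1923551990) (nat_lit 76) (nat_lit 3483139190) (nat_lit 50) (nat_lit 5) (nat_lit 55) (nat_lit 5) (nat_lit 51) (nat_lit 5) (nat_lit 322) (nat_lit 257) (nat_lit 201)) (XT.lf (nat_lit 0) (nat_lit 3917381469) (nat_lit 228) (nat_lit 6497019707)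 (nat_lit 304) (nat_lit 3002070497) (nat_lit 47) (nat_lit 5) (nat_lit 50) (nat_lit 5) (nat_lit 51) (nat_lit 5) (nat_lit 323) (nat_lit 257) (nat_lit 200)))) (XT.nd (nat_lit 78) (nat_lit 304) (nat_lit 0) (XT.lf (nat_lit 0) (nat_lit 9926051862) (nat_lit 228) (nat_lit 3228576712) (nat_lit 304) (nat_lit 538631048) (nat_lit 47) (nat_lit 5) (nat_lit 50) (nat_lit 5) (nat_lit 51) (nat_lit 5) (nat_lit 324) (nat_lit 257) (nat_lit 199)) (XT.nd (nat_lit 78) (nat_lit 0) (nat_lit 0) (XT.lf (nat_lit 0) (nat_lit 1949868172) (nat_lit 304) (nat_lit 11867340090) (nat_lit 76) (nat_lit 160910474) (nat_lit 43) (nat_lit 5) (nat_lit 47) (nat_lit 5) (nat_lit 44) (nat_lit 5) (nat_lit 325) (nat_lit 257) (nat_lit 198)) (XT.lf (nat_lit 0) (nat_lit 4541200116) (nat_lit 304) (nat_lit 6112356200) (nat_lit 76) (nat_lit 3616684460) (nat_lit 43) (nat_lit 5) (nat_lit 47) (nat_lit 5) (nat_lit 44) (nat_lit 5) (nat_lit 326) (nat_lit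 257) (nat_lit 197)))))) (XT.nd (nat_lit 468) (nat_lit 608) (nat_lit 0) (XT.nd (nat_lit 234) (nat_lit 304) (nat_lit 0) (XT.nd (nat_lit 78) (nat_lit 228) (nat_lit 0) (XT.lf (nat_lit 0) (nat_lit 7179805544) (nat_lit 304) (nat_lit 229991528) (nat_lit 76) (nat_lit 7162289275) (nat_lit 43) (nat_lit 5) (nat_lit 47) (nat_lit 5) (nat_lit 44) (nat_lit 5) (nat_lit 327) (nat_lit 257) (nat_lit 196)) (XT.nd (nat_lit 78) (nat_lit 0) (nat_lit 0) (XT.lf (nat_lit 0) (nat_lit 5900024586) (nat_lit 228) (nat_lit 4024680094) (nat_lit 304) (nat_lit 4957513080) (nat_lit 40) (nat_lit 5) (nat_lit 43) (nat_lit 5) (nat_lit 44) (nat_lit 5) (nat_lit 328) (nat_lit 257) (nat_lit 195)) (XT.lf (nat_lit 0) (nat_lit 12175136443) (nat_lit 228) (nat_lit 550000903) (nat_lit 304) (nat_lit 2477363415) (nat_lit 40) (nat_lit 5) (nat_lit 43) (nat_lit 5) (nat_lit 44) (nat_lit 5) (nat_lit 329) (nat_lit 257) (nat_lit 194)))) (XT.nd (nat_lit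 78) (nat_lit 0) (nat_lit 0) (XT.lf (nat_lit 0) (nat_lit 106383934) (nat_lit 304) (nat_lit 12438196354) (nat_lit 76) (nat_lit 2986909482) (nat_lit 36) (nat_lit 5) (nat_lit 40) (nat_lit 5) (nat_lit 37) (nat_lit 5) (nat_lit 330) (nat_lit 257) (nat_lit 193)) (XT.nd (nat_lit 78) (nat_lit 0) (nat_lit 0) (XT.lf (nat_lit 0) (nat_lit 2725849522) (nat_lit 304) (nat_lit 6483268743) (nat_lit 76) (nat_lit 6660293954) (nat_lit 36) (nat_lit 5) (nat_lit 40) (nat_lit 5) (nat_lit 37) (nat_lit 5) (nat_lit 331) (nat_lit 257) (nat_lit 192)) (XT.lf (nat_lit 0) (nat_lit 5396403638) (nat_lit 304) (nat_lit 391625061) (nat_lit 76) (nat_lit 10430306927) (nat_lit 36) (nat_lit 5) (nat_lit 40) (nat_lit 5) (nat_lit 37) (nat_lit 5) (nat_lit 332) (nat_lit 257) (nat_lit 191))))) (XT.nd (nat_lit 234) (nat_lit 228) (nat_lit 0) (XT.nd (nat_lit 78) (nat_lit 228) (nat_lit 0) (XT.lf (nat_lit 0) (nat_lit 5958325884) (nat_lit 152) (nat_lit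 2219328963) (nat_lit 228) (nat_lit 8399191777) (nat_lit 34) (nat_lit 5) (nat_lit 36) (nat_lit 5) (nat_lit 37) (nat_lit 5) (nat_lit 333) (nat_lit 257) (nat_lit 190)) (XT.nd (nat_lit 78) (nat_lit 228) (nat_lit 0) (XT.lf (nat_lit 0) (nat_lit 11033898277) (nat_lit 228) (nat_lit 4494232326) (nat_lit 76) (nat_lit 1418271922) (nat_lit 34) (nat_lit 5) (nat_lit 37) (nat_lit 5) (nat_lit 35) (nat_lit 5) (nat_lit 334) (nat_lit 257) (nat_lit 189)) (XT.lf (nat_lit 0) (nat_lit 1786871688) (nat_lit 228) (nat_lit 12202438226) (nat_lit 304) (nat_lit 3337365925) (nat_lit 31) (nat_lit 5) (nat_lit 34) (nat_lit 5) (nat_lit 35) (nat_lit 5) (nat_lit 335) (nat_lit 257) (nat_lit 188)))) (XT.nd (nat_lit 78) (nat_lit 228) (nat_lit 0) (XT.lf (nat_lit 0) (nat_lit 8309118653) (nat_lit 228) (nat_lit 8744347767) (nat_lit 304) (nat_lit 664322591) (nat_lit 31) (nat_lit 5) (nat_lit 34) (nat_lit 5) (nat_lit 35) (nat_lit 5) (nat_lit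 336) (nat_lit 257) (nat_lit 187)) (XT.nd (nat_lit 78) (nat_lit 152) (nat_lit 0) (XT.lf (nat_lit 0) (nat_lit 2023310636) (nat_lit 304) (nat_lit 3152478423) (nat_lit 76) (nat_lit 12945021475) (nat_lit 30) (nat_lit 5) (nat_lit 34) (nat_lit 5) (nat_lit 31) (nat_lit 5) (nat_lit 337) (nat_lit 257) (nat_lit 186)) (XT.lf (nat_lit 0) (nat_lit 3311780595) (nat_lit 152) (nat_lit 1474159165) (nat_lit 228) (nat_lit 13749585286) (nat_lit 28) (nat_lit 5) (nat_lit 30) (nat_lit 5) (nat_lit 31) (nat_lit 5) (nat_lit 338) (nat_lit 257) (nat_lit 185))))))))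
noncomputable def xc103 : XT := (XT.nd (nat_lit 1716) (nat_lit 608) (nat_lit 0) (XT.nd (nat_lit 858) (nat_lit 380) (nat_lit 0) (XT.nd (nat_lit 390) (nat_lit 380) (nat_lit 0) (XT.nd (nat_lit 156) (nat_lit 152) (nat_lit 0) (XT.nd (nat_lit 78) (nat_lit 0) (nat_lit 0) (XT.lf (nat_lit 0) (nat_lit 7662174215) (nat_lit 228) (nat_lit 8987840536) (nat_lit 76) (nat_lit 2311774779) (nat_lit 28) (nat_lit 5) (nat_lit 31) (nat_lit 5) (nat_lit 29) (nat_lit 5) (nat_lit 339) (nat_lit 257) (nat_lit 184)) (XT.lf (nat_lit 0) (nat_lit 10616085645) (nat_lit 228) (nat_lit 2616261150) (nat_lit 76) (nat_lit 6168782901) (nat_lit 28) (nat_lit 5) (nat_lit 31) (nat_lit 5) (nat_lit 29) (nat_lit 5) (nat_lit 340) (nat_lit 257) (nat_lit 183))) (XT.nd (nat_lit 78) (nat_lit 0) (nat_lit 0) (XT.lf (nat_lit 0) (nat_lit 3988562852) (nat_lit 152) (nat_lit 9685862273) (nat_lit 228) (nat_lit 6178779209) (nat_lit 26) (nat_lit 5) (nat_lit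 28) (nat_lit 5) (nat_lit 29) (nat_lit 5) (nat_lit 341) (nat_lit 257) (nat_lit 182)) (XT.nd (nat_lit 78) (nat_lit 0) (nat_lit 0) (XT.lf (nat_lit 0) (nat_lit 10809778705) (nat_lit 152) (nat_lit 6018941472) (nat_lit 228) (nat_lit 3490022629) (nat_lit 26) (nat_lit 5) (nat_lit 28) (nat_lit 5) (nat_lit 29) (nat_lit 5) (nat_lit 342) (nat_lit 257) (nat_lit 181)) (XT.lf (nat_lit 0) (nat_lit 17801277967) (nat_lit 152) (nat_lit 2254799396) (nat_lit 228) (nat_lit 742844018) (nat_lit 26) (nat_lit 5) (nat_lit 28) (nat_lit 5) (nat_lit 29) (nat_lit 5) (nat_lit 343) (nat_lit 257) (nat_lit 180))))) (XT.nd (nat_lit 234) (nat_lit 152) (nat_lit 0) (XT.nd (nat_lit 78) (nat_lit 0) (nat_lit 0) (XT.lf (nat_lit 0) (nat_lit 2076719545) (nat_lit 228) (nat_lit 17580611934) (nat_lit 76) (nat_lit 1634676773) (nat_lit 23) (nat_lit 5) (nat_lit 26) (nat_lit 5) (nat_lit 24) (nat_lit 5) (nat_lit 344) (nat_lit 257) (nat_lit 179))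 (XT.nd (nat_lit 78) (nat_lit 0) (nat_lit 0) (XT.lf (nat_lit 0) (nat_lit 4997836732) (nat_lit 228) (nat_lit 11179800774) (nat_lit 76) (nat_lit 5621097324) (nat_lit 23) (nat_lit 5) (nat_lit 26) (nat_lit 5) (nat_lit 24) (nat_lit 5) (nat_lit 345) (nat_lit 257) (nat_lit 178)) (XT.lf (nat_lit 0) (nat_lit 7986201387) (nat_lit 228) (nat_lit 4619972858) (nat_lit 76) (nat_lit 9715124484) (nat_lit 23) (nat_lit 5) (nat_lit 26) (nat_lit 5) (nat_lit 24) (nat_lit 5) (nat_lit 346) (nat_lit 257) (nat_lit 177)))) (XT.nd (nat_lit 78) (nat_lit 0) (nat_lit 0) (XT.lf (nat_lit 0) (nat_lit 2146489443) (nat_lit 152) (nat_lit 8918568629) (nat_lit 228) (nat_lit 11794479486) (nat_lit 21) (nat_lit 5) (nat_lit 23) (nat_lit 5) (nat_lit 24) (nat_lit 5) (nat_lit 347) (nat_lit 257) (nat_lit 176)) (XT.nd (nat_lit 78) (nat_lit 0) (nat_lit 0) (XT.lf (nat_lit 0) (nat_lit 9178918513) (nat_lit 152) (nat_lit 5084493779) (nat_lit 228)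 (nat_lit 9149719872) (nat_lit 21) (nat_lit 5) (nat_lit 23) (nat_lit 5) (nat_lit 24) (nat_lit 5) (nat_lit 348) (nat_lit 257) (nat_lit 175)) (XT.lf (nat_lit 0) (nat_lit 16391512675) (nat_lit 152) (nat_lit 1147252199) (nat_lit 228) (nat_lit 6445160213) (nat_lit 21) (nat_lit 5) (nat_lit 23) (nat_lit 5) (nat_lit 24) (nat_lit 5) (nat_lit 349) (nat_lit 257) (nat_lit 174)))))) (XT.nd (nat_lit 390) (nat_lit 76) (nat_lit 0) (XT.nd (nat_lit 156) (nat_lit 228) (nat_lit 0) (XT.nd (nat_lit 78) (nat_lit 76) (nat_lit 0) (XT.lf (nat_lit 0) (nat_lit 20921821633) (nat_lit 228) (nat_lit 809684741) (nat_lit 76) (nat_lit 2840073388) (nat_lit 21) (nat_lit 5) (nat_lit 24) (nat_lit 5) (nat_lit 22) (nat_lit 4) (nat_lit 350) (nat_lit 257) (nat_lit 173)) (XT.lf (nat_lit 0) (nat_lit 6257789387) (nat_lit 76) (nat_lit 18202121593) (nat_lit 152) (nat_lit 715367525) (nat_lit 20) (nat_lit 5) (nat_lit 21) (nat_lit 5) (nat_lit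 22) (nat_lit 4) (nat_lit 351) (nat_lit 257) (nat_lit 172))) (XT.nd (nat_lit 78) (nat_lit 152) (nat_lit 0) (XT.lf (nat_lit 0) (nat_lit 2252368853) (nat_lit 152) (nat_lit 12294790756) (nat_lit 76) (nat_lit 11249572772) (nat_lit 19) (nat_lit 5) (nat_lit 21) (nat_lit 5) (nat_lit 20) (nat_lit 5) (nat_lit 352) (nat_lit 257) (nat_lit 171)) (XT.nd (nat_lit 78) (nat_lit 152) (nat_lit 0) (XT.lf (nat_lit 0) (nat_lit 5277357033) (nat_lit 152) (nat_lit 5509208409) (nat_lit 76) (nat_lit 15650592912) (nat_lit 19) (nat_lit 5) (nat_lit 21) (nat_lit 5) (nat_lit 20) (nat_lit 5) (nat_lit 353) (nat_lit 257) (nat_lit 170)) (XT.lf (nat_lit 0) (nat_lit 1480962537) (nat_lit 152) (nat_lit 6909472985) (nat_lit 228) (nat_lit 18706459714) (nat_lit 17) (nat_lit 5) (nat_lit 19) (nat_lit 5) (nat_lit 20) (nat_lit 5) (nat_lit 354) (nat_lit 257) (nat_lit 169))))) (XT.nd (nat_lit 234) (nat_lit 76) (nat_lit 0) (XT.nd (nat_lit 78)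 (nat_lit 0) (nat_lit 0) (XT.lf (nat_lit 0) (nat_lit 8766167509) (nat_lit 152) (nat_lit 2869702547) (nat_lit 228) (nat_lit 16139403072) (nat_lit 17) (nat_lit 5) (nat_lit 19) (nat_lit 5) (nat_lit 20) (nat_lit 5) (nat_lit 355) (nat_lit 257) (nat_lit 168)) (XT.nd (nat_lit 78) (nat_lit 0) (nat_lit 0) (XT.lf (nat_lit 0) (nat_lit 14974794937) (nat_lit 228) (nat_lit 12243687302) (nat_lit 76) (nat_lit 1255653596) (nat_lit 17) (nat_lit 5) (nat_lit 20) (nat_lit 5) (nat_lit 18) (nat_lit 4) (nat_lit 356) (nat_lit 257) (nat_lit 167)) (XT.lf (nat_lit 0) (nat_lit 18426489701) (nat_lit 228) (nat_lit 5330128250) (nat_lit 76) (nat_lit 5436985200) (nat_lit 17) (nat_lit 5) (nat_lit 20) (nat_lit 5) (nat_lit 18) (nat_lit 4) (nat_lit 357) (nat_lit 257) (nat_lit 166)))) (XT.nd (nat_lit 78) (nat_lit 0) (nat_lit 0) (XT.lf (nat_lit 0) (nat_lit 1800328745) (nat_lit 76) (nat_lit 20183362174) (nat_lit 152) (nat_lit 7950921204)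 (nat_lit 16) (nat_lit 5) (nat_lit 17) (nat_lit 5) (nat_lit 18) (nat_lit 4) (nat_lit 358) (nat_lit 257) (nat_lit 165)) (XT.nd (nat_lit 78) (nat_lit 0) (nat_lit 0) (XT.lf (nat_lit 0) (nat_lit 9228573498) (nat_lit 76) (nat_lit 16457711314) (nat_lit 152) (nat_lit 5010422082) (nat_lit 16) (nat_lit 5) (nat_lit 17) (nat_lit 5) (nat_lit 18) (nat_lit 4) (nat_lit 359) (nat_lit 257) (nat_lit 164)) (XT.lf (nat_lit 0) (nat_lit 16855016704) (nat_lit 76) (nat_lit 12630233794) (nat_lit 152) (nat_lit 1996870558) (nat_lit 16) (nat_lit 5) (nat_lit 17) (nat_lit 5) (nat_lit 18) (nat_lit 4) (nat_lit 360) (nat_lit 257) (nat_lit 163))))))) (XT.nd (nat_lit 858) (nat_lit 304) (nat_lit 0) (XT.nd (nat_lit 390) (nat_lit 76) (nat_lit 0) (XT.nd (nat_lit 156) (nat_lit 152) (nat_lit 0) (XT.nd (nat_lit 78) (nat_lit 0) (nat_lit 0) (XT.lf (nat_lit 0) (nat_lit 1071050560) (nat_lit 152) (nat_lit 7615719143) (nat_lit 76) (nat_lit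 23604456175) (nat_lit 15) (nat_lit 5) (nat_lit 17) (nat_lit 5) (nat_lit 16) (nat_lit 5) (nat_lit 361) (nat_lit 257) (nat_lit 162)) (XT.lf (nat_lit 0) (nat_lit 4176860905) (nat_lit 152) (nat_lit 437290273) (nat_lit 76) (nat_lit 28510294002) (nat_lit 15) (nat_lit 5) (nat_lit 17) (nat_lit 5) (nat_lit 16) (nat_lit 5) (nat_lit 362) (nat_lit 257) (nat_lit 161))) (XT.nd (nat_lit 78) (nat_lit 0) (nat_lit 0) (XT.lf (nat_lit 0) (nat_lit 7071643042) (nat_lit 152) (nat_lit 358574343) (nat_lit 228) (nat_lit 26550826173) (nat_lit 13) (nat_lit 5) (nat_lit 15) (nat_lit 5) (nat_lit 16) (nat_lit 5) (nat_lit 363) (nat_lit 257) (nat_lit 160)) (XT.nd (nat_lit 78) (nat_lit 0) (nat_lit 0) (XT.lf (nat_lit 0) (nat_lit 10810807007) (nat_lit 228) (nat_lit 20110075747) (nat_lit 76) (nat_lit 3941581416) (nat_lit 13) (nat_lit 5) (nat_lit 16) (nat_lit 5) (nat_lit 14) (nat_lit 4) (nat_lit 364) (nat_lit 257) (nat_lit 159))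 (XT.lf (nat_lit 0) (nat_lit 14283243553) (nat_lit 228) (nat_lit 13132598565) (nat_lit 76) (nat_lit 8354785277) (nat_lit 13) (nat_lit 5) (nat_lit 16) (nat_lit 5) (nat_lit 14) (nat_lit 4) (nat_lit 365) (nat_lit 257) (nat_lit 158))))) (XT.nd (nat_lit 234) (nat_lit 0) (nat_lit 0) (XT.nd (nat_lit 78) (nat_lit 76) (nat_lit 0) (XT.lf (nat_lit 0) (nat_lit 17847114354) (nat_lit 228) (nat_lit 5967425310) (nat_lit 76) (nat_lit 12891890513) (nat_lit 13) (nat_lit 5) (nat_lit 16) (nat_lit 5) (nat_lit 14) (nat_lit 4) (nat_lit 366) (nat_lit 257) (nat_lit 157)) (XT.nd (nat_lit 78) (nat_lit 0) (nat_lit 0) (XT.lf (nat_lit 0) (nat_lit 1419402504) (nat_lit 76) (nat_lit 20099775135) (nat_lit 152) (nat_lit 16151103245) (nat_lit 12) (nat_lit 5) (nat_lit 13) (nat_lit 5) (nat_lit 14) (nat_lit 4) (nat_lit 367) (nat_lit 257) (nat_lit 156)) (XT.lf (nat_lit 0) (nat_lit 9129369094) (nat_lit 76) (nat_lit 16220085574) (nat_lit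 152) (nat_lit 13312162666) (nat_lit 12) (nat_lit 5) (nat_lit 13) (nat_lit 5) (nat_lit 14) (nat_lit 4) (nat_lit 368) (nat_lit 257) (nat_lit 155)))) (XT.nd (nat_lit 78) (nat_lit 0) (nat_lit 0) (XT.lf (nat_lit 0) (nat_lit 17050447858) (nat_lit 76) (nat_lit 12232340257) (nat_lit 152) (nat_lit 10400272754) (nat_lit 12) (nat_lit 5) (nat_lit 13) (nat_lit 5) (nat_lit 14) (nat_lit 4) (nat_lit 369) (nat_lit 257) (nat_lit 154)) (XT.nd (nat_lit 78) (nat_lit 0) (nat_lit 0) (XT.lf (nat_lit 0) (nat_lit 25189560129) (nat_lit 76) (nat_lit 8133054747) (nat_lit 152) (nat_lit 7412889138) (nat_lit 12) (nat_lit 5) (nat_lit 13) (nat_lit 5) (nat_lit 14) (nat_lit 4) (nat_lit 370) (nat_lit 257) (nat_lit 153)) (XT.lf (nat_lit 0) (nat_lit 33553817751) (nat_lit 76) (nat_lit 3918647144) (nat_lit 152) (nat_lit 4347401483) (nat_lit 12) (nat_lit 5) (nat_lit 13) (nat_lit 5) (nat_lit 14) (nat_lit 4) (nat_lit 371) (nat_lit 257)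 (nat_lit 152)))))) (XT.nd (nat_lit 468) (nat_lit 76) (nat_lit 0) (XT.nd (nat_lit 234) (nat_lit 0) (nat_lit 0) (XT.nd (nat_lit 78) (nat_lit 228) (nat_lit 0) (XT.lf (nat_lit 0) (nat_lit 41739949307) (nat_lit 152) (nat_lit 790551217) (nat_lit 0) (nat_lit 406475386) (nat_lit 12) (nat_lit 5) (nat_lit 14) (nat_lit 4) (nat_lit 12) (nat_lit 4) (nat_lit 372) (nat_lit 257) (nat_lit 151)) (XT.nd (nat_lit 78) (nat_lit 0) (nat_lit 0) (XT.lf (nat_lit 0) (nat_lit 2104208453) (nat_lit 228) (nat_lit 37116782443) (nat_lit 76) (nat_lit 4863137837) (nat_lit 9) (nat_lit 5) (nat_lit 12) (nat_lit 5) (nat_lit 10) (nat_lit 4) (nat_lit 373) (nat_lit 257) (nat_lit 150)) (XT.lf (nat_lit 0) (nat_lit 5477904473) (nat_lit 228) (nat_lit 30321433584) (nat_lit 76) (nat_lit 9466087619) (nat_lit 9) (nat_lit 5) (nat_lit 12) (nat_lit 5) (nat_lit 10) (nat_lit 4) (nat_lit 374) (nat_lit 257) (nat_lit 149)))) (XT.nd (nat_lit 78) (nat_lit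 0) (nat_lit 0) (XT.lf (nat_lit 0) (nat_lit 8942540406) (nat_lit 228) (nat_lit 23339925614) (nat_lit 76) (nat_lit 14200012935) (nat_lit 9) (nat_lit 5) (nat_lit 12) (nat_lit 5) (nat_lit 10) (nat_lit 4) (nat_lit 375) (nat_lit 257) (nat_lit 148)) (XT.nd (nat_lit 78) (nat_lit 0) (nat_lit 0) (XT.lf (nat_lit 0) (nat_lit 12501143603) (nat_lit 228) (nat_lit 16166158185) (nat_lit 76) (nat_lit 19069050225) (nat_lit 9) (nat_lit 5) (nat_lit 12) (nat_lit 5) (nat_lit 10) (nat_lit 4) (nat_lit 376) (nat_lit 257) (nat_lit 147)) (XT.lf (nat_lit 0) (nat_lit 16156823524) (nat_lit 228) (nat_lit 8793862956) (nat_lit 76) (nat_lit 24077453987) (nat_lit 9) (nat_lit 5) (nat_lit 12) (nat_lit 5) (nat_lit 10) (nat_lit 4) (nat_lit 377) (nat_lit 257) (nat_lit 146))))) (XT.nd (nat_lit 234) (nat_lit 0) (nat_lit 0) (XT.nd (nat_lit 78) (nat_lit 76) (nat_lit 0) (XT.lf (nat_lit 0) (nat_lit 19912774451) (nat_lit 228) (nat_lit 1216598117)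 (nat_lit 76) (nat_lit 29229600498) (nat_lit 9) (nat_lit 5) (nat_lit 12) (nat_lit 5) (nat_lit 10) (nat_lit 4) (nat_lit 378) (nat_lit 257) (nat_lit 145)) (XT.nd (nat_lit 78) (nat_lit 0) (nat_lit 0) (XT.lf (nat_lit 0) (nat_lit 6703058048) (nat_lit 76) (nat_lit 17133654131) (nat_lit 152) (nat_lit 27891367477) (nat_lit 8) (nat_lit 5) (nat_lit 9) (nat_lit 5) (nat_lit 10) (nat_lit 4) (nat_lit 379) (nat_lit 257) (nat_lit 144)) (XT.lf (nat_lit 0) (nat_lit 14869669735) (nat_lit 76) (nat_lit 13011974033) (nat_lit 152) (nat_lit 25256525424) (nat_lit 8) (nat_lit 5) (nat_lit 9) (nat_lit 5) (nat_lit 10) (nat_lit 4) (nat_lit 380) (nat_lit 257) (nat_lit 143)))) (XT.nd (nat_lit 78) (nat_lit 0) (nat_lit 0) (XT.lf (nat_lit 0) (nat_lit 23266160129) (nat_lit 76) (nat_lit 8773016063) (nat_lit 152) (nat_lit 22551655423) (nat_lit 8) (nat_lit 5) (nat_lit 9) (nat_lit 5) (nat_lit 10) (nat_lit 4) (nat_lit 381) (nat_lit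 257) (nat_lit 142)) (XT.nd (nat_lit 78) (nat_lit 0) (nat_lit 0) (XT.lf (nat_lit 0) (nat_lit 31899865968) (nat_lit 76) (nat_lit 4413076276) (nat_lit 152) (nat_lit 19774393995) (nat_lit 8) (nat_lit 5) (nat_lit 9) (nat_lit 5) (nat_lit 10) (nat_lit 4) (nat_lit 382) (nat_lit 257) (nat_lit 141)) (XT.lf (nat_lit 0) (nat_lit 40707365078) (nat_lit 152) (nat_lit 16851348217) (nat_lit 0) (nat_lit 70256735) (nat_lit 8) (nat_lit 5) (nat_lit 10) (nat_lit 4) (nat_lit 8) (nat_lit 4) (nat_lit 383) (nat_lit 257) (nat_lit 140))))))))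
noncomputable def xc104 : XT := (XT.nd (nat_lit 31902) (nat_lit 0) (nat_lit 8968) (XT.nd (nat_lit 858) (nat_lit 0) (nat_lit 0) (XT.nd (nat_lit 390) (nat_lit 152) (nat_lit 0) (XT.nd (nat_lit 156) (nat_lit 76) (nat_lit 0) (XT.nd (nat_lit 78) (nat_lit 0) (nat_lit 0) (XT.lf (nat_lit 0) (nat_lit 45269253514) (nat_lit 152) (nat_lit 9352864153) (nat_lit 0) (nat_lit 4593673304) (nat_lit 8) (nat_lit 5) (nat_lit 10) (nat_lit 4) (nat_lit 8) (nat_lit 4) (nat_lit 384) (nat_lit 257) (nat_lit 139)) (XT.lf (nat_lit 0) (nat_lit 49960172481) (nat_lit 152) (nat_lit 1643044819) (nat_lit 0) (nat_lit 9247240943) (nat_lit 8) (nat_lit 5) (nat_lit 10) (nat_lit 4) (nat_lit 8) (nat_lit 4) (nat_lit 385) (nat_lit 257) (nat_lit 138))) (XT.nd (nat_lit 78) (nat_lit 0) (nat_lit 0) (XT.lf (nat_lit 0) (nat_lit 6409927289) (nat_lit 76) (nat_lit 48435909693) (nat_lit 76) (nat_lit 7686714730) (nat_lit 7) (nat_lit 4) (nat_lit 8)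 (nat_lit 5) (nat_lit 8) (nat_lit 4) (nat_lit 386) (nat_lit 257) (nat_lit 137)) (XT.nd (nat_lit 78) (nat_lit 0) (nat_lit 0) (XT.lf (nat_lit 0) (nat_lit 14725076428) (nat_lit 76) (nat_lit 45162083793) (nat_lit 76) (nat_lit 4377681621) (nat_lit 7) (nat_lit 4) (nat_lit 8) (nat_lit 5) (nat_lit 8) (nat_lit 4) (nat_lit 387) (nat_lit 257) (nat_lit 136)) (XT.lf (nat_lit 0) (nat_lit 23276968448) (nat_lit 76) (nat_lit 41795470506) (nat_lit 76) (nat_lit 976886578) (nat_lit 7) (nat_lit 4) (nat_lit 8) (nat_lit 5) (nat_lit 8) (nat_lit 4) (nat_lit 388) (nat_lit 257) (nat_lit 135))))) (XT.nd (nat_lit 234) (nat_lit 76) (nat_lit 0) (XT.nd (nat_lit 78) (nat_lit 0) (nat_lit 0) (XT.lf (nat_lit 0) (nat_lit 2469494189) (nat_lit 152) (nat_lit 35838696894) (nat_lit 76) (nat_lit 29578644637) (nat_lit 6) (nat_lit 5) (nat_lit 8) (nat_lit 5) (nat_lit 7) (nat_lit 4) (nat_lit 389) (nat_lit 257) (nat_lit 134)) (XT.nd (nat_lit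 78) (nat_lit 0) (nat_lit 0) (XT.lf (nat_lit 0) (nat_lit 5992692035) (nat_lit 152) (nat_lit 28718824849) (nat_lit 76) (nat_lit 35067878156) (nat_lit 6) (nat_lit 5) (nat_lit 8) (nat_lit 5) (nat_lit 7) (nat_lit 4) (nat_lit 390) (nat_lit 257) (nat_lit 133)) (XT.lf (nat_lit 0) (nat_lit 9614848058) (nat_lit 152) (nat_lit 21397129271) (nat_lit 76) (nat_lit 40716961569) (nat_lit 6) (nat_lit 5) (nat_lit 8) (nat_lit 5) (nat_lit 7) (nat_lit 4) (nat_lit 391) (nat_lit 257) (nat_lit 132)))) (XT.nd (nat_lit 78) (nat_lit 76) (nat_lit 0) (XT.lf (nat_lit 0) (nat_lit 13339127248) (nat_lit 152) (nat_lit 13867212562) (nat_lit 76) (nat_lit 46530830968) (nat_lit 6) (nat_lit 5) (nat_lit 8) (nat_lit 5) (nat_lit 7) (nat_lit 4) (nat_lit 392) (nat_lit 257) (nat_lit 131)) (XT.nd (nat_lit 78) (nat_lit 76) (nat_lit 0) (XT.lf (nat_lit 0) (nat_lit 17168783830) (nat_lit 152) (nat_lit 6122495184) (nat_lit 76) (nat_lit 52514566433)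 (nat_lit 6) (nat_lit 5) (nat_lit 8) (nat_lit 5) (nat_lit 7) (nat_lit 4) (nat_lit 393) (nat_lit 257) (nat_lit 130)) (XT.lf (nat_lit 0) (nat_lit 1880485131) (nat_lit 76) (nat_lit 19244755348) (nat_lit 152) (nat_lit 56810987714) (nat_lit 5) (nat_lit 5) (nat_lit 6) (nat_lit 5) (nat_lit 7) (nat_lit 4) (nat_lit 394) (nat_lit 257) (nat_lit 129)))))) (XT.nd (nat_lit 30576) (nat_lit 0) (nat_lit 18164) (XT.nd (nat_lit 156) (nat_lit 0) (nat_lit 0) (XT.nd (nat_lit 78) (nat_lit 0) (nat_lit 0) (XT.lf (nat_lit 0) (nat_lit 10238392005) (nat_lit 76) (nat_lit 15017735060) (nat_lit 152) (nat_lit 54872728266) (nat_lit 5) (nat_lit 5) (nat_lit 6) (nat_lit 5) (nat_lit 7) (nat_lit 4) (nat_lit 395) (nat_lit 257) (nat_lit 128)) (XT.lf (nat_lit 0) (nat_lit 18836678806) (nat_lit 76) (nat_lit 10668349833) (nat_lit 152) (nat_lit 52882414847) (nat_lit 5) (nat_lit 5) (nat_lit 6) (nat_lit 5) (nat_lit 7) (nat_lit 4) (nat_lit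 396) (nat_lit 257) (nat_lit 127))) (XT.nd (nat_lit 30264) (nat_lit 0) (nat_lit 19228) (XT.lf (nat_lit 0) (nat_lit 27682858598) (nat_lit 76) (nat_lit 6192799234) (nat_lit 152) (nat_lit 50838308346) (nat_lit 5) (nat_lit 5) (nat_lit 6) (nat_lit 5) (nat_lit 7) (nat_lit 4) (nat_lit 397) (nat_lit 257) (nat_lit 126)) (XT.nd (nat_lit 78) (nat_lit 228) (nat_lit 0) (XT.lf (nat_lit 0) (nat_lit 2615070032) (nat_lit 76) (nat_lit 307601569) (nat_lit 76) (nat_lit 307601569) (nat_lit 261) (nat_lit 4) (nat_lit 262) (nat_lit 5) (nat_lit 262) (nat_lit 4) (nat_lit 264) (nat_lit 258) (nat_lit 258)) (XT.lf (nat_lit 0) (nat_lit 1828748674) (nat_lit 152) (nat_lit 332584553) (nat_lit 228) (nat_lit 4309850160) (nat_lit 258) (nat_lit 5) (nat_lit 260) (nat_lit 5) (nat_lit 261) (nat_lit 4) (nat_lit 265) (nat_lit 258) (nat_lit 257))))) (XT.nd (nat_lit 234) (nat_lit 760) (nat_lit 0) (XT.nd (nat_lit 78) (nat_lit 304) (nat_lit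 0) (XT.lf (nat_lit 0) (nat_lit 4917443437) (nat_lit 228) (nat_lit 1546362861) (nat_lit 0) (nat_lit 21337972) (nat_lit 258) (nat_lit 5) (nat_lit 261) (nat_lit 4) (nat_lit 258) (nat_lit 4) (nat_lit 266) (nat_lit 258) (nat_lit 256)) (XT.nd (nat_lit 78) (nat_lit 0) (nat_lit 0) (XT.lf (nat_lit 0) (nat_lit 1149222363) (nat_lit 304) (nat_lit 4904809905) (nat_lit 76) (nat_lit 448039430) (nat_lit 254) (nat_lit 5) (nat_lit 258) (nat_lit 5) (nat_lit 255) (nat_lit 4) (nat_lit 267) (nat_lit 258) (nat_lit 255)) (XT.lf (nat_lit 0) (nat_lit 3832376185) (nat_lit 304) (nat_lit 1731430791) (nat_lit 76) (nat_lit 958156186) (nat_lit 254) (nat_lit 5) (nat_lit 258) (nat_lit 5) (nat_lit 255) (nat_lit 4) (nat_lit 268) (nat_lit 258) (nat_lit 254)))) (XT.nd (nat_lit 78) (nat_lit 456) (nat_lit 0) (XT.lf (nat_lit 0) (nat_lit 1504755603) (nat_lit 304) (nat_lit 5009095128) (nat_lit 380) (nat_lit 31462777) (nat_lit 250) (nat_lit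 5) (nat_lit 254) (nat_lit 5) (nat_lit 255) (nat_lit 4) (nat_lit 269) (nat_lit 258) (nat_lit 253)) (XT.nd (nat_lit 78) (nat_lit 380) (nat_lit 0) (XT.lf (nat_lit 0) (nat_lit 2575526353) (nat_lit 380) (nat_lit 1784939423) (nat_lit 76) (nat_lit 2210834273) (nat_lit 249) (nat_lit 5) (nat_lit 254) (nat_lit 5) (nat_lit 250) (nat_lit 5) (nat_lit 270) (nat_lit 258) (nat_lit 252)) (XT.lf (nat_lit 0) (nat_lit 1536433897) (nat_lit 380) (nat_lit 3645491871) (nat_lit 456) (nat_lit 1418839325) (nat_lit 244) (nat_lit 5) (nat_lit 249) (nat_lit 5) (nat_lit 250) (nat_lit 5) (nat_lit 271) (nat_lit 258) (nat_lit 251))))))) (XT.nd (nat_lit 858) (nat_lit 5016) (nat_lit 0) (XT.nd (nat_lit 390) (nat_lit 3040) (nat_lit 0) (XT.nd (nat_lit 156) (nat_lit 608) (nat_lit 0) (XT.nd (nat_lit 78) (nat_lit 456) (nat_lit 0) (XT.lf (nat_lit 0) (nat_lit 1137438358) (nat_lit 456) (nat_lit 1711743716) (nat_lit 76) (nat_lit 3784133867)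 (nat_lit 243) (nat_lit 5) (nat_lit 249) (nat_lit 5) (nat_lit 244) (nat_lit 5) (nat_lit 272) (nat_lit 258) (nat_lit 250)) (XT.lf (nat_lit 0) (nat_lit 1699216378) (nat_lit 456) (nat_lit 1969625605) (nat_lit 532) (nat_lit 3000103666) (nat_lit 237) (nat_lit 5) (nat_lit 243) (nat_lit 5) (nat_lit 244) (nat_lit 5) (nat_lit 273) (nat_lit 258) (nat_lit 249))) (XT.nd (nat_lit 78) (nat_lit 608) (nat_lit 0) (XT.lf (nat_lit 0) (nat_lit 5186880542) (nat_lit 456) (nat_lit 1019233052) (nat_lit 532) (nat_lit 501955612) (nat_lit 237) (nat_lit 5) (nat_lit 243) (nat_lit 5) (nat_lit 244) (nat_lit 5) (nat_lit 274) (nat_lit 258) (nat_lit 248)) (XT.nd (nat_lit 78) (nat_lit 0) (nat_lit 0) (XT.lf (nat_lit 0) (nat_lit 1964115748) (nat_lit 608) (nat_lit 4761571547) (nat_lit 76) (nat_lit 24384288) (nat_lit 229) (nat_lit 5) (nat_lit 237) (nat_lit 5) (nat_lit 230) (nat_lit 5) (nat_lit 275) (nat_lit 258) (nat_lit 247)) (XT.lf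 (nat_lit 0) (nat_lit 4435874151) (nat_lit 608) (nat_lit 1236831178) (nat_lit 76) (nat_lit 1122521143) (nat_lit 229) (nat_lit 5) (nat_lit 237) (nat_lit 5) (nat_lit 230) (nat_lit 5) (nat_lit 276) (nat_lit 258) (nat_lit 246))))) (XT.nd (nat_lit 234) (nat_lit 1672) (nat_lit 0) (XT.nd (nat_lit 78) (nat_lit 684) (nat_lit 0) (XT.lf (nat_lit 0) (nat_lit 77949926) (nat_lit 684) (nat_lit 4466037651) (nat_lit 76) (nat_lit 2299767434) (nat_lit 220) (nat_lit 5) (nat_lit 229) (nat_lit 5) (nat_lit 221) (nat_lit 5) (nat_lit 277) (nat_lit 258) (nat_lit 245)) (XT.nd (nat_lit 78) (nat_lit 684) (nat_lit 0) (XT.lf (nat_lit 0) (nat_lit 2472917201) (nat_lit 684) (nat_lit 853623990) (nat_lit 76) (nat_lit 3568808705) (nat_lit 220) (nat_lit 5) (nat_lit 229) (nat_lit 5) (nat_lit 221) (nat_lit 5) (nat_lit 278) (nat_lit 258) (nat_lit 244)) (XT.lf (nat_lit 0) (nat_lit 2862008357) (nat_lit 684) (nat_lit 2026938819) (nat_lit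 760) (nat_lit 2061331454) (nat_lit 211) (nat_lit 5) (nat_lit 220) (nat_lit 5) (nat_lit 221) (nat_lit 5) (nat_lit 279) (nat_lit 258) (nat_lit 243)))) (XT.nd (nat_lit 78) (nat_lit 1596) (nat_lit 0) (XT.lf (nat_lit 0) (nat_lit 294470293) (nat_lit 760) (nat_lit 365831926) (nat_lit 76) (nat_lit 6348760506) (nat_lit 210) (nat_lit 5) (nat_lit 220) (nat_lit 5) (nat_lit 211) (nat_lit 5) (nat_lit 280) (nat_lit 258) (nat_lit 242)) (XT.nd (nat_lit 78) (nat_lit 836) (nat_lit 0) (XT.lf (nat_lit 0) (nat_lit 2645238918) (nat_lit 836) (nat_lit 3623456927) (nat_lit 76) (nat_lit 801570660) (nat_lit 200) (nat_lit 5) (nat_lit 211) (nat_lit 5) (nat_lit 201) (nat_lit 5) (nat_lit 281) (nat_lit 258) (nat_lit 241)) (XT.lf (nat_lit 0) (nat_lit 182754974) (nat_lit 836) (nat_lit 4822208862) (nat_lit 912) (nat_lit 2130422716) (nat_lit 189) (nat_lit 5) (nat_lit 200) (nat_lit 5) (nat_lit 201) (nat_lit 5) (nat_lit 282) (nat_lit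 258) (nat_lit 240)))))) (XT.nd (nat_lit 468) (nat_lit 1900) (nat_lit 0) (XT.nd (nat_lit 234) (nat_lit 2128) (nat_lit 0) (XT.nd (nat_lit 78) (nat_lit 912) (nat_lit 0) (XT.lf (nat_lit 0) (nat_lit 192447948) (nat_lit 912) (nat_lit 3089965811) (nat_lit 76) (nat_lit 3921279769) (nat_lit 188) (nat_lit 5) (nat_lit 200) (nat_lit 5) (nat_lit 189) (nat_lit 5) (nat_lit 283) (nat_lit 258) (nat_lit 239)) (XT.nd (nat_lit 78) (nat_lit 0) (nat_lit 0) (XT.lf (nat_lit 0) (nat_lit 821941554) (nat_lit 912) (nat_lit 1657292978) (nat_lit 988) (nat_lit 4796284273) (nat_lit 176) (nat_lit 5) (nat_lit 188) (nat_lit 5) (nat_lit 189) (nat_lit 5) (nat_lit 284) (nat_lit 258) (nat_lit 238)) (XT.lf (nat_lit 0) (nat_lit 4797001975) (nat_lit 988) (nat_lit 2497833103) (nat_lit 76) (nat_lit 55999597) (nat_lit 176) (nat_lit 5) (nat_lit 189) (nat_lit 5) (nat_lit 177) (nat_lit 5) (nat_lit 285) (nat_lit 258) (nat_lit 237)))) (XT.nd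 (nat_lit 78) (nat_lit 1140) (nat_lit 0) (XT.lf (nat_lit 0) (nat_lit 1528496708) (nat_lit 988) (nat_lit 5619632015) (nat_lit 1064) (nat_lit 281567627) (nat_lit 163) (nat_lit 5) (nat_lit 176) (nat_lit 5) (nat_lit 177) (nat_lit 5) (nat_lit 286) (nat_lit 258) (nat_lit 236)) (XT.nd (nat_lit 78) (nat_lit 1064) (nat_lit 0) (XT.lf (nat_lit 0) (nat_lit 1977417186) (nat_lit 1064) (nat_lit 1865807690) (nat_lit 76) (nat_lit 3668533010) (nat_lit 162) (nat_lit 5) (nat_lit 176) (nat_lit 5) (nat_lit 163) (nat_lit 5) (nat_lit 287) (nat_lit 258) (nat_lit 235)) (XT.lf (nat_lit 0) (nat_lit 2271583792) (nat_lit 1064) (nat_lit 1983963127) (nat_lit 1140) (nat_lit 3342123729) (nat_lit 148) (nat_lit 5) (nat_lit 162) (nat_lit 5) (nat_lit 163) (nat_lit 5) (nat_lit 288) (nat_lit 258) (nat_lit 234))))) (XT.nd (nat_lit 234) (nat_lit 1140) (nat_lit 0) (XT.nd (nat_lit 78) (nat_lit 760) (nat_lit 0) (XT.lf (nat_lit 0) (nat_lit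 6511337168) (nat_lit 1064) (nat_lit 46033720) (nat_lit 1140) (nat_lit 1130308086) (nat_lit 148) (nat_lit 5) (nat_lit 162) (nat_lit 5) (nat_lit 163) (nat_lit 5) (nat_lit 289) (nat_lit 258) (nat_lit 233)) (XT.nd (nat_lit 78) (nat_lit 0) (nat_lit 0) (XT.lf (nat_lit 0) (nat_lit 1111894086) (nat_lit 760) (nat_lit 4712943090) (nat_lit 76) (nat_lit 1955794859) (nat_lit 138) (nat_lit 5) (nat_lit 148) (nat_lit 5) (nat_lit 139) (nat_lit 5) (nat_lit 290) (nat_lit 258) (nat_lit 232)) (XT.lf (nat_lit 0) (nat_lit 3349944768) (nat_lit 760) (nat_lit 485731197) (nat_lit 76) (nat_lit 4041986498) (nat_lit 138) (nat_lit 5) (nat_lit 148) (nat_lit 5) (nat_lit 139) (nat_lit 5) (nat_lit 291) (nat_lit 258) (nat_lit 231)))) (XT.nd (nat_lit 78) (nat_lit 608) (nat_lit 0) (XT.lf (nat_lit 0) (nat_lit 3884779017) (nat_lit 532) (nat_lit 1748330322) (nat_lit 608) (nat_lit 2345314059) (nat_lit 131) (nat_lit 5) (nat_lit 138)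 (nat_lit 5) (nat_lit 139) (nat_lit 5) (nat_lit 292) (nat_lit 258) (nat_lit 230)) (XT.nd (nat_lit 78) (nat_lit 76) (nat_lit 0) (XT.lf (nat_lit 0) (nat_lit 254725194) (nat_lit 532) (nat_lit 7683095402) (nat_lit 608) (nat_lit 145949153) (nat_lit 124) (nat_lit 5) (nat_lit 131) (nat_lit 5) (nat_lit 132) (nat_lit 5) (nat_lit 293) (nat_lit 258) (nat_lit 229)) (XT.lf (nat_lit 0) (nat_lit 2079292103) (nat_lit 608) (nat_lit 3473006080) (nat_lit 76) (nat_lit 2639474838) (nat_lit 123) (nat_lit 5) (nat_lit 131) (nat_lit 5) (nat_lit 124) (nat_lit 5) (nat_lit 294) (nat_lit 258) (nat_lit 228))))))))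
noncomputable def xc105 : XT := (XT.nd (nat_lit 1716) (nat_lit 2584) (nat_lit 0) (XT.nd (nat_lit 858) (nat_lit 1824) (nat_lit 0) (XT.nd (nat_lit 390) (nat_lit 1368) (nat_lit 0) (XT.nd (nat_lit 156) (nat_lit 988) (nat_lit 0) (XT.nd (nat_lit 78) (nat_lit 0) (nat_lit 0) (XT.lf (nat_lit 0) (nat_lit 971677146) (nat_lit 456) (nat_lit 3349899209) (nat_lit 532) (nat_lit 3982941168) (nat_lit 117) (nat_lit 5) (nat_lit 123) (nat_lit 5) (nat_lit 124) (nat_lit 5) (nat_lit 295) (nat_lit 258) (nat_lit 227)) (XT.lf (nat_lit 0) (nat_lit 5561925652) (nat_lit 456) (nat_lit 1049220627) (nat_lit 532) (nat_lit 1810234520) (nat_lit 117) (nat_lit 5) (nat_lit 123) (nat_lit 5) (nat_lit 124) (nat_lit 5) (nat_lit 296) (nat_lit 258) (nat_lit 226))) (XT.nd (nat_lit 78) (nat_lit 456) (nat_lit 0) (XT.lf (nat_lit 0) (nat_lit 394579693) (nat_lit 532) (nat_lit 6836629124) (nat_lit 76) (nat_lit 1311288777) (nat_lit 110) (nat_lit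 5) (nat_lit 117) (nat_lit 5) (nat_lit 111) (nat_lit 5) (nat_lit 297) (nat_lit 258) (nat_lit 225)) (XT.nd (nat_lit 78) (nat_lit 456) (nat_lit 0) (XT.lf (nat_lit 0) (nat_lit 2615567536) (nat_lit 532) (nat_lit 2287766873) (nat_lit 76) (nat_lit 3763908726) (nat_lit 110) (nat_lit 5) (nat_lit 117) (nat_lit 5) (nat_lit 111) (nat_lit 5) (nat_lit 298) (nat_lit 258) (nat_lit 224)) (XT.lf (nat_lit 0) (nat_lit 2386305570) (nat_lit 456) (nat_lit 2488229746) (nat_lit 532) (nat_lit 3922176898) (nat_lit 104) (nat_lit 5) (nat_lit 110) (nat_lit 5) (nat_lit 111) (nat_lit 5) (nat_lit 299) (nat_lit 258) (nat_lit 223))))) (XT.nd (nat_lit 234) (nat_lit 836) (nat_lit 0) (XT.nd (nat_lit 78) (nat_lit 532) (nat_lit 0) (XT.lf (nat_lit 0) (nat_lit 7173896628) (nat_lit 532) (nat_lit 1740925234) (nat_lit 76) (nat_lit 16182904) (nat_lit 104) (nat_lit 5) (nat_lit 111) (nat_lit 5) (nat_lit 105) (nat_lit 5) (nat_lit 300) (nat_lit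 258) (nat_lit 222)) (XT.nd (nat_lit 78) (nat_lit 0) (nat_lit 0) (XT.lf (nat_lit 0) (nat_lit 468314626) (nat_lit 532) (nat_lit 6027555960) (nat_lit 76) (nat_lit 2573291580) (nat_lit 97) (nat_lit 5) (nat_lit 104) (nat_lit 5) (nat_lit 98) (nat_lit 5) (nat_lit 301) (nat_lit 258) (nat_lit 221)) (XT.lf (nat_lit 0) (nat_lit 2694017206) (nat_lit 532) (nat_lit 1282843380) (nat_lit 76) (nat_lit 5235124901) (nat_lit 97) (nat_lit 5) (nat_lit 104) (nat_lit 5) (nat_lit 98) (nat_lit 5) (nat_lit 302) (nat_lit 258) (nat_lit 220)))) (XT.nd (nat_lit 78) (nat_lit 456) (nat_lit 0) (XT.lf (nat_lit 0) (nat_lit 3618870322) (nat_lit 380) (nat_lit 1354911486) (nat_lit 456) (nat_lit 4385797933) (nat_lit 92) (nat_lit 5) (nat_lit 97) (nat_lit 5) (nat_lit 98) (nat_lit 5) (nat_lit 303) (nat_lit 258) (nat_lit 219)) (XT.nd (nat_lit 78) (nat_lit 456) (nat_lit 0) (XT.lf (nat_lit 0) (nat_lit 7301228125) (nat_lit 456) (nat_lit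 887170505) (nat_lit 76) (nat_lit 1323926435) (nat_lit 92) (nat_lit 5) (nat_lit 98) (nat_lit 5) (nat_lit 93) (nat_lit 5) (nat_lit 304) (nat_lit 258) (nat_lit 218)) (XT.lf (nat_lit 0) (nat_lit 35949061) (nat_lit 456) (nat_lit 5546013256) (nat_lit 76) (nat_lit 4087548162) (nat_lit 86) (nat_lit 5) (nat_lit 92) (nat_lit 5) (nat_lit 87) (nat_lit 5) (nat_lit 305) (nat_lit 258) (nat_lit 217)))))) (XT.nd (nat_lit 390) (nat_lit 988) (nat_lit 0) (XT.nd (nat_lit 156) (nat_lit 456) (nat_lit 0) (XT.nd (nat_lit 78) (nat_lit 380) (nat_lit 0) (XT.lf (nat_lit 0) (nat_lit 2269905456) (nat_lit 456) (nat_lit 606073170) (nat_lit 76) (nat_lit 6955951130) (nat_lit 86) (nat_lit 5) (nat_lit 92) (nat_lit 5) (nat_lit 87) (nat_lit 5) (nat_lit 306) (nat_lit 258) (nat_lit 216)) (XT.lf (nat_lit 0) (nat_lit 4516191469) (nat_lit 380) (nat_lit 54307771) (nat_lit 456) (nat_lit 5428824351) (nat_lit 81) (nat_lit 5) (nat_lit 86)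 (nat_lit 5) (nat_lit 87) (nat_lit 5) (nat_lit 307) (nat_lit 258) (nat_lit 215))) (XT.nd (nat_lit 78) (nat_lit 456) (nat_lit 0) (XT.lf (nat_lit 0) (nat_lit 6930574379) (nat_lit 456) (nat_lit 449233487) (nat_lit 76) (nat_lit 2792305374) (nat_lit 81) (nat_lit 5) (nat_lit 87) (nat_lit 5) (nat_lit 82) (nat_lit 5) (nat_lit 308) (nat_lit 258) (nat_lit 214)) (XT.nd (nat_lit 78) (nat_lit 76) (nat_lit 0) (XT.lf (nat_lit 0) (nat_lit 4775169918) (nat_lit 380) (nat_lit 4590845193) (nat_lit 456) (nat_lit 984019910) (nat_lit 76) (nat_lit 5) (nat_lit 81) (nat_lit 5) (nat_lit 82) (nat_lit 5) (nat_lit 309) (nat_lit 258) (nat_lit 213)) (XT.lf (nat_lit 0) (nat_lit 1277982516) (nat_lit 456) (nat_lit 434125190) (nat_lit 76) (nat_lit 8821992514) (nat_lit 75) (nat_lit 5) (nat_lit 81) (nat_lit 5) (nat_lit 76) (nat_lit 5) (nat_lit 310) (nat_lit 258) (nat_lit 212))))) (XT.nd (nat_lit 234) (nat_lit 380) (nat_lit 0) (XT.nd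 (nat_lit 78) (nat_lit 304) (nat_lit 0) (XT.lf (nat_lit 0) (nat_lit 3607175016) (nat_lit 380) (nat_lit 5841148817) (nat_lit 76) (nat_lit 1274576125) (nat_lit 71) (nat_lit 5) (nat_lit 76) (nat_lit 5) (nat_lit 72) (nat_lit 5) (nat_lit 311) (nat_lit 258) (nat_lit 211)) (XT.nd (nat_lit 78) (nat_lit 304) (nat_lit 0) (XT.lf (nat_lit 0) (nat_lit 5987754307) (nat_lit 380) (nat_lit 620854407) (nat_lit 76) (nat_lit 4309385471) (nat_lit 71) (nat_lit 5) (nat_lit 76) (nat_lit 5) (nat_lit 72) (nat_lit 5) (nat_lit 312) (nat_lit 258) (nat_lit 210)) (XT.lf (nat_lit 0) (nat_lit 4798589343) (nat_lit 304) (nat_lit 3648582042) (nat_lit 380) (nat_lit 2671620859) (nat_lit 67) (nat_lit 5) (nat_lit 71) (nat_lit 5) (nat_lit 72) (nat_lit 5) (nat_lit 313) (nat_lit 258) (nat_lit 209)))) (XT.nd (nat_lit 78) (nat_lit 380) (nat_lit 0) (XT.lf (nat_lit 0) (nat_lit 10342747013) (nat_lit 304) (nat_lit 605827821) (nat_lit 380) (nat_lit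 378064769) (nat_lit 67) (nat_lit 5) (nat_lit 71) (nat_lit 5) (nat_lit 72) (nat_lit 5) (nat_lit 314) (nat_lit 258) (nat_lit 208)) (XT.nd (nat_lit 78) (nat_lit 0) (nat_lit 0) (XT.lf (nat_lit 0) (nat_lit 1976552413) (nat_lit 380) (nat_lit 7032901701) (nat_lit 76) (nat_lit 2529834156) (nat_lit 62) (nat_lit 5) (nat_lit 67) (nat_lit 5) (nat_lit 63) (nat_lit 5) (nat_lit 315) (nat_lit 258) (nat_lit 207)) (XT.lf (nat_lit 0) (nat_lit 4373342632) (nat_lit 380) (nat_lit 1636806821) (nat_lit 76) (nat_lit 5748746058) (nat_lit 62) (nat_lit 5) (nat_lit 67) (nat_lit 5) (nat_lit 63) (nat_lit 5) (nat_lit 316) (nat_lit 258) (nat_lit 206))))))) (XT.nd (nat_lit 858) (nat_lit 1140) (nat_lit 0) (XT.nd (nat_lit 390) (nat_lit 532) (nat_lit 0) (XT.nd (nat_lit 156) (nat_lit 608) (nat_lit 0) (XT.nd (nat_lit 78) (nat_lit 0) (nat_lit 0) (XT.lf (nat_lit 0) (nat_lit 3949213364) (nat_lit 304) (nat_lit 2894961366) (nat_lit 380)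 (nat_lit 5140915598) (nat_lit 58) (nat_lit 5) (nat_lit 62) (nat_lit 5) (nat_lit 63) (nat_lit 5) (nat_lit 317) (nat_lit 258) (nat_lit 205)) (XT.lf (nat_lit 0) (nat_lit 9373464247) (nat_lit 380) (nat_lit 2533918608) (nat_lit 76) (nat_lit 311219815) (nat_lit 58) (nat_lit 5) (nat_lit 63) (nat_lit 5) (nat_lit 59) (nat_lit 5) (nat_lit 318) (nat_lit 258) (nat_lit 204))) (XT.nd (nat_lit 78) (nat_lit 380) (nat_lit 0) (XT.lf (nat_lit 0) (nat_lit 3117173862) (nat_lit 228) (nat_lit 8885741051) (nat_lit 304) (nat_lit 455536854) (nat_lit 55) (nat_lit 5) (nat_lit 58) (nat_lit 5) (nat_lit 59) (nat_lit 5) (nat_lit 319) (nat_lit 258) (nat_lit 203)) (XT.nd (nat_lit 78) (nat_lit 304) (nat_lit 0) (XT.lf (nat_lit 0) (nat_lit 1958260501) (nat_lit 304) (nat_lit 3782875047) (nat_lit 76) (nat_lit 6964089379) (nat_lit 54) (nat_lit 5) (nat_lit 58) (nat_lit 5) (nat_lit 55) (nat_lit 5) (nat_lit 320) (nat_lit 258) (nat_lit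 202)) (XT.lf (nat_lit 0) (nat_lit 1928454682) (nat_lit 304) (nat_lit 2492200923) (nat_lit 380) (nat_lit 8539104958) (nat_lit 50) (nat_lit 5) (nat_lit 54) (nat_lit 5) (nat_lit 55) (nat_lit 5) (nat_lit 321) (nat_lit 258) (nat_lit 201))))) (XT.nd (nat_lit 234) (nat_lit 304) (nat_lit 0) (XT.nd (nat_lit 78) (nat_lit 228) (nat_lit 0) (XT.lf (nat_lit 0) (nat_lit 6970901034) (nat_lit 380) (nat_lit 5388092644) (nat_lit 76) (nat_lit 862572419) (nat_lit 50) (nat_lit 5) (nat_lit 55) (nat_lit 5) (nat_lit 51) (nat_lit 5) (nat_lit 322) (nat_lit 258) (nat_lit 200)) (XT.nd (nat_lit 78) (nat_lit 0) (nat_lit 0) (XT.lf (nat_lit 0) (nat_lit 360775377) (nat_lit 228) (nat_lit 9233166871) (nat_lit 304) (nat_lit 3897446531) (nat_lit 47) (nat_lit 5) (nat_lit 50) (nat_lit 5) (nat_lit 51) (nat_lit 5) (nat_lit 323) (nat_lit 258) (nat_lit 199)) (XT.lf (nat_lit 0) (nat_lit 6347004716) (nat_lit 228) (nat_lit 5971714230) (nat_lit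 304) (nat_lit 1449945999) (nat_lit 47) (nat_lit 5) (nat_lit 50) (nat_lit 5) (nat_lit 51) (nat_lit 5) (nat_lit 324) (nat_lit 258) (nat_lit 198)))) (XT.nd (nat_lit 78) (nat_lit 228) (nat_lit 0) (XT.lf (nat_lit 0) (nat_lit 1019280279) (nat_lit 304) (nat_lit 1596622101) (nat_lit 76) (nat_lit 11439019439) (nat_lit 46) (nat_lit 5) (nat_lit 50) (nat_lit 5) (nat_lit 47) (nat_lit 5) (nat_lit 325) (nat_lit 258) (nat_lit 197)) (XT.nd (nat_lit 78) (nat_lit 0) (nat_lit 0) (XT.lf (nat_lit 0) (nat_lit 3554650314) (nat_lit 304) (nat_lit 9925804770) (nat_lit 76) (nat_lit 868290231) (nat_lit 43) (nat_lit 5) (nat_lit 47) (nat_lit 5) (nat_lit 44) (nat_lit 5) (nat_lit 326) (nat_lit 258) (nat_lit 196)) (XT.lf (nat_lit 0) (nat_lit 6178684757) (nat_lit 304) (nat_lit 4065090457) (nat_lit 76) (nat_lit 4407274743) (nat_lit 43) (nat_lit 5) (nat_lit 47) (nat_lit 5) (nat_lit 44) (nat_lit 5) (nat_lit 327) (nat_lit 258) (nat_lit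 195)))))) (XT.nd (nat_lit 468) (nat_lit 456) (nat_lit 0) (XT.nd (nat_lit 234) (nat_lit 456) (nat_lit 0) (XT.nd (nat_lit 78) (nat_lit 0) (nat_lit 0) (XT.lf (nat_lit 0) (nat_lit 1967161569) (nat_lit 228) (nat_lit 6904470651) (nat_lit 304) (nat_lit 6091129002) (nat_lit 40) (nat_lit 5) (nat_lit 43) (nat_lit 5) (nat_lit 44) (nat_lit 5) (nat_lit 328) (nat_lit 258) (nat_lit 194)) (XT.nd (nat_lit 78) (nat_lit 0) (nat_lit 0) (XT.lf (nat_lit 0) (nat_lit 8221459736) (nat_lit 228) (nat_lit 3436670524) (nat_lit 304) (nat_lit 3625352683) (nat_lit 40) (nat_lit 5) (nat_lit 43) (nat_lit 5) (nat_lit 44) (nat_lit 5) (nat_lit 329) (nat_lit 258) (nat_lit 193)) (XT.lf (nat_lit 0) (nat_lit 14501928805) (nat_lit 304) (nat_lit 993494235) (nat_lit 76) (nat_lit 119232870) (nat_lit 40) (nat_lit 5) (nat_lit 44) (nat_lit 5) (nat_lit 41) (nat_lit 5) (nat_lit 330) (nat_lit 258) (nat_lit 192)))) (XT.nd (nat_lit 78) (nat_lit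 152) (nat_lit 0) (XT.lf (nat_lit 0) (nat_lit 1505070667) (nat_lit 304) (nat_lit 10683150612) (nat_lit 76) (nat_lit 3765398329) (nat_lit 36) (nat_lit 5) (nat_lit 40) (nat_lit 5) (nat_lit 37) (nat_lit 5) (nat_lit 331) (nat_lit 258) (nat_lit 191)) (XT.nd (nat_lit 78) (nat_lit 152) (nat_lit 0) (XT.lf (nat_lit 0) (nat_lit 4162474732) (nat_lit 304) (nat_lit 4611561336) (nat_lit 76) (nat_lit 7528919823) (nat_lit 36) (nat_lit 5) (nat_lit 40) (nat_lit 5) (nat_lit 37) (nat_lit 5) (nat_lit 332) (nat_lit 258) (nat_lit 190)) (XT.lf (nat_lit 0) (nat_lit 1634546808) (nat_lit 152) (nat_lit 5254849283) (nat_lit 228) (nat_lit 9773718533) (nat_lit 34) (nat_lit 5) (nat_lit 36) (nat_lit 5) (nat_lit 37) (nat_lit 5) (nat_lit 333) (nat_lit 258) (nat_lit 189))))) (XT.nd (nat_lit 234) (nat_lit 228) (nat_lit 0) (XT.nd (nat_lit 78) (nat_lit 228) (nat_lit 0) (XT.lf (nat_lit 0) (nat_lit 8123433478) (nat_lit 152) (nat_lit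 1595720907) (nat_lit 228) (nat_lit 7314328016) (nat_lit 34) (nat_lit 5) (nat_lit 36) (nat_lit 5) (nat_lit 37) (nat_lit 5) (nat_lit 334) (nat_lit 258) (nat_lit 188)) (XT.nd (nat_lit 78) (nat_lit 228) (nat_lit 0) (XT.lf (nat_lit 0) (nat_lit 12629773868) (nat_lit 228) (nat_lit 2667512761) (nat_lit 76) (nat_lit 2117829664) (nat_lit 34) (nat_lit 5) (nat_lit 37) (nat_lit 5) (nat_lit 35) (nat_lit 5) (nat_lit 335) (nat_lit 258) (nat_lit 187)) (XT.lf (nat_lit 0) (nat_lit 3782793525) (nat_lit 228) (nat_lit 11872884513) (nat_lit 304) (nat_lit 2151715326) (nat_lit 31) (nat_lit 5) (nat_lit 34) (nat_lit 5) (nat_lit 35) (nat_lit 5) (nat_lit 336) (nat_lit 258) (nat_lit 186)))) (XT.nd (nat_lit 78) (nat_lit 152) (nat_lit 0) (XT.lf (nat_lit 0) (nat_lit 553062619) (nat_lit 304) (nat_lit 7772664849) (nat_lit 76) (nat_lit 9885488129) (nat_lit 30) (nat_lit 5) (nat_lit 34) (nat_lit 5) (nat_lit 31) (nat_lit 5) (nat_lit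 337) (nat_lit 258) (nat_lit 185)) (XT.nd (nat_lit 78) (nat_lit 152) (nat_lit 0) (XT.lf (nat_lit 0) (nat_lit 3272323220) (nat_lit 304) (nat_lit 1391044845) (nat_lit 76) (nat_lit 13963878041) (nat_lit 30) (nat_lit 5) (nat_lit 34) (nat_lit 5) (nat_lit 31) (nat_lit 5) (nat_lit 338) (nat_lit 258) (nat_lit 184)) (XT.lf (nat_lit 0) (nat_lit 5248945788) (nat_lit 152) (nat_lit 851940535) (nat_lit 228) (nat_lit 12954068913) (nat_lit 28) (nat_lit 5) (nat_lit 30) (nat_lit 5) (nat_lit 31) (nat_lit 5) (nat_lit 339) (nat_lit 258) (nat_lit 183))))))))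
noncomputable def xc106 : XT := (XT.nd (nat_lit 1716) (nat_lit 608) (nat_lit 0) (XT.nd (nat_lit 858) (nat_lit 380) (nat_lit 0) (XT.nd (nat_lit 390) (nat_lit 304) (nat_lit 0) (XT.nd (nat_lit 156) (nat_lit 228) (nat_lit 0) (XT.nd (nat_lit 78) (nat_lit 0) (nat_lit 0) (XT.lf (nat_lit 0) (nat_lit 9035509957) (nat_lit 228) (nat_lit 7443843641) (nat_lit 76) (nat_lit 3015534521) (nat_lit 28) (nat_lit 5) (nat_lit 31) (nat_lit 5) (nat_lit 29) (nat_lit 5) (nat_lit 340) (nat_lit 258) (nat_lit 182)) (XT.lf (nat_lit 0) (nat_lit 12044733764) (nat_lit 228) (nat_lit 933941109) (nat_lit 76) (nat_lit 6969775027) (nat_lit 28) (nat_lit 5) (nat_lit 31) (nat_lit 5) (nat_lit 29) (nat_lit 5) (nat_lit 341) (nat_lit 258) (nat_lit 181))) (XT.nd (nat_lit 78) (nat_lit 76) (nat_lit 0) (XT.lf (nat_lit 0) (nat_lit 5851764791) (nat_lit 152) (nat_lit 9327483740) (nat_lit 228) (nat_lit 5235346524) (nat_lit 26) (nat_lit 5) (nat_lit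 28) (nat_lit 5) (nat_lit 29) (nat_lit 5) (nat_lit 342) (nat_lit 258) (nat_lit 180)) (XT.nd (nat_lit 78) (nat_lit 76) (nat_lit 0) (XT.lf (nat_lit 0) (nat_lit 12826834254) (nat_lit 152) (nat_lit 5569456900) (nat_lit 228) (nat_lit 2498804801) (nat_lit 26) (nat_lit 5) (nat_lit 28) (nat_lit 5) (nat_lit 29) (nat_lit 5) (nat_lit 343) (nat_lit 258) (nat_lit 179)) (XT.lf (nat_lit 0) (nat_lit 293037195) (nat_lit 228) (nat_lit 1414745317) (nat_lit 76) (nat_lit 19682778444) (nat_lit 25) (nat_lit 5) (nat_lit 28) (nat_lit 5) (nat_lit 26) (nat_lit 5) (nat_lit 344) (nat_lit 258) (nat_lit 178))))) (XT.nd (nat_lit 234) (nat_lit 152) (nat_lit 0) (XT.nd (nat_lit 78) (nat_lit 0) (nat_lit 0) (XT.lf (nat_lit 0) (nat_lit 3173688364) (nat_lit 228) (nat_lit 16432773736) (nat_lit 76) (nat_lit 2292051209) (nat_lit 23) (nat_lit 5) (nat_lit 26) (nat_lit 5) (nat_lit 24) (nat_lit 5) (nat_lit 345) (nat_lit 258) (nat_lit 177))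 (XT.nd (nat_lit 78) (nat_lit 0) (nat_lit 0) (XT.lf (nat_lit 0) (nat_lit 6152303128) (nat_lit 228) (nat_lit 9888732122) (nat_lit 76) (nat_lit 6380345906) (nat_lit 23) (nat_lit 5) (nat_lit 26) (nat_lit 5) (nat_lit 24) (nat_lit 5) (nat_lit 346) (nat_lit 258) (nat_lit 176)) (XT.lf (nat_lit 0) (nat_lit 9201060529) (nat_lit 228) (nat_lit 3179482067) (nat_lit 76) (nat_lit 10579991483) (nat_lit 23) (nat_lit 5) (nat_lit 26) (nat_lit 5) (nat_lit 24) (nat_lit 5) (nat_lit 347) (nat_lit 258) (nat_lit 175)))) (XT.nd (nat_lit 78) (nat_lit 0) (nat_lit 0) (XT.lf (nat_lit 0) (nat_lit 3774492828) (nat_lit 152) (nat_lit 8584414437) (nat_lit 228) (nat_lit 11156447439) (nat_lit 21) (nat_lit 5) (nat_lit 23) (nat_lit 5) (nat_lit 24) (nat_lit 5) (nat_lit 348) (nat_lit 258) (nat_lit 174)) (XT.nd (nat_lit 78) (nat_lit 0) (nat_lit 0) (XT.lf (nat_lit 0) (nat_lit 10972352769) (nat_lit 152) (nat_lit 4652842911) (nat_lit 228)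 (nat_lit 8461234350) (nat_lit 21) (nat_lit 5) (nat_lit 23) (nat_lit 5) (nat_lit 24) (nat_lit 5) (nat_lit 349) (nat_lit 258) (nat_lit 173)) (XT.lf (nat_lit 0) (nat_lit 18357109221) (nat_lit 152) (nat_lit 614499201) (nat_lit 228) (nat_lit 5703585779) (nat_lit 21) (nat_lit 5) (nat_lit 23) (nat_lit 5) (nat_lit 24) (nat_lit 5) (nat_lit 350) (nat_lit 258) (nat_lit 172)))))) (XT.nd (nat_lit 390) (nat_lit 76) (nat_lit 0) (XT.nd (nat_lit 156) (nat_lit 152) (nat_lit 0) (XT.nd (nat_lit 78) (nat_lit 76) (nat_lit 0) (XT.lf (nat_lit 0) (nat_lit 631401768) (nat_lit 76) (nat_lit 21809709558) (nat_lit 152) (nat_lit 2839849088) (nat_lit 20) (nat_lit 5) (nat_lit 21) (nat_lit 5) (nat_lit 22) (nat_lit 4) (nat_lit 351) (nat_lit 258) (nat_lit 171)) (XT.lf (nat_lit 0) (nat_lit 160771108) (nat_lit 152) (nat_lit 18020583354) (nat_lit 76) (nat_lit 7721938968) (nat_lit 19) (nat_lit 5) (nat_lit 21) (nat_lit 5) (nat_lit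 20) (nat_lit 5) (nat_lit 352) (nat_lit 258) (nat_lit 170))) (XT.nd (nat_lit 78) (nat_lit 152) (nat_lit 0) (XT.lf (nat_lit 0) (nat_lit 3177436503) (nat_lit 152) (nat_lit 11248733905) (nat_lit 76) (nat_lit 12117807718) (nat_lit 19) (nat_lit 5) (nat_lit 21) (nat_lit 5) (nat_lit 20) (nat_lit 5) (nat_lit 353) (nat_lit 258) (nat_lit 169)) (XT.nd (nat_lit 78) (nat_lit 152) (nat_lit 0) (XT.lf (nat_lit 0) (nat_lit 6268198699) (nat_lit 152) (nat_lit 4300794784) (nat_lit 76) (nat_lit 16635399789) (nat_lit 19) (nat_lit 5) (nat_lit 21) (nat_lit 5) (nat_lit 20) (nat_lit 5) (nat_lit 354) (nat_lit 258) (nat_lit 168)) (XT.lf (nat_lit 0) (nat_lit 2885613742) (nat_lit 152) (nat_lit 6577882906) (nat_lit 228) (nat_lit 18420787135) (nat_lit 17) (nat_lit 5) (nat_lit 19) (nat_lit 5) (nat_lit 20) (nat_lit 5) (nat_lit 355) (nat_lit 258) (nat_lit 167))))) (XT.nd (nat_lit 234) (nat_lit 76) (nat_lit 0) (XT.nd (nat_lit 78)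 (nat_lit 0) (nat_lit 0) (XT.lf (nat_lit 0) (nat_lit 10349756738) (nat_lit 152) (nat_lit 2432614722) (nat_lit 228) (nat_lit 15801384804) (nat_lit 17) (nat_lit 5) (nat_lit 19) (nat_lit 5) (nat_lit 20) (nat_lit 5) (nat_lit 356) (nat_lit 258) (nat_lit 166)) (XT.nd (nat_lit 78) (nat_lit 0) (nat_lit 0) (XT.lf (nat_lit 0) (nat_lit 16203120744) (nat_lit 228) (nat_lit 11309687100) (nat_lit 76) (nat_lit 1791352132) (nat_lit 17) (nat_lit 5) (nat_lit 20) (nat_lit 5) (nat_lit 18) (nat_lit 4) (nat_lit 357) (nat_lit 258) (nat_lit 165)) (XT.lf (nat_lit 0) (nat_lit 19735674644) (nat_lit 228) (nat_lit 4226623534) (nat_lit 76) (nat_lit 6083617988) (nat_lit 17) (nat_lit 5) (nat_lit 20) (nat_lit 5) (nat_lit 18) (nat_lit 4) (nat_lit 358) (nat_lit 258) (nat_lit 164)))) (XT.nd (nat_lit 78) (nat_lit 0) (nat_lit 0) (XT.lf (nat_lit 0) (nat_lit 3105360813) (nat_lit 76) (nat_lit 20284225891) (nat_lit 152) (nat_lit 7419892257)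 (nat_lit 16) (nat_lit 5) (nat_lit 17) (nat_lit 5) (nat_lit 18) (nat_lit 4) (nat_lit 359) (nat_lit 258) (nat_lit 163)) (XT.nd (nat_lit 78) (nat_lit 0) (nat_lit 0) (XT.lf (nat_lit 0) (nat_lit 10720015369) (nat_lit 76) (nat_lit 16461503675) (nat_lit 152) (nat_lit 4413592429) (nat_lit 16) (nat_lit 5) (nat_lit 17) (nat_lit 5) (nat_lit 18) (nat_lit 4) (nat_lit 360) (nat_lit 258) (nat_lit 162)) (XT.lf (nat_lit 0) (nat_lit 18539875619) (nat_lit 76) (nat_lit 12533471896) (nat_lit 152) (nat_lit 1331395786) (nat_lit 16) (nat_lit 5) (nat_lit 17) (nat_lit 5) (nat_lit 18) (nat_lit 4) (nat_lit 361) (nat_lit 258) (nat_lit 161))))))) (XT.nd (nat_lit 858) (nat_lit 304) (nat_lit 0) (XT.nd (nat_lit 390) (nat_lit 76) (nat_lit 0) (XT.nd (nat_lit 156) (nat_lit 0) (nat_lit 0) (XT.nd (nat_lit 78) (nat_lit 152) (nat_lit 0) (XT.lf (nat_lit 0) (nat_lit 1793692848) (nat_lit 152) (nat_lit 6684892665) (nat_lit 76) (nat_lit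 24759968821) (nat_lit 15) (nat_lit 5) (nat_lit 17) (nat_lit 5) (nat_lit 16) (nat_lit 5) (nat_lit 362) (nat_lit 258) (nat_lit 160)) (XT.lf (nat_lit 0) (nat_lit 688559382) (nat_lit 152) (nat_lit 4290625010) (nat_lit 228) (nat_lit 29118010800) (nat_lit 13) (nat_lit 5) (nat_lit 15) (nat_lit 5) (nat_lit 16) (nat_lit 5) (nat_lit 363) (nat_lit 258) (nat_lit 159))) (XT.nd (nat_lit 78) (nat_lit 0) (nat_lit 0) (XT.lf (nat_lit 0) (nat_lit 8315513189) (nat_lit 228) (nat_lit 26582487701) (nat_lit 76) (nat_lit 81949081) (nat_lit 13) (nat_lit 5) (nat_lit 16) (nat_lit 5) (nat_lit 14) (nat_lit 4) (nat_lit 364) (nat_lit 258) (nat_lit 158)) (XT.nd (nat_lit 78) (nat_lit 0) (nat_lit 0) (XT.lf (nat_lit 0) (nat_lit 11781674443) (nat_lit 228) (nat_lit 19615664825) (nat_lit 76) (nat_lit 4490968340) (nat_lit 13) (nat_lit 5) (nat_lit 16) (nat_lit 5) (nat_lit 14) (nat_lit 4) (nat_lit 365) (nat_lit 258) (nat_lit 157)) (XT.lf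 (nat_lit 0) (nat_lit 15339452729) (nat_lit 228) (nat_lit 12460835557) (nat_lit 76) (nat_lit 9024010856) (nat_lit 13) (nat_lit 5) (nat_lit 16) (nat_lit 5) (nat_lit 14) (nat_lit 4) (nat_lit 366) (nat_lit 258) (nat_lit 156))))) (XT.nd (nat_lit 234) (nat_lit 0) (nat_lit 0) (XT.nd (nat_lit 78) (nat_lit 76) (nat_lit 0) (XT.lf (nat_lit 0) (nat_lit 18991956785) (nat_lit 228) (nat_lit 5111748103) (nat_lit 76) (nat_lit 13685037539) (nat_lit 13) (nat_lit 5) (nat_lit 16) (nat_lit 5) (nat_lit 14) (nat_lit 4) (nat_lit 367) (nat_lit 258) (nat_lit 155)) (XT.nd (nat_lit 78) (nat_lit 0) (nat_lit 0) (XT.lf (nat_lit 0) (nat_lit 2486540428) (nat_lit 76) (nat_lit 20279739838) (nat_lit 152) (nat_lit 16015482851) (nat_lit 12) (nat_lit 5) (nat_lit 13) (nat_lit 5) (nat_lit 14) (nat_lit 4) (nat_lit 368) (nat_lit 258) (nat_lit 154)) (XT.lf (nat_lit 0) (nat_lit 10397964583) (nat_lit 76) (nat_lit 16295980810) (nat_lit 152)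 (nat_lit 13109436778) (nat_lit 12) (nat_lit 5) (nat_lit 13) (nat_lit 5) (nat_lit 14) (nat_lit 4) (nat_lit 369) (nat_lit 258) (nat_lit 153)))) (XT.nd (nat_lit 78) (nat_lit 0) (nat_lit 0) (XT.lf (nat_lit 0) (nat_lit 18527703446) (nat_lit 76) (nat_lit 12200565483) (nat_lit 152) (nat_lit 10127726792) (nat_lit 12) (nat_lit 5) (nat_lit 13) (nat_lit 5) (nat_lit 14) (nat_lit 4) (nat_lit 370) (nat_lit 258) (nat_lit 152)) (XT.nd (nat_lit 78) (nat_lit 0) (nat_lit 0) (XT.lf (nat_lit 0) (nat_lit 26882860672) (nat_lit 76) (nat_lit 7989915340) (nat_lit 152) (nat_lit 7067747517) (nat_lit 12) (nat_lit 5) (nat_lit 13) (nat_lit 5) (nat_lit 14) (nat_lit 4) (nat_lit 371) (nat_lit 258) (nat_lit 151)) (XT.lf (nat_lit 0) (nat_lit 35470736885) (nat_lit 76) (nat_lit 3660351170) (nat_lit 152) (nat_lit 3926825183) (nat_lit 12) (nat_lit 5) (nat_lit 13) (nat_lit 5) (nat_lit 14) (nat_lit 4) (nat_lit 372) (nat_lit 258) (nat_lit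 150)))))) (XT.nd (nat_lit 468) (nat_lit 76) (nat_lit 0) (XT.nd (nat_lit 234) (nat_lit 0) (nat_lit 0) (XT.nd (nat_lit 78) (nat_lit 76) (nat_lit 0) (XT.lf (nat_lit 0) (nat_lit 83716122) (nat_lit 152) (nat_lit 43431626847) (nat_lit 152) (nat_lit 693545728) (nat_lit 10) (nat_lit 4) (nat_lit 12) (nat_lit 5) (nat_lit 12) (nat_lit 4) (nat_lit 373) (nat_lit 258) (nat_lit 149)) (XT.nd (nat_lit 78) (nat_lit 0) (nat_lit 0) (XT.lf (nat_lit 0) (nat_lit 2688624276) (nat_lit 228) (nat_lit 37331876810) (nat_lit 76) (nat_lit 5370040925) (nat_lit 9) (nat_lit 5) (nat_lit 12) (nat_lit 5) (nat_lit 10) (nat_lit 4) (nat_lit 374) (nat_lit 258) (nat_lit 148)) (XT.lf (nat_lit 0) (nat_lit 6148347985) (nat_lit 228) (nat_lit 30358834741) (nat_lit 76) (nat_lit 10100564377) (nat_lit 9) (nat_lit 5) (nat_lit 12) (nat_lit 5) (nat_lit 10) (nat_lit 4) (nat_lit 375) (nat_lit 258) (nat_lit 147)))) (XT.nd (nat_lit 78) (nat_lit 0)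 (nat_lit 0) (XT.lf (nat_lit 0) (nat_lit 9702182033) (nat_lit 228) (nat_lit 23193286633) (nat_lit 76) (nat_lit 14966298885) (nat_lit 9) (nat_lit 5) (nat_lit 12) (nat_lit 5) (nat_lit 10) (nat_lit 4) (nat_lit 376) (nat_lit 258) (nat_lit 146)) (XT.nd (nat_lit 78) (nat_lit 0) (nat_lit 0) (XT.lf (nat_lit 0) (nat_lit 13353231713) (nat_lit 228) (nat_lit 15828971329) (nat_lit 76) (nat_lit 19971496064) (nat_lit 9) (nat_lit 5) (nat_lit 12) (nat_lit 5) (nat_lit 10) (nat_lit 4) (nat_lit 377) (nat_lit 258) (nat_lit 145)) (XT.lf (nat_lit 0) (nat_lit 17104687260) (nat_lit 228) (nat_lit 8259453990) (nat_lit 76) (nat_lit 25120529386) (nat_lit 9) (nat_lit 5) (nat_lit 12) (nat_lit 5) (nat_lit 10) (nat_lit 4) (nat_lit 378) (nat_lit 258) (nat_lit 144))))) (XT.nd (nat_lit 234) (nat_lit 0) (nat_lit 0) (XT.nd (nat_lit 78) (nat_lit 76) (nat_lit 0) (XT.lf (nat_lit 0) (nat_lit 20959826647) (nat_lit 228) (nat_lit 478120473)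 (nat_lit 76) (nat_lit 30417898007) (nat_lit 9) (nat_lit 5) (nat_lit 12) (nat_lit 5) (nat_lit 10) (nat_lit 4) (nat_lit 379) (nat_lit 258) (nat_lit 143)) (XT.nd (nat_lit 78) (nat_lit 0) (nat_lit 0) (XT.lf (nat_lit 0) (nat_lit 7671527577) (nat_lit 76) (nat_lit 17324234279) (nat_lit 152) (nat_lit 28270446533) (nat_lit 8) (nat_lit 5) (nat_lit 9) (nat_lit 5) (nat_lit 10) (nat_lit 4) (nat_lit 380) (nat_lit 258) (nat_lit 142)) (XT.lf (nat_lit 0) (nat_lit 16060786805) (nat_lit 76) (nat_lit 13088324054) (nat_lit 152) (nat_lit 25569889179) (nat_lit 8) (nat_lit 5) (nat_lit 9) (nat_lit 5) (nat_lit 10) (nat_lit 4) (nat_lit 381) (nat_lit 258) (nat_lit 141)))) (XT.nd (nat_lit 78) (nat_lit 0) (nat_lit 0) (XT.lf (nat_lit 0) (nat_lit 24687472096) (nat_lit 76) (nat_lit 8731343244) (nat_lit 152) (nat_lit 22796814787) (nat_lit 8) (nat_lit 5) (nat_lit 9) (nat_lit 5) (nat_lit 10) (nat_lit 4) (nat_lit 382) (nat_lit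 258) (nat_lit 140)) (XT.nd (nat_lit 78) (nat_lit 0) (nat_lit 0) (XT.lf (nat_lit 0) (nat_lit 33559121329) (nat_lit 76) (nat_lit 4249484778) (nat_lit 152) (nat_lit 19948800282) (nat_lit 8) (nat_lit 5) (nat_lit 9) (nat_lit 5) (nat_lit 10) (nat_lit 4) (nat_lit 383) (nat_lit 258) (nat_lit 139)) (XT.lf (nat_lit 0) (nat_lit 42325790663) (nat_lit 152) (nat_lit 16665661340) (nat_lit 0) (nat_lit 354119851) (nat_lit 8) (nat_lit 5) (nat_lit 10) (nat_lit 4) (nat_lit 8) (nat_lit 4) (nat_lit 384) (nat_lit 258) (nat_lit 138))))))))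
noncomputable def xc107 : XT := (XT.nd (nat_lit 31824) (nat_lit 0) (nat_lit 8968) (XT.nd (nat_lit 858) (nat_lit 0) (nat_lit 0) (XT.nd (nat_lit 390) (nat_lit 152) (nat_lit 0) (XT.nd (nat_lit 156) (nat_lit 76) (nat_lit 0) (XT.nd (nat_lit 78) (nat_lit 0) (nat_lit 0) (XT.lf (nat_lit 0) (nat_lit 47012966686) (nat_lit 152) (nat_lit 8962355590) (nat_lit 0) (nat_lit 5005032449) (nat_lit 8) (nat_lit 5) (nat_lit 10) (nat_lit 4) (nat_lit 8) (nat_lit 4) (nat_lit 385) (nat_lit 258) (nat_lit 137)) (XT.lf (nat_lit 0) (nat_lit 51833381118) (nat_lit 152) (nat_lit 1040788117) (nat_lit 0) (nat_lit 9790239672) (nat_lit 8) (nat_lit 5) (nat_lit 10) (nat_lit 4) (nat_lit 8) (nat_lit 4) (nat_lit 386) (nat_lit 258) (nat_lit 136))) (XT.nd (nat_lit 78) (nat_lit 0) (nat_lit 0) (XT.lf (nat_lit 0) (nat_lit 7247385428) (nat_lit 76) (nat_lit 49613526846) (nat_lit 76) (nat_lit 7536203644) (nat_lit 7) (nat_lit 4) (nat_lit 8)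 (nat_lit 5) (nat_lit 8) (nat_lit 4) (nat_lit 387) (nat_lit 258) (nat_lit 135)) (XT.nd (nat_lit 78) (nat_lit 0) (nat_lit 0) (XT.lf (nat_lit 0) (nat_lit 15793197964) (nat_lit 76) (nat_lit 46249509279) (nat_lit 76) (nat_lit 4138999907) (nat_lit 7) (nat_lit 4) (nat_lit 8) (nat_lit 5) (nat_lit 8) (nat_lit 4) (nat_lit 388) (nat_lit 258) (nat_lit 134)) (XT.lf (nat_lit 0) (nat_lit 24583402980) (nat_lit 76) (nat_lit 42789687022) (nat_lit 76) (nat_lit 646958066) (nat_lit 7) (nat_lit 4) (nat_lit 8) (nat_lit 5) (nat_lit 8) (nat_lit 4) (nat_lit 389) (nat_lit 258) (nat_lit 133))))) (XT.nd (nat_lit 234) (nat_lit 76) (nat_lit 0) (XT.nd (nat_lit 78) (nat_lit 0) (nat_lit 0) (XT.lf (nat_lit 0) (nat_lit 2885545168) (nat_lit 152) (nat_lit 36316353412) (nat_lit 76) (nat_lit 30710997722) (nat_lit 6) (nat_lit 5) (nat_lit 8) (nat_lit 5) (nat_lit 7) (nat_lit 4) (nat_lit 390) (nat_lit 258) (nat_lit 132)) (XT.nd (nat_lit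 78) (nat_lit 0) (nat_lit 0) (XT.lf (nat_lit 0) (nat_lit 6504478771) (nat_lit 152) (nat_lit 29000288246) (nat_lit 76) (nat_lit 36357772506) (nat_lit 6) (nat_lit 5) (nat_lit 8) (nat_lit 5) (nat_lit 7) (nat_lit 4) (nat_lit 391) (nat_lit 258) (nat_lit 131)) (XT.lf (nat_lit 0) (nat_lit 10225629397) (nat_lit 152) (nat_lit 21475837956) (nat_lit 76) (nat_lit 42169400518) (nat_lit 6) (nat_lit 5) (nat_lit 8) (nat_lit 5) (nat_lit 7) (nat_lit 4) (nat_lit 392) (nat_lit 258) (nat_lit 130)))) (XT.nd (nat_lit 78) (nat_lit 76) (nat_lit 0) (XT.lf (nat_lit 0) (nat_lit 14052248539) (nat_lit 152) (nat_lit 13736427781) (nat_lit 76) (nat_lit 48150959879) (nat_lit 6) (nat_lit 5) (nat_lit 8) (nat_lit 5) (nat_lit 7) (nat_lit 4) (nat_lit 393) (nat_lit 258) (nat_lit 129)) (XT.nd (nat_lit 78) (nat_lit 76) (nat_lit 0) (XT.lf (nat_lit 0) (nat_lit 17987679844) (nat_lit 152) (nat_lit 5775295128) (nat_lit 76) (nat_lit 54307677195)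 (nat_lit 6) (nat_lit 5) (nat_lit 8) (nat_lit 5) (nat_lit 7) (nat_lit 4) (nat_lit 394) (nat_lit 258) (nat_lit 128)) (XT.lf (nat_lit 0) (nat_lit 2462569940) (nat_lit 76) (nat_lit 19596463826) (nat_lit 152) (nat_lit 58206033911) (nat_lit 5) (nat_lit 5) (nat_lit 6) (nat_lit 5) (nat_lit 7) (nat_lit 4) (nat_lit 395) (nat_lit 258) (nat_lit 127)))))) (XT.nd (nat_lit 30498) (nat_lit 0) (nat_lit 18088) (XT.nd (nat_lit 30264) (nat_lit 0) (nat_lit 19228) (XT.nd (nat_lit 30186) (nat_lit 0) (nat_lit 19532) (XT.lf (nat_lit 0) (nat_lit 11055903236) (nat_lit 76) (nat_lit 15249204799) (nat_lit 152) (nat_lit 56218634935) (nat_lit 5) (nat_lit 5) (nat_lit 6) (nat_lit 5) (nat_lit 7) (nat_lit 4) (nat_lit 396) (nat_lit 258) (nat_lit 126)) (XT.lf (nat_lit 0) (nat_lit 1426110508) (nat_lit 76) (nat_lit 371016519) (nat_lit 0) (nat_lit 1426110508) (nat_lit 262) (nat_lit 5) (nat_lit 263) (nat_lit 0) (nat_lit 262) (nat_lit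 4) (nat_lit 262) (nat_lit 259) (nat_lit 259))) (XT.nd (nat_lit 78) (nat_lit 228) (nat_lit 0) (XT.lf (nat_lit 0) (nat_lit 2206853749) (nat_lit 76) (nat_lit 3440639390) (nat_lit 76) (nat_lit 805118880) (nat_lit 261) (nat_lit 4) (nat_lit 262) (nat_lit 5) (nat_lit 262) (nat_lit 4) (nat_lit 263) (nat_lit 259) (nat_lit 258)) (XT.nd (nat_lit 78) (nat_lit 152) (nat_lit 0) (XT.lf (nat_lit 0) (nat_lit 1928451150) (nat_lit 152) (nat_lit 1279522453) (nat_lit 76) (nat_lit 3253790070) (nat_lit 260) (nat_lit 5) (nat_lit 262) (nat_lit 5) (nat_lit 261) (nat_lit 4) (nat_lit 264) (nat_lit 259) (nat_lit 257)) (XT.lf (nat_lit 0) (nat_lit 1743219069) (nat_lit 152) (nat_lit 2898026353) (nat_lit 228) (nat_lit 1832750073) (nat_lit 258) (nat_lit 5) (nat_lit 260) (nat_lit 5) (nat_lit 261) (nat_lit 4) (nat_lit 265) (nat_lit 259) (nat_lit 256))))) (XT.nd (nat_lit 234) (nat_lit 836) (nat_lit 0) (XT.nd (nat_lit 78) (nat_lit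 228) (nat_lit 0) (XT.lf (nat_lit 0) (nat_lit 841034137) (nat_lit 228) (nat_lit 1672993742) (nat_lit 76) (nat_lit 3975392270) (nat_lit 257) (nat_lit 5) (nat_lit 260) (nat_lit 5) (nat_lit 258) (nat_lit 5) (nat_lit 266) (nat_lit 259) (nat_lit 255)) (XT.nd (nat_lit 78) (nat_lit 0) (nat_lit 0) (XT.lf (nat_lit 0) (nat_lit 1427582961) (nat_lit 228) (nat_lit 2044987067) (nat_lit 304) (nat_lit 3035170726) (nat_lit 254) (nat_lit 5) (nat_lit 257) (nat_lit 5) (nat_lit 258) (nat_lit 5) (nat_lit 267) (nat_lit 259) (nat_lit 254)) (XT.lf (nat_lit 0) (nat_lit 4597395999) (nat_lit 228) (nat_lit 1505537146) (nat_lit 304) (nat_lit 426478323) (nat_lit 254) (nat_lit 5) (nat_lit 257) (nat_lit 5) (nat_lit 258) (nat_lit 5) (nat_lit 268) (nat_lit 259) (nat_lit 253)))) (XT.nd (nat_lit 78) (nat_lit 456) (nat_lit 0) (XT.lf (nat_lit 0) (nat_lit 1254666211) (nat_lit 304) (nat_lit 878261671) (nat_lit 380) (nat_lit 4421029796)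 (nat_lit 249) (nat_lit 5) (nat_lit 253) (nat_lit 5) (nat_lit 254) (nat_lit 5) (nat_lit 269) (nat_lit 259) (nat_lit 252)) (XT.nd (nat_lit 78) (nat_lit 456) (nat_lit 0) (XT.lf (nat_lit 0) (nat_lit 4514162357) (nat_lit 304) (nat_lit 172575860) (nat_lit 380) (nat_lit 1894952811) (nat_lit 249) (nat_lit 5) (nat_lit 253) (nat_lit 5) (nat_lit 254) (nat_lit 5) (nat_lit 270) (nat_lit 259) (nat_lit 251)) (XT.lf (nat_lit 0) (nat_lit 618866873) (nat_lit 456) (nat_lit 5398998436) (nat_lit 76) (nat_lit 594756962) (nat_lit 243) (nat_lit 5) (nat_lit 249) (nat_lit 5) (nat_lit 244) (nat_lit 5) (nat_lit 271) (nat_lit 259) (nat_lit 250))))))) (XT.nd (nat_lit 858) (nat_lit 5852) (nat_lit 0) (XT.nd (nat_lit 390) (nat_lit 2204) (nat_lit 0) (XT.nd (nat_lit 156) (nat_lit 608) (nat_lit 0) (XT.nd (nat_lit 78) (nat_lit 456) (nat_lit 0) (XT.lf (nat_lit 0) (nat_lit 3103428812) (nat_lit 456) (nat_lit 2090254106) (nat_lit 76)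 (nat_lit 1452565664) (nat_lit 243) (nat_lit 5) (nat_lit 249) (nat_lit 5) (nat_lit 244) (nat_lit 5) (nat_lit 272) (nat_lit 259) (nat_lit 249)) (XT.lf (nat_lit 0) (nat_lit 1283264613) (nat_lit 456) (nat_lit 4304822761) (nat_lit 532) (nat_lit 1095352250) (nat_lit 237) (nat_lit 5) (nat_lit 243) (nat_lit 5) (nat_lit 244) (nat_lit 5) (nat_lit 273) (nat_lit 259) (nat_lit 248))) (XT.nd (nat_lit 78) (nat_lit 532) (nat_lit 0) (XT.lf (nat_lit 0) (nat_lit 1333076441) (nat_lit 532) (nat_lit 1995148718) (nat_lit 76) (nat_lit 3395353717) (nat_lit 236) (nat_lit 5) (nat_lit 243) (nat_lit 5) (nat_lit 237) (nat_lit 5) (nat_lit 274) (nat_lit 259) (nat_lit 247)) (XT.nd (nat_lit 78) (nat_lit 0) (nat_lit 0) (XT.lf (nat_lit 0) (nat_lit 1470696976) (nat_lit 532) (nat_lit 2272324602) (nat_lit 608) (nat_lit 3023950350) (nat_lit 229) (nat_lit 5) (nat_lit 236) (nat_lit 5) (nat_lit 237) (nat_lit 5) (nat_lit 275) (nat_lit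 259) (nat_lit 246)) (XT.lf (nat_lit 0) (nat_lit 5022811970) (nat_lit 532) (nat_lit 1141009510) (nat_lit 608) (nat_lit 649975348) (nat_lit 229) (nat_lit 5) (nat_lit 236) (nat_lit 5) (nat_lit 237) (nat_lit 5) (nat_lit 276) (nat_lit 259) (nat_lit 245))))) (XT.nd (nat_lit 234) (nat_lit 836) (nat_lit 0) (XT.nd (nat_lit 78) (nat_lit 684) (nat_lit 0) (XT.lf (nat_lit 0) (nat_lit 1697788646) (nat_lit 684) (nat_lit 5086314783) (nat_lit 76) (nat_lit 79547601) (nat_lit 220) (nat_lit 5) (nat_lit 229) (nat_lit 5) (nat_lit 221) (nat_lit 5) (nat_lit 277) (nat_lit 259) (nat_lit 244)) (XT.nd (nat_lit 78) (nat_lit 684) (nat_lit 0) (XT.lf (nat_lit 0) (nat_lit 4054185629) (nat_lit 684) (nat_lit 1503951276) (nat_lit 76) (nat_lit 1358395386) (nat_lit 220) (nat_lit 5) (nat_lit 229) (nat_lit 5) (nat_lit 221) (nat_lit 5) (nat_lit 278) (nat_lit 259) (nat_lit 243)) (XT.lf (nat_lit 0) (nat_lit 2168982736) (nat_lit 684)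 (nat_lit 4257124195) (nat_lit 760) (nat_lit 546802856) (nat_lit 211) (nat_lit 5) (nat_lit 220) (nat_lit 5) (nat_lit 221) (nat_lit 5) (nat_lit 279) (nat_lit 259) (nat_lit 242)))) (XT.nd (nat_lit 78) (nat_lit 760) (nat_lit 0) (XT.lf (nat_lit 0) (nat_lit 1742328904) (nat_lit 760) (nat_lit 1125793140) (nat_lit 76) (nat_lit 4164366861) (nat_lit 210) (nat_lit 5) (nat_lit 220) (nat_lit 5) (nat_lit 211) (nat_lit 5) (nat_lit 280) (nat_lit 259) (nat_lit 241)) (XT.nd (nat_lit 78) (nat_lit 0) (nat_lit 0) (XT.lf (nat_lit 0) (nat_lit 2650363703) (nat_lit 760) (nat_lit 1391106529) (nat_lit 836) (nat_lit 3053886124) (nat_lit 200) (nat_lit 5) (nat_lit 210) (nat_lit 5) (nat_lit 211) (nat_lit 5) (nat_lit 281) (nat_lit 259) (nat_lit 240)) (XT.lf (nat_lit 0) (nat_lit 6350869941) (nat_lit 836) (nat_lit 658804514) (nat_lit 76) (nat_lit 152423213) (nat_lit 200) (nat_lit 5) (nat_lit 211) (nat_lit 5) (nat_lit 201) (nat_lit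 5) (nat_lit 282) (nat_lit 259) (nat_lit 239)))))) (XT.nd (nat_lit 468) (nat_lit 1900) (nat_lit 0) (XT.nd (nat_lit 234) (nat_lit 2128) (nat_lit 0) (XT.nd (nat_lit 78) (nat_lit 912) (nat_lit 0) (XT.lf (nat_lit 0) (nat_lit 1444475501) (nat_lit 912) (nat_lit 4014495649) (nat_lit 76) (nat_lit 1772400930) (nat_lit 188) (nat_lit 5) (nat_lit 200) (nat_lit 5) (nat_lit 189) (nat_lit 5) (nat_lit 283) (nat_lit 259) (nat_lit 238)) (XT.nd (nat_lit 78) (nat_lit 912) (nat_lit 0) (XT.lf (nat_lit 0) (nat_lit 3689475282) (nat_lit 912) (nat_lit 148080725) (nat_lit 76) (nat_lit 3466996999) (nat_lit 188) (nat_lit 5) (nat_lit 200) (nat_lit 5) (nat_lit 189) (nat_lit 5) (nat_lit 284) (nat_lit 259) (nat_lit 237)) (XT.lf (nat_lit 0) (nat_lit 3851433038) (nat_lit 912) (nat_lit 2120629715) (nat_lit 988) (nat_lit 1408960595) (nat_lit 176) (nat_lit 5) (nat_lit 188) (nat_lit 5) (nat_lit 189) (nat_lit 5) (nat_lit 285) (nat_lit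 259) (nat_lit 236)))) (XT.nd (nat_lit 78) (nat_lit 1064) (nat_lit 0) (XT.lf (nat_lit 0) (nat_lit 455818150) (nat_lit 988) (nat_lit 330335880) (nat_lit 1064) (nat_lit 6675384548) (nat_lit 162) (nat_lit 5) (nat_lit 175) (nat_lit 5) (nat_lit 176) (nat_lit 5) (nat_lit 286) (nat_lit 259) (nat_lit 235)) (XT.nd (nat_lit 78) (nat_lit 1064) (nat_lit 0) (XT.lf (nat_lit 0) (nat_lit 3004547259) (nat_lit 1064) (nat_lit 2999712500) (nat_lit 76) (nat_lit 1540402740) (nat_lit 162) (nat_lit 5) (nat_lit 176) (nat_lit 5) (nat_lit 163) (nat_lit 5) (nat_lit 287) (nat_lit 259) (nat_lit 234)) (XT.lf (nat_lit 0) (nat_lit 1085551915) (nat_lit 1064) (nat_lit 4154732178) (nat_lit 1140) (nat_lit 2391650979) (nat_lit 148) (nat_lit 5) (nat_lit 162) (nat_lit 5) (nat_lit 163) (nat_lit 5) (nat_lit 288) (nat_lit 259) (nat_lit 233))))) (XT.nd (nat_lit 234) (nat_lit 1140) (nat_lit 0) (XT.nd (nat_lit 78) (nat_lit 760) (nat_lit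 0) (XT.lf (nat_lit 0) (nat_lit 5296606127) (nat_lit 1064) (nat_lit 2215136706) (nat_lit 1140) (nat_lit 211196982) (nat_lit 148) (nat_lit 5) (nat_lit 162) (nat_lit 5) (nat_lit 163) (nat_lit 5) (nat_lit 289) (nat_lit 259) (nat_lit 232)) (XT.nd (nat_lit 78) (nat_lit 0) (nat_lit 0) (XT.lf (nat_lit 0) (nat_lit 1774452637) (nat_lit 684) (nat_lit 176967653) (nat_lit 760) (nat_lit 5866137582) (nat_lit 138) (nat_lit 5) (nat_lit 147) (nat_lit 5) (nat_lit 148) (nat_lit 5) (nat_lit 290) (nat_lit 259) (nat_lit 231)) (XT.lf (nat_lit 0) (nat_lit 4158523298) (nat_lit 760) (nat_lit 1843415898) (nat_lit 76) (nat_lit 1913655743) (nat_lit 138) (nat_lit 5) (nat_lit 148) (nat_lit 5) (nat_lit 139) (nat_lit 5) (nat_lit 291) (nat_lit 259) (nat_lit 230)))) (XT.nd (nat_lit 78) (nat_lit 608) (nat_lit 0) (XT.lf (nat_lit 0) (nat_lit 2471136557) (nat_lit 532) (nat_lit 3928567804) (nat_lit 608) (nat_lit 1617986950) (nat_lit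 131) (nat_lit 5) (nat_lit 138) (nat_lit 5) (nat_lit 139) (nat_lit 5) (nat_lit 292) (nat_lit 259) (nat_lit 229)) (XT.nd (nat_lit 78) (nat_lit 532) (nat_lit 0) (XT.lf (nat_lit 0) (nat_lit 535431886) (nat_lit 608) (nat_lit 1233504134) (nat_lit 76) (nat_lit 6355043596) (nat_lit 130) (nat_lit 5) (nat_lit 138) (nat_lit 5) (nat_lit 131) (nat_lit 5) (nat_lit 293) (nat_lit 259) (nat_lit 228)) (XT.lf (nat_lit 0) (nat_lit 2700962249) (nat_lit 608) (nat_lit 5039972445) (nat_lit 76) (nat_lit 492781480) (nat_lit 123) (nat_lit 5) (nat_lit 131) (nat_lit 5) (nat_lit 124) (nat_lit 5) (nat_lit 294) (nat_lit 259) (nat_lit 227))))))))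
noncomputable def xc108 : XT := (XT.nd (nat_lit 1716) (nat_lit 2584) (nat_lit 0) (XT.nd (nat_lit 858) (nat_lit 1824) (nat_lit 0) (XT.nd (nat_lit 390) (nat_lit 1368) (nat_lit 0) (XT.nd (nat_lit 156) (nat_lit 988) (nat_lit 0) (XT.nd (nat_lit 78) (nat_lit 456) (nat_lit 0) (XT.lf (nat_lit 0) (nat_lit 4907065472) (nat_lit 608) (nat_lit 642731790) (nat_lit 76) (nat_lit 2797816309) (nat_lit 123) (nat_lit 5) (nat_lit 131) (nat_lit 5) (nat_lit 124) (nat_lit 5) (nat_lit 295) (nat_lit 259) (nat_lit 226)) (XT.lf (nat_lit 0) (nat_lit 3906522673) (nat_lit 456) (nat_lit 3257481425) (nat_lit 532) (nat_lit 1301517187) (nat_lit 117) (nat_lit 5) (nat_lit 123) (nat_lit 5) (nat_lit 124) (nat_lit 5) (nat_lit 296) (nat_lit 259) (nat_lit 225))) (XT.nd (nat_lit 78) (nat_lit 912) (nat_lit 0) (XT.lf (nat_lit 0) (nat_lit 838110647) (nat_lit 532) (nat_lit 46827439) (nat_lit 76) (nat_lit 7703272813) (nat_lit 116) (nat_lit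 5) (nat_lit 123) (nat_lit 5) (nat_lit 117) (nat_lit 5) (nat_lit 297) (nat_lit 259) (nat_lit 224)) (XT.nd (nat_lit 78) (nat_lit 456) (nat_lit 0) (XT.lf (nat_lit 0) (nat_lit 3024715317) (nat_lit 532) (nat_lit 4107094004) (nat_lit 76) (nat_lit 1582238555) (nat_lit 110) (nat_lit 5) (nat_lit 117) (nat_lit 5) (nat_lit 111) (nat_lit 5) (nat_lit 298) (nat_lit 259) (nat_lit 223)) (XT.lf (nat_lit 0) (nat_lit 502566214) (nat_lit 456) (nat_lit 4738336443) (nat_lit 532) (nat_lit 3603955908) (nat_lit 104) (nat_lit 5) (nat_lit 110) (nat_lit 5) (nat_lit 111) (nat_lit 5) (nat_lit 299) (nat_lit 259) (nat_lit 222))))) (XT.nd (nat_lit 234) (nat_lit 836) (nat_lit 0) (XT.nd (nat_lit 78) (nat_lit 532) (nat_lit 0) (XT.lf (nat_lit 0) (nat_lit 5279121021) (nat_lit 456) (nat_lit 2236766912) (nat_lit 532) (nat_lit 1464050964) (nat_lit 104) (nat_lit 5) (nat_lit 110) (nat_lit 5) (nat_lit 111) (nat_lit 5) (nat_lit 300) (nat_lit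 259) (nat_lit 221)) (XT.nd (nat_lit 78) (nat_lit 0) (nat_lit 0) (XT.lf (nat_lit 0) (nat_lit 690648271) (nat_lit 532) (nat_lit 8085482711) (nat_lit 76) (nat_lit 343884208) (nat_lit 97) (nat_lit 5) (nat_lit 104) (nat_lit 5) (nat_lit 98) (nat_lit 5) (nat_lit 301) (nat_lit 259) (nat_lit 220)) (XT.lf (nat_lit 0) (nat_lit 2892953880) (nat_lit 532) (nat_lit 3368335377) (nat_lit 76) (nat_lit 3002302868) (nat_lit 97) (nat_lit 5) (nat_lit 104) (nat_lit 5) (nat_lit 98) (nat_lit 5) (nat_lit 302) (nat_lit 259) (nat_lit 219)))) (XT.nd (nat_lit 78) (nat_lit 456) (nat_lit 0) (XT.lf (nat_lit 0) (nat_lit 1464577947) (nat_lit 380) (nat_lit 3664716655) (nat_lit 456) (nat_lit 4283244694) (nat_lit 92) (nat_lit 5) (nat_lit 97) (nat_lit 5) (nat_lit 98) (nat_lit 5) (nat_lit 303) (nat_lit 259) (nat_lit 218)) (XT.nd (nat_lit 78) (nat_lit 456) (nat_lit 0) (XT.lf (nat_lit 0) (nat_lit 6457731248) (nat_lit 380) (nat_lit 963721377)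 (nat_lit 456) (nat_lit 2144939380) (nat_lit 92) (nat_lit 5) (nat_lit 97) (nat_lit 5) (nat_lit 98) (nat_lit 5) (nat_lit 304) (nat_lit 259) (nat_lit 217)) (XT.lf (nat_lit 0) (nat_lit 47336368) (nat_lit 456) (nat_lit 7884991698) (nat_lit 76) (nat_lit 1792880594) (nat_lit 86) (nat_lit 5) (nat_lit 92) (nat_lit 5) (nat_lit 87) (nat_lit 5) (nat_lit 305) (nat_lit 259) (nat_lit 216)))))) (XT.nd (nat_lit 390) (nat_lit 988) (nat_lit 0) (XT.nd (nat_lit 156) (nat_lit 456) (nat_lit 0) (XT.nd (nat_lit 78) (nat_lit 380) (nat_lit 0) (XT.lf (nat_lit 0) (nat_lit 2259719513) (nat_lit 456) (nat_lit 2971652997) (nat_lit 76) (nat_lit 4656947226) (nat_lit 86) (nat_lit 5) (nat_lit 92) (nat_lit 5) (nat_lit 87) (nat_lit 5) (nat_lit 306) (nat_lit 259) (nat_lit 215)) (XT.lf (nat_lit 0) (nat_lit 2077191379) (nat_lit 380) (nat_lit 2438731854) (nat_lit 456) (nat_lit 5541165343) (nat_lit 81) (nat_lit 5) (nat_lit 86) (nat_lit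 5) (nat_lit 87) (nat_lit 5) (nat_lit 307) (nat_lit 259) (nat_lit 214))) (XT.nd (nat_lit 78) (nat_lit 456) (nat_lit 0) (XT.lf (nat_lit 0) (nat_lit 6832449152) (nat_lit 456) (nat_lit 2949262872) (nat_lit 76) (nat_lit 449514719) (nat_lit 81) (nat_lit 5) (nat_lit 87) (nat_lit 5) (nat_lit 82) (nat_lit 5) (nat_lit 308) (nat_lit 259) (nat_lit 213)) (XT.nd (nat_lit 78) (nat_lit 76) (nat_lit 0) (XT.lf (nat_lit 0) (nat_lit 2199456906) (nat_lit 380) (nat_lit 7023645806) (nat_lit 456) (nat_lit 1187430243) (nat_lit 76) (nat_lit 5) (nat_lit 81) (nat_lit 5) (nat_lit 82) (nat_lit 5) (nat_lit 309) (nat_lit 259) (nat_lit 212)) (XT.lf (nat_lit 0) (nat_lit 1058621197) (nat_lit 456) (nat_lit 3093988708) (nat_lit 76) (nat_lit 6442682990) (nat_lit 75) (nat_lit 5) (nat_lit 81) (nat_lit 5) (nat_lit 76) (nat_lit 5) (nat_lit 310) (nat_lit 259) (nat_lit 211))))) (XT.nd (nat_lit 234) (nat_lit 380) (nat_lit 0) (XT.nd (nat_lit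 78) (nat_lit 304) (nat_lit 0) (XT.lf (nat_lit 0) (nat_lit 2156465024) (nat_lit 304) (nat_lit 1173191936) (nat_lit 380) (nat_lit 7456217727) (nat_lit 71) (nat_lit 5) (nat_lit 75) (nat_lit 5) (nat_lit 76) (nat_lit 5) (nat_lit 311) (nat_lit 259) (nat_lit 210)) (XT.nd (nat_lit 78) (nat_lit 304) (nat_lit 0) (XT.lf (nat_lit 0) (nat_lit 5679891538) (nat_lit 380) (nat_lit 3423008875) (nat_lit 76) (nat_lit 1879015107) (nat_lit 71) (nat_lit 5) (nat_lit 76) (nat_lit 5) (nat_lit 72) (nat_lit 5) (nat_lit 312) (nat_lit 259) (nat_lit 209)) (XT.lf (nat_lit 0) (nat_lit 1915742220) (nat_lit 304) (nat_lit 6177342789) (nat_lit 380) (nat_lit 3091050488) (nat_lit 67) (nat_lit 5) (nat_lit 71) (nat_lit 5) (nat_lit 72) (nat_lit 5) (nat_lit 313) (nat_lit 259) (nat_lit 208)))) (XT.nd (nat_lit 78) (nat_lit 380) (nat_lit 0) (XT.lf (nat_lit 0) (nat_lit 7435701554) (nat_lit 304) (nat_lit 3140581560) (nat_lit 380) (nat_lit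 816280085) (nat_lit 67) (nat_lit 5) (nat_lit 71) (nat_lit 5) (nat_lit 72) (nat_lit 5) (nat_lit 314) (nat_lit 259) (nat_lit 207)) (XT.nd (nat_lit 78) (nat_lit 0) (nat_lit 0) (XT.lf (nat_lit 0) (nat_lit 1474910565) (nat_lit 380) (nat_lit 10127842772) (nat_lit 76) (nat_lit 4776454) (nat_lit 62) (nat_lit 5) (nat_lit 67) (nat_lit 5) (nat_lit 63) (nat_lit 5) (nat_lit 315) (nat_lit 259) (nat_lit 206)) (XT.lf (nat_lit 0) (nat_lit 3854053453) (nat_lit 380) (nat_lit 4755896127) (nat_lit 76) (nat_lit 3217748154) (nat_lit 62) (nat_lit 5) (nat_lit 67) (nat_lit 5) (nat_lit 63) (nat_lit 5) (nat_lit 316) (nat_lit 259) (nat_lit 205))))))) (XT.nd (nat_lit 858) (nat_lit 1140) (nat_lit 0) (XT.nd (nat_lit 390) (nat_lit 836) (nat_lit 0) (XT.nd (nat_lit 156) (nat_lit 304) (nat_lit 0) (XT.nd (nat_lit 78) (nat_lit 0) (nat_lit 0) (XT.lf (nat_lit 0) (nat_lit 744136579) (nat_lit 304) (nat_lit 5532806484) (nat_lit 380)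 (nat_lit 5778418135) (nat_lit 58) (nat_lit 5) (nat_lit 62) (nat_lit 5) (nat_lit 63) (nat_lit 5) (nat_lit 317) (nat_lit 259) (nat_lit 204)) (XT.lf (nat_lit 0) (nat_lit 6459534951) (nat_lit 304) (nat_lit 2326788994) (nat_lit 380) (nat_lit 3503176340) (nat_lit 58) (nat_lit 5) (nat_lit 62) (nat_lit 5) (nat_lit 63) (nat_lit 5) (nat_lit 318) (nat_lit 259) (nat_lit 203))) (XT.nd (nat_lit 78) (nat_lit 304) (nat_lit 0) (XT.lf (nat_lit 0) (nat_lit 11347018113) (nat_lit 380) (nat_lit 240332794) (nat_lit 76) (nat_lit 944089798) (nat_lit 58) (nat_lit 5) (nat_lit 63) (nat_lit 5) (nat_lit 59) (nat_lit 5) (nat_lit 319) (nat_lit 259) (nat_lit 202)) (XT.nd (nat_lit 78) (nat_lit 0) (nat_lit 0) (XT.lf (nat_lit 0) (nat_lit 1224864811) (nat_lit 304) (nat_lit 7234320727) (nat_lit 76) (nat_lit 4319827500) (nat_lit 54) (nat_lit 5) (nat_lit 58) (nat_lit 5) (nat_lit 55) (nat_lit 5) (nat_lit 320) (nat_lit 259) (nat_lit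 201)) (XT.lf (nat_lit 0) (nat_lit 3652845143) (nat_lit 304) (nat_lit 1583074648) (nat_lit 76) (nat_lit 7798687525) (nat_lit 54) (nat_lit 5) (nat_lit 58) (nat_lit 5) (nat_lit 55) (nat_lit 5) (nat_lit 321) (nat_lit 259) (nat_lit 200))))) (XT.nd (nat_lit 234) (nat_lit 304) (nat_lit 0) (XT.nd (nat_lit 78) (nat_lit 228) (nat_lit 0) (XT.lf (nat_lit 0) (nat_lit 4276915692) (nat_lit 304) (nat_lit 1886569395) (nat_lit 380) (nat_lit 7134141365) (nat_lit 50) (nat_lit 5) (nat_lit 54) (nat_lit 5) (nat_lit 55) (nat_lit 5) (nat_lit 322) (nat_lit 259) (nat_lit 199)) (XT.nd (nat_lit 78) (nat_lit 228) (nat_lit 0) (XT.lf (nat_lit 0) (nat_lit 8749688464) (nat_lit 380) (nat_lit 3282751054) (nat_lit 76) (nat_lit 1536139444) (nat_lit 50) (nat_lit 5) (nat_lit 55) (nat_lit 5) (nat_lit 51) (nat_lit 5) (nat_lit 323) (nat_lit 259) (nat_lit 198)) (XT.lf (nat_lit 0) (nat_lit 2616357670) (nat_lit 228) (nat_lit 8810922977)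 (nat_lit 304) (nat_lit 2420013992) (nat_lit 47) (nat_lit 5) (nat_lit 50) (nat_lit 5) (nat_lit 51) (nat_lit 5) (nat_lit 324) (nat_lit 259) (nat_lit 197)))) (XT.nd (nat_lit 78) (nat_lit 228) (nat_lit 0) (XT.lf (nat_lit 0) (nat_lit 53411020) (nat_lit 304) (nat_lit 5418042571) (nat_lit 76) (nat_lit 8662842192) (nat_lit 46) (nat_lit 5) (nat_lit 50) (nat_lit 5) (nat_lit 47) (nat_lit 5) (nat_lit 325) (nat_lit 259) (nat_lit 196)) (XT.nd (nat_lit 78) (nat_lit 0) (nat_lit 0) (XT.lf (nat_lit 0) (nat_lit 512976204) (nat_lit 228) (nat_lit 2015321214) (nat_lit 304) (nat_lit 11901658311) (nat_lit 43) (nat_lit 5) (nat_lit 46) (nat_lit 5) (nat_lit 47) (nat_lit 5) (nat_lit 326) (nat_lit 259) (nat_lit 195)) (XT.lf (nat_lit 0) (nat_lit 5118812774) (nat_lit 304) (nat_lit 8057912477) (nat_lit 76) (nat_lit 1556561995) (nat_lit 43) (nat_lit 5) (nat_lit 47) (nat_lit 5) (nat_lit 44) (nat_lit 5) (nat_lit 327) (nat_lit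 259) (nat_lit 194)))))) (XT.nd (nat_lit 468) (nat_lit 608) (nat_lit 0) (XT.nd (nat_lit 234) (nat_lit 304) (nat_lit 0) (XT.nd (nat_lit 78) (nat_lit 228) (nat_lit 0) (XT.lf (nat_lit 0) (nat_lit 7779116125) (nat_lit 304) (nat_lit 2084454397) (nat_lit 76) (nat_lit 5182427993) (nat_lit 43) (nat_lit 5) (nat_lit 47) (nat_lit 5) (nat_lit 44) (nat_lit 5) (nat_lit 328) (nat_lit 259) (nat_lit 193)) (XT.nd (nat_lit 78) (nat_lit 0) (nat_lit 0) (XT.lf (nat_lit 0) (nat_lit 4108151574) (nat_lit 228) (nat_lit 6423498001) (nat_lit 304) (nat_lit 4836109678) (nat_lit 40) (nat_lit 5) (nat_lit 43) (nat_lit 5) (nat_lit 44) (nat_lit 5) (nat_lit 329) (nat_lit 259) (nat_lit 192)) (XT.lf (nat_lit 0) (nat_lit 10489438633) (nat_lit 228) (nat_lit 2871705816) (nat_lit 304) (nat_lit 2338236376) (nat_lit 40) (nat_lit 5) (nat_lit 43) (nat_lit 5) (nat_lit 44) (nat_lit 5) (nat_lit 330) (nat_lit 259) (nat_lit 191)))) (XT.nd (nat_lit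 78) (nat_lit 0) (nat_lit 0) (XT.lf (nat_lit 0) (nat_lit 220973843) (nat_lit 304) (nat_lit 15049739381) (nat_lit 76) (nat_lit 770478133) (nat_lit 36) (nat_lit 5) (nat_lit 40) (nat_lit 5) (nat_lit 37) (nat_lit 5) (nat_lit 331) (nat_lit 259) (nat_lit 190)) (XT.nd (nat_lit 78) (nat_lit 0) (nat_lit 0) (XT.lf (nat_lit 0) (nat_lit 2865610868) (nat_lit 304) (nat_lit 8997620403) (nat_lit 76) (nat_lit 4527697221) (nat_lit 36) (nat_lit 5) (nat_lit 40) (nat_lit 5) (nat_lit 37) (nat_lit 5) (nat_lit 332) (nat_lit 259) (nat_lit 189)) (XT.lf (nat_lit 0) (nat_lit 5564424781) (nat_lit 304) (nat_lit 2802311355) (nat_lit 76) (nat_lit 8385211634) (nat_lit 36) (nat_lit 5) (nat_lit 40) (nat_lit 5) (nat_lit 37) (nat_lit 5) (nat_lit 333) (nat_lit 259) (nat_lit 188))))) (XT.nd (nat_lit 234) (nat_lit 456) (nat_lit 0) (XT.nd (nat_lit 78) (nat_lit 0) (nat_lit 0) (XT.lf (nat_lit 0) (nat_lit 3612085948) (nat_lit 152) (nat_lit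 4742409399) (nat_lit 228) (nat_lit 8769027647) (nat_lit 34) (nat_lit 5) (nat_lit 36) (nat_lit 5) (nat_lit 37) (nat_lit 5) (nat_lit 334) (nat_lit 259) (nat_lit 187)) (XT.nd (nat_lit 78) (nat_lit 0) (nat_lit 0) (XT.lf (nat_lit 0) (nat_lit 10239469235) (nat_lit 152) (nat_lit 993024221) (nat_lit 228) (nat_lit 6273658398) (nat_lit 34) (nat_lit 5) (nat_lit 36) (nat_lit 5) (nat_lit 37) (nat_lit 5) (nat_lit 335) (nat_lit 259) (nat_lit 186)) (XT.lf (nat_lit 0) (nat_lit 14200917667) (nat_lit 228) (nat_lit 898592405) (nat_lit 76) (nat_lit 2800659101) (nat_lit 34) (nat_lit 5) (nat_lit 37) (nat_lit 5) (nat_lit 35) (nat_lit 5) (nat_lit 336) (nat_lit 259) (nat_lit 185)))) (XT.nd (nat_lit 78) (nat_lit 228) (nat_lit 0) (XT.lf (nat_lit 0) (nat_lit 5727096151) (nat_lit 228) (nat_lit 11573376016) (nat_lit 304) (nat_lit 1004303757) (nat_lit 31) (nat_lit 5) (nat_lit 34) (nat_lit 5) (nat_lit 35) (nat_lit 5) (nat_lit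 337) (nat_lit 259) (nat_lit 184)) (XT.nd (nat_lit 78) (nat_lit 152) (nat_lit 0) (XT.lf (nat_lit 0) (nat_lit 1723356696) (nat_lit 304) (nat_lit 6203895348) (nat_lit 76) (nat_lit 10794194445) (nat_lit 30) (nat_lit 5) (nat_lit 34) (nat_lit 5) (nat_lit 31) (nat_lit 5) (nat_lit 338) (nat_lit 259) (nat_lit 183)) (XT.lf (nat_lit 0) (nat_lit 322992029) (nat_lit 152) (nat_lit 4170704906) (nat_lit 228) (nat_lit 14657219452) (nat_lit 28) (nat_lit 5) (nat_lit 30) (nat_lit 5) (nat_lit 31) (nat_lit 5) (nat_lit 339) (nat_lit 259) (nat_lit 182))))))))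
noncomputable def xc109 : XT := (XT.nd (nat_lit 1716) (nat_lit 608) (nat_lit 0) (XT.nd (nat_lit 858) (nat_lit 380) (nat_lit 0) (XT.nd (nat_lit 390) (nat_lit 380) (nat_lit 0) (XT.nd (nat_lit 156) (nat_lit 152) (nat_lit 0) (XT.nd (nat_lit 78) (nat_lit 0) (nat_lit 0) (XT.lf (nat_lit 0) (nat_lit 7138728022) (nat_lit 152) (nat_lit 249311924) (nat_lit 228) (nat_lit 12204031416) (nat_lit 28) (nat_lit 5) (nat_lit 30) (nat_lit 5) (nat_lit 31) (nat_lit 5) (nat_lit 340) (nat_lit 259) (nat_lit 181)) (XT.lf (nat_lit 0) (nat_lit 10384405886) (nat_lit 228) (nat_lit 5957636741) (nat_lit 76) (nat_lit 3703989527) (nat_lit 28) (nat_lit 5) (nat_lit 31) (nat_lit 5) (nat_lit 29) (nat_lit 5) (nat_lit 341) (nat_lit 259) (nat_lit 180))) (XT.nd (nat_lit 78) (nat_lit 0) (nat_lit 0) (XT.lf (nat_lit 0) (nat_lit 711657967) (nat_lit 152) (nat_lit 12747696206) (nat_lit 228) (nat_lit 7054623018) (nat_lit 26) (nat_lit 5) (nat_lit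 28) (nat_lit 5) (nat_lit 29) (nat_lit 5) (nat_lit 342) (nat_lit 259) (nat_lit 179)) (XT.nd (nat_lit 78) (nat_lit 0) (nat_lit 0) (XT.lf (nat_lit 0) (nat_lit 7670776169) (nat_lit 152) (nat_lit 8995606489) (nat_lit 228) (nat_lit 4328408371) (nat_lit 26) (nat_lit 5) (nat_lit 28) (nat_lit 5) (nat_lit 29) (nat_lit 5) (nat_lit 343) (nat_lit 259) (nat_lit 178)) (XT.lf (nat_lit 0) (nat_lit 14807229995) (nat_lit 152) (nat_lit 5142655399) (nat_lit 228) (nat_lit 1540760645) (nat_lit 26) (nat_lit 5) (nat_lit 28) (nat_lit 5) (nat_lit 29) (nat_lit 5) (nat_lit 344) (nat_lit 259) (nat_lit 177))))) (XT.nd (nat_lit 234) (nat_lit 152) (nat_lit 0) (XT.nd (nat_lit 78) (nat_lit 0) (nat_lit 0) (XT.lf (nat_lit 0) (nat_lit 114922446) (nat_lit 152) (nat_lit 1171360654) (nat_lit 228) (nat_lit 20715281260) (nat_lit 23) (nat_lit 5) (nat_lit 25) (nat_lit 5) (nat_lit 26) (nat_lit 5) (nat_lit 345) (nat_lit 259) (nat_lit 176))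 (XT.nd (nat_lit 78) (nat_lit 0) (nat_lit 0) (XT.lf (nat_lit 0) (nat_lit 4244172115) (nat_lit 228) (nat_lit 15346666972) (nat_lit 76) (nat_lit 2934226009) (nat_lit 23) (nat_lit 5) (nat_lit 26) (nat_lit 5) (nat_lit 24) (nat_lit 5) (nat_lit 346) (nat_lit 259) (nat_lit 175)) (XT.lf (nat_lit 0) (nat_lit 7283739309) (nat_lit 228) (nat_lit 8652297021) (nat_lit 76) (nat_lit 7128468190) (nat_lit 23) (nat_lit 5) (nat_lit 26) (nat_lit 5) (nat_lit 24) (nat_lit 5) (nat_lit 347) (nat_lit 259) (nat_lit 174)))) (XT.nd (nat_lit 78) (nat_lit 152) (nat_lit 0) (XT.lf (nat_lit 0) (nat_lit 10396380780) (nat_lit 228) (nat_lit 1786422777) (nat_lit 76) (nat_lit 11437888225) (nat_lit 23) (nat_lit 5) (nat_lit 26) (nat_lit 5) (nat_lit 24) (nat_lit 5) (nat_lit 348) (nat_lit 259) (nat_lit 173)) (XT.nd (nat_lit 78) (nat_lit 0) (nat_lit 0) (XT.lf (nat_lit 0) (nat_lit 5361578779) (nat_lit 152) (nat_lit 8274776306) (nat_lit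 228) (nat_lit 10556211621) (nat_lit 21) (nat_lit 5) (nat_lit 23) (nat_lit 5) (nat_lit 24) (nat_lit 5) (nat_lit 349) (nat_lit 259) (nat_lit 172)) (XT.lf (nat_lit 0) (nat_lit 12732446815) (nat_lit 152) (nat_lit 4241777166) (nat_lit 228) (nat_lit 7807373089) (nat_lit 21) (nat_lit 5) (nat_lit 23) (nat_lit 5) (nat_lit 24) (nat_lit 5) (nat_lit 350) (nat_lit 259) (nat_lit 171)))))) (XT.nd (nat_lit 390) (nat_lit 228) (nat_lit 0) (XT.nd (nat_lit 156) (nat_lit 76) (nat_lit 0) (XT.nd (nat_lit 78) (nat_lit 76) (nat_lit 0) (XT.lf (nat_lit 0) (nat_lit 20297068577) (nat_lit 152) (nat_lit 98321524) (nat_lit 228) (nat_lit 4993432875) (nat_lit 21) (nat_lit 5) (nat_lit 23) (nat_lit 5) (nat_lit 24) (nat_lit 5) (nat_lit 351) (nat_lit 259) (nat_lit 170)) (XT.lf (nat_lit 0) (nat_lit 2047247202) (nat_lit 76) (nat_lit 21915255888) (nat_lit 152) (nat_lit 2050482114) (nat_lit 20) (nat_lit 5) (nat_lit 21) (nat_lit 5) (nat_lit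 22) (nat_lit 4) (nat_lit 352) (nat_lit 259) (nat_lit 169))) (XT.nd (nat_lit 78) (nat_lit 0) (nat_lit 0) (XT.lf (nat_lit 0) (nat_lit 998115197) (nat_lit 152) (nat_lit 17187510977) (nat_lit 76) (nat_lit 8468886227) (nat_lit 19) (nat_lit 5) (nat_lit 21) (nat_lit 5) (nat_lit 20) (nat_lit 5) (nat_lit 353) (nat_lit 259) (nat_lit 168)) (XT.nd (nat_lit 78) (nat_lit 0) (nat_lit 0) (XT.lf (nat_lit 0) (nat_lit 4081032370) (nat_lit 152) (nat_lit 10252516430) (nat_lit 76) (nat_lit 12981622619) (nat_lit 19) (nat_lit 5) (nat_lit 21) (nat_lit 5) (nat_lit 20) (nat_lit 5) (nat_lit 354) (nat_lit 259) (nat_lit 167)) (XT.lf (nat_lit 0) (nat_lit 7240975507) (nat_lit 152) (nat_lit 3134984168) (nat_lit 76) (nat_lit 17620171171) (nat_lit 19) (nat_lit 5) (nat_lit 21) (nat_lit 5) (nat_lit 20) (nat_lit 5) (nat_lit 355) (nat_lit 259) (nat_lit 166))))) (XT.nd (nat_lit 234) (nat_lit 76) (nat_lit 0) (XT.nd (nat_lit 78) (nat_lit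 0) (nat_lit 0) (XT.lf (nat_lit 0) (nat_lit 4254322158) (nat_lit 152) (nat_lit 6267278712) (nat_lit 228) (nat_lit 18175157972) (nat_lit 17) (nat_lit 5) (nat_lit 19) (nat_lit 5) (nat_lit 20) (nat_lit 5) (nat_lit 356) (nat_lit 259) (nat_lit 165)) (XT.nd (nat_lit 78) (nat_lit 0) (nat_lit 0) (XT.lf (nat_lit 0) (nat_lit 11905045560) (nat_lit 152) (nat_lit 2012446871) (nat_lit 228) (nat_lit 15500423652) (nat_lit 17) (nat_lit 5) (nat_lit 19) (nat_lit 5) (nat_lit 20) (nat_lit 5) (nat_lit 357) (nat_lit 259) (nat_lit 164)) (XT.lf (nat_lit 0) (nat_lit 17423573834) (nat_lit 228) (nat_lit 10422367457) (nat_lit 76) (nat_lit 2314532727) (nat_lit 17) (nat_lit 5) (nat_lit 20) (nat_lit 5) (nat_lit 18) (nat_lit 4) (nat_lit 358) (nat_lit 259) (nat_lit 163)))) (XT.nd (nat_lit 78) (nat_lit 76) (nat_lit 0) (XT.lf (nat_lit 0) (nat_lit 21040715240) (nat_lit 228) (nat_lit 3162538495) (nat_lit 76) (nat_lit 6721893547)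 (nat_lit 17) (nat_lit 5) (nat_lit 20) (nat_lit 5) (nat_lit 18) (nat_lit 4) (nat_lit 359) (nat_lit 259) (nat_lit 162)) (XT.nd (nat_lit 78) (nat_lit 0) (nat_lit 0) (XT.lf (nat_lit 0) (nat_lit 4377730051) (nat_lit 76) (nat_lit 20417083757) (nat_lit 152) (nat_lit 6917108136) (nat_lit 16) (nat_lit 5) (nat_lit 17) (nat_lit 5) (nat_lit 18) (nat_lit 4) (nat_lit 360) (nat_lit 259) (nat_lit 161)) (XT.lf (nat_lit 0) (nat_lit 12186478367) (nat_lit 76) (nat_lit 16493534309) (nat_lit 152) (nat_lit 3841746913) (nat_lit 16) (nat_lit 5) (nat_lit 17) (nat_lit 5) (nat_lit 18) (nat_lit 4) (nat_lit 361) (nat_lit 259) (nat_lit 160))))))) (XT.nd (nat_lit 858) (nat_lit 304) (nat_lit 0) (XT.nd (nat_lit 390) (nat_lit 76) (nat_lit 0) (XT.nd (nat_lit 156) (nat_lit 152) (nat_lit 0) (XT.nd (nat_lit 78) (nat_lit 76) (nat_lit 0) (XT.lf (nat_lit 0) (nat_lit 20207588914) (nat_lit 76) (nat_lit 12461112484) (nat_lit 152) (nat_lit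 687596602) (nat_lit 16) (nat_lit 5) (nat_lit 17) (nat_lit 5) (nat_lit 18) (nat_lit 4) (nat_lit 362) (nat_lit 259) (nat_lit 159)) (XT.lf (nat_lit 0) (nat_lit 2498376262) (nat_lit 152) (nat_lit 5792689843) (nat_lit 76) (nat_lit 25924465465) (nat_lit 15) (nat_lit 5) (nat_lit 17) (nat_lit 5) (nat_lit 16) (nat_lit 5) (nat_lit 363) (nat_lit 259) (nat_lit 158))) (XT.nd (nat_lit 78) (nat_lit 0) (nat_lit 0) (XT.lf (nat_lit 0) (nat_lit 1791252534) (nat_lit 152) (nat_lit 3979623759) (nat_lit 228) (nat_lit 29329331074) (nat_lit 13) (nat_lit 5) (nat_lit 15) (nat_lit 5) (nat_lit 16) (nat_lit 5) (nat_lit 364) (nat_lit 259) (nat_lit 157)) (XT.nd (nat_lit 78) (nat_lit 0) (nat_lit 0) (XT.lf (nat_lit 0) (nat_lit 9192690454) (nat_lit 228) (nat_lit 26314221366) (nat_lit 76) (nat_lit 502989573) (nat_lit 13) (nat_lit 5) (nat_lit 16) (nat_lit 5) (nat_lit 14) (nat_lit 4) (nat_lit 365) (nat_lit 259) (nat_lit 156)) (XT.lf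 (nat_lit 0) (nat_lit 12744553677) (nat_lit 228) (nat_lit 19169434804) (nat_lit 76) (nat_lit 5032087701) (nat_lit 13) (nat_lit 5) (nat_lit 16) (nat_lit 5) (nat_lit 14) (nat_lit 4) (nat_lit 366) (nat_lit 259) (nat_lit 155))))) (XT.nd (nat_lit 234) (nat_lit 0) (nat_lit 0) (XT.nd (nat_lit 78) (nat_lit 76) (nat_lit 0) (XT.lf (nat_lit 0) (nat_lit 16391314952) (nat_lit 228) (nat_lit 11830097550) (nat_lit 76) (nat_lit 9689284881) (nat_lit 13) (nat_lit 5) (nat_lit 16) (nat_lit 5) (nat_lit 14) (nat_lit 4) (nat_lit 367) (nat_lit 259) (nat_lit 154)) (XT.nd (nat_lit 78) (nat_lit 76) (nat_lit 0) (XT.lf (nat_lit 0) (nat_lit 20136160771) (nat_lit 228) (nat_lit 4289796591) (nat_lit 76) (nat_lit 14478650510) (nat_lit 13) (nat_lit 5) (nat_lit 16) (nat_lit 5) (nat_lit 14) (nat_lit 4) (nat_lit 368) (nat_lit 259) (nat_lit 153)) (XT.lf (nat_lit 0) (nat_lit 3526878793) (nat_lit 76) (nat_lit 20489387052) (nat_lit 152)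 (nat_lit 15911393193) (nat_lit 12) (nat_lit 5) (nat_lit 13) (nat_lit 5) (nat_lit 14) (nat_lit 4) (nat_lit 369) (nat_lit 259) (nat_lit 152)))) (XT.nd (nat_lit 78) (nat_lit 0) (nat_lit 0) (XT.lf (nat_lit 0) (nat_lit 11647517260) (nat_lit 76) (nat_lit 16397729185) (nat_lit 152) (nat_lit 12935191586) (nat_lit 12) (nat_lit 5) (nat_lit 13) (nat_lit 5) (nat_lit 14) (nat_lit 4) (nat_lit 370) (nat_lit 259) (nat_lit 151)) (XT.nd (nat_lit 78) (nat_lit 0) (nat_lit 0) (XT.lf (nat_lit 0) (nat_lit 19993839151) (nat_lit 76) (nat_lit 12190727060) (nat_lit 152) (nat_lit 9880560251) (nat_lit 12) (nat_lit 5) (nat_lit 13) (nat_lit 5) (nat_lit 14) (nat_lit 4) (nat_lit 371) (nat_lit 259) (nat_lit 150)) (XT.lf (nat_lit 0) (nat_lit 28573137368) (nat_lit 76) (nat_lit 7864704656) (nat_lit 152) (nat_lit 6744830093) (nat_lit 12) (nat_lit 5) (nat_lit 13) (nat_lit 5) (nat_lit 14) (nat_lit 4) (nat_lit 372) (nat_lit 259) (nat_lit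 149)))))) (XT.nd (nat_lit 468) (nat_lit 76) (nat_lit 0) (XT.nd (nat_lit 234) (nat_lit 0) (nat_lit 0) (XT.nd (nat_lit 78) (nat_lit 228) (nat_lit 0) (XT.lf (nat_lit 0) (nat_lit 37392908385) (nat_lit 76) (nat_lit 3415881954) (nat_lit 152) (nat_lit 3525261153) (nat_lit 12) (nat_lit 5) (nat_lit 13) (nat_lit 5) (nat_lit 14) (nat_lit 4) (nat_lit 373) (nat_lit 259) (nat_lit 148)) (XT.nd (nat_lit 78) (nat_lit 76) (nat_lit 0) (XT.lf (nat_lit 0) (nat_lit 947938795) (nat_lit 152) (nat_lit 44373550861) (nat_lit 152) (nat_lit 198173213) (nat_lit 10) (nat_lit 4) (nat_lit 12) (nat_lit 5) (nat_lit 12) (nat_lit 4) (nat_lit 374) (nat_lit 259) (nat_lit 147)) (XT.lf (nat_lit 0) (nat_lit 3260648420) (nat_lit 228) (nat_lit 37604996365) (nat_lit 76) (nat_lit 5871427716) (nat_lit 9) (nat_lit 5) (nat_lit 12) (nat_lit 5) (nat_lit 10) (nat_lit 4) (nat_lit 375) (nat_lit 259) (nat_lit 146)))) (XT.nd (nat_lit 78) (nat_lit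 0) (nat_lit 0) (XT.lf (nat_lit 0) (nat_lit 6809852226) (nat_lit 228) (nat_lit 30447428182) (nat_lit 76) (nat_lit 10733955641) (nat_lit 9) (nat_lit 5) (nat_lit 12) (nat_lit 5) (nat_lit 10) (nat_lit 4) (nat_lit 376) (nat_lit 259) (nat_lit 145)) (XT.nd (nat_lit 78) (nat_lit 0) (nat_lit 0) (XT.lf (nat_lit 0) (nat_lit 10456406525) (nat_lit 228) (nat_lit 23090860377) (nat_lit 76) (nat_lit 15736039631) (nat_lit 9) (nat_lit 5) (nat_lit 12) (nat_lit 5) (nat_lit 10) (nat_lit 4) (nat_lit 377) (nat_lit 259) (nat_lit 144)) (XT.lf (nat_lit 0) (nat_lit 14203497626) (nat_lit 228) (nat_lit 15528864882) (nat_lit 76) (nat_lit 20882050440) (nat_lit 9) (nat_lit 5) (nat_lit 12) (nat_lit 5) (nat_lit 10) (nat_lit 4) (nat_lit 378) (nat_lit 259) (nat_lit 143))))) (XT.nd (nat_lit 234) (nat_lit 0) (nat_lit 0) (XT.nd (nat_lit 78) (nat_lit 76) (nat_lit 0) (XT.lf (nat_lit 0) (nat_lit 18054399685) (nat_lit 228) (nat_lit 7754834126)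 (nat_lit 76) (nat_lit 26176484583) (nat_lit 9) (nat_lit 5) (nat_lit 12) (nat_lit 5) (nat_lit 10) (nat_lit 4) (nat_lit 379) (nat_lit 259) (nat_lit 142)) (XT.nd (nat_lit 78) (nat_lit 0) (nat_lit 0) (XT.lf (nat_lit 0) (nat_lit 242761889) (nat_lit 76) (nat_lit 21772049256) (nat_lit 152) (nat_lit 31383539949) (nat_lit 8) (nat_lit 5) (nat_lit 9) (nat_lit 5) (nat_lit 10) (nat_lit 4) (nat_lit 380) (nat_lit 259) (nat_lit 141)) (XT.lf (nat_lit 0) (nat_lit 8625000568) (nat_lit 76) (nat_lit 17539098007) (nat_lit 152) (nat_lit 28687169631) (nat_lit 8) (nat_lit 5) (nat_lit 9) (nat_lit 5) (nat_lit 10) (nat_lit 4) (nat_lit 381) (nat_lit 259) (nat_lit 140)))) (XT.nd (nat_lit 78) (nat_lit 0) (nat_lit 0) (XT.lf (nat_lit 0) (nat_lit 17244869792) (nat_lit 76) (nat_lit 13184989989) (nat_lit 152) (nat_lit 25918160322) (nat_lit 8) (nat_lit 5) (nat_lit 9) (nat_lit 5) (nat_lit 10) (nat_lit 4) (nat_lit 382) (nat_lit 259)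 (nat_lit 139)) (XT.nd (nat_lit 78) (nat_lit 0) (nat_lit 0) (XT.lf (nat_lit 0) (nat_lit 26109901484) (nat_lit 76) (nat_lit 8705920641) (nat_lit 152) (nat_lit 23074092500) (nat_lit 8) (nat_lit 5) (nat_lit 9) (nat_lit 5) (nat_lit 10) (nat_lit 4) (nat_lit 383) (nat_lit 259) (nat_lit 138)) (XT.lf (nat_lit 0) (nat_lit 35227841790) (nat_lit 76) (nat_lit 4097976214) (nat_lit 152) (nat_lit 20152481057) (nat_lit 8) (nat_lit 5) (nat_lit 9) (nat_lit 5) (nat_lit 10) (nat_lit 4) (nat_lit 384) (nat_lit 259) (nat_lit 137))))))))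
noncomputable def xc110 : XT := (XT.nd (nat_lit 31668) (nat_lit 0) (nat_lit 9576) (XT.nd (nat_lit 858) (nat_lit 76) (nat_lit 0) (XT.nd (nat_lit 390) (nat_lit 76) (nat_lit 0) (XT.nd (nat_lit 156) (nat_lit 76) (nat_lit 0) (XT.nd (nat_lit 78) (nat_lit 0) (nat_lit 0) (XT.lf (nat_lit 0) (nat_lit 43969967846) (nat_lit 152) (nat_lit 16514083134) (nat_lit 0) (nat_lit 630324948) (nat_lit 8) (nat_lit 5) (nat_lit 10) (nat_lit 4) (nat_lit 8) (nat_lit 4) (nat_lit 385) (nat_lit 259) (nat_lit 136)) (XT.lf (nat_lit 0) (nat_lit 48786854194) (nat_lit 152) (nat_lit 8598655338) (nat_lit 0) (nat_lit 5413029540) (nat_lit 8) (nat_lit 5) (nat_lit 10) (nat_lit 4) (nat_lit 8) (nat_lit 4) (nat_lit 386) (nat_lit 259) (nat_lit 135))) (XT.nd (nat_lit 78) (nat_lit 76) (nat_lit 0) (XT.lf (nat_lit 0) (nat_lit 53741293724) (nat_lit 152) (nat_lit 457865237) (nat_lit 0) (nat_lit 10334282899) (nat_lit 8) (nat_lit 5) (nat_lit 10)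 (nat_lit 4) (nat_lit 8) (nat_lit 4) (nat_lit 387) (nat_lit 259) (nat_lit 134)) (XT.nd (nat_lit 78) (nat_lit 0) (nat_lit 0) (XT.lf (nat_lit 0) (nat_lit 8072932470) (nat_lit 76) (nat_lit 50842285052) (nat_lit 76) (nat_lit 7403054644) (nat_lit 7) (nat_lit 4) (nat_lit 8) (nat_lit 5) (nat_lit 8) (nat_lit 4) (nat_lit 388) (nat_lit 259) (nat_lit 133)) (XT.lf (nat_lit 0) (nat_lit 16857406990) (nat_lit 76) (nat_lit 47384909510) (nat_lit 76) (nat_lit 3914397953) (nat_lit 7) (nat_lit 4) (nat_lit 8) (nat_lit 5) (nat_lit 8) (nat_lit 4) (nat_lit 389) (nat_lit 259) (nat_lit 132))))) (XT.nd (nat_lit 234) (nat_lit 0) (nat_lit 0) (XT.nd (nat_lit 78) (nat_lit 76) (nat_lit 0) (XT.lf (nat_lit 0) (nat_lit 25894121659) (nat_lit 76) (nat_lit 43828634868) (nat_lit 76) (nat_lit 327753264) (nat_lit 7) (nat_lit 4) (nat_lit 8) (nat_lit 5) (nat_lit 8) (nat_lit 4) (nat_lit 390) (nat_lit 259) (nat_lit 131)) (XT.nd (nat_lit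 78) (nat_lit 0) (nat_lit 0) (XT.lf (nat_lit 0) (nat_lit 3294447421) (nat_lit 152) (nat_lit 36842638821) (nat_lit 76) (nat_lit 31863257756) (nat_lit 6) (nat_lit 5) (nat_lit 8) (nat_lit 5) (nat_lit 7) (nat_lit 4) (nat_lit 391) (nat_lit 259) (nat_lit 130)) (XT.lf (nat_lit 0) (nat_lit 7012560607) (nat_lit 152) (nat_lit 29323495735) (nat_lit 76) (nat_lit 37672709664) (nat_lit 6) (nat_lit 5) (nat_lit 8) (nat_lit 5) (nat_lit 7) (nat_lit 4) (nat_lit 392) (nat_lit 259) (nat_lit 129)))) (XT.nd (nat_lit 78) (nat_lit 0) (nat_lit 0) (XT.lf (nat_lit 0) (nat_lit 10836230778) (nat_lit 152) (nat_lit 21589238184) (nat_lit 76) (nat_lit 43652156303) (nat_lit 6) (nat_lit 5) (nat_lit 8) (nat_lit 5) (nat_lit 7) (nat_lit 4) (nat_lit 393) (nat_lit 259) (nat_lit 128)) (XT.nd (nat_lit 78) (nat_lit 0) (nat_lit 0) (XT.lf (nat_lit 0) (nat_lit 14768799004) (nat_lit 152) (nat_lit 13633108080) (nat_lit 76) (nat_lit 49806822432)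 (nat_lit 6) (nat_lit 5) (nat_lit 8) (nat_lit 5) (nat_lit 7) (nat_lit 4) (nat_lit 394) (nat_lit 259) (nat_lit 127)) (XT.lf (nat_lit 0) (nat_lit 18813701509) (nat_lit 152) (nat_lit 5448153463) (nat_lit 76) (nat_lit 56142085916) (nat_lit 6) (nat_lit 5) (nat_lit 8) (nat_lit 5) (nat_lit 7) (nat_lit 4) (nat_lit 395) (nat_lit 259) (nat_lit 126)))))) (XT.nd (nat_lit 30342) (nat_lit 0) (nat_lit 18544) (XT.nd (nat_lit 30108) (nat_lit 0) (nat_lit 19380) (XT.nd (nat_lit 30030) (nat_lit 0) (nat_lit 19608) (XT.lf (nat_lit 0) (nat_lit 3031941670) (nat_lit 76) (nat_lit 19971675884) (nat_lit 152) (nat_lit 59660685629) (nat_lit 5) (nat_lit 5) (nat_lit 6) (nat_lit 5) (nat_lit 7) (nat_lit 4) (nat_lit 396) (nat_lit 259) (nat_lit 125)) (XT.lf (nat_lit 0) (nat_lit 1073741823) (nat_lit 0) (nat_lit 0) (nat_lit 0) (nat_lit 0) (nat_lit 263) (nat_lit 0) (nat_lit 1) (nat_lit 0) (nat_lit 1) (nat_lit 0) (nat_lit 260) (nat_lit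 260) (nat_lit 260))) (XT.nd (nat_lit 78) (nat_lit 152) (nat_lit 0) (XT.lf (nat_lit 0) (nat_lit 2769146619) (nat_lit 76) (nat_lit 3619797834) (nat_lit 0) (nat_lit 54560493) (nat_lit 262) (nat_lit 5) (nat_lit 263) (nat_lit 0) (nat_lit 262) (nat_lit 4) (nat_lit 261) (nat_lit 260) (nat_lit 259)) (XT.nd (nat_lit 78) (nat_lit 152) (nat_lit 0) (XT.lf (nat_lit 0) (nat_lit 5513835790) (nat_lit 76) (nat_lit 770739746) (nat_lit 0) (nat_lit 163729154) (nat_lit 262) (nat_lit 5) (nat_lit 263) (nat_lit 0) (nat_lit 262) (nat_lit 4) (nat_lit 262) (nat_lit 260) (nat_lit 258)) (XT.lf (nat_lit 0) (nat_lit 1765748278) (nat_lit 152) (nat_lit 4324395408) (nat_lit 76) (nat_lit 365571579) (nat_lit 260) (nat_lit 5) (nat_lit 262) (nat_lit 5) (nat_lit 261) (nat_lit 4) (nat_lit 263) (nat_lit 260) (nat_lit 257))))) (XT.nd (nat_lit 234) (nat_lit 608) (nat_lit 0) (XT.nd (nat_lit 78) (nat_lit 228) (nat_lit 0) (XT.lf (nat_lit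 0) (nat_lit 4432692439) (nat_lit 152) (nat_lit 1394729613) (nat_lit 76) (nat_lit 638960210) (nat_lit 260) (nat_lit 5) (nat_lit 262) (nat_lit 5) (nat_lit 261) (nat_lit 4) (nat_lit 264) (nat_lit 260) (nat_lit 256)) (XT.nd (nat_lit 78) (nat_lit 0) (nat_lit 0) (XT.lf (nat_lit 0) (nat_lit 602310681) (nat_lit 228) (nat_lit 4889086847) (nat_lit 76) (nat_lit 988778148) (nat_lit 257) (nat_lit 5) (nat_lit 260) (nat_lit 5) (nat_lit 258) (nat_lit 5) (nat_lit 265) (nat_lit 260) (nat_lit 255)) (XT.lf (nat_lit 0) (nat_lit 3191391344) (nat_lit 228) (nat_lit 1877813651) (nat_lit 76) (nat_lit 1427536404) (nat_lit 257) (nat_lit 5) (nat_lit 260) (nat_lit 5) (nat_lit 258) (nat_lit 5) (nat_lit 266) (nat_lit 260) (nat_lit 254)))) (XT.nd (nat_lit 78) (nat_lit 380) (nat_lit 0) (XT.lf (nat_lit 0) (nat_lit 1190078016) (nat_lit 228) (nat_lit 4583051621) (nat_lit 304) (nat_lit 743621826) (nat_lit 254) (nat_lit 5) (nat_lit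 257) (nat_lit 5) (nat_lit 258) (nat_lit 5) (nat_lit 267) (nat_lit 260) (nat_lit 253)) (XT.nd (nat_lit 78) (nat_lit 304) (nat_lit 0) (XT.lf (nat_lit 0) (nat_lit 1781633188) (nat_lit 304) (nat_lit 2225355332) (nat_lit 76) (nat_lit 2532491407) (nat_lit 253) (nat_lit 5) (nat_lit 257) (nat_lit 5) (nat_lit 254) (nat_lit 5) (nat_lit 268) (nat_lit 260) (nat_lit 252)) (XT.lf (nat_lit 0) (nat_lit 922694433) (nat_lit 304) (nat_lit 3361158762) (nat_lit 380) (nat_lit 2281694815) (nat_lit 249) (nat_lit 5) (nat_lit 253) (nat_lit 5) (nat_lit 254) (nat_lit 5) (nat_lit 269) (nat_lit 260) (nat_lit 251))))))) (XT.nd (nat_lit 858) (nat_lit 6004) (nat_lit 0) (XT.nd (nat_lit 390) (nat_lit 1976) (nat_lit 0) (XT.nd (nat_lit 156) (nat_lit 532) (nat_lit 0) (XT.nd (nat_lit 78) (nat_lit 380) (nat_lit 0) (XT.lf (nat_lit 0) (nat_lit 194391671) (nat_lit 380) (nat_lit 2442287935) (nat_lit 76) (nat_lit 3958056597) (nat_lit 248)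 (nat_lit 5) (nat_lit 253) (nat_lit 5) (nat_lit 249) (nat_lit 5) (nat_lit 270) (nat_lit 260) (nat_lit 250)) (XT.lf (nat_lit 0) (nat_lit 790268859) (nat_lit 380) (nat_lit 1827102327) (nat_lit 456) (nat_lit 4009529433) (nat_lit 243) (nat_lit 5) (nat_lit 248) (nat_lit 5) (nat_lit 249) (nat_lit 5) (nat_lit 271) (nat_lit 260) (nat_lit 249))) (XT.nd (nat_lit 78) (nat_lit 532) (nat_lit 0) (XT.lf (nat_lit 0) (nat_lit 4113568502) (nat_lit 380) (nat_lit 937062334) (nat_lit 456) (nat_lit 1611594145) (nat_lit 243) (nat_lit 5) (nat_lit 248) (nat_lit 5) (nat_lit 249) (nat_lit 5) (nat_lit 272) (nat_lit 260) (nat_lit 248)) (XT.nd (nat_lit 78) (nat_lit 0) (nat_lit 0) (XT.lf (nat_lit 0) (nat_lit 763670457) (nat_lit 532) (nat_lit 5912824310) (nat_lit 76) (nat_lit 24506826) (nat_lit 236) (nat_lit 5) (nat_lit 243) (nat_lit 5) (nat_lit 237) (nat_lit 5) (nat_lit 273) (nat_lit 260) (nat_lit 247)) (XT.lf (nat_lit 0)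 (nat_lit 3129612488) (nat_lit 532) (nat_lit 2547482341) (nat_lit 76) (nat_lit 1065109004) (nat_lit 236) (nat_lit 5) (nat_lit 243) (nat_lit 5) (nat_lit 237) (nat_lit 5) (nat_lit 274) (nat_lit 260) (nat_lit 246))))) (XT.nd (nat_lit 234) (nat_lit 760) (nat_lit 0) (XT.nd (nat_lit 78) (nat_lit 684) (nat_lit 0) (XT.lf (nat_lit 0) (nat_lit 878501538) (nat_lit 532) (nat_lit 4615448598) (nat_lit 608) (nat_lit 1293156228) (nat_lit 229) (nat_lit 5) (nat_lit 236) (nat_lit 5) (nat_lit 237) (nat_lit 5) (nat_lit 275) (nat_lit 260) (nat_lit 245)) (XT.nd (nat_lit 78) (nat_lit 608) (nat_lit 0) (XT.lf (nat_lit 0) (nat_lit 1020185488) (nat_lit 608) (nat_lit 2442652786) (nat_lit 76) (nat_lit 3372100730) (nat_lit 228) (nat_lit 5) (nat_lit 236) (nat_lit 5) (nat_lit 229) (nat_lit 5) (nat_lit 276) (nat_lit 260) (nat_lit 244)) (XT.lf (nat_lit 0) (nat_lit 1078465066) (nat_lit 608) (nat_lit 2230904587) (nat_lit 684) (nat_lit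 3576742275) (nat_lit 220) (nat_lit 5) (nat_lit 228) (nat_lit 5) (nat_lit 229) (nat_lit 5) (nat_lit 277) (nat_lit 260) (nat_lit 243)))) (XT.nd (nat_lit 78) (nat_lit 760) (nat_lit 0) (XT.lf (nat_lit 0) (nat_lit 4698793832) (nat_lit 608) (nat_lit 916894853) (nat_lit 684) (nat_lit 1324932345) (nat_lit 220) (nat_lit 5) (nat_lit 228) (nat_lit 5) (nat_lit 229) (nat_lit 5) (nat_lit 278) (nat_lit 260) (nat_lit 242)) (XT.nd (nat_lit 78) (nat_lit 0) (nat_lit 0) (XT.lf (nat_lit 0) (nat_lit 918045528) (nat_lit 760) (nat_lit 5611176759) (nat_lit 76) (nat_lit 469205934) (nat_lit 210) (nat_lit 5) (nat_lit 220) (nat_lit 5) (nat_lit 211) (nat_lit 5) (nat_lit 279) (nat_lit 260) (nat_lit 241)) (XT.lf (nat_lit 0) (nat_lit 3160472168) (nat_lit 760) (nat_lit 1967178528) (nat_lit 76) (nat_lit 1931394861) (nat_lit 210) (nat_lit 5) (nat_lit 220) (nat_lit 5) (nat_lit 211) (nat_lit 5) (nat_lit 280) (nat_lit 260) (nat_lit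 240)))))) (XT.nd (nat_lit 468) (nat_lit 3344) (nat_lit 0) (XT.nd (nat_lit 234) (nat_lit 988) (nat_lit 0) (XT.nd (nat_lit 78) (nat_lit 912) (nat_lit 0) (XT.lf (nat_lit 0) (nat_lit 1763636753) (nat_lit 760) (nat_lit 3652467518) (nat_lit 836) (nat_lit 1707225522) (nat_lit 200) (nat_lit 5) (nat_lit 210) (nat_lit 5) (nat_lit 211) (nat_lit 5) (nat_lit 281) (nat_lit 260) (nat_lit 239)) (XT.nd (nat_lit 78) (nat_lit 836) (nat_lit 0) (XT.lf (nat_lit 0) (nat_lit 488797070) (nat_lit 836) (nat_lit 1605701384) (nat_lit 76) (nat_lit 5096608976) (nat_lit 199) (nat_lit 5) (nat_lit 210) (nat_lit 5) (nat_lit 200) (nat_lit 5) (nat_lit 282) (nat_lit 260) (nat_lit 238)) (XT.lf (nat_lit 0) (nat_lit 2231261114) (nat_lit 836) (nat_lit 438227101) (nat_lit 912) (nat_lit 4592537194) (nat_lit 188) (nat_lit 5) (nat_lit 199) (nat_lit 5) (nat_lit 200) (nat_lit 5) (nat_lit 283) (nat_lit 260) (nat_lit 237)))) (XT.nd (nat_lit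 78) (nat_lit 988) (nat_lit 0) (XT.lf (nat_lit 0) (nat_lit 4877376655) (nat_lit 912) (nat_lit 1188732401) (nat_lit 76) (nat_lit 1270309693) (nat_lit 188) (nat_lit 5) (nat_lit 200) (nat_lit 5) (nat_lit 189) (nat_lit 5) (nat_lit 284) (nat_lit 260) (nat_lit 236)) (XT.nd (nat_lit 78) (nat_lit 76) (nat_lit 0) (XT.lf (nat_lit 0) (nat_lit 2761755165) (nat_lit 912) (nat_lit 4355793695) (nat_lit 988) (nat_lit 296708876) (nat_lit 176) (nat_lit 5) (nat_lit 188) (nat_lit 5) (nat_lit 189) (nat_lit 5) (nat_lit 285) (nat_lit 260) (nat_lit 235)) (XT.lf (nat_lit 0) (nat_lit 1840644335) (nat_lit 988) (nat_lit 714891958) (nat_lit 76) (nat_lit 4940088311) (nat_lit 175) (nat_lit 5) (nat_lit 188) (nat_lit 5) (nat_lit 176) (nat_lit 5) (nat_lit 286) (nat_lit 260) (nat_lit 234))))) (XT.nd (nat_lit 234) (nat_lit 1216) (nat_lit 0) (XT.nd (nat_lit 78) (nat_lit 1140) (nat_lit 0) (XT.lf (nat_lit 0) (nat_lit 3347632220) (nat_lit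 988) (nat_lit 658272903) (nat_lit 1064) (nat_lit 3574525399) (nat_lit 162) (nat_lit 5) (nat_lit 175) (nat_lit 5) (nat_lit 176) (nat_lit 5) (nat_lit 287) (nat_lit 260) (nat_lit 233)) (XT.nd (nat_lit 78) (nat_lit 1140) (nat_lit 0) (XT.lf (nat_lit 0) (nat_lit 6194789893) (nat_lit 1064) (nat_lit 190528332) (nat_lit 76) (nat_lit 1283875895) (nat_lit 162) (nat_lit 5) (nat_lit 176) (nat_lit 5) (nat_lit 163) (nat_lit 5) (nat_lit 288) (nat_lit 260) (nat_lit 232)) (XT.lf (nat_lit 0) (nat_lit 660531729) (nat_lit 1140) (nat_lit 3778827372) (nat_lit 76) (nat_lit 3321668921) (nat_lit 147) (nat_lit 5) (nat_lit 162) (nat_lit 5) (nat_lit 148) (nat_lit 5) (nat_lit 289) (nat_lit 260) (nat_lit 231)))) (XT.nd (nat_lit 78) (nat_lit 532) (nat_lit 0) (XT.lf (nat_lit 0) (nat_lit 364712928) (nat_lit 684) (nat_lit 2411779069) (nat_lit 760) (nat_lit 5080447460) (nat_lit 138) (nat_lit 5) (nat_lit 147) (nat_lit 5) (nat_lit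 148) (nat_lit 5) (nat_lit 290) (nat_lit 260) (nat_lit 230)) (XT.nd (nat_lit 78) (nat_lit 532) (nat_lit 0) (XT.lf (nat_lit 0) (nat_lit 4654328366) (nat_lit 684) (nat_lit 282101281) (nat_lit 760) (nat_lit 3020037769) (nat_lit 138) (nat_lit 5) (nat_lit 147) (nat_lit 5) (nat_lit 148) (nat_lit 5) (nat_lit 291) (nat_lit 260) (nat_lit 229)) (XT.lf (nat_lit 0) (nat_lit 958053312) (nat_lit 532) (nat_lit 6174733306) (nat_lit 608) (nat_lit 927195612) (nat_lit 131) (nat_lit 5) (nat_lit 138) (nat_lit 5) (nat_lit 139) (nat_lit 5) (nat_lit 292) (nat_lit 260) (nat_lit 228))))))))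
noncomputable def xc111 : XT := (XT.nd (nat_lit 1794) (nat_lit 2736) (nat_lit 0) (XT.nd (nat_lit 858) (nat_lit 2356) (nat_lit 0) (XT.nd (nat_lit 390) (nat_lit 1444) (nat_lit 0) (XT.nd (nat_lit 156) (nat_lit 532) (nat_lit 0) (XT.nd (nat_lit 78) (nat_lit 532) (nat_lit 0) (XT.lf (nat_lit 0) (nat_lit 1185378694) (nat_lit 608) (nat_lit 2823408765) (nat_lit 76) (nat_lit 4158174296) (nat_lit 130) (nat_lit 5) (nat_lit 138) (nat_lit 5) (nat_lit 131) (nat_lit 5) (nat_lit 293) (nat_lit 260) (nat_lit 227)) (XT.lf (nat_lit 0) (nat_lit 1549556281) (nat_lit 532) (nat_lit 1754101143) (nat_lit 608) (nat_lit 4974525903) (nat_lit 123) (nat_lit 5) (nat_lit 130) (nat_lit 5) (nat_lit 131) (nat_lit 5) (nat_lit 294) (nat_lit 260) (nat_lit 226))) (XT.nd (nat_lit 78) (nat_lit 532) (nat_lit 0) (XT.lf (nat_lit 0) (nat_lit 5466840248) (nat_lit 608) (nat_lit 2342176985) (nat_lit 76) (nat_lit 584416601) (nat_lit 123) (nat_lit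 5) (nat_lit 131) (nat_lit 5) (nat_lit 124) (nat_lit 5) (nat_lit 295) (nat_lit 260) (nat_lit 225)) (XT.nd (nat_lit 78) (nat_lit 76) (nat_lit 0) (XT.lf (nat_lit 0) (nat_lit 2145874197) (nat_lit 456) (nat_lit 5535680337) (nat_lit 532) (nat_lit 831117335) (nat_lit 117) (nat_lit 5) (nat_lit 123) (nat_lit 5) (nat_lit 124) (nat_lit 5) (nat_lit 296) (nat_lit 260) (nat_lit 224)) (XT.lf (nat_lit 0) (nat_lit 1274206486) (nat_lit 532) (nat_lit 1886291729) (nat_lit 76) (nat_lit 5475541301) (nat_lit 116) (nat_lit 5) (nat_lit 123) (nat_lit 5) (nat_lit 117) (nat_lit 5) (nat_lit 297) (nat_lit 260) (nat_lit 223))))) (XT.nd (nat_lit 234) (nat_lit 532) (nat_lit 0) (XT.nd (nat_lit 78) (nat_lit 456) (nat_lit 0) (XT.lf (nat_lit 0) (nat_lit 2719980798) (nat_lit 456) (nat_lit 682632863) (nat_lit 532) (nat_lit 5361066952) (nat_lit 110) (nat_lit 5) (nat_lit 116) (nat_lit 5) (nat_lit 117) (nat_lit 5) (nat_lit 298) (nat_lit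 260) (nat_lit 222)) (XT.nd (nat_lit 78) (nat_lit 456) (nat_lit 0) (XT.lf (nat_lit 0) (nat_lit 5583453981) (nat_lit 532) (nat_lit 1464132827) (nat_lit 76) (nat_lit 1848021402) (nat_lit 110) (nat_lit 5) (nat_lit 117) (nat_lit 5) (nat_lit 111) (nat_lit 5) (nat_lit 299) (nat_lit 260) (nat_lit 221)) (XT.lf (nat_lit 0) (nat_lit 3256697844) (nat_lit 456) (nat_lit 4563875151) (nat_lit 532) (nat_lit 1211306390) (nat_lit 104) (nat_lit 5) (nat_lit 110) (nat_lit 5) (nat_lit 111) (nat_lit 5) (nat_lit 300) (nat_lit 260) (nat_lit 220)))) (XT.nd (nat_lit 78) (nat_lit 456) (nat_lit 0) (XT.lf (nat_lit 0) (nat_lit 902006103) (nat_lit 532) (nat_lit 1085365630) (nat_lit 76) (nat_lit 7185656409) (nat_lit 103) (nat_lit 5) (nat_lit 110) (nat_lit 5) (nat_lit 104) (nat_lit 5) (nat_lit 301) (nat_lit 260) (nat_lit 219)) (XT.nd (nat_lit 78) (nat_lit 0) (nat_lit 0) (XT.lf (nat_lit 0) (nat_lit 3051746180) (nat_lit 532) (nat_lit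 5570719754) (nat_lit 76) (nat_lit 695766308) (nat_lit 97) (nat_lit 5) (nat_lit 104) (nat_lit 5) (nat_lit 98) (nat_lit 5) (nat_lit 302) (nat_lit 260) (nat_lit 218)) (XT.lf (nat_lit 0) (nat_lit 5251954595) (nat_lit 532) (nat_lit 792368508) (nat_lit 76) (nat_lit 3423989016) (nat_lit 97) (nat_lit 5) (nat_lit 104) (nat_lit 5) (nat_lit 98) (nat_lit 5) (nat_lit 303) (nat_lit 260) (nat_lit 217)))))) (XT.nd (nat_lit 468) (nat_lit 1140) (nat_lit 0) (XT.nd (nat_lit 234) (nat_lit 380) (nat_lit 0) (XT.nd (nat_lit 78) (nat_lit 456) (nat_lit 0) (XT.lf (nat_lit 0) (nat_lit 4159286952) (nat_lit 380) (nat_lit 3355398491) (nat_lit 456) (nat_lit 2108409519) (nat_lit 92) (nat_lit 5) (nat_lit 97) (nat_lit 5) (nat_lit 98) (nat_lit 5) (nat_lit 304) (nat_lit 260) (nat_lit 216)) (XT.nd (nat_lit 78) (nat_lit 380) (nat_lit 0) (XT.lf (nat_lit 0) (nat_lit 26431558) (nat_lit 456) (nat_lit 558886336) (nat_lit 76) (nat_lit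 9198329445) (nat_lit 91) (nat_lit 5) (nat_lit 97) (nat_lit 5) (nat_lit 92) (nat_lit 5) (nat_lit 305) (nat_lit 260) (nat_lit 215)) (XT.lf (nat_lit 0) (nat_lit 2206709838) (nat_lit 456) (nat_lit 5460628190) (nat_lit 76) (nat_lit 2280426835) (nat_lit 86) (nat_lit 5) (nat_lit 92) (nat_lit 5) (nat_lit 87) (nat_lit 5) (nat_lit 306) (nat_lit 260) (nat_lit 214)))) (XT.nd (nat_lit 78) (nat_lit 380) (nat_lit 0) (XT.lf (nat_lit 0) (nat_lit 4422611467) (nat_lit 456) (nat_lit 477391655) (nat_lit 76) (nat_lit 5217781685) (nat_lit 86) (nat_lit 5) (nat_lit 92) (nat_lit 5) (nat_lit 87) (nat_lit 5) (nat_lit 307) (nat_lit 260) (nat_lit 213)) (XT.nd (nat_lit 78) (nat_lit 0) (nat_lit 0) (XT.lf (nat_lit 0) (nat_lit 4697590494) (nat_lit 380) (nat_lit 2012478326) (nat_lit 456) (nat_lit 3582767027) (nat_lit 81) (nat_lit 5) (nat_lit 86) (nat_lit 5) (nat_lit 87) (nat_lit 5) (nat_lit 308) (nat_lit 260) (nat_lit 212)) (XT.lf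 (nat_lit 0) (nat_lit 9040790176) (nat_lit 456) (nat_lit 494781464) (nat_lit 76) (nat_lit 938408013) (nat_lit 81) (nat_lit 5) (nat_lit 87) (nat_lit 5) (nat_lit 82) (nat_lit 5) (nat_lit 309) (nat_lit 260) (nat_lit 211))))) (XT.nd (nat_lit 234) (nat_lit 380) (nat_lit 0) (XT.nd (nat_lit 78) (nat_lit 304) (nat_lit 0) (XT.lf (nat_lit 0) (nat_lit 793418729) (nat_lit 456) (nat_lit 5884118025) (nat_lit 76) (nat_lit 3982038231) (nat_lit 75) (nat_lit 5) (nat_lit 81) (nat_lit 5) (nat_lit 76) (nat_lit 5) (nat_lit 310) (nat_lit 260) (nat_lit 210)) (XT.nd (nat_lit 78) (nat_lit 304) (nat_lit 0) (XT.lf (nat_lit 0) (nat_lit 3024948481) (nat_lit 456) (nat_lit 699882572) (nat_lit 76) (nat_lit 7126547170) (nat_lit 75) (nat_lit 5) (nat_lit 81) (nat_lit 5) (nat_lit 76) (nat_lit 5) (nat_lit 311) (nat_lit 260) (nat_lit 209)) (XT.lf (nat_lit 0) (nat_lit 4683703147) (nat_lit 304) (nat_lit 647736992) (nat_lit 380) (nat_lit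 5717326414) (nat_lit 71) (nat_lit 5) (nat_lit 75) (nat_lit 5) (nat_lit 76) (nat_lit 5) (nat_lit 312) (nat_lit 260) (nat_lit 208)))) (XT.nd (nat_lit 78) (nat_lit 380) (nat_lit 0) (XT.lf (nat_lit 0) (nat_lit 7702019146) (nat_lit 380) (nat_lit 1081195035) (nat_lit 76) (nat_lit 2469084965) (nat_lit 71) (nat_lit 5) (nat_lit 76) (nat_lit 5) (nat_lit 72) (nat_lit 5) (nat_lit 313) (nat_lit 260) (nat_lit 207)) (XT.nd (nat_lit 78) (nat_lit 76) (nat_lit 0) (XT.lf (nat_lit 0) (nat_lit 4393752867) (nat_lit 304) (nat_lit 5763189341) (nat_lit 380) (nat_lit 1304666080) (nat_lit 67) (nat_lit 5) (nat_lit 71) (nat_lit 5) (nat_lit 72) (nat_lit 5) (nat_lit 314) (nat_lit 260) (nat_lit 206)) (XT.lf (nat_lit 0) (nat_lit 964422012) (nat_lit 380) (nat_lit 1678624892) (nat_lit 76) (nat_lit 9034649079) (nat_lit 66) (nat_lit 5) (nat_lit 71) (nat_lit 5) (nat_lit 67) (nat_lit 5) (nat_lit 315) (nat_lit 260) (nat_lit 205)))))))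 (XT.nd (nat_lit 858) (nat_lit 1216) (nat_lit 0) (XT.nd (nat_lit 390) (nat_lit 608) (nat_lit 0) (XT.nd (nat_lit 156) (nat_lit 608) (nat_lit 0) (XT.nd (nat_lit 78) (nat_lit 0) (nat_lit 0) (XT.lf (nat_lit 0) (nat_lit 3284404938) (nat_lit 380) (nat_lit 8016151234) (nat_lit 76) (nat_lit 599112925) (nat_lit 62) (nat_lit 5) (nat_lit 67) (nat_lit 5) (nat_lit 63) (nat_lit 5) (nat_lit 316) (nat_lit 260) (nat_lit 204)) (XT.lf (nat_lit 0) (nat_lit 5683507150) (nat_lit 380) (nat_lit 2553401340) (nat_lit 76) (nat_lit 3891167179) (nat_lit 62) (nat_lit 5) (nat_lit 67) (nat_lit 5) (nat_lit 63) (nat_lit 5) (nat_lit 317) (nat_lit 260) (nat_lit 203))) (XT.nd (nat_lit 78) (nat_lit 304) (nat_lit 0) (XT.lf (nat_lit 0) (nat_lit 3088640468) (nat_lit 304) (nat_lit 5062847753) (nat_lit 380) (nat_lit 4211997159) (nat_lit 58) (nat_lit 5) (nat_lit 62) (nat_lit 5) (nat_lit 63) (nat_lit 5) (nat_lit 318) (nat_lit 260) (nat_lit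 202)) (XT.nd (nat_lit 78) (nat_lit 304) (nat_lit 0) (XT.lf (nat_lit 0) (nat_lit 8907864486) (nat_lit 304) (nat_lit 1779172348) (nat_lit 380) (nat_lit 1919171125) (nat_lit 58) (nat_lit 5) (nat_lit 62) (nat_lit 5) (nat_lit 63) (nat_lit 5) (nat_lit 319) (nat_lit 260) (nat_lit 201)) (XT.lf (nat_lit 0) (nat_lit 437236359) (nat_lit 304) (nat_lit 10834888463) (nat_lit 76) (nat_lit 1583910081) (nat_lit 54) (nat_lit 5) (nat_lit 58) (nat_lit 5) (nat_lit 55) (nat_lit 5) (nat_lit 320) (nat_lit 260) (nat_lit 200))))) (XT.nd (nat_lit 234) (nat_lit 304) (nat_lit 0) (XT.nd (nat_lit 78) (nat_lit 304) (nat_lit 0) (XT.lf (nat_lit 0) (nat_lit 2849801849) (nat_lit 304) (nat_lit 5205440980) (nat_lit 76) (nat_lit 5056874233) (nat_lit 54) (nat_lit 5) (nat_lit 58) (nat_lit 5) (nat_lit 55) (nat_lit 5) (nat_lit 321) (nat_lit 260) (nat_lit 199)) (XT.nd (nat_lit 78) (nat_lit 0) (nat_lit 0) (XT.lf (nat_lit 0) (nat_lit 560872282)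 (nat_lit 304) (nat_lit 4748882763) (nat_lit 380) (nat_lit 8066926449) (nat_lit 50) (nat_lit 5) (nat_lit 54) (nat_lit 5) (nat_lit 55) (nat_lit 5) (nat_lit 322) (nat_lit 260) (nat_lit 198)) (XT.lf (nat_lit 0) (nat_lit 6564340298) (nat_lit 304) (nat_lit 1301826524) (nat_lit 380) (nat_lit 5782384908) (nat_lit 50) (nat_lit 5) (nat_lit 54) (nat_lit 5) (nat_lit 55) (nat_lit 5) (nat_lit 323) (nat_lit 260) (nat_lit 197)))) (XT.nd (nat_lit 78) (nat_lit 304) (nat_lit 0) (XT.lf (nat_lit 0) (nat_lit 10491734589) (nat_lit 380) (nat_lit 1244383393) (nat_lit 76) (nat_lit 2192733434) (nat_lit 50) (nat_lit 5) (nat_lit 55) (nat_lit 5) (nat_lit 51) (nat_lit 5) (nat_lit 324) (nat_lit 260) (nat_lit 196)) (XT.nd (nat_lit 78) (nat_lit 76) (nat_lit 0) (XT.lf (nat_lit 0) (nat_lit 4810749082) (nat_lit 228) (nat_lit 8416150939) (nat_lit 304) (nat_lit 989781029) (nat_lit 47) (nat_lit 5) (nat_lit 50) (nat_lit 5) (nat_lit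 51) (nat_lit 5) (nat_lit 325) (nat_lit 260) (nat_lit 195)) (XT.lf (nat_lit 0) (nat_lit 1485603341) (nat_lit 304) (nat_lit 3495645056) (nat_lit 76) (nat_lit 9531963819) (nat_lit 46) (nat_lit 5) (nat_lit 50) (nat_lit 5) (nat_lit 47) (nat_lit 5) (nat_lit 326) (nat_lit 260) (nat_lit 194)))))) (XT.nd (nat_lit 468) (nat_lit 456) (nat_lit 0) (XT.nd (nat_lit 234) (nat_lit 532) (nat_lit 0) (XT.nd (nat_lit 78) (nat_lit 0) (nat_lit 0) (XT.lf (nat_lit 0) (nat_lit 2592863706) (nat_lit 228) (nat_lit 1420050175) (nat_lit 304) (nat_lit 10805546678) (nat_lit 43) (nat_lit 5) (nat_lit 46) (nat_lit 5) (nat_lit 47) (nat_lit 5) (nat_lit 327) (nat_lit 260) (nat_lit 193)) (XT.nd (nat_lit 78) (nat_lit 0) (nat_lit 0) (XT.lf (nat_lit 0) (nat_lit 6646232327) (nat_lit 304) (nat_lit 6258301528) (nat_lit 76) (nat_lit 2227467601) (nat_lit 43) (nat_lit 5) (nat_lit 47) (nat_lit 5) (nat_lit 44) (nat_lit 5) (nat_lit 328) (nat_lit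 260) (nat_lit 192)) (XT.lf (nat_lit 0) (nat_lit 9346329580) (nat_lit 304) (nat_lit 165096453) (nat_lit 76) (nat_lit 5943928741) (nat_lit 43) (nat_lit 5) (nat_lit 47) (nat_lit 5) (nat_lit 44) (nat_lit 5) (nat_lit 329) (nat_lit 260) (nat_lit 191)))) (XT.nd (nat_lit 78) (nat_lit 304) (nat_lit 0) (XT.lf (nat_lit 0) (nat_lit 6193857388) (nat_lit 228) (nat_lit 5967596316) (nat_lit 304) (nat_lit 3625972690) (nat_lit 40) (nat_lit 5) (nat_lit 43) (nat_lit 5) (nat_lit 44) (nat_lit 5) (nat_lit 330) (nat_lit 260) (nat_lit 190)) (XT.nd (nat_lit 78) (nat_lit 304) (nat_lit 0) (XT.lf (nat_lit 0) (nat_lit 12709423993) (nat_lit 228) (nat_lit 2328141820) (nat_lit 304) (nat_lit 1092635624) (nat_lit 40) (nat_lit 5) (nat_lit 43) (nat_lit 5) (nat_lit 44) (nat_lit 5) (nat_lit 331) (nat_lit 260) (nat_lit 189)) (XT.lf (nat_lit 0) (nat_lit 1504678865) (nat_lit 304) (nat_lit 13553634741) (nat_lit 76) (nat_lit 1424016693)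 (nat_lit 36) (nat_lit 5) (nat_lit 40) (nat_lit 5) (nat_lit 37) (nat_lit 5) (nat_lit 332) (nat_lit 260) (nat_lit 188))))) (XT.nd (nat_lit 234) (nat_lit 304) (nat_lit 0) (XT.nd (nat_lit 78) (nat_lit 152) (nat_lit 0) (XT.lf (nat_lit 0) (nat_lit 4191458619) (nat_lit 304) (nat_lit 7376678314) (nat_lit 76) (nat_lit 5275590484) (nat_lit 36) (nat_lit 5) (nat_lit 40) (nat_lit 5) (nat_lit 37) (nat_lit 5) (nat_lit 333) (nat_lit 260) (nat_lit 187)) (XT.nd (nat_lit 78) (nat_lit 152) (nat_lit 0) (XT.lf (nat_lit 0) (nat_lit 6935123955) (nat_lit 304) (nat_lit 1050583898) (nat_lit 76) (nat_lit 9231003270) (nat_lit 36) (nat_lit 5) (nat_lit 40) (nat_lit 5) (nat_lit 37) (nat_lit 5) (nat_lit 334) (nat_lit 260) (nat_lit 186)) (XT.lf (nat_lit 0) (nat_lit 5538247316) (nat_lit 152) (nat_lit 4253061958) (nat_lit 228) (nat_lit 7808700945) (nat_lit 34) (nat_lit 5) (nat_lit 36) (nat_lit 5) (nat_lit 37) (nat_lit 5) (nat_lit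 335) (nat_lit 260) (nat_lit 185)))) (XT.nd (nat_lit 78) (nat_lit 304) (nat_lit 0) (XT.lf (nat_lit 0) (nat_lit 12311506506) (nat_lit 152) (nat_lit 409591916) (nat_lit 228) (nat_lit 5274103556) (nat_lit 34) (nat_lit 5) (nat_lit 36) (nat_lit 5) (nat_lit 37) (nat_lit 5) (nat_lit 336) (nat_lit 260) (nat_lit 184)) (XT.nd (nat_lit 78) (nat_lit 76) (nat_lit 0) (XT.lf (nat_lit 0) (nat_lit 833523558) (nat_lit 228) (nat_lit 14925244498) (nat_lit 304) (nat_lit 2642912159) (nat_lit 31) (nat_lit 5) (nat_lit 34) (nat_lit 5) (nat_lit 35) (nat_lit 5) (nat_lit 337) (nat_lit 260) (nat_lit 183)) (XT.lf (nat_lit 0) (nat_lit 105851862) (nat_lit 304) (nat_lit 11195601082) (nat_lit 76) (nat_lit 7517710606) (nat_lit 30) (nat_lit 5) (nat_lit 34) (nat_lit 5) (nat_lit 31) (nat_lit 5) (nat_lit 338) (nat_lit 260) (nat_lit 182))))))))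
noncomputable def xc112 : XT := (XT.nd (nat_lit 1716) (nat_lit 684) (nat_lit 0) (XT.nd (nat_lit 858) (nat_lit 456) (nat_lit 0) (XT.nd (nat_lit 390) (nat_lit 228) (nat_lit 0) (XT.nd (nat_lit 156) (nat_lit 152) (nat_lit 0) (XT.nd (nat_lit 78) (nat_lit 152) (nat_lit 0) (XT.lf (nat_lit 0) (nat_lit 2862532369) (nat_lit 304) (nat_lit 4691502031) (nat_lit 76) (nat_lit 11695022514) (nat_lit 30) (nat_lit 5) (nat_lit 34) (nat_lit 5) (nat_lit 31) (nat_lit 5) (nat_lit 339) (nat_lit 260) (nat_lit 181)) (XT.lf (nat_lit 0) (nat_lit 2014539907) (nat_lit 152) (nat_lit 3685935930) (nat_lit 228) (nat_lit 13991441313) (nat_lit 28) (nat_lit 5) (nat_lit 30) (nat_lit 5) (nat_lit 31) (nat_lit 5) (nat_lit 340) (nat_lit 260) (nat_lit 180))) (XT.nd (nat_lit 78) (nat_lit 152) (nat_lit 0) (XT.lf (nat_lit 0) (nat_lit 8653650215) (nat_lit 228) (nat_lit 11164744906) (nat_lit 76) (nat_lit 328791456) (nat_lit 28) (nat_lit 5)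 (nat_lit 31) (nat_lit 5) (nat_lit 29) (nat_lit 5) (nat_lit 341) (nat_lit 260) (nat_lit 179)) (XT.nd (nat_lit 78) (nat_lit 152) (nat_lit 0) (XT.lf (nat_lit 0) (nat_lit 11711896806) (nat_lit 228) (nat_lit 4524977202) (nat_lit 76) (nat_lit 4378771170) (nat_lit 28) (nat_lit 5) (nat_lit 31) (nat_lit 5) (nat_lit 29) (nat_lit 5) (nat_lit 342) (nat_lit 260) (nat_lit 178)) (XT.lf (nat_lit 0) (nat_lit 2328598419) (nat_lit 152) (nat_lit 12536241885) (nat_lit 228) (nat_lit 6233253408) (nat_lit 26) (nat_lit 5) (nat_lit 28) (nat_lit 5) (nat_lit 29) (nat_lit 5) (nat_lit 343) (nat_lit 260) (nat_lit 177))))) (XT.nd (nat_lit 234) (nat_lit 0) (nat_lit 0) (XT.nd (nat_lit 78) (nat_lit 228) (nat_lit 0) (XT.lf (nat_lit 0) (nat_lit 9450016651) (nat_lit 152) (nat_lit 8688887103) (nat_lit 228) (nat_lit 3455339942) (nat_lit 26) (nat_lit 5) (nat_lit 28) (nat_lit 5) (nat_lit 29) (nat_lit 5) (nat_lit 344) (nat_lit 260) (nat_lit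 176)) (XT.nd (nat_lit 78) (nat_lit 228) (nat_lit 0) (XT.lf (nat_lit 0) (nat_lit 16755444173) (nat_lit 152) (nat_lit 4737141294) (nat_lit 228) (nat_lit 613274066) (nat_lit 26) (nat_lit 5) (nat_lit 28) (nat_lit 5) (nat_lit 29) (nat_lit 5) (nat_lit 345) (nat_lit 260) (nat_lit 175)) (XT.lf (nat_lit 0) (nat_lit 1627570813) (nat_lit 152) (nat_lit 638709908) (nat_lit 228) (nat_lit 20365976240) (nat_lit 23) (nat_lit 5) (nat_lit 25) (nat_lit 5) (nat_lit 26) (nat_lit 5) (nat_lit 346) (nat_lit 260) (nat_lit 174)))) (XT.nd (nat_lit 78) (nat_lit 0) (nat_lit 0) (XT.lf (nat_lit 0) (nat_lit 5290785714) (nat_lit 228) (nat_lit 14318623229) (nat_lit 76) (nat_lit 3562749787) (nat_lit 23) (nat_lit 5) (nat_lit 26) (nat_lit 5) (nat_lit 24) (nat_lit 5) (nat_lit 347) (nat_lit 260) (nat_lit 173)) (XT.nd (nat_lit 78) (nat_lit 0) (nat_lit 0) (XT.lf (nat_lit 0) (nat_lit 8394764532) (nat_lit 228) (nat_lit 7466774910) (nat_lit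 76) (nat_lit 7867076603) (nat_lit 23) (nat_lit 5) (nat_lit 26) (nat_lit 5) (nat_lit 24) (nat_lit 5) (nat_lit 348) (nat_lit 260) (nat_lit 172)) (XT.lf (nat_lit 0) (nat_lit 11574789721) (nat_lit 228) (nat_lit 437014469) (nat_lit 76) (nat_lit 12290495130) (nat_lit 23) (nat_lit 5) (nat_lit 26) (nat_lit 5) (nat_lit 24) (nat_lit 5) (nat_lit 349) (nat_lit 260) (nat_lit 171)))))) (XT.nd (nat_lit 390) (nat_lit 152) (nat_lit 0) (XT.nd (nat_lit 156) (nat_lit 152) (nat_lit 0) (XT.nd (nat_lit 78) (nat_lit 0) (nat_lit 0) (XT.lf (nat_lit 0) (nat_lit 6911672222) (nat_lit 152) (nat_lit 7988406942) (nat_lit 228) (nat_lit 9991637492) (nat_lit 21) (nat_lit 5) (nat_lit 23) (nat_lit 5) (nat_lit 24) (nat_lit 5) (nat_lit 350) (nat_lit 260) (nat_lit 170)) (XT.lf (nat_lit 0) (nat_lit 14463202821) (nat_lit 152) (nat_lit 3849989070) (nat_lit 228) (nat_lit 7186001585) (nat_lit 21) (nat_lit 5) (nat_lit 23) (nat_lit 5) (nat_lit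 24) (nat_lit 5) (nat_lit 351) (nat_lit 260) (nat_lit 169))) (XT.nd (nat_lit 78) (nat_lit 152) (nat_lit 0) (XT.lf (nat_lit 0) (nat_lit 21816696320) (nat_lit 228) (nat_lit 3913781353) (nat_lit 76) (nat_lit 394795328) (nat_lit 21) (nat_lit 5) (nat_lit 24) (nat_lit 5) (nat_lit 22) (nat_lit 4) (nat_lit 352) (nat_lit 260) (nat_lit 168)) (XT.nd (nat_lit 78) (nat_lit 76) (nat_lit 0) (XT.lf (nat_lit 0) (nat_lit 3425380030) (nat_lit 76) (nat_lit 22055468815) (nat_lit 152) (nat_lit 1287637592) (nat_lit 20) (nat_lit 5) (nat_lit 21) (nat_lit 5) (nat_lit 22) (nat_lit 4) (nat_lit 353) (nat_lit 260) (nat_lit 167)) (XT.lf (nat_lit 0) (nat_lit 1812789499) (nat_lit 152) (nat_lit 16408301848) (nat_lit 76) (nat_lit 9208662202) (nat_lit 19) (nat_lit 5) (nat_lit 21) (nat_lit 5) (nat_lit 20) (nat_lit 5) (nat_lit 354) (nat_lit 260) (nat_lit 166))))) (XT.nd (nat_lit 234) (nat_lit 0) (nat_lit 0) (XT.nd (nat_lit 78) (nat_lit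 152) (nat_lit 0) (XT.lf (nat_lit 0) (nat_lit 4965337949) (nat_lit 152) (nat_lit 9302971089) (nat_lit 76) (nat_lit 13842633810) (nat_lit 19) (nat_lit 5) (nat_lit 21) (nat_lit 5) (nat_lit 20) (nat_lit 5) (nat_lit 355) (nat_lit 260) (nat_lit 165)) (XT.nd (nat_lit 78) (nat_lit 152) (nat_lit 0) (XT.lf (nat_lit 0) (nat_lit 8197888858) (nat_lit 152) (nat_lit 2008528030) (nat_lit 76) (nat_lit 18606603988) (nat_lit 19) (nat_lit 5) (nat_lit 21) (nat_lit 5) (nat_lit 20) (nat_lit 5) (nat_lit 356) (nat_lit 260) (nat_lit 164)) (XT.lf (nat_lit 0) (nat_lit 5590491745) (nat_lit 152) (nat_lit 5976514265) (nat_lit 228) (nat_lit 17967982910) (nat_lit 17) (nat_lit 5) (nat_lit 19) (nat_lit 5) (nat_lit 20) (nat_lit 5) (nat_lit 357) (nat_lit 260) (nat_lit 163)))) (XT.nd (nat_lit 78) (nat_lit 0) (nat_lit 0) (XT.lf (nat_lit 0) (nat_lit 13435536657) (nat_lit 152) (nat_lit 1607982599) (nat_lit 228) (nat_lit 15234921991)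 (nat_lit 17) (nat_lit 5) (nat_lit 19) (nat_lit 5) (nat_lit 20) (nat_lit 5) (nat_lit 358) (nat_lit 260) (nat_lit 162)) (XT.nd (nat_lit 78) (nat_lit 0) (nat_lit 0) (XT.lf (nat_lit 0) (nat_lit 18638485278) (nat_lit 228) (nat_lit 9578840670) (nat_lit 76) (nat_lit 2826460962) (nat_lit 17) (nat_lit 5) (nat_lit 20) (nat_lit 5) (nat_lit 18) (nat_lit 4) (nat_lit 359) (nat_lit 260) (nat_lit 161)) (XT.lf (nat_lit 0) (nat_lit 22343979639) (nat_lit 228) (nat_lit 2134892505) (nat_lit 76) (nat_lit 7353154483) (nat_lit 17) (nat_lit 5) (nat_lit 20) (nat_lit 5) (nat_lit 18) (nat_lit 4) (nat_lit 360) (nat_lit 260) (nat_lit 160))))))) (XT.nd (nat_lit 858) (nat_lit 304) (nat_lit 0) (XT.nd (nat_lit 390) (nat_lit 76) (nat_lit 0) (XT.nd (nat_lit 156) (nat_lit 228) (nat_lit 0) (XT.nd (nat_lit 78) (nat_lit 0) (nat_lit 0) (XT.lf (nat_lit 0) (nat_lit 5620578979) (nat_lit 76) (nat_lit 20581232700) (nat_lit 152) (nat_lit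 6440880323) (nat_lit 16) (nat_lit 5) (nat_lit 17) (nat_lit 5) (nat_lit 18) (nat_lit 4) (nat_lit 361) (nat_lit 260) (nat_lit 159)) (XT.lf (nat_lit 0) (nat_lit 13631215462) (nat_lit 76) (nat_lit 16553035901) (nat_lit 152) (nat_lit 3293173051) (nat_lit 16) (nat_lit 5) (nat_lit 17) (nat_lit 5) (nat_lit 18) (nat_lit 4) (nat_lit 362) (nat_lit 260) (nat_lit 158))) (XT.nd (nat_lit 78) (nat_lit 228) (nat_lit 0) (XT.lf (nat_lit 0) (nat_lit 21861527983) (nat_lit 76) (nat_lit 12412320192) (nat_lit 152) (nat_lit 63732977) (nat_lit 16) (nat_lit 5) (nat_lit 17) (nat_lit 5) (nat_lit 18) (nat_lit 4) (nat_lit 363) (nat_lit 260) (nat_lit 157)) (XT.nd (nat_lit 78) (nat_lit 152) (nat_lit 0) (XT.lf (nat_lit 0) (nat_lit 3186837426) (nat_lit 152) (nat_lit 4936449234) (nat_lit 76) (nat_lit 27099689842) (nat_lit 15) (nat_lit 5) (nat_lit 17) (nat_lit 5) (nat_lit 16) (nat_lit 5) (nat_lit 364) (nat_lit 260) (nat_lit 156))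 (XT.lf (nat_lit 0) (nat_lit 2864913166) (nat_lit 152) (nat_lit 3684534196) (nat_lit 228) (nat_lit 29585005096) (nat_lit 13) (nat_lit 5) (nat_lit 15) (nat_lit 5) (nat_lit 16) (nat_lit 5) (nat_lit 365) (nat_lit 260) (nat_lit 155))))) (XT.nd (nat_lit 234) (nat_lit 76) (nat_lit 0) (XT.nd (nat_lit 78) (nat_lit 0) (nat_lit 0) (XT.lf (nat_lit 0) (nat_lit 10060149808) (nat_lit 228) (nat_lit 26099084933) (nat_lit 76) (nat_lit 912632961) (nat_lit 13) (nat_lit 5) (nat_lit 16) (nat_lit 5) (nat_lit 14) (nat_lit 4) (nat_lit 366) (nat_lit 260) (nat_lit 154)) (XT.nd (nat_lit 78) (nat_lit 0) (nat_lit 0) (XT.lf (nat_lit 0) (nat_lit 13701335569) (nat_lit 228) (nat_lit 18769213892) (nat_lit 76) (nat_lit 5566112177) (nat_lit 13) (nat_lit 5) (nat_lit 16) (nat_lit 5) (nat_lit 14) (nat_lit 4) (nat_lit 367) (nat_lit 260) (nat_lit 153)) (XT.lf (nat_lit 0) (nat_lit 17440768267) (nat_lit 228) (nat_lit 11238103432) (nat_lit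 76) (nat_lit 10351868132) (nat_lit 13) (nat_lit 5) (nat_lit 16) (nat_lit 5) (nat_lit 14) (nat_lit 4) (nat_lit 368) (nat_lit 260) (nat_lit 152)))) (XT.nd (nat_lit 78) (nat_lit 76) (nat_lit 0) (XT.lf (nat_lit 0) (nat_lit 21281715367) (nat_lit 228) (nat_lit 3499172970) (nat_lit 76) (nat_lit 15274082553) (nat_lit 13) (nat_lit 5) (nat_lit 16) (nat_lit 5) (nat_lit 14) (nat_lit 4) (nat_lit 369) (nat_lit 260) (nat_lit 151)) (XT.nd (nat_lit 78) (nat_lit 0) (nat_lit 0) (XT.lf (nat_lit 0) (nat_lit 4542989758) (nat_lit 76) (nat_lit 20728213275) (nat_lit 152) (nat_lit 15837736644) (nat_lit 12) (nat_lit 5) (nat_lit 13) (nat_lit 5) (nat_lit 14) (nat_lit 4) (nat_lit 370) (nat_lit 260) (nat_lit 150)) (XT.lf (nat_lit 0) (nat_lit 12880733654) (nat_lit 76) (nat_lit 16524752916) (nat_lit 152) (nat_lit 12788297485) (nat_lit 12) (nat_lit 5) (nat_lit 13) (nat_lit 5) (nat_lit 14) (nat_lit 4) (nat_lit 371) (nat_lit 260)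 (nat_lit 149)))))) (XT.nd (nat_lit 468) (nat_lit 76) (nat_lit 0) (XT.nd (nat_lit 234) (nat_lit 228) (nat_lit 0) (XT.nd (nat_lit 78) (nat_lit 0) (nat_lit 0) (XT.lf (nat_lit 0) (nat_lit 21451703720) (nat_lit 76) (nat_lit 12202169120) (nat_lit 152) (nat_lit 9657608273) (nat_lit 12) (nat_lit 5) (nat_lit 13) (nat_lit 5) (nat_lit 14) (nat_lit 4) (nat_lit 372) (nat_lit 260) (nat_lit 148)) (XT.nd (nat_lit 78) (nat_lit 0) (nat_lit 0) (XT.lf (nat_lit 0) (nat_lit 30263389153) (nat_lit 76) (nat_lit 7756684872) (nat_lit 152) (nat_lit 6442933456) (nat_lit 12) (nat_lit 5) (nat_lit 13) (nat_lit 5) (nat_lit 14) (nat_lit 4) (nat_lit 373) (nat_lit 260) (nat_lit 147)) (XT.lf (nat_lit 0) (nat_lit 39323489485) (nat_lit 76) (nat_lit 3184415768) (nat_lit 152) (nat_lit 3141464094) (nat_lit 12) (nat_lit 5) (nat_lit 13) (nat_lit 5) (nat_lit 14) (nat_lit 4) (nat_lit 374) (nat_lit 260) (nat_lit 146)))) (XT.nd (nat_lit 78)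 (nat_lit 0) (nat_lit 0) (XT.lf (nat_lit 0) (nat_lit 276918477) (nat_lit 228) (nat_lit 45084742084) (nat_lit 76) (nat_lit 1508907590) (nat_lit 9) (nat_lit 5) (nat_lit 12) (nat_lit 5) (nat_lit 10) (nat_lit 4) (nat_lit 375) (nat_lit 260) (nat_lit 145)) (XT.nd (nat_lit 78) (nat_lit 0) (nat_lit 0) (XT.lf (nat_lit 0) (nat_lit 3821626903) (nat_lit 228) (nat_lit 37934921401) (nat_lit 76) (nat_lit 6368322326) (nat_lit 9) (nat_lit 5) (nat_lit 12) (nat_lit 5) (nat_lit 10) (nat_lit 4) (nat_lit 376) (nat_lit 260) (nat_lit 144)) (XT.lf (nat_lit 0) (nat_lit 7463816755) (nat_lit 228) (nat_lit 30585875440) (nat_lit 76) (nat_lit 11367383804) (nat_lit 9) (nat_lit 5) (nat_lit 12) (nat_lit 5) (nat_lit 10) (nat_lit 4) (nat_lit 377) (nat_lit 260) (nat_lit 143))))) (XT.nd (nat_lit 234) (nat_lit 76) (nat_lit 0) (XT.nd (nat_lit 78) (nat_lit 0) (nat_lit 0) (XT.lf (nat_lit 0) (nat_lit 11206670528) (nat_lit 228) (nat_lit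 23031182705) (nat_lit 76) (nat_lit 16510460135) (nat_lit 9) (nat_lit 5) (nat_lit 12) (nat_lit 5) (nat_lit 10) (nat_lit 4) (nat_lit 378) (nat_lit 260) (nat_lit 142)) (XT.nd (nat_lit 78) (nat_lit 0) (nat_lit 0) (XT.lf (nat_lit 0) (nat_lit 15053458678) (nat_lit 228) (nat_lit 15264242009) (nat_lit 76) (nat_lit 21802045269) (nat_lit 9) (nat_lit 5) (nat_lit 12) (nat_lit 5) (nat_lit 10) (nat_lit 4) (nat_lit 379) (nat_lit 260) (nat_lit 141)) (XT.lf (nat_lit 0) (nat_lit 19007542475) (nat_lit 228) (nat_lit 7278266705) (nat_lit 76) (nat_lit 27246762922) (nat_lit 9) (nat_lit 5) (nat_lit 12) (nat_lit 5) (nat_lit 10) (nat_lit 4) (nat_lit 380) (nat_lit 260) (nat_lit 140)))) (XT.nd (nat_lit 78) (nat_lit 0) (nat_lit 0) (XT.lf (nat_lit 0) (nat_lit 952304128) (nat_lit 76) (nat_lit 22129226947) (nat_lit 152) (nat_lit 31906220615) (nat_lit 8) (nat_lit 5) (nat_lit 9) (nat_lit 5) (nat_lit 10) (nat_lit 4) (nat_lit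 381) (nat_lit 260) (nat_lit 139)) (XT.nd (nat_lit 78) (nat_lit 0) (nat_lit 0) (XT.lf (nat_lit 0) (nat_lit 9565555810) (nat_lit 76) (nat_lit 17777908047) (nat_lit 152) (nat_lit 29141157989) (nat_lit 8) (nat_lit 5) (nat_lit 9) (nat_lit 5) (nat_lit 10) (nat_lit 4) (nat_lit 382) (nat_lit 260) (nat_lit 138)) (XT.lf (nat_lit 0) (nat_lit 18424162706) (nat_lit 76) (nat_lit 13301546582) (nat_lit 152) (nat_lit 26300921898) (nat_lit 8) (nat_lit 5) (nat_lit 9) (nat_lit 5) (nat_lit 10) (nat_lit 4) (nat_lit 383) (nat_lit 260) (nat_lit 137))))))))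
noncomputable def xc113 : XT := (XT.nd (nat_lit 31746) (nat_lit 0) (nat_lit 10032) (XT.nd (nat_lit 858) (nat_lit 0) (nat_lit 0) (XT.nd (nat_lit 390) (nat_lit 76) (nat_lit 0) (XT.nd (nat_lit 156) (nat_lit 76) (nat_lit 0) (XT.nd (nat_lit 78) (nat_lit 0) (nat_lit 0) (XT.lf (nat_lit 0) (nat_lit 27535865345) (nat_lit 76) (nat_lit 8696231167) (nat_lit 152) (nat_lit 23383030582) (nat_lit 8) (nat_lit 5) (nat_lit 9) (nat_lit 5) (nat_lit 10) (nat_lit 4) (nat_lit 384) (nat_lit 260) (nat_lit 136)) (XT.lf (nat_lit 0) (nat_lit 36908625409) (nat_lit 76) (nat_lit 3957937739) (nat_lit 152) (nat_lit 20384934427) (nat_lit 8) (nat_lit 5) (nat_lit 9) (nat_lit 5) (nat_lit 10) (nat_lit 4) (nat_lit 385) (nat_lit 260) (nat_lit 135))) (XT.nd (nat_lit 78) (nat_lit 76) (nat_lit 0) (XT.lf (nat_lit 0) (nat_lit 45641978053) (nat_lit 152) (nat_lit 16395359104) (nat_lit 0) (nat_lit 899570733) (nat_lit 8) (nat_lit 5) (nat_lit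 10) (nat_lit 4) (nat_lit 8) (nat_lit 4) (nat_lit 386) (nat_lit 260) (nat_lit 134)) (XT.nd (nat_lit 78) (nat_lit 76) (nat_lit 0) (XT.lf (nat_lit 0) (nat_lit 50593092025) (nat_lit 152) (nat_lit 8260356238) (nat_lit 0) (nat_lit 5818465122) (nat_lit 8) (nat_lit 5) (nat_lit 10) (nat_lit 4) (nat_lit 8) (nat_lit 4) (nat_lit 387) (nat_lit 260) (nat_lit 133)) (XT.lf (nat_lit 0) (nat_lit 109426103) (nat_lit 76) (nat_lit 55577810929) (nat_lit 76) (nat_lit 10771902878) (nat_lit 7) (nat_lit 4) (nat_lit 8) (nat_lit 5) (nat_lit 8) (nat_lit 4) (nat_lit 388) (nat_lit 260) (nat_lit 132))))) (XT.nd (nat_lit 234) (nat_lit 76) (nat_lit 0) (XT.nd (nat_lit 78) (nat_lit 0) (nat_lit 0) (XT.lf (nat_lit 0) (nat_lit 8888337033) (nat_lit 76) (nat_lit 52122810839) (nat_lit 76) (nat_lit 7286532739) (nat_lit 7) (nat_lit 4) (nat_lit 8) (nat_lit 5) (nat_lit 8) (nat_lit 4) (nat_lit 389) (nat_lit 260) (nat_lit 131)) (XT.nd (nat_lit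 78) (nat_lit 0) (nat_lit 0) (XT.lf (nat_lit 0) (nat_lit 17919650160) (nat_lit 76) (nat_lit 48568842460) (nat_lit 76) (nat_lit 3703078878) (nat_lit 7) (nat_lit 4) (nat_lit 8) (nat_lit 5) (nat_lit 8) (nat_lit 4) (nat_lit 390) (nat_lit 260) (nat_lit 130)) (XT.lf (nat_lit 0) (nat_lit 27211256920) (nat_lit 76) (nat_lit 44912800385) (nat_lit 76) (nat_lit 18410120) (nat_lit 7) (nat_lit 4) (nat_lit 8) (nat_lit 5) (nat_lit 8) (nat_lit 4) (nat_lit 391) (nat_lit 260) (nat_lit 129)))) (XT.nd (nat_lit 78) (nat_lit 0) (nat_lit 0) (XT.lf (nat_lit 0) (nat_lit 3697113342) (nat_lit 152) (nat_lit 37417043075) (nat_lit 76) (nat_lit 33036829258) (nat_lit 6) (nat_lit 5) (nat_lit 8) (nat_lit 5) (nat_lit 7) (nat_lit 4) (nat_lit 392) (nat_lit 260) (nat_lit 128)) (XT.nd (nat_lit 78) (nat_lit 0) (nat_lit 0) (XT.lf (nat_lit 0) (nat_lit 7517920434) (nat_lit 152) (nat_lit 29687788072) (nat_lit 76) (nat_lit 39014224710) (nat_lit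 6) (nat_lit 5) (nat_lit 8) (nat_lit 5) (nat_lit 7) (nat_lit 4) (nat_lit 393) (nat_lit 260) (nat_lit 127)) (XT.lf (nat_lit 0) (nat_lit 11447708971) (nat_lit 152) (nat_lit 21736514810) (nat_lit 76) (nat_lit 45166899397) (nat_lit 6) (nat_lit 5) (nat_lit 8) (nat_lit 5) (nat_lit 7) (nat_lit 4) (nat_lit 394) (nat_lit 260) (nat_lit 126)))))) (XT.nd (nat_lit 30420) (nat_lit 0) (nat_lit 18468) (XT.nd (nat_lit 30186) (nat_lit 0) (nat_lit 19228) (XT.nd (nat_lit 78) (nat_lit 0) (nat_lit 0) (XT.lf (nat_lit 0) (nat_lit 15489912751) (nat_lit 152) (nat_lit 13556275575) (nat_lit 76) (nat_lit 51500229440) (nat_lit 6) (nat_lit 5) (nat_lit 8) (nat_lit 5) (nat_lit 7) (nat_lit 4) (nat_lit 395) (nat_lit 260) (nat_lit 125)) (XT.lf (nat_lit 0) (nat_lit 19648063794) (nat_lit 152) (nat_lit 5139922584) (nat_lit 76) (nat_lit 58019748818) (nat_lit 6) (nat_lit 5) (nat_lit 8) (nat_lit 5) (nat_lit 7) (nat_lit 4) (nat_lit 396)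 (nat_lit 260) (nat_lit 124))) (XT.nd (nat_lit 78) (nat_lit 228) (nat_lit 0) (XT.lf (nat_lit 0) (nat_lit 1370999061) (nat_lit 0) (nat_lit 1370999061) (nat_lit 76) (nat_lit 481216044) (nat_lit 262) (nat_lit 5) (nat_lit 262) (nat_lit 3) (nat_lit 263) (nat_lit 0) (nat_lit 261) (nat_lit 261) (nat_lit 258)) (XT.nd (nat_lit 78) (nat_lit 0) (nat_lit 0) (XT.lf (nat_lit 0) (nat_lit 1689274423) (nat_lit 228) (nat_lit 898485572) (nat_lit 228) (nat_lit 3864787126) (nat_lit 259) (nat_lit 3) (nat_lit 262) (nat_lit 3) (nat_lit 262) (nat_lit 5) (nat_lit 262) (nat_lit 261) (nat_lit 257)) (XT.lf (nat_lit 76) (nat_lit 1967065842) (nat_lit 0) (nat_lit 2349722836) (nat_lit 228) (nat_lit 2144753648) (nat_lit 260) (nat_lit 5) (nat_lit 259) (nat_lit 3) (nat_lit 262) (nat_lit 5) (nat_lit 263) (nat_lit 261) (nat_lit 256))))) (XT.nd (nat_lit 234) (nat_lit 532) (nat_lit 0) (XT.nd (nat_lit 78) (nat_lit 0) (nat_lit 0) (XT.lf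 (nat_lit 0) (nat_lit 448474890) (nat_lit 228) (nat_lit 1594291379) (nat_lit 304) (nat_lit 4431094988) (nat_lit 256) (nat_lit 5) (nat_lit 259) (nat_lit 3) (nat_lit 260) (nat_lit 5) (nat_lit 264) (nat_lit 261) (nat_lit 255)) (XT.nd (nat_lit 78) (nat_lit 0) (nat_lit 0) (XT.lf (nat_lit 76) (nat_lit 1344146659) (nat_lit 0) (nat_lit 1645913478) (nat_lit 304) (nat_lit 3498851375) (nat_lit 257) (nat_lit 5) (nat_lit 256) (nat_lit 5) (nat_lit 260) (nat_lit 5) (nat_lit 265) (nat_lit 261) (nat_lit 254)) (XT.lf (nat_lit 76) (nat_lit 4350199600) (nat_lit 0) (nat_lit 1176918377) (nat_lit 304) (nat_lit 980115472) (nat_lit 257) (nat_lit 5) (nat_lit 256) (nat_lit 5) (nat_lit 260) (nat_lit 5) (nat_lit 266) (nat_lit 261) (nat_lit 253)))) (XT.nd (nat_lit 78) (nat_lit 228) (nat_lit 0) (XT.lf (nat_lit 76) (nat_lit 867804989) (nat_lit 0) (nat_lit 627859212) (nat_lit 380) (nat_lit 5032960080) (nat_lit 253) (nat_lit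 5) (nat_lit 252) (nat_lit 5) (nat_lit 257) (nat_lit 5) (nat_lit 267) (nat_lit 261) (nat_lit 252)) (XT.nd (nat_lit 78) (nat_lit 304) (nat_lit 0) (XT.lf (nat_lit 0) (nat_lit 3954700155) (nat_lit 304) (nat_lit 2588668339) (nat_lit 76) (nat_lit 9499996) (nat_lit 253) (nat_lit 5) (nat_lit 257) (nat_lit 5) (nat_lit 254) (nat_lit 5) (nat_lit 268) (nat_lit 261) (nat_lit 251)) (XT.lf (nat_lit 0) (nat_lit 524371449) (nat_lit 304) (nat_lit 5884377114) (nat_lit 380) (nat_lit 171806883) (nat_lit 249) (nat_lit 5) (nat_lit 253) (nat_lit 5) (nat_lit 254) (nat_lit 5) (nat_lit 269) (nat_lit 261) (nat_lit 250))))))) (XT.nd (nat_lit 858) (nat_lit 5472) (nat_lit 0) (XT.nd (nat_lit 390) (nat_lit 1976) (nat_lit 0) (XT.nd (nat_lit 156) (nat_lit 532) (nat_lit 0) (XT.nd (nat_lit 78) (nat_lit 380) (nat_lit 0) (XT.lf (nat_lit 0) (nat_lit 2219203505) (nat_lit 380) (nat_lit 2903907657) (nat_lit 76) (nat_lit 1487504919) (nat_lit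 248) (nat_lit 5) (nat_lit 253) (nat_lit 5) (nat_lit 249) (nat_lit 5) (nat_lit 270) (nat_lit 261) (nat_lit 249)) (XT.lf (nat_lit 0) (nat_lit 291728815) (nat_lit 380) (nat_lit 4303036123) (nat_lit 456) (nat_lit 2049597085) (nat_lit 243) (nat_lit 5) (nat_lit 248) (nat_lit 5) (nat_lit 249) (nat_lit 5) (nat_lit 271) (nat_lit 261) (nat_lit 248))) (XT.nd (nat_lit 78) (nat_lit 456) (nat_lit 0) (XT.lf (nat_lit 0) (nat_lit 299334115) (nat_lit 456) (nat_lit 3095921642) (nat_lit 76) (nat_lit 3285746234) (nat_lit 242) (nat_lit 5) (nat_lit 248) (nat_lit 5) (nat_lit 243) (nat_lit 5) (nat_lit 272) (nat_lit 261) (nat_lit 247)) (XT.nd (nat_lit 78) (nat_lit 0) (nat_lit 0) (XT.lf (nat_lit 0) (nat_lit 186826403) (nat_lit 456) (nat_lit 2409323682) (nat_lit 532) (nat_lit 4124719280) (nat_lit 236) (nat_lit 5) (nat_lit 242) (nat_lit 5) (nat_lit 243) (nat_lit 5) (nat_lit 273) (nat_lit 261) (nat_lit 246)) (XT.lf (nat_lit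 0) (nat_lit 3577042153) (nat_lit 456) (nat_lit 1334806098) (nat_lit 532) (nat_lit 1851871924) (nat_lit 236) (nat_lit 5) (nat_lit 242) (nat_lit 5) (nat_lit 243) (nat_lit 5) (nat_lit 274) (nat_lit 261) (nat_lit 245))))) (XT.nd (nat_lit 234) (nat_lit 760) (nat_lit 0) (XT.nd (nat_lit 78) (nat_lit 608) (nat_lit 0) (XT.lf (nat_lit 0) (nat_lit 205665794) (nat_lit 532) (nat_lit 195954933) (nat_lit 608) (nat_lit 6408704849) (nat_lit 228) (nat_lit 5) (nat_lit 235) (nat_lit 5) (nat_lit 236) (nat_lit 5) (nat_lit 275) (nat_lit 261) (nat_lit 244)) (XT.nd (nat_lit 78) (nat_lit 608) (nat_lit 0) (XT.lf (nat_lit 0) (nat_lit 2649453779) (nat_lit 608) (nat_lit 3177360111) (nat_lit 76) (nat_lit 1032308910) (nat_lit 228) (nat_lit 5) (nat_lit 236) (nat_lit 5) (nat_lit 229) (nat_lit 5) (nat_lit 276) (nat_lit 261) (nat_lit 243)) (XT.lf (nat_lit 0) (nat_lit 301305767) (nat_lit 608) (nat_lit 4592588937) (nat_lit 684)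 (nat_lit 2017868821) (nat_lit 220) (nat_lit 5) (nat_lit 228) (nat_lit 5) (nat_lit 229) (nat_lit 5) (nat_lit 277) (nat_lit 261) (nat_lit 242)))) (XT.nd (nat_lit 78) (nat_lit 684) (nat_lit 0) (XT.lf (nat_lit 0) (nat_lit 192448921) (nat_lit 684) (nat_lit 3074759380) (nat_lit 76) (nat_lit 3700222976) (nat_lit 219) (nat_lit 5) (nat_lit 228) (nat_lit 5) (nat_lit 220) (nat_lit 5) (nat_lit 278) (nat_lit 261) (nat_lit 241)) (XT.nd (nat_lit 78) (nat_lit 0) (nat_lit 0) (XT.lf (nat_lit 0) (nat_lit 501891585) (nat_lit 684) (nat_lit 1858673179) (nat_lit 760) (nat_lit 4665876709) (nat_lit 210) (nat_lit 5) (nat_lit 219) (nat_lit 5) (nat_lit 220) (nat_lit 5) (nat_lit 279) (nat_lit 261) (nat_lit 240)) (XT.lf (nat_lit 0) (nat_lit 4194477015) (nat_lit 684) (nat_lit 359114247) (nat_lit 760) (nat_lit 2535061058) (nat_lit 210) (nat_lit 5) (nat_lit 219) (nat_lit 5) (nat_lit 220) (nat_lit 5) (nat_lit 280) (nat_lit 261)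 (nat_lit 239)))))) (XT.nd (nat_lit 468) (nat_lit 2812) (nat_lit 0) (XT.nd (nat_lit 234) (nat_lit 988) (nat_lit 0) (XT.nd (nat_lit 78) (nat_lit 912) (nat_lit 0) (XT.lf (nat_lit 0) (nat_lit 793948208) (nat_lit 760) (nat_lit 5968535422) (nat_lit 836) (nat_lit 391963377) (nat_lit 200) (nat_lit 5) (nat_lit 210) (nat_lit 5) (nat_lit 211) (nat_lit 5) (nat_lit 281) (nat_lit 261) (nat_lit 238)) (XT.nd (nat_lit 78) (nat_lit 836) (nat_lit 0) (XT.lf (nat_lit 0) (nat_lit 1744725324) (nat_lit 836) (nat_lit 2646877157) (nat_lit 76) (nat_lit 2831354968) (nat_lit 199) (nat_lit 5) (nat_lit 210) (nat_lit 5) (nat_lit 200) (nat_lit 5) (nat_lit 282) (nat_lit 261) (nat_lit 237)) (XT.lf (nat_lit 0) (nat_lit 1141908824) (nat_lit 836) (nat_lit 2740348368) (nat_lit 912) (nat_lit 3413012088) (nat_lit 188) (nat_lit 5) (nat_lit 199) (nat_lit 5) (nat_lit 200) (nat_lit 5) (nat_lit 283) (nat_lit 261) (nat_lit 236)))) (XT.nd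 (nat_lit 78) (nat_lit 988) (nat_lit 0) (XT.lf (nat_lit 0) (nat_lit 5044506281) (nat_lit 836) (nat_lit 1001193421) (nat_lit 912) (nat_lit 1325392483) (nat_lit 188) (nat_lit 5) (nat_lit 199) (nat_lit 5) (nat_lit 200) (nat_lit 5) (nat_lit 284) (nat_lit 261) (nat_lit 235)) (XT.nd (nat_lit 78) (nat_lit 0) (nat_lit 0) (XT.lf (nat_lit 0) (nat_lit 768043272) (nat_lit 988) (nat_lit 5874531892) (nat_lit 76) (nat_lit 807782290) (nat_lit 175) (nat_lit 5) (nat_lit 188) (nat_lit 5) (nat_lit 176) (nat_lit 5) (nat_lit 285) (nat_lit 261) (nat_lit 234)) (XT.lf (nat_lit 0) (nat_lit 2868853446) (nat_lit 988) (nat_lit 1967163279) (nat_lit 76) (nat_lit 2696632653) (nat_lit 175) (nat_lit 5) (nat_lit 188) (nat_lit 5) (nat_lit 176) (nat_lit 5) (nat_lit 286) (nat_lit 261) (nat_lit 233))))) (XT.nd (nat_lit 234) (nat_lit 684) (nat_lit 0) (XT.nd (nat_lit 78) (nat_lit 1140) (nat_lit 0) (XT.lf (nat_lit 0) (nat_lit 2043316918)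 (nat_lit 988) (nat_lit 2948401985) (nat_lit 1064) (nat_lit 2627093715) (nat_lit 162) (nat_lit 5) (nat_lit 175) (nat_lit 5) (nat_lit 176) (nat_lit 5) (nat_lit 287) (nat_lit 261) (nat_lit 232)) (XT.nd (nat_lit 78) (nat_lit 1140) (nat_lit 0) (XT.lf (nat_lit 0) (nat_lit 6160983730) (nat_lit 988) (nat_lit 977791989) (nat_lit 1064) (nat_lit 570138307) (nat_lit 162) (nat_lit 5) (nat_lit 175) (nat_lit 5) (nat_lit 176) (nat_lit 5) (nat_lit 288) (nat_lit 261) (nat_lit 231)) (XT.lf (nat_lit 0) (nat_lit 1495328895) (nat_lit 1140) (nat_lit 5230231672) (nat_lit 76) (nat_lit 1076559498) (nat_lit 147) (nat_lit 5) (nat_lit 162) (nat_lit 5) (nat_lit 148) (nat_lit 5) (nat_lit 289) (nat_lit 261) (nat_lit 230)))) (XT.nd (nat_lit 78) (nat_lit 684) (nat_lit 0) (XT.lf (nat_lit 0) (nat_lit 3579643017) (nat_lit 1140) (nat_lit 1120708012) (nat_lit 76) (nat_lit 3198705785) (nat_lit 147) (nat_lit 5) (nat_lit 162) (nat_lit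 5) (nat_lit 148) (nat_lit 5) (nat_lit 290) (nat_lit 261) (nat_lit 229)) (XT.nd (nat_lit 78) (nat_lit 0) (nat_lit 0) (XT.lf (nat_lit 0) (nat_lit 3119967083) (nat_lit 684) (nat_lit 2581049527) (nat_lit 760) (nat_lit 2298798806) (nat_lit 138) (nat_lit 5) (nat_lit 147) (nat_lit 5) (nat_lit 148) (nat_lit 5) (nat_lit 291) (nat_lit 261) (nat_lit 228)) (XT.lf (nat_lit 0) (nat_lit 7458339545) (nat_lit 684) (nat_lit 384658579) (nat_lit 760) (nat_lit 262034943) (nat_lit 138) (nat_lit 5) (nat_lit 147) (nat_lit 5) (nat_lit 148) (nat_lit 5) (nat_lit 292) (nat_lit 261) (nat_lit 227))))))))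
noncomputable def xc114 : XT := (XT.nd (nat_lit 1716) (nat_lit 2508) (nat_lit 0) (XT.nd (nat_lit 858) (nat_lit 2280) (nat_lit 0) (XT.nd (nat_lit 390) (nat_lit 1444) (nat_lit 0) (XT.nd (nat_lit 156) (nat_lit 1064) (nat_lit 0) (XT.nd (nat_lit 78) (nat_lit 0) (nat_lit 0) (XT.lf (nat_lit 0) (nat_lit 1800891531) (nat_lit 608) (nat_lit 4515978516) (nat_lit 76) (nat_lit 1896118235) (nat_lit 130) (nat_lit 5) (nat_lit 138) (nat_lit 5) (nat_lit 131) (nat_lit 5) (nat_lit 293) (nat_lit 261) (nat_lit 226)) (XT.lf (nat_lit 0) (nat_lit 3878481121) (nat_lit 608) (nat_lit 199540042) (nat_lit 76) (nat_lit 4247474862) (nat_lit 130) (nat_lit 5) (nat_lit 138) (nat_lit 5) (nat_lit 131) (nat_lit 5) (nat_lit 294) (nat_lit 261) (nat_lit 225))) (XT.nd (nat_lit 78) (nat_lit 532) (nat_lit 0) (XT.lf (nat_lit 0) (nat_lit 4278059337) (nat_lit 532) (nat_lit 1730625948) (nat_lit 608) (nat_lit 2433114199) (nat_lit 123) (nat_lit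 5) (nat_lit 130) (nat_lit 5) (nat_lit 131) (nat_lit 5) (nat_lit 295) (nat_lit 261) (nat_lit 224)) (XT.nd (nat_lit 78) (nat_lit 76) (nat_lit 0) (XT.lf (nat_lit 0) (nat_lit 278441793) (nat_lit 456) (nat_lit 7885808023) (nat_lit 532) (nat_lit 398623935) (nat_lit 117) (nat_lit 5) (nat_lit 123) (nat_lit 5) (nat_lit 124) (nat_lit 5) (nat_lit 296) (nat_lit 261) (nat_lit 223)) (XT.lf (nat_lit 0) (nat_lit 1673867355) (nat_lit 532) (nat_lit 3834436279) (nat_lit 76) (nat_lit 3178603028) (nat_lit 116) (nat_lit 5) (nat_lit 123) (nat_lit 5) (nat_lit 117) (nat_lit 5) (nat_lit 297) (nat_lit 261) (nat_lit 222))))) (XT.nd (nat_lit 234) (nat_lit 532) (nat_lit 0) (XT.nd (nat_lit 78) (nat_lit 456) (nat_lit 0) (XT.lf (nat_lit 0) (nat_lit 706969841) (nat_lit 456) (nat_lit 3052271846) (nat_lit 532) (nat_lit 5056653557) (nat_lit 110) (nat_lit 5) (nat_lit 116) (nat_lit 5) (nat_lit 117) (nat_lit 5) (nat_lit 298) (nat_lit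 261) (nat_lit 221)) (XT.nd (nat_lit 78) (nat_lit 456) (nat_lit 0) (XT.lf (nat_lit 0) (nat_lit 5411791343) (nat_lit 456) (nat_lit 486936509) (nat_lit 532) (nat_lit 3050390469) (nat_lit 110) (nat_lit 5) (nat_lit 116) (nat_lit 5) (nat_lit 117) (nat_lit 5) (nat_lit 299) (nat_lit 261) (nat_lit 220)) (XT.lf (nat_lit 0) (nat_lit 1121206253) (nat_lit 456) (nat_lit 6966853136) (nat_lit 532) (nat_lit 998816987) (nat_lit 104) (nat_lit 5) (nat_lit 110) (nat_lit 5) (nat_lit 111) (nat_lit 5) (nat_lit 300) (nat_lit 261) (nat_lit 219)))) (XT.nd (nat_lit 78) (nat_lit 456) (nat_lit 0) (XT.lf (nat_lit 0) (nat_lit 1087916614) (nat_lit 532) (nat_lit 3303452371) (nat_lit 76) (nat_lit 4837318043) (nat_lit 103) (nat_lit 5) (nat_lit 110) (nat_lit 5) (nat_lit 104) (nat_lit 5) (nat_lit 301) (nat_lit 261) (nat_lit 218)) (XT.nd (nat_lit 78) (nat_lit 0) (nat_lit 0) (XT.lf (nat_lit 0) (nat_lit 1467002312) (nat_lit 456) (nat_lit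 1720064860) (nat_lit 532) (nat_lit 6188390380) (nat_lit 97) (nat_lit 5) (nat_lit 103) (nat_lit 5) (nat_lit 104) (nat_lit 5) (nat_lit 302) (nat_lit 261) (nat_lit 217)) (XT.lf (nat_lit 0) (nat_lit 5349329729) (nat_lit 532) (nat_lit 3138795783) (nat_lit 76) (nat_lit 1038597610) (nat_lit 97) (nat_lit 5) (nat_lit 104) (nat_lit 5) (nat_lit 98) (nat_lit 5) (nat_lit 303) (nat_lit 261) (nat_lit 216)))))) (XT.nd (nat_lit 390) (nat_lit 1064) (nat_lit 0) (XT.nd (nat_lit 156) (nat_lit 836) (nat_lit 0) (XT.nd (nat_lit 78) (nat_lit 0) (nat_lit 0) (XT.lf (nat_lit 0) (nat_lit 1741182383) (nat_lit 380) (nat_lit 5826845989) (nat_lit 456) (nat_lit 2114844499) (nat_lit 92) (nat_lit 5) (nat_lit 97) (nat_lit 5) (nat_lit 98) (nat_lit 5) (nat_lit 304) (nat_lit 261) (nat_lit 215)) (XT.lf (nat_lit 0) (nat_lit 6782672089) (nat_lit 380) (nat_lit 3060868001) (nat_lit 456) (nat_lit 549999) (nat_lit 92) (nat_lit 5) (nat_lit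 97) (nat_lit 5) (nat_lit 98) (nat_lit 5) (nat_lit 305) (nat_lit 261) (nat_lit 214))) (XT.nd (nat_lit 78) (nat_lit 380) (nat_lit 0) (XT.lf (nat_lit 0) (nat_lit 1933369409) (nat_lit 380) (nat_lit 179183120) (nat_lit 456) (nat_lit 7897712879) (nat_lit 86) (nat_lit 5) (nat_lit 91) (nat_lit 5) (nat_lit 92) (nat_lit 5) (nat_lit 306) (nat_lit 261) (nat_lit 213)) (XT.nd (nat_lit 78) (nat_lit 380) (nat_lit 0) (XT.lf (nat_lit 0) (nat_lit 4306989161) (nat_lit 456) (nat_lit 3116281082) (nat_lit 76) (nat_lit 2757699876) (nat_lit 86) (nat_lit 5) (nat_lit 92) (nat_lit 5) (nat_lit 87) (nat_lit 5) (nat_lit 307) (nat_lit 261) (nat_lit 212)) (XT.lf (nat_lit 0) (nat_lit 1982076624) (nat_lit 380) (nat_lit 4567099155) (nat_lit 456) (nat_lit 3808243129) (nat_lit 81) (nat_lit 5) (nat_lit 86) (nat_lit 5) (nat_lit 87) (nat_lit 5) (nat_lit 308) (nat_lit 261) (nat_lit 211))))) (XT.nd (nat_lit 234) (nat_lit 608) (nat_lit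 0) (XT.nd (nat_lit 78) (nat_lit 456) (nat_lit 0) (XT.lf (nat_lit 0) (nat_lit 7249757132) (nat_lit 380) (nat_lit 1602105684) (nat_lit 456) (nat_lit 1687579404) (nat_lit 81) (nat_lit 5) (nat_lit 86) (nat_lit 5) (nat_lit 87) (nat_lit 5) (nat_lit 309) (nat_lit 261) (nat_lit 210)) (XT.nd (nat_lit 78) (nat_lit 0) (nat_lit 0) (XT.lf (nat_lit 0) (nat_lit 482143383) (nat_lit 456) (nat_lit 8806951118) (nat_lit 76) (nat_lit 1437908158) (nat_lit 75) (nat_lit 5) (nat_lit 81) (nat_lit 5) (nat_lit 76) (nat_lit 5) (nat_lit 310) (nat_lit 261) (nat_lit 209)) (XT.lf (nat_lit 0) (nat_lit 2695443280) (nat_lit 456) (nat_lit 3646150500) (nat_lit 76) (nat_lit 4577794223) (nat_lit 75) (nat_lit 5) (nat_lit 81) (nat_lit 5) (nat_lit 76) (nat_lit 5) (nat_lit 311) (nat_lit 261) (nat_lit 208)))) (XT.nd (nat_lit 78) (nat_lit 304) (nat_lit 0) (XT.lf (nat_lit 0) (nat_lit 1655593628) (nat_lit 304) (nat_lit 3299534380) (nat_lit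 380) (nat_lit 6163086716) (nat_lit 71) (nat_lit 5) (nat_lit 75) (nat_lit 5) (nat_lit 76) (nat_lit 5) (nat_lit 312) (nat_lit 261) (nat_lit 207)) (XT.nd (nat_lit 78) (nat_lit 304) (nat_lit 0) (XT.lf (nat_lit 0) (nat_lit 7145398303) (nat_lit 304) (nat_lit 138702044) (nat_lit 380) (nat_lit 4038928358) (nat_lit 71) (nat_lit 5) (nat_lit 75) (nat_lit 5) (nat_lit 76) (nat_lit 5) (nat_lit 313) (nat_lit 261) (nat_lit 206)) (XT.lf (nat_lit 0) (nat_lit 1214242936) (nat_lit 304) (nat_lit 8475942765) (nat_lit 380) (nat_lit 1843649499) (nat_lit 67) (nat_lit 5) (nat_lit 71) (nat_lit 5) (nat_lit 72) (nat_lit 5) (nat_lit 314) (nat_lit 261) (nat_lit 205))))))) (XT.nd (nat_lit 858) (nat_lit 988) (nat_lit 0) (XT.nd (nat_lit 390) (nat_lit 836) (nat_lit 0) (XT.nd (nat_lit 156) (nat_lit 304) (nat_lit 0) (XT.nd (nat_lit 78) (nat_lit 304) (nat_lit 0) (XT.lf (nat_lit 0) (nat_lit 419100005) (nat_lit 380) (nat_lit 4947691441)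 (nat_lit 76) (nat_lit 6383822933) (nat_lit 66) (nat_lit 5) (nat_lit 71) (nat_lit 5) (nat_lit 67) (nat_lit 5) (nat_lit 315) (nat_lit 261) (nat_lit 204)) (XT.lf (nat_lit 0) (nat_lit 533150293) (nat_lit 304) (nat_lit 2151429901) (nat_lit 380) (nat_lit 9289671868) (nat_lit 62) (nat_lit 5) (nat_lit 66) (nat_lit 5) (nat_lit 67) (nat_lit 5) (nat_lit 316) (nat_lit 261) (nat_lit 203))) (XT.nd (nat_lit 78) (nat_lit 304) (nat_lit 0) (XT.lf (nat_lit 0) (nat_lit 5046851740) (nat_lit 380) (nat_lit 5979770071) (nat_lit 76) (nat_lit 1177170372) (nat_lit 62) (nat_lit 5) (nat_lit 67) (nat_lit 5) (nat_lit 63) (nat_lit 5) (nat_lit 317) (nat_lit 261) (nat_lit 202)) (XT.nd (nat_lit 78) (nat_lit 304) (nat_lit 0) (XT.lf (nat_lit 0) (nat_lit 7469463485) (nat_lit 380) (nat_lit 419454157) (nat_lit 76) (nat_lit 4551673126) (nat_lit 62) (nat_lit 5) (nat_lit 67) (nat_lit 5) (nat_lit 63) (nat_lit 5) (nat_lit 318) (nat_lit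 261) (nat_lit 201)) (XT.lf (nat_lit 0) (nat_lit 5370176854) (nat_lit 304) (nat_lit 4615295986) (nat_lit 380) (nat_lit 2698453671) (nat_lit 58) (nat_lit 5) (nat_lit 62) (nat_lit 5) (nat_lit 63) (nat_lit 5) (nat_lit 319) (nat_lit 261) (nat_lit 200))))) (XT.nd (nat_lit 234) (nat_lit 532) (nat_lit 0) (XT.nd (nat_lit 78) (nat_lit 304) (nat_lit 0) (XT.lf (nat_lit 0) (nat_lit 11300223889) (nat_lit 304) (nat_lit 1250569655) (nat_lit 380) (nat_lit 384607033) (nat_lit 58) (nat_lit 5) (nat_lit 62) (nat_lit 5) (nat_lit 63) (nat_lit 5) (nat_lit 320) (nat_lit 261) (nat_lit 199)) (XT.nd (nat_lit 78) (nat_lit 0) (nat_lit 0) (XT.lf (nat_lit 0) (nat_lit 1992286551) (nat_lit 304) (nat_lit 8979440584) (nat_lit 76) (nat_lit 2221186517) (nat_lit 54) (nat_lit 5) (nat_lit 58) (nat_lit 5) (nat_lit 55) (nat_lit 5) (nat_lit 321) (nat_lit 261) (nat_lit 198)) (XT.lf (nat_lit 0) (nat_lit 4432318333) (nat_lit 304) (nat_lit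 3244619226) (nat_lit 76) (nat_lit 5781162142) (nat_lit 54) (nat_lit 5) (nat_lit 58) (nat_lit 5) (nat_lit 55) (nat_lit 5) (nat_lit 322) (nat_lit 261) (nat_lit 197)))) (XT.nd (nat_lit 78) (nat_lit 228) (nat_lit 0) (XT.lf (nat_lit 0) (nat_lit 2673928680) (nat_lit 304) (nat_lit 4268689097) (nat_lit 380) (nat_lit 6788758808) (nat_lit 50) (nat_lit 5) (nat_lit 54) (nat_lit 5) (nat_lit 55) (nat_lit 5) (nat_lit 323) (nat_lit 261) (nat_lit 196)) (XT.nd (nat_lit 78) (nat_lit 228) (nat_lit 0) (XT.lf (nat_lit 0) (nat_lit 8796445486) (nat_lit 304) (nat_lit 736356904) (nat_lit 380) (nat_lit 4479957975) (nat_lit 50) (nat_lit 5) (nat_lit 54) (nat_lit 5) (nat_lit 55) (nat_lit 5) (nat_lit 324) (nat_lit 261) (nat_lit 195)) (XT.lf (nat_lit 0) (nat_lit 747048970) (nat_lit 228) (nat_lit 11461241682) (nat_lit 304) (nat_lit 2094111603) (nat_lit 47) (nat_lit 5) (nat_lit 50) (nat_lit 5) (nat_lit 51) (nat_lit 5) (nat_lit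 325) (nat_lit 261) (nat_lit 194)))))) (XT.nd (nat_lit 468) (nat_lit 456) (nat_lit 0) (XT.nd (nat_lit 234) (nat_lit 228) (nat_lit 0) (XT.nd (nat_lit 78) (nat_lit 228) (nat_lit 0) (XT.lf (nat_lit 0) (nat_lit 389341478) (nat_lit 304) (nat_lit 7654097696) (nat_lit 76) (nat_lit 6556237816) (nat_lit 46) (nat_lit 5) (nat_lit 50) (nat_lit 5) (nat_lit 47) (nat_lit 5) (nat_lit 326) (nat_lit 261) (nat_lit 193)) (XT.nd (nat_lit 78) (nat_lit 228) (nat_lit 0) (XT.lf (nat_lit 0) (nat_lit 2878639714) (nat_lit 304) (nat_lit 1635259631) (nat_lit 76) (nat_lit 10392186436) (nat_lit 46) (nat_lit 5) (nat_lit 50) (nat_lit 5) (nat_lit 47) (nat_lit 5) (nat_lit 327) (nat_lit 261) (nat_lit 192)) (XT.lf (nat_lit 0) (nat_lit 4616637190) (nat_lit 228) (nat_lit 844562629) (nat_lit 304) (nat_lit 9759969103) (nat_lit 43) (nat_lit 5) (nat_lit 46) (nat_lit 5) (nat_lit 47) (nat_lit 5) (nat_lit 328) (nat_lit 261) (nat_lit 191))))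 (XT.nd (nat_lit 78) (nat_lit 228) (nat_lit 0) (XT.lf (nat_lit 0) (nat_lit 8140609559) (nat_lit 304) (nat_lit 4521883995) (nat_lit 76) (nat_lit 2882668239) (nat_lit 43) (nat_lit 5) (nat_lit 47) (nat_lit 5) (nat_lit 44) (nat_lit 5) (nat_lit 329) (nat_lit 261) (nat_lit 190)) (XT.nd (nat_lit 78) (nat_lit 0) (nat_lit 0) (XT.lf (nat_lit 0) (nat_lit 1731868538) (nat_lit 228) (nat_lit 9168770808) (nat_lit 304) (nat_lit 4978265272) (nat_lit 40) (nat_lit 5) (nat_lit 43) (nat_lit 5) (nat_lit 44) (nat_lit 5) (nat_lit 330) (nat_lit 261) (nat_lit 189)) (XT.lf (nat_lit 0) (nat_lit 8229481072) (nat_lit 228) (nat_lit 5535250253) (nat_lit 304) (nat_lit 2457326780) (nat_lit 40) (nat_lit 5) (nat_lit 43) (nat_lit 5) (nat_lit 44) (nat_lit 5) (nat_lit 331) (nat_lit 261) (nat_lit 188))))) (XT.nd (nat_lit 234) (nat_lit 152) (nat_lit 0) (XT.nd (nat_lit 78) (nat_lit 228) (nat_lit 0) (XT.lf (nat_lit 0) (nat_lit 112563604)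 (nat_lit 304) (nat_lit 1690718854) (nat_lit 76) (nat_lit 14772936496) (nat_lit 39) (nat_lit 5) (nat_lit 43) (nat_lit 5) (nat_lit 40) (nat_lit 5) (nat_lit 332) (nat_lit 261) (nat_lit 187)) (XT.nd (nat_lit 78) (nat_lit 0) (nat_lit 0) (XT.lf (nat_lit 0) (nat_lit 2753585663) (nat_lit 304) (nat_lit 12124446986) (nat_lit 76) (nat_lit 2060972481) (nat_lit 36) (nat_lit 5) (nat_lit 40) (nat_lit 5) (nat_lit 37) (nat_lit 5) (nat_lit 333) (nat_lit 261) (nat_lit 186)) (XT.lf (nat_lit 0) (nat_lit 5485907650) (nat_lit 304) (nat_lit 5815651676) (nat_lit 76) (nat_lit 6010785661) (nat_lit 36) (nat_lit 5) (nat_lit 40) (nat_lit 5) (nat_lit 37) (nat_lit 5) (nat_lit 334) (nat_lit 261) (nat_lit 185)))) (XT.nd (nat_lit 78) (nat_lit 0) (nat_lit 0) (XT.lf (nat_lit 0) (nat_lit 661215837) (nat_lit 152) (nat_lit 7622983161) (nat_lit 228) (nat_lit 9413197292) (nat_lit 34) (nat_lit 5) (nat_lit 36) (nat_lit 5) (nat_lit 37)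 (nat_lit 5) (nat_lit 335) (nat_lit 261) (nat_lit 184)) (XT.nd (nat_lit 78) (nat_lit 0) (nat_lit 0) (XT.lf (nat_lit 0) (nat_lit 7417844437) (nat_lit 152) (nat_lit 3785291651) (nat_lit 228) (nat_lit 6889792464) (nat_lit 34) (nat_lit 5) (nat_lit 36) (nat_lit 5) (nat_lit 37) (nat_lit 5) (nat_lit 336) (nat_lit 261) (nat_lit 183)) (XT.lf (nat_lit 0) (nat_lit 14189754186) (nat_lit 228) (nat_lit 4158103700) (nat_lit 76) (nat_lit 153094956) (nat_lit 34) (nat_lit 5) (nat_lit 37) (nat_lit 5) (nat_lit 35) (nat_lit 5) (nat_lit 337) (nat_lit 261) (nat_lit 182))))))))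
noncomputable def xc115 : XT := (XT.nd (nat_lit 1716) (nat_lit 684) (nat_lit 0) (XT.nd (nat_lit 858) (nat_lit 456) (nat_lit 0) (XT.nd (nat_lit 390) (nat_lit 380) (nat_lit 0) (XT.nd (nat_lit 156) (nat_lit 152) (nat_lit 0) (XT.nd (nat_lit 78) (nat_lit 76) (nat_lit 0) (XT.lf (nat_lit 0) (nat_lit 2533987838) (nat_lit 228) (nat_lit 14772947993) (nat_lit 304) (nat_lit 1613081667) (nat_lit 31) (nat_lit 5) (nat_lit 34) (nat_lit 5) (nat_lit 35) (nat_lit 5) (nat_lit 338) (nat_lit 261) (nat_lit 181)) (XT.lf (nat_lit 0) (nat_lit 1164828362) (nat_lit 304) (nat_lit 9882430107) (nat_lit 76) (nat_lit 8303438269) (nat_lit 30) (nat_lit 5) (nat_lit 34) (nat_lit 5) (nat_lit 31) (nat_lit 5) (nat_lit 339) (nat_lit 261) (nat_lit 180))) (XT.nd (nat_lit 78) (nat_lit 152) (nat_lit 0) (XT.lf (nat_lit 0) (nat_lit 3973457801) (nat_lit 304) (nat_lit 3231238347) (nat_lit 76) (nat_lit 12589753136) (nat_lit 30) (nat_lit 5)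 (nat_lit 34) (nat_lit 5) (nat_lit 31) (nat_lit 5) (nat_lit 340) (nat_lit 261) (nat_lit 179)) (XT.nd (nat_lit 78) (nat_lit 0) (nat_lit 0) (XT.lf (nat_lit 0) (nat_lit 3660288684) (nat_lit 152) (nat_lit 3221634072) (nat_lit 228) (nat_lit 13369149749) (nat_lit 28) (nat_lit 5) (nat_lit 30) (nat_lit 5) (nat_lit 31) (nat_lit 5) (nat_lit 341) (nat_lit 261) (nat_lit 178)) (XT.lf (nat_lit 0) (nat_lit 9899627433) (nat_lit 228) (nat_lit 9935232261) (nat_lit 76) (nat_lit 885899818) (nat_lit 28) (nat_lit 5) (nat_lit 31) (nat_lit 5) (nat_lit 29) (nat_lit 5) (nat_lit 342) (nat_lit 261) (nat_lit 177))))) (XT.nd (nat_lit 234) (nat_lit 228) (nat_lit 0) (XT.nd (nat_lit 78) (nat_lit 152) (nat_lit 0) (XT.lf (nat_lit 0) (nat_lit 13020892265) (nat_lit 228) (nat_lit 3141838177) (nat_lit 76) (nat_lit 5041439760) (nat_lit 28) (nat_lit 5) (nat_lit 31) (nat_lit 5) (nat_lit 29) (nat_lit 5) (nat_lit 343) (nat_lit 261) (nat_lit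 176)) (XT.nd (nat_lit 78) (nat_lit 0) (nat_lit 0) (XT.lf (nat_lit 0) (nat_lit 3902453651) (nat_lit 152) (nat_lit 12352535374) (nat_lit 228) (nat_lit 5446541613) (nat_lit 26) (nat_lit 5) (nat_lit 28) (nat_lit 5) (nat_lit 29) (nat_lit 5) (nat_lit 344) (nat_lit 261) (nat_lit 175)) (XT.lf (nat_lit 0) (nat_lit 11193708684) (nat_lit 152) (nat_lit 8406064622) (nat_lit 228) (nat_lit 2613651210) (nat_lit 26) (nat_lit 5) (nat_lit 28) (nat_lit 5) (nat_lit 29) (nat_lit 5) (nat_lit 345) (nat_lit 261) (nat_lit 174)))) (XT.nd (nat_lit 78) (nat_lit 152) (nat_lit 0) (XT.lf (nat_lit 0) (nat_lit 280558541) (nat_lit 228) (nat_lit 4068204585) (nat_lit 76) (nat_lit 18392377548) (nat_lit 25) (nat_lit 5) (nat_lit 28) (nat_lit 5) (nat_lit 26) (nat_lit 5) (nat_lit 346) (nat_lit 261) (nat_lit 173)) (XT.nd (nat_lit 78) (nat_lit 0) (nat_lit 0) (XT.lf (nat_lit 0) (nat_lit 3098964338) (nat_lit 152) (nat_lit 122673198) (nat_lit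 228) (nat_lit 20061917862) (nat_lit 23) (nat_lit 5) (nat_lit 25) (nat_lit 5) (nat_lit 26) (nat_lit 5) (nat_lit 347) (nat_lit 261) (nat_lit 172)) (XT.lf (nat_lit 0) (nat_lit 6316026803) (nat_lit 228) (nat_lit 13345180934) (nat_lit 76) (nat_lit 4179102539) (nat_lit 23) (nat_lit 5) (nat_lit 26) (nat_lit 5) (nat_lit 24) (nat_lit 5) (nat_lit 348) (nat_lit 261) (nat_lit 171)))))) (XT.nd (nat_lit 390) (nat_lit 304) (nat_lit 0) (XT.nd (nat_lit 156) (nat_lit 0) (nat_lit 0) (XT.nd (nat_lit 78) (nat_lit 152) (nat_lit 0) (XT.lf (nat_lit 0) (nat_lit 9487886612) (nat_lit 228) (nat_lit 6328641273) (nat_lit 76) (nat_lit 8597720220) (nat_lit 23) (nat_lit 5) (nat_lit 26) (nat_lit 5) (nat_lit 24) (nat_lit 5) (nat_lit 349) (nat_lit 261) (nat_lit 170)) (XT.lf (nat_lit 0) (nat_lit 889699329) (nat_lit 152) (nat_lit 11857662285) (nat_lit 228) (nat_lit 12258287570) (nat_lit 21) (nat_lit 5) (nat_lit 23) (nat_lit 5) (nat_lit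 24) (nat_lit 5) (nat_lit 350) (nat_lit 261) (nat_lit 169))) (XT.nd (nat_lit 78) (nat_lit 0) (nat_lit 0) (XT.lf (nat_lit 0) (nat_lit 8428520061) (nat_lit 152) (nat_lit 7724135451) (nat_lit 228) (nat_lit 9460714096) (nat_lit 21) (nat_lit 5) (nat_lit 23) (nat_lit 5) (nat_lit 24) (nat_lit 5) (nat_lit 351) (nat_lit 261) (nat_lit 168)) (XT.nd (nat_lit 78) (nat_lit 0) (nat_lit 0) (XT.lf (nat_lit 0) (nat_lit 16168455869) (nat_lit 152) (nat_lit 3476242432) (nat_lit 228) (nat_lit 6595103456) (nat_lit 21) (nat_lit 5) (nat_lit 23) (nat_lit 5) (nat_lit 24) (nat_lit 5) (nat_lit 352) (nat_lit 261) (nat_lit 167)) (XT.lf (nat_lit 0) (nat_lit 23235093896) (nat_lit 228) (nat_lit 2777775811) (nat_lit 76) (nat_lit 872366714) (nat_lit 21) (nat_lit 5) (nat_lit 24) (nat_lit 5) (nat_lit 22) (nat_lit 4) (nat_lit 353) (nat_lit 261) (nat_lit 166))))) (XT.nd (nat_lit 234) (nat_lit 152) (nat_lit 0) (XT.nd (nat_lit 78) (nat_lit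 76) (nat_lit 0) (XT.lf (nat_lit 0) (nat_lit 4769271991) (nat_lit 76) (nat_lit 22229580093) (nat_lit 152) (nat_lit 549229313) (nat_lit 20) (nat_lit 5) (nat_lit 21) (nat_lit 5) (nat_lit 22) (nat_lit 4) (nat_lit 354) (nat_lit 261) (nat_lit 165)) (XT.nd (nat_lit 78) (nat_lit 0) (nat_lit 0) (XT.lf (nat_lit 0) (nat_lit 2606857270) (nat_lit 152) (nat_lit 15680045239) (nat_lit 76) (nat_lit 9942749750) (nat_lit 19) (nat_lit 5) (nat_lit 21) (nat_lit 5) (nat_lit 20) (nat_lit 5) (nat_lit 355) (nat_lit 261) (nat_lit 164)) (XT.lf (nat_lit 0) (nat_lit 5832437977) (nat_lit 152) (nat_lit 8397103266) (nat_lit 76) (nat_lit 14702405720) (nat_lit 19) (nat_lit 5) (nat_lit 21) (nat_lit 5) (nat_lit 20) (nat_lit 5) (nat_lit 356) (nat_lit 261) (nat_lit 163)))) (XT.nd (nat_lit 78) (nat_lit 152) (nat_lit 0) (XT.lf (nat_lit 0) (nat_lit 9141048717) (nat_lit 152) (nat_lit 918340225) (nat_lit 76) (nat_lit 19596348608) (nat_lit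 19) (nat_lit 5) (nat_lit 21) (nat_lit 5) (nat_lit 20) (nat_lit 5) (nat_lit 357) (nat_lit 261) (nat_lit 162)) (XT.nd (nat_lit 78) (nat_lit 0) (nat_lit 0) (XT.lf (nat_lit 0) (nat_lit 6897371284) (nat_lit 152) (nat_lit 5704510977) (nat_lit 228) (nat_lit 17797785144) (nat_lit 17) (nat_lit 5) (nat_lit 19) (nat_lit 5) (nat_lit 20) (nat_lit 5) (nat_lit 358) (nat_lit 261) (nat_lit 161)) (XT.lf (nat_lit 0) (nat_lit 14944587987) (nat_lit 152) (nat_lit 1218067984) (nat_lit 228) (nat_lit 15003389794) (nat_lit 17) (nat_lit 5) (nat_lit 19) (nat_lit 5) (nat_lit 20) (nat_lit 5) (nat_lit 359) (nat_lit 261) (nat_lit 160))))))) (XT.nd (nat_lit 858) (nat_lit 380) (nat_lit 0) (XT.nd (nat_lit 390) (nat_lit 152) (nat_lit 0) (XT.nd (nat_lit 156) (nat_lit 152) (nat_lit 0) (XT.nd (nat_lit 78) (nat_lit 0) (nat_lit 0) (XT.lf (nat_lit 0) (nat_lit 19850108712) (nat_lit 228) (nat_lit 8776378565) (nat_lit 76) (nat_lit 3328346178)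 (nat_lit 17) (nat_lit 5) (nat_lit 20) (nat_lit 5) (nat_lit 18) (nat_lit 4) (nat_lit 360) (nat_lit 261) (nat_lit 159)) (XT.lf (nat_lit 0) (nat_lit 23647763955) (nat_lit 228) (nat_lit 1140854497) (nat_lit 76) (nat_lit 7978692212) (nat_lit 17) (nat_lit 5) (nat_lit 20) (nat_lit 5) (nat_lit 18) (nat_lit 4) (nat_lit 361) (nat_lit 261) (nat_lit 158))) (XT.nd (nat_lit 78) (nat_lit 76) (nat_lit 0) (XT.lf (nat_lit 0) (nat_lit 6836907750) (nat_lit 76) (nat_lit 20776044015) (nat_lit 152) (nat_lit 5989615209) (nat_lit 16) (nat_lit 5) (nat_lit 17) (nat_lit 5) (nat_lit 18) (nat_lit 4) (nat_lit 362) (nat_lit 261) (nat_lit 157)) (XT.nd (nat_lit 78) (nat_lit 76) (nat_lit 0) (XT.lf (nat_lit 0) (nat_lit 15057347462) (nat_lit 76) (nat_lit 16639310797) (nat_lit 152) (nat_lit 2766248316) (nat_lit 16) (nat_lit 5) (nat_lit 17) (nat_lit 5) (nat_lit 18) (nat_lit 4) (nat_lit 363) (nat_lit 261) (nat_lit 156)) (XT.lf (nat_lit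 0) (nat_lit 531276660) (nat_lit 152) (nat_lit 11849683061) (nat_lit 76) (nat_lit 22968300792) (nat_lit 15) (nat_lit 5) (nat_lit 17) (nat_lit 5) (nat_lit 16) (nat_lit 5) (nat_lit 364) (nat_lit 261) (nat_lit 155))))) (XT.nd (nat_lit 234) (nat_lit 0) (nat_lit 0) (XT.nd (nat_lit 78) (nat_lit 152) (nat_lit 0) (XT.lf (nat_lit 0) (nat_lit 3860734449) (nat_lit 152) (nat_lit 4113648843) (nat_lit 76) (nat_lit 28287353374) (nat_lit 15) (nat_lit 5) (nat_lit 17) (nat_lit 5) (nat_lit 16) (nat_lit 5) (nat_lit 365) (nat_lit 261) (nat_lit 154)) (XT.nd (nat_lit 78) (nat_lit 0) (nat_lit 0) (XT.lf (nat_lit 0) (nat_lit 3912235862) (nat_lit 152) (nat_lit 3404384695) (nat_lit 228) (nat_lit 29884181312) (nat_lit 13) (nat_lit 5) (nat_lit 15) (nat_lit 5) (nat_lit 16) (nat_lit 5) (nat_lit 366) (nat_lit 261) (nat_lit 153)) (XT.lf (nat_lit 0) (nat_lit 10919668169) (nat_lit 228) (nat_lit 25935160437) (nat_lit 76) (nat_lit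 1311916653) (nat_lit 13) (nat_lit 5) (nat_lit 16) (nat_lit 5) (nat_lit 14) (nat_lit 4) (nat_lit 367) (nat_lit 261) (nat_lit 152)))) (XT.nd (nat_lit 78) (nat_lit 0) (nat_lit 0) (XT.lf (nat_lit 0) (nat_lit 14653845409) (nat_lit 228) (nat_lit 18412972791) (nat_lit 76) (nat_lit 6094168070) (nat_lit 13) (nat_lit 5) (nat_lit 16) (nat_lit 5) (nat_lit 14) (nat_lit 4) (nat_lit 368) (nat_lit 261) (nat_lit 151)) (XT.nd (nat_lit 78) (nat_lit 0) (nat_lit 0) (XT.lf (nat_lit 0) (nat_lit 18489690124) (nat_lit 228) (nat_lit 10682705255) (nat_lit 76) (nat_lit 11012980028) (nat_lit 13) (nat_lit 5) (nat_lit 16) (nat_lit 5) (nat_lit 14) (nat_lit 4) (nat_lit 369) (nat_lit 261) (nat_lit 150)) (XT.lf (nat_lit 0) (nat_lit 22430554021) (nat_lit 228) (nat_lit 2737603227) (nat_lit 76) (nat_lit 16072650517) (nat_lit 13) (nat_lit 5) (nat_lit 16) (nat_lit 5) (nat_lit 14) (nat_lit 4) (nat_lit 370) (nat_lit 261) (nat_lit 149))))))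 (XT.nd (nat_lit 468) (nat_lit 76) (nat_lit 0) (XT.nd (nat_lit 234) (nat_lit 228) (nat_lit 0) (XT.nd (nat_lit 78) (nat_lit 0) (nat_lit 0) (XT.lf (nat_lit 0) (nat_lit 5537328845) (nat_lit 76) (nat_lit 20995779922) (nat_lit 152) (nat_lit 15793499957) (nat_lit 12) (nat_lit 5) (nat_lit 13) (nat_lit 5) (nat_lit 14) (nat_lit 4) (nat_lit 371) (nat_lit 261) (nat_lit 148)) (XT.nd (nat_lit 78) (nat_lit 0) (nat_lit 0) (XT.lf (nat_lit 0) (nat_lit 14100213327) (nat_lit 76) (nat_lit 16676534580) (nat_lit 152) (nat_lit 12667704870) (nat_lit 12) (nat_lit 5) (nat_lit 13) (nat_lit 5) (nat_lit 14) (nat_lit 4) (nat_lit 372) (nat_lit 261) (nat_lit 147)) (XT.lf (nat_lit 0) (nat_lit 22904048679) (nat_lit 76) (nat_lit 12234291549) (nat_lit 152) (nat_lit 9457781629) (nat_lit 12) (nat_lit 5) (nat_lit 13) (nat_lit 5) (nat_lit 14) (nat_lit 4) (nat_lit 373) (nat_lit 261) (nat_lit 146)))) (XT.nd (nat_lit 78) (nat_lit 228)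 (nat_lit 0) (XT.lf (nat_lit 0) (nat_lit 31956527573) (nat_lit 76) (nat_lit 7665169259) (nat_lit 152) (nat_lit 6160925448) (nat_lit 12) (nat_lit 5) (nat_lit 13) (nat_lit 5) (nat_lit 14) (nat_lit 4) (nat_lit 374) (nat_lit 261) (nat_lit 145)) (XT.nd (nat_lit 78) (nat_lit 228) (nat_lit 0) (XT.lf (nat_lit 0) (nat_lit 41265559942) (nat_lit 76) (nat_lit 2965175271) (nat_lit 152) (nat_lit 2774255578) (nat_lit 12) (nat_lit 5) (nat_lit 13) (nat_lit 5) (nat_lit 14) (nat_lit 4) (nat_lit 375) (nat_lit 261) (nat_lit 144)) (XT.lf (nat_lit 0) (nat_lit 734894992) (nat_lit 228) (nat_lit 45662308759) (nat_lit 76) (nat_lit 1865584312) (nat_lit 9) (nat_lit 5) (nat_lit 12) (nat_lit 5) (nat_lit 10) (nat_lit 4) (nat_lit 376) (nat_lit 261) (nat_lit 143))))) (XT.nd (nat_lit 234) (nat_lit 76) (nat_lit 0) (XT.nd (nat_lit 78) (nat_lit 0) (nat_lit 0) (XT.lf (nat_lit 0) (nat_lit 4372847517) (nat_lit 228) (nat_lit 38320565560)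 (nat_lit 76) (nat_lit 6861711311) (nat_lit 9) (nat_lit 5) (nat_lit 12) (nat_lit 5) (nat_lit 10) (nat_lit 4) (nat_lit 377) (nat_lit 261) (nat_lit 142)) (XT.nd (nat_lit 78) (nat_lit 0) (nat_lit 0) (XT.lf (nat_lit 0) (nat_lit 8111587381) (nat_lit 228) (nat_lit 30772962885) (nat_lit 76) (nat_lit 12001938634) (nat_lit 9) (nat_lit 5) (nat_lit 12) (nat_lit 5) (nat_lit 10) (nat_lit 4) (nat_lit 378) (nat_lit 261) (nat_lit 141)) (XT.lf (nat_lit 0) (nat_lit 11954381444) (nat_lit 228) (nat_lit 23012905741) (nat_lit 76) (nat_lit 17290757741) (nat_lit 9) (nat_lit 5) (nat_lit 12) (nat_lit 5) (nat_lit 10) (nat_lit 4) (nat_lit 379) (nat_lit 261) (nat_lit 140)))) (XT.nd (nat_lit 78) (nat_lit 76) (nat_lit 0) (XT.lf (nat_lit 0) (nat_lit 15904587487) (nat_lit 228) (nat_lit 15033613498) (nat_lit 76) (nat_lit 22732789930) (nat_lit 9) (nat_lit 5) (nat_lit 12) (nat_lit 5) (nat_lit 10) (nat_lit 4) (nat_lit 380) (nat_lit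 261) (nat_lit 139)) (XT.nd (nat_lit 78) (nat_lit 76) (nat_lit 0) (XT.lf (nat_lit 0) (nat_lit 19965657146) (nat_lit 228) (nat_lit 6828113956) (nat_lit 76) (nat_lit 28332790375) (nat_lit 9) (nat_lit 5) (nat_lit 12) (nat_lit 5) (nat_lit 10) (nat_lit 4) (nat_lit 381) (nat_lit 261) (nat_lit 138)) (XT.lf (nat_lit 0) (nat_lit 1642820072) (nat_lit 76) (nat_lit 22514110648) (nat_lit 152) (nat_lit 32468623999) (nat_lit 8) (nat_lit 5) (nat_lit 9) (nat_lit 5) (nat_lit 10) (nat_lit 4) (nat_lit 382) (nat_lit 261) (nat_lit 137))))))))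
noncomputable def xc116 : XT := (XT.nd (nat_lit 31824) (nat_lit 0) (nat_lit 9956) (XT.nd (nat_lit 858) (nat_lit 0) (nat_lit 0) (XT.nd (nat_lit 390) (nat_lit 152) (nat_lit 0) (XT.nd (nat_lit 156) (nat_lit 0) (nat_lit 0) (XT.nd (nat_lit 78) (nat_lit 0) (nat_lit 0) (XT.lf (nat_lit 0) (nat_lit 10495189301) (nat_lit 76) (nat_lit 18040378195) (nat_lit 152) (nat_lit 29632108035) (nat_lit 8) (nat_lit 5) (nat_lit 9) (nat_lit 5) (nat_lit 10) (nat_lit 4) (nat_lit 383) (nat_lit 261) (nat_lit 136)) (XT.lf (nat_lit 0) (nat_lit 19600835952) (nat_lit 76) (nat_lit 13437615218) (nat_lit 152) (nat_lit 26717828493) (nat_lit 8) (nat_lit 5) (nat_lit 9) (nat_lit 5) (nat_lit 10) (nat_lit 4) (nat_lit 384) (nat_lit 261) (nat_lit 135))) (XT.nd (nat_lit 78) (nat_lit 0) (nat_lit 0) (XT.lf (nat_lit 0) (nat_lit 28967716417) (nat_lit 76) (nat_lit 8701799887) (nat_lit 152) (nat_lit 23723238915) (nat_lit 8) (nat_lit 5) (nat_lit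 9) (nat_lit 5) (nat_lit 10) (nat_lit 4) (nat_lit 385) (nat_lit 261) (nat_lit 134)) (XT.nd (nat_lit 78) (nat_lit 0) (nat_lit 0) (XT.lf (nat_lit 0) (nat_lit 38604015347) (nat_lit 76) (nat_lit 3828794110) (nat_lit 152) (nat_lit 20645722670) (nat_lit 8) (nat_lit 5) (nat_lit 9) (nat_lit 5) (nat_lit 10) (nat_lit 4) (nat_lit 386) (nat_lit 261) (nat_lit 133)) (XT.lf (nat_lit 0) (nat_lit 47343890022) (nat_lit 152) (nat_lit 16308327877) (nat_lit 0) (nat_lit 1162523580) (nat_lit 8) (nat_lit 5) (nat_lit 10) (nat_lit 4) (nat_lit 8) (nat_lit 4) (nat_lit 387) (nat_lit 261) (nat_lit 132))))) (XT.nd (nat_lit 234) (nat_lit 76) (nat_lit 0) (XT.nd (nat_lit 78) (nat_lit 76) (nat_lit 0) (XT.lf (nat_lit 0) (nat_lit 52433848502) (nat_lit 152) (nat_lit 7946135856) (nat_lit 0) (nat_lit 6222112012) (nat_lit 8) (nat_lit 5) (nat_lit 10) (nat_lit 4) (nat_lit 8) (nat_lit 4) (nat_lit 388) (nat_lit 261) (nat_lit 131)) (XT.nd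 (nat_lit 78) (nat_lit 0) (nat_lit 0) (XT.lf (nat_lit 0) (nat_lit 669229846) (nat_lit 76) (nat_lit 57007530923) (nat_lit 76) (nat_lit 10766308950) (nat_lit 7) (nat_lit 4) (nat_lit 8) (nat_lit 5) (nat_lit 8) (nat_lit 4) (nat_lit 389) (nat_lit 261) (nat_lit 130)) (XT.lf (nat_lit 0) (nat_lit 9695298756) (nat_lit 76) (nat_lit 53455801635) (nat_lit 76) (nat_lit 7185952980) (nat_lit 7) (nat_lit 4) (nat_lit 8) (nat_lit 5) (nat_lit 8) (nat_lit 4) (nat_lit 390) (nat_lit 261) (nat_lit 129)))) (XT.nd (nat_lit 78) (nat_lit 76) (nat_lit 0) (XT.lf (nat_lit 0) (nat_lit 18981814045) (nat_lit 76) (nat_lit 49801933434) (nat_lit 76) (nat_lit 3504291883) (nat_lit 7) (nat_lit 4) (nat_lit 8) (nat_lit 5) (nat_lit 8) (nat_lit 4) (nat_lit 391) (nat_lit 261) (nat_lit 128)) (XT.nd (nat_lit 78) (nat_lit 0) (nat_lit 0) (XT.lf (nat_lit 0) (nat_lit 276390609) (nat_lit 152) (nat_lit 45763552007) (nat_lit 76) (nat_lit 28257708531)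 (nat_lit 6) (nat_lit 5) (nat_lit 8) (nat_lit 5) (nat_lit 7) (nat_lit 4) (nat_lit 392) (nat_lit 261) (nat_lit 127)) (XT.lf (nat_lit 0) (nat_lit 4094418012) (nat_lit 152) (nat_lit 38039153848) (nat_lit 76) (nat_lit 34233112540) (nat_lit 6) (nat_lit 5) (nat_lit 8) (nat_lit 5) (nat_lit 7) (nat_lit 4) (nat_lit 393) (nat_lit 261) (nat_lit 126)))))) (XT.nd (nat_lit 30498) (nat_lit 0) (nat_lit 18316) (XT.nd (nat_lit 156) (nat_lit 0) (nat_lit 0) (XT.nd (nat_lit 78) (nat_lit 0) (nat_lit 0) (XT.lf (nat_lit 0) (nat_lit 8021507824) (nat_lit 152) (nat_lit 30092595967) (nat_lit 76) (nat_lit 40383853786) (nat_lit 6) (nat_lit 5) (nat_lit 8) (nat_lit 5) (nat_lit 7) (nat_lit 4) (nat_lit 394) (nat_lit 261) (nat_lit 125)) (XT.lf (nat_lit 0) (nat_lit 12061091480) (nat_lit 152) (nat_lit 21916934772) (nat_lit 76) (nat_lit 46715306703) (nat_lit 6) (nat_lit 5) (nat_lit 8) (nat_lit 5) (nat_lit 7) (nat_lit 4) (nat_lit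 395) (nat_lit 261) (nat_lit 124))) (XT.nd (nat_lit 30186) (nat_lit 0) (nat_lit 19000) (XT.lf (nat_lit 0) (nat_lit 16216698715) (nat_lit 152) (nat_lit 13505026481) (nat_lit 76) (nat_lit 53233003629) (nat_lit 6) (nat_lit 5) (nat_lit 8) (nat_lit 5) (nat_lit 7) (nat_lit 4) (nat_lit 396) (nat_lit 261) (nat_lit 123)) (XT.nd (nat_lit 78) (nat_lit 228) (nat_lit 0) (XT.lf (nat_lit 0) (nat_lit 2135654850) (nat_lit 228) (nat_lit 547206363) (nat_lit 228) (nat_lit 547206363) (nat_lit 259) (nat_lit 3) (nat_lit 262) (nat_lit 3) (nat_lit 262) (nat_lit 5) (nat_lit 262) (nat_lit 262) (nat_lit 256)) (XT.lf (nat_lit 0) (nat_lit 369008712) (nat_lit 228) (nat_lit 4733330522) (nat_lit 304) (nat_lit 1368443647) (nat_lit 256) (nat_lit 5) (nat_lit 259) (nat_lit 3) (nat_lit 260) (nat_lit 5) (nat_lit 263) (nat_lit 262) (nat_lit 255))))) (XT.nd (nat_lit 234) (nat_lit 380) (nat_lit 0) (XT.nd (nat_lit 78) (nat_lit 304) (nat_lit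 0) (XT.lf (nat_lit 0) (nat_lit 2871492041) (nat_lit 228) (nat_lit 1880238247) (nat_lit 304) (nat_lit 1732421218) (nat_lit 256) (nat_lit 5) (nat_lit 259) (nat_lit 3) (nat_lit 260) (nat_lit 5) (nat_lit 264) (nat_lit 262) (nat_lit 254)) (XT.nd (nat_lit 78) (nat_lit 304) (nat_lit 0) (XT.lf (nat_lit 76) (nat_lit 1026292312) (nat_lit 0) (nat_lit 4336260304) (nat_lit 304) (nat_lit 1138360416) (nat_lit 257) (nat_lit 5) (nat_lit 256) (nat_lit 5) (nat_lit 260) (nat_lit 5) (nat_lit 265) (nat_lit 262) (nat_lit 253)) (XT.lf (nat_lit 0) (nat_lit 1306463200) (nat_lit 304) (nat_lit 2526730940) (nat_lit 380) (nat_lit 2687236349) (nat_lit 252) (nat_lit 5) (nat_lit 256) (nat_lit 5) (nat_lit 257) (nat_lit 5) (nat_lit 266) (nat_lit 262) (nat_lit 252)))) (XT.nd (nat_lit 78) (nat_lit 380) (nat_lit 0) (XT.lf (nat_lit 76) (nat_lit 454829529) (nat_lit 0) (nat_lit 3258710040) (nat_lit 380) (nat_lit 2829665376) (nat_lit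 253) (nat_lit 5) (nat_lit 252) (nat_lit 5) (nat_lit 257) (nat_lit 5) (nat_lit 267) (nat_lit 262) (nat_lit 251)) (XT.nd (nat_lit 78) (nat_lit 380) (nat_lit 0) (XT.lf (nat_lit 76) (nat_lit 3525775285) (nat_lit 0) (nat_lit 2602181980) (nat_lit 380) (nat_lit 441004162) (nat_lit 253) (nat_lit 5) (nat_lit 252) (nat_lit 5) (nat_lit 257) (nat_lit 5) (nat_lit 268) (nat_lit 262) (nat_lit 250)) (XT.lf (nat_lit 76) (nat_lit 21926269) (nat_lit 0) (nat_lit 1869239294) (nat_lit 456) (nat_lit 4706737545) (nat_lit 248) (nat_lit 5) (nat_lit 247) (nat_lit 5) (nat_lit 253) (nat_lit 5) (nat_lit 269) (nat_lit 262) (nat_lit 249))))))) (XT.nd (nat_lit 858) (nat_lit 5548) (nat_lit 0) (XT.nd (nat_lit 390) (nat_lit 1976) (nat_lit 0) (XT.nd (nat_lit 156) (nat_lit 836) (nat_lit 0) (XT.nd (nat_lit 78) (nat_lit 0) (nat_lit 0) (XT.lf (nat_lit 76) (nat_lit 3184985828) (nat_lit 0) (nat_lit 1043272040) (nat_lit 456) (nat_lit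 2401332279) (nat_lit 248) (nat_lit 5) (nat_lit 247) (nat_lit 5) (nat_lit 253) (nat_lit 5) (nat_lit 270) (nat_lit 262) (nat_lit 248)) (XT.lf (nat_lit 76) (nat_lit 6392514571) (nat_lit 0) (nat_lit 158612282) (nat_lit 456) (nat_lit 113944362) (nat_lit 248) (nat_lit 5) (nat_lit 247) (nat_lit 5) (nat_lit 253) (nat_lit 5) (nat_lit 271) (nat_lit 262) (nat_lit 247))) (XT.nd (nat_lit 78) (nat_lit 456) (nat_lit 0) (XT.lf (nat_lit 0) (nat_lit 2152014592) (nat_lit 456) (nat_lit 3730578621) (nat_lit 76) (nat_lit 820061282) (nat_lit 242) (nat_lit 5) (nat_lit 248) (nat_lit 5) (nat_lit 243) (nat_lit 5) (nat_lit 272) (nat_lit 262) (nat_lit 246)) (XT.nd (nat_lit 78) (nat_lit 456) (nat_lit 0) (XT.lf (nat_lit 0) (nat_lit 4407250759) (nat_lit 456) (nat_lit 477789055) (nat_lit 76) (nat_lit 1858870704) (nat_lit 242) (nat_lit 5) (nat_lit 248) (nat_lit 5) (nat_lit 243) (nat_lit 5) (nat_lit 273) (nat_lit 262) (nat_lit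 245)) (XT.lf (nat_lit 0) (nat_lit 2876862900) (nat_lit 456) (nat_lit 3802526204) (nat_lit 532) (nat_lit 108816158) (nat_lit 236) (nat_lit 5) (nat_lit 242) (nat_lit 5) (nat_lit 243) (nat_lit 5) (nat_lit 274) (nat_lit 262) (nat_lit 244))))) (XT.nd (nat_lit 234) (nat_lit 1368) (nat_lit 0) (XT.nd (nat_lit 78) (nat_lit 532) (nat_lit 0) (XT.lf (nat_lit 0) (nat_lit 2070438654) (nat_lit 532) (nat_lit 565953588) (nat_lit 76) (nat_lit 4199251766) (nat_lit 235) (nat_lit 5) (nat_lit 242) (nat_lit 5) (nat_lit 236) (nat_lit 5) (nat_lit 275) (nat_lit 262) (nat_lit 243)) (XT.nd (nat_lit 78) (nat_lit 0) (nat_lit 0) (XT.lf (nat_lit 0) (nat_lit 2883374301) (nat_lit 532) (nat_lit 1381845360) (nat_lit 608) (nat_lit 2620938636) (nat_lit 228) (nat_lit 5) (nat_lit 235) (nat_lit 5) (nat_lit 236) (nat_lit 5) (nat_lit 276) (nat_lit 262) (nat_lit 242)) (XT.lf (nat_lit 0) (nat_lit 6396679326) (nat_lit 532) (nat_lit 61203005)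 (nat_lit 608) (nat_lit 482591885) (nat_lit 228) (nat_lit 5) (nat_lit 235) (nat_lit 5) (nat_lit 236) (nat_lit 5) (nat_lit 277) (nat_lit 262) (nat_lit 241)))) (XT.nd (nat_lit 78) (nat_lit 684) (nat_lit 0) (XT.lf (nat_lit 0) (nat_lit 1655943042) (nat_lit 684) (nat_lit 4000730846) (nat_lit 76) (nat_lit 1340394912) (nat_lit 219) (nat_lit 5) (nat_lit 228) (nat_lit 5) (nat_lit 220) (nat_lit 5) (nat_lit 278) (nat_lit 262) (nat_lit 240)) (XT.nd (nat_lit 78) (nat_lit 684) (nat_lit 0) (XT.lf (nat_lit 0) (nat_lit 3784427014) (nat_lit 684) (nat_lit 460146096) (nat_lit 76) (nat_lit 2812806350) (nat_lit 219) (nat_lit 5) (nat_lit 228) (nat_lit 5) (nat_lit 220) (nat_lit 5) (nat_lit 279) (nat_lit 262) (nat_lit 239)) (XT.lf (nat_lit 0) (nat_lit 3197266593) (nat_lit 684) (nat_lit 2741632036) (nat_lit 760) (nat_lit 1181956584) (nat_lit 210) (nat_lit 5) (nat_lit 219) (nat_lit 5) (nat_lit 220) (nat_lit 5) (nat_lit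 280) (nat_lit 262) (nat_lit 238)))))) (XT.nd (nat_lit 468) (nat_lit 2888) (nat_lit 0) (XT.nd (nat_lit 234) (nat_lit 1824) (nat_lit 0) (XT.nd (nat_lit 78) (nat_lit 760) (nat_lit 0) (XT.lf (nat_lit 0) (nat_lit 889529768) (nat_lit 760) (nat_lit 274480897) (nat_lit 76) (nat_lit 6024049789) (nat_lit 209) (nat_lit 5) (nat_lit 219) (nat_lit 5) (nat_lit 210) (nat_lit 5) (nat_lit 281) (nat_lit 262) (nat_lit 237)) (XT.nd (nat_lit 78) (nat_lit 0) (nat_lit 0) (XT.lf (nat_lit 0) (nat_lit 2971975281) (nat_lit 836) (nat_lit 3773934443) (nat_lit 76) (nat_lit 512045048) (nat_lit 199) (nat_lit 5) (nat_lit 210) (nat_lit 5) (nat_lit 200) (nat_lit 5) (nat_lit 282) (nat_lit 262) (nat_lit 236)) (XT.lf (nat_lit 0) (nat_lit 5066794738) (nat_lit 836) (nat_lit 33566486) (nat_lit 76) (nat_lit 2231282938) (nat_lit 199) (nat_lit 5) (nat_lit 210) (nat_lit 5) (nat_lit 200) (nat_lit 5) (nat_lit 283) (nat_lit 262) (nat_lit 235))))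 (XT.nd (nat_lit 78) (nat_lit 988) (nat_lit 0) (XT.lf (nat_lit 0) (nat_lit 3842483888) (nat_lit 836) (nat_lit 3356364166) (nat_lit 912) (nat_lit 209654074) (nat_lit 188) (nat_lit 5) (nat_lit 199) (nat_lit 5) (nat_lit 200) (nat_lit 5) (nat_lit 284) (nat_lit 262) (nat_lit 234)) (XT.nd (nat_lit 78) (nat_lit 0) (nat_lit 0) (XT.lf (nat_lit 0) (nat_lit 282609432) (nat_lit 912) (nat_lit 1528428232) (nat_lit 988) (nat_lit 5678025162) (nat_lit 175) (nat_lit 5) (nat_lit 187) (nat_lit 5) (nat_lit 188) (nat_lit 5) (nat_lit 285) (nat_lit 262) (nat_lit 233)) (XT.lf (nat_lit 0) (nat_lit 3867298196) (nat_lit 988) (nat_lit 3310984686) (nat_lit 76) (nat_lit 394493819) (nat_lit 175) (nat_lit 5) (nat_lit 188) (nat_lit 5) (nat_lit 176) (nat_lit 5) (nat_lit 286) (nat_lit 262) (nat_lit 232))))) (XT.nd (nat_lit 234) (nat_lit 760) (nat_lit 0) (XT.nd (nat_lit 78) (nat_lit 1140) (nat_lit 0) (XT.lf (nat_lit 0) (nat_lit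 646419446) (nat_lit 988) (nat_lit 5301328553) (nat_lit 1064) (nat_lit 1712547383) (nat_lit 162) (nat_lit 5) (nat_lit 175) (nat_lit 5) (nat_lit 176) (nat_lit 5) (nat_lit 287) (nat_lit 262) (nat_lit 231)) (XT.nd (nat_lit 78) (nat_lit 1064) (nat_lit 0) (XT.lf (nat_lit 0) (nat_lit 308938061) (nat_lit 1064) (nat_lit 3015836021) (nat_lit 76) (nat_lit 4426464077) (nat_lit 161) (nat_lit 5) (nat_lit 175) (nat_lit 5) (nat_lit 162) (nat_lit 5) (nat_lit 288) (nat_lit 262) (nat_lit 230)) (XT.lf (nat_lit 0) (nat_lit 1054092195) (nat_lit 1064) (nat_lit 1256026663) (nat_lit 1140) (nat_lit 5535831684) (nat_lit 147) (nat_lit 5) (nat_lit 161) (nat_lit 5) (nat_lit 162) (nat_lit 5) (nat_lit 289) (nat_lit 262) (nat_lit 229)))) (XT.nd (nat_lit 78) (nat_lit 760) (nat_lit 0) (XT.lf (nat_lit 0) (nat_lit 4355038602) (nat_lit 1140) (nat_lit 2696377281) (nat_lit 76) (nat_lit 892726960) (nat_lit 147) (nat_lit 5) (nat_lit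 162) (nat_lit 5) (nat_lit 148) (nat_lit 5) (nat_lit 290) (nat_lit 262) (nat_lit 228)) (XT.nd (nat_lit 78) (nat_lit 76) (nat_lit 0) (XT.lf (nat_lit 0) (nat_lit 1487078658) (nat_lit 684) (nat_lit 4947112281) (nat_lit 760) (nat_lit 1612048715) (nat_lit 138) (nat_lit 5) (nat_lit 147) (nat_lit 5) (nat_lit 148) (nat_lit 5) (nat_lit 291) (nat_lit 262) (nat_lit 227)) (XT.lf (nat_lit 0) (nat_lit 390108222) (nat_lit 760) (nat_lit 2355787111) (nat_lit 76) (nat_lit 5406296532) (nat_lit 137) (nat_lit 5) (nat_lit 147) (nat_lit 5) (nat_lit 138) (nat_lit 5) (nat_lit 292) (nat_lit 262) (nat_lit 226))))))))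
noncomputable def xc117 : XT := (XT.nd (nat_lit 1716) (nat_lit 2812) (nat_lit 0) (XT.nd (nat_lit 858) (nat_lit 1976) (nat_lit 0) (XT.nd (nat_lit 390) (nat_lit 1444) (nat_lit 0) (XT.nd (nat_lit 156) (nat_lit 1064) (nat_lit 0) (XT.nd (nat_lit 78) (nat_lit 0) (nat_lit 0) (XT.lf (nat_lit 0) (nat_lit 1945033609) (nat_lit 532) (nat_lit 441720704) (nat_lit 608) (nat_lit 5875217717) (nat_lit 130) (nat_lit 5) (nat_lit 137) (nat_lit 5) (nat_lit 138) (nat_lit 5) (nat_lit 293) (nat_lit 262) (nat_lit 225)) (XT.lf (nat_lit 0) (nat_lit 4435055234) (nat_lit 608) (nat_lit 2021777303) (nat_lit 76) (nat_lit 1918589487) (nat_lit 130) (nat_lit 5) (nat_lit 138) (nat_lit 5) (nat_lit 131) (nat_lit 5) (nat_lit 294) (nat_lit 262) (nat_lit 224))) (XT.nd (nat_lit 78) (nat_lit 532) (nat_lit 0) (XT.lf (nat_lit 0) (nat_lit 2394282767) (nat_lit 532) (nat_lit 4128555436) (nat_lit 608) (nat_lit 1970221656) (nat_lit 123) (nat_lit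 5) (nat_lit 130) (nat_lit 5) (nat_lit 131) (nat_lit 5) (nat_lit 295) (nat_lit 262) (nat_lit 223)) (XT.nd (nat_lit 78) (nat_lit 456) (nat_lit 0) (XT.lf (nat_lit 0) (nat_lit 29498603) (nat_lit 608) (nat_lit 1681018366) (nat_lit 76) (nat_lit 6904662293) (nat_lit 122) (nat_lit 5) (nat_lit 130) (nat_lit 5) (nat_lit 123) (nat_lit 5) (nat_lit 296) (nat_lit 262) (nat_lit 222)) (XT.lf (nat_lit 0) (nat_lit 2037442473) (nat_lit 532) (nat_lit 5892963350) (nat_lit 76) (nat_lit 810450961) (nat_lit 116) (nat_lit 5) (nat_lit 123) (nat_lit 5) (nat_lit 117) (nat_lit 5) (nat_lit 297) (nat_lit 262) (nat_lit 221))))) (XT.nd (nat_lit 234) (nat_lit 988) (nat_lit 0) (XT.nd (nat_lit 78) (nat_lit 456) (nat_lit 0) (XT.lf (nat_lit 0) (nat_lit 4093028211) (nat_lit 532) (nat_lit 1390192867) (nat_lit 76) (nat_lit 3387572801) (nat_lit 116) (nat_lit 5) (nat_lit 123) (nat_lit 5) (nat_lit 117) (nat_lit 5) (nat_lit 298) (nat_lit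 262) (nat_lit 220)) (XT.nd (nat_lit 78) (nat_lit 0) (nat_lit 0) (XT.lf (nat_lit 0) (nat_lit 3262364491) (nat_lit 456) (nat_lit 2933961030) (nat_lit 532) (nat_lit 2808830356) (nat_lit 110) (nat_lit 5) (nat_lit 116) (nat_lit 5) (nat_lit 117) (nat_lit 5) (nat_lit 299) (nat_lit 262) (nat_lit 219)) (XT.lf (nat_lit 0) (nat_lit 8034519408) (nat_lit 456) (nat_lit 297778613) (nat_lit 532) (nat_lit 812268388) (nat_lit 110) (nat_lit 5) (nat_lit 116) (nat_lit 5) (nat_lit 117) (nat_lit 5) (nat_lit 300) (nat_lit 262) (nat_lit 218)))) (XT.nd (nat_lit 78) (nat_lit 456) (nat_lit 0) (XT.lf (nat_lit 0) (nat_lit 1235192898) (nat_lit 532) (nat_lit 5638448538) (nat_lit 76) (nat_lit 2413799528) (nat_lit 103) (nat_lit 5) (nat_lit 110) (nat_lit 5) (nat_lit 104) (nat_lit 5) (nat_lit 301) (nat_lit 262) (nat_lit 217)) (XT.nd (nat_lit 78) (nat_lit 456) (nat_lit 0) (XT.lf (nat_lit 0) (nat_lit 3299096989) (nat_lit 532) (nat_lit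 920708940) (nat_lit 76) (nat_lit 5215510271) (nat_lit 103) (nat_lit 5) (nat_lit 110) (nat_lit 5) (nat_lit 104) (nat_lit 5) (nat_lit 302) (nat_lit 262) (nat_lit 216)) (XT.lf (nat_lit 0) (nat_lit 3968527550) (nat_lit 456) (nat_lit 1452864947) (nat_lit 532) (nat_lit 4166434224) (nat_lit 97) (nat_lit 5) (nat_lit 103) (nat_lit 5) (nat_lit 104) (nat_lit 5) (nat_lit 303) (nat_lit 262) (nat_lit 215)))))) (XT.nd (nat_lit 390) (nat_lit 1140) (nat_lit 0) (XT.nd (nat_lit 156) (nat_lit 456) (nat_lit 0) (XT.nd (nat_lit 78) (nat_lit 380) (nat_lit 0) (XT.lf (nat_lit 0) (nat_lit 7589205572) (nat_lit 532) (nat_lit 783109941) (nat_lit 76) (nat_lit 1373232126) (nat_lit 97) (nat_lit 5) (nat_lit 104) (nat_lit 5) (nat_lit 98) (nat_lit 5) (nat_lit 304) (nat_lit 262) (nat_lit 214)) (XT.lf (nat_lit 0) (nat_lit 4219249436) (nat_lit 380) (nat_lit 5617969384) (nat_lit 456) (nat_lit 70414294) (nat_lit 92) (nat_lit 5) (nat_lit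 97) (nat_lit 5) (nat_lit 98) (nat_lit 5) (nat_lit 305) (nat_lit 262) (nat_lit 213))) (XT.nd (nat_lit 78) (nat_lit 380) (nat_lit 0) (XT.lf (nat_lit 0) (nat_lit 2005991444) (nat_lit 456) (nat_lit 753939236) (nat_lit 76) (nat_lit 7315080520) (nat_lit 91) (nat_lit 5) (nat_lit 97) (nat_lit 5) (nat_lit 92) (nat_lit 5) (nat_lit 306) (nat_lit 262) (nat_lit 212)) (XT.nd (nat_lit 78) (nat_lit 0) (nat_lit 0) (XT.lf (nat_lit 0) (nat_lit 4148988052) (nat_lit 456) (nat_lit 5882316214) (nat_lit 76) (nat_lit 215994474) (nat_lit 86) (nat_lit 5) (nat_lit 92) (nat_lit 5) (nat_lit 87) (nat_lit 5) (nat_lit 307) (nat_lit 262) (nat_lit 211)) (XT.lf (nat_lit 0) (nat_lit 6353512463) (nat_lit 456) (nat_lit 845582548) (nat_lit 76) (nat_lit 3225820858) (nat_lit 86) (nat_lit 5) (nat_lit 92) (nat_lit 5) (nat_lit 87) (nat_lit 5) (nat_lit 308) (nat_lit 262) (nat_lit 210))))) (XT.nd (nat_lit 234) (nat_lit 304) (nat_lit 0) (XT.nd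 (nat_lit 78) (nat_lit 456) (nat_lit 0) (XT.lf (nat_lit 0) (nat_lit 4382547586) (nat_lit 380) (nat_lit 4247076216) (nat_lit 456) (nat_lit 1978150002) (nat_lit 81) (nat_lit 5) (nat_lit 86) (nat_lit 5) (nat_lit 87) (nat_lit 5) (nat_lit 309) (nat_lit 262) (nat_lit 209)) (XT.nd (nat_lit 78) (nat_lit 380) (nat_lit 0) (XT.lf (nat_lit 0) (nat_lit 146585030) (nat_lit 456) (nat_lit 1058379413) (nat_lit 76) (nat_lit 9592008538) (nat_lit 80) (nat_lit 5) (nat_lit 86) (nat_lit 5) (nat_lit 81) (nat_lit 5) (nat_lit 310) (nat_lit 262) (nat_lit 208)) (XT.lf (nat_lit 0) (nat_lit 2320124179) (nat_lit 456) (nat_lit 6726993569) (nat_lit 76) (nat_lit 1943467583) (nat_lit 75) (nat_lit 5) (nat_lit 81) (nat_lit 5) (nat_lit 76) (nat_lit 5) (nat_lit 311) (nat_lit 262) (nat_lit 207)))) (XT.nd (nat_lit 78) (nat_lit 304) (nat_lit 0) (XT.lf (nat_lit 0) (nat_lit 4546710942) (nat_lit 456) (nat_lit 1479645615) (nat_lit 76) (nat_lit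 5164081622) (nat_lit 75) (nat_lit 5) (nat_lit 81) (nat_lit 5) (nat_lit 76) (nat_lit 5) (nat_lit 312) (nat_lit 262) (nat_lit 206)) (XT.nd (nat_lit 78) (nat_lit 0) (nat_lit 0) (XT.lf (nat_lit 0) (nat_lit 3958838196) (nat_lit 304) (nat_lit 2885445598) (nat_lit 380) (nat_lit 4551942571) (nat_lit 71) (nat_lit 5) (nat_lit 75) (nat_lit 5) (nat_lit 76) (nat_lit 5) (nat_lit 313) (nat_lit 262) (nat_lit 205)) (XT.lf (nat_lit 0) (nat_lit 9195846124) (nat_lit 380) (nat_lit 2064518483) (nat_lit 76) (nat_lit 348335226) (nat_lit 71) (nat_lit 5) (nat_lit 76) (nat_lit 5) (nat_lit 72) (nat_lit 5) (nat_lit 314) (nat_lit 262) (nat_lit 204))))))) (XT.nd (nat_lit 858) (nat_lit 1216) (nat_lit 0) (XT.nd (nat_lit 390) (nat_lit 608) (nat_lit 0) (XT.nd (nat_lit 156) (nat_lit 608) (nat_lit 0) (XT.nd (nat_lit 78) (nat_lit 76) (nat_lit 0) (XT.lf (nat_lit 0) (nat_lit 3465805734) (nat_lit 304) (nat_lit 8181617663) (nat_lit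 380) (nat_lit 179301721) (nat_lit 67) (nat_lit 5) (nat_lit 71) (nat_lit 5) (nat_lit 72) (nat_lit 5) (nat_lit 315) (nat_lit 262) (nat_lit 203)) (XT.lf (nat_lit 0) (nat_lit 2068663836) (nat_lit 380) (nat_lit 2909976310) (nat_lit 76) (nat_lit 7072433392) (nat_lit 66) (nat_lit 5) (nat_lit 71) (nat_lit 5) (nat_lit 67) (nat_lit 5) (nat_lit 316) (nat_lit 262) (nat_lit 202))) (XT.nd (nat_lit 78) (nat_lit 304) (nat_lit 0) (XT.lf (nat_lit 0) (nat_lit 2713857874) (nat_lit 304) (nat_lit 1661379760) (nat_lit 380) (nat_lit 7907074752) (nat_lit 62) (nat_lit 5) (nat_lit 66) (nat_lit 5) (nat_lit 67) (nat_lit 5) (nat_lit 317) (nat_lit 262) (nat_lit 201)) (XT.nd (nat_lit 78) (nat_lit 304) (nat_lit 0) (XT.lf (nat_lit 0) (nat_lit 6766656438) (nat_lit 380) (nat_lit 4012998879) (nat_lit 76) (nat_lit 1740418426) (nat_lit 62) (nat_lit 5) (nat_lit 67) (nat_lit 5) (nat_lit 63) (nat_lit 5) (nat_lit 318) (nat_lit 262) (nat_lit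 200)) (XT.lf (nat_lit 0) (nat_lit 1684487286) (nat_lit 304) (nat_lit 7547970042) (nat_lit 380) (nat_lit 3532484610) (nat_lit 58) (nat_lit 5) (nat_lit 62) (nat_lit 5) (nat_lit 63) (nat_lit 5) (nat_lit 319) (nat_lit 262) (nat_lit 199))))) (XT.nd (nat_lit 234) (nat_lit 304) (nat_lit 0) (XT.nd (nat_lit 78) (nat_lit 304) (nat_lit 0) (XT.lf (nat_lit 0) (nat_lit 7594508827) (nat_lit 304) (nat_lit 4188727814) (nat_lit 380) (nat_lit 1233641042) (nat_lit 58) (nat_lit 5) (nat_lit 62) (nat_lit 5) (nat_lit 63) (nat_lit 5) (nat_lit 320) (nat_lit 262) (nat_lit 198)) (XT.nd (nat_lit 78) (nat_lit 0) (nat_lit 0) (XT.lf (nat_lit 0) (nat_lit 361518331) (nat_lit 228) (nat_lit 725000781) (nat_lit 304) (nat_lit 12190339499) (nat_lit 54) (nat_lit 5) (nat_lit 57) (nat_lit 5) (nat_lit 58) (nat_lit 5) (nat_lit 321) (nat_lit 262) (nat_lit 197)) (XT.lf (nat_lit 0) (nat_lit 3505474980) (nat_lit 304) (nat_lit 7193498575)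 (nat_lit 76) (nat_lit 2843726659) (nat_lit 54) (nat_lit 5) (nat_lit 58) (nat_lit 5) (nat_lit 55) (nat_lit 5) (nat_lit 322) (nat_lit 262) (nat_lit 196)))) (XT.nd (nat_lit 78) (nat_lit 304) (nat_lit 0) (XT.lf (nat_lit 0) (nat_lit 5976375100) (nat_lit 304) (nat_lit 1346496418) (nat_lit 76) (nat_lit 6494310159) (nat_lit 54) (nat_lit 5) (nat_lit 58) (nat_lit 5) (nat_lit 55) (nat_lit 5) (nat_lit 323) (nat_lit 262) (nat_lit 195)) (XT.nd (nat_lit 78) (nat_lit 0) (nat_lit 0) (XT.lf (nat_lit 0) (nat_lit 4730044578) (nat_lit 304) (nat_lit 3809832862) (nat_lit 380) (nat_lit 5559510426) (nat_lit 50) (nat_lit 5) (nat_lit 54) (nat_lit 5) (nat_lit 55) (nat_lit 5) (nat_lit 324) (nat_lit 262) (nat_lit 194)) (XT.lf (nat_lit 0) (nat_lit 10978686461) (nat_lit 304) (nat_lit 188625370) (nat_lit 380) (nat_lit 3223180844) (nat_lit 50) (nat_lit 5) (nat_lit 54) (nat_lit 5) (nat_lit 55) (nat_lit 5) (nat_lit 325) (nat_lit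 262) (nat_lit 193)))))) (XT.nd (nat_lit 468) (nat_lit 456) (nat_lit 0) (XT.nd (nat_lit 234) (nat_lit 228) (nat_lit 0) (XT.nd (nat_lit 78) (nat_lit 304) (nat_lit 0) (XT.lf (nat_lit 0) (nat_lit 2705809300) (nat_lit 228) (nat_lit 11201909314) (nat_lit 304) (nat_lit 781629516) (nat_lit 47) (nat_lit 5) (nat_lit 50) (nat_lit 5) (nat_lit 51) (nat_lit 5) (nat_lit 326) (nat_lit 262) (nat_lit 192)) (XT.nd (nat_lit 78) (nat_lit 228) (nat_lit 0) (XT.lf (nat_lit 0) (nat_lit 1710214220) (nat_lit 304) (nat_lit 5975706282) (nat_lit 76) (nat_lit 7310462525) (nat_lit 46) (nat_lit 5) (nat_lit 50) (nat_lit 5) (nat_lit 47) (nat_lit 5) (nat_lit 327) (nat_lit 262) (nat_lit 191)) (XT.lf (nat_lit 0) (nat_lit 171469682) (nat_lit 228) (nat_lit 4066238172) (nat_lit 304) (nat_lit 11075429235) (nat_lit 43) (nat_lit 5) (nat_lit 46) (nat_lit 5) (nat_lit 47) (nat_lit 5) (nat_lit 328) (nat_lit 262) (nat_lit 190)))) (XT.nd (nat_lit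 78) (nat_lit 228) (nat_lit 0) (XT.lf (nat_lit 0) (nat_lit 6589416230) (nat_lit 228) (nat_lit 287291296) (nat_lit 304) (nat_lit 8761653110) (nat_lit 43) (nat_lit 5) (nat_lit 46) (nat_lit 5) (nat_lit 47) (nat_lit 5) (nat_lit 329) (nat_lit 262) (nat_lit 189)) (XT.nd (nat_lit 78) (nat_lit 228) (nat_lit 0) (XT.lf (nat_lit 0) (nat_lit 9605480370) (nat_lit 304) (nat_lit 2843828969) (nat_lit 76) (nat_lit 3523749671) (nat_lit 43) (nat_lit 5) (nat_lit 47) (nat_lit 5) (nat_lit 44) (nat_lit 5) (nat_lit 330) (nat_lit 262) (nat_lit 188)) (XT.lf (nat_lit 0) (nat_lit 3579754654) (nat_lit 228) (nat_lit 8850266989) (nat_lit 304) (nat_lit 3887394696) (nat_lit 40) (nat_lit 5) (nat_lit 43) (nat_lit 5) (nat_lit 44) (nat_lit 5) (nat_lit 331) (nat_lit 262) (nat_lit 187))))) (XT.nd (nat_lit 234) (nat_lit 152) (nat_lit 0) (XT.nd (nat_lit 78) (nat_lit 304) (nat_lit 0) (XT.lf (nat_lit 0) (nat_lit 10219986921) (nat_lit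 228) (nat_lit 5125029175) (nat_lit 304) (nat_lit 1326950919) (nat_lit 40) (nat_lit 5) (nat_lit 43) (nat_lit 5) (nat_lit 44) (nat_lit 5) (nat_lit 332) (nat_lit 262) (nat_lit 186)) (XT.nd (nat_lit 78) (nat_lit 228) (nat_lit 0) (XT.lf (nat_lit 0) (nat_lit 1262153543) (nat_lit 304) (nat_lit 24159113) (nat_lit 76) (nat_lit 15751173385) (nat_lit 39) (nat_lit 5) (nat_lit 43) (nat_lit 5) (nat_lit 40) (nat_lit 5) (nat_lit 333) (nat_lit 262) (nat_lit 185)) (XT.lf (nat_lit 0) (nat_lit 3970858546) (nat_lit 304) (nat_lit 10757765844) (nat_lit 76) (nat_lit 2682925406) (nat_lit 36) (nat_lit 5) (nat_lit 40) (nat_lit 5) (nat_lit 37) (nat_lit 5) (nat_lit 334) (nat_lit 262) (nat_lit 184)))) (XT.nd (nat_lit 78) (nat_lit 152) (nat_lit 0) (XT.lf (nat_lit 0) (nat_lit 6752101689) (nat_lit 304) (nat_lit 4310107100) (nat_lit 76) (nat_lit 6734918698) (nat_lit 36) (nat_lit 5) (nat_lit 40) (nat_lit 5) (nat_lit 37) (nat_lit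 5) (nat_lit 335) (nat_lit 262) (nat_lit 183)) (XT.nd (nat_lit 78) (nat_lit 0) (nat_lit 0) (XT.lf (nat_lit 0) (nat_lit 2344595713) (nat_lit 152) (nat_lit 7273651135) (nat_lit 228) (nat_lit 8576011164) (nat_lit 34) (nat_lit 5) (nat_lit 36) (nat_lit 5) (nat_lit 37) (nat_lit 5) (nat_lit 336) (nat_lit 262) (nat_lit 182)) (XT.lf (nat_lit 0) (nat_lit 9255470451) (nat_lit 152) (nat_lit 3337664458) (nat_lit 228) (nat_lit 6009513376) (nat_lit 34) (nat_lit 5) (nat_lit 36) (nat_lit 5) (nat_lit 37) (nat_lit 5) (nat_lit 337) (nat_lit 262) (nat_lit 181))))))))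
noncomputable def xc118 : XT := (XT.nd (nat_lit 1716) (nat_lit 608) (nat_lit 0) (XT.nd (nat_lit 858) (nat_lit 456) (nat_lit 0) (XT.nd (nat_lit 390) (nat_lit 380) (nat_lit 0) (XT.nd (nat_lit 156) (nat_lit 228) (nat_lit 0) (XT.nd (nat_lit 78) (nat_lit 228) (nat_lit 0) (XT.lf (nat_lit 0) (nat_lit 15643892637) (nat_lit 228) (nat_lit 2687929974) (nat_lit 76) (nat_lit 691896720) (nat_lit 34) (nat_lit 5) (nat_lit 37) (nat_lit 5) (nat_lit 35) (nat_lit 5) (nat_lit 338) (nat_lit 262) (nat_lit 180)) (XT.lf (nat_lit 0) (nat_lit 4189287870) (nat_lit 228) (nat_lit 14650528138) (nat_lit 304) (nat_lit 616024163) (nat_lit 31) (nat_lit 5) (nat_lit 34) (nat_lit 5) (nat_lit 35) (nat_lit 5) (nat_lit 339) (nat_lit 262) (nat_lit 179))) (XT.nd (nat_lit 78) (nat_lit 152) (nat_lit 0) (XT.lf (nat_lit 0) (nat_lit 2194966864) (nat_lit 304) (nat_lit 8624525588) (nat_lit 76) (nat_lit 9080580201) (nat_lit 30) (nat_lit 5) (nat_lit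 34) (nat_lit 5) (nat_lit 31) (nat_lit 5) (nat_lit 340) (nat_lit 262) (nat_lit 178)) (XT.nd (nat_lit 78) (nat_lit 152) (nat_lit 0) (XT.lf (nat_lit 0) (nat_lit 5058868963) (nat_lit 304) (nat_lit 1819071204) (nat_lit 76) (nat_lit 13480104742) (nat_lit 30) (nat_lit 5) (nat_lit 34) (nat_lit 5) (nat_lit 31) (nat_lit 5) (nat_lit 341) (nat_lit 262) (nat_lit 177)) (XT.lf (nat_lit 0) (nat_lit 5264406498) (nat_lit 152) (nat_lit 2776403619) (nat_lit 228) (nat_lit 12788006499) (nat_lit 28) (nat_lit 5) (nat_lit 30) (nat_lit 5) (nat_lit 31) (nat_lit 5) (nat_lit 342) (nat_lit 262) (nat_lit 176))))) (XT.nd (nat_lit 234) (nat_lit 228) (nat_lit 0) (XT.nd (nat_lit 78) (nat_lit 152) (nat_lit 0) (XT.lf (nat_lit 0) (nat_lit 11126362426) (nat_lit 228) (nat_lit 8758640354) (nat_lit 76) (nat_lit 1428307352) (nat_lit 28) (nat_lit 5) (nat_lit 31) (nat_lit 5) (nat_lit 29) (nat_lit 5) (nat_lit 343) (nat_lit 262) (nat_lit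 175)) (XT.nd (nat_lit 78) (nat_lit 152) (nat_lit 0) (XT.lf (nat_lit 0) (nat_lit 14314185217) (nat_lit 228) (nat_lit 1804395385) (nat_lit 76) (nat_lit 5693489301) (nat_lit 28) (nat_lit 5) (nat_lit 31) (nat_lit 5) (nat_lit 29) (nat_lit 5) (nat_lit 344) (nat_lit 262) (nat_lit 174)) (XT.lf (nat_lit 0) (nat_lit 5437188943) (nat_lit 152) (nat_lit 12195452120) (nat_lit 228) (nat_lit 4692123366) (nat_lit 26) (nat_lit 5) (nat_lit 28) (nat_lit 5) (nat_lit 29) (nat_lit 5) (nat_lit 345) (nat_lit 262) (nat_lit 173)))) (XT.nd (nat_lit 78) (nat_lit 228) (nat_lit 0) (XT.lf (nat_lit 0) (nat_lit 12905890510) (nat_lit 152) (nat_lit 8145955963) (nat_lit 228) (nat_lit 1800978712) (nat_lit 26) (nat_lit 5) (nat_lit 28) (nat_lit 5) (nat_lit 29) (nat_lit 5) (nat_lit 346) (nat_lit 262) (nat_lit 172)) (XT.nd (nat_lit 78) (nat_lit 152) (nat_lit 0) (XT.lf (nat_lit 0) (nat_lit 1137221719) (nat_lit 228) (nat_lit 2836069164)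 (nat_lit 76) (nat_lit 19423618930) (nat_lit 25) (nat_lit 5) (nat_lit 28) (nat_lit 5) (nat_lit 26) (nat_lit 5) (nat_lit 347) (nat_lit 262) (nat_lit 171)) (XT.lf (nat_lit 0) (nat_lit 4158351220) (nat_lit 228) (nat_lit 19426777321) (nat_lit 76) (nat_lit 370743534) (nat_lit 23) (nat_lit 5) (nat_lit 26) (nat_lit 5) (nat_lit 24) (nat_lit 5) (nat_lit 348) (nat_lit 262) (nat_lit 170)))))) (XT.nd (nat_lit 390) (nat_lit 304) (nat_lit 0) (XT.nd (nat_lit 156) (nat_lit 152) (nat_lit 0) (XT.nd (nat_lit 78) (nat_lit 0) (nat_lit 0) (XT.lf (nat_lit 0) (nat_lit 7322283475) (nat_lit 228) (nat_lit 12423073367) (nat_lit 76) (nat_lit 4784700197) (nat_lit 23) (nat_lit 5) (nat_lit 26) (nat_lit 5) (nat_lit 24) (nat_lit 5) (nat_lit 349) (nat_lit 262) (nat_lit 169)) (XT.lf (nat_lit 0) (nat_lit 10565509489) (nat_lit 228) (nat_lit 5234555855) (nat_lit 76) (nat_lit 9321889284) (nat_lit 23) (nat_lit 5) (nat_lit 26) (nat_lit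 5) (nat_lit 24) (nat_lit 5) (nat_lit 350) (nat_lit 262) (nat_lit 168))) (XT.nd (nat_lit 78) (nat_lit 0) (nat_lit 0) (XT.lf (nat_lit 0) (nat_lit 2187747272) (nat_lit 152) (nat_lit 11724145843) (nat_lit 228) (nat_lit 11819558021) (nat_lit 21) (nat_lit 5) (nat_lit 23) (nat_lit 5) (nat_lit 24) (nat_lit 5) (nat_lit 351) (nat_lit 262) (nat_lit 167)) (XT.nd (nat_lit 78) (nat_lit 0) (nat_lit 0) (XT.lf (nat_lit 0) (nat_lit 9915702811) (nat_lit 152) (nat_lit 7480863097) (nat_lit 228) (nat_lit 8961546999) (nat_lit 21) (nat_lit 5) (nat_lit 23) (nat_lit 5) (nat_lit 24) (nat_lit 5) (nat_lit 352) (nat_lit 262) (nat_lit 166)) (XT.lf (nat_lit 0) (nat_lit 17851885417) (nat_lit 152) (nat_lit 3119368134) (nat_lit 228) (nat_lit 6032773531) (nat_lit 21) (nat_lit 5) (nat_lit 23) (nat_lit 5) (nat_lit 24) (nat_lit 5) (nat_lit 353) (nat_lit 262) (nat_lit 165))))) (XT.nd (nat_lit 234) (nat_lit 152) (nat_lit 0) (XT.nd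 (nat_lit 78) (nat_lit 152) (nat_lit 0) (XT.lf (nat_lit 0) (nat_lit 24652192604) (nat_lit 228) (nat_lit 1679641481) (nat_lit 76) (nat_lit 1337530578) (nat_lit 21) (nat_lit 5) (nat_lit 24) (nat_lit 5) (nat_lit 22) (nat_lit 4) (nat_lit 354) (nat_lit 262) (nat_lit 164)) (XT.nd (nat_lit 78) (nat_lit 0) (nat_lit 0) (XT.lf (nat_lit 0) (nat_lit 163472661) (nat_lit 152) (nat_lit 22271778820) (nat_lit 76) (nat_lit 5917111325) (nat_lit 19) (nat_lit 5) (nat_lit 21) (nat_lit 5) (nat_lit 20) (nat_lit 5) (nat_lit 355) (nat_lit 262) (nat_lit 163)) (XT.lf (nat_lit 0) (nat_lit 3382286181) (nat_lit 152) (nat_lit 15000002950) (nat_lit 76) (nat_lit 10672578743) (nat_lit 19) (nat_lit 5) (nat_lit 21) (nat_lit 5) (nat_lit 20) (nat_lit 5) (nat_lit 356) (nat_lit 262) (nat_lit 162)))) (XT.nd (nat_lit 78) (nat_lit 152) (nat_lit 0) (XT.lf (nat_lit 0) (nat_lit 6684326838) (nat_lit 152) (nat_lit 7532080786) (nat_lit 76) (nat_lit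 15562455076) (nat_lit 19) (nat_lit 5) (nat_lit 21) (nat_lit 5) (nat_lit 20) (nat_lit 5) (nat_lit 357) (nat_lit 262) (nat_lit 161)) (XT.nd (nat_lit 78) (nat_lit 0) (nat_lit 0) (XT.lf (nat_lit 0) (nat_lit 141269723) (nat_lit 152) (nat_lit 9932568155) (nat_lit 228) (nat_lit 20451101280) (nat_lit 17) (nat_lit 5) (nat_lit 19) (nat_lit 5) (nat_lit 20) (nat_lit 5) (nat_lit 358) (nat_lit 262) (nat_lit 160)) (XT.lf (nat_lit 0) (nat_lit 8178064490) (nat_lit 152) (nat_lit 5450253982) (nat_lit 228) (nat_lit 17663194565) (nat_lit 17) (nat_lit 5) (nat_lit 19) (nat_lit 5) (nat_lit 20) (nat_lit 5) (nat_lit 359) (nat_lit 262) (nat_lit 159))))))) (XT.nd (nat_lit 858) (nat_lit 304) (nat_lit 0) (XT.nd (nat_lit 390) (nat_lit 228) (nat_lit 0) (XT.nd (nat_lit 156) (nat_lit 76) (nat_lit 0) (XT.nd (nat_lit 78) (nat_lit 0) (nat_lit 0) (XT.lf (nat_lit 0) (nat_lit 16435422780) (nat_lit 152) (nat_lit 841607767) (nat_lit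 228) (nat_lit 14804438931) (nat_lit 17) (nat_lit 5) (nat_lit 19) (nat_lit 5) (nat_lit 20) (nat_lit 5) (nat_lit 360) (nat_lit 262) (nat_lit 158)) (XT.lf (nat_lit 0) (nat_lit 21060626466) (nat_lit 228) (nat_lit 8012403143) (nat_lit 76) (nat_lit 3821345199) (nat_lit 17) (nat_lit 5) (nat_lit 20) (nat_lit 5) (nat_lit 18) (nat_lit 4) (nat_lit 361) (nat_lit 262) (nat_lit 157))) (XT.nd (nat_lit 78) (nat_lit 76) (nat_lit 0) (XT.lf (nat_lit 0) (nat_lit 24954298323) (nat_lit 228) (nat_lit 177733745) (nat_lit 76) (nat_lit 8599750682) (nat_lit 17) (nat_lit 5) (nat_lit 20) (nat_lit 5) (nat_lit 18) (nat_lit 4) (nat_lit 362) (nat_lit 262) (nat_lit 156)) (XT.nd (nat_lit 78) (nat_lit 0) (nat_lit 0) (XT.lf (nat_lit 0) (nat_lit 8029583464) (nat_lit 76) (nat_lit 21000960111) (nat_lit 152) (nat_lit 5561808591) (nat_lit 16) (nat_lit 5) (nat_lit 17) (nat_lit 5) (nat_lit 18) (nat_lit 4) (nat_lit 363) (nat_lit 262) (nat_lit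 155)) (XT.lf (nat_lit 0) (nat_lit 16467872237) (nat_lit 76) (nat_lit 16751727768) (nat_lit 152) (nat_lit 2259434723) (nat_lit 16) (nat_lit 5) (nat_lit 17) (nat_lit 5) (nat_lit 18) (nat_lit 4) (nat_lit 364) (nat_lit 262) (nat_lit 154))))) (XT.nd (nat_lit 234) (nat_lit 0) (nat_lit 0) (XT.nd (nat_lit 78) (nat_lit 152) (nat_lit 0) (XT.lf (nat_lit 0) (nat_lit 1108663406) (nat_lit 152) (nat_lit 11262558147) (nat_lit 76) (nat_lit 24021109851) (nat_lit 15) (nat_lit 5) (nat_lit 17) (nat_lit 5) (nat_lit 16) (nat_lit 5) (nat_lit 365) (nat_lit 262) (nat_lit 153)) (XT.nd (nat_lit 78) (nat_lit 152) (nat_lit 0) (XT.lf (nat_lit 0) (nat_lit 4521652061) (nat_lit 152) (nat_lit 3321897721) (nat_lit 76) (nat_lit 29489139058) (nat_lit 15) (nat_lit 5) (nat_lit 17) (nat_lit 5) (nat_lit 16) (nat_lit 5) (nat_lit 366) (nat_lit 262) (nat_lit 152)) (XT.lf (nat_lit 0) (nat_lit 4935791363) (nat_lit 152) (nat_lit 3138257657)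 (nat_lit 228) (nat_lit 30226107885) (nat_lit 13) (nat_lit 5) (nat_lit 15) (nat_lit 5) (nat_lit 16) (nat_lit 5) (nat_lit 367) (nat_lit 262) (nat_lit 151)))) (XT.nd (nat_lit 78) (nat_lit 0) (nat_lit 0) (XT.lf (nat_lit 0) (nat_lit 11772957023) (nat_lit 228) (nat_lit 25820673970) (nat_lit 76) (nat_lit 1701830005) (nat_lit 13) (nat_lit 5) (nat_lit 16) (nat_lit 5) (nat_lit 14) (nat_lit 4) (nat_lit 368) (nat_lit 262) (nat_lit 150)) (XT.nd (nat_lit 78) (nat_lit 0) (nat_lit 0) (XT.lf (nat_lit 0) (nat_lit 15603847964) (nat_lit 228) (nat_lit 18098817042) (nat_lit 76) (nat_lit 6617338600) (nat_lit 13) (nat_lit 5) (nat_lit 16) (nat_lit 5) (nat_lit 14) (nat_lit 4) (nat_lit 369) (nat_lit 262) (nat_lit 149)) (XT.lf (nat_lit 0) (nat_lit 19539902374) (nat_lit 228) (nat_lit 10161880653) (nat_lit 76) (nat_lit 11673801941) (nat_lit 13) (nat_lit 5) (nat_lit 16) (nat_lit 5) (nat_lit 14) (nat_lit 4) (nat_lit 370) (nat_lit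 262) (nat_lit 148)))))) (XT.nd (nat_lit 468) (nat_lit 228) (nat_lit 0) (XT.nd (nat_lit 234) (nat_lit 0) (nat_lit 0) (XT.nd (nat_lit 78) (nat_lit 76) (nat_lit 0) (XT.lf (nat_lit 0) (nat_lit 23584559522) (nat_lit 228) (nat_lit 2002929615) (nat_lit 76) (nat_lit 16875638297) (nat_lit 13) (nat_lit 5) (nat_lit 16) (nat_lit 5) (nat_lit 14) (nat_lit 4) (nat_lit 371) (nat_lit 262) (nat_lit 147)) (XT.nd (nat_lit 78) (nat_lit 0) (nat_lit 0) (XT.lf (nat_lit 0) (nat_lit 6512242558) (nat_lit 76) (nat_lit 21291710675) (nat_lit 152) (nat_lit 15777750063) (nat_lit 12) (nat_lit 5) (nat_lit 13) (nat_lit 5) (nat_lit 14) (nat_lit 4) (nat_lit 372) (nat_lit 262) (nat_lit 146)) (XT.lf (nat_lit 0) (nat_lit 15308456473) (nat_lit 76) (nat_lit 16852614458) (nat_lit 152) (nat_lit 12572440003) (nat_lit 12) (nat_lit 5) (nat_lit 13) (nat_lit 5) (nat_lit 14) (nat_lit 4) (nat_lit 373) (nat_lit 262) (nat_lit 145)))) (XT.nd (nat_lit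 78) (nat_lit 0) (nat_lit 0) (XT.lf (nat_lit 0) (nat_lit 24353535913) (nat_lit 76) (nat_lit 12286547325) (nat_lit 152) (nat_lit 9280062638) (nat_lit 12) (nat_lit 5) (nat_lit 13) (nat_lit 5) (nat_lit 14) (nat_lit 4) (nat_lit 374) (nat_lit 262) (nat_lit 144)) (XT.nd (nat_lit 78) (nat_lit 0) (nat_lit 0) (XT.lf (nat_lit 0) (nat_lit 33655384345) (nat_lit 76) (nat_lit 7589519511) (nat_lit 152) (nat_lit 5897741134) (nat_lit 12) (nat_lit 5) (nat_lit 13) (nat_lit 5) (nat_lit 14) (nat_lit 4) (nat_lit 375) (nat_lit 262) (nat_lit 143)) (XT.lf (nat_lit 0) (nat_lit 43222129599) (nat_lit 76) (nat_lit 2757426815) (nat_lit 152) (nat_lit 2422520064) (nat_lit 12) (nat_lit 5) (nat_lit 13) (nat_lit 5) (nat_lit 14) (nat_lit 4) (nat_lit 376) (nat_lit 262) (nat_lit 142))))) (XT.nd (nat_lit 234) (nat_lit 0) (nat_lit 0) (XT.nd (nat_lit 78) (nat_lit 0) (nat_lit 0) (XT.lf (nat_lit 0) (nat_lit 1180797966) (nat_lit 228) (nat_lit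 46301689203) (nat_lit 76) (nat_lit 2215085157) (nat_lit 9) (nat_lit 5) (nat_lit 12) (nat_lit 5) (nat_lit 10) (nat_lit 4) (nat_lit 377) (nat_lit 262) (nat_lit 141)) (XT.nd (nat_lit 78) (nat_lit 0) (nat_lit 0) (XT.lf (nat_lit 0) (nat_lit 4915543742) (nat_lit 228) (nat_lit 38760970081) (nat_lit 76) (nat_lit 7352546452) (nat_lit 9) (nat_lit 5) (nat_lit 12) (nat_lit 5) (nat_lit 10) (nat_lit 4) (nat_lit 378) (nat_lit 262) (nat_lit 140)) (XT.lf (nat_lit 0) (nat_lit 8754460051) (nat_lit 228) (nat_lit 31007595999) (nat_lit 76) (nat_lit 12638680095) (nat_lit 9) (nat_lit 5) (nat_lit 12) (nat_lit 5) (nat_lit 10) (nat_lit 4) (nat_lit 379) (nat_lit 262) (nat_lit 139)))) (XT.nd (nat_lit 78) (nat_lit 0) (nat_lit 0) (XT.lf (nat_lit 0) (nat_lit 12700901283) (nat_lit 228) (nat_lit 23034792164) (nat_lit 76) (nat_lit 18078105038) (nat_lit 9) (nat_lit 5) (nat_lit 12) (nat_lit 5) (nat_lit 10) (nat_lit 4) (nat_lit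 380) (nat_lit 262) (nat_lit 138)) (XT.nd (nat_lit 78) (nat_lit 0) (nat_lit 0) (XT.lf (nat_lit 0) (nat_lit 16758315787) (nat_lit 228) (nat_lit 14835592049) (nat_lit 76) (nat_lit 23675574177) (nat_lit 9) (nat_lit 5) (nat_lit 12) (nat_lit 5) (nat_lit 10) (nat_lit 4) (nat_lit 381) (nat_lit 262) (nat_lit 137)) (XT.lf (nat_lit 0) (nat_lit 20930248876) (nat_lit 228) (nat_lit 6402831303) (nat_lit 76) (nat_lit 29435978503) (nat_lit 9) (nat_lit 5) (nat_lit 12) (nat_lit 5) (nat_lit 10) (nat_lit 4) (nat_lit 382) (nat_lit 262) (nat_lit 136))))))))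
noncomputable def xc119 : XT := (XT.nd (nat_lit 31980) (nat_lit 0) (nat_lit 9424) (XT.nd (nat_lit 858) (nat_lit 0) (nat_lit 0) (XT.nd (nat_lit 390) (nat_lit 152) (nat_lit 0) (XT.nd (nat_lit 156) (nat_lit 0) (nat_lit 0) (XT.nd (nat_lit 78) (nat_lit 0) (nat_lit 0) (XT.lf (nat_lit 0) (nat_lit 2316053040) (nat_lit 76) (nat_lit 22926556207) (nat_lit 152) (nat_lit 33070561658) (nat_lit 8) (nat_lit 5) (nat_lit 9) (nat_lit 5) (nat_lit 10) (nat_lit 4) (nat_lit 383) (nat_lit 262) (nat_lit 135)) (XT.lf (nat_lit 0) (nat_lit 11415820092) (nat_lit 76) (nat_lit 18326271326) (nat_lit 152) (nat_lit 30159788693) (nat_lit 8) (nat_lit 5) (nat_lit 9) (nat_lit 5) (nat_lit 10) (nat_lit 4) (nat_lit 384) (nat_lit 262) (nat_lit 134))) (XT.nd (nat_lit 78) (nat_lit 0) (nat_lit 0) (XT.lf (nat_lit 0) (nat_lit 20776992208) (nat_lit 76) (nat_lit 13592861913) (nat_lit 152) (nat_lit 27168603558) (nat_lit 8) (nat_lit 5) (nat_lit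 9) (nat_lit 5) (nat_lit 10) (nat_lit 4) (nat_lit 385) (nat_lit 262) (nat_lit 133)) (XT.nd (nat_lit 78) (nat_lit 0) (nat_lit 0) (XT.lf (nat_lit 0) (nat_lit 30407749052) (nat_lit 76) (nat_lit 8722191979) (nat_lit 152) (nat_lit 24094392597) (nat_lit 8) (nat_lit 5) (nat_lit 9) (nat_lit 5) (nat_lit 10) (nat_lit 4) (nat_lit 386) (nat_lit 262) (nat_lit 132)) (XT.lf (nat_lit 0) (nat_lit 40316505849) (nat_lit 76) (nat_lit 3710005598) (nat_lit 152) (nat_lit 20934469607) (nat_lit 8) (nat_lit 5) (nat_lit 9) (nat_lit 5) (nat_lit 10) (nat_lit 4) (nat_lit 387) (nat_lit 262) (nat_lit 131))))) (XT.nd (nat_lit 234) (nat_lit 76) (nat_lit 0) (XT.nd (nat_lit 78) (nat_lit 76) (nat_lit 0) (XT.lf (nat_lit 0) (nat_lit 49077763728) (nat_lit 152) (nat_lit 16251916481) (nat_lit 0) (nat_lit 1419819613) (nat_lit 8) (nat_lit 5) (nat_lit 10) (nat_lit 4) (nat_lit 8) (nat_lit 4) (nat_lit 388) (nat_lit 262) (nat_lit 130)) (XT.nd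 (nat_lit 78) (nat_lit 76) (nat_lit 0) (XT.lf (nat_lit 0) (nat_lit 54311288234) (nat_lit 152) (nat_lit 7654751746) (nat_lit 0) (nat_lit 6624717437) (nat_lit 8) (nat_lit 5) (nat_lit 10) (nat_lit 4) (nat_lit 8) (nat_lit 4) (nat_lit 389) (nat_lit 262) (nat_lit 129)) (XT.lf (nat_lit 0) (nat_lit 1213881122) (nat_lit 76) (nat_lit 58493782550) (nat_lit 76) (nat_lit 10779418858) (nat_lit 7) (nat_lit 4) (nat_lit 8) (nat_lit 5) (nat_lit 8) (nat_lit 4) (nat_lit 390) (nat_lit 262) (nat_lit 128)))) (XT.nd (nat_lit 78) (nat_lit 76) (nat_lit 0) (XT.lf (nat_lit 0) (nat_lit 10495453234) (nat_lit 76) (nat_lit 54842024907) (nat_lit 76) (nat_lit 7100677821) (nat_lit 7) (nat_lit 4) (nat_lit 8) (nat_lit 5) (nat_lit 8) (nat_lit 4) (nat_lit 391) (nat_lit 262) (nat_lit 127)) (XT.nd (nat_lit 78) (nat_lit 76) (nat_lit 0) (XT.lf (nat_lit 0) (nat_lit 20045730131) (nat_lit 76) (nat_lit 51084874178) (nat_lit 76) (nat_lit 3317329622)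 (nat_lit 7) (nat_lit 4) (nat_lit 8) (nat_lit 5) (nat_lit 8) (nat_lit 4) (nat_lit 392) (nat_lit 262) (nat_lit 126)) (XT.lf (nat_lit 0) (nat_lit 562732104) (nat_lit 152) (nat_lit 46650632821) (nat_lit 76) (nat_lit 29304642121) (nat_lit 6) (nat_lit 5) (nat_lit 8) (nat_lit 5) (nat_lit 7) (nat_lit 4) (nat_lit 393) (nat_lit 262) (nat_lit 125)))))) (XT.nd (nat_lit 30654) (nat_lit 0) (nat_lit 17860) (XT.nd (nat_lit 30420) (nat_lit 0) (nat_lit 18620) (XT.nd (nat_lit 78) (nat_lit 0) (nat_lit 0) (XT.lf (nat_lit 0) (nat_lit 4487201792) (nat_lit 152) (nat_lit 38708652981) (nat_lit 76) (nat_lit 35453506241) (nat_lit 6) (nat_lit 5) (nat_lit 8) (nat_lit 5) (nat_lit 7) (nat_lit 4) (nat_lit 394) (nat_lit 262) (nat_lit 124)) (XT.nd (nat_lit 78) (nat_lit 0) (nat_lit 0) (XT.lf (nat_lit 0) (nat_lit 8524241640) (nat_lit 152) (nat_lit 30537436485) (nat_lit 76) (nat_lit 41783136705) (nat_lit 6) (nat_lit 5) (nat_lit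 8) (nat_lit 5) (nat_lit 7) (nat_lit 4) (nat_lit 395) (nat_lit 262) (nat_lit 123)) (XT.lf (nat_lit 0) (nat_lit 12677379159) (nat_lit 152) (nat_lit 22129843435) (nat_lit 76) (nat_lit 48299064259) (nat_lit 6) (nat_lit 5) (nat_lit 8) (nat_lit 5) (nat_lit 7) (nat_lit 4) (nat_lit 396) (nat_lit 262) (nat_lit 122)))) (XT.nd (nat_lit 78) (nat_lit 380) (nat_lit 0) (XT.lf (nat_lit 0) (nat_lit 707355526) (nat_lit 0) (nat_lit 707355526) (nat_lit 228) (nat_lit 1826609978) (nat_lit 256) (nat_lit 5) (nat_lit 256) (nat_lit 3) (nat_lit 259) (nat_lit 3) (nat_lit 263) (nat_lit 263) (nat_lit 254)) (XT.nd (nat_lit 78) (nat_lit 380) (nat_lit 0) (XT.lf (nat_lit 0) (nat_lit 4260998154) (nat_lit 0) (nat_lit 1019640357) (nat_lit 228) (nat_lit 1217105713) (nat_lit 256) (nat_lit 5) (nat_lit 256) (nat_lit 3) (nat_lit 259) (nat_lit 3) (nat_lit 264) (nat_lit 263) (nat_lit 253)) (XT.lf (nat_lit 76) (nat_lit 629972063) (nat_lit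 0) (nat_lit 547645833) (nat_lit 380) (nat_lit 5338360903) (nat_lit 252) (nat_lit 5) (nat_lit 251) (nat_lit 3) (nat_lit 256) (nat_lit 5) (nat_lit 265) (nat_lit 263) (nat_lit 252))))) (XT.nd (nat_lit 234) (nat_lit 456) (nat_lit 0) (XT.nd (nat_lit 78) (nat_lit 380) (nat_lit 0) (XT.lf (nat_lit 0) (nat_lit 3549355745) (nat_lit 304) (nat_lit 2969593528) (nat_lit 380) (nat_lit 17923809) (nat_lit 252) (nat_lit 5) (nat_lit 256) (nat_lit 5) (nat_lit 257) (nat_lit 5) (nat_lit 266) (nat_lit 263) (nat_lit 251)) (XT.nd (nat_lit 78) (nat_lit 380) (nat_lit 0) (XT.lf (nat_lit 0) (nat_lit 5907780453) (nat_lit 304) (nat_lit 21955276) (nat_lit 380) (nat_lit 631545085) (nat_lit 252) (nat_lit 5) (nat_lit 256) (nat_lit 5) (nat_lit 257) (nat_lit 5) (nat_lit 267) (nat_lit 263) (nat_lit 250)) (XT.lf (nat_lit 0) (nat_lit 1657262586) (nat_lit 380) (nat_lit 3581004712) (nat_lit 456) (nat_lit 1349754537) (nat_lit 247) (nat_lit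 5) (nat_lit 252) (nat_lit 5) (nat_lit 253) (nat_lit 5) (nat_lit 268) (nat_lit 263) (nat_lit 249)))) (XT.nd (nat_lit 78) (nat_lit 456) (nat_lit 0) (XT.lf (nat_lit 0) (nat_lit 3938070675) (nat_lit 380) (nat_lit 545644010) (nat_lit 456) (nat_lit 2134563320) (nat_lit 247) (nat_lit 5) (nat_lit 252) (nat_lit 5) (nat_lit 253) (nat_lit 5) (nat_lit 269) (nat_lit 263) (nat_lit 248)) (XT.nd (nat_lit 78) (nat_lit 456) (nat_lit 0) (XT.lf (nat_lit 76) (nat_lit 2581717441) (nat_lit 0) (nat_lit 3646551215) (nat_lit 456) (nat_lit 423257570) (nat_lit 248) (nat_lit 5) (nat_lit 247) (nat_lit 5) (nat_lit 253) (nat_lit 5) (nat_lit 270) (nat_lit 263) (nat_lit 247)) (XT.lf (nat_lit 0) (nat_lit 1786873335) (nat_lit 456) (nat_lit 940754641) (nat_lit 532) (nat_lit 3960213670) (nat_lit 241) (nat_lit 5) (nat_lit 247) (nat_lit 5) (nat_lit 248) (nat_lit 5) (nat_lit 271) (nat_lit 263) (nat_lit 246))))))) (XT.nd (nat_lit 858)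 (nat_lit 5244) (nat_lit 0) (XT.nd (nat_lit 390) (nat_lit 2204) (nat_lit 0) (XT.nd (nat_lit 156) (nat_lit 988) (nat_lit 0) (XT.nd (nat_lit 78) (nat_lit 0) (nat_lit 0) (XT.lf (nat_lit 76) (nat_lit 2272914796) (nat_lit 0) (nat_lit 1723163444) (nat_lit 532) (nat_lit 2731090999) (nat_lit 242) (nat_lit 5) (nat_lit 241) (nat_lit 5) (nat_lit 248) (nat_lit 5) (nat_lit 272) (nat_lit 263) (nat_lit 245)) (XT.lf (nat_lit 76) (nat_lit 5553344943) (nat_lit 0) (nat_lit 649018972) (nat_lit 532) (nat_lit 567667001) (nat_lit 242) (nat_lit 5) (nat_lit 241) (nat_lit 5) (nat_lit 248) (nat_lit 5) (nat_lit 273) (nat_lit 263) (nat_lit 244))) (XT.nd (nat_lit 78) (nat_lit 532) (nat_lit 0) (XT.lf (nat_lit 0) (nat_lit 1575978437) (nat_lit 532) (nat_lit 4727117086) (nat_lit 76) (nat_lit 512434710) (nat_lit 235) (nat_lit 5) (nat_lit 242) (nat_lit 5) (nat_lit 236) (nat_lit 5) (nat_lit 274) (nat_lit 263) (nat_lit 243)) (XT.nd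 (nat_lit 78) (nat_lit 532) (nat_lit 0) (XT.lf (nat_lit 0) (nat_lit 3715976302) (nat_lit 532) (nat_lit 1408198052) (nat_lit 76) (nat_lit 1740002754) (nat_lit 235) (nat_lit 5) (nat_lit 242) (nat_lit 5) (nat_lit 236) (nat_lit 5) (nat_lit 275) (nat_lit 263) (nat_lit 242)) (XT.lf (nat_lit 0) (nat_lit 1999193041) (nat_lit 532) (nat_lit 3867012985) (nat_lit 608) (nat_lit 1049943756) (nat_lit 228) (nat_lit 5) (nat_lit 235) (nat_lit 5) (nat_lit 236) (nat_lit 5) (nat_lit 276) (nat_lit 263) (nat_lit 241))))) (XT.nd (nat_lit 234) (nat_lit 1520) (nat_lit 0) (XT.nd (nat_lit 78) (nat_lit 608) (nat_lit 0) (XT.lf (nat_lit 0) (nat_lit 1031462583) (nat_lit 608) (nat_lit 1493696662) (nat_lit 76) (nat_lit 4446178489) (nat_lit 227) (nat_lit 5) (nat_lit 235) (nat_lit 5) (nat_lit 228) (nat_lit 5) (nat_lit 277) (nat_lit 263) (nat_lit 240)) (XT.nd (nat_lit 78) (nat_lit 0) (nat_lit 0) (XT.lf (nat_lit 0) (nat_lit 2011316424)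 (nat_lit 608) (nat_lit 1091862223) (nat_lit 684) (nat_lit 3926448062) (nat_lit 219) (nat_lit 5) (nat_lit 227) (nat_lit 5) (nat_lit 228) (nat_lit 5) (nat_lit 278) (nat_lit 263) (nat_lit 239)) (XT.lf (nat_lit 0) (nat_lit 5187373397) (nat_lit 684) (nat_lit 1492737174) (nat_lit 76) (nat_lit 411263735) (nat_lit 219) (nat_lit 5) (nat_lit 228) (nat_lit 5) (nat_lit 220) (nat_lit 5) (nat_lit 279) (nat_lit 263) (nat_lit 238)))) (XT.nd (nat_lit 78) (nat_lit 760) (nat_lit 0) (XT.lf (nat_lit 0) (nat_lit 139639944) (nat_lit 760) (nat_lit 5038751738) (nat_lit 76) (nat_lit 1977817680) (nat_lit 209) (nat_lit 5) (nat_lit 219) (nat_lit 5) (nat_lit 210) (nat_lit 5) (nat_lit 280) (nat_lit 263) (nat_lit 237)) (XT.nd (nat_lit 78) (nat_lit 760) (nat_lit 0) (XT.lf (nat_lit 0) (nat_lit 2155554894) (nat_lit 760) (nat_lit 1426273300) (nat_lit 76) (nat_lit 3642319846) (nat_lit 209) (nat_lit 5) (nat_lit 219) (nat_lit 5)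 (nat_lit 210) (nat_lit 5) (nat_lit 281) (nat_lit 263) (nat_lit 236)) (XT.lf (nat_lit 0) (nat_lit 2289455776) (nat_lit 760) (nat_lit 1900431631) (nat_lit 836) (nat_lit 3105694527) (nat_lit 199) (nat_lit 5) (nat_lit 209) (nat_lit 5) (nat_lit 210) (nat_lit 5) (nat_lit 282) (nat_lit 263) (nat_lit 235)))))) (XT.nd (nat_lit 468) (nat_lit 2356) (nat_lit 0) (XT.nd (nat_lit 234) (nat_lit 1976) (nat_lit 0) (XT.nd (nat_lit 78) (nat_lit 912) (nat_lit 0) (XT.lf (nat_lit 0) (nat_lit 6096582914) (nat_lit 760) (nat_lit 140394047) (nat_lit 836) (nat_lit 1133819646) (nat_lit 199) (nat_lit 5) (nat_lit 209) (nat_lit 5) (nat_lit 210) (nat_lit 5) (nat_lit 283) (nat_lit 263) (nat_lit 234)) (XT.nd (nat_lit 78) (nat_lit 0) (nat_lit 0) (XT.lf (nat_lit 0) (nat_lit 859220243) (nat_lit 912) (nat_lit 4904082121) (nat_lit 76) (nat_lit 1685499813) (nat_lit 187) (nat_lit 5) (nat_lit 199) (nat_lit 5) (nat_lit 188) (nat_lit 5)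 (nat_lit 284) (nat_lit 263) (nat_lit 233)) (XT.lf (nat_lit 0) (nat_lit 2843450949) (nat_lit 912) (nat_lit 1088053598) (nat_lit 76) (nat_lit 3598854427) (nat_lit 187) (nat_lit 5) (nat_lit 199) (nat_lit 5) (nat_lit 188) (nat_lit 5) (nat_lit 285) (nat_lit 263) (nat_lit 232)))) (XT.nd (nat_lit 78) (nat_lit 1064) (nat_lit 0) (XT.lf (nat_lit 0) (nat_lit 2848634873) (nat_lit 912) (nat_lit 2007513587) (nat_lit 988) (nat_lit 2759314251) (nat_lit 175) (nat_lit 5) (nat_lit 187) (nat_lit 5) (nat_lit 188) (nat_lit 5) (nat_lit 286) (nat_lit 263) (nat_lit 231)) (XT.nd (nat_lit 78) (nat_lit 1064) (nat_lit 0) (XT.lf (nat_lit 0) (nat_lit 6876804392) (nat_lit 912) (nat_lit 6198715) (nat_lit 988) (nat_lit 821666696) (nat_lit 175) (nat_lit 5) (nat_lit 187) (nat_lit 5) (nat_lit 188) (nat_lit 5) (nat_lit 287) (nat_lit 263) (nat_lit 230)) (XT.lf (nat_lit 0) (nat_lit 1146266222) (nat_lit 1064) (nat_lit 4585089968) (nat_lit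 76) (nat_lit 2065160457) (nat_lit 161) (nat_lit 5) (nat_lit 175) (nat_lit 5) (nat_lit 162) (nat_lit 5) (nat_lit 288) (nat_lit 263) (nat_lit 229))))) (XT.nd (nat_lit 234) (nat_lit 1292) (nat_lit 0) (XT.nd (nat_lit 78) (nat_lit 1064) (nat_lit 0) (XT.lf (nat_lit 0) (nat_lit 3110215447) (nat_lit 1064) (nat_lit 560440876) (nat_lit 76) (nat_lit 4221763374) (nat_lit 161) (nat_lit 5) (nat_lit 175) (nat_lit 5) (nat_lit 162) (nat_lit 5) (nat_lit 289) (nat_lit 263) (nat_lit 228)) (XT.nd (nat_lit 78) (nat_lit 0) (nat_lit 0) (XT.lf (nat_lit 0) (nat_lit 3606625674) (nat_lit 1064) (nat_lit 1507717872) (nat_lit 1140) (nat_lit 2877563774) (nat_lit 147) (nat_lit 5) (nat_lit 161) (nat_lit 5) (nat_lit 162) (nat_lit 5) (nat_lit 290) (nat_lit 263) (nat_lit 227)) (XT.lf (nat_lit 0) (nat_lit 7138955705) (nat_lit 1140) (nat_lit 240967968) (nat_lit 76) (nat_lit 715786152) (nat_lit 147) (nat_lit 5) (nat_lit 162) (nat_lit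 5) (nat_lit 148) (nat_lit 5) (nat_lit 291) (nat_lit 263) (nat_lit 226)))) (XT.nd (nat_lit 78) (nat_lit 532) (nat_lit 0) (XT.lf (nat_lit 0) (nat_lit 1004677215) (nat_lit 760) (nat_lit 4169396028) (nat_lit 76) (nat_lit 3028303473) (nat_lit 137) (nat_lit 5) (nat_lit 147) (nat_lit 5) (nat_lit 138) (nat_lit 5) (nat_lit 292) (nat_lit 263) (nat_lit 225)) (XT.nd (nat_lit 78) (nat_lit 0) (nat_lit 0) (XT.lf (nat_lit 0) (nat_lit 70625114) (nat_lit 532) (nat_lit 2887871857) (nat_lit 608) (nat_lit 5355008289) (nat_lit 130) (nat_lit 5) (nat_lit 137) (nat_lit 5) (nat_lit 138) (nat_lit 5) (nat_lit 293) (nat_lit 263) (nat_lit 224)) (XT.lf (nat_lit 0) (nat_lit 4474624584) (nat_lit 532) (nat_lit 489047244) (nat_lit 608) (nat_lit 3464638947) (nat_lit 130) (nat_lit 5) (nat_lit 137) (nat_lit 5) (nat_lit 138) (nat_lit 5) (nat_lit 294) (nat_lit 263) (nat_lit 223))))))))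
noncomputable def xc120 : XT := (XT.nd (nat_lit 1716) (nat_lit 2432) (nat_lit 0) (XT.nd (nat_lit 858) (nat_lit 1976) (nat_lit 0) (XT.nd (nat_lit 390) (nat_lit 1368) (nat_lit 0) (XT.nd (nat_lit 156) (nat_lit 912) (nat_lit 0) (XT.nd (nat_lit 78) (nat_lit 76) (nat_lit 0) (XT.lf (nat_lit 0) (nat_lit 404182582) (nat_lit 532) (nat_lit 6599836101) (nat_lit 608) (nat_lit 1543412951) (nat_lit 123) (nat_lit 5) (nat_lit 130) (nat_lit 5) (nat_lit 131) (nat_lit 5) (nat_lit 295) (nat_lit 263) (nat_lit 222)) (XT.lf (nat_lit 0) (nat_lit 424545996) (nat_lit 608) (nat_lit 3753938360) (nat_lit 76) (nat_lit 4491703081) (nat_lit 122) (nat_lit 5) (nat_lit 130) (nat_lit 5) (nat_lit 123) (nat_lit 5) (nat_lit 296) (nat_lit 263) (nat_lit 221))) (XT.nd (nat_lit 78) (nat_lit 456) (nat_lit 0) (XT.lf (nat_lit 0) (nat_lit 717795626) (nat_lit 456) (nat_lit 1663443940) (nat_lit 532) (nat_lit 6416217756) (nat_lit 116) (nat_lit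 5) (nat_lit 122) (nat_lit 5) (nat_lit 123) (nat_lit 5) (nat_lit 297) (nat_lit 263) (nat_lit 220)) (XT.nd (nat_lit 78) (nat_lit 456) (nat_lit 0) (XT.lf (nat_lit 0) (nat_lit 4398512189) (nat_lit 532) (nat_lit 3585017784) (nat_lit 76) (nat_lit 945067094) (nat_lit 116) (nat_lit 5) (nat_lit 123) (nat_lit 5) (nat_lit 117) (nat_lit 5) (nat_lit 298) (nat_lit 263) (nat_lit 219)) (XT.lf (nat_lit 0) (nat_lit 999978080) (nat_lit 456) (nat_lit 5458411088) (nat_lit 532) (nat_lit 2605924213) (nat_lit 110) (nat_lit 5) (nat_lit 116) (nat_lit 5) (nat_lit 117) (nat_lit 5) (nat_lit 299) (nat_lit 263) (nat_lit 218))))) (XT.nd (nat_lit 234) (nat_lit 836) (nat_lit 0) (XT.nd (nat_lit 78) (nat_lit 532) (nat_lit 0) (XT.lf (nat_lit 0) (nat_lit 5748948362) (nat_lit 456) (nat_lit 2824148802) (nat_lit 532) (nat_lit 631314884) (nat_lit 110) (nat_lit 5) (nat_lit 116) (nat_lit 5) (nat_lit 117) (nat_lit 5) (nat_lit 300) (nat_lit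 263) (nat_lit 217)) (XT.nd (nat_lit 78) (nat_lit 0) (nat_lit 0) (XT.lf (nat_lit 0) (nat_lit 1256068170) (nat_lit 456) (nat_lit 88748576) (nat_lit 532) (nat_lit 8004498949) (nat_lit 103) (nat_lit 5) (nat_lit 109) (nat_lit 5) (nat_lit 110) (nat_lit 5) (nat_lit 301) (nat_lit 263) (nat_lit 216)) (XT.lf (nat_lit 0) (nat_lit 3387338856) (nat_lit 532) (nat_lit 3398041798) (nat_lit 76) (nat_lit 2712497676) (nat_lit 103) (nat_lit 5) (nat_lit 110) (nat_lit 5) (nat_lit 104) (nat_lit 5) (nat_lit 302) (nat_lit 263) (nat_lit 215)))) (XT.nd (nat_lit 78) (nat_lit 380) (nat_lit 0) (XT.lf (nat_lit 0) (nat_lit 1418733218) (nat_lit 456) (nat_lit 4046460015) (nat_lit 532) (nat_lit 4186573455) (nat_lit 97) (nat_lit 5) (nat_lit 103) (nat_lit 5) (nat_lit 104) (nat_lit 5) (nat_lit 303) (nat_lit 263) (nat_lit 214)) (XT.nd (nat_lit 78) (nat_lit 380) (nat_lit 0) (XT.lf (nat_lit 0) (nat_lit 6404027121) (nat_lit 456) (nat_lit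 1195949568) (nat_lit 532) (nat_lit 2210545106) (nat_lit 97) (nat_lit 5) (nat_lit 103) (nat_lit 5) (nat_lit 104) (nat_lit 5) (nat_lit 304) (nat_lit 263) (nat_lit 213)) (XT.lf (nat_lit 0) (nat_lit 1532520066) (nat_lit 380) (nat_lit 8259123308) (nat_lit 456) (nat_lit 182696334) (nat_lit 92) (nat_lit 5) (nat_lit 97) (nat_lit 5) (nat_lit 98) (nat_lit 5) (nat_lit 305) (nat_lit 263) (nat_lit 212)))))) (XT.nd (nat_lit 390) (nat_lit 1140) (nat_lit 0) (XT.nd (nat_lit 156) (nat_lit 380) (nat_lit 0) (XT.nd (nat_lit 78) (nat_lit 380) (nat_lit 0) (XT.lf (nat_lit 0) (nat_lit 1876992309) (nat_lit 456) (nat_lit 3528905145) (nat_lit 76) (nat_lit 4736459592) (nat_lit 91) (nat_lit 5) (nat_lit 97) (nat_lit 5) (nat_lit 92) (nat_lit 5) (nat_lit 306) (nat_lit 263) (nat_lit 211)) (XT.lf (nat_lit 0) (nat_lit 1514582867) (nat_lit 380) (nat_lit 2457510306) (nat_lit 456) (nat_lit 6344026758) (nat_lit 86) (nat_lit 5) (nat_lit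 91) (nat_lit 5) (nat_lit 92) (nat_lit 5) (nat_lit 307) (nat_lit 263) (nat_lit 210))) (XT.nd (nat_lit 78) (nat_lit 380) (nat_lit 0) (XT.lf (nat_lit 0) (nat_lit 6134927234) (nat_lit 456) (nat_lit 3763458548) (nat_lit 76) (nat_lit 596639342) (nat_lit 86) (nat_lit 5) (nat_lit 92) (nat_lit 5) (nat_lit 87) (nat_lit 5) (nat_lit 308) (nat_lit 263) (nat_lit 209)) (XT.nd (nat_lit 78) (nat_lit 0) (nat_lit 0) (XT.lf (nat_lit 0) (nat_lit 1384540306) (nat_lit 380) (nat_lit 6980138560) (nat_lit 456) (nat_lit 2314631249) (nat_lit 81) (nat_lit 5) (nat_lit 86) (nat_lit 5) (nat_lit 87) (nat_lit 5) (nat_lit 309) (nat_lit 263) (nat_lit 208)) (XT.lf (nat_lit 0) (nat_lit 6720649203) (nat_lit 380) (nat_lit 3943688319) (nat_lit 456) (nat_lit 204767175) (nat_lit 81) (nat_lit 5) (nat_lit 86) (nat_lit 5) (nat_lit 87) (nat_lit 5) (nat_lit 310) (nat_lit 263) (nat_lit 207))))) (XT.nd (nat_lit 234) (nat_lit 380) (nat_lit 0)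 (XT.nd (nat_lit 78) (nat_lit 304) (nat_lit 0) (XT.lf (nat_lit 0) (nat_lit 1112064950) (nat_lit 380) (nat_lit 794232932) (nat_lit 456) (nat_lit 9158505497) (nat_lit 75) (nat_lit 5) (nat_lit 80) (nat_lit 5) (nat_lit 81) (nat_lit 5) (nat_lit 311) (nat_lit 263) (nat_lit 206)) (XT.nd (nat_lit 78) (nat_lit 304) (nat_lit 0) (XT.lf (nat_lit 0) (nat_lit 4108567092) (nat_lit 456) (nat_lit 4719202016) (nat_lit 76) (nat_lit 2437648866) (nat_lit 75) (nat_lit 5) (nat_lit 81) (nat_lit 5) (nat_lit 76) (nat_lit 5) (nat_lit 312) (nat_lit 263) (nat_lit 205)) (XT.lf (nat_lit 0) (nat_lit 633572333) (nat_lit 304) (nat_lit 5724406132) (nat_lit 380) (nat_lit 5114703823) (nat_lit 71) (nat_lit 5) (nat_lit 75) (nat_lit 5) (nat_lit 76) (nat_lit 5) (nat_lit 313) (nat_lit 263) (nat_lit 204)))) (XT.nd (nat_lit 78) (nat_lit 380) (nat_lit 0) (XT.lf (nat_lit 0) (nat_lit 6201815576) (nat_lit 304) (nat_lit 2488386746) (nat_lit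 380) (nat_lit 2995563959) (nat_lit 71) (nat_lit 5) (nat_lit 75) (nat_lit 5) (nat_lit 76) (nat_lit 5) (nat_lit 314) (nat_lit 263) (nat_lit 203)) (XT.nd (nat_lit 78) (nat_lit 380) (nat_lit 0) (XT.lf (nat_lit 0) (nat_lit 11069040816) (nat_lit 380) (nat_lit 17803322) (nat_lit 76) (nat_lit 819159078) (nat_lit 71) (nat_lit 5) (nat_lit 76) (nat_lit 5) (nat_lit 72) (nat_lit 5) (nat_lit 315) (nat_lit 263) (nat_lit 202)) (XT.lf (nat_lit 0) (nat_lit 1408234500) (nat_lit 380) (nat_lit 6487499979) (nat_lit 76) (nat_lit 4235302668) (nat_lit 66) (nat_lit 5) (nat_lit 71) (nat_lit 5) (nat_lit 67) (nat_lit 5) (nat_lit 316) (nat_lit 263) (nat_lit 201))))))) (XT.nd (nat_lit 858) (nat_lit 912) (nat_lit 0) (XT.nd (nat_lit 390) (nat_lit 836) (nat_lit 0) (XT.nd (nat_lit 156) (nat_lit 380) (nat_lit 0) (XT.nd (nat_lit 78) (nat_lit 304) (nat_lit 0) (XT.lf (nat_lit 0) (nat_lit 3673744612) (nat_lit 380) (nat_lit 936623442)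 (nat_lit 76) (nat_lit 7753166834) (nat_lit 66) (nat_lit 5) (nat_lit 71) (nat_lit 5) (nat_lit 67) (nat_lit 5) (nat_lit 317) (nat_lit 263) (nat_lit 200)) (XT.lf (nat_lit 0) (nat_lit 4835723295) (nat_lit 304) (nat_lit 1188464023) (nat_lit 380) (nat_lit 6578364409) (nat_lit 62) (nat_lit 5) (nat_lit 66) (nat_lit 5) (nat_lit 67) (nat_lit 5) (nat_lit 318) (nat_lit 263) (nat_lit 199))) (XT.nd (nat_lit 78) (nat_lit 380) (nat_lit 0) (XT.lf (nat_lit 0) (nat_lit 8448022750) (nat_lit 380) (nat_lit 2110423161) (nat_lit 76) (nat_lit 2290258411) (nat_lit 62) (nat_lit 5) (nat_lit 67) (nat_lit 5) (nat_lit 63) (nat_lit 5) (nat_lit 319) (nat_lit 263) (nat_lit 198)) (XT.nd (nat_lit 78) (nat_lit 76) (nat_lit 0) (XT.lf (nat_lit 0) (nat_lit 3738154592) (nat_lit 304) (nat_lit 7225839190) (nat_lit 380) (nat_lit 2137715227) (nat_lit 58) (nat_lit 5) (nat_lit 62) (nat_lit 5) (nat_lit 63) (nat_lit 5) (nat_lit 320) (nat_lit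 263) (nat_lit 197)) (XT.lf (nat_lit 0) (nat_lit 182745662) (nat_lit 380) (nat_lit 3597206425) (nat_lit 76) (nat_lit 9582542073) (nat_lit 57) (nat_lit 5) (nat_lit 62) (nat_lit 5) (nat_lit 58) (nat_lit 5) (nat_lit 321) (nat_lit 263) (nat_lit 196))))) (XT.nd (nat_lit 234) (nat_lit 304) (nat_lit 0) (XT.nd (nat_lit 78) (nat_lit 304) (nat_lit 0) (XT.lf (nat_lit 0) (nat_lit 2328614294) (nat_lit 228) (nat_lit 196296303) (nat_lit 304) (nat_lit 11105751495) (nat_lit 54) (nat_lit 5) (nat_lit 57) (nat_lit 5) (nat_lit 58) (nat_lit 5) (nat_lit 322) (nat_lit 263) (nat_lit 195)) (XT.nd (nat_lit 78) (nat_lit 304) (nat_lit 0) (XT.lf (nat_lit 0) (nat_lit 4980626819) (nat_lit 304) (nat_lit 5471962382) (nat_lit 76) (nat_lit 3453031811) (nat_lit 54) (nat_lit 5) (nat_lit 58) (nat_lit 5) (nat_lit 55) (nat_lit 5) (nat_lit 323) (nat_lit 263) (nat_lit 194)) (XT.lf (nat_lit 0) (nat_lit 503854442) (nat_lit 304) (nat_lit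 6986740306) (nat_lit 380) (nat_lit 6698859788) (nat_lit 50) (nat_lit 5) (nat_lit 54) (nat_lit 5) (nat_lit 55) (nat_lit 5) (nat_lit 324) (nat_lit 263) (nat_lit 193)))) (XT.nd (nat_lit 78) (nat_lit 304) (nat_lit 0) (XT.lf (nat_lit 0) (nat_lit 6734419323) (nat_lit 304) (nat_lit 3370902371) (nat_lit 380) (nat_lit 4375639554) (nat_lit 50) (nat_lit 5) (nat_lit 54) (nat_lit 5) (nat_lit 55) (nat_lit 5) (nat_lit 325) (nat_lit 263) (nat_lit 192)) (XT.nd (nat_lit 78) (nat_lit 304) (nat_lit 0) (XT.lf (nat_lit 0) (nat_lit 12776741154) (nat_lit 380) (nat_lit 1669027076) (nat_lit 76) (nat_lit 336138173) (nat_lit 50) (nat_lit 5) (nat_lit 55) (nat_lit 5) (nat_lit 51) (nat_lit 5) (nat_lit 326) (nat_lit 263) (nat_lit 191)) (XT.lf (nat_lit 0) (nat_lit 481692254) (nat_lit 304) (nat_lit 10482864977) (nat_lit 76) (nat_lit 4125621691) (nat_lit 46) (nat_lit 5) (nat_lit 50) (nat_lit 5) (nat_lit 47) (nat_lit 5) (nat_lit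 327) (nat_lit 263) (nat_lit 190)))))) (XT.nd (nat_lit 468) (nat_lit 456) (nat_lit 0) (XT.nd (nat_lit 234) (nat_lit 228) (nat_lit 0) (XT.nd (nat_lit 78) (nat_lit 228) (nat_lit 0) (XT.lf (nat_lit 0) (nat_lit 2995560139) (nat_lit 304) (nat_lit 4356490953) (nat_lit 76) (nat_lit 8055309039) (nat_lit 46) (nat_lit 5) (nat_lit 50) (nat_lit 5) (nat_lit 47) (nat_lit 5) (nat_lit 328) (nat_lit 263) (nat_lit 189)) (XT.nd (nat_lit 78) (nat_lit 0) (nat_lit 0) (XT.lf (nat_lit 0) (nat_lit 1957468069) (nat_lit 228) (nat_lit 3622586276) (nat_lit 304) (nat_lit 10154182338) (nat_lit 43) (nat_lit 5) (nat_lit 46) (nat_lit 5) (nat_lit 47) (nat_lit 5) (nat_lit 329) (nat_lit 263) (nat_lit 188)) (XT.lf (nat_lit 0) (nat_lit 8265263822) (nat_lit 304) (nat_lit 7556683274) (nat_lit 76) (nat_lit 248312182) (nat_lit 43) (nat_lit 5) (nat_lit 47) (nat_lit 5) (nat_lit 44) (nat_lit 5) (nat_lit 330) (nat_lit 263) (nat_lit 187))))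 (XT.nd (nat_lit 78) (nat_lit 228) (nat_lit 0) (XT.lf (nat_lit 0) (nat_lit 11044226857) (nat_lit 304) (nat_lit 1219546754) (nat_lit 76) (nat_lit 4152227159) (nat_lit 43) (nat_lit 5) (nat_lit 47) (nat_lit 5) (nat_lit 44) (nat_lit 5) (nat_lit 331) (nat_lit 263) (nat_lit 186)) (XT.nd (nat_lit 78) (nat_lit 0) (nat_lit 0) (XT.lf (nat_lit 0) (nat_lit 5379983621) (nat_lit 228) (nat_lit 8556281226) (nat_lit 304) (nat_lit 2834991620) (nat_lit 40) (nat_lit 5) (nat_lit 43) (nat_lit 5) (nat_lit 44) (nat_lit 5) (nat_lit 332) (nat_lit 263) (nat_lit 185)) (XT.lf (nat_lit 0) (nat_lit 12170116944) (nat_lit 228) (nat_lit 4735582212) (nat_lit 304) (nat_lit 231783799) (nat_lit 40) (nat_lit 5) (nat_lit 43) (nat_lit 5) (nat_lit 44) (nat_lit 5) (nat_lit 333) (nat_lit 263) (nat_lit 184))))) (XT.nd (nat_lit 234) (nat_lit 152) (nat_lit 0) (XT.nd (nat_lit 78) (nat_lit 0) (nat_lit 0) (XT.lf (nat_lit 0) (nat_lit 1625538560)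 (nat_lit 228) (nat_lit 770520973) (nat_lit 304) (nat_lit 15118130500) (nat_lit 36) (nat_lit 5) (nat_lit 39) (nat_lit 5) (nat_lit 40) (nat_lit 5) (nat_lit 334) (nat_lit 263) (nat_lit 183)) (XT.nd (nat_lit 78) (nat_lit 0) (nat_lit 0) (XT.lf (nat_lit 0) (nat_lit 5159515186) (nat_lit 304) (nat_lit 9449417143) (nat_lit 76) (nat_lit 3291383524) (nat_lit 36) (nat_lit 5) (nat_lit 40) (nat_lit 5) (nat_lit 37) (nat_lit 5) (nat_lit 335) (nat_lit 263) (nat_lit 182)) (XT.lf (nat_lit 0) (nat_lit 7993044238) (nat_lit 304) (nat_lit 2855835869) (nat_lit 76) (nat_lit 7449558837) (nat_lit 36) (nat_lit 5) (nat_lit 40) (nat_lit 5) (nat_lit 37) (nat_lit 5) (nat_lit 336) (nat_lit 263) (nat_lit 181)))) (XT.nd (nat_lit 78) (nat_lit 0) (nat_lit 0) (XT.lf (nat_lit 0) (nat_lit 3982982788) (nat_lit 152) (nat_lit 6947019949) (nat_lit 228) (nat_lit 7777978041) (nat_lit 34) (nat_lit 5) (nat_lit 36) (nat_lit 5) (nat_lit 37)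 (nat_lit 5) (nat_lit 337) (nat_lit 263) (nat_lit 180)) (XT.nd (nat_lit 78) (nat_lit 0) (nat_lit 0) (XT.lf (nat_lit 0) (nat_lit 11055512432) (nat_lit 152) (nat_lit 2908822819) (nat_lit 228) (nat_lit 5165222605) (nat_lit 34) (nat_lit 5) (nat_lit 36) (nat_lit 5) (nat_lit 37) (nat_lit 5) (nat_lit 338) (nat_lit 263) (nat_lit 179)) (XT.lf (nat_lit 0) (nat_lit 17082618244) (nat_lit 228) (nat_lit 1265205788) (nat_lit 76) (nat_lit 1216196761) (nat_lit 34) (nat_lit 5) (nat_lit 37) (nat_lit 5) (nat_lit 35) (nat_lit 5) (nat_lit 339) (nat_lit 263) (nat_lit 178))))))))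
noncomputable def xc121 : XT := (XT.nd (nat_lit 1716) (nat_lit 684) (nat_lit 0) (XT.nd (nat_lit 858) (nat_lit 456) (nat_lit 0) (XT.nd (nat_lit 390) (nat_lit 380) (nat_lit 0) (XT.nd (nat_lit 156) (nat_lit 152) (nat_lit 0) (XT.nd (nat_lit 78) (nat_lit 0) (nat_lit 0) (XT.lf (nat_lit 0) (nat_lit 344084015) (nat_lit 304) (nat_lit 14209345328) (nat_lit 76) (nat_lit 5456031157) (nat_lit 30) (nat_lit 5) (nat_lit 34) (nat_lit 5) (nat_lit 31) (nat_lit 5) (nat_lit 340) (nat_lit 263) (nat_lit 177)) (XT.lf (nat_lit 0) (nat_lit 3198881334) (nat_lit 304) (nat_lit 7418111557) (nat_lit 76) (nat_lit 9850724803) (nat_lit 30) (nat_lit 5) (nat_lit 34) (nat_lit 5) (nat_lit 31) (nat_lit 5) (nat_lit 341) (nat_lit 263) (nat_lit 176))) (XT.nd (nat_lit 78) (nat_lit 152) (nat_lit 0) (XT.lf (nat_lit 0) (nat_lit 6121378201) (nat_lit 304) (nat_lit 451167807) (nat_lit 76) (nat_lit 14367738173) (nat_lit 30) (nat_lit 5) (nat_lit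 34) (nat_lit 5) (nat_lit 31) (nat_lit 5) (nat_lit 342) (nat_lit 263) (nat_lit 175)) (XT.nd (nat_lit 78) (nat_lit 0) (nat_lit 0) (XT.lf (nat_lit 0) (nat_lit 6830868388) (nat_lit 152) (nat_lit 2348922351) (nat_lit 228) (nat_lit 12245812268) (nat_lit 28) (nat_lit 5) (nat_lit 30) (nat_lit 5) (nat_lit 31) (nat_lit 5) (nat_lit 343) (nat_lit 263) (nat_lit 174)) (XT.lf (nat_lit 0) (nat_lit 12336528235) (nat_lit 228) (nat_lit 7631401568) (nat_lit 76) (nat_lit 1957376328) (nat_lit 28) (nat_lit 5) (nat_lit 31) (nat_lit 5) (nat_lit 29) (nat_lit 5) (nat_lit 344) (nat_lit 263) (nat_lit 173))))) (XT.nd (nat_lit 234) (nat_lit 228) (nat_lit 0) (XT.nd (nat_lit 78) (nat_lit 152) (nat_lit 0) (XT.lf (nat_lit 0) (nat_lit 15594460226) (nat_lit 228) (nat_lit 509014629) (nat_lit 76) (nat_lit 6336351996) (nat_lit 28) (nat_lit 5) (nat_lit 31) (nat_lit 5) (nat_lit 29) (nat_lit 5) (nat_lit 345) (nat_lit 263) (nat_lit 172))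 (XT.nd (nat_lit 78) (nat_lit 0) (nat_lit 0) (XT.lf (nat_lit 0) (nat_lit 6936586713) (nat_lit 152) (nat_lit 12063946172) (nat_lit 228) (nat_lit 3967758878) (nat_lit 26) (nat_lit 5) (nat_lit 28) (nat_lit 5) (nat_lit 29) (nat_lit 5) (nat_lit 346) (nat_lit 263) (nat_lit 171)) (XT.lf (nat_lit 0) (nat_lit 14590428490) (nat_lit 152) (nat_lit 7907451621) (nat_lit 228) (nat_lit 1015077793) (nat_lit 26) (nat_lit 5) (nat_lit 28) (nat_lit 5) (nat_lit 29) (nat_lit 5) (nat_lit 347) (nat_lit 263) (nat_lit 170)))) (XT.nd (nat_lit 78) (nat_lit 152) (nat_lit 0) (XT.lf (nat_lit 0) (nat_lit 1970891977) (nat_lit 228) (nat_lit 1644705241) (nat_lit 76) (nat_lit 20458274011) (nat_lit 25) (nat_lit 5) (nat_lit 28) (nat_lit 5) (nat_lit 26) (nat_lit 5) (nat_lit 348) (nat_lit 263) (nat_lit 169)) (XT.nd (nat_lit 78) (nat_lit 0) (nat_lit 0) (XT.lf (nat_lit 0) (nat_lit 5076088035) (nat_lit 228) (nat_lit 18725635985) (nat_lit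 76) (nat_lit 848103298) (nat_lit 23) (nat_lit 5) (nat_lit 26) (nat_lit 5) (nat_lit 24) (nat_lit 5) (nat_lit 349) (nat_lit 263) (nat_lit 168)) (XT.lf (nat_lit 0) (nat_lit 8311841570) (nat_lit 228) (nat_lit 11549217359) (nat_lit 76) (nat_lit 5380898929) (nat_lit 23) (nat_lit 5) (nat_lit 26) (nat_lit 5) (nat_lit 24) (nat_lit 5) (nat_lit 350) (nat_lit 263) (nat_lit 167)))))) (XT.nd (nat_lit 390) (nat_lit 304) (nat_lit 0) (XT.nd (nat_lit 156) (nat_lit 0) (nat_lit 0) (XT.nd (nat_lit 78) (nat_lit 152) (nat_lit 0) (XT.lf (nat_lit 0) (nat_lit 11629940397) (nat_lit 228) (nat_lit 4181351551) (nat_lit 76) (nat_lit 10041019483) (nat_lit 23) (nat_lit 5) (nat_lit 26) (nat_lit 5) (nat_lit 24) (nat_lit 5) (nat_lit 351) (nat_lit 263) (nat_lit 166)) (XT.lf (nat_lit 0) (nat_lit 3451755562) (nat_lit 152) (nat_lit 11614708647) (nat_lit 228) (nat_lit 11413961733) (nat_lit 21) (nat_lit 5) (nat_lit 23) (nat_lit 5) (nat_lit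 24) (nat_lit 5) (nat_lit 352) (nat_lit 263) (nat_lit 165))) (XT.nd (nat_lit 78) (nat_lit 0) (nat_lit 0) (XT.lf (nat_lit 0) (nat_lit 11376645616) (nat_lit 152) (nat_lit 7257559309) (nat_lit 228) (nat_lit 8492351633) (nat_lit 21) (nat_lit 5) (nat_lit 23) (nat_lit 5) (nat_lit 24) (nat_lit 5) (nat_lit 353) (nat_lit 263) (nat_lit 164)) (XT.nd (nat_lit 78) (nat_lit 0) (nat_lit 0) (XT.lf (nat_lit 0) (nat_lit 19517026174) (nat_lit 152) (nat_lit 2778260168) (nat_lit 228) (nat_lit 5497211323) (nat_lit 21) (nat_lit 5) (nat_lit 23) (nat_lit 5) (nat_lit 24) (nat_lit 5) (nat_lit 354) (nat_lit 263) (nat_lit 163)) (XT.lf (nat_lit 0) (nat_lit 26070470694) (nat_lit 228) (nat_lit 616384194) (nat_lit 76) (nat_lit 1791449370) (nat_lit 21) (nat_lit 5) (nat_lit 24) (nat_lit 5) (nat_lit 22) (nat_lit 4) (nat_lit 355) (nat_lit 263) (nat_lit 162))))) (XT.nd (nat_lit 234) (nat_lit 152) (nat_lit 0) (XT.nd (nat_lit 78) (nat_lit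 0) (nat_lit 0) (XT.lf (nat_lit 0) (nat_lit 845292562) (nat_lit 152) (nat_lit 21822996606) (nat_lit 76) (nat_lit 6513601850) (nat_lit 19) (nat_lit 5) (nat_lit 21) (nat_lit 5) (nat_lit 20) (nat_lit 5) (nat_lit 356) (nat_lit 263) (nat_lit 161)) (XT.nd (nat_lit 78) (nat_lit 0) (nat_lit 0) (XT.lf (nat_lit 0) (nat_lit 4140954496) (nat_lit 152) (nat_lit 14365599565) (nat_lit 76) (nat_lit 11399530071) (nat_lit 19) (nat_lit 5) (nat_lit 21) (nat_lit 5) (nat_lit 20) (nat_lit 5) (nat_lit 357) (nat_lit 263) (nat_lit 160)) (XT.lf (nat_lit 0) (nat_lit 7522914633) (nat_lit 152) (nat_lit 6705224302) (nat_lit 76) (nat_lit 16424254909) (nat_lit 19) (nat_lit 5) (nat_lit 21) (nat_lit 5) (nat_lit 20) (nat_lit 5) (nat_lit 358) (nat_lit 263) (nat_lit 159)))) (XT.nd (nat_lit 78) (nat_lit 0) (nat_lit 0) (XT.lf (nat_lit 0) (nat_lit 1188004968) (nat_lit 152) (nat_lit 9817542944) (nat_lit 228) (nat_lit 20415581761) (nat_lit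 17) (nat_lit 5) (nat_lit 19) (nat_lit 5) (nat_lit 20) (nat_lit 5) (nat_lit 359) (nat_lit 263) (nat_lit 158)) (XT.nd (nat_lit 78) (nat_lit 0) (nat_lit 0) (XT.lf (nat_lit 0) (nat_lit 9435539583) (nat_lit 152) (nat_lit 5212788538) (nat_lit 228) (nat_lit 17562942289) (nat_lit 17) (nat_lit 5) (nat_lit 19) (nat_lit 5) (nat_lit 20) (nat_lit 5) (nat_lit 360) (nat_lit 263) (nat_lit 157)) (XT.lf (nat_lit 0) (nat_lit 17911139015) (nat_lit 152) (nat_lit 477561764) (nat_lit 228) (nat_lit 14636777814) (nat_lit 17) (nat_lit 5) (nat_lit 19) (nat_lit 5) (nat_lit 20) (nat_lit 5) (nat_lit 361) (nat_lit 263) (nat_lit 156))))))) (XT.nd (nat_lit 858) (nat_lit 380) (nat_lit 0) (XT.nd (nat_lit 390) (nat_lit 152) (nat_lit 0) (XT.nd (nat_lit 156) (nat_lit 76) (nat_lit 0) (XT.nd (nat_lit 78) (nat_lit 76) (nat_lit 0) (XT.lf (nat_lit 0) (nat_lit 22272155405) (nat_lit 228) (nat_lit 7284477774) (nat_lit 76) (nat_lit 4306565850)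 (nat_lit 17) (nat_lit 5) (nat_lit 20) (nat_lit 5) (nat_lit 18) (nat_lit 4) (nat_lit 362) (nat_lit 263) (nat_lit 155)) (XT.lf (nat_lit 0) (nat_lit 772095225) (nat_lit 76) (nat_lit 25501079282) (nat_lit 152) (nat_lit 8452856524) (nat_lit 16) (nat_lit 5) (nat_lit 17) (nat_lit 5) (nat_lit 18) (nat_lit 4) (nat_lit 363) (nat_lit 263) (nat_lit 154))) (XT.nd (nat_lit 78) (nat_lit 76) (nat_lit 0) (XT.lf (nat_lit 0) (nat_lit 9201348979) (nat_lit 76) (nat_lit 21255491483) (nat_lit 152) (nat_lit 5156040477) (nat_lit 16) (nat_lit 5) (nat_lit 17) (nat_lit 5) (nat_lit 18) (nat_lit 4) (nat_lit 364) (nat_lit 263) (nat_lit 153)) (XT.nd (nat_lit 78) (nat_lit 76) (nat_lit 0) (XT.lf (nat_lit 0) (nat_lit 17865673463) (nat_lit 76) (nat_lit 16889718988) (nat_lit 152) (nat_lit 1771273715) (nat_lit 16) (nat_lit 5) (nat_lit 17) (nat_lit 5) (nat_lit 18) (nat_lit 4) (nat_lit 365) (nat_lit 263) (nat_lit 152)) (XT.lf (nat_lit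 0) (nat_lit 1671142317) (nat_lit 152) (nat_lit 10711929466) (nat_lit 76) (nat_lit 25084621869) (nat_lit 15) (nat_lit 5) (nat_lit 17) (nat_lit 5) (nat_lit 16) (nat_lit 5) (nat_lit 366) (nat_lit 263) (nat_lit 151))))) (XT.nd (nat_lit 234) (nat_lit 0) (nat_lit 0) (XT.nd (nat_lit 78) (nat_lit 152) (nat_lit 0) (XT.lf (nat_lit 0) (nat_lit 5171106486) (nat_lit 152) (nat_lit 2558928026) (nat_lit 76) (nat_lit 30706705193) (nat_lit 15) (nat_lit 5) (nat_lit 17) (nat_lit 5) (nat_lit 16) (nat_lit 5) (nat_lit 367) (nat_lit 263) (nat_lit 150)) (XT.nd (nat_lit 78) (nat_lit 0) (nat_lit 0) (XT.lf (nat_lit 0) (nat_lit 5938034607) (nat_lit 152) (nat_lit 2885286357) (nat_lit 228) (nat_lit 30610128499) (nat_lit 13) (nat_lit 5) (nat_lit 15) (nat_lit 5) (nat_lit 16) (nat_lit 5) (nat_lit 368) (nat_lit 263) (nat_lit 149)) (XT.lf (nat_lit 0) (nat_lit 12621667280) (nat_lit 228) (nat_lit 25753988430) (nat_lit 76) (nat_lit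 2083317418) (nat_lit 13) (nat_lit 5) (nat_lit 16) (nat_lit 5) (nat_lit 14) (nat_lit 4) (nat_lit 369) (nat_lit 263) (nat_lit 148)))) (XT.nd (nat_lit 78) (nat_lit 0) (nat_lit 0) (XT.lf (nat_lit 0) (nat_lit 16553052284) (nat_lit 228) (nat_lit 17824979845) (nat_lit 76) (nat_lit 7136667022) (nat_lit 13) (nat_lit 5) (nat_lit 16) (nat_lit 5) (nat_lit 14) (nat_lit 4) (nat_lit 370) (nat_lit 263) (nat_lit 147)) (XT.nd (nat_lit 78) (nat_lit 0) (nat_lit 0) (XT.lf (nat_lit 0) (nat_lit 20593176028) (nat_lit 228) (nat_lit 9673725705) (nat_lit 76) (nat_lit 12335480334) (nat_lit 13) (nat_lit 5) (nat_lit 16) (nat_lit 5) (nat_lit 14) (nat_lit 4) (nat_lit 371) (nat_lit 263) (nat_lit 146)) (XT.lf (nat_lit 0) (nat_lit 24745568718) (nat_lit 228) (nat_lit 1293103555) (nat_lit 76) (nat_lit 17684300004) (nat_lit 13) (nat_lit 5) (nat_lit 16) (nat_lit 5) (nat_lit 14) (nat_lit 4) (nat_lit 372) (nat_lit 263) (nat_lit 145))))))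 (XT.nd (nat_lit 468) (nat_lit 76) (nat_lit 0) (XT.nd (nat_lit 234) (nat_lit 228) (nat_lit 0) (XT.nd (nat_lit 78) (nat_lit 0) (nat_lit 0) (XT.lf (nat_lit 0) (nat_lit 7469975608) (nat_lit 76) (nat_lit 21615689025) (nat_lit 152) (nat_lit 15789630126) (nat_lit 12) (nat_lit 5) (nat_lit 13) (nat_lit 5) (nat_lit 14) (nat_lit 4) (nat_lit 373) (nat_lit 263) (nat_lit 144)) (XT.nd (nat_lit 78) (nat_lit 0) (nat_lit 0) (XT.lf (nat_lit 0) (nat_lit 16507871111) (nat_lit 76) (nat_lit 17052588066) (nat_lit 152) (nat_lit 12501601127) (nat_lit 12) (nat_lit 5) (nat_lit 13) (nat_lit 5) (nat_lit 14) (nat_lit 4) (nat_lit 374) (nat_lit 263) (nat_lit 143)) (XT.lf (nat_lit 0) (nat_lit 25802744849) (nat_lit 76) (nat_lit 12358440031) (nat_lit 152) (nat_lit 9123501336) (nat_lit 12) (nat_lit 5) (nat_lit 13) (nat_lit 5) (nat_lit 14) (nat_lit 4) (nat_lit 375) (nat_lit 263) (nat_lit 142)))) (XT.nd (nat_lit 78) (nat_lit 228)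 (nat_lit 0) (XT.lf (nat_lit 0) (nat_lit 35362718554) (nat_lit 76) (nat_lit 7529143238) (nat_lit 152) (nat_lit 5652379017) (nat_lit 12) (nat_lit 5) (nat_lit 13) (nat_lit 5) (nat_lit 14) (nat_lit 4) (nat_lit 376) (nat_lit 263) (nat_lit 141)) (XT.nd (nat_lit 78) (nat_lit 228) (nat_lit 0) (XT.lf (nat_lit 0) (nat_lit 45196145602) (nat_lit 76) (nat_lit 2560477912) (nat_lit 152) (nat_lit 2085201150) (nat_lit 12) (nat_lit 5) (nat_lit 13) (nat_lit 5) (nat_lit 14) (nat_lit 4) (nat_lit 377) (nat_lit 263) (nat_lit 140)) (XT.lf (nat_lit 0) (nat_lit 1615746953) (nat_lit 228) (nat_lit 47002184107) (nat_lit 76) (nat_lit 2558221014) (nat_lit 9) (nat_lit 5) (nat_lit 12) (nat_lit 5) (nat_lit 10) (nat_lit 4) (nat_lit 378) (nat_lit 263) (nat_lit 139))))) (XT.nd (nat_lit 234) (nat_lit 76) (nat_lit 0) (XT.nd (nat_lit 78) (nat_lit 0) (nat_lit 0) (XT.lf (nat_lit 0) (nat_lit 5450898451) (nat_lit 228) (nat_lit 39255298434)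 (nat_lit 76) (nat_lit 7841747411) (nat_lit 9) (nat_lit 5) (nat_lit 12) (nat_lit 5) (nat_lit 10) (nat_lit 4) (nat_lit 379) (nat_lit 263) (nat_lit 138)) (XT.nd (nat_lit 78) (nat_lit 0) (nat_lit 0) (XT.lf (nat_lit 0) (nat_lit 9393684528) (nat_lit 228) (nat_lit 31288794025) (nat_lit 76) (nat_lit 13278641047) (nat_lit 9) (nat_lit 5) (nat_lit 12) (nat_lit 5) (nat_lit 10) (nat_lit 4) (nat_lit 380) (nat_lit 263) (nat_lit 137)) (XT.lf (nat_lit 0) (nat_lit 13447550337) (nat_lit 228) (nat_lit 23095709857) (nat_lit 76) (nat_lit 18873652606) (nat_lit 9) (nat_lit 5) (nat_lit 12) (nat_lit 5) (nat_lit 10) (nat_lit 4) (nat_lit 381) (nat_lit 263) (nat_lit 136)))) (XT.nd (nat_lit 78) (nat_lit 76) (nat_lit 0) (XT.lf (nat_lit 0) (nat_lit 17616038092) (nat_lit 228) (nat_lit 14668886925) (nat_lit 76) (nat_lit 24631670932) (nat_lit 9) (nat_lit 5) (nat_lit 12) (nat_lit 5) (nat_lit 10) (nat_lit 4) (nat_lit 382) (nat_lit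 263) (nat_lit 135)) (XT.nd (nat_lit 78) (nat_lit 76) (nat_lit 0) (XT.lf (nat_lit 0) (nat_lit 21902790159) (nat_lit 228) (nat_lit 6000961985) (nat_lit 76) (nat_lit 30557727305) (nat_lit 9) (nat_lit 5) (nat_lit 12) (nat_lit 5) (nat_lit 10) (nat_lit 4) (nat_lit 383) (nat_lit 263) (nat_lit 134)) (XT.lf (nat_lit 0) (nat_lit 2973665807) (nat_lit 76) (nat_lit 23366471131) (nat_lit 152) (nat_lit 33711918718) (nat_lit 8) (nat_lit 5) (nat_lit 9) (nat_lit 5) (nat_lit 10) (nat_lit 4) (nat_lit 384) (nat_lit 263) (nat_lit 133))))))))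
noncomputable def xc122 : XT := (XT.nd (nat_lit 32058) (nat_lit 0) (nat_lit 8816) (XT.nd (nat_lit 31200) (nat_lit 0) (nat_lit 17328) (XT.nd (nat_lit 390) (nat_lit 152) (nat_lit 0) (XT.nd (nat_lit 156) (nat_lit 0) (nat_lit 0) (XT.nd (nat_lit 78) (nat_lit 0) (nat_lit 0) (XT.lf (nat_lit 0) (nat_lit 12329295837) (nat_lit 76) (nat_lit 18635397561) (nat_lit 152) (nat_lit 30724038868) (nat_lit 8) (nat_lit 5) (nat_lit 9) (nat_lit 5) (nat_lit 10) (nat_lit 4) (nat_lit 385) (nat_lit 263) (nat_lit 132)) (XT.lf (nat_lit 0) (nat_lit 21954672015) (nat_lit 76) (nat_lit 13766995436) (nat_lit 152) (nat_lit 27653036922) (nat_lit 8) (nat_lit 5) (nat_lit 9) (nat_lit 5) (nat_lit 10) (nat_lit 4) (nat_lit 386) (nat_lit 263) (nat_lit 131))) (XT.nd (nat_lit 78) (nat_lit 0) (nat_lit 0) (XT.lf (nat_lit 0) (nat_lit 31858204864) (nat_lit 76) (nat_lit 8757010811) (nat_lit 152) (nat_lit 24496229479) (nat_lit 8) (nat_lit 5)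 (nat_lit 9) (nat_lit 5) (nat_lit 10) (nat_lit 4) (nat_lit 387) (nat_lit 263) (nat_lit 130)) (XT.nd (nat_lit 78) (nat_lit 0) (nat_lit 0) (XT.lf (nat_lit 0) (nat_lit 42048547957) (nat_lit 76) (nat_lit 3601066032) (nat_lit 152) (nat_lit 21250858165) (nat_lit 8) (nat_lit 5) (nat_lit 9) (nat_lit 5) (nat_lit 10) (nat_lit 4) (nat_lit 388) (nat_lit 263) (nat_lit 129)) (XT.lf (nat_lit 0) (nat_lit 50845654190) (nat_lit 152) (nat_lit 16225135931) (nat_lit 0) (nat_lit 1672066691) (nat_lit 8) (nat_lit 5) (nat_lit 10) (nat_lit 4) (nat_lit 8) (nat_lit 4) (nat_lit 389) (nat_lit 263) (nat_lit 128))))) (XT.nd (nat_lit 234) (nat_lit 76) (nat_lit 0) (XT.nd (nat_lit 78) (nat_lit 76) (nat_lit 0) (XT.lf (nat_lit 0) (nat_lit 56227575959) (nat_lit 152) (nat_lit 7385036973) (nat_lit 0) (nat_lit 7027005066) (nat_lit 8) (nat_lit 5) (nat_lit 10) (nat_lit 4) (nat_lit 8) (nat_lit 4) (nat_lit 390) (nat_lit 263) (nat_lit 127))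 (XT.nd (nat_lit 78) (nat_lit 0) (nat_lit 0) (XT.lf (nat_lit 0) (nat_lit 1744759221) (nat_lit 76) (nat_lit 60037478768) (nat_lit 76) (nat_lit 10810710405) (nat_lit 7) (nat_lit 4) (nat_lit 8) (nat_lit 5) (nat_lit 8) (nat_lit 4) (nat_lit 391) (nat_lit 263) (nat_lit 126)) (XT.lf (nat_lit 0) (nat_lit 11290376700) (nat_lit 76) (nat_lit 56282317442) (nat_lit 76) (nat_lit 7030114643) (nat_lit 7) (nat_lit 4) (nat_lit 8) (nat_lit 5) (nat_lit 8) (nat_lit 4) (nat_lit 392) (nat_lit 263) (nat_lit 125)))) (XT.nd (nat_lit 78) (nat_lit 76) (nat_lit 0) (XT.lf (nat_lit 0) (nat_lit 21113179578) (nat_lit 76) (nat_lit 52418422139) (nat_lit 76) (nat_lit 3141525712) (nat_lit 7) (nat_lit 4) (nat_lit 8) (nat_lit 5) (nat_lit 8) (nat_lit 4) (nat_lit 393) (nat_lit 263) (nat_lit 124)) (XT.nd (nat_lit 78) (nat_lit 0) (nat_lit 0) (XT.lf (nat_lit 0) (nat_lit 841702649) (nat_lit 152) (nat_lit 47592214444) (nat_lit 76) (nat_lit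 30371548691) (nat_lit 6) (nat_lit 5) (nat_lit 8) (nat_lit 5) (nat_lit 7) (nat_lit 4) (nat_lit 394) (nat_lit 263) (nat_lit 123)) (XT.lf (nat_lit 0) (nat_lit 4876272780) (nat_lit 152) (nat_lit 39425313190) (nat_lit 76) (nat_lit 36699409783) (nat_lit 6) (nat_lit 5) (nat_lit 8) (nat_lit 5) (nat_lit 7) (nat_lit 4) (nat_lit 395) (nat_lit 263) (nat_lit 122)))))) (XT.nd (nat_lit 390) (nat_lit 912) (nat_lit 0) (XT.nd (nat_lit 156) (nat_lit 380) (nat_lit 0) (XT.nd (nat_lit 78) (nat_lit 0) (nat_lit 0) (XT.lf (nat_lit 0) (nat_lit 574133703) (nat_lit 380) (nat_lit 1341455091) (nat_lit 380) (nat_lit 1341455091) (nat_lit 251) (nat_lit 3) (nat_lit 256) (nat_lit 3) (nat_lit 256) (nat_lit 5) (nat_lit 264) (nat_lit 264) (nat_lit 252)) (XT.lf (nat_lit 76) (nat_lit 138960576) (nat_lit 0) (nat_lit 3329974133) (nat_lit 380) (nat_lit 3064724773) (nat_lit 252) (nat_lit 5) (nat_lit 251) (nat_lit 3) (nat_lit 256) (nat_lit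 5) (nat_lit 265) (nat_lit 264) (nat_lit 251))) (XT.nd (nat_lit 78) (nat_lit 380) (nat_lit 0) (XT.lf (nat_lit 76) (nat_lit 3053113701) (nat_lit 0) (nat_lit 2742900288) (nat_lit 380) (nat_lit 760053258) (nat_lit 252) (nat_lit 5) (nat_lit 251) (nat_lit 3) (nat_lit 256) (nat_lit 5) (nat_lit 266) (nat_lit 264) (nat_lit 250)) (XT.nd (nat_lit 78) (nat_lit 0) (nat_lit 0) (XT.lf (nat_lit 0) (nat_lit 1493394359) (nat_lit 380) (nat_lit 588060496) (nat_lit 456) (nat_lit 4500225649) (nat_lit 246) (nat_lit 5) (nat_lit 251) (nat_lit 3) (nat_lit 252) (nat_lit 5) (nat_lit 267) (nat_lit 264) (nat_lit 249)) (XT.lf (nat_lit 76) (nat_lit 2407032447) (nat_lit 0) (nat_lit 1328989263) (nat_lit 456) (nat_lit 2874031847) (nat_lit 247) (nat_lit 5) (nat_lit 246) (nat_lit 5) (nat_lit 252) (nat_lit 5) (nat_lit 268) (nat_lit 264) (nat_lit 248))))) (XT.nd (nat_lit 234) (nat_lit 532) (nat_lit 0) (XT.nd (nat_lit 78) (nat_lit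 380) (nat_lit 0) (XT.lf (nat_lit 76) (nat_lit 5457799111) (nat_lit 0) (nat_lit 509850518) (nat_lit 456) (nat_lit 674289855) (nat_lit 247) (nat_lit 5) (nat_lit 246) (nat_lit 5) (nat_lit 252) (nat_lit 5) (nat_lit 269) (nat_lit 264) (nat_lit 247)) (XT.nd (nat_lit 78) (nat_lit 0) (nat_lit 0) (XT.lf (nat_lit 0) (nat_lit 1499672654) (nat_lit 456) (nat_lit 4780186642) (nat_lit 532) (nat_lit 396580612) (nat_lit 241) (nat_lit 5) (nat_lit 247) (nat_lit 5) (nat_lit 248) (nat_lit 5) (nat_lit 270) (nat_lit 264) (nat_lit 246)) (XT.lf (nat_lit 0) (nat_lit 3661853878) (nat_lit 456) (nat_lit 1679545155) (nat_lit 532) (nat_lit 1372566201) (nat_lit 241) (nat_lit 5) (nat_lit 247) (nat_lit 5) (nat_lit 248) (nat_lit 5) (nat_lit 271) (nat_lit 264) (nat_lit 245)))) (XT.nd (nat_lit 78) (nat_lit 532) (nat_lit 0) (XT.lf (nat_lit 76) (nat_lit 1495315521) (nat_lit 0) (nat_lit 4329734131) (nat_lit 532) (nat_lit 929760590)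 (nat_lit 242) (nat_lit 5) (nat_lit 241) (nat_lit 5) (nat_lit 248) (nat_lit 5) (nat_lit 272) (nat_lit 264) (nat_lit 244)) (XT.nd (nat_lit 78) (nat_lit 0) (nat_lit 0) (XT.lf (nat_lit 0) (nat_lit 1171450022) (nat_lit 532) (nat_lit 2058076593) (nat_lit 608) (nat_lit 3569063015) (nat_lit 234) (nat_lit 5) (nat_lit 241) (nat_lit 5) (nat_lit 242) (nat_lit 5) (nat_lit 273) (nat_lit 264) (nat_lit 243)) (XT.lf (nat_lit 76) (nat_lit 1205832966) (nat_lit 0) (nat_lit 2047598465) (nat_lit 608) (nat_lit 3592136920) (nat_lit 235) (nat_lit 5) (nat_lit 234) (nat_lit 5) (nat_lit 242) (nat_lit 5) (nat_lit 274) (nat_lit 264) (nat_lit 242))))))) (XT.nd (nat_lit 858) (nat_lit 4940) (nat_lit 0) (XT.nd (nat_lit 390) (nat_lit 2432) (nat_lit 0) (XT.nd (nat_lit 156) (nat_lit 608) (nat_lit 0) (XT.nd (nat_lit 78) (nat_lit 532) (nat_lit 0) (XT.lf (nat_lit 76) (nat_lit 4562442031) (nat_lit 0) (nat_lit 782777036) (nat_lit 608)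 (nat_lit 1550564313) (nat_lit 235) (nat_lit 5) (nat_lit 234) (nat_lit 5) (nat_lit 242) (nat_lit 5) (nat_lit 275) (nat_lit 264) (nat_lit 241)) (XT.lf (nat_lit 0) (nat_lit 484619164) (nat_lit 608) (nat_lit 5915307633) (nat_lit 76) (nat_lit 549357751) (nat_lit 227) (nat_lit 5) (nat_lit 235) (nat_lit 5) (nat_lit 228) (nat_lit 5) (nat_lit 276) (nat_lit 264) (nat_lit 240))) (XT.nd (nat_lit 78) (nat_lit 608) (nat_lit 0) (XT.lf (nat_lit 0) (nat_lit 2510875428) (nat_lit 608) (nat_lit 2526670964) (nat_lit 76) (nat_lit 1967774691) (nat_lit 227) (nat_lit 5) (nat_lit 235) (nat_lit 5) (nat_lit 228) (nat_lit 5) (nat_lit 277) (nat_lit 264) (nat_lit 239)) (XT.nd (nat_lit 78) (nat_lit 0) (nat_lit 0) (XT.lf (nat_lit 0) (nat_lit 933493695) (nat_lit 608) (nat_lit 3605084784) (nat_lit 684) (nat_lit 2526460230) (nat_lit 219) (nat_lit 5) (nat_lit 227) (nat_lit 5) (nat_lit 228) (nat_lit 5) (nat_lit 278) (nat_lit 264)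 (nat_lit 238)) (XT.lf (nat_lit 0) (nat_lit 4501384630) (nat_lit 608) (nat_lit 2084457752) (nat_lit 684) (nat_lit 542156956) (nat_lit 219) (nat_lit 5) (nat_lit 227) (nat_lit 5) (nat_lit 228) (nat_lit 5) (nat_lit 279) (nat_lit 264) (nat_lit 237))))) (XT.nd (nat_lit 234) (nat_lit 912) (nat_lit 0) (XT.nd (nat_lit 78) (nat_lit 760) (nat_lit 0) (XT.lf (nat_lit 0) (nat_lit 939372062) (nat_lit 684) (nat_lit 476345513) (nat_lit 760) (nat_lit 5778598919) (nat_lit 209) (nat_lit 5) (nat_lit 218) (nat_lit 5) (nat_lit 219) (nat_lit 5) (nat_lit 280) (nat_lit 264) (nat_lit 236)) (XT.nd (nat_lit 78) (nat_lit 760) (nat_lit 0) (XT.lf (nat_lit 0) (nat_lit 3395493240) (nat_lit 760) (nat_lit 2662418717) (nat_lit 76) (nat_lit 1205523581) (nat_lit 209) (nat_lit 5) (nat_lit 219) (nat_lit 5) (nat_lit 210) (nat_lit 5) (nat_lit 281) (nat_lit 264) (nat_lit 235)) (XT.lf (nat_lit 0) (nat_lit 1004417500) (nat_lit 760) (nat_lit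 4382414550) (nat_lit 836) (nat_lit 1949420580) (nat_lit 199) (nat_lit 5) (nat_lit 209) (nat_lit 5) (nat_lit 210) (nat_lit 5) (nat_lit 282) (nat_lit 264) (nat_lit 234)))) (XT.nd (nat_lit 78) (nat_lit 912) (nat_lit 0) (XT.lf (nat_lit 0) (nat_lit 4787961007) (nat_lit 760) (nat_lit 2615985229) (nat_lit 836) (nat_lit 8510994) (nat_lit 199) (nat_lit 5) (nat_lit 209) (nat_lit 5) (nat_lit 210) (nat_lit 5) (nat_lit 283) (nat_lit 264) (nat_lit 233)) (XT.nd (nat_lit 78) (nat_lit 0) (nat_lit 0) (XT.lf (nat_lit 0) (nat_lit 1149514160) (nat_lit 836) (nat_lit 753479472) (nat_lit 912) (nat_lit 5589017408) (nat_lit 187) (nat_lit 5) (nat_lit 198) (nat_lit 5) (nat_lit 199) (nat_lit 5) (nat_lit 284) (nat_lit 264) (nat_lit 232)) (XT.lf (nat_lit 0) (nat_lit 3851191809) (nat_lit 912) (nat_lit 2543564384) (nat_lit 76) (nat_lit 1179975592) (nat_lit 187) (nat_lit 5) (nat_lit 199) (nat_lit 5) (nat_lit 188) (nat_lit 5)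 (nat_lit 285) (nat_lit 264) (nat_lit 231)))))) (XT.nd (nat_lit 468) (nat_lit 1900) (nat_lit 0) (XT.nd (nat_lit 234) (nat_lit 1064) (nat_lit 0) (XT.nd (nat_lit 78) (nat_lit 1064) (nat_lit 0) (XT.lf (nat_lit 0) (nat_lit 1340056254) (nat_lit 912) (nat_lit 4481380595) (nat_lit 988) (nat_lit 1839752803) (nat_lit 175) (nat_lit 5) (nat_lit 187) (nat_lit 5) (nat_lit 188) (nat_lit 5) (nat_lit 286) (nat_lit 264) (nat_lit 230)) (XT.nd (nat_lit 78) (nat_lit 988) (nat_lit 0) (XT.lf (nat_lit 0) (nat_lit 68274977) (nat_lit 988) (nat_lit 2407137764) (nat_lit 76) (nat_lit 5275862986) (nat_lit 174) (nat_lit 5) (nat_lit 187) (nat_lit 5) (nat_lit 175) (nat_lit 5) (nat_lit 287) (nat_lit 264) (nat_lit 229)) (XT.lf (nat_lit 0) (nat_lit 1589732003) (nat_lit 988) (nat_lit 367503940) (nat_lit 1064) (nat_lit 5887611546) (nat_lit 161) (nat_lit 5) (nat_lit 174) (nat_lit 5) (nat_lit 175) (nat_lit 5) (nat_lit 288) (nat_lit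 264) (nat_lit 228)))) (XT.nd (nat_lit 78) (nat_lit 1064) (nat_lit 0) (XT.lf (nat_lit 0) (nat_lit 3891342794) (nat_lit 1064) (nat_lit 2250924002) (nat_lit 76) (nat_lit 1799450586) (nat_lit 161) (nat_lit 5) (nat_lit 175) (nat_lit 5) (nat_lit 162) (nat_lit 5) (nat_lit 289) (nat_lit 264) (nat_lit 227)) (XT.nd (nat_lit 78) (nat_lit 0) (nat_lit 0) (XT.lf (nat_lit 0) (nat_lit 1858743537) (nat_lit 1064) (nat_lit 3994382244) (nat_lit 1140) (nat_lit 2189419066) (nat_lit 147) (nat_lit 5) (nat_lit 161) (nat_lit 5) (nat_lit 162) (nat_lit 5) (nat_lit 290) (nat_lit 264) (nat_lit 226)) (XT.lf (nat_lit 0) (nat_lit 6091024570) (nat_lit 1064) (nat_lit 1754674744) (nat_lit 1140) (nat_lit 301676660) (nat_lit 147) (nat_lit 5) (nat_lit 161) (nat_lit 5) (nat_lit 162) (nat_lit 5) (nat_lit 291) (nat_lit 264) (nat_lit 225))))) (XT.nd (nat_lit 234) (nat_lit 608) (nat_lit 0) (XT.nd (nat_lit 78) (nat_lit 532) (nat_lit 0)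 (XT.lf (nat_lit 0) (nat_lit 1587322281) (nat_lit 760) (nat_lit 6086586139) (nat_lit 76) (nat_lit 581798611) (nat_lit 137) (nat_lit 5) (nat_lit 147) (nat_lit 5) (nat_lit 138) (nat_lit 5) (nat_lit 292) (nat_lit 264) (nat_lit 224)) (XT.nd (nat_lit 78) (nat_lit 532) (nat_lit 0) (XT.lf (nat_lit 0) (nat_lit 3516377347) (nat_lit 760) (nat_lit 1871460735) (nat_lit 76) (nat_lit 2979802172) (nat_lit 137) (nat_lit 5) (nat_lit 147) (nat_lit 5) (nat_lit 138) (nat_lit 5) (nat_lit 293) (nat_lit 264) (nat_lit 223)) (XT.lf (nat_lit 0) (nat_lit 2472005972) (nat_lit 532) (nat_lit 3007590458) (nat_lit 608) (nat_lit 3004167953) (nat_lit 130) (nat_lit 5) (nat_lit 137) (nat_lit 5) (nat_lit 138) (nat_lit 5) (nat_lit 294) (nat_lit 264) (nat_lit 222)))) (XT.nd (nat_lit 78) (nat_lit 608) (nat_lit 0) (XT.lf (nat_lit 0) (nat_lit 6938244006) (nat_lit 532) (nat_lit 535837541) (nat_lit 608) (nat_lit 1130237743) (nat_lit 130)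 (nat_lit 5) (nat_lit 137) (nat_lit 5) (nat_lit 138) (nat_lit 5) (nat_lit 295) (nat_lit 264) (nat_lit 221)) (XT.nd (nat_lit 78) (nat_lit 0) (nat_lit 0) (XT.lf (nat_lit 0) (nat_lit 785261846) (nat_lit 608) (nat_lit 5937027442) (nat_lit 76) (nat_lit 2006053413) (nat_lit 122) (nat_lit 5) (nat_lit 130) (nat_lit 5) (nat_lit 123) (nat_lit 5) (nat_lit 296) (nat_lit 264) (nat_lit 220)) (XT.lf (nat_lit 0) (nat_lit 2712967925) (nat_lit 608) (nat_lit 1502248000) (nat_lit 76) (nat_lit 4641319542) (nat_lit 122) (nat_lit 5) (nat_lit 130) (nat_lit 5) (nat_lit 123) (nat_lit 5) (nat_lit 297) (nat_lit 264) (nat_lit 219))))))))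
noncomputable def xc123 : XT := (XT.nd (nat_lit 1716) (nat_lit 2432) (nat_lit 0) (XT.nd (nat_lit 858) (nat_lit 1824) (nat_lit 0) (XT.nd (nat_lit 390) (nat_lit 1292) (nat_lit 0) (XT.nd (nat_lit 156) (nat_lit 988) (nat_lit 0) (XT.nd (nat_lit 78) (nat_lit 0) (nat_lit 0) (XT.lf (nat_lit 0) (nat_lit 3080458510) (nat_lit 456) (nat_lit 1604126052) (nat_lit 532) (nat_lit 4304512034) (nat_lit 116) (nat_lit 5) (nat_lit 122) (nat_lit 5) (nat_lit 123) (nat_lit 5) (nat_lit 298) (nat_lit 264) (nat_lit 218)) (XT.lf (nat_lit 0) (nat_lit 6698387662) (nat_lit 532) (nat_lit 1350467775) (nat_lit 76) (nat_lit 1077389891) (nat_lit 116) (nat_lit 5) (nat_lit 123) (nat_lit 5) (nat_lit 117) (nat_lit 5) (nat_lit 299) (nat_lit 264) (nat_lit 217))) (XT.nd (nat_lit 78) (nat_lit 532) (nat_lit 0) (XT.lf (nat_lit 0) (nat_lit 3349116195) (nat_lit 456) (nat_lit 5430094431) (nat_lit 532) (nat_lit 488198655) (nat_lit 110) (nat_lit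 5) (nat_lit 116) (nat_lit 5) (nat_lit 117) (nat_lit 5) (nat_lit 300) (nat_lit 264) (nat_lit 216)) (XT.nd (nat_lit 78) (nat_lit 456) (nat_lit 0) (XT.lf (nat_lit 0) (nat_lit 1452777484) (nat_lit 532) (nat_lit 1254950831) (nat_lit 76) (nat_lit 6705560166) (nat_lit 109) (nat_lit 5) (nat_lit 116) (nat_lit 5) (nat_lit 110) (nat_lit 5) (nat_lit 301) (nat_lit 264) (nat_lit 215)) (XT.lf (nat_lit 0) (nat_lit 3437768153) (nat_lit 532) (nat_lit 5995787421) (nat_lit 76) (nat_lit 130066086) (nat_lit 103) (nat_lit 5) (nat_lit 110) (nat_lit 5) (nat_lit 104) (nat_lit 5) (nat_lit 302) (nat_lit 264) (nat_lit 214))))) (XT.nd (nat_lit 234) (nat_lit 836) (nat_lit 0) (XT.nd (nat_lit 78) (nat_lit 456) (nat_lit 0) (XT.lf (nat_lit 0) (nat_lit 5482634364) (nat_lit 532) (nat_lit 1228741468) (nat_lit 76) (nat_lit 3007167132) (nat_lit 103) (nat_lit 5) (nat_lit 110) (nat_lit 5) (nat_lit 104) (nat_lit 5) (nat_lit 303) (nat_lit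 264) (nat_lit 213)) (XT.nd (nat_lit 78) (nat_lit 0) (nat_lit 0) (XT.lf (nat_lit 0) (nat_lit 3710269724) (nat_lit 456) (nat_lit 3876104954) (nat_lit 532) (nat_lit 2291896731) (nat_lit 97) (nat_lit 5) (nat_lit 103) (nat_lit 5) (nat_lit 104) (nat_lit 5) (nat_lit 304) (nat_lit 264) (nat_lit 212)) (XT.lf (nat_lit 0) (nat_lit 8779618332) (nat_lit 456) (nat_lit 948576733) (nat_lit 532) (nat_lit 315430463) (nat_lit 97) (nat_lit 5) (nat_lit 103) (nat_lit 5) (nat_lit 104) (nat_lit 5) (nat_lit 305) (nat_lit 264) (nat_lit 211)))) (XT.nd (nat_lit 78) (nat_lit 380) (nat_lit 0) (XT.lf (nat_lit 0) (nat_lit 1706857679) (nat_lit 456) (nat_lit 6431680044) (nat_lit 76) (nat_lit 2074381611) (nat_lit 91) (nat_lit 5) (nat_lit 97) (nat_lit 5) (nat_lit 92) (nat_lit 5) (nat_lit 306) (nat_lit 264) (nat_lit 210)) (XT.nd (nat_lit 78) (nat_lit 380) (nat_lit 0) (XT.lf (nat_lit 0) (nat_lit 3769576728) (nat_lit 456) (nat_lit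 1439058402) (nat_lit 76) (nat_lit 5179055897) (nat_lit 91) (nat_lit 5) (nat_lit 97) (nat_lit 5) (nat_lit 92) (nat_lit 5) (nat_lit 307) (nat_lit 264) (nat_lit 209)) (XT.lf (nat_lit 0) (nat_lit 3734207643) (nat_lit 380) (nat_lit 2160738865) (nat_lit 456) (nat_lit 4672809906) (nat_lit 86) (nat_lit 5) (nat_lit 91) (nat_lit 5) (nat_lit 92) (nat_lit 5) (nat_lit 308) (nat_lit 264) (nat_lit 208)))))) (XT.nd (nat_lit 390) (nat_lit 988) (nat_lit 0) (XT.nd (nat_lit 156) (nat_lit 456) (nat_lit 0) (XT.nd (nat_lit 78) (nat_lit 380) (nat_lit 0) (XT.lf (nat_lit 0) (nat_lit 8073588626) (nat_lit 456) (nat_lit 1712796321) (nat_lit 76) (nat_lit 967224953) (nat_lit 86) (nat_lit 5) (nat_lit 92) (nat_lit 5) (nat_lit 87) (nat_lit 5) (nat_lit 309) (nat_lit 264) (nat_lit 207)) (XT.lf (nat_lit 0) (nat_lit 3568431068) (nat_lit 380) (nat_lit 6771290112) (nat_lit 456) (nat_lit 604723267) (nat_lit 81) (nat_lit 5) (nat_lit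 86) (nat_lit 5) (nat_lit 87) (nat_lit 5) (nat_lit 310) (nat_lit 264) (nat_lit 206))) (XT.nd (nat_lit 78) (nat_lit 380) (nat_lit 0) (XT.lf (nat_lit 0) (nat_lit 1487016545) (nat_lit 456) (nat_lit 2153895981) (nat_lit 76) (nat_lit 7500192058) (nat_lit 80) (nat_lit 5) (nat_lit 86) (nat_lit 5) (nat_lit 81) (nat_lit 5) (nat_lit 311) (nat_lit 264) (nat_lit 205)) (XT.nd (nat_lit 78) (nat_lit 0) (nat_lit 0) (XT.lf (nat_lit 0) (nat_lit 3241657916) (nat_lit 380) (nat_lit 386455971) (nat_lit 456) (nat_lit 7715471731) (nat_lit 75) (nat_lit 5) (nat_lit 80) (nat_lit 5) (nat_lit 81) (nat_lit 5) (nat_lit 312) (nat_lit 264) (nat_lit 204)) (XT.lf (nat_lit 0) (nat_lit 5851994891) (nat_lit 456) (nat_lit 2778016874) (nat_lit 76) (nat_lit 2921634449) (nat_lit 75) (nat_lit 5) (nat_lit 81) (nat_lit 5) (nat_lit 76) (nat_lit 5) (nat_lit 313) (nat_lit 264) (nat_lit 203))))) (XT.nd (nat_lit 234) (nat_lit 304) (nat_lit 0)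 (XT.nd (nat_lit 78) (nat_lit 380) (nat_lit 0) (XT.lf (nat_lit 0) (nat_lit 2714921478) (nat_lit 304) (nat_lit 5426602180) (nat_lit 380) (nat_lit 3624516890) (nat_lit 71) (nat_lit 5) (nat_lit 75) (nat_lit 5) (nat_lit 76) (nat_lit 5) (nat_lit 314) (nat_lit 264) (nat_lit 202)) (XT.nd (nat_lit 78) (nat_lit 380) (nat_lit 0) (XT.lf (nat_lit 0) (nat_lit 8390143806) (nat_lit 304) (nat_lit 2107178022) (nat_lit 380) (nat_lit 1489675491) (nat_lit 71) (nat_lit 5) (nat_lit 75) (nat_lit 5) (nat_lit 76) (nat_lit 5) (nat_lit 315) (nat_lit 264) (nat_lit 201)) (XT.lf (nat_lit 0) (nat_lit 697590144) (nat_lit 380) (nat_lit 10212950385) (nat_lit 76) (nat_lit 1303825975) (nat_lit 66) (nat_lit 5) (nat_lit 71) (nat_lit 5) (nat_lit 67) (nat_lit 5) (nat_lit 316) (nat_lit 264) (nat_lit 200)))) (XT.nd (nat_lit 78) (nat_lit 304) (nat_lit 0) (XT.lf (nat_lit 0) (nat_lit 2948560040) (nat_lit 380) (nat_lit 4681491815) (nat_lit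 76) (nat_lit 4817274796) (nat_lit 66) (nat_lit 5) (nat_lit 71) (nat_lit 5) (nat_lit 67) (nat_lit 5) (nat_lit 317) (nat_lit 264) (nat_lit 199)) (XT.nd (nat_lit 78) (nat_lit 0) (nat_lit 0) (XT.lf (nat_lit 0) (nat_lit 997097104) (nat_lit 304) (nat_lit 4250889705) (nat_lit 380) (nat_lit 7439912596) (nat_lit 62) (nat_lit 5) (nat_lit 66) (nat_lit 5) (nat_lit 67) (nat_lit 5) (nat_lit 318) (nat_lit 264) (nat_lit 198)) (XT.lf (nat_lit 0) (nat_lit 6904114521) (nat_lit 304) (nat_lit 731369212) (nat_lit 380) (nat_lit 5299683117) (nat_lit 62) (nat_lit 5) (nat_lit 66) (nat_lit 5) (nat_lit 67) (nat_lit 5) (nat_lit 319) (nat_lit 264) (nat_lit 197))))))) (XT.nd (nat_lit 858) (nat_lit 988) (nat_lit 0) (XT.nd (nat_lit 390) (nat_lit 836) (nat_lit 0) (XT.nd (nat_lit 156) (nat_lit 304) (nat_lit 0) (XT.nd (nat_lit 78) (nat_lit 304) (nat_lit 0) (XT.lf (nat_lit 0) (nat_lit 10094965759) (nat_lit 380) (nat_lit 266896678)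 (nat_lit 76) (nat_lit 2828027745) (nat_lit 62) (nat_lit 5) (nat_lit 67) (nat_lit 5) (nat_lit 63) (nat_lit 5) (nat_lit 320) (nat_lit 264) (nat_lit 196)) (XT.lf (nat_lit 0) (nat_lit 5738443906) (nat_lit 304) (nat_lit 6925534572) (nat_lit 380) (nat_lit 787251603) (nat_lit 58) (nat_lit 5) (nat_lit 62) (nat_lit 5) (nat_lit 63) (nat_lit 5) (nat_lit 321) (nat_lit 264) (nat_lit 195))) (XT.nd (nat_lit 78) (nat_lit 228) (nat_lit 0) (XT.lf (nat_lit 0) (nat_lit 1534821464) (nat_lit 380) (nat_lit 1842912014) (nat_lit 76) (nat_lit 10342977121) (nat_lit 57) (nat_lit 5) (nat_lit 62) (nat_lit 5) (nat_lit 58) (nat_lit 5) (nat_lit 322) (nat_lit 264) (nat_lit 194)) (XT.nd (nat_lit 78) (nat_lit 0) (nat_lit 0) (XT.lf (nat_lit 0) (nat_lit 3928799425) (nat_lit 304) (nat_lit 9758251966) (nat_lit 76) (nat_lit 310491577) (nat_lit 54) (nat_lit 5) (nat_lit 58) (nat_lit 5) (nat_lit 55) (nat_lit 5) (nat_lit 323) (nat_lit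 264) (nat_lit 193)) (XT.lf (nat_lit 0) (nat_lit 6421390320) (nat_lit 304) (nat_lit 3809991410) (nat_lit 76) (nat_lit 4050536754) (nat_lit 54) (nat_lit 5) (nat_lit 58) (nat_lit 5) (nat_lit 55) (nat_lit 5) (nat_lit 324) (nat_lit 264) (nat_lit 192))))) (XT.nd (nat_lit 234) (nat_lit 304) (nat_lit 0) (XT.nd (nat_lit 78) (nat_lit 228) (nat_lit 0) (XT.lf (nat_lit 0) (nat_lit 2327196684) (nat_lit 304) (nat_lit 6659230401) (nat_lit 380) (nat_lit 5588508897) (nat_lit 50) (nat_lit 5) (nat_lit 54) (nat_lit 5) (nat_lit 55) (nat_lit 5) (nat_lit 325) (nat_lit 264) (nat_lit 191)) (XT.nd (nat_lit 78) (nat_lit 228) (nat_lit 0) (XT.lf (nat_lit 0) (nat_lit 8692011718) (nat_lit 304) (nat_lit 2950561371) (nat_lit 380) (nat_lit 3233785747) (nat_lit 50) (nat_lit 5) (nat_lit 54) (nat_lit 5) (nat_lit 55) (nat_lit 5) (nat_lit 326) (nat_lit 264) (nat_lit 190)) (XT.lf (nat_lit 0) (nat_lit 18722201) (nat_lit 228) (nat_lit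 14344515150) (nat_lit 304) (nat_lit 824080426) (nat_lit 47) (nat_lit 5) (nat_lit 50) (nat_lit 5) (nat_lit 51) (nat_lit 5) (nat_lit 327) (nat_lit 264) (nat_lit 189)))) (XT.nd (nat_lit 78) (nat_lit 228) (nat_lit 0) (XT.lf (nat_lit 0) (nat_lit 1694239617) (nat_lit 304) (nat_lit 9051247512) (nat_lit 76) (nat_lit 4759616203) (nat_lit 46) (nat_lit 5) (nat_lit 50) (nat_lit 5) (nat_lit 47) (nat_lit 5) (nat_lit 328) (nat_lit 264) (nat_lit 188)) (XT.nd (nat_lit 78) (nat_lit 228) (nat_lit 0) (XT.lf (nat_lit 0) (nat_lit 4248627521) (nat_lit 304) (nat_lit 2791939648) (nat_lit 76) (nat_lit 8792333224) (nat_lit 46) (nat_lit 5) (nat_lit 50) (nat_lit 5) (nat_lit 47) (nat_lit 5) (nat_lit 329) (nat_lit 264) (nat_lit 187)) (XT.lf (nat_lit 0) (nat_lit 3694818085) (nat_lit 228) (nat_lit 3198094819) (nat_lit 304) (nat_lit 9277254623) (nat_lit 43) (nat_lit 5) (nat_lit 46) (nat_lit 5) (nat_lit 47) (nat_lit 5) (nat_lit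 330) (nat_lit 264) (nat_lit 186)))))) (XT.nd (nat_lit 468) (nat_lit 456) (nat_lit 0) (XT.nd (nat_lit 234) (nat_lit 304) (nat_lit 0) (XT.nd (nat_lit 78) (nat_lit 228) (nat_lit 0) (XT.lf (nat_lit 0) (nat_lit 9630291714) (nat_lit 304) (nat_lit 6123580779) (nat_lit 76) (nat_lit 763300379) (nat_lit 43) (nat_lit 5) (nat_lit 47) (nat_lit 5) (nat_lit 44) (nat_lit 5) (nat_lit 331) (nat_lit 264) (nat_lit 185)) (XT.nd (nat_lit 78) (nat_lit 0) (nat_lit 0) (XT.lf (nat_lit 0) (nat_lit 362397744) (nat_lit 228) (nat_lit 12101173464) (nat_lit 304) (nat_lit 4410635965) (nat_lit 40) (nat_lit 5) (nat_lit 43) (nat_lit 5) (nat_lit 44) (nat_lit 5) (nat_lit 332) (nat_lit 264) (nat_lit 184)) (XT.lf (nat_lit 0) (nat_lit 7137043727) (nat_lit 228) (nat_lit 8285593121) (nat_lit 304) (nat_lit 1818123264) (nat_lit 40) (nat_lit 5) (nat_lit 43) (nat_lit 5) (nat_lit 44) (nat_lit 5) (nat_lit 333) (nat_lit 264) (nat_lit 183))))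 (XT.nd (nat_lit 78) (nat_lit 228) (nat_lit 0) (XT.lf (nat_lit 0) (nat_lit 814868605) (nat_lit 304) (nat_lit 3542536438) (nat_lit 76) (nat_lit 13261308317) (nat_lit 39) (nat_lit 5) (nat_lit 43) (nat_lit 5) (nat_lit 40) (nat_lit 5) (nat_lit 334) (nat_lit 264) (nat_lit 182)) (XT.nd (nat_lit 78) (nat_lit 0) (nat_lit 0) (XT.lf (nat_lit 0) (nat_lit 3230452974) (nat_lit 228) (nat_lit 270842426) (nat_lit 304) (nat_lit 14505868730) (nat_lit 36) (nat_lit 5) (nat_lit 39) (nat_lit 5) (nat_lit 40) (nat_lit 5) (nat_lit 335) (nat_lit 264) (nat_lit 181)) (XT.lf (nat_lit 0) (nat_lit 6322436076) (nat_lit 304) (nat_lit 8195448741) (nat_lit 76) (nat_lit 3887787728) (nat_lit 36) (nat_lit 5) (nat_lit 40) (nat_lit 5) (nat_lit 37) (nat_lit 5) (nat_lit 336) (nat_lit 264) (nat_lit 180))))) (XT.nd (nat_lit 234) (nat_lit 304) (nat_lit 0) (XT.nd (nat_lit 78) (nat_lit 152) (nat_lit 0) (XT.lf (nat_lit 0) (nat_lit 9211607832)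 (nat_lit 304) (nat_lit 1448840153) (nat_lit 76) (nat_lit 8156213270) (nat_lit 36) (nat_lit 5) (nat_lit 40) (nat_lit 5) (nat_lit 37) (nat_lit 5) (nat_lit 337) (nat_lit 264) (nat_lit 179)) (XT.nd (nat_lit 78) (nat_lit 0) (nat_lit 0) (XT.lf (nat_lit 0) (nat_lit 5580509037) (nat_lit 152) (nat_lit 6641865913) (nat_lit 228) (nat_lit 7016583234) (nat_lit 34) (nat_lit 5) (nat_lit 36) (nat_lit 5) (nat_lit 37) (nat_lit 5) (nat_lit 338) (nat_lit 264) (nat_lit 178)) (XT.lf (nat_lit 0) (nat_lit 12822164955) (nat_lit 152) (nat_lit 2497481062) (nat_lit 228) (nat_lit 4354417974) (nat_lit 34) (nat_lit 5) (nat_lit 36) (nat_lit 5) (nat_lit 37) (nat_lit 5) (nat_lit 339) (nat_lit 264) (nat_lit 177)))) (XT.nd (nat_lit 78) (nat_lit 76) (nat_lit 0) (XT.lf (nat_lit 0) (nat_lit 116167842) (nat_lit 228) (nat_lit 18393806421) (nat_lit 304) (nat_lit 1612269200) (nat_lit 31) (nat_lit 5) (nat_lit 34) (nat_lit 5) (nat_lit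 35) (nat_lit 5) (nat_lit 340) (nat_lit 264) (nat_lit 176)) (XT.nd (nat_lit 78) (nat_lit 0) (nat_lit 0) (XT.lf (nat_lit 0) (nat_lit 1265149705) (nat_lit 304) (nat_lit 13213150154) (nat_lit 76) (nat_lit 6102942380) (nat_lit 30) (nat_lit 5) (nat_lit 34) (nat_lit 5) (nat_lit 31) (nat_lit 5) (nat_lit 341) (nat_lit 264) (nat_lit 175)) (XT.lf (nat_lit 0) (nat_lit 4179064443) (nat_lit 304) (nat_lit 6259610696) (nat_lit 76) (nat_lit 10615402167) (nat_lit 30) (nat_lit 5) (nat_lit 34) (nat_lit 5) (nat_lit 31) (nat_lit 5) (nat_lit 342) (nat_lit 264) (nat_lit 174))))))))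
noncomputable def xc124 : XT := (XT.nd (nat_lit 1716) (nat_lit 608) (nat_lit 0) (XT.nd (nat_lit 858) (nat_lit 380) (nat_lit 0) (XT.nd (nat_lit 390) (nat_lit 380) (nat_lit 0) (XT.nd (nat_lit 156) (nat_lit 152) (nat_lit 0) (XT.nd (nat_lit 78) (nat_lit 0) (nat_lit 0) (XT.lf (nat_lit 0) (nat_lit 893553219) (nat_lit 152) (nat_lit 6278518494) (nat_lit 228) (nat_lit 14369297372) (nat_lit 28) (nat_lit 5) (nat_lit 30) (nat_lit 5) (nat_lit 31) (nat_lit 5) (nat_lit 343) (nat_lit 264) (nat_lit 173)) (XT.lf (nat_lit 0) (nat_lit 8363468768) (nat_lit 152) (nat_lit 1937937126) (nat_lit 228) (nat_lit 11740498893) (nat_lit 28) (nat_lit 5) (nat_lit 30) (nat_lit 5) (nat_lit 31) (nat_lit 5) (nat_lit 344) (nat_lit 264) (nat_lit 172))) (XT.nd (nat_lit 78) (nat_lit 152) (nat_lit 0) (XT.lf (nat_lit 0) (nat_lit 13532691512) (nat_lit 228) (nat_lit 6550137190) (nat_lit 76) (nat_lit 2474406370) (nat_lit 28) (nat_lit 5)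 (nat_lit 31) (nat_lit 5) (nat_lit 29) (nat_lit 5) (nat_lit 345) (nat_lit 264) (nat_lit 171)) (XT.nd (nat_lit 78) (nat_lit 0) (nat_lit 0) (XT.lf (nat_lit 0) (nat_lit 762641895) (nat_lit 152) (nat_lit 16108990331) (nat_lit 228) (nat_lit 6216091595) (nat_lit 26) (nat_lit 5) (nat_lit 28) (nat_lit 5) (nat_lit 29) (nat_lit 5) (nat_lit 346) (nat_lit 264) (nat_lit 170)) (XT.lf (nat_lit 0) (nat_lit 8404258358) (nat_lit 152) (nat_lit 11957046090) (nat_lit 228) (nat_lit 3271325353) (nat_lit 26) (nat_lit 5) (nat_lit 28) (nat_lit 5) (nat_lit 29) (nat_lit 5) (nat_lit 347) (nat_lit 264) (nat_lit 169))))) (XT.nd (nat_lit 234) (nat_lit 152) (nat_lit 0) (XT.nd (nat_lit 78) (nat_lit 228) (nat_lit 0) (XT.lf (nat_lit 0) (nat_lit 16251028765) (nat_lit 152) (nat_lit 7689511610) (nat_lit 228) (nat_lit 253815280) (nat_lit 26) (nat_lit 5) (nat_lit 28) (nat_lit 5) (nat_lit 29) (nat_lit 5) (nat_lit 348) (nat_lit 264) (nat_lit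 168)) (XT.nd (nat_lit 78) (nat_lit 152) (nat_lit 0) (XT.lf (nat_lit 0) (nat_lit 2783674696) (nat_lit 228) (nat_lit 490873623) (nat_lit 76) (nat_lit 21498025165) (nat_lit 25) (nat_lit 5) (nat_lit 28) (nat_lit 5) (nat_lit 26) (nat_lit 5) (nat_lit 349) (nat_lit 264) (nat_lit 167)) (XT.lf (nat_lit 0) (nat_lit 5975836299) (nat_lit 228) (nat_lit 18077164085) (nat_lit 76) (nat_lit 1313019917) (nat_lit 23) (nat_lit 5) (nat_lit 26) (nat_lit 5) (nat_lit 24) (nat_lit 5) (nat_lit 350) (nat_lit 264) (nat_lit 166)))) (XT.nd (nat_lit 78) (nat_lit 152) (nat_lit 0) (XT.lf (nat_lit 0) (nat_lit 9286891597) (nat_lit 228) (nat_lit 10720702637) (nat_lit 76) (nat_lit 5968999218) (nat_lit 23) (nat_lit 5) (nat_lit 26) (nat_lit 5) (nat_lit 24) (nat_lit 5) (nat_lit 351) (nat_lit 264) (nat_lit 165)) (XT.nd (nat_lit 78) (nat_lit 152) (nat_lit 0) (XT.lf (nat_lit 0) (nat_lit 12683396647) (nat_lit 228) (nat_lit 3166023901)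 (nat_lit 76) (nat_lit 10756496010) (nat_lit 23) (nat_lit 5) (nat_lit 26) (nat_lit 5) (nat_lit 24) (nat_lit 5) (nat_lit 352) (nat_lit 264) (nat_lit 164)) (XT.lf (nat_lit 0) (nat_lit 4684892424) (nat_lit 152) (nat_lit 11528460896) (nat_lit 228) (nat_lit 11039835171) (nat_lit 21) (nat_lit 5) (nat_lit 23) (nat_lit 5) (nat_lit 24) (nat_lit 5) (nat_lit 353) (nat_lit 264) (nat_lit 163)))))) (XT.nd (nat_lit 390) (nat_lit 228) (nat_lit 0) (XT.nd (nat_lit 156) (nat_lit 152) (nat_lit 0) (XT.nd (nat_lit 78) (nat_lit 0) (nat_lit 0) (XT.lf (nat_lit 0) (nat_lit 12814628668) (nat_lit 152) (nat_lit 7053257923) (nat_lit 228) (nat_lit 8051447023) (nat_lit 21) (nat_lit 5) (nat_lit 23) (nat_lit 5) (nat_lit 24) (nat_lit 5) (nat_lit 354) (nat_lit 264) (nat_lit 162)) (XT.lf (nat_lit 0) (nat_lit 21167278400) (nat_lit 152) (nat_lit 2451871890) (nat_lit 228) (nat_lit 4986714887) (nat_lit 21) (nat_lit 5) (nat_lit 23) (nat_lit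 5) (nat_lit 24) (nat_lit 5) (nat_lit 355) (nat_lit 264) (nat_lit 161))) (XT.nd (nat_lit 78) (nat_lit 76) (nat_lit 0) (XT.lf (nat_lit 0) (nat_lit 423099131) (nat_lit 76) (nat_lit 27073304220) (nat_lit 152) (nat_lit 1816200279) (nat_lit 20) (nat_lit 5) (nat_lit 21) (nat_lit 5) (nat_lit 22) (nat_lit 4) (nat_lit 356) (nat_lit 264) (nat_lit 160)) (XT.nd (nat_lit 78) (nat_lit 0) (nat_lit 0) (XT.lf (nat_lit 0) (nat_lit 1508709329) (nat_lit 152) (nat_lit 21424867597) (nat_lit 76) (nat_lit 7103936086) (nat_lit 19) (nat_lit 5) (nat_lit 21) (nat_lit 5) (nat_lit 20) (nat_lit 5) (nat_lit 357) (nat_lit 264) (nat_lit 159)) (XT.lf (nat_lit 0) (nat_lit 4884656908) (nat_lit 152) (nat_lit 13774413273) (nat_lit 76) (nat_lit 12124939449) (nat_lit 19) (nat_lit 5) (nat_lit 21) (nat_lit 5) (nat_lit 20) (nat_lit 5) (nat_lit 358) (nat_lit 264) (nat_lit 158))))) (XT.nd (nat_lit 234) (nat_lit 76) (nat_lit 0) (XT.nd (nat_lit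 78) (nat_lit 152) (nat_lit 0) (XT.lf (nat_lit 0) (nat_lit 8350032923) (nat_lit 152) (nat_lit 5913998237) (nat_lit 76) (nat_lit 17289238358) (nat_lit 19) (nat_lit 5) (nat_lit 21) (nat_lit 5) (nat_lit 20) (nat_lit 5) (nat_lit 359) (nat_lit 264) (nat_lit 157)) (XT.nd (nat_lit 78) (nat_lit 0) (nat_lit 0) (XT.lf (nat_lit 0) (nat_lit 2206298669) (nat_lit 152) (nat_lit 9722774995) (nat_lit 228) (nat_lit 20416254930) (nat_lit 17) (nat_lit 5) (nat_lit 19) (nat_lit 5) (nat_lit 20) (nat_lit 5) (nat_lit 360) (nat_lit 264) (nat_lit 156)) (XT.lf (nat_lit 0) (nat_lit 10672638345) (nat_lit 152) (nat_lit 4991216624) (nat_lit 228) (nat_lit 17495855524) (nat_lit 17) (nat_lit 5) (nat_lit 19) (nat_lit 5) (nat_lit 20) (nat_lit 5) (nat_lit 361) (nat_lit 264) (nat_lit 155)))) (XT.nd (nat_lit 78) (nat_lit 76) (nat_lit 0) (XT.lf (nat_lit 0) (nat_lit 19374718403) (nat_lit 152) (nat_lit 124941461) (nat_lit 228) (nat_lit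 14499206359) (nat_lit 17) (nat_lit 5) (nat_lit 19) (nat_lit 5) (nat_lit 20) (nat_lit 5) (nat_lit 362) (nat_lit 264) (nat_lit 154)) (XT.nd (nat_lit 78) (nat_lit 76) (nat_lit 0) (XT.lf (nat_lit 0) (nat_lit 23486752478) (nat_lit 228) (nat_lit 6590298879) (nat_lit 76) (nat_lit 4785070296) (nat_lit 17) (nat_lit 5) (nat_lit 20) (nat_lit 5) (nat_lit 18) (nat_lit 4) (nat_lit 363) (nat_lit 264) (nat_lit 153)) (XT.lf (nat_lit 0) (nat_lit 1699023141) (nat_lit 76) (nat_lit 25901551048) (nat_lit 152) (nat_lit 8150498169) (nat_lit 16) (nat_lit 5) (nat_lit 17) (nat_lit 5) (nat_lit 18) (nat_lit 4) (nat_lit 364) (nat_lit 264) (nat_lit 152))))))) (XT.nd (nat_lit 858) (nat_lit 304) (nat_lit 0) (XT.nd (nat_lit 390) (nat_lit 76) (nat_lit 0) (XT.nd (nat_lit 156) (nat_lit 228) (nat_lit 0) (XT.nd (nat_lit 78) (nat_lit 0) (nat_lit 0) (XT.lf (nat_lit 0) (nat_lit 10354831253) (nat_lit 76) (nat_lit 21539213886) (nat_lit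 152) (nat_lit 4770970187) (nat_lit 16) (nat_lit 5) (nat_lit 17) (nat_lit 5) (nat_lit 18) (nat_lit 4) (nat_lit 365) (nat_lit 264) (nat_lit 151)) (XT.lf (nat_lit 0) (nat_lit 19253528914) (nat_lit 76) (nat_lit 17052777216) (nat_lit 152) (nat_lit 1300381339) (nat_lit 16) (nat_lit 5) (nat_lit 17) (nat_lit 5) (nat_lit 18) (nat_lit 4) (nat_lit 366) (nat_lit 264) (nat_lit 150))) (XT.nd (nat_lit 78) (nat_lit 152) (nat_lit 0) (XT.lf (nat_lit 0) (nat_lit 2220116259) (nat_lit 152) (nat_lit 10195785771) (nat_lit 76) (nat_lit 26160356605) (nat_lit 15) (nat_lit 5) (nat_lit 17) (nat_lit 5) (nat_lit 16) (nat_lit 5) (nat_lit 367) (nat_lit 264) (nat_lit 149)) (XT.nd (nat_lit 78) (nat_lit 152) (nat_lit 0) (XT.lf (nat_lit 0) (nat_lit 5810550042) (nat_lit 152) (nat_lit 1822587537) (nat_lit 76) (nat_lit 31941688951) (nat_lit 15) (nat_lit 5) (nat_lit 17) (nat_lit 5) (nat_lit 16) (nat_lit 5) (nat_lit 368) (nat_lit 264)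 (nat_lit 148)) (XT.lf (nat_lit 0) (nat_lit 6921312324) (nat_lit 152) (nat_lit 2644651970) (nat_lit 228) (nat_lit 31035678445) (nat_lit 13) (nat_lit 5) (nat_lit 15) (nat_lit 5) (nat_lit 16) (nat_lit 5) (nat_lit 369) (nat_lit 264) (nat_lit 147))))) (XT.nd (nat_lit 234) (nat_lit 76) (nat_lit 0) (XT.nd (nat_lit 78) (nat_lit 0) (nat_lit 0) (XT.lf (nat_lit 0) (nat_lit 13467393881) (nat_lit 228) (nat_lit 25733596715) (nat_lit 76) (nat_lit 2457281274) (nat_lit 13) (nat_lit 5) (nat_lit 16) (nat_lit 5) (nat_lit 14) (nat_lit 4) (nat_lit 370) (nat_lit 264) (nat_lit 146)) (XT.nd (nat_lit 78) (nat_lit 0) (nat_lit 0) (XT.lf (nat_lit 0) (nat_lit 17503116263) (nat_lit 228) (nat_lit 17589815292) (nat_lit 76) (nat_lit 7653159591) (nat_lit 13) (nat_lit 5) (nat_lit 16) (nat_lit 5) (nat_lit 14) (nat_lit 4) (nat_lit 371) (nat_lit 264) (nat_lit 145)) (XT.lf (nat_lit 0) (nat_lit 21651235785) (nat_lit 228) (nat_lit 9216448206)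 (nat_lit 76) (nat_lit 12999129751) (nat_lit 13) (nat_lit 5) (nat_lit 16) (nat_lit 5) (nat_lit 14) (nat_lit 4) (nat_lit 372) (nat_lit 264) (nat_lit 144)))) (XT.nd (nat_lit 78) (nat_lit 76) (nat_lit 0) (XT.lf (nat_lit 0) (nat_lit 25915377018) (nat_lit 228) (nat_lit 606178923) (nat_lit 76) (nat_lit 18499862992) (nat_lit 13) (nat_lit 5) (nat_lit 16) (nat_lit 5) (nat_lit 14) (nat_lit 4) (nat_lit 373) (nat_lit 264) (nat_lit 143)) (XT.nd (nat_lit 78) (nat_lit 0) (nat_lit 0) (XT.lf (nat_lit 0) (nat_lit 8412677735) (nat_lit 76) (nat_lit 21967455982) (nat_lit 152) (nat_lit 15828355849) (nat_lit 12) (nat_lit 5) (nat_lit 13) (nat_lit 5) (nat_lit 14) (nat_lit 4) (nat_lit 374) (nat_lit 264) (nat_lit 142)) (XT.lf (nat_lit 0) (nat_lit 17700779923) (nat_lit 76) (nat_lit 17276103849) (nat_lit 152) (nat_lit 12454354809) (nat_lit 12) (nat_lit 5) (nat_lit 13) (nat_lit 5) (nat_lit 14) (nat_lit 4) (nat_lit 375) (nat_lit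 264) (nat_lit 141)))))) (XT.nd (nat_lit 468) (nat_lit 76) (nat_lit 0) (XT.nd (nat_lit 234) (nat_lit 228) (nat_lit 0) (XT.nd (nat_lit 78) (nat_lit 0) (nat_lit 0) (XT.lf (nat_lit 0) (nat_lit 27254179309) (nat_lit 76) (nat_lit 12449521525) (nat_lit 152) (nat_lit 8987211861) (nat_lit 12) (nat_lit 5) (nat_lit 13) (nat_lit 5) (nat_lit 14) (nat_lit 4) (nat_lit 376) (nat_lit 264) (nat_lit 140)) (XT.nd (nat_lit 78) (nat_lit 0) (nat_lit 0) (XT.lf (nat_lit 0) (nat_lit 37081223523) (nat_lit 76) (nat_lit 7483491605) (nat_lit 152) (nat_lit 5423897460) (nat_lit 12) (nat_lit 5) (nat_lit 13) (nat_lit 5) (nat_lit 14) (nat_lit 4) (nat_lit 377) (nat_lit 264) (nat_lit 139)) (XT.lf (nat_lit 0) (nat_lit 47190499303) (nat_lit 76) (nat_lit 2373674842) (nat_lit 152) (nat_lit 1761298032) (nat_lit 12) (nat_lit 5) (nat_lit 13) (nat_lit 5) (nat_lit 14) (nat_lit 4) (nat_lit 378) (nat_lit 264) (nat_lit 138)))) (XT.nd (nat_lit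 78) (nat_lit 0) (nat_lit 0) (XT.lf (nat_lit 0) (nat_lit 2040810038) (nat_lit 228) (nat_lit 47763219777) (nat_lit 76) (nat_lit 2895768193) (nat_lit 9) (nat_lit 5) (nat_lit 12) (nat_lit 5) (nat_lit 10) (nat_lit 4) (nat_lit 379) (nat_lit 264) (nat_lit 137)) (XT.nd (nat_lit 78) (nat_lit 0) (nat_lit 0) (XT.lf (nat_lit 0) (nat_lit 5980047420) (nat_lit 228) (nat_lit 39802831315) (nat_lit 76) (nat_lit 8330204250) (nat_lit 9) (nat_lit 5) (nat_lit 12) (nat_lit 5) (nat_lit 10) (nat_lit 4) (nat_lit 380) (nat_lit 264) (nat_lit 136)) (XT.lf (nat_lit 0) (nat_lit 10030467895) (nat_lit 228) (nat_lit 31615684961) (nat_lit 76) (nat_lit 13922829809) (nat_lit 9) (nat_lit 5) (nat_lit 12) (nat_lit 5) (nat_lit 10) (nat_lit 4) (nat_lit 381) (nat_lit 264) (nat_lit 135))))) (XT.nd (nat_lit 234) (nat_lit 76) (nat_lit 0) (XT.nd (nat_lit 78) (nat_lit 0) (nat_lit 0) (XT.lf (nat_lit 0) (nat_lit 14195610664) (nat_lit 228) (nat_lit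 23194626895) (nat_lit 76) (nat_lit 19678531631) (nat_lit 9) (nat_lit 5) (nat_lit 12) (nat_lit 5) (nat_lit 10) (nat_lit 4) (nat_lit 382) (nat_lit 264) (nat_lit 134)) (XT.nd (nat_lit 78) (nat_lit 0) (nat_lit 0) (XT.lf (nat_lit 0) (nat_lit 18479115172) (nat_lit 228) (nat_lit 14532298914) (nat_lit 76) (nat_lit 25602338970) (nat_lit 9) (nat_lit 5) (nat_lit 12) (nat_lit 5) (nat_lit 10) (nat_lit 4) (nat_lit 383) (nat_lit 264) (nat_lit 133)) (XT.lf (nat_lit 0) (nat_lit 22884724289) (nat_lit 228) (nat_lit 5621131991) (nat_lit 76) (nat_lit 31699427968) (nat_lit 9) (nat_lit 5) (nat_lit 12) (nat_lit 5) (nat_lit 10) (nat_lit 4) (nat_lit 384) (nat_lit 264) (nat_lit 132)))) (XT.nd (nat_lit 78) (nat_lit 0) (nat_lit 0) (XT.lf (nat_lit 0) (nat_lit 3617245823) (nat_lit 76) (nat_lit 23833812930) (nat_lit 152) (nat_lit 34392651536) (nat_lit 8) (nat_lit 5) (nat_lit 9) (nat_lit 5) (nat_lit 10) (nat_lit 4) (nat_lit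 385) (nat_lit 264) (nat_lit 131)) (XT.nd (nat_lit 78) (nat_lit 0) (nat_lit 0) (XT.lf (nat_lit 0) (nat_lit 13237398053) (nat_lit 76) (nat_lit 18967612561) (nat_lit 152) (nat_lit 31324765138) (nat_lit 8) (nat_lit 5) (nat_lit 9) (nat_lit 5) (nat_lit 10) (nat_lit 4) (nat_lit 386) (nat_lit 264) (nat_lit 130)) (XT.lf (nat_lit 0) (nat_lit 23135859108) (nat_lit 76) (nat_lit 13959765564) (nat_lit 152) (nat_lit 28170982499) (nat_lit 8) (nat_lit 5) (nat_lit 9) (nat_lit 5) (nat_lit 10) (nat_lit 4) (nat_lit 387) (nat_lit 264) (nat_lit 129))))))))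
noncomputable def xc125 : XT := (XT.nd (nat_lit 32136) (nat_lit 0) (nat_lit 7828) (XT.nd (nat_lit 31278) (nat_lit 0) (nat_lit 16720) (XT.nd (nat_lit 390) (nat_lit 76) (nat_lit 0) (XT.nd (nat_lit 156) (nat_lit 76) (nat_lit 0) (XT.nd (nat_lit 78) (nat_lit 0) (nat_lit 0) (XT.lf (nat_lit 0) (nat_lit 33321278129) (nat_lit 76) (nat_lit 8805896151) (nat_lit 152) (nat_lit 24928547887) (nat_lit 8) (nat_lit 5) (nat_lit 9) (nat_lit 5) (nat_lit 10) (nat_lit 4) (nat_lit 388) (nat_lit 264) (nat_lit 128)) (XT.lf (nat_lit 0) (nat_lit 43802554997) (nat_lit 76) (nat_lit 3501500940) (nat_lit 152) (nat_lit 21594628108) (nat_lit 8) (nat_lit 5) (nat_lit 9) (nat_lit 5) (nat_lit 10) (nat_lit 4) (nat_lit 389) (nat_lit 264) (nat_lit 127))) (XT.nd (nat_lit 78) (nat_lit 76) (nat_lit 0) (XT.lf (nat_lit 0) (nat_lit 52649615154) (nat_lit 152) (nat_lit 16227077072) (nat_lit 0) (nat_lit 1919846271) (nat_lit 8) (nat_lit 5) (nat_lit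 10) (nat_lit 4) (nat_lit 8) (nat_lit 4) (nat_lit 390) (nat_lit 264) (nat_lit 126)) (XT.nd (nat_lit 78) (nat_lit 76) (nat_lit 0) (XT.lf (nat_lit 0) (nat_lit 58184880265) (nat_lit 152) (nat_lit 7135895910) (nat_lit 0) (nat_lit 7429676946) (nat_lit 8) (nat_lit 5) (nat_lit 10) (nat_lit 4) (nat_lit 8) (nat_lit 4) (nat_lit 391) (nat_lit 264) (nat_lit 125)) (XT.lf (nat_lit 0) (nat_lit 2263179540) (nat_lit 76) (nat_lit 61639604866) (nat_lit 76) (nat_lit 10859707919) (nat_lit 7) (nat_lit 4) (nat_lit 8) (nat_lit 5) (nat_lit 8) (nat_lit 4) (nat_lit 392) (nat_lit 264) (nat_lit 124))))) (XT.nd (nat_lit 30654) (nat_lit 0) (nat_lit 18240) (XT.nd (nat_lit 78) (nat_lit 76) (nat_lit 0) (XT.lf (nat_lit 0) (nat_lit 12081590469) (nat_lit 76) (nat_lit 57777584767) (nat_lit 76) (nat_lit 6973713423) (nat_lit 7) (nat_lit 4) (nat_lit 8) (nat_lit 5) (nat_lit 8) (nat_lit 4) (nat_lit 393) (nat_lit 264) (nat_lit 123)) (XT.nd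 (nat_lit 78) (nat_lit 76) (nat_lit 0) (XT.lf (nat_lit 0) (nat_lit 22185897750) (nat_lit 76) (nat_lit 53803399853) (nat_lit 76) (nat_lit 2976252397) (nat_lit 7) (nat_lit 4) (nat_lit 8) (nat_lit 5) (nat_lit 8) (nat_lit 4) (nat_lit 394) (nat_lit 264) (nat_lit 122)) (XT.lf (nat_lit 0) (nat_lit 1113997354) (nat_lit 152) (nat_lit 48588330994) (nat_lit 76) (nat_lit 31459683845) (nat_lit 6) (nat_lit 5) (nat_lit 8) (nat_lit 5) (nat_lit 7) (nat_lit 4) (nat_lit 395) (nat_lit 264) (nat_lit 121)))) (XT.nd (nat_lit 78) (nat_lit 380) (nat_lit 0) (XT.lf (nat_lit 0) (nat_lit 2871335967) (nat_lit 380) (nat_lit 203035221) (nat_lit 380) (nat_lit 203035221) (nat_lit 251) (nat_lit 3) (nat_lit 256) (nat_lit 3) (nat_lit 256) (nat_lit 5) (nat_lit 265) (nat_lit 265) (nat_lit 250)) (XT.nd (nat_lit 78) (nat_lit 0) (nat_lit 0) (XT.lf (nat_lit 0) (nat_lit 1415605281) (nat_lit 380) (nat_lit 4115337393) (nat_lit 456) (nat_lit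 1047445271) (nat_lit 246) (nat_lit 5) (nat_lit 251) (nat_lit 3) (nat_lit 252) (nat_lit 5) (nat_lit 266) (nat_lit 265) (nat_lit 249)) (XT.lf (nat_lit 0) (nat_lit 3611716475) (nat_lit 380) (nat_lit 1230751174) (nat_lit 456) (nat_lit 1762748504) (nat_lit 246) (nat_lit 5) (nat_lit 251) (nat_lit 3) (nat_lit 252) (nat_lit 5) (nat_lit 267) (nat_lit 265) (nat_lit 248)))))) (XT.nd (nat_lit 390) (nat_lit 532) (nat_lit 0) (XT.nd (nat_lit 156) (nat_lit 532) (nat_lit 0) (XT.nd (nat_lit 78) (nat_lit 456) (nat_lit 0) (XT.lf (nat_lit 76) (nat_lit 1728775727) (nat_lit 0) (nat_lit 4077781244) (nat_lit 456) (nat_lit 828620193) (nat_lit 247) (nat_lit 5) (nat_lit 246) (nat_lit 5) (nat_lit 252) (nat_lit 5) (nat_lit 268) (nat_lit 265) (nat_lit 247)) (XT.lf (nat_lit 0) (nat_lit 1303542915) (nat_lit 456) (nat_lit 1923770601) (nat_lit 532) (nat_lit 3440724367) (nat_lit 240) (nat_lit 5) (nat_lit 246) (nat_lit 5) (nat_lit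 247) (nat_lit 5) (nat_lit 269) (nat_lit 265) (nat_lit 246))) (XT.nd (nat_lit 78) (nat_lit 532) (nat_lit 0) (XT.lf (nat_lit 76) (nat_lit 1116453287) (nat_lit 0) (nat_lit 2296837532) (nat_lit 532) (nat_lit 3290725994) (nat_lit 241) (nat_lit 5) (nat_lit 240) (nat_lit 5) (nat_lit 247) (nat_lit 5) (nat_lit 270) (nat_lit 265) (nat_lit 245)) (XT.nd (nat_lit 78) (nat_lit 532) (nat_lit 0) (XT.lf (nat_lit 76) (nat_lit 4242297327) (nat_lit 0) (nat_lit 1284913108) (nat_lit 532) (nat_lit 1215916693) (nat_lit 241) (nat_lit 5) (nat_lit 240) (nat_lit 5) (nat_lit 247) (nat_lit 5) (nat_lit 271) (nat_lit 265) (nat_lit 244)) (XT.lf (nat_lit 76) (nat_lit 636561940) (nat_lit 0) (nat_lit 195439958) (nat_lit 608) (nat_lit 5953540442) (nat_lit 234) (nat_lit 5) (nat_lit 233) (nat_lit 5) (nat_lit 241) (nat_lit 5) (nat_lit 272) (nat_lit 265) (nat_lit 243))))) (XT.nd (nat_lit 234) (nat_lit 0) (nat_lit 0) (XT.nd (nat_lit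 78) (nat_lit 608) (nat_lit 0) (XT.lf (nat_lit 0) (nat_lit 2876161554) (nat_lit 532) (nat_lit 2978205102) (nat_lit 608) (nat_lit 975979690) (nat_lit 234) (nat_lit 5) (nat_lit 241) (nat_lit 5) (nat_lit 242) (nat_lit 5) (nat_lit 273) (nat_lit 265) (nat_lit 242)) (XT.nd (nat_lit 78) (nat_lit 608) (nat_lit 0) (XT.lf (nat_lit 76) (nat_lit 244039221) (nat_lit 0) (nat_lit 4668907626) (nat_lit 608) (nat_lit 1965855951) (nat_lit 235) (nat_lit 5) (nat_lit 234) (nat_lit 5) (nat_lit 242) (nat_lit 5) (nat_lit 274) (nat_lit 265) (nat_lit 241)) (XT.lf (nat_lit 0) (nat_lit 38653821) (nat_lit 608) (nat_lit 3352593141) (nat_lit 684) (nat_lit 3538931443) (nat_lit 226) (nat_lit 5) (nat_lit 234) (nat_lit 5) (nat_lit 235) (nat_lit 5) (nat_lit 275) (nat_lit 265) (nat_lit 240)))) (XT.nd (nat_lit 78) (nat_lit 0) (nat_lit 0) (XT.lf (nat_lit 0) (nat_lit 1993652937) (nat_lit 608) (nat_lit 37728698) (nat_lit 684) (nat_lit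 4953460113) (nat_lit 226) (nat_lit 5) (nat_lit 234) (nat_lit 5) (nat_lit 235) (nat_lit 5) (nat_lit 276) (nat_lit 265) (nat_lit 239)) (XT.nd (nat_lit 78) (nat_lit 0) (nat_lit 76) (XT.lf (nat_lit 76) (nat_lit 3397929080) (nat_lit 0) (nat_lit 573944470) (nat_lit 684) (nat_lit 3070554063) (nat_lit 227) (nat_lit 5) (nat_lit 226) (nat_lit 5) (nat_lit 235) (nat_lit 5) (nat_lit 277) (nat_lit 265) (nat_lit 238)) (XT.lf (nat_lit 0) (nat_lit 5952414027) (nat_lit 608) (nat_lit 220155139) (nat_lit 76) (nat_lit 931096057) (nat_lit 227) (nat_lit 5) (nat_lit 235) (nat_lit 5) (nat_lit 228) (nat_lit 5) (nat_lit 278) (nat_lit 265) (nat_lit 237))))))) (XT.nd (nat_lit 858) (nat_lit 3952) (nat_lit 0) (XT.nd (nat_lit 390) (nat_lit 2812) (nat_lit 0) (XT.nd (nat_lit 156) (nat_lit 1520) (nat_lit 0) (XT.nd (nat_lit 78) (nat_lit 0) (nat_lit 0) (XT.lf (nat_lit 0) (nat_lit 782259549) (nat_lit 684) (nat_lit 3854961657) (nat_lit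 76) (nat_lit 2530299585) (nat_lit 218) (nat_lit 5) (nat_lit 227) (nat_lit 5) (nat_lit 219) (nat_lit 5) (nat_lit 279) (nat_lit 265) (nat_lit 236)) (XT.lf (nat_lit 0) (nat_lit 2689110335) (nat_lit 684) (nat_lit 335467345) (nat_lit 76) (nat_lit 4210413437) (nat_lit 218) (nat_lit 5) (nat_lit 227) (nat_lit 5) (nat_lit 219) (nat_lit 5) (nat_lit 280) (nat_lit 265) (nat_lit 235))) (XT.nd (nat_lit 78) (nat_lit 836) (nat_lit 0) (XT.lf (nat_lit 0) (nat_lit 3308949001) (nat_lit 684) (nat_lit 1314111286) (nat_lit 760) (nat_lit 2682518032) (nat_lit 209) (nat_lit 5) (nat_lit 218) (nat_lit 5) (nat_lit 219) (nat_lit 5) (nat_lit 281) (nat_lit 265) (nat_lit 234)) (XT.nd (nat_lit 78) (nat_lit 836) (nat_lit 0) (XT.lf (nat_lit 0) (nat_lit 6562363313) (nat_lit 760) (nat_lit 359884291) (nat_lit 76) (nat_lit 457799546) (nat_lit 209) (nat_lit 5) (nat_lit 219) (nat_lit 5) (nat_lit 210) (nat_lit 5) (nat_lit 282) (nat_lit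 265) (nat_lit 233)) (XT.lf (nat_lit 0) (nat_lit 1068267608) (nat_lit 836) (nat_lit 4074191823) (nat_lit 76) (nat_lit 2314545064) (nat_lit 198) (nat_lit 5) (nat_lit 209) (nat_lit 5) (nat_lit 199) (nat_lit 5) (nat_lit 283) (nat_lit 265) (nat_lit 232))))) (XT.nd (nat_lit 234) (nat_lit 1976) (nat_lit 0) (XT.nd (nat_lit 78) (nat_lit 836) (nat_lit 0) (XT.lf (nat_lit 0) (nat_lit 2939938120) (nat_lit 836) (nat_lit 345576778) (nat_lit 76) (nat_lit 4252313967) (nat_lit 198) (nat_lit 5) (nat_lit 209) (nat_lit 5) (nat_lit 199) (nat_lit 5) (nat_lit 284) (nat_lit 265) (nat_lit 231)) (XT.nd (nat_lit 78) (nat_lit 0) (nat_lit 0) (XT.lf (nat_lit 0) (nat_lit 3518456218) (nat_lit 836) (nat_lit 1326721216) (nat_lit 912) (nat_lit 2776741496) (nat_lit 187) (nat_lit 5) (nat_lit 198) (nat_lit 5) (nat_lit 199) (nat_lit 5) (nat_lit 285) (nat_lit 265) (nat_lit 230)) (XT.lf (nat_lit 0) (nat_lit 6762650797) (nat_lit 912)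 (nat_lit 256179920) (nat_lit 76) (nat_lit 691207440) (nat_lit 187) (nat_lit 5) (nat_lit 199) (nat_lit 5) (nat_lit 188) (nat_lit 5) (nat_lit 286) (nat_lit 265) (nat_lit 229)))) (XT.nd (nat_lit 78) (nat_lit 988) (nat_lit 0) (XT.lf (nat_lit 0) (nat_lit 913788300) (nat_lit 988) (nat_lit 4089275359) (nat_lit 76) (nat_lit 2797760121) (nat_lit 174) (nat_lit 5) (nat_lit 187) (nat_lit 5) (nat_lit 175) (nat_lit 5) (nat_lit 287) (nat_lit 265) (nat_lit 228)) (XT.nd (nat_lit 78) (nat_lit 988) (nat_lit 0) (XT.lf (nat_lit 0) (nat_lit 2761348934) (nat_lit 988) (nat_lit 146073579) (nat_lit 76) (nat_lit 4988286610) (nat_lit 174) (nat_lit 5) (nat_lit 187) (nat_lit 5) (nat_lit 175) (nat_lit 5) (nat_lit 288) (nat_lit 265) (nat_lit 227)) (XT.lf (nat_lit 0) (nat_lit 3947827003) (nat_lit 988) (nat_lit 702981343) (nat_lit 1064) (nat_lit 3343179582) (nat_lit 161) (nat_lit 5) (nat_lit 174) (nat_lit 5) (nat_lit 175) (nat_lit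 5) (nat_lit 289) (nat_lit 265) (nat_lit 226)))))) (XT.nd (nat_lit 468) (nat_lit 1596) (nat_lit 0) (XT.nd (nat_lit 234) (nat_lit 532) (nat_lit 0) (XT.nd (nat_lit 78) (nat_lit 760) (nat_lit 0) (XT.lf (nat_lit 0) (nat_lit 11606667) (nat_lit 1064) (nat_lit 6551671954) (nat_lit 1140) (nat_lit 1533083617) (nat_lit 147) (nat_lit 5) (nat_lit 161) (nat_lit 5) (nat_lit 162) (nat_lit 5) (nat_lit 290) (nat_lit 265) (nat_lit 225)) (XT.nd (nat_lit 78) (nat_lit 684) (nat_lit 0) (XT.lf (nat_lit 0) (nat_lit 323141034) (nat_lit 1140) (nat_lit 3983659427) (nat_lit 76) (nat_lit 3895092131) (nat_lit 146) (nat_lit 5) (nat_lit 161) (nat_lit 5) (nat_lit 147) (nat_lit 5) (nat_lit 291) (nat_lit 265) (nat_lit 224)) (XT.lf (nat_lit 0) (nat_lit 183653453) (nat_lit 684) (nat_lit 1973873150) (nat_lit 760) (nat_lit 6154133584) (nat_lit 137) (nat_lit 5) (nat_lit 146) (nat_lit 5) (nat_lit 147) (nat_lit 5) (nat_lit 292) (nat_lit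 265) (nat_lit 223)))) (XT.nd (nat_lit 78) (nat_lit 532) (nat_lit 0) (XT.lf (nat_lit 0) (nat_lit 4044223324) (nat_lit 760) (nat_lit 3916739864) (nat_lit 76) (nat_lit 463960914) (nat_lit 137) (nat_lit 5) (nat_lit 147) (nat_lit 5) (nat_lit 138) (nat_lit 5) (nat_lit 293) (nat_lit 265) (nat_lit 222)) (XT.nd (nat_lit 78) (nat_lit 0) (nat_lit 0) (XT.lf (nat_lit 0) (nat_lit 363413016) (nat_lit 532) (nat_lit 5601057131) (nat_lit 608) (nat_lit 2577925448) (nat_lit 130) (nat_lit 5) (nat_lit 137) (nat_lit 5) (nat_lit 138) (nat_lit 5) (nat_lit 294) (nat_lit 265) (nat_lit 221)) (XT.lf (nat_lit 0) (nat_lit 4807700795) (nat_lit 532) (nat_lit 3129001551) (nat_lit 608) (nat_lit 726972242) (nat_lit 130) (nat_lit 5) (nat_lit 137) (nat_lit 5) (nat_lit 138) (nat_lit 5) (nat_lit 295) (nat_lit 265) (nat_lit 220))))) (XT.nd (nat_lit 234) (nat_lit 532) (nat_lit 0) (XT.nd (nat_lit 78) (nat_lit 456) (nat_lit 0) (XT.lf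 (nat_lit 0) (nat_lit 551903760) (nat_lit 532) (nat_lit 565493450) (nat_lit 608) (nat_lit 7672135583) (nat_lit 122) (nat_lit 5) (nat_lit 129) (nat_lit 5) (nat_lit 130) (nat_lit 5) (nat_lit 296) (nat_lit 265) (nat_lit 219)) (XT.nd (nat_lit 78) (nat_lit 456) (nat_lit 0) (XT.lf (nat_lit 0) (nat_lit 3018223147) (nat_lit 608) (nat_lit 3819693109) (nat_lit 76) (nat_lit 2080667413) (nat_lit 122) (nat_lit 5) (nat_lit 130) (nat_lit 5) (nat_lit 123) (nat_lit 5) (nat_lit 297) (nat_lit 265) (nat_lit 218)) (XT.lf (nat_lit 0) (nat_lit 694830739) (nat_lit 456) (nat_lit 4251257249) (nat_lit 532) (nat_lit 4106419563) (nat_lit 116) (nat_lit 5) (nat_lit 122) (nat_lit 5) (nat_lit 123) (nat_lit 5) (nat_lit 298) (nat_lit 265) (nat_lit 217)))) (XT.nd (nat_lit 78) (nat_lit 532) (nat_lit 0) (XT.lf (nat_lit 0) (nat_lit 5379610898) (nat_lit 456) (nat_lit 1549298372) (nat_lit 532) (nat_lit 2261725203) (nat_lit 116) (nat_lit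 5) (nat_lit 122) (nat_lit 5) (nat_lit 123) (nat_lit 5) (nat_lit 299) (nat_lit 265) (nat_lit 216)) (XT.nd (nat_lit 78) (nat_lit 76) (nat_lit 0) (XT.lf (nat_lit 0) (nat_lit 832925968) (nat_lit 456) (nat_lit 8117892542) (nat_lit 532) (nat_lit 382794648) (nat_lit 110) (nat_lit 5) (nat_lit 116) (nat_lit 5) (nat_lit 117) (nat_lit 5) (nat_lit 300) (nat_lit 265) (nat_lit 215)) (XT.lf (nat_lit 0) (nat_lit 1536426928) (nat_lit 532) (nat_lit 3860011993) (nat_lit 76) (nat_lit 4083658573) (nat_lit 109) (nat_lit 5) (nat_lit 116) (nat_lit 5) (nat_lit 110) (nat_lit 5) (nat_lit 301) (nat_lit 265) (nat_lit 214))))))))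
noncomputable def xc126 : XT := (XT.nd (nat_lit 1716) (nat_lit 2204) (nat_lit 0) (XT.nd (nat_lit 858) (nat_lit 1748) (nat_lit 0) (XT.nd (nat_lit 390) (nat_lit 836) (nat_lit 0) (XT.nd (nat_lit 156) (nat_lit 912) (nat_lit 0) (XT.nd (nat_lit 78) (nat_lit 0) (nat_lit 0) (XT.lf (nat_lit 0) (nat_lit 890799107) (nat_lit 456) (nat_lit 2584473378) (nat_lit 532) (nat_lit 6156585844) (nat_lit 103) (nat_lit 5) (nat_lit 109) (nat_lit 5) (nat_lit 110) (nat_lit 5) (nat_lit 302) (nat_lit 265) (nat_lit 213)) (XT.lf (nat_lit 0) (nat_lit 5476508327) (nat_lit 532) (nat_lit 3970572128) (nat_lit 76) (nat_lit 341050132) (nat_lit 103) (nat_lit 5) (nat_lit 110) (nat_lit 5) (nat_lit 104) (nat_lit 5) (nat_lit 303) (nat_lit 265) (nat_lit 212))) (XT.nd (nat_lit 78) (nat_lit 456) (nat_lit 0) (XT.lf (nat_lit 0) (nat_lit 892678689) (nat_lit 456) (nat_lit 6642245902) (nat_lit 532) (nat_lit 2414334978) (nat_lit 97) (nat_lit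 5) (nat_lit 103) (nat_lit 5) (nat_lit 104) (nat_lit 5) (nat_lit 304) (nat_lit 265) (nat_lit 211)) (XT.nd (nat_lit 78) (nat_lit 456) (nat_lit 0) (XT.lf (nat_lit 0) (nat_lit 5941451988) (nat_lit 456) (nat_lit 3717386819) (nat_lit 532) (nat_lit 456351694) (nat_lit 97) (nat_lit 5) (nat_lit 103) (nat_lit 5) (nat_lit 104) (nat_lit 5) (nat_lit 305) (nat_lit 265) (nat_lit 210)) (XT.lf (nat_lit 0) (nat_lit 815158561) (nat_lit 380) (nat_lit 686883071) (nat_lit 456) (nat_lit 8784520008) (nat_lit 91) (nat_lit 5) (nat_lit 96) (nat_lit 5) (nat_lit 97) (nat_lit 5) (nat_lit 306) (nat_lit 265) (nat_lit 209))))) (XT.nd (nat_lit 234) (nat_lit 456) (nat_lit 0) (XT.nd (nat_lit 78) (nat_lit 380) (nat_lit 0) (XT.lf (nat_lit 0) (nat_lit 3540854332) (nat_lit 456) (nat_lit 4492869380) (nat_lit 76) (nat_lit 2428363077) (nat_lit 91) (nat_lit 5) (nat_lit 97) (nat_lit 5) (nat_lit 92) (nat_lit 5) (nat_lit 307) (nat_lit 265)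 (nat_lit 208)) (XT.nd (nat_lit 78) (nat_lit 0) (nat_lit 0) (XT.lf (nat_lit 0) (nat_lit 599132005) (nat_lit 380) (nat_lit 5020156221) (nat_lit 456) (nat_lit 5024307235) (nat_lit 86) (nat_lit 5) (nat_lit 91) (nat_lit 5) (nat_lit 92) (nat_lit 5) (nat_lit 308) (nat_lit 265) (nat_lit 207)) (XT.lf (nat_lit 0) (nat_lit 5895613918) (nat_lit 380) (nat_lit 1876332311) (nat_lit 456) (nat_lit 3058316425) (nat_lit 86) (nat_lit 5) (nat_lit 91) (nat_lit 5) (nat_lit 92) (nat_lit 5) (nat_lit 309) (nat_lit 265) (nat_lit 206)))) (XT.nd (nat_lit 78) (nat_lit 76) (nat_lit 0) (XT.lf (nat_lit 0) (nat_lit 280665020) (nat_lit 380) (nat_lit 9691720766) (nat_lit 456) (nat_lit 1050715392) (nat_lit 81) (nat_lit 5) (nat_lit 86) (nat_lit 5) (nat_lit 87) (nat_lit 5) (nat_lit 310) (nat_lit 265) (nat_lit 205)) (XT.nd (nat_lit 78) (nat_lit 0) (nat_lit 0) (XT.lf (nat_lit 0) (nat_lit 1033766187) (nat_lit 456) (nat_lit 5535980422)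 (nat_lit 76) (nat_lit 4650653438) (nat_lit 80) (nat_lit 5) (nat_lit 86) (nat_lit 5) (nat_lit 81) (nat_lit 5) (nat_lit 311) (nat_lit 265) (nat_lit 204)) (XT.lf (nat_lit 0) (nat_lit 3128206473) (nat_lit 456) (nat_lit 223050724) (nat_lit 76) (nat_lit 8073053967) (nat_lit 80) (nat_lit 5) (nat_lit 86) (nat_lit 5) (nat_lit 81) (nat_lit 5) (nat_lit 312) (nat_lit 265) (nat_lit 203)))))) (XT.nd (nat_lit 390) (nat_lit 684) (nat_lit 0) (XT.nd (nat_lit 156) (nat_lit 684) (nat_lit 0) (XT.nd (nat_lit 78) (nat_lit 0) (nat_lit 0) (XT.lf (nat_lit 0) (nat_lit 5306112354) (nat_lit 456) (nat_lit 6319060982) (nat_lit 76) (nat_lit 8607165) (nat_lit 75) (nat_lit 5) (nat_lit 81) (nat_lit 5) (nat_lit 76) (nat_lit 5) (nat_lit 313) (nat_lit 265) (nat_lit 202)) (XT.lf (nat_lit 0) (nat_lit 7554721094) (nat_lit 456) (nat_lit 898155191) (nat_lit 76) (nat_lit 3396554778) (nat_lit 75) (nat_lit 5) (nat_lit 81) (nat_lit 5) (nat_lit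 76) (nat_lit 5) (nat_lit 314) (nat_lit 265) (nat_lit 201))) (XT.nd (nat_lit 78) (nat_lit 380) (nat_lit 0) (XT.lf (nat_lit 0) (nat_lit 4740324231) (nat_lit 304) (nat_lit 5146817404) (nat_lit 380) (nat_lit 2183975323) (nat_lit 71) (nat_lit 5) (nat_lit 75) (nat_lit 5) (nat_lit 76) (nat_lit 5) (nat_lit 315) (nat_lit 265) (nat_lit 200)) (XT.nd (nat_lit 78) (nat_lit 380) (nat_lit 0) (XT.lf (nat_lit 0) (nat_lit 10529183177) (nat_lit 304) (nat_lit 1740701284) (nat_lit 380) (nat_lit 30213257) (nat_lit 71) (nat_lit 5) (nat_lit 75) (nat_lit 5) (nat_lit 76) (nat_lit 5) (nat_lit 316) (nat_lit 265) (nat_lit 199)) (XT.lf (nat_lit 0) (nat_lit 2172962999) (nat_lit 380) (nat_lit 8576976602) (nat_lit 76) (nat_lit 1784603908) (nat_lit 66) (nat_lit 5) (nat_lit 71) (nat_lit 5) (nat_lit 67) (nat_lit 5) (nat_lit 317) (nat_lit 265) (nat_lit 198))))) (XT.nd (nat_lit 234) (nat_lit 380) (nat_lit 0) (XT.nd (nat_lit 78)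 (nat_lit 304) (nat_lit 0) (XT.lf (nat_lit 0) (nat_lit 4449099512) (nat_lit 380) (nat_lit 2936147935) (nat_lit 76) (nat_lit 5390592219) (nat_lit 66) (nat_lit 5) (nat_lit 71) (nat_lit 5) (nat_lit 67) (nat_lit 5) (nat_lit 318) (nat_lit 265) (nat_lit 197)) (XT.nd (nat_lit 78) (nat_lit 0) (nat_lit 0) (XT.lf (nat_lit 0) (nat_lit 2894310528) (nat_lit 304) (nat_lit 3900019569) (nat_lit 380) (nat_lit 6230068980) (nat_lit 62) (nat_lit 5) (nat_lit 66) (nat_lit 5) (nat_lit 67) (nat_lit 5) (nat_lit 319) (nat_lit 265) (nat_lit 196)) (XT.lf (nat_lit 0) (nat_lit 8924151074) (nat_lit 304) (nat_lit 288847349) (nat_lit 380) (nat_lit 4067371674) (nat_lit 62) (nat_lit 5) (nat_lit 66) (nat_lit 5) (nat_lit 67) (nat_lit 5) (nat_lit 320) (nat_lit 265) (nat_lit 195)))) (XT.nd (nat_lit 78) (nat_lit 76) (nat_lit 0) (XT.lf (nat_lit 0) (nat_lit 1552775472) (nat_lit 304) (nat_lit 10173475081) (nat_lit 380) (nat_lit 1817154861)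 (nat_lit 58) (nat_lit 5) (nat_lit 62) (nat_lit 5) (nat_lit 63) (nat_lit 5) (nat_lit 321) (nat_lit 265) (nat_lit 194)) (XT.nd (nat_lit 78) (nat_lit 0) (nat_lit 0) (XT.lf (nat_lit 0) (nat_lit 512326090) (nat_lit 380) (nat_lit 6128403731) (nat_lit 76) (nat_lit 7172855092) (nat_lit 57) (nat_lit 5) (nat_lit 62) (nat_lit 5) (nat_lit 58) (nat_lit 5) (nat_lit 322) (nat_lit 265) (nat_lit 193)) (XT.lf (nat_lit 0) (nat_lit 2850159569) (nat_lit 380) (nat_lit 142887278) (nat_lit 76) (nat_lit 11099075451) (nat_lit 57) (nat_lit 5) (nat_lit 62) (nat_lit 5) (nat_lit 58) (nat_lit 5) (nat_lit 323) (nat_lit 265) (nat_lit 192))))))) (XT.nd (nat_lit 858) (nat_lit 912) (nat_lit 0) (XT.nd (nat_lit 390) (nat_lit 456) (nat_lit 0) (XT.nd (nat_lit 156) (nat_lit 608) (nat_lit 0) (XT.nd (nat_lit 78) (nat_lit 0) (nat_lit 0) (XT.lf (nat_lit 0) (nat_lit 5300396123) (nat_lit 304) (nat_lit 8278057930) (nat_lit 76) (nat_lit 799334470)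 (nat_lit 54) (nat_lit 5) (nat_lit 58) (nat_lit 5) (nat_lit 55) (nat_lit 5) (nat_lit 324) (nat_lit 265) (nat_lit 191)) (XT.lf (nat_lit 0) (nat_lit 7831248259) (nat_lit 304) (nat_lit 2202988633) (nat_lit 76) (nat_lit 4637614163) (nat_lit 54) (nat_lit 5) (nat_lit 58) (nat_lit 5) (nat_lit 55) (nat_lit 5) (nat_lit 325) (nat_lit 265) (nat_lit 190))) (XT.nd (nat_lit 78) (nat_lit 304) (nat_lit 0) (XT.lf (nat_lit 0) (nat_lit 4101439589) (nat_lit 304) (nat_lit 6352727632) (nat_lit 380) (nat_lit 4520122423) (nat_lit 50) (nat_lit 5) (nat_lit 54) (nat_lit 5) (nat_lit 55) (nat_lit 5) (nat_lit 326) (nat_lit 265) (nat_lit 189)) (XT.nd (nat_lit 78) (nat_lit 304) (nat_lit 0) (XT.lf (nat_lit 0) (nat_lit 10607555569) (nat_lit 304) (nat_lit 2547544541) (nat_lit 380) (nat_lit 2130758793) (nat_lit 50) (nat_lit 5) (nat_lit 54) (nat_lit 5) (nat_lit 55) (nat_lit 5) (nat_lit 327) (nat_lit 265) (nat_lit 188)) (XT.lf (nat_lit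 0) (nat_lit 330960938) (nat_lit 304) (nat_lit 13920248198) (nat_lit 76) (nat_lit 1355292409) (nat_lit 46) (nat_lit 5) (nat_lit 50) (nat_lit 5) (nat_lit 47) (nat_lit 5) (nat_lit 328) (nat_lit 265) (nat_lit 187))))) (XT.nd (nat_lit 234) (nat_lit 228) (nat_lit 0) (XT.nd (nat_lit 78) (nat_lit 228) (nat_lit 0) (XT.lf (nat_lit 0) (nat_lit 2874387754) (nat_lit 304) (nat_lit 7676915002) (nat_lit 76) (nat_lit 5383341499) (nat_lit 46) (nat_lit 5) (nat_lit 50) (nat_lit 5) (nat_lit 47) (nat_lit 5) (nat_lit 329) (nat_lit 265) (nat_lit 186)) (XT.nd (nat_lit 78) (nat_lit 228) (nat_lit 0) (XT.lf (nat_lit 0) (nat_lit 5472514452) (nat_lit 304) (nat_lit 1277765862) (nat_lit 76) (nat_lit 9523032162) (nat_lit 46) (nat_lit 5) (nat_lit 50) (nat_lit 5) (nat_lit 47) (nat_lit 5) (nat_lit 330) (nat_lit 265) (nat_lit 185)) (XT.lf (nat_lit 0) (nat_lit 5387928604) (nat_lit 228) (nat_lit 2791474702) (nat_lit 304) (nat_lit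 8441845064) (nat_lit 43) (nat_lit 5) (nat_lit 46) (nat_lit 5) (nat_lit 47) (nat_lit 5) (nat_lit 331) (nat_lit 265) (nat_lit 184)))) (XT.nd (nat_lit 78) (nat_lit 228) (nat_lit 0) (XT.lf (nat_lit 0) (nat_lit 10972146055) (nat_lit 304) (nat_lit 4742764691) (nat_lit 76) (nat_lit 1264603418) (nat_lit 43) (nat_lit 5) (nat_lit 47) (nat_lit 5) (nat_lit 44) (nat_lit 5) (nat_lit 332) (nat_lit 265) (nat_lit 183)) (XT.nd (nat_lit 78) (nat_lit 0) (nat_lit 0) (XT.lf (nat_lit 0) (nat_lit 1922454723) (nat_lit 228) (nat_lit 11952192609) (nat_lit 304) (nat_lit 3473131642) (nat_lit 40) (nat_lit 5) (nat_lit 43) (nat_lit 5) (nat_lit 44) (nat_lit 5) (nat_lit 333) (nat_lit 265) (nat_lit 182)) (XT.lf (nat_lit 0) (nat_lit 8855218191) (nat_lit 228) (nat_lit 8037057944) (nat_lit 304) (nat_lit 834003464) (nat_lit 40) (nat_lit 5) (nat_lit 43) (nat_lit 5) (nat_lit 44) (nat_lit 5) (nat_lit 334) (nat_lit 265) (nat_lit 181))))))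 (XT.nd (nat_lit 468) (nat_lit 456) (nat_lit 0) (XT.nd (nat_lit 234) (nat_lit 152) (nat_lit 0) (XT.nd (nat_lit 78) (nat_lit 228) (nat_lit 0) (XT.lf (nat_lit 0) (nat_lit 1828048092) (nat_lit 304) (nat_lit 2167470590) (nat_lit 76) (nat_lit 14120685356) (nat_lit 39) (nat_lit 5) (nat_lit 43) (nat_lit 5) (nat_lit 40) (nat_lit 5) (nat_lit 335) (nat_lit 265) (nat_lit 180)) (XT.nd (nat_lit 78) (nat_lit 0) (nat_lit 0) (XT.lf (nat_lit 0) (nat_lit 4582424921) (nat_lit 304) (nat_lit 13724660091) (nat_lit 76) (nat_lit 209643633) (nat_lit 36) (nat_lit 5) (nat_lit 40) (nat_lit 5) (nat_lit 37) (nat_lit 5) (nat_lit 336) (nat_lit 265) (nat_lit 179)) (XT.lf (nat_lit 0) (nat_lit 7462373496) (nat_lit 304) (nat_lit 6992117259) (nat_lit 76) (nat_lit 4473516183) (nat_lit 36) (nat_lit 5) (nat_lit 40) (nat_lit 5) (nat_lit 37) (nat_lit 5) (nat_lit 337) (nat_lit 265) (nat_lit 178)))) (XT.nd (nat_lit 78) (nat_lit 152) (nat_lit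 0) (XT.lf (nat_lit 0) (nat_lit 10410542802) (nat_lit 304) (nat_lit 85319975) (nat_lit 76) (nat_lit 8856331535) (nat_lit 36) (nat_lit 5) (nat_lit 40) (nat_lit 5) (nat_lit 37) (nat_lit 5) (nat_lit 338) (nat_lit 265) (nat_lit 177)) (XT.nd (nat_lit 78) (nat_lit 0) (nat_lit 0) (XT.lf (nat_lit 0) (nat_lit 7141115716) (nat_lit 152) (nat_lit 6357037967) (nat_lit 228) (nat_lit 6289448392) (nat_lit 34) (nat_lit 5) (nat_lit 36) (nat_lit 5) (nat_lit 37) (nat_lit 5) (nat_lit 339) (nat_lit 265) (nat_lit 176)) (XT.lf (nat_lit 0) (nat_lit 14559442922) (nat_lit 152) (nat_lit 2102421102) (nat_lit 228) (nat_lit 3574727854) (nat_lit 34) (nat_lit 5) (nat_lit 36) (nat_lit 5) (nat_lit 37) (nat_lit 5) (nat_lit 340) (nat_lit 265) (nat_lit 175))))) (XT.nd (nat_lit 234) (nat_lit 152) (nat_lit 0) (XT.nd (nat_lit 78) (nat_lit 76) (nat_lit 0) (XT.lf (nat_lit 0) (nat_lit 1481954020) (nat_lit 228) (nat_lit 18457721930) (nat_lit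 304) (nat_lit 758822962) (nat_lit 31) (nat_lit 5) (nat_lit 34) (nat_lit 5) (nat_lit 35) (nat_lit 5) (nat_lit 341) (nat_lit 265) (nat_lit 174)) (XT.nd (nat_lit 78) (nat_lit 0) (nat_lit 0) (XT.lf (nat_lit 0) (nat_lit 2161566982) (nat_lit 304) (nat_lit 12268725040) (nat_lit 76) (nat_lit 6741521545) (nat_lit 30) (nat_lit 5) (nat_lit 34) (nat_lit 5) (nat_lit 31) (nat_lit 5) (nat_lit 342) (nat_lit 265) (nat_lit 173)) (XT.lf (nat_lit 0) (nat_lit 5137895392) (nat_lit 304) (nat_lit 5145632397) (nat_lit 76) (nat_lit 11376088400) (nat_lit 30) (nat_lit 5) (nat_lit 34) (nat_lit 5) (nat_lit 31) (nat_lit 5) (nat_lit 343) (nat_lit 265) (nat_lit 172)))) (XT.nd (nat_lit 78) (nat_lit 0) (nat_lit 0) (XT.lf (nat_lit 0) (nat_lit 2209364017) (nat_lit 152) (nat_lit 5999444053) (nat_lit 228) (nat_lit 13953106640) (nat_lit 28) (nat_lit 5) (nat_lit 30) (nat_lit 5) (nat_lit 31) (nat_lit 5) (nat_lit 344) (nat_lit 265) (nat_lit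 171)) (XT.nd (nat_lit 78) (nat_lit 0) (nat_lit 0) (XT.lf (nat_lit 0) (nat_lit 9865833221) (nat_lit 152) (nat_lit 1542259710) (nat_lit 228) (nat_lit 11270121964) (nat_lit 28) (nat_lit 5) (nat_lit 30) (nat_lit 5) (nat_lit 31) (nat_lit 5) (nat_lit 345) (nat_lit 265) (nat_lit 170)) (XT.lf (nat_lit 0) (nat_lit 14717320037) (nat_lit 228) (nat_lit 5511646089) (nat_lit 76) (nat_lit 2980638517) (nat_lit 28) (nat_lit 5) (nat_lit 31) (nat_lit 5) (nat_lit 29) (nat_lit 5) (nat_lit 346) (nat_lit 265) (nat_lit 169))))))))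
noncomputable def xc127 : XT := (XT.nd (nat_lit 1794) (nat_lit 532) (nat_lit 0) (XT.nd (nat_lit 858) (nat_lit 380) (nat_lit 0) (XT.nd (nat_lit 390) (nat_lit 228) (nat_lit 0) (XT.nd (nat_lit 156) (nat_lit 228) (nat_lit 0) (XT.nd (nat_lit 78) (nat_lit 0) (nat_lit 0) (XT.lf (nat_lit 0) (nat_lit 2008408572) (nat_lit 152) (nat_lit 16137096481) (nat_lit 228) (nat_lit 5610859496) (nat_lit 26) (nat_lit 5) (nat_lit 28) (nat_lit 5) (nat_lit 29) (nat_lit 5) (nat_lit 347) (nat_lit 265) (nat_lit 168)) (XT.lf (nat_lit 0) (nat_lit 9843655449) (nat_lit 152) (nat_lit 11873851104) (nat_lit 228) (nat_lit 2600809923) (nat_lit 26) (nat_lit 5) (nat_lit 28) (nat_lit 5) (nat_lit 29) (nat_lit 5) (nat_lit 348) (nat_lit 265) (nat_lit 167))) (XT.nd (nat_lit 78) (nat_lit 152) (nat_lit 0) (XT.lf (nat_lit 0) (nat_lit 475376511) (nat_lit 228) (nat_lit 7010984767) (nat_lit 76) (nat_lit 17411071426) (nat_lit 25) (nat_lit 5)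 (nat_lit 28) (nat_lit 5) (nat_lit 26) (nat_lit 5) (nat_lit 349) (nat_lit 265) (nat_lit 166)) (XT.nd (nat_lit 78) (nat_lit 0) (nat_lit 0) (XT.lf (nat_lit 0) (nat_lit 641014403) (nat_lit 152) (nat_lit 2942725379) (nat_lit 228) (nat_lit 21909661961) (nat_lit 23) (nat_lit 5) (nat_lit 25) (nat_lit 5) (nat_lit 26) (nat_lit 5) (nat_lit 350) (nat_lit 265) (nat_lit 165)) (XT.lf (nat_lit 0) (nat_lit 6859669427) (nat_lit 228) (nat_lit 17478710811) (nat_lit 76) (nat_lit 1766656458) (nat_lit 23) (nat_lit 5) (nat_lit 26) (nat_lit 5) (nat_lit 24) (nat_lit 5) (nat_lit 351) (nat_lit 265) (nat_lit 164))))) (XT.nd (nat_lit 234) (nat_lit 76) (nat_lit 0) (XT.nd (nat_lit 78) (nat_lit 152) (nat_lit 0) (XT.lf (nat_lit 0) (nat_lit 10249535275) (nat_lit 228) (nat_lit 9934781778) (nat_lit 76) (nat_lit 6550249721) (nat_lit 23) (nat_lit 5) (nat_lit 26) (nat_lit 5) (nat_lit 24) (nat_lit 5) (nat_lit 352) (nat_lit 265) (nat_lit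 163)) (XT.nd (nat_lit 78) (nat_lit 152) (nat_lit 0) (XT.lf (nat_lit 0) (nat_lit 13728012071) (nat_lit 228) (nat_lit 2185721183) (nat_lit 76) (nat_lit 11469657421) (nat_lit 23) (nat_lit 5) (nat_lit 26) (nat_lit 5) (nat_lit 24) (nat_lit 5) (nat_lit 353) (nat_lit 265) (nat_lit 162)) (XT.lf (nat_lit 0) (nat_lit 5890180638) (nat_lit 152) (nat_lit 11464578641) (nat_lit 228) (nat_lit 10695617451) (nat_lit 21) (nat_lit 5) (nat_lit 23) (nat_lit 5) (nat_lit 24) (nat_lit 5) (nat_lit 354) (nat_lit 265) (nat_lit 161)))) (XT.nd (nat_lit 78) (nat_lit 76) (nat_lit 0) (XT.lf (nat_lit 0) (nat_lit 14232797083) (nat_lit 152) (nat_lit 6867053639) (nat_lit 228) (nat_lit 7637249875) (nat_lit 21) (nat_lit 5) (nat_lit 23) (nat_lit 5) (nat_lit 24) (nat_lit 5) (nat_lit 355) (nat_lit 265) (nat_lit 160)) (XT.nd (nat_lit 78) (nat_lit 76) (nat_lit 0) (XT.lf (nat_lit 0) (nat_lit 22805917679) (nat_lit 152) (nat_lit 2139212492)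 (nat_lit 228) (nat_lit 4499675015) (nat_lit 21) (nat_lit 5) (nat_lit 23) (nat_lit 5) (nat_lit 24) (nat_lit 5) (nat_lit 356) (nat_lit 265) (nat_lit 159)) (XT.lf (nat_lit 0) (nat_lit 1444944829) (nat_lit 76) (nat_lit 27489078315) (nat_lit 152) (nat_lit 1238883768) (nat_lit 20) (nat_lit 5) (nat_lit 21) (nat_lit 5) (nat_lit 22) (nat_lit 4) (nat_lit 357) (nat_lit 265) (nat_lit 158)))))) (XT.nd (nat_lit 468) (nat_lit 152) (nat_lit 0) (XT.nd (nat_lit 234) (nat_lit 152) (nat_lit 0) (XT.nd (nat_lit 78) (nat_lit 0) (nat_lit 0) (XT.lf (nat_lit 0) (nat_lit 2155401460) (nat_lit 152) (nat_lit 21075230830) (nat_lit 76) (nat_lit 7689309970) (nat_lit 19) (nat_lit 5) (nat_lit 21) (nat_lit 5) (nat_lit 20) (nat_lit 5) (nat_lit 358) (nat_lit 265) (nat_lit 157)) (XT.nd (nat_lit 78) (nat_lit 0) (nat_lit 0) (XT.lf (nat_lit 0) (nat_lit 5615110063) (nat_lit 152) (nat_lit 13224167229) (nat_lit 76) (nat_lit 12850101033)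 (nat_lit 19) (nat_lit 5) (nat_lit 21) (nat_lit 5) (nat_lit 20) (nat_lit 5) (nat_lit 359) (nat_lit 265) (nat_lit 156)) (XT.lf (nat_lit 0) (nat_lit 9167440171) (nat_lit 152) (nat_lit 5156002221) (nat_lit 76) (nat_lit 18158802305) (nat_lit 19) (nat_lit 5) (nat_lit 21) (nat_lit 5) (nat_lit 20) (nat_lit 5) (nat_lit 360) (nat_lit 265) (nat_lit 155)))) (XT.nd (nat_lit 78) (nat_lit 0) (nat_lit 0) (XT.lf (nat_lit 0) (nat_lit 3198732847) (nat_lit 152) (nat_lit 9647511090) (nat_lit 228) (nat_lit 20452067787) (nat_lit 17) (nat_lit 5) (nat_lit 19) (nat_lit 5) (nat_lit 20) (nat_lit 5) (nat_lit 361) (nat_lit 265) (nat_lit 154)) (XT.nd (nat_lit 78) (nat_lit 0) (nat_lit 0) (XT.lf (nat_lit 0) (nat_lit 11892084698) (nat_lit 152) (nat_lit 4784693749) (nat_lit 228) (nat_lit 17460852753) (nat_lit 17) (nat_lit 5) (nat_lit 19) (nat_lit 5) (nat_lit 20) (nat_lit 5) (nat_lit 362) (nat_lit 265) (nat_lit 153)) (XT.lf (nat_lit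 0) (nat_lit 20613929521) (nat_lit 228) (nat_lit 14175505863) (nat_lit 76) (nat_lit 212954960) (nat_lit 17) (nat_lit 5) (nat_lit 20) (nat_lit 5) (nat_lit 18) (nat_lit 4) (nat_lit 363) (nat_lit 265) (nat_lit 152))))) (XT.nd (nat_lit 234) (nat_lit 76) (nat_lit 0) (XT.nd (nat_lit 78) (nat_lit 76) (nat_lit 0) (XT.lf (nat_lit 0) (nat_lit 24706420008) (nat_lit 228) (nat_lit 5927688091) (nat_lit 76) (nat_lit 5257878198) (nat_lit 17) (nat_lit 5) (nat_lit 20) (nat_lit 5) (nat_lit 18) (nat_lit 4) (nat_lit 364) (nat_lit 265) (nat_lit 151)) (XT.nd (nat_lit 78) (nat_lit 0) (nat_lit 0) (XT.lf (nat_lit 0) (nat_lit 2601879082) (nat_lit 76) (nat_lit 26334964238) (nat_lit 152) (nat_lit 7870982527) (nat_lit 16) (nat_lit 5) (nat_lit 17) (nat_lit 5) (nat_lit 18) (nat_lit 4) (nat_lit 365) (nat_lit 265) (nat_lit 150)) (XT.lf (nat_lit 0) (nat_lit 11492549246) (nat_lit 76) (nat_lit 21851765698) (nat_lit 152) (nat_lit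 4405331732) (nat_lit 16) (nat_lit 5) (nat_lit 17) (nat_lit 5) (nat_lit 18) (nat_lit 4) (nat_lit 366) (nat_lit 265) (nat_lit 149)))) (XT.nd (nat_lit 78) (nat_lit 76) (nat_lit 0) (XT.lf (nat_lit 0) (nat_lit 20634118331) (nat_lit 76) (nat_lit 17240453150) (nat_lit 152) (nat_lit 845443692) (nat_lit 16) (nat_lit 5) (nat_lit 17) (nat_lit 5) (nat_lit 18) (nat_lit 4) (nat_lit 367) (nat_lit 265) (nat_lit 148)) (XT.nd (nat_lit 78) (nat_lit 0) (nat_lit 0) (XT.lf (nat_lit 0) (nat_lit 2756923982) (nat_lit 152) (nat_lit 9712233781) (nat_lit 76) (nat_lit 27249810607) (nat_lit 15) (nat_lit 5) (nat_lit 17) (nat_lit 5) (nat_lit 16) (nat_lit 5) (nat_lit 368) (nat_lit 265) (nat_lit 147)) (XT.lf (nat_lit 0) (nat_lit 6441375510) (nat_lit 152) (nat_lit 1110832579) (nat_lit 76) (nat_lit 33195709817) (nat_lit 15) (nat_lit 5) (nat_lit 17) (nat_lit 5) (nat_lit 16) (nat_lit 5) (nat_lit 369) (nat_lit 265) (nat_lit 146)))))))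 (XT.nd (nat_lit 858) (nat_lit 76) (nat_lit 0) (XT.nd (nat_lit 390) (nat_lit 228) (nat_lit 0) (XT.nd (nat_lit 156) (nat_lit 76) (nat_lit 0) (XT.nd (nat_lit 78) (nat_lit 0) (nat_lit 0) (XT.lf (nat_lit 0) (nat_lit 7887870233) (nat_lit 152) (nat_lit 2415580766) (nat_lit 228) (nat_lit 31502280979) (nat_lit 13) (nat_lit 5) (nat_lit 15) (nat_lit 5) (nat_lit 16) (nat_lit 5) (nat_lit 370) (nat_lit 265) (nat_lit 145)) (XT.lf (nat_lit 0) (nat_lit 14311680174) (nat_lit 228) (nat_lit 25758115346) (nat_lit 76) (nat_lit 2824584720) (nat_lit 13) (nat_lit 5) (nat_lit 16) (nat_lit 5) (nat_lit 14) (nat_lit 4) (nat_lit 371) (nat_lit 265) (nat_lit 144))) (XT.nd (nat_lit 78) (nat_lit 76) (nat_lit 0) (XT.lf (nat_lit 0) (nat_lit 18455650989) (nat_lit 228) (nat_lit 17391792012) (nat_lit 76) (nat_lit 8167788366) (nat_lit 13) (nat_lit 5) (nat_lit 16) (nat_lit 5) (nat_lit 14) (nat_lit 4) (nat_lit 372) (nat_lit 265) (nat_lit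 143)) (XT.nd (nat_lit 78) (nat_lit 76) (nat_lit 0) (XT.lf (nat_lit 0) (nat_lit 22715764352) (nat_lit 228) (nat_lit 8788361324) (nat_lit 76) (nat_lit 13665835670) (nat_lit 13) (nat_lit 5) (nat_lit 16) (nat_lit 5) (nat_lit 14) (nat_lit 4) (nat_lit 373) (nat_lit 265) (nat_lit 142)) (XT.lf (nat_lit 0) (nat_lit 60882312) (nat_lit 76) (nat_lit 27035445617) (nat_lit 152) (nat_lit 19263233677) (nat_lit 12) (nat_lit 5) (nat_lit 13) (nat_lit 5) (nat_lit 14) (nat_lit 4) (nat_lit 374) (nat_lit 265) (nat_lit 141))))) (XT.nd (nat_lit 234) (nat_lit 228) (nat_lit 0) (XT.nd (nat_lit 78) (nat_lit 0) (nat_lit 0) (XT.lf (nat_lit 0) (nat_lit 9342410182) (nat_lit 76) (nat_lit 22346807954) (nat_lit 152) (nat_lit 15893212009) (nat_lit 12) (nat_lit 5) (nat_lit 13) (nat_lit 5) (nat_lit 14) (nat_lit 4) (nat_lit 375) (nat_lit 265) (nat_lit 140)) (XT.nd (nat_lit 78) (nat_lit 0) (nat_lit 0) (XT.lf (nat_lit 0) (nat_lit 18889426733)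 (nat_lit 76) (nat_lit 17522861035) (nat_lit 152) (nat_lit 12429932526) (nat_lit 12) (nat_lit 5) (nat_lit 13) (nat_lit 5) (nat_lit 14) (nat_lit 4) (nat_lit 376) (nat_lit 265) (nat_lit 139)) (XT.lf (nat_lit 0) (nat_lit 28710274021) (nat_lit 76) (nat_lit 12559389763) (nat_lit 152) (nat_lit 8870369064) (nat_lit 12) (nat_lit 5) (nat_lit 13) (nat_lit 5) (nat_lit 14) (nat_lit 4) (nat_lit 377) (nat_lit 265) (nat_lit 138)))) (XT.nd (nat_lit 78) (nat_lit 228) (nat_lit 0) (XT.lf (nat_lit 0) (nat_lit 38813533367) (nat_lit 76) (nat_lit 7452057123) (nat_lit 152) (nat_lit 5211411323) (nat_lit 12) (nat_lit 5) (nat_lit 13) (nat_lit 5) (nat_lit 14) (nat_lit 4) (nat_lit 378) (nat_lit 265) (nat_lit 137)) (XT.nd (nat_lit 78) (nat_lit 228) (nat_lit 0) (XT.lf (nat_lit 0) (nat_lit 49208032863) (nat_lit 76) (nat_lit 2196400398) (nat_lit 152) (nat_lit 1449862156) (nat_lit 12) (nat_lit 5) (nat_lit 13) (nat_lit 5) (nat_lit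 14) (nat_lit 4) (nat_lit 379) (nat_lit 265) (nat_lit 136)) (XT.lf (nat_lit 0) (nat_lit 2457007170) (nat_lit 228) (nat_lit 48584343485) (nat_lit 76) (nat_lit 3228470770) (nat_lit 9) (nat_lit 5) (nat_lit 12) (nat_lit 5) (nat_lit 10) (nat_lit 4) (nat_lit 380) (nat_lit 265) (nat_lit 135)))))) (XT.nd (nat_lit 468) (nat_lit 0) (nat_lit 0) (XT.nd (nat_lit 234) (nat_lit 76) (nat_lit 0) (XT.nd (nat_lit 78) (nat_lit 0) (nat_lit 0) (XT.lf (nat_lit 0) (nat_lit 6504082659) (nat_lit 228) (nat_lit 40402961997) (nat_lit 76) (nat_lit 8818779825) (nat_lit 9) (nat_lit 5) (nat_lit 12) (nat_lit 5) (nat_lit 10) (nat_lit 4) (nat_lit 381) (nat_lit 265) (nat_lit 134)) (XT.nd (nat_lit 78) (nat_lit 0) (nat_lit 0) (XT.lf (nat_lit 0) (nat_lit 10665977870) (nat_lit 228) (nat_lit 31987500891) (nat_lit 76) (nat_lit 14572232613) (nat_lit 9) (nat_lit 5) (nat_lit 12) (nat_lit 5) (nat_lit 10) (nat_lit 4) (nat_lit 382) (nat_lit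 265) (nat_lit 133)) (XT.lf (nat_lit 0) (nat_lit 14946329409) (nat_lit 228) (nat_lit 23330606849) (nat_lit 76) (nat_lit 20493856425) (nat_lit 9) (nat_lit 5) (nat_lit 12) (nat_lit 5) (nat_lit 10) (nat_lit 4) (nat_lit 383) (nat_lit 265) (nat_lit 132)))) (XT.nd (nat_lit 78) (nat_lit 76) (nat_lit 0) (XT.lf (nat_lit 0) (nat_lit 19348877390) (nat_lit 228) (nat_lit 14424715596) (nat_lit 76) (nat_lit 26588825493) (nat_lit 9) (nat_lit 5) (nat_lit 12) (nat_lit 5) (nat_lit 10) (nat_lit 4) (nat_lit 384) (nat_lit 265) (nat_lit 131)) (XT.nd (nat_lit 78) (nat_lit 76) (nat_lit 0) (XT.lf (nat_lit 0) (nat_lit 23877468699) (nat_lit 228) (nat_lit 5262045286) (nat_lit 76) (nat_lit 32862465520) (nat_lit 9) (nat_lit 5) (nat_lit 12) (nat_lit 5) (nat_lit 10) (nat_lit 4) (nat_lit 385) (nat_lit 265) (nat_lit 130)) (XT.lf (nat_lit 0) (nat_lit 4248310130) (nat_lit 76) (nat_lit 24328587584) (nat_lit 152) (nat_lit 35112785552)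 (nat_lit 8) (nat_lit 5) (nat_lit 9) (nat_lit 5) (nat_lit 10) (nat_lit 4) (nat_lit 386) (nat_lit 265) (nat_lit 129))))) (XT.nd (nat_lit 234) (nat_lit 0) (nat_lit 0) (XT.nd (nat_lit 78) (nat_lit 0) (nat_lit 0) (XT.lf (nat_lit 0) (nat_lit 14141847114) (nat_lit 76) (nat_lit 19322815953) (nat_lit 152) (nat_lit 31961939616) (nat_lit 8) (nat_lit 5) (nat_lit 9) (nat_lit 5) (nat_lit 10) (nat_lit 4) (nat_lit 387) (nat_lit 265) (nat_lit 128)) (XT.nd (nat_lit 78) (nat_lit 0) (nat_lit 0) (XT.lf (nat_lit 0) (nat_lit 24322485483) (nat_lit 76) (nat_lit 14170961458) (nat_lit 152) (nat_lit 28722356172) (nat_lit 8) (nat_lit 5) (nat_lit 9) (nat_lit 5) (nat_lit 10) (nat_lit 4) (nat_lit 388) (nat_lit 265) (nat_lit 127)) (XT.lf (nat_lit 0) (nat_lit 34799120940) (nat_lit 76) (nat_lit 8868522479) (nat_lit 152) (nat_lit 25391204516) (nat_lit 8) (nat_lit 5) (nat_lit 9) (nat_lit 5) (nat_lit 10) (nat_lit 4) (nat_lit 389)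 (nat_lit 265) (nat_lit 126)))) (XT.nd (nat_lit 78) (nat_lit 0) (nat_lit 0) (XT.lf (nat_lit 0) (nat_lit 45580907829) (nat_lit 76) (nat_lit 3410865816) (nat_lit 152) (nat_lit 21965573934) (nat_lit 8) (nat_lit 5) (nat_lit 9) (nat_lit 5) (nat_lit 10) (nat_lit 4) (nat_lit 390) (nat_lit 265) (nat_lit 125)) (XT.nd (nat_lit 78) (nat_lit 0) (nat_lit 0) (XT.lf (nat_lit 0) (nat_lit 54491702664) (nat_lit 152) (nat_lit 16256906693) (nat_lit 0) (nat_lit 2163715181) (nat_lit 8) (nat_lit 5) (nat_lit 10) (nat_lit 4) (nat_lit 8) (nat_lit 4) (nat_lit 391) (nat_lit 265) (nat_lit 124)) (XT.lf (nat_lit 0) (nat_lit 60185377213) (nat_lit 152) (nat_lit 6906300272) (nat_lit 0) (nat_lit 7833415333) (nat_lit 8) (nat_lit 5) (nat_lit 10) (nat_lit 4) (nat_lit 8) (nat_lit 4) (nat_lit 392) (nat_lit 265) (nat_lit 123))))))))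
noncomputable def xc128 : XT := (XT.nd (nat_lit 32214) (nat_lit 0) (nat_lit 6384) (XT.nd (nat_lit 31356) (nat_lit 0) (nat_lit 14516) (XT.nd (nat_lit 30888) (nat_lit 0) (nat_lit 17176) (XT.nd (nat_lit 156) (nat_lit 0) (nat_lit 0) (XT.nd (nat_lit 78) (nat_lit 0) (nat_lit 0) (XT.lf (nat_lit 0) (nat_lit 2770397711) (nat_lit 76) (nat_lit 63301218062) (nat_lit 76) (nat_lit 10925980070) (nat_lit 7) (nat_lit 4) (nat_lit 8) (nat_lit 5) (nat_lit 8) (nat_lit 4) (nat_lit 393) (nat_lit 265) (nat_lit 122)) (XT.lf (nat_lit 0) (nat_lit 12870565159) (nat_lit 76) (nat_lit 59328800708) (nat_lit 76) (nat_lit 6930964548) (nat_lit 7) (nat_lit 4) (nat_lit 8) (nat_lit 5) (nat_lit 8) (nat_lit 4) (nat_lit 394) (nat_lit 265) (nat_lit 121))) (XT.nd (nat_lit 30576) (nat_lit 0) (nat_lit 18164) (XT.lf (nat_lit 0) (nat_lit 23265578543) (nat_lit 76) (nat_lit 55240694468) (nat_lit 76) (nat_lit 2820918340) (nat_lit 7) (nat_lit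 4) (nat_lit 8) (nat_lit 5) (nat_lit 8) (nat_lit 4) (nat_lit 395) (nat_lit 265) (nat_lit 120)) (XT.nd (nat_lit 78) (nat_lit 0) (nat_lit 0) (XT.lf (nat_lit 0) (nat_lit 893035203) (nat_lit 0) (nat_lit 893035203) (nat_lit 380) (nat_lit 1515703960) (nat_lit 246) (nat_lit 5) (nat_lit 246) (nat_lit 3) (nat_lit 251) (nat_lit 3) (nat_lit 266) (nat_lit 266) (nat_lit 248)) (XT.lf (nat_lit 0) (nat_lit 4683974827) (nat_lit 0) (nat_lit 1035798069) (nat_lit 380) (nat_lit 912212773) (nat_lit 246) (nat_lit 5) (nat_lit 246) (nat_lit 3) (nat_lit 251) (nat_lit 3) (nat_lit 267) (nat_lit 266) (nat_lit 247))))) (XT.nd (nat_lit 234) (nat_lit 456) (nat_lit 0) (XT.nd (nat_lit 78) (nat_lit 0) (nat_lit 76) (XT.lf (nat_lit 76) (nat_lit 971477986) (nat_lit 0) (nat_lit 200793169) (nat_lit 532) (nat_lit 5491138319) (nat_lit 240) (nat_lit 5) (nat_lit 239) (nat_lit 3) (nat_lit 246) (nat_lit 5) (nat_lit 268) (nat_lit 266) (nat_lit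 246)) (XT.nd (nat_lit 78) (nat_lit 0) (nat_lit 0) (XT.lf (nat_lit 0) (nat_lit 3246700427) (nat_lit 456) (nat_lit 2737733610) (nat_lit 532) (nat_lit 712985389) (nat_lit 240) (nat_lit 5) (nat_lit 246) (nat_lit 5) (nat_lit 247) (nat_lit 5) (nat_lit 269) (nat_lit 266) (nat_lit 245)) (XT.lf (nat_lit 76) (nat_lit 264112505) (nat_lit 0) (nat_lit 5045662675) (nat_lit 532) (nat_lit 1425160512) (nat_lit 241) (nat_lit 5) (nat_lit 240) (nat_lit 5) (nat_lit 247) (nat_lit 5) (nat_lit 270) (nat_lit 266) (nat_lit 244)))) (XT.nd (nat_lit 78) (nat_lit 0) (nat_lit 0) (XT.lf (nat_lit 0) (nat_lit 598903174) (nat_lit 532) (nat_lit 3412753534) (nat_lit 608) (nat_lit 2763473280) (nat_lit 233) (nat_lit 5) (nat_lit 240) (nat_lit 5) (nat_lit 241) (nat_lit 5) (nat_lit 271) (nat_lit 266) (nat_lit 243)) (XT.nd (nat_lit 78) (nat_lit 0) (nat_lit 0) (XT.lf (nat_lit 0) (nat_lit 2580015997) (nat_lit 532) (nat_lit 321237807) (nat_lit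 608) (nat_lit 3917358619) (nat_lit 233) (nat_lit 5) (nat_lit 240) (nat_lit 5) (nat_lit 241) (nat_lit 5) (nat_lit 272) (nat_lit 266) (nat_lit 242)) (XT.lf (nat_lit 76) (nat_lit 2876250847) (nat_lit 0) (nat_lit 1699116476) (nat_lit 608) (nat_lit 2289635204) (nat_lit 234) (nat_lit 5) (nat_lit 233) (nat_lit 5) (nat_lit 241) (nat_lit 5) (nat_lit 273) (nat_lit 266) (nat_lit 241)))))) (XT.nd (nat_lit 390) (nat_lit 1444) (nat_lit 0) (XT.nd (nat_lit 156) (nat_lit 684) (nat_lit 0) (XT.nd (nat_lit 78) (nat_lit 532) (nat_lit 0) (XT.lf (nat_lit 76) (nat_lit 6133771239) (nat_lit 0) (nat_lit 428921981) (nat_lit 608) (nat_lit 352367840) (nat_lit 234) (nat_lit 5) (nat_lit 233) (nat_lit 5) (nat_lit 241) (nat_lit 5) (nat_lit 274) (nat_lit 266) (nat_lit 240)) (XT.lf (nat_lit 0) (nat_lit 1574249501) (nat_lit 608) (nat_lit 4464081794) (nat_lit 684) (nat_lit 929143808) (nat_lit 226) (nat_lit 5) (nat_lit 234) (nat_lit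 5) (nat_lit 235) (nat_lit 5) (nat_lit 275) (nat_lit 266) (nat_lit 239))) (XT.nd (nat_lit 78) (nat_lit 684) (nat_lit 0) (XT.lf (nat_lit 0) (nat_lit 3495706031) (nat_lit 608) (nat_lit 1171364362) (nat_lit 684) (nat_lit 2356182590) (nat_lit 226) (nat_lit 5) (nat_lit 234) (nat_lit 5) (nat_lit 235) (nat_lit 5) (nat_lit 276) (nat_lit 266) (nat_lit 238)) (XT.nd (nat_lit 78) (nat_lit 684) (nat_lit 0) (XT.lf (nat_lit 76) (nat_lit 2219801960) (nat_lit 0) (nat_lit 3210234189) (nat_lit 684) (nat_lit 1652224521) (nat_lit 227) (nat_lit 5) (nat_lit 226) (nat_lit 5) (nat_lit 235) (nat_lit 5) (nat_lit 277) (nat_lit 266) (nat_lit 237)) (XT.lf (nat_lit 0) (nat_lit 220411023) (nat_lit 684) (nat_lit 1453495662) (nat_lit 760) (nat_lit 5470857317) (nat_lit 217) (nat_lit 5) (nat_lit 226) (nat_lit 5) (nat_lit 227) (nat_lit 5) (nat_lit 278) (nat_lit 266) (nat_lit 236))))) (XT.nd (nat_lit 234) (nat_lit 836) (nat_lit 0)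 (XT.nd (nat_lit 78) (nat_lit 608) (nat_lit 0) (XT.lf (nat_lit 76) (nat_lit 2037718958) (nat_lit 0) (nat_lit 34351562) (nat_lit 760) (nat_lit 5138094828) (nat_lit 218) (nat_lit 5) (nat_lit 217) (nat_lit 5) (nat_lit 227) (nat_lit 5) (nat_lit 279) (nat_lit 266) (nat_lit 235)) (XT.nd (nat_lit 78) (nat_lit 684) (nat_lit 0) (XT.lf (nat_lit 0) (nat_lit 3948091591) (nat_lit 684) (nat_lit 1674903795) (nat_lit 76) (nat_lit 1655658566) (nat_lit 218) (nat_lit 5) (nat_lit 227) (nat_lit 5) (nat_lit 219) (nat_lit 5) (nat_lit 280) (nat_lit 266) (nat_lit 234)) (XT.lf (nat_lit 0) (nat_lit 1920791665) (nat_lit 684) (nat_lit 3918294887) (nat_lit 760) (nat_lit 1511533916) (nat_lit 209) (nat_lit 5) (nat_lit 218) (nat_lit 5) (nat_lit 219) (nat_lit 5) (nat_lit 281) (nat_lit 266) (nat_lit 233)))) (XT.nd (nat_lit 78) (nat_lit 760) (nat_lit 0) (XT.lf (nat_lit 0) (nat_lit 312545840) (nat_lit 760) (nat_lit 1814037234) (nat_lit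 76) (nat_lit 5299505612) (nat_lit 208) (nat_lit 5) (nat_lit 218) (nat_lit 5) (nat_lit 209) (nat_lit 5) (nat_lit 282) (nat_lit 266) (nat_lit 232)) (XT.nd (nat_lit 78) (nat_lit 0) (nat_lit 0) (XT.lf (nat_lit 0) (nat_lit 1888578798) (nat_lit 760) (nat_lit 232742016) (nat_lit 836) (nat_lit 5383409001) (nat_lit 198) (nat_lit 5) (nat_lit 208) (nat_lit 5) (nat_lit 209) (nat_lit 5) (nat_lit 283) (nat_lit 266) (nat_lit 231)) (XT.lf (nat_lit 0) (nat_lit 3962969405) (nat_lit 836) (nat_lit 1907514602) (nat_lit 76) (nat_lit 1716051390) (nat_lit 198) (nat_lit 5) (nat_lit 209) (nat_lit 5) (nat_lit 199) (nat_lit 5) (nat_lit 284) (nat_lit 266) (nat_lit 230))))))) (XT.nd (nat_lit 858) (nat_lit 2964) (nat_lit 0) (XT.nd (nat_lit 390) (nat_lit 2356) (nat_lit 0) (XT.nd (nat_lit 156) (nat_lit 1976) (nat_lit 0) (XT.nd (nat_lit 78) (nat_lit 0) (nat_lit 0) (XT.lf (nat_lit 0) (nat_lit 1903434683) (nat_lit 836) (nat_lit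 3922274062) (nat_lit 912) (nat_lit 1846269927) (nat_lit 187) (nat_lit 5) (nat_lit 198) (nat_lit 5) (nat_lit 199) (nat_lit 5) (nat_lit 285) (nat_lit 266) (nat_lit 229)) (XT.lf (nat_lit 0) (nat_lit 5824459177) (nat_lit 836) (nat_lit 1885551377) (nat_lit 912) (nat_lit 51158422) (nat_lit 187) (nat_lit 5) (nat_lit 198) (nat_lit 5) (nat_lit 199) (nat_lit 5) (nat_lit 286) (nat_lit 266) (nat_lit 228))) (XT.nd (nat_lit 78) (nat_lit 988) (nat_lit 0) (XT.lf (nat_lit 0) (nat_lit 1731645745) (nat_lit 988) (nat_lit 5867849662) (nat_lit 76) (nat_lit 254098796) (nat_lit 174) (nat_lit 5) (nat_lit 187) (nat_lit 5) (nat_lit 175) (nat_lit 5) (nat_lit 287) (nat_lit 266) (nat_lit 227)) (XT.nd (nat_lit 78) (nat_lit 988) (nat_lit 0) (XT.lf (nat_lit 0) (nat_lit 3553848267) (nat_lit 988) (nat_lit 1946634865) (nat_lit 76) (nat_lit 2448826646) (nat_lit 174) (nat_lit 5) (nat_lit 187) (nat_lit 5) (nat_lit 175) (nat_lit 5)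 (nat_lit 288) (nat_lit 266) (nat_lit 226)) (XT.lf (nat_lit 0) (nat_lit 2089659595) (nat_lit 988) (nat_lit 3311166716) (nat_lit 1064) (nat_lit 2648104177) (nat_lit 161) (nat_lit 5) (nat_lit 174) (nat_lit 5) (nat_lit 175) (nat_lit 5) (nat_lit 289) (nat_lit 266) (nat_lit 225))))) (XT.nd (nat_lit 234) (nat_lit 1216) (nat_lit 0) (XT.nd (nat_lit 78) (nat_lit 1140) (nat_lit 0) (XT.lf (nat_lit 0) (nat_lit 6244038268) (nat_lit 988) (nat_lit 1029898180) (nat_lit 1064) (nat_lit 878614652) (nat_lit 161) (nat_lit 5) (nat_lit 174) (nat_lit 5) (nat_lit 175) (nat_lit 5) (nat_lit 290) (nat_lit 266) (nat_lit 224)) (XT.nd (nat_lit 78) (nat_lit 0) (nat_lit 0) (XT.lf (nat_lit 0) (nat_lit 912162110) (nat_lit 1140) (nat_lit 6016994429) (nat_lit 76) (nat_lit 1330378225) (nat_lit 146) (nat_lit 5) (nat_lit 161) (nat_lit 5) (nat_lit 147) (nat_lit 5) (nat_lit 291) (nat_lit 266) (nat_lit 223)) (XT.lf (nat_lit 0) (nat_lit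 2721597181) (nat_lit 1140) (nat_lit 1874892741) (nat_lit 76) (nat_lit 3773620893) (nat_lit 146) (nat_lit 5) (nat_lit 161) (nat_lit 5) (nat_lit 147) (nat_lit 5) (nat_lit 292) (nat_lit 266) (nat_lit 222)))) (XT.nd (nat_lit 78) (nat_lit 532) (nat_lit 0) (XT.lf (nat_lit 0) (nat_lit 2395593678) (nat_lit 684) (nat_lit 2167054611) (nat_lit 760) (nat_lit 3922154005) (nat_lit 137) (nat_lit 5) (nat_lit 146) (nat_lit 5) (nat_lit 147) (nat_lit 5) (nat_lit 293) (nat_lit 266) (nat_lit 221)) (XT.nd (nat_lit 78) (nat_lit 532) (nat_lit 0) (XT.lf (nat_lit 0) (nat_lit 6436528792) (nat_lit 760) (nat_lit 1816838103) (nat_lit 76) (nat_lit 350354381) (nat_lit 137) (nat_lit 5) (nat_lit 147) (nat_lit 5) (nat_lit 138) (nat_lit 5) (nat_lit 294) (nat_lit 266) (nat_lit 220)) (XT.lf (nat_lit 0) (nat_lit 2569980109) (nat_lit 532) (nat_lit 5799363969) (nat_lit 608) (nat_lit 356893551) (nat_lit 130) (nat_lit 5) (nat_lit 137)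 (nat_lit 5) (nat_lit 138) (nat_lit 5) (nat_lit 295) (nat_lit 266) (nat_lit 219)))))) (XT.nd (nat_lit 468) (nat_lit 1368) (nat_lit 0) (XT.nd (nat_lit 234) (nat_lit 988) (nat_lit 0) (XT.nd (nat_lit 78) (nat_lit 532) (nat_lit 0) (XT.lf (nat_lit 0) (nat_lit 1453713692) (nat_lit 608) (nat_lit 1783871572) (nat_lit 76) (nat_lit 5615251773) (nat_lit 129) (nat_lit 5) (nat_lit 137) (nat_lit 5) (nat_lit 130) (nat_lit 5) (nat_lit 296) (nat_lit 266) (nat_lit 218)) (XT.nd (nat_lit 78) (nat_lit 0) (nat_lit 0) (XT.lf (nat_lit 0) (nat_lit 2727666291) (nat_lit 532) (nat_lit 568167351) (nat_lit 608) (nat_lit 5687865650) (nat_lit 122) (nat_lit 5) (nat_lit 129) (nat_lit 5) (nat_lit 130) (nat_lit 5) (nat_lit 297) (nat_lit 266) (nat_lit 217)) (XT.lf (nat_lit 0) (nat_lit 5191344490) (nat_lit 608) (nat_lit 1770606688) (nat_lit 76) (nat_lit 2156691353) (nat_lit 122) (nat_lit 5) (nat_lit 130) (nat_lit 5) (nat_lit 123)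 (nat_lit 5) (nat_lit 298) (nat_lit 266) (nat_lit 216)))) (XT.nd (nat_lit 78) (nat_lit 532) (nat_lit 0) (XT.lf (nat_lit 0) (nat_lit 2858140353) (nat_lit 456) (nat_lit 4278842091) (nat_lit 532) (nat_lit 2120949827) (nat_lit 116) (nat_lit 5) (nat_lit 122) (nat_lit 5) (nat_lit 123) (nat_lit 5) (nat_lit 299) (nat_lit 266) (nat_lit 215)) (XT.nd (nat_lit 78) (nat_lit 532) (nat_lit 0) (XT.lf (nat_lit 0) (nat_lit 7621062033) (nat_lit 456) (nat_lit 1498735696) (nat_lit 532) (nat_lit 282331985) (nat_lit 116) (nat_lit 5) (nat_lit 122) (nat_lit 5) (nat_lit 123) (nat_lit 5) (nat_lit 300) (nat_lit 266) (nat_lit 214)) (XT.lf (nat_lit 0) (nat_lit 1583764076) (nat_lit 532) (nat_lit 6585901996) (nat_lit 76) (nat_lit 1380497264) (nat_lit 109) (nat_lit 5) (nat_lit 116) (nat_lit 5) (nat_lit 110) (nat_lit 5) (nat_lit 301) (nat_lit 266) (nat_lit 213))))) (XT.nd (nat_lit 234) (nat_lit 912) (nat_lit 0) (XT.nd (nat_lit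 78) (nat_lit 456) (nat_lit 0) (XT.lf (nat_lit 0) (nat_lit 3495479708) (nat_lit 532) (nat_lit 1872884426) (nat_lit 76) (nat_lit 4334415976) (nat_lit 109) (nat_lit 5) (nat_lit 116) (nat_lit 5) (nat_lit 110) (nat_lit 5) (nat_lit 302) (nat_lit 266) (nat_lit 212)) (XT.nd (nat_lit 78) (nat_lit 0) (nat_lit 0) (XT.lf (nat_lit 0) (nat_lit 2999834066) (nat_lit 456) (nat_lit 2456955732) (nat_lit 532) (nat_lit 4403501158) (nat_lit 103) (nat_lit 5) (nat_lit 109) (nat_lit 5) (nat_lit 110) (nat_lit 5) (nat_lit 303) (nat_lit 266) (nat_lit 211)) (XT.lf (nat_lit 0) (nat_lit 7465298938) (nat_lit 532) (nat_lit 2011181500) (nat_lit 76) (nat_lit 546476342) (nat_lit 103) (nat_lit 5) (nat_lit 110) (nat_lit 5) (nat_lit 104) (nat_lit 5) (nat_lit 304) (nat_lit 266) (nat_lit 210)))) (XT.nd (nat_lit 78) (nat_lit 456) (nat_lit 0) (XT.lf (nat_lit 0) (nat_lit 2977589314) (nat_lit 456) (nat_lit 6574521741) (nat_lit 532) (nat_lit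 637928194) (nat_lit 97) (nat_lit 5) (nat_lit 103) (nat_lit 5) (nat_lit 104) (nat_lit 5) (nat_lit 305) (nat_lit 266) (nat_lit 209)) (XT.nd (nat_lit 78) (nat_lit 380) (nat_lit 0) (XT.lf (nat_lit 0) (nat_lit 1299090522) (nat_lit 532) (nat_lit 2257484548) (nat_lit 76) (nat_lit 6805671480) (nat_lit 96) (nat_lit 5) (nat_lit 103) (nat_lit 5) (nat_lit 97) (nat_lit 5) (nat_lit 306) (nat_lit 266) (nat_lit 208)) (XT.lf (nat_lit 0) (nat_lit 2856591029) (nat_lit 380) (nat_lit 418599841) (nat_lit 456) (nat_lit 7264497409) (nat_lit 91) (nat_lit 5) (nat_lit 96) (nat_lit 5) (nat_lit 97) (nat_lit 5) (nat_lit 307) (nat_lit 266) (nat_lit 207))))))))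
noncomputable def xc129 : XT := (XT.nd (nat_lit 1716) (nat_lit 1748) (nat_lit 0) (XT.nd (nat_lit 858) (nat_lit 1520) (nat_lit 0) (XT.nd (nat_lit 390) (nat_lit 1064) (nat_lit 0) (XT.nd (nat_lit 156) (nat_lit 456) (nat_lit 0) (XT.nd (nat_lit 78) (nat_lit 380) (nat_lit 0) (XT.lf (nat_lit 0) (nat_lit 5327531392) (nat_lit 456) (nat_lit 2618266203) (nat_lit 76) (nat_lit 2776216341) (nat_lit 91) (nat_lit 5) (nat_lit 97) (nat_lit 5) (nat_lit 92) (nat_lit 5) (nat_lit 308) (nat_lit 266) (nat_lit 206)) (XT.lf (nat_lit 0) (nat_lit 2606795330) (nat_lit 380) (nat_lit 4831703897) (nat_lit 456) (nat_lit 3471465794) (nat_lit 86) (nat_lit 5) (nat_lit 91) (nat_lit 5) (nat_lit 92) (nat_lit 5) (nat_lit 309) (nat_lit 266) (nat_lit 205))) (XT.nd (nat_lit 78) (nat_lit 456) (nat_lit 0) (XT.lf (nat_lit 0) (nat_lit 8004219582) (nat_lit 380) (nat_lit 1603440717) (nat_lit 456) (nat_lit 1496113822) (nat_lit 86) (nat_lit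 5) (nat_lit 91) (nat_lit 5) (nat_lit 92) (nat_lit 5) (nat_lit 310) (nat_lit 266) (nat_lit 204)) (XT.nd (nat_lit 78) (nat_lit 0) (nat_lit 0) (XT.lf (nat_lit 0) (nat_lit 535460915) (nat_lit 456) (nat_lit 9058843985) (nat_lit 76) (nat_lit 1708774849) (nat_lit 80) (nat_lit 5) (nat_lit 86) (nat_lit 5) (nat_lit 81) (nat_lit 5) (nat_lit 311) (nat_lit 266) (nat_lit 203)) (XT.lf (nat_lit 0) (nat_lit 2614856290) (nat_lit 456) (nat_lit 3764717955) (nat_lit 76) (nat_lit 5127897456) (nat_lit 80) (nat_lit 5) (nat_lit 86) (nat_lit 5) (nat_lit 81) (nat_lit 5) (nat_lit 312) (nat_lit 266) (nat_lit 202))))) (XT.nd (nat_lit 234) (nat_lit 380) (nat_lit 0) (XT.nd (nat_lit 78) (nat_lit 304) (nat_lit 0) (XT.lf (nat_lit 0) (nat_lit 1684033764) (nat_lit 380) (nat_lit 3059136106) (nat_lit 456) (nat_lit 6975287565) (nat_lit 75) (nat_lit 5) (nat_lit 80) (nat_lit 5) (nat_lit 81) (nat_lit 5) (nat_lit 313) (nat_lit 266) (nat_lit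 201)) (XT.nd (nat_lit 78) (nat_lit 304) (nat_lit 0) (XT.lf (nat_lit 0) (nat_lit 6947981507) (nat_lit 456) (nat_lit 4602611268) (nat_lit 76) (nat_lit 384856930) (nat_lit 75) (nat_lit 5) (nat_lit 81) (nat_lit 5) (nat_lit 76) (nat_lit 5) (nat_lit 314) (nat_lit 266) (nat_lit 200)) (XT.lf (nat_lit 0) (nat_lit 943823909) (nat_lit 304) (nat_lit 8286112190) (nat_lit 380) (nat_lit 2928740464) (nat_lit 71) (nat_lit 5) (nat_lit 75) (nat_lit 5) (nat_lit 76) (nat_lit 5) (nat_lit 315) (nat_lit 266) (nat_lit 199)))) (XT.nd (nat_lit 78) (nat_lit 380) (nat_lit 0) (XT.lf (nat_lit 0) (nat_lit 6714898091) (nat_lit 304) (nat_lit 4884045151) (nat_lit 380) (nat_lit 789152350) (nat_lit 71) (nat_lit 5) (nat_lit 75) (nat_lit 5) (nat_lit 76) (nat_lit 5) (nat_lit 316) (nat_lit 266) (nat_lit 198)) (XT.nd (nat_lit 78) (nat_lit 304) (nat_lit 0) (XT.lf (nat_lit 0) (nat_lit 1359629053) (nat_lit 380) (nat_lit 14537687) (nat_lit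 76) (nat_lit 11250694336) (nat_lit 70) (nat_lit 5) (nat_lit 75) (nat_lit 5) (nat_lit 71) (nat_lit 5) (nat_lit 317) (nat_lit 266) (nat_lit 197)) (XT.lf (nat_lit 0) (nat_lit 3609105939) (nat_lit 380) (nat_lit 7003423148) (nat_lit 76) (nat_lit 2254451908) (nat_lit 66) (nat_lit 5) (nat_lit 71) (nat_lit 5) (nat_lit 67) (nat_lit 5) (nat_lit 318) (nat_lit 266) (nat_lit 196)))))) (XT.nd (nat_lit 390) (nat_lit 836) (nat_lit 0) (XT.nd (nat_lit 156) (nat_lit 380) (nat_lit 0) (XT.nd (nat_lit 78) (nat_lit 304) (nat_lit 0) (XT.lf (nat_lit 0) (nat_lit 5913595846) (nat_lit 380) (nat_lit 1246695720) (nat_lit 76) (nat_lit 5956494337) (nat_lit 66) (nat_lit 5) (nat_lit 71) (nat_lit 5) (nat_lit 67) (nat_lit 5) (nat_lit 319) (nat_lit 266) (nat_lit 195)) (XT.lf (nat_lit 0) (nat_lit 4741249666) (nat_lit 304) (nat_lit 3566085264) (nat_lit 380) (nat_lit 5066192471) (nat_lit 62) (nat_lit 5) (nat_lit 66) (nat_lit 5) (nat_lit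 67) (nat_lit 5) (nat_lit 320) (nat_lit 266) (nat_lit 194))) (XT.nd (nat_lit 78) (nat_lit 380) (nat_lit 0) (XT.lf (nat_lit 0) (nat_lit 10761780534) (nat_lit 380) (nat_lit 2739017751) (nat_lit 76) (nat_lit 137550569) (nat_lit 62) (nat_lit 5) (nat_lit 67) (nat_lit 5) (nat_lit 63) (nat_lit 5) (nat_lit 321) (nat_lit 266) (nat_lit 193)) (XT.nd (nat_lit 78) (nat_lit 76) (nat_lit 0) (XT.lf (nat_lit 0) (nat_lit 3327278588) (nat_lit 304) (nat_lit 10005478072) (nat_lit 380) (nat_lit 577114618) (nat_lit 58) (nat_lit 5) (nat_lit 62) (nat_lit 5) (nat_lit 63) (nat_lit 5) (nat_lit 322) (nat_lit 266) (nat_lit 192)) (XT.lf (nat_lit 0) (nat_lit 1760019621) (nat_lit 380) (nat_lit 4608069341) (nat_lit 76) (nat_lit 7820865032) (nat_lit 57) (nat_lit 5) (nat_lit 62) (nat_lit 5) (nat_lit 58) (nat_lit 5) (nat_lit 323) (nat_lit 266) (nat_lit 191))))) (XT.nd (nat_lit 234) (nat_lit 608) (nat_lit 0) (XT.nd (nat_lit 78) (nat_lit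 0) (nat_lit 0) (XT.lf (nat_lit 0) (nat_lit 1537375844) (nat_lit 228) (nat_lit 2609497532) (nat_lit 304) (nat_lit 10329667822) (nat_lit 54) (nat_lit 5) (nat_lit 57) (nat_lit 5) (nat_lit 58) (nat_lit 5) (nat_lit 324) (nat_lit 266) (nat_lit 190)) (XT.nd (nat_lit 78) (nat_lit 0) (nat_lit 0) (XT.lf (nat_lit 0) (nat_lit 6641171336) (nat_lit 304) (nat_lit 6855232173) (nat_lit 76) (nat_lit 1275315772) (nat_lit 54) (nat_lit 5) (nat_lit 58) (nat_lit 5) (nat_lit 55) (nat_lit 5) (nat_lit 325) (nat_lit 266) (nat_lit 189)) (XT.lf (nat_lit 0) (nat_lit 9213528744) (nat_lit 304) (nat_lit 646585579) (nat_lit 76) (nat_lit 5215578770) (nat_lit 54) (nat_lit 5) (nat_lit 58) (nat_lit 5) (nat_lit 55) (nat_lit 5) (nat_lit 326) (nat_lit 266) (nat_lit 188)))) (XT.nd (nat_lit 78) (nat_lit 304) (nat_lit 0) (XT.lf (nat_lit 0) (nat_lit 5831068699) (nat_lit 304) (nat_lit 6066092305) (nat_lit 380) (nat_lit 3490638206) (nat_lit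 50) (nat_lit 5) (nat_lit 54) (nat_lit 5) (nat_lit 55) (nat_lit 5) (nat_lit 327) (nat_lit 266) (nat_lit 187)) (XT.nd (nat_lit 78) (nat_lit 304) (nat_lit 0) (XT.lf (nat_lit 0) (nat_lit 12485574393) (nat_lit 304) (nat_lit 2160653250) (nat_lit 380) (nat_lit 1063528266) (nat_lit 50) (nat_lit 5) (nat_lit 54) (nat_lit 5) (nat_lit 55) (nat_lit 5) (nat_lit 328) (nat_lit 266) (nat_lit 186)) (XT.lf (nat_lit 0) (nat_lit 1437317872) (nat_lit 304) (nat_lit 12739923668) (nat_lit 76) (nat_lit 1862880123) (nat_lit 46) (nat_lit 5) (nat_lit 50) (nat_lit 5) (nat_lit 47) (nat_lit 5) (nat_lit 329) (nat_lit 266) (nat_lit 185))))))) (XT.nd (nat_lit 858) (nat_lit 836) (nat_lit 0) (XT.nd (nat_lit 390) (nat_lit 456) (nat_lit 0) (XT.nd (nat_lit 156) (nat_lit 228) (nat_lit 0) (XT.nd (nat_lit 78) (nat_lit 228) (nat_lit 0) (XT.lf (nat_lit 0) (nat_lit 4025112693) (nat_lit 304) (nat_lit 6355832184) (nat_lit 76) (nat_lit 5998170814)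 (nat_lit 46) (nat_lit 5) (nat_lit 50) (nat_lit 5) (nat_lit 47) (nat_lit 5) (nat_lit 330) (nat_lit 266) (nat_lit 184)) (XT.lf (nat_lit 0) (nat_lit 193888774) (nat_lit 228) (nat_lit 6478153536) (nat_lit 304) (nat_lit 10056823440) (nat_lit 43) (nat_lit 5) (nat_lit 46) (nat_lit 5) (nat_lit 47) (nat_lit 5) (nat_lit 331) (nat_lit 266) (nat_lit 183))) (XT.nd (nat_lit 78) (nat_lit 228) (nat_lit 0) (XT.lf (nat_lit 0) (nat_lit 7041003899) (nat_lit 228) (nat_lit 2401505152) (nat_lit 304) (nat_lit 7645305714) (nat_lit 43) (nat_lit 5) (nat_lit 46) (nat_lit 5) (nat_lit 47) (nat_lit 5) (nat_lit 332) (nat_lit 266) (nat_lit 182)) (XT.nd (nat_lit 78) (nat_lit 228) (nat_lit 0) (XT.lf (nat_lit 0) (nat_lit 12293812642) (nat_lit 304) (nat_lit 3410334169) (nat_lit 76) (nat_lit 1753483199) (nat_lit 43) (nat_lit 5) (nat_lit 47) (nat_lit 5) (nat_lit 44) (nat_lit 5) (nat_lit 333) (nat_lit 266) (nat_lit 181)) (XT.lf (nat_lit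 0) (nat_lit 3440383851) (nat_lit 228) (nat_lit 11828134144) (nat_lit 304) (nat_lit 2568914428) (nat_lit 40) (nat_lit 5) (nat_lit 43) (nat_lit 5) (nat_lit 44) (nat_lit 5) (nat_lit 334) (nat_lit 266) (nat_lit 180))))) (XT.nd (nat_lit 234) (nat_lit 152) (nat_lit 0) (XT.nd (nat_lit 78) (nat_lit 228) (nat_lit 0) (XT.lf (nat_lit 0) (nat_lit 117674443) (nat_lit 304) (nat_lit 7690739732) (nat_lit 76) (nat_lit 10419735786) (nat_lit 39) (nat_lit 5) (nat_lit 43) (nat_lit 5) (nat_lit 40) (nat_lit 5) (nat_lit 335) (nat_lit 266) (nat_lit 179)) (XT.nd (nat_lit 78) (nat_lit 228) (nat_lit 0) (XT.lf (nat_lit 0) (nat_lit 2814865620) (nat_lit 304) (nat_lit 836187854) (nat_lit 76) (nat_lit 14979349549) (nat_lit 39) (nat_lit 5) (nat_lit 43) (nat_lit 5) (nat_lit 40) (nat_lit 5) (nat_lit 336) (nat_lit 266) (nat_lit 178)) (XT.lf (nat_lit 0) (nat_lit 5642484403) (nat_lit 304) (nat_lit 12729414511) (nat_lit 76) (nat_lit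 671364809) (nat_lit 36) (nat_lit 5) (nat_lit 40) (nat_lit 5) (nat_lit 37) (nat_lit 5) (nat_lit 337) (nat_lit 266) (nat_lit 177)))) (XT.nd (nat_lit 78) (nat_lit 152) (nat_lit 0) (XT.lf (nat_lit 0) (nat_lit 8581959977) (nat_lit 304) (nat_lit 5835875552) (nat_lit 76) (nat_lit 5049888529) (nat_lit 36) (nat_lit 5) (nat_lit 40) (nat_lit 5) (nat_lit 37) (nat_lit 5) (nat_lit 338) (nat_lit 266) (nat_lit 176)) (XT.nd (nat_lit 78) (nat_lit 0) (nat_lit 0) (XT.lf (nat_lit 0) (nat_lit 1262984467) (nat_lit 152) (nat_lit 10341641680) (nat_lit 228) (nat_lit 8300465809) (nat_lit 34) (nat_lit 5) (nat_lit 36) (nat_lit 5) (nat_lit 37) (nat_lit 5) (nat_lit 339) (nat_lit 266) (nat_lit 175)) (XT.lf (nat_lit 0) (nat_lit 8668565709) (nat_lit 152) (nat_lit 6091453580) (nat_lit 228) (nat_lit 5594323437) (nat_lit 34) (nat_lit 5) (nat_lit 36) (nat_lit 5) (nat_lit 37) (nat_lit 5) (nat_lit 340) (nat_lit 266) (nat_lit 174))))))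 (XT.nd (nat_lit 468) (nat_lit 380) (nat_lit 0) (XT.nd (nat_lit 234) (nat_lit 152) (nat_lit 0) (XT.nd (nat_lit 78) (nat_lit 304) (nat_lit 0) (XT.lf (nat_lit 0) (nat_lit 16271193706) (nat_lit 152) (nat_lit 1722488370) (nat_lit 228) (nat_lit 2823903275) (nat_lit 34) (nat_lit 5) (nat_lit 36) (nat_lit 5) (nat_lit 37) (nat_lit 5) (nat_lit 341) (nat_lit 266) (nat_lit 173)) (XT.nd (nat_lit 78) (nat_lit 0) (nat_lit 0) (XT.lf (nat_lit 0) (nat_lit 67122954) (nat_lit 304) (nat_lit 18483761521) (nat_lit 76) (nat_lit 2742711361) (nat_lit 30) (nat_lit 5) (nat_lit 34) (nat_lit 5) (nat_lit 31) (nat_lit 5) (nat_lit 342) (nat_lit 266) (nat_lit 172)) (XT.lf (nat_lit 0) (nat_lit 3035597501) (nat_lit 304) (nat_lit 11372935704) (nat_lit 76) (nat_lit 7373111043) (nat_lit 30) (nat_lit 5) (nat_lit 34) (nat_lit 5) (nat_lit 31) (nat_lit 5) (nat_lit 343) (nat_lit 266) (nat_lit 171)))) (XT.nd (nat_lit 78) (nat_lit 152) (nat_lit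 0) (XT.lf (nat_lit 0) (nat_lit 6077647312) (nat_lit 304) (nat_lit 4072961478) (nat_lit 76) (nat_lit 12134209744) (nat_lit 30) (nat_lit 5) (nat_lit 34) (nat_lit 5) (nat_lit 31) (nat_lit 5) (nat_lit 344) (nat_lit 266) (nat_lit 170)) (XT.nd (nat_lit 78) (nat_lit 0) (nat_lit 0) (XT.lf (nat_lit 0) (nat_lit 3490655026) (nat_lit 152) (nat_lit 5738829773) (nat_lit 228) (nat_lit 13573066931) (nat_lit 28) (nat_lit 5) (nat_lit 30) (nat_lit 5) (nat_lit 31) (nat_lit 5) (nat_lit 345) (nat_lit 266) (nat_lit 169)) (XT.lf (nat_lit 0) (nat_lit 11341429663) (nat_lit 152) (nat_lit 1160762840) (nat_lit 228) (nat_lit 10832853867) (nat_lit 28) (nat_lit 5) (nat_lit 30) (nat_lit 5) (nat_lit 31) (nat_lit 5) (nat_lit 346) (nat_lit 266) (nat_lit 168))))) (XT.nd (nat_lit 234) (nat_lit 228) (nat_lit 0) (XT.nd (nat_lit 78) (nat_lit 152) (nat_lit 0) (XT.lf (nat_lit 0) (nat_lit 15892789850) (nat_lit 228) (nat_lit 4512894032)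 (nat_lit 76) (nat_lit 3477259063) (nat_lit 28) (nat_lit 5) (nat_lit 31) (nat_lit 5) (nat_lit 29) (nat_lit 5) (nat_lit 347) (nat_lit 266) (nat_lit 167)) (XT.nd (nat_lit 78) (nat_lit 0) (nat_lit 0) (XT.lf (nat_lit 0) (nat_lit 3221349510) (nat_lit 152) (nat_lit 16192174065) (nat_lit 228) (nat_lit 5032918106) (nat_lit 26) (nat_lit 5) (nat_lit 28) (nat_lit 5) (nat_lit 29) (nat_lit 5) (nat_lit 348) (nat_lit 266) (nat_lit 166)) (XT.lf (nat_lit 0) (nat_lit 11258080336) (nat_lit 152) (nat_lit 11813527501) (nat_lit 228) (nat_lit 1954302983) (nat_lit 26) (nat_lit 5) (nat_lit 28) (nat_lit 5) (nat_lit 29) (nat_lit 5) (nat_lit 349) (nat_lit 266) (nat_lit 165)))) (XT.nd (nat_lit 78) (nat_lit 152) (nat_lit 0) (XT.lf (nat_lit 0) (nat_lit 1179339771) (nat_lit 228) (nat_lit 6120240779) (nat_lit 76) (nat_lit 18323256601) (nat_lit 25) (nat_lit 5) (nat_lit 28) (nat_lit 5) (nat_lit 26) (nat_lit 5) (nat_lit 350) (nat_lit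 266) (nat_lit 164)) (XT.nd (nat_lit 78) (nat_lit 0) (nat_lit 0) (XT.lf (nat_lit 0) (nat_lit 1750523527) (nat_lit 152) (nat_lit 2620822433) (nat_lit 228) (nat_lit 21865651643) (nat_lit 23) (nat_lit 5) (nat_lit 25) (nat_lit 5) (nat_lit 26) (nat_lit 5) (nat_lit 351) (nat_lit 266) (nat_lit 163)) (XT.lf (nat_lit 0) (nat_lit 7729573034) (nat_lit 228) (nat_lit 16927788700) (nat_lit 76) (nat_lit 2210122682) (nat_lit 23) (nat_lit 5) (nat_lit 26) (nat_lit 5) (nat_lit 24) (nat_lit 5) (nat_lit 352) (nat_lit 266) (nat_lit 162))))))))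
noncomputable def xc130 : XT := (XT.nd (nat_lit 1716) (nat_lit 456) (nat_lit 0) (XT.nd (nat_lit 858) (nat_lit 304) (nat_lit 0) (XT.nd (nat_lit 390) (nat_lit 304) (nat_lit 0) (XT.nd (nat_lit 156) (nat_lit 152) (nat_lit 0) (XT.nd (nat_lit 78) (nat_lit 0) (nat_lit 0) (XT.lf (nat_lit 0) (nat_lit 11201791745) (nat_lit 228) (nat_lit 9188860731) (nat_lit 76) (nat_lit 7125850932) (nat_lit 23) (nat_lit 5) (nat_lit 26) (nat_lit 5) (nat_lit 24) (nat_lit 5) (nat_lit 353) (nat_lit 266) (nat_lit 161)) (XT.lf (nat_lit 0) (nat_lit 14765843124) (nat_lit 228) (nat_lit 1237735051) (nat_lit 76) (nat_lit 12181799299) (nat_lit 23) (nat_lit 5) (nat_lit 26) (nat_lit 5) (nat_lit 24) (nat_lit 5) (nat_lit 354) (nat_lit 266) (nat_lit 160))) (XT.nd (nat_lit 78) (nat_lit 0) (nat_lit 0) (XT.lf (nat_lit 0) (nat_lit 7070506983) (nat_lit 152) (nat_lit 11422300445) (nat_lit 228) (nat_lit 10379844655) (nat_lit 21) (nat_lit 5)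 (nat_lit 23) (nat_lit 5) (nat_lit 24) (nat_lit 5) (nat_lit 355) (nat_lit 266) (nat_lit 159)) (XT.nd (nat_lit 78) (nat_lit 0) (nat_lit 0) (XT.lf (nat_lit 0) (nat_lit 15634170244) (nat_lit 152) (nat_lit 6698098690) (nat_lit 228) (nat_lit 7248269003) (nat_lit 21) (nat_lit 5) (nat_lit 23) (nat_lit 5) (nat_lit 24) (nat_lit 5) (nat_lit 356) (nat_lit 266) (nat_lit 158)) (XT.lf (nat_lit 0) (nat_lit 24436104189) (nat_lit 152) (nat_lit 1839343664) (nat_lit 228) (nat_lit 4034569762) (nat_lit 21) (nat_lit 5) (nat_lit 23) (nat_lit 5) (nat_lit 24) (nat_lit 5) (nat_lit 357) (nat_lit 266) (nat_lit 157))))) (XT.nd (nat_lit 234) (nat_lit 152) (nat_lit 0) (XT.nd (nat_lit 78) (nat_lit 76) (nat_lit 0) (XT.lf (nat_lit 0) (nat_lit 2439516402) (nat_lit 76) (nat_lit 27940082051) (nat_lit 152) (nat_lit 680515811) (nat_lit 20) (nat_lit 5) (nat_lit 21) (nat_lit 5) (nat_lit 22) (nat_lit 4) (nat_lit 358) (nat_lit 266) (nat_lit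 156)) (XT.nd (nat_lit 78) (nat_lit 0) (nat_lit 0) (XT.lf (nat_lit 0) (nat_lit 2786969764) (nat_lit 152) (nat_lit 20772071792) (nat_lit 76) (nat_lit 8270876066) (nat_lit 19) (nat_lit 5) (nat_lit 21) (nat_lit 5) (nat_lit 20) (nat_lit 5) (nat_lit 359) (nat_lit 266) (nat_lit 155)) (XT.lf (nat_lit 0) (nat_lit 6333957792) (nat_lit 152) (nat_lit 12712721409) (nat_lit 76) (nat_lit 13576270856) (nat_lit 19) (nat_lit 5) (nat_lit 21) (nat_lit 5) (nat_lit 20) (nat_lit 5) (nat_lit 360) (nat_lit 266) (nat_lit 154)))) (XT.nd (nat_lit 78) (nat_lit 152) (nat_lit 0) (XT.lf (nat_lit 0) (nat_lit 9976826897) (nat_lit 152) (nat_lit 4428963028) (nat_lit 76) (nat_lit 19034310833) (nat_lit 19) (nat_lit 5) (nat_lit 21) (nat_lit 5) (nat_lit 20) (nat_lit 5) (nat_lit 361) (nat_lit 266) (nat_lit 153)) (XT.nd (nat_lit 78) (nat_lit 0) (nat_lit 0) (XT.lf (nat_lit 0) (nat_lit 4167769786) (nat_lit 152) (nat_lit 9591053535) (nat_lit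 228) (nat_lit 20522058523) (nat_lit 17) (nat_lit 5) (nat_lit 19) (nat_lit 5) (nat_lit 20) (nat_lit 5) (nat_lit 362) (nat_lit 266) (nat_lit 152)) (XT.lf (nat_lit 0) (nat_lit 13096492824) (nat_lit 152) (nat_lit 4592425933) (nat_lit 228) (nat_lit 17456939211) (nat_lit 17) (nat_lit 5) (nat_lit 19) (nat_lit 5) (nat_lit 20) (nat_lit 5) (nat_lit 363) (nat_lit 266) (nat_lit 151)))))) (XT.nd (nat_lit 390) (nat_lit 228) (nat_lit 0) (XT.nd (nat_lit 156) (nat_lit 76) (nat_lit 0) (XT.nd (nat_lit 78) (nat_lit 0) (nat_lit 0) (XT.lf (nat_lit 0) (nat_lit 21732410470) (nat_lit 228) (nat_lit 13765509141) (nat_lit 76) (nat_lit 539009427) (nat_lit 17) (nat_lit 5) (nat_lit 20) (nat_lit 5) (nat_lit 18) (nat_lit 4) (nat_lit 364) (nat_lit 266) (nat_lit 150)) (XT.lf (nat_lit 0) (nat_lit 25933110728) (nat_lit 228) (nat_lit 5294584852) (nat_lit 76) (nat_lit 5725969707) (nat_lit 17) (nat_lit 5) (nat_lit 20) (nat_lit 5)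 (nat_lit 18) (nat_lit 4) (nat_lit 365) (nat_lit 266) (nat_lit 149))) (XT.nd (nat_lit 78) (nat_lit 0) (nat_lit 0) (XT.lf (nat_lit 0) (nat_lit 3482919004) (nat_lit 76) (nat_lit 26801105782) (nat_lit 152) (nat_lit 7613162915) (nat_lit 16) (nat_lit 5) (nat_lit 17) (nat_lit 5) (nat_lit 18) (nat_lit 4) (nat_lit 366) (nat_lit 266) (nat_lit 148)) (XT.nd (nat_lit 78) (nat_lit 0) (nat_lit 0) (XT.lf (nat_lit 0) (nat_lit 12616921403) (nat_lit 76) (nat_lit 22192845483) (nat_lit 152) (nat_lit 4057929463) (nat_lit 16) (nat_lit 5) (nat_lit 17) (nat_lit 5) (nat_lit 18) (nat_lit 4) (nat_lit 367) (nat_lit 266) (nat_lit 147)) (XT.lf (nat_lit 0) (nat_lit 22010030890) (nat_lit 76) (nat_lit 17452352971) (nat_lit 152) (nat_lit 405212613) (nat_lit 16) (nat_lit 5) (nat_lit 17) (nat_lit 5) (nat_lit 18) (nat_lit 4) (nat_lit 368) (nat_lit 266) (nat_lit 146))))) (XT.nd (nat_lit 234) (nat_lit 0) (nat_lit 0) (XT.nd (nat_lit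 78) (nat_lit 152) (nat_lit 0) (XT.lf (nat_lit 0) (nat_lit 3282844289) (nat_lit 152) (nat_lit 9259491489) (nat_lit 76) (nat_lit 28354460456) (nat_lit 15) (nat_lit 5) (nat_lit 17) (nat_lit 5) (nat_lit 16) (nat_lit 5) (nat_lit 369) (nat_lit 266) (nat_lit 145)) (XT.nd (nat_lit 78) (nat_lit 152) (nat_lit 0) (XT.lf (nat_lit 0) (nat_lit 7064920259) (nat_lit 152) (nat_lit 421721337) (nat_lit 76) (nat_lit 34470372890) (nat_lit 15) (nat_lit 5) (nat_lit 17) (nat_lit 5) (nat_lit 16) (nat_lit 5) (nat_lit 370) (nat_lit 266) (nat_lit 144)) (XT.lf (nat_lit 0) (nat_lit 8839859851) (nat_lit 152) (nat_lit 2197341466) (nat_lit 228) (nat_lit 32009543942) (nat_lit 13) (nat_lit 5) (nat_lit 15) (nat_lit 5) (nat_lit 16) (nat_lit 5) (nat_lit 371) (nat_lit 266) (nat_lit 143)))) (XT.nd (nat_lit 78) (nat_lit 0) (nat_lit 0) (XT.lf (nat_lit 0) (nat_lit 15156022073) (nat_lit 228) (nat_lit 25826278478) (nat_lit 76) (nat_lit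 3186054289) (nat_lit 13) (nat_lit 5) (nat_lit 16) (nat_lit 5) (nat_lit 14) (nat_lit 4) (nat_lit 372) (nat_lit 266) (nat_lit 142)) (XT.nd (nat_lit 78) (nat_lit 0) (nat_lit 0) (XT.lf (nat_lit 0) (nat_lit 19412224882) (nat_lit 228) (nat_lit 17229487201) (nat_lit 76) (nat_lit 8681493888) (nat_lit 13) (nat_lit 5) (nat_lit 16) (nat_lit 5) (nat_lit 14) (nat_lit 4) (nat_lit 373) (nat_lit 266) (nat_lit 141)) (XT.lf (nat_lit 0) (nat_lit 23788406568) (nat_lit 228) (nat_lit 8387877628) (nat_lit 76) (nat_lit 14336657217) (nat_lit 13) (nat_lit 5) (nat_lit 16) (nat_lit 5) (nat_lit 14) (nat_lit 4) (nat_lit 374) (nat_lit 266) (nat_lit 140))))))) (XT.nd (nat_lit 858) (nat_lit 152) (nat_lit 0) (XT.nd (nat_lit 390) (nat_lit 228) (nat_lit 0) (XT.nd (nat_lit 156) (nat_lit 0) (nat_lit 0) (XT.nd (nat_lit 78) (nat_lit 0) (nat_lit 0) (XT.lf (nat_lit 0) (nat_lit 720332194) (nat_lit 76) (nat_lit 27574983056) (nat_lit 152)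 (nat_lit 19443077760) (nat_lit 12) (nat_lit 5) (nat_lit 13) (nat_lit 5) (nat_lit 14) (nat_lit 4) (nat_lit 375) (nat_lit 266) (nat_lit 139)) (XT.lf (nat_lit 0) (nat_lit 10261151819) (nat_lit 76) (nat_lit 22753594785) (nat_lit 152) (nat_lit 15983549216) (nat_lit 12) (nat_lit 5) (nat_lit 13) (nat_lit 5) (nat_lit 14) (nat_lit 4) (nat_lit 376) (nat_lit 266) (nat_lit 138))) (XT.nd (nat_lit 78) (nat_lit 0) (nat_lit 0) (XT.lf (nat_lit 0) (nat_lit 20075982674) (nat_lit 76) (nat_lit 17792607636) (nat_lit 152) (nat_lit 12427627441) (nat_lit 12) (nat_lit 5) (nat_lit 13) (nat_lit 5) (nat_lit 14) (nat_lit 4) (nat_lit 377) (nat_lit 266) (nat_lit 137)) (XT.nd (nat_lit 78) (nat_lit 0) (nat_lit 0) (XT.lf (nat_lit 0) (nat_lit 30173400822) (nat_lit 76) (nat_lit 12687686767) (nat_lit 152) (nat_lit 8772205319) (nat_lit 12) (nat_lit 5) (nat_lit 13) (nat_lit 5) (nat_lit 14) (nat_lit 4) (nat_lit 378) (nat_lit 266) (nat_lit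 136)) (XT.lf (nat_lit 0) (nat_lit 40562229252) (nat_lit 76) (nat_lit 7434371566) (nat_lit 152) (nat_lit 5014088792) (nat_lit 12) (nat_lit 5) (nat_lit 13) (nat_lit 5) (nat_lit 14) (nat_lit 4) (nat_lit 379) (nat_lit 266) (nat_lit 135))))) (XT.nd (nat_lit 234) (nat_lit 0) (nat_lit 0) (XT.nd (nat_lit 78) (nat_lit 228) (nat_lit 0) (XT.lf (nat_lit 0) (nat_lit 51251545581) (nat_lit 76) (nat_lit 2028071758) (nat_lit 152) (nat_lit 1149994069) (nat_lit 12) (nat_lit 5) (nat_lit 13) (nat_lit 5) (nat_lit 14) (nat_lit 4) (nat_lit 380) (nat_lit 266) (nat_lit 134)) (XT.nd (nat_lit 78) (nat_lit 0) (nat_lit 0) (XT.lf (nat_lit 0) (nat_lit 2865313323) (nat_lit 228) (nat_lit 49465219171) (nat_lit 76) (nat_lit 3557042803) (nat_lit 9) (nat_lit 5) (nat_lit 12) (nat_lit 5) (nat_lit 10) (nat_lit 4) (nat_lit 381) (nat_lit 266) (nat_lit 133)) (XT.lf (nat_lit 0) (nat_lit 7024055564) (nat_lit 228) (nat_lit 41055192004) (nat_lit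 76) (nat_lit 9308312064) (nat_lit 9) (nat_lit 5) (nat_lit 12) (nat_lit 5) (nat_lit 10) (nat_lit 4) (nat_lit 382) (nat_lit 266) (nat_lit 132)))) (XT.nd (nat_lit 78) (nat_lit 0) (nat_lit 0) (XT.lf (nat_lit 0) (nat_lit 11301345968) (nat_lit 228) (nat_lit 32403573632) (nat_lit 76) (nat_lit 15227815946) (nat_lit 9) (nat_lit 5) (nat_lit 12) (nat_lit 5) (nat_lit 10) (nat_lit 4) (nat_lit 383) (nat_lit 266) (nat_lit 131)) (XT.nd (nat_lit 78) (nat_lit 0) (nat_lit 0) (XT.lf (nat_lit 0) (nat_lit 15700921973) (nat_lit 228) (nat_lit 23502804390) (nat_lit 76) (nat_lit 21320726830) (nat_lit 9) (nat_lit 5) (nat_lit 12) (nat_lit 5) (nat_lit 10) (nat_lit 4) (nat_lit 384) (nat_lit 266) (nat_lit 130)) (XT.lf (nat_lit 0) (nat_lit 20226627869) (nat_lit 228) (nat_lit 14345106904) (nat_lit 76) (nat_lit 27592368620) (nat_lit 9) (nat_lit 5) (nat_lit 12) (nat_lit 5) (nat_lit 10) (nat_lit 4) (nat_lit 385) (nat_lit 266)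 (nat_lit 129)))))) (XT.nd (nat_lit 468) (nat_lit 76) (nat_lit 0) (XT.nd (nat_lit 234) (nat_lit 0) (nat_lit 0) (XT.nd (nat_lit 78) (nat_lit 76) (nat_lit 0) (XT.lf (nat_lit 0) (nat_lit 24882418156) (nat_lit 228) (nat_lit 4922479305) (nat_lit 76) (nat_lit 34048221390) (nat_lit 9) (nat_lit 5) (nat_lit 12) (nat_lit 5) (nat_lit 10) (nat_lit 4) (nat_lit 386) (nat_lit 266) (nat_lit 128)) (XT.nd (nat_lit 78) (nat_lit 0) (nat_lit 0) (XT.lf (nat_lit 0) (nat_lit 4868310035) (nat_lit 76) (nat_lit 24850848138) (nat_lit 152) (nat_lit 35872413316) (nat_lit 8) (nat_lit 5) (nat_lit 9) (nat_lit 5) (nat_lit 10) (nat_lit 4) (nat_lit 387) (nat_lit 266) (nat_lit 127)) (XT.lf (nat_lit 0) (nat_lit 15044306994) (nat_lit 76) (nat_lit 19700949875) (nat_lit 152) (nat_lit 32635597996) (nat_lit 8) (nat_lit 5) (nat_lit 9) (nat_lit 5) (nat_lit 10) (nat_lit 4) (nat_lit 388) (nat_lit 266) (nat_lit 126)))) (XT.nd (nat_lit 78)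 (nat_lit 0) (nat_lit 0) (XT.lf (nat_lit 0) (nat_lit 25516436229) (nat_lit 76) (nat_lit 14400410150) (nat_lit 152) (nat_lit 29307133840) (nat_lit 8) (nat_lit 5) (nat_lit 9) (nat_lit 5) (nat_lit 10) (nat_lit 4) (nat_lit 389) (nat_lit 266) (nat_lit 125)) (XT.nd (nat_lit 78) (nat_lit 0) (nat_lit 0) (XT.lf (nat_lit 0) (nat_lit 36293848143) (nat_lit 76) (nat_lit 8944597423) (nat_lit 152) (nat_lit 25884112480) (nat_lit 8) (nat_lit 5) (nat_lit 9) (nat_lit 5) (nat_lit 10) (nat_lit 4) (nat_lit 390) (nat_lit 266) (nat_lit 124)) (XT.lf (nat_lit 0) (nat_lit 47385959893) (nat_lit 76) (nat_lit 3328744480) (nat_lit 152) (nat_lit 22363542926) (nat_lit 8) (nat_lit 5) (nat_lit 9) (nat_lit 5) (nat_lit 10) (nat_lit 4) (nat_lit 391) (nat_lit 266) (nat_lit 123))))) (XT.nd (nat_lit 234) (nat_lit 0) (nat_lit 0) (XT.nd (nat_lit 78) (nat_lit 76) (nat_lit 0) (XT.lf (nat_lit 0) (nat_lit 56373978540) (nat_lit 152) (nat_lit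 16313863879) (nat_lit 0) (nat_lit 2404207296) (nat_lit 8) (nat_lit 5) (nat_lit 10) (nat_lit 4) (nat_lit 8) (nat_lit 4) (nat_lit 392) (nat_lit 266) (nat_lit 122)) (XT.nd (nat_lit 78) (nat_lit 76) (nat_lit 0) (XT.lf (nat_lit 0) (nat_lit 62231253865) (nat_lit 152) (nat_lit 6695285382) (nat_lit 0) (nat_lit 8238884453) (nat_lit 8) (nat_lit 5) (nat_lit 10) (nat_lit 4) (nat_lit 8) (nat_lit 4) (nat_lit 393) (nat_lit 266) (nat_lit 121)) (XT.lf (nat_lit 0) (nat_lit 3267613503) (nat_lit 76) (nat_lit 65023447224) (nat_lit 76) (nat_lit 11009137843) (nat_lit 7) (nat_lit 4) (nat_lit 8) (nat_lit 5) (nat_lit 8) (nat_lit 4) (nat_lit 394) (nat_lit 266) (nat_lit 120)))) (XT.nd (nat_lit 30654) (nat_lit 0) (nat_lit 17632) (XT.lf (nat_lit 0) (nat_lit 13658724696) (nat_lit 76) (nat_lit 60937007078) (nat_lit 76) (nat_lit 6901396758) (nat_lit 7) (nat_lit 4) (nat_lit 8) (nat_lit 5) (nat_lit 8) (nat_lit 4) (nat_lit 395)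 (nat_lit 266) (nat_lit 119)) (XT.nd (nat_lit 78) (nat_lit 0) (nat_lit 0) (XT.lf (nat_lit 0) (nat_lit 571312844) (nat_lit 532) (nat_lit 1379704615) (nat_lit 532) (nat_lit 1379704615) (nat_lit 239) (nat_lit 3) (nat_lit 246) (nat_lit 3) (nat_lit 246) (nat_lit 5) (nat_lit 267) (nat_lit 267) (nat_lit 246)) (XT.lf (nat_lit 76) (nat_lit 114107788) (nat_lit 0) (nat_lit 3047344066) (nat_lit 532) (nat_lit 3532730012) (nat_lit 240) (nat_lit 5) (nat_lit 239) (nat_lit 3) (nat_lit 246) (nat_lit 5) (nat_lit 268) (nat_lit 267) (nat_lit 245))))))))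
noncomputable def xc131 : XT := (XT.nd (nat_lit 1716) (nat_lit 6156) (nat_lit 0) (XT.nd (nat_lit 858) (nat_lit 4256) (nat_lit 0) (XT.nd (nat_lit 390) (nat_lit 1140) (nat_lit 0) (XT.nd (nat_lit 156) (nat_lit 0) (nat_lit 76) (XT.nd (nat_lit 78) (nat_lit 532) (nat_lit 0) (XT.lf (nat_lit 76) (nat_lit 3089243402) (nat_lit 0) (nat_lit 2100991014) (nat_lit 532) (nat_lit 1539463941) (nat_lit 240) (nat_lit 5) (nat_lit 239) (nat_lit 3) (nat_lit 246) (nat_lit 5) (nat_lit 269) (nat_lit 267) (nat_lit 244)) (XT.lf (nat_lit 0) (nat_lit 426371194) (nat_lit 532) (nat_lit 659336771) (nat_lit 608) (nat_lit 5683002883) (nat_lit 232) (nat_lit 5) (nat_lit 239) (nat_lit 3) (nat_lit 240) (nat_lit 5) (nat_lit 270) (nat_lit 267) (nat_lit 243))) (XT.nd (nat_lit 78) (nat_lit 0) (nat_lit 0) (XT.lf (nat_lit 0) (nat_lit 2368700458) (nat_lit 532) (nat_lit 4408259273) (nat_lit 608) (nat_lit 33277663) (nat_lit 233) (nat_lit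 5) (nat_lit 240) (nat_lit 5) (nat_lit 241) (nat_lit 5) (nat_lit 271) (nat_lit 267) (nat_lit 242)) (XT.nd (nat_lit 78) (nat_lit 0) (nat_lit 0) (XT.lf (nat_lit 0) (nat_lit 4313929949) (nat_lit 532) (nat_lit 1337875840) (nat_lit 608) (nat_lit 1203112387) (nat_lit 233) (nat_lit 5) (nat_lit 240) (nat_lit 5) (nat_lit 241) (nat_lit 5) (nat_lit 272) (nat_lit 267) (nat_lit 241)) (XT.lf (nat_lit 76) (nat_lit 1818454609) (nat_lit 0) (nat_lit 4445820296) (nat_lit 608) (nat_lit 638501865) (nat_lit 234) (nat_lit 5) (nat_lit 233) (nat_lit 5) (nat_lit 241) (nat_lit 5) (nat_lit 273) (nat_lit 267) (nat_lit 240))))) (XT.nd (nat_lit 234) (nat_lit 608) (nat_lit 0) (XT.nd (nat_lit 78) (nat_lit 0) (nat_lit 0) (XT.lf (nat_lit 0) (nat_lit 1238953706) (nat_lit 608) (nat_lit 1910457969) (nat_lit 684) (nat_lit 3804194645) (nat_lit 225) (nat_lit 5) (nat_lit 233) (nat_lit 5) (nat_lit 234) (nat_lit 5) (nat_lit 274) (nat_lit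 267) (nat_lit 239)) (XT.nd (nat_lit 78) (nat_lit 0) (nat_lit 0) (XT.lf (nat_lit 76) (nat_lit 1336774299) (nat_lit 0) (nat_lit 1768042812) (nat_lit 684) (nat_lit 3902826236) (nat_lit 226) (nat_lit 5) (nat_lit 225) (nat_lit 5) (nat_lit 234) (nat_lit 5) (nat_lit 275) (nat_lit 267) (nat_lit 238)) (XT.lf (nat_lit 76) (nat_lit 4679382675) (nat_lit 0) (nat_lit 300215696) (nat_lit 684) (nat_lit 2085328220) (nat_lit 226) (nat_lit 5) (nat_lit 225) (nat_lit 5) (nat_lit 234) (nat_lit 5) (nat_lit 276) (nat_lit 267) (nat_lit 237)))) (XT.nd (nat_lit 78) (nat_lit 684) (nat_lit 0) (XT.lf (nat_lit 76) (nat_lit 963109993) (nat_lit 0) (nat_lit 5904235444) (nat_lit 684) (nat_lit 258088378) (nat_lit 227) (nat_lit 5) (nat_lit 226) (nat_lit 5) (nat_lit 235) (nat_lit 5) (nat_lit 277) (nat_lit 267) (nat_lit 236)) (XT.nd (nat_lit 78) (nat_lit 0) (nat_lit 0) (XT.lf (nat_lit 0) (nat_lit 1556044598) (nat_lit 684) (nat_lit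 2788152161) (nat_lit 760) (nat_lit 2844373476) (nat_lit 217) (nat_lit 5) (nat_lit 226) (nat_lit 5) (nat_lit 227) (nat_lit 5) (nat_lit 278) (nat_lit 267) (nat_lit 235)) (XT.lf (nat_lit 76) (nat_lit 655319789) (nat_lit 0) (nat_lit 2708709481) (nat_lit 760) (nat_lit 3891345941) (nat_lit 218) (nat_lit 5) (nat_lit 217) (nat_lit 5) (nat_lit 227) (nat_lit 5) (nat_lit 279) (nat_lit 267) (nat_lit 234)))))) (XT.nd (nat_lit 390) (nat_lit 2812) (nat_lit 0) (XT.nd (nat_lit 156) (nat_lit 836) (nat_lit 0) (XT.nd (nat_lit 78) (nat_lit 608) (nat_lit 0) (XT.lf (nat_lit 76) (nat_lit 4217506408) (nat_lit 0) (nat_lit 976612997) (nat_lit 760) (nat_lit 2131213004) (nat_lit 218) (nat_lit 5) (nat_lit 217) (nat_lit 5) (nat_lit 227) (nat_lit 5) (nat_lit 280) (nat_lit 267) (nat_lit 233)) (XT.lf (nat_lit 0) (nat_lit 447505286) (nat_lit 684) (nat_lit 6585310439) (nat_lit 760) (nat_lit 366140185) (nat_lit 209) (nat_lit 5)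 (nat_lit 218) (nat_lit 5) (nat_lit 219) (nat_lit 5) (nat_lit 281) (nat_lit 267) (nat_lit 232))) (XT.nd (nat_lit 78) (nat_lit 760) (nat_lit 0) (XT.lf (nat_lit 0) (nat_lit 1407115408) (nat_lit 760) (nat_lit 3368115869) (nat_lit 76) (nat_lit 2699799717) (nat_lit 208) (nat_lit 5) (nat_lit 218) (nat_lit 5) (nat_lit 209) (nat_lit 5) (nat_lit 282) (nat_lit 267) (nat_lit 231)) (XT.nd (nat_lit 78) (nat_lit 0) (nat_lit 0) (XT.lf (nat_lit 0) (nat_lit 282334622) (nat_lit 760) (nat_lit 2890471475) (nat_lit 836) (nat_lit 4382239111) (nat_lit 198) (nat_lit 5) (nat_lit 208) (nat_lit 5) (nat_lit 209) (nat_lit 5) (nat_lit 283) (nat_lit 267) (nat_lit 230)) (XT.lf (nat_lit 0) (nat_lit 4069487578) (nat_lit 760) (nat_lit 901105969) (nat_lit 836) (nat_lit 2667651285) (nat_lit 198) (nat_lit 5) (nat_lit 208) (nat_lit 5) (nat_lit 209) (nat_lit 5) (nat_lit 284) (nat_lit 267) (nat_lit 229))))) (XT.nd (nat_lit 234) (nat_lit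 988) (nat_lit 0) (XT.nd (nat_lit 78) (nat_lit 988) (nat_lit 0) (XT.lf (nat_lit 0) (nat_lit 196607052) (nat_lit 836) (nat_lit 6585467074) (nat_lit 912) (nat_lit 943227676) (nat_lit 187) (nat_lit 5) (nat_lit 198) (nat_lit 5) (nat_lit 199) (nat_lit 5) (nat_lit 285) (nat_lit 267) (nat_lit 228)) (XT.nd (nat_lit 78) (nat_lit 912) (nat_lit 0) (XT.lf (nat_lit 0) (nat_lit 809308277) (nat_lit 912) (nat_lit 3726372767) (nat_lit 76) (nat_lit 3279415536) (nat_lit 186) (nat_lit 5) (nat_lit 198) (nat_lit 5) (nat_lit 187) (nat_lit 5) (nat_lit 286) (nat_lit 267) (nat_lit 227)) (XT.lf (nat_lit 0) (nat_lit 141413792) (nat_lit 912) (nat_lit 2404259364) (nat_lit 988) (nat_lit 5363266616) (nat_lit 174) (nat_lit 5) (nat_lit 186) (nat_lit 5) (nat_lit 187) (nat_lit 5) (nat_lit 287) (nat_lit 267) (nat_lit 226)))) (XT.nd (nat_lit 78) (nat_lit 988) (nat_lit 0) (XT.lf (nat_lit 0) (nat_lit 4160007268) (nat_lit 912) (nat_lit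 161691954) (nat_lit 988) (nat_lit 3684408883) (nat_lit 174) (nat_lit 5) (nat_lit 186) (nat_lit 5) (nat_lit 187) (nat_lit 5) (nat_lit 288) (nat_lit 267) (nat_lit 225)) (XT.nd (nat_lit 78) (nat_lit 0) (nat_lit 0) (XT.lf (nat_lit 0) (nat_lit 132838436) (nat_lit 988) (nat_lit 5991571934) (nat_lit 1064) (nat_lit 1982711951) (nat_lit 161) (nat_lit 5) (nat_lit 174) (nat_lit 5) (nat_lit 175) (nat_lit 5) (nat_lit 289) (nat_lit 267) (nat_lit 224)) (XT.lf (nat_lit 0) (nat_lit 4266695454) (nat_lit 988) (nat_lit 3707421520) (nat_lit 1064) (nat_lit 237391655) (nat_lit 161) (nat_lit 5) (nat_lit 174) (nat_lit 5) (nat_lit 175) (nat_lit 5) (nat_lit 290) (nat_lit 267) (nat_lit 223))))))) (XT.nd (nat_lit 858) (nat_lit 2204) (nat_lit 0) (XT.nd (nat_lit 390) (nat_lit 1596) (nat_lit 0) (XT.nd (nat_lit 156) (nat_lit 1216) (nat_lit 0) (XT.nd (nat_lit 78) (nat_lit 0) (nat_lit 0) (XT.lf (nat_lit 0) (nat_lit 152012734)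 (nat_lit 1064) (nat_lit 1332584932) (nat_lit 1140) (nat_lit 6835457900) (nat_lit 146) (nat_lit 5) (nat_lit 160) (nat_lit 5) (nat_lit 161) (nat_lit 5) (nat_lit 291) (nat_lit 267) (nat_lit 222)) (XT.lf (nat_lit 0) (nat_lit 3258713300) (nat_lit 1140) (nat_lit 4034129050) (nat_lit 76) (nat_lit 1138907045) (nat_lit 146) (nat_lit 5) (nat_lit 161) (nat_lit 5) (nat_lit 147) (nat_lit 5) (nat_lit 292) (nat_lit 267) (nat_lit 221))) (XT.nd (nat_lit 78) (nat_lit 532) (nat_lit 0) (XT.lf (nat_lit 0) (nat_lit 172592664) (nat_lit 684) (nat_lit 4883948708) (nat_lit 760) (nat_lit 3491252693) (nat_lit 137) (nat_lit 5) (nat_lit 146) (nat_lit 5) (nat_lit 147) (nat_lit 5) (nat_lit 293) (nat_lit 267) (nat_lit 220)) (XT.nd (nat_lit 78) (nat_lit 532) (nat_lit 0) (XT.lf (nat_lit 0) (nat_lit 4547233966) (nat_lit 684) (nat_lit 2358341361) (nat_lit 760) (nat_lit 1761937971) (nat_lit 137) (nat_lit 5) (nat_lit 146) (nat_lit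 5) (nat_lit 147) (nat_lit 5) (nat_lit 294) (nat_lit 267) (nat_lit 219)) (XT.lf (nat_lit 0) (nat_lit 223126657) (nat_lit 532) (nat_lit 8549258124) (nat_lit 608) (nat_lit 19678302) (nat_lit 130) (nat_lit 5) (nat_lit 137) (nat_lit 5) (nat_lit 138) (nat_lit 5) (nat_lit 295) (nat_lit 267) (nat_lit 218))))) (XT.nd (nat_lit 234) (nat_lit 988) (nat_lit 0) (XT.nd (nat_lit 78) (nat_lit 532) (nat_lit 0) (XT.lf (nat_lit 0) (nat_lit 1763731760) (nat_lit 608) (nat_lit 4220340104) (nat_lit 76) (nat_lit 2935162087) (nat_lit 129) (nat_lit 5) (nat_lit 137) (nat_lit 5) (nat_lit 130) (nat_lit 5) (nat_lit 296) (nat_lit 267) (nat_lit 217)) (XT.nd (nat_lit 78) (nat_lit 0) (nat_lit 0) (XT.lf (nat_lit 0) (nat_lit 222360602) (nat_lit 532) (nat_lit 3339392172) (nat_lit 608) (nat_lit 5489715137) (nat_lit 122) (nat_lit 5) (nat_lit 129) (nat_lit 5) (nat_lit 130) (nat_lit 5) (nat_lit 297) (nat_lit 267) (nat_lit 216)) (XT.lf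 (nat_lit 0) (nat_lit 4844754474) (nat_lit 532) (nat_lit 571741824) (nat_lit 608) (nat_lit 3771185190) (nat_lit 122) (nat_lit 5) (nat_lit 129) (nat_lit 5) (nat_lit 130) (nat_lit 5) (nat_lit 298) (nat_lit 267) (nat_lit 215)))) (XT.nd (nat_lit 78) (nat_lit 532) (nat_lit 0) (XT.lf (nat_lit 0) (nat_lit 220042216) (nat_lit 456) (nat_lit 7092184133) (nat_lit 532) (nat_lit 2016288055) (nat_lit 116) (nat_lit 5) (nat_lit 122) (nat_lit 5) (nat_lit 123) (nat_lit 5) (nat_lit 299) (nat_lit 267) (nat_lit 214)) (XT.nd (nat_lit 78) (nat_lit 532) (nat_lit 0) (XT.lf (nat_lit 0) (nat_lit 4963363018) (nat_lit 456) (nat_lit 4312992182) (nat_lit 532) (nat_lit 196961842) (nat_lit 116) (nat_lit 5) (nat_lit 122) (nat_lit 5) (nat_lit 123) (nat_lit 5) (nat_lit 300) (nat_lit 267) (nat_lit 213)) (XT.lf (nat_lit 0) (nat_lit 174343813) (nat_lit 456) (nat_lit 1434273591) (nat_lit 532) (nat_lit 8014516210) (nat_lit 109) (nat_lit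 5) (nat_lit 115) (nat_lit 5) (nat_lit 116) (nat_lit 5) (nat_lit 301) (nat_lit 267) (nat_lit 212)))))) (XT.nd (nat_lit 468) (nat_lit 1216) (nat_lit 0) (XT.nd (nat_lit 234) (nat_lit 532) (nat_lit 0) (XT.nd (nat_lit 78) (nat_lit 456) (nat_lit 0) (XT.lf (nat_lit 0) (nat_lit 3488519690) (nat_lit 532) (nat_lit 4741801457) (nat_lit 76) (nat_lit 1546424459) (nat_lit 109) (nat_lit 5) (nat_lit 116) (nat_lit 5) (nat_lit 110) (nat_lit 5) (nat_lit 302) (nat_lit 267) (nat_lit 211)) (XT.nd (nat_lit 78) (nat_lit 0) (nat_lit 0) (XT.lf (nat_lit 0) (nat_lit 54197897) (nat_lit 456) (nat_lit 5349815429) (nat_lit 532) (nat_lit 4531657247) (nat_lit 103) (nat_lit 5) (nat_lit 109) (nat_lit 5) (nat_lit 110) (nat_lit 5) (nat_lit 303) (nat_lit 267) (nat_lit 210)) (XT.lf (nat_lit 0) (nat_lit 5052606905) (nat_lit 456) (nat_lit 2337383372) (nat_lit 532) (nat_lit 2709060560) (nat_lit 103) (nat_lit 5) (nat_lit 109) (nat_lit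 5) (nat_lit 110) (nat_lit 5) (nat_lit 304) (nat_lit 267) (nat_lit 209)))) (XT.nd (nat_lit 78) (nat_lit 532) (nat_lit 0) (XT.lf (nat_lit 0) (nat_lit 9409019770) (nat_lit 532) (nat_lit 112324003) (nat_lit 76) (nat_lit 746860364) (nat_lit 103) (nat_lit 5) (nat_lit 110) (nat_lit 5) (nat_lit 104) (nat_lit 5) (nat_lit 305) (nat_lit 267) (nat_lit 208)) (XT.nd (nat_lit 78) (nat_lit 0) (nat_lit 0) (XT.lf (nat_lit 0) (nat_lit 1064455249) (nat_lit 532) (nat_lit 5444888102) (nat_lit 76) (nat_lit 3931698001) (nat_lit 96) (nat_lit 5) (nat_lit 103) (nat_lit 5) (nat_lit 97) (nat_lit 5) (nat_lit 306) (nat_lit 267) (nat_lit 207)) (XT.lf (nat_lit 0) (nat_lit 2996994854) (nat_lit 532) (nat_lit 405190434) (nat_lit 76) (nat_lit 7217638798) (nat_lit 96) (nat_lit 5) (nat_lit 103) (nat_lit 5) (nat_lit 97) (nat_lit 5) (nat_lit 307) (nat_lit 267) (nat_lit 206))))) (XT.nd (nat_lit 234) (nat_lit 456) (nat_lit 0) (XT.nd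 (nat_lit 78) (nat_lit 380) (nat_lit 0) (XT.lf (nat_lit 0) (nat_lit 4843483699) (nat_lit 380) (nat_lit 158851565) (nat_lit 456) (nat_lit 5801257669) (nat_lit 91) (nat_lit 5) (nat_lit 96) (nat_lit 5) (nat_lit 97) (nat_lit 5) (nat_lit 308) (nat_lit 267) (nat_lit 205)) (XT.nd (nat_lit 78) (nat_lit 380) (nat_lit 0) (XT.lf (nat_lit 0) (nat_lit 7071343977) (nat_lit 456) (nat_lit 802772093) (nat_lit 76) (nat_lit 3118718943) (nat_lit 91) (nat_lit 5) (nat_lit 97) (nat_lit 5) (nat_lit 92) (nat_lit 5) (nat_lit 309) (nat_lit 267) (nat_lit 204)) (XT.lf (nat_lit 0) (nat_lit 4560472245) (nat_lit 380) (nat_lit 4657061263) (nat_lit 456) (nat_lit 1969831034) (nat_lit 86) (nat_lit 5) (nat_lit 91) (nat_lit 5) (nat_lit 92) (nat_lit 5) (nat_lit 310) (nat_lit 267) (nat_lit 203)))) (XT.nd (nat_lit 78) (nat_lit 380) (nat_lit 0) (XT.lf (nat_lit 0) (nat_lit 17659777) (nat_lit 456) (nat_lit 1323420636) (nat_lit 76) (nat_lit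 10047355689) (nat_lit 85) (nat_lit 5) (nat_lit 91) (nat_lit 5) (nat_lit 86) (nat_lit 5) (nat_lit 311) (nat_lit 267) (nat_lit 202)) (XT.nd (nat_lit 78) (nat_lit 0) (nat_lit 0) (XT.lf (nat_lit 0) (nat_lit 2056453983) (nat_lit 456) (nat_lit 7449694858) (nat_lit 76) (nat_lit 2087925876) (nat_lit 80) (nat_lit 5) (nat_lit 86) (nat_lit 5) (nat_lit 81) (nat_lit 5) (nat_lit 312) (nat_lit 267) (nat_lit 201)) (XT.lf (nat_lit 0) (nat_lit 4154398329) (nat_lit 456) (nat_lit 2051528963) (nat_lit 76) (nat_lit 5600072031) (nat_lit 80) (nat_lit 5) (nat_lit 86) (nat_lit 5) (nat_lit 81) (nat_lit 5) (nat_lit 313) (nat_lit 267) (nat_lit 200))))))))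
noncomputable def xc132 : XT := (XT.nd (nat_lit 1716) (nat_lit 1444) (nat_lit 0) (XT.nd (nat_lit 858) (nat_lit 1292) (nat_lit 0) (XT.nd (nat_lit 390) (nat_lit 684) (nat_lit 0) (XT.nd (nat_lit 156) (nat_lit 684) (nat_lit 0) (XT.nd (nat_lit 78) (nat_lit 0) (nat_lit 0) (XT.lf (nat_lit 0) (nat_lit 3542782067) (nat_lit 380) (nat_lit 2778604831) (nat_lit 456) (nat_lit 5702766370) (nat_lit 75) (nat_lit 5) (nat_lit 80) (nat_lit 5) (nat_lit 81) (nat_lit 5) (nat_lit 314) (nat_lit 267) (nat_lit 199)) (XT.lf (nat_lit 0) (nat_lit 8553994505) (nat_lit 456) (nat_lit 2944081497) (nat_lit 76) (nat_lit 750810733) (nat_lit 75) (nat_lit 5) (nat_lit 81) (nat_lit 5) (nat_lit 76) (nat_lit 5) (nat_lit 315) (nat_lit 267) (nat_lit 198))) (XT.nd (nat_lit 78) (nat_lit 380) (nat_lit 0) (XT.lf (nat_lit 0) (nat_lit 2751132930) (nat_lit 304) (nat_lit 8129669560) (nat_lit 380) (nat_lit 1598794686) (nat_lit 71) (nat_lit 5) (nat_lit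 75) (nat_lit 5) (nat_lit 76) (nat_lit 5) (nat_lit 316) (nat_lit 267) (nat_lit 197)) (XT.nd (nat_lit 78) (nat_lit 304) (nat_lit 0) (XT.lf (nat_lit 0) (nat_lit 552686154) (nat_lit 380) (nat_lit 4079070182) (nat_lit 76) (nat_lit 8085256769) (nat_lit 70) (nat_lit 5) (nat_lit 75) (nat_lit 5) (nat_lit 71) (nat_lit 5) (nat_lit 317) (nat_lit 267) (nat_lit 196)) (XT.lf (nat_lit 0) (nat_lit 1724017343) (nat_lit 304) (nat_lit 1003314535) (nat_lit 380) (nat_lit 10234069358) (nat_lit 66) (nat_lit 5) (nat_lit 70) (nat_lit 5) (nat_lit 71) (nat_lit 5) (nat_lit 318) (nat_lit 267) (nat_lit 195))))) (XT.nd (nat_lit 234) (nat_lit 380) (nat_lit 0) (XT.nd (nat_lit 78) (nat_lit 304) (nat_lit 0) (XT.lf (nat_lit 0) (nat_lit 5009634795) (nat_lit 380) (nat_lit 5487762102) (nat_lit 76) (nat_lit 2714497457) (nat_lit 66) (nat_lit 5) (nat_lit 71) (nat_lit 5) (nat_lit 67) (nat_lit 5) (nat_lit 319) (nat_lit 267) (nat_lit 194))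 (XT.nd (nat_lit 78) (nat_lit 0) (nat_lit 0) (XT.lf (nat_lit 0) (nat_lit 399191855) (nat_lit 304) (nat_lit 6950266305) (nat_lit 380) (nat_lit 6120817104) (nat_lit 62) (nat_lit 5) (nat_lit 66) (nat_lit 5) (nat_lit 67) (nat_lit 5) (nat_lit 320) (nat_lit 267) (nat_lit 193)) (XT.lf (nat_lit 0) (nat_lit 6542559475) (nat_lit 304) (nat_lit 3248018437) (nat_lit 380) (nat_lit 3944939883) (nat_lit 62) (nat_lit 5) (nat_lit 66) (nat_lit 5) (nat_lit 67) (nat_lit 5) (nat_lit 321) (nat_lit 267) (nat_lit 192)))) (XT.nd (nat_lit 78) (nat_lit 380) (nat_lit 0) (XT.lf (nat_lit 0) (nat_lit 12286681298) (nat_lit 380) (nat_lit 1176332058) (nat_lit 76) (nat_lit 546293727) (nat_lit 62) (nat_lit 5) (nat_lit 67) (nat_lit 5) (nat_lit 63) (nat_lit 5) (nat_lit 322) (nat_lit 267) (nat_lit 191)) (XT.nd (nat_lit 78) (nat_lit 0) (nat_lit 0) (XT.lf (nat_lit 0) (nat_lit 613602199) (nat_lit 380) (nat_lit 9239806463) (nat_lit 76)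 (nat_lit 4436028751) (nat_lit 57) (nat_lit 5) (nat_lit 62) (nat_lit 5) (nat_lit 58) (nat_lit 5) (nat_lit 323) (nat_lit 267) (nat_lit 190)) (XT.lf (nat_lit 0) (nat_lit 2974403533) (nat_lit 380) (nat_lit 3139952196) (nat_lit 76) (nat_lit 8463469386) (nat_lit 57) (nat_lit 5) (nat_lit 62) (nat_lit 5) (nat_lit 58) (nat_lit 5) (nat_lit 324) (nat_lit 267) (nat_lit 189)))))) (XT.nd (nat_lit 390) (nat_lit 760) (nat_lit 0) (XT.nd (nat_lit 156) (nat_lit 304) (nat_lit 0) (XT.nd (nat_lit 78) (nat_lit 0) (nat_lit 0) (XT.lf (nat_lit 0) (nat_lit 3174107725) (nat_lit 228) (nat_lit 2240212575) (nat_lit 304) (nat_lit 9460332710) (nat_lit 54) (nat_lit 5) (nat_lit 57) (nat_lit 5) (nat_lit 58) (nat_lit 5) (nat_lit 325) (nat_lit 267) (nat_lit 188)) (XT.lf (nat_lit 0) (nat_lit 7954331755) (nat_lit 304) (nat_lit 5485653494) (nat_lit 76) (nat_lit 1739629791) (nat_lit 54) (nat_lit 5) (nat_lit 58) (nat_lit 5) (nat_lit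 55) (nat_lit 5) (nat_lit 326) (nat_lit 267) (nat_lit 187))) (XT.nd (nat_lit 78) (nat_lit 0) (nat_lit 0) (XT.lf (nat_lit 0) (nat_lit 880554640) (nat_lit 304) (nat_lit 9699325249) (nat_lit 380) (nat_lit 4913601113) (nat_lit 50) (nat_lit 5) (nat_lit 54) (nat_lit 5) (nat_lit 55) (nat_lit 5) (nat_lit 327) (nat_lit 267) (nat_lit 186)) (XT.nd (nat_lit 78) (nat_lit 0) (nat_lit 0) (XT.lf (nat_lit 0) (nat_lit 7520362078) (nat_lit 304) (nat_lit 5798252135) (nat_lit 380) (nat_lit 2497150274) (nat_lit 50) (nat_lit 5) (nat_lit 54) (nat_lit 5) (nat_lit 55) (nat_lit 5) (nat_lit 328) (nat_lit 267) (nat_lit 185)) (XT.lf (nat_lit 0) (nat_lit 14330395332) (nat_lit 304) (nat_lit 1788751547) (nat_lit 380) (nat_lit 29213650) (nat_lit 50) (nat_lit 5) (nat_lit 54) (nat_lit 5) (nat_lit 55) (nat_lit 5) (nat_lit 329) (nat_lit 267) (nat_lit 184))))) (XT.nd (nat_lit 234) (nat_lit 228) (nat_lit 0) (XT.nd (nat_lit 78) (nat_lit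 228) (nat_lit 0) (XT.lf (nat_lit 0) (nat_lit 2513926055) (nat_lit 304) (nat_lit 11615917234) (nat_lit 76) (nat_lit 2358891836) (nat_lit 46) (nat_lit 5) (nat_lit 50) (nat_lit 5) (nat_lit 47) (nat_lit 5) (nat_lit 330) (nat_lit 267) (nat_lit 183)) (XT.nd (nat_lit 78) (nat_lit 228) (nat_lit 0) (XT.lf (nat_lit 0) (nat_lit 5149253110) (nat_lit 304) (nat_lit 5084173029) (nat_lit 76) (nat_lit 6605422065) (nat_lit 46) (nat_lit 5) (nat_lit 50) (nat_lit 5) (nat_lit 47) (nat_lit 5) (nat_lit 331) (nat_lit 267) (nat_lit 182)) (XT.lf (nat_lit 0) (nat_lit 1647702948) (nat_lit 228) (nat_lit 6212581840) (nat_lit 304) (nat_lit 9339309987) (nat_lit 43) (nat_lit 5) (nat_lit 46) (nat_lit 5) (nat_lit 47) (nat_lit 5) (nat_lit 332) (nat_lit 267) (nat_lit 181)))) (XT.nd (nat_lit 78) (nat_lit 228) (nat_lit 0) (XT.lf (nat_lit 0) (nat_lit 8658056842) (nat_lit 228) (nat_lit 2027029624) (nat_lit 304) (nat_lit 6885132695)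 (nat_lit 43) (nat_lit 5) (nat_lit 46) (nat_lit 5) (nat_lit 47) (nat_lit 5) (nat_lit 333) (nat_lit 267) (nat_lit 180)) (XT.nd (nat_lit 78) (nat_lit 228) (nat_lit 0) (XT.lf (nat_lit 0) (nat_lit 13598155540) (nat_lit 304) (nat_lit 2122585318) (nat_lit 76) (nat_lit 2231143477) (nat_lit 43) (nat_lit 5) (nat_lit 47) (nat_lit 5) (nat_lit 44) (nat_lit 5) (nat_lit 334) (nat_lit 267) (nat_lit 179)) (XT.lf (nat_lit 0) (nat_lit 4920026215) (nat_lit 228) (nat_lit 11728058531) (nat_lit 304) (nat_lit 1695457625) (nat_lit 40) (nat_lit 5) (nat_lit 43) (nat_lit 5) (nat_lit 44) (nat_lit 5) (nat_lit 335) (nat_lit 267) (nat_lit 178))))))) (XT.nd (nat_lit 858) (nat_lit 532) (nat_lit 0) (XT.nd (nat_lit 390) (nat_lit 456) (nat_lit 0) (XT.nd (nat_lit 156) (nat_lit 152) (nat_lit 0) (XT.nd (nat_lit 78) (nat_lit 228) (nat_lit 0) (XT.lf (nat_lit 0) (nat_lit 1026035827) (nat_lit 304) (nat_lit 6565824202) (nat_lit 76) (nat_lit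 11154700317) (nat_lit 39) (nat_lit 5) (nat_lit 43) (nat_lit 5) (nat_lit 40) (nat_lit 5) (nat_lit 336) (nat_lit 267) (nat_lit 177)) (XT.lf (nat_lit 0) (nat_lit 463932634) (nat_lit 228) (nat_lit 3318315404) (nat_lit 304) (nat_lit 15379327353) (nat_lit 36) (nat_lit 5) (nat_lit 39) (nat_lit 5) (nat_lit 40) (nat_lit 5) (nat_lit 337) (nat_lit 267) (nat_lit 176))) (XT.nd (nat_lit 78) (nat_lit 152) (nat_lit 0) (XT.lf (nat_lit 0) (nat_lit 6681385417) (nat_lit 304) (nat_lit 11785078281) (nat_lit 76) (nat_lit 1120793968) (nat_lit 36) (nat_lit 5) (nat_lit 40) (nat_lit 5) (nat_lit 37) (nat_lit 5) (nat_lit 338) (nat_lit 267) (nat_lit 175)) (XT.nd (nat_lit 78) (nat_lit 152) (nat_lit 0) (XT.lf (nat_lit 0) (nat_lit 9683716332) (nat_lit 304) (nat_lit 4723360880) (nat_lit 76) (nat_lit 5618169860) (nat_lit 36) (nat_lit 5) (nat_lit 40) (nat_lit 5) (nat_lit 37) (nat_lit 5) (nat_lit 339) (nat_lit 267) (nat_lit 174))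 (XT.lf (nat_lit 0) (nat_lit 2575841498) (nat_lit 152) (nat_lit 10208885566) (nat_lit 228) (nat_lit 7691413368) (nat_lit 34) (nat_lit 5) (nat_lit 36) (nat_lit 5) (nat_lit 37) (nat_lit 5) (nat_lit 340) (nat_lit 267) (nat_lit 173))))) (XT.nd (nat_lit 234) (nat_lit 152) (nat_lit 0) (XT.nd (nat_lit 78) (nat_lit 304) (nat_lit 0) (XT.lf (nat_lit 0) (nat_lit 10166455202) (nat_lit 152) (nat_lit 5844094891) (nat_lit 228) (nat_lit 4929078951) (nat_lit 34) (nat_lit 5) (nat_lit 36) (nat_lit 5) (nat_lit 37) (nat_lit 5) (nat_lit 341) (nat_lit 267) (nat_lit 172)) (XT.nd (nat_lit 78) (nat_lit 304) (nat_lit 0) (XT.lf (nat_lit 0) (nat_lit 17961108664) (nat_lit 152) (nat_lit 1356587976) (nat_lit 228) (nat_lit 2099810482) (nat_lit 34) (nat_lit 5) (nat_lit 36) (nat_lit 5) (nat_lit 37) (nat_lit 5) (nat_lit 342) (nat_lit 267) (nat_lit 171)) (XT.lf (nat_lit 0) (nat_lit 854751700) (nat_lit 304) (nat_lit 17811234476)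 (nat_lit 76) (nat_lit 3241831393) (nat_lit 30) (nat_lit 5) (nat_lit 34) (nat_lit 5) (nat_lit 31) (nat_lit 5) (nat_lit 343) (nat_lit 267) (nat_lit 170)))) (XT.nd (nat_lit 78) (nat_lit 152) (nat_lit 0) (XT.lf (nat_lit 0) (nat_lit 3889398492) (nat_lit 304) (nat_lit 10522822910) (nat_lit 76) (nat_lit 7999002133) (nat_lit 30) (nat_lit 5) (nat_lit 34) (nat_lit 5) (nat_lit 31) (nat_lit 5) (nat_lit 344) (nat_lit 267) (nat_lit 169)) (XT.nd (nat_lit 78) (nat_lit 152) (nat_lit 0) (XT.lf (nat_lit 0) (nat_lit 7000494271) (nat_lit 304) (nat_lit 3038547541) (nat_lit 76) (nat_lit 12891146481) (nat_lit 30) (nat_lit 5) (nat_lit 34) (nat_lit 5) (nat_lit 31) (nat_lit 5) (nat_lit 345) (nat_lit 267) (nat_lit 168)) (XT.lf (nat_lit 0) (nat_lit 4740638215) (nat_lit 152) (nat_lit 5495689169) (nat_lit 228) (nat_lit 13227470826) (nat_lit 28) (nat_lit 5) (nat_lit 30) (nat_lit 5) (nat_lit 31) (nat_lit 5) (nat_lit 346) (nat_lit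 267) (nat_lit 167)))))) (XT.nd (nat_lit 468) (nat_lit 152) (nat_lit 0) (XT.nd (nat_lit 234) (nat_lit 228) (nat_lit 0) (XT.nd (nat_lit 78) (nat_lit 152) (nat_lit 0) (XT.lf (nat_lit 0) (nat_lit 12793578900) (nat_lit 152) (nat_lit 792376505) (nat_lit 228) (nat_lit 10426977237) (nat_lit 28) (nat_lit 5) (nat_lit 30) (nat_lit 5) (nat_lit 31) (nat_lit 5) (nat_lit 347) (nat_lit 267) (nat_lit 166)) (XT.nd (nat_lit 78) (nat_lit 152) (nat_lit 0) (XT.lf (nat_lit 0) (nat_lit 17061392013) (nat_lit 228) (nat_lit 3551003599) (nat_lit 76) (nat_lit 3965403200) (nat_lit 28) (nat_lit 5) (nat_lit 31) (nat_lit 5) (nat_lit 29) (nat_lit 5) (nat_lit 348) (nat_lit 267) (nat_lit 165)) (XT.lf (nat_lit 0) (nat_lit 4404509629) (nat_lit 152) (nat_lit 16273532360) (nat_lit 228) (nat_lit 4480477263) (nat_lit 26) (nat_lit 5) (nat_lit 28) (nat_lit 5) (nat_lit 29) (nat_lit 5) (nat_lit 349) (nat_lit 267) (nat_lit 164)))) (XT.nd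 (nat_lit 78) (nat_lit 228) (nat_lit 0) (XT.lf (nat_lit 0) (nat_lit 12650696177) (nat_lit 152) (nat_lit 11775305241) (nat_lit 228) (nat_lit 1329991891) (nat_lit 26) (nat_lit 5) (nat_lit 28) (nat_lit 5) (nat_lit 29) (nat_lit 5) (nat_lit 350) (nat_lit 267) (nat_lit 163)) (XT.nd (nat_lit 78) (nat_lit 152) (nat_lit 0) (XT.lf (nat_lit 0) (nat_lit 1864830215) (nat_lit 228) (nat_lit 5265980597) (nat_lit 76) (nat_lit 19240428172) (nat_lit 25) (nat_lit 5) (nat_lit 28) (nat_lit 5) (nat_lit 26) (nat_lit 5) (nat_lit 351) (nat_lit 267) (nat_lit 162)) (XT.lf (nat_lit 0) (nat_lit 2830731468) (nat_lit 152) (nat_lit 2312808678) (nat_lit 228) (nat_lit 21860578514) (nat_lit 23) (nat_lit 5) (nat_lit 25) (nat_lit 5) (nat_lit 26) (nat_lit 5) (nat_lit 352) (nat_lit 267) (nat_lit 161))))) (XT.nd (nat_lit 234) (nat_lit 152) (nat_lit 0) (XT.nd (nat_lit 78) (nat_lit 0) (nat_lit 0) (XT.lf (nat_lit 0) (nat_lit 8587450916)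 (nat_lit 228) (nat_lit 16422064594) (nat_lit 76) (nat_lit 2644478517) (nat_lit 23) (nat_lit 5) (nat_lit 26) (nat_lit 5) (nat_lit 24) (nat_lit 5) (nat_lit 353) (nat_lit 267) (nat_lit 160)) (XT.nd (nat_lit 78) (nat_lit 0) (nat_lit 0) (XT.lf (nat_lit 0) (nat_lit 12145603451) (nat_lit 228) (nat_lit 8480489886) (nat_lit 76) (nat_lit 7696958649) (nat_lit 23) (nat_lit 5) (nat_lit 26) (nat_lit 5) (nat_lit 24) (nat_lit 5) (nat_lit 354) (nat_lit 267) (nat_lit 159)) (XT.lf (nat_lit 0) (nat_lit 15798874683) (nat_lit 228) (nat_lit 319491697) (nat_lit 76) (nat_lit 12894177733) (nat_lit 23) (nat_lit 5) (nat_lit 26) (nat_lit 5) (nat_lit 24) (nat_lit 5) (nat_lit 355) (nat_lit 267) (nat_lit 158)))) (XT.nd (nat_lit 78) (nat_lit 0) (nat_lit 0) (XT.lf (nat_lit 0) (nat_lit 8228631173) (nat_lit 152) (nat_lit 11400924255) (nat_lit 228) (nat_lit 10091144491) (nat_lit 21) (nat_lit 5) (nat_lit 23) (nat_lit 5) (nat_lit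 24) (nat_lit 5) (nat_lit 356) (nat_lit 267) (nat_lit 157)) (XT.nd (nat_lit 78) (nat_lit 0) (nat_lit 0) (XT.lf (nat_lit 0) (nat_lit 17021650672) (nat_lit 152) (nat_lit 6545599706) (nat_lit 228) (nat_lit 6883100079) (nat_lit 21) (nat_lit 5) (nat_lit 23) (nat_lit 5) (nat_lit 24) (nat_lit 5) (nat_lit 357) (nat_lit 267) (nat_lit 156)) (XT.lf (nat_lit 0) (nat_lit 26060891509) (nat_lit 152) (nat_lit 1551376455) (nat_lit 228) (nat_lit 3589959288) (nat_lit 21) (nat_lit 5) (nat_lit 23) (nat_lit 5) (nat_lit 24) (nat_lit 5) (nat_lit 358) (nat_lit 267) (nat_lit 155))))))))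
noncomputable def xc133 : XT := (XT.nd (nat_lit 1716) (nat_lit 304) (nat_lit 0) (XT.nd (nat_lit 858) (nat_lit 228) (nat_lit 0) (XT.nd (nat_lit 390) (nat_lit 152) (nat_lit 0) (XT.nd (nat_lit 156) (nat_lit 152) (nat_lit 0) (XT.nd (nat_lit 78) (nat_lit 76) (nat_lit 0) (XT.lf (nat_lit 0) (nat_lit 3409321018) (nat_lit 76) (nat_lit 28426066007) (nat_lit 152) (nat_lit 139582930) (nat_lit 20) (nat_lit 5) (nat_lit 21) (nat_lit 5) (nat_lit 22) (nat_lit 4) (nat_lit 359) (nat_lit 267) (nat_lit 154)) (XT.lf (nat_lit 0) (nat_lit 3404942378) (nat_lit 152) (nat_lit 20513514686) (nat_lit 76) (nat_lit 8849746806) (nat_lit 19) (nat_lit 5) (nat_lit 21) (nat_lit 5) (nat_lit 20) (nat_lit 5) (nat_lit 360) (nat_lit 267) (nat_lit 153))) (XT.nd (nat_lit 78) (nat_lit 152) (nat_lit 0) (XT.lf (nat_lit 0) (nat_lit 7042776061) (nat_lit 152) (nat_lit 12238064935) (nat_lit 76) (nat_lit 14304670107) (nat_lit 19) (nat_lit 5)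 (nat_lit 21) (nat_lit 5) (nat_lit 20) (nat_lit 5) (nat_lit 361) (nat_lit 267) (nat_lit 152)) (XT.nd (nat_lit 78) (nat_lit 152) (nat_lit 0) (XT.lf (nat_lit 0) (nat_lit 10779820573) (nat_lit 152) (nat_lit 3730726951) (nat_lit 76) (nat_lit 19917098532) (nat_lit 19) (nat_lit 5) (nat_lit 21) (nat_lit 5) (nat_lit 20) (nat_lit 5) (nat_lit 362) (nat_lit 267) (nat_lit 151)) (XT.lf (nat_lit 0) (nat_lit 5115759759) (nat_lit 152) (nat_lit 9552757346) (nat_lit 228) (nat_lit 20625352197) (nat_lit 17) (nat_lit 5) (nat_lit 19) (nat_lit 5) (nat_lit 20) (nat_lit 5) (nat_lit 363) (nat_lit 267) (nat_lit 150))))) (XT.nd (nat_lit 234) (nat_lit 152) (nat_lit 0) (XT.nd (nat_lit 78) (nat_lit 0) (nat_lit 0) (XT.lf (nat_lit 0) (nat_lit 14288374871) (nat_lit 152) (nat_lit 4413666871) (nat_lit 228) (nat_lit 17483202648) (nat_lit 17) (nat_lit 5) (nat_lit 19) (nat_lit 5) (nat_lit 20) (nat_lit 5) (nat_lit 364) (nat_lit 267)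 (nat_lit 149)) (XT.nd (nat_lit 78) (nat_lit 0) (nat_lit 0) (XT.lf (nat_lit 0) (nat_lit 22855740181) (nat_lit 228) (nat_lit 13391159968) (nat_lit 76) (nat_lit 856495402) (nat_lit 17) (nat_lit 5) (nat_lit 20) (nat_lit 5) (nat_lit 18) (nat_lit 4) (nat_lit 365) (nat_lit 267) (nat_lit 148)) (XT.lf (nat_lit 0) (nat_lit 27168732591) (nat_lit 228) (nat_lit 4689039438) (nat_lit 76) (nat_lit 6190288305) (nat_lit 17) (nat_lit 5) (nat_lit 20) (nat_lit 5) (nat_lit 18) (nat_lit 4) (nat_lit 366) (nat_lit 267) (nat_lit 147)))) (XT.nd (nat_lit 78) (nat_lit 76) (nat_lit 0) (XT.lf (nat_lit 0) (nat_lit 4344295583) (nat_lit 76) (nat_lit 27299825182) (nat_lit 152) (nat_lit 7375963414) (nat_lit 16) (nat_lit 5) (nat_lit 17) (nat_lit 5) (nat_lit 18) (nat_lit 4) (nat_lit 367) (nat_lit 267) (nat_lit 146)) (XT.nd (nat_lit 78) (nat_lit 76) (nat_lit 0) (XT.lf (nat_lit 0) (nat_lit 13730272742) (nat_lit 76) (nat_lit 22562209708)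 (nat_lit 152) (nat_lit 3727633959) (nat_lit 16) (nat_lit 5) (nat_lit 17) (nat_lit 5) (nat_lit 18) (nat_lit 4) (nat_lit 368) (nat_lit 267) (nat_lit 145)) (XT.lf (nat_lit 0) (nat_lit 21078863) (nat_lit 152) (nat_lit 17666844327) (nat_lit 76) (nat_lit 23362480581) (nat_lit 15) (nat_lit 5) (nat_lit 17) (nat_lit 5) (nat_lit 16) (nat_lit 5) (nat_lit 369) (nat_lit 267) (nat_lit 144)))))) (XT.nd (nat_lit 390) (nat_lit 76) (nat_lit 0) (XT.nd (nat_lit 156) (nat_lit 0) (nat_lit 0) (XT.nd (nat_lit 78) (nat_lit 152) (nat_lit 0) (XT.lf (nat_lit 0) (nat_lit 3799099990) (nat_lit 152) (nat_lit 8835881846) (nat_lit 76) (nat_lit 29475765899) (nat_lit 15) (nat_lit 5) (nat_lit 17) (nat_lit 5) (nat_lit 16) (nat_lit 5) (nat_lit 370) (nat_lit 267) (nat_lit 143)) (XT.lf (nat_lit 0) (nat_lit 251500120) (nat_lit 152) (nat_lit 7433387622) (nat_lit 228) (nat_lit 35518189519) (nat_lit 13) (nat_lit 5) (nat_lit 15) (nat_lit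 5) (nat_lit 16) (nat_lit 5) (nat_lit 371) (nat_lit 267) (nat_lit 142))) (XT.nd (nat_lit 78) (nat_lit 0) (nat_lit 0) (XT.lf (nat_lit 0) (nat_lit 9779344940) (nat_lit 152) (nat_lit 1989242743) (nat_lit 228) (nat_lit 32557156619) (nat_lit 13) (nat_lit 5) (nat_lit 15) (nat_lit 5) (nat_lit 16) (nat_lit 5) (nat_lit 372) (nat_lit 267) (nat_lit 141)) (XT.nd (nat_lit 78) (nat_lit 0) (nat_lit 0) (XT.lf (nat_lit 0) (nat_lit 16001872020) (nat_lit 228) (nat_lit 25936932297) (nat_lit 76) (nat_lit 3542482394) (nat_lit 13) (nat_lit 5) (nat_lit 16) (nat_lit 5) (nat_lit 14) (nat_lit 4) (nat_lit 373) (nat_lit 267) (nat_lit 140)) (XT.lf (nat_lit 0) (nat_lit 20374367633) (nat_lit 228) (nat_lit 17101581006) (nat_lit 76) (nat_lit 9195187711) (nat_lit 13) (nat_lit 5) (nat_lit 16) (nat_lit 5) (nat_lit 14) (nat_lit 4) (nat_lit 374) (nat_lit 267) (nat_lit 139))))) (XT.nd (nat_lit 234) (nat_lit 0) (nat_lit 0) (XT.nd (nat_lit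 78) (nat_lit 76) (nat_lit 0) (XT.lf (nat_lit 0) (nat_lit 24870773332) (nat_lit 228) (nat_lit 8013503461) (nat_lit 76) (nat_lit 15012629755) (nat_lit 13) (nat_lit 5) (nat_lit 16) (nat_lit 5) (nat_lit 14) (nat_lit 4) (nat_lit 375) (nat_lit 267) (nat_lit 138)) (XT.nd (nat_lit 78) (nat_lit 0) (nat_lit 0) (XT.lf (nat_lit 0) (nat_lit 1361815298) (nat_lit 76) (nat_lit 28146293318) (nat_lit 152) (nat_lit 19651167032) (nat_lit 12) (nat_lit 5) (nat_lit 13) (nat_lit 5) (nat_lit 14) (nat_lit 4) (nat_lit 376) (nat_lit 267) (nat_lit 137)) (XT.lf (nat_lit 0) (nat_lit 11170804955) (nat_lit 76) (nat_lit 23187717939) (nat_lit 152) (nat_lit 16098780876) (nat_lit 12) (nat_lit 5) (nat_lit 13) (nat_lit 5) (nat_lit 14) (nat_lit 4) (nat_lit 377) (nat_lit 267) (nat_lit 136)))) (XT.nd (nat_lit 78) (nat_lit 0) (nat_lit 0) (XT.lf (nat_lit 0) (nat_lit 21262552038) (nat_lit 76) (nat_lit 18085138594) (nat_lit 152) (nat_lit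 12446791393) (nat_lit 12) (nat_lit 5) (nat_lit 13) (nat_lit 5) (nat_lit 14) (nat_lit 4) (nat_lit 378) (nat_lit 267) (nat_lit 135)) (XT.nd (nat_lit 78) (nat_lit 0) (nat_lit 0) (XT.lf (nat_lit 0) (nat_lit 31645874579) (nat_lit 76) (nat_lit 12834096718) (nat_lit 152) (nat_lit 8692007526) (nat_lit 12) (nat_lit 5) (nat_lit 13) (nat_lit 5) (nat_lit 14) (nat_lit 4) (nat_lit 379) (nat_lit 267) (nat_lit 134)) (XT.lf (nat_lit 0) (nat_lit 42329845385) (nat_lit 76) (nat_lit 7430004021) (nat_lit 152) (nat_lit 4831148396) (nat_lit 12) (nat_lit 5) (nat_lit 13) (nat_lit 5) (nat_lit 14) (nat_lit 4) (nat_lit 380) (nat_lit 267) (nat_lit 133))))))) (XT.nd (nat_lit 858) (nat_lit 0) (nat_lit 0) (XT.nd (nat_lit 390) (nat_lit 76) (nat_lit 0) (XT.nd (nat_lit 156) (nat_lit 0) (nat_lit 0) (XT.nd (nat_lit 78) (nat_lit 228) (nat_lit 0) (XT.lf (nat_lit 0) (nat_lit 53323799963) (nat_lit 76) (nat_lit 1868138482) (nat_lit 152)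 (nat_lit 860840434) (nat_lit 12) (nat_lit 5) (nat_lit 13) (nat_lit 5) (nat_lit 14) (nat_lit 4) (nat_lit 381) (nat_lit 267) (nat_lit 132)) (XT.lf (nat_lit 0) (nat_lit 3266661485) (nat_lit 228) (nat_lit 50405623461) (nat_lit 76) (nat_lit 3882170441) (nat_lit 9) (nat_lit 5) (nat_lit 12) (nat_lit 5) (nat_lit 10) (nat_lit 4) (nat_lit 382) (nat_lit 267) (nat_lit 131))) (XT.nd (nat_lit 78) (nat_lit 0) (nat_lit 0) (XT.lf (nat_lit 0) (nat_lit 7540979913) (nat_lit 228) (nat_lit 41759127099) (nat_lit 76) (nat_lit 9799616138) (nat_lit 9) (nat_lit 5) (nat_lit 12) (nat_lit 5) (nat_lit 10) (nat_lit 4) (nat_lit 383) (nat_lit 267) (nat_lit 130)) (XT.nd (nat_lit 78) (nat_lit 0) (nat_lit 0) (XT.lf (nat_lit 0) (nat_lit 11937670505) (nat_lit 228) (nat_lit 32863330681) (nat_lit 76) (nat_lit 15890528786) (nat_lit 9) (nat_lit 5) (nat_lit 12) (nat_lit 5) (nat_lit 10) (nat_lit 4) (nat_lit 384) (nat_lit 267) (nat_lit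 129)) (XT.lf (nat_lit 0) (nat_lit 16460575028) (nat_lit 228) (nat_lit 23710461182) (nat_lit 76) (nat_lit 22160230539) (nat_lit 9) (nat_lit 5) (nat_lit 12) (nat_lit 5) (nat_lit 10) (nat_lit 4) (nat_lit 385) (nat_lit 267) (nat_lit 128))))) (XT.nd (nat_lit 234) (nat_lit 0) (nat_lit 0) (XT.nd (nat_lit 78) (nat_lit 76) (nat_lit 0) (XT.lf (nat_lit 0) (nat_lit 21113645536) (nat_lit 228) (nat_lit 14292520947) (nat_lit 76) (nat_lit 28614199780) (nat_lit 9) (nat_lit 5) (nat_lit 12) (nat_lit 5) (nat_lit 10) (nat_lit 4) (nat_lit 386) (nat_lit 267) (nat_lit 127)) (XT.nd (nat_lit 78) (nat_lit 76) (nat_lit 0) (XT.lf (nat_lit 0) (nat_lit 25900947817) (nat_lit 228) (nat_lit 4601280708) (nat_lit 76) (nat_lit 35258075897) (nat_lit 9) (nat_lit 5) (nat_lit 12) (nat_lit 5) (nat_lit 10) (nat_lit 4) (nat_lit 387) (nat_lit 267) (nat_lit 126)) (XT.lf (nat_lit 0) (nat_lit 5478635518) (nat_lit 76) (nat_lit 25400693430)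 (nat_lit 152) (nat_lit 36671692698) (nat_lit 8) (nat_lit 5) (nat_lit 9) (nat_lit 5) (nat_lit 10) (nat_lit 4) (nat_lit 388) (nat_lit 267) (nat_lit 125)))) (XT.nd (nat_lit 78) (nat_lit 0) (nat_lit 0) (XT.lf (nat_lit 0) (nat_lit 15946389779) (nat_lit 76) (nat_lit 20101997641) (nat_lit 152) (nat_lit 33345837764) (nat_lit 8) (nat_lit 5) (nat_lit 9) (nat_lit 5) (nat_lit 10) (nat_lit 4) (nat_lit 389) (nat_lit 267) (nat_lit 124)) (XT.nd (nat_lit 78) (nat_lit 0) (nat_lit 0) (XT.lf (nat_lit 0) (nat_lit 26719554145) (nat_lit 76) (nat_lit 14647975144) (nat_lit 152) (nat_lit 29925349630) (nat_lit 8) (nat_lit 5) (nat_lit 9) (nat_lit 5) (nat_lit 10) (nat_lit 4) (nat_lit 390) (nat_lit 267) (nat_lit 123)) (XT.lf (nat_lit 0) (nat_lit 37807542063) (nat_lit 76) (nat_lit 9033860287) (nat_lit 152) (nat_lit 26407239519) (nat_lit 8) (nat_lit 5) (nat_lit 9) (nat_lit 5) (nat_lit 10) (nat_lit 4) (nat_lit 391) (nat_lit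 267) (nat_lit 122)))))) (XT.nd (nat_lit 31200) (nat_lit 0) (nat_lit 16416) (XT.nd (nat_lit 30966) (nat_lit 0) (nat_lit 17024) (XT.nd (nat_lit 78) (nat_lit 0) (nat_lit 0) (XT.lf (nat_lit 0) (nat_lit 49220042064) (nat_lit 76) (nat_lit 3254747534) (nat_lit 152) (nat_lit 22788433355) (nat_lit 8) (nat_lit 5) (nat_lit 9) (nat_lit 5) (nat_lit 10) (nat_lit 4) (nat_lit 392) (nat_lit 267) (nat_lit 121)) (XT.nd (nat_lit 78) (nat_lit 0) (nat_lit 0) (XT.lf (nat_lit 0) (nat_lit 58298513756) (nat_lit 152) (nat_lit 16397256593) (nat_lit 0) (nat_lit 2641835126) (nat_lit 8) (nat_lit 5) (nat_lit 10) (nat_lit 4) (nat_lit 8) (nat_lit 4) (nat_lit 393) (nat_lit 267) (nat_lit 120)) (XT.lf (nat_lit 0) (nat_lit 64324711733) (nat_lit 152) (nat_lit 6501946660) (nat_lit 0) (nat_lit 8646732162) (nat_lit 8) (nat_lit 5) (nat_lit 10) (nat_lit 4) (nat_lit 8) (nat_lit 4) (nat_lit 394) (nat_lit 267) (nat_lit 119)))) (XT.nd (nat_lit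 78) (nat_lit 532) (nat_lit 0) (XT.lf (nat_lit 0) (nat_lit 2569811241) (nat_lit 532) (nat_lit 397163476) (nat_lit 532) (nat_lit 397163476) (nat_lit 239) (nat_lit 3) (nat_lit 246) (nat_lit 3) (nat_lit 246) (nat_lit 5) (nat_lit 268) (nat_lit 268) (nat_lit 244)) (XT.nd (nat_lit 78) (nat_lit 0) (nat_lit 0) (XT.lf (nat_lit 0) (nat_lit 350819231) (nat_lit 532) (nat_lit 4623406502) (nat_lit 608) (nat_lit 1790956656) (nat_lit 232) (nat_lit 5) (nat_lit 239) (nat_lit 3) (nat_lit 240) (nat_lit 5) (nat_lit 269) (nat_lit 268) (nat_lit 243)) (XT.lf (nat_lit 0) (nat_lit 2249688762) (nat_lit 532) (nat_lit 1677055248) (nat_lit 608) (nat_lit 2878240178) (nat_lit 232) (nat_lit 5) (nat_lit 239) (nat_lit 3) (nat_lit 240) (nat_lit 5) (nat_lit 270) (nat_lit 268) (nat_lit 242))))) (XT.nd (nat_lit 234) (nat_lit 0) (nat_lit 76) (XT.nd (nat_lit 78) (nat_lit 608) (nat_lit 0) (XT.lf (nat_lit 76) (nat_lit 1344568201) (nat_lit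 0) (nat_lit 2801106242) (nat_lit 608) (nat_lit 2702348446) (nat_lit 233) (nat_lit 5) (nat_lit 232) (nat_lit 5) (nat_lit 240) (nat_lit 5) (nat_lit 271) (nat_lit 268) (nat_lit 241)) (XT.nd (nat_lit 78) (nat_lit 608) (nat_lit 0) (XT.lf (nat_lit 76) (nat_lit 4452248473) (nat_lit 0) (nat_lit 1592196495) (nat_lit 608) (nat_lit 849770771) (nat_lit 233) (nat_lit 5) (nat_lit 232) (nat_lit 5) (nat_lit 240) (nat_lit 5) (nat_lit 272) (nat_lit 268) (nat_lit 240)) (XT.lf (nat_lit 76) (nat_lit 674909067) (nat_lit 0) (nat_lit 299437664) (nat_lit 684) (nat_lit 5969270326) (nat_lit 225) (nat_lit 5) (nat_lit 224) (nat_lit 5) (nat_lit 233) (nat_lit 5) (nat_lit 273) (nat_lit 268) (nat_lit 239)))) (XT.nd (nat_lit 78) (nat_lit 0) (nat_lit 0) (XT.lf (nat_lit 0) (nat_lit 2803000183) (nat_lit 608) (nat_lit 3118601282) (nat_lit 684) (nat_lit 1073859550) (nat_lit 225) (nat_lit 5) (nat_lit 233) (nat_lit 5) (nat_lit 234)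 (nat_lit 5) (nat_lit 274) (nat_lit 268) (nat_lit 238)) (XT.nd (nat_lit 78) (nat_lit 0) (nat_lit 0) (XT.lf (nat_lit 76) (nat_lit 84289336) (nat_lit 0) (nat_lit 4540045018) (nat_lit 684) (nat_lit 2426604672) (nat_lit 226) (nat_lit 5) (nat_lit 225) (nat_lit 5) (nat_lit 234) (nat_lit 5) (nat_lit 275) (nat_lit 268) (nat_lit 237)) (XT.lf (nat_lit 76) (nat_lit 3407191664) (nat_lit 0) (nat_lit 3060191239) (nat_lit 684) (nat_lit 641893395) (nat_lit 226) (nat_lit 5) (nat_lit 225) (nat_lit 5) (nat_lit 234) (nat_lit 5) (nat_lit 276) (nat_lit 268) (nat_lit 236))))))))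
noncomputable def xc134 : XT := (XT.nd (nat_lit 1716) (nat_lit 4560) (nat_lit 0) (XT.nd (nat_lit 858) (nat_lit 4864) (nat_lit 0) (XT.nd (nat_lit 390) (nat_lit 1596) (nat_lit 0) (XT.nd (nat_lit 156) (nat_lit 684) (nat_lit 0) (XT.nd (nat_lit 78) (nat_lit 0) (nat_lit 76) (XT.lf (nat_lit 0) (nat_lit 1109656360) (nat_lit 684) (nat_lit 391377096) (nat_lit 760) (nat_lit 5670081215) (nat_lit 216) (nat_lit 5) (nat_lit 225) (nat_lit 5) (nat_lit 226) (nat_lit 5) (nat_lit 277) (nat_lit 268) (nat_lit 235)) (XT.lf (nat_lit 0) (nat_lit 2870062872) (nat_lit 684) (nat_lit 4205005535) (nat_lit 760) (nat_lit 160662350) (nat_lit 217) (nat_lit 5) (nat_lit 226) (nat_lit 5) (nat_lit 227) (nat_lit 5) (nat_lit 278) (nat_lit 268) (nat_lit 234))) (XT.nd (nat_lit 78) (nat_lit 760) (nat_lit 0) (XT.lf (nat_lit 0) (nat_lit 4642246890) (nat_lit 684) (nat_lit 794483451) (nat_lit 760) (nat_lit 1866970077) (nat_lit 217) (nat_lit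 5) (nat_lit 226) (nat_lit 5) (nat_lit 227) (nat_lit 5) (nat_lit 279) (nat_lit 268) (nat_lit 233)) (XT.nd (nat_lit 78) (nat_lit 760) (nat_lit 0) (XT.lf (nat_lit 76) (nat_lit 2731926840) (nat_lit 0) (nat_lit 3703787162) (nat_lit 760) (nat_lit 939130330) (nat_lit 218) (nat_lit 5) (nat_lit 217) (nat_lit 5) (nat_lit 227) (nat_lit 5) (nat_lit 280) (nat_lit 268) (nat_lit 232)) (XT.lf (nat_lit 0) (nat_lit 769112676) (nat_lit 760) (nat_lit 1116232565) (nat_lit 836) (nat_lit 5564188760) (nat_lit 207) (nat_lit 5) (nat_lit 217) (nat_lit 5) (nat_lit 218) (nat_lit 5) (nat_lit 281) (nat_lit 268) (nat_lit 231))))) (XT.nd (nat_lit 234) (nat_lit 912) (nat_lit 0) (XT.nd (nat_lit 78) (nat_lit 760) (nat_lit 0) (XT.lf (nat_lit 0) (nat_lit 2478404574) (nat_lit 760) (nat_lit 5011085384) (nat_lit 76) (nat_lit 37798665) (nat_lit 208) (nat_lit 5) (nat_lit 218) (nat_lit 5) (nat_lit 209) (nat_lit 5) (nat_lit 282) (nat_lit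 268) (nat_lit 230)) (XT.nd (nat_lit 78) (nat_lit 760) (nat_lit 0) (XT.lf (nat_lit 0) (nat_lit 4214542375) (nat_lit 760) (nat_lit 1386359725) (nat_lit 76) (nat_lit 2007365534) (nat_lit 208) (nat_lit 5) (nat_lit 218) (nat_lit 5) (nat_lit 209) (nat_lit 5) (nat_lit 283) (nat_lit 268) (nat_lit 229)) (XT.lf (nat_lit 0) (nat_lit 2353184676) (nat_lit 760) (nat_lit 3619303768) (nat_lit 836) (nat_lit 1720249987) (nat_lit 198) (nat_lit 5) (nat_lit 208) (nat_lit 5) (nat_lit 209) (nat_lit 5) (nat_lit 284) (nat_lit 268) (nat_lit 228)))) (XT.nd (nat_lit 78) (nat_lit 912) (nat_lit 0) (XT.lf (nat_lit 0) (nat_lit 6193882900) (nat_lit 760) (nat_lit 1551554827) (nat_lit 836) (nat_lit 35587331) (nat_lit 198) (nat_lit 5) (nat_lit 208) (nat_lit 5) (nat_lit 209) (nat_lit 5) (nat_lit 285) (nat_lit 268) (nat_lit 227)) (XT.nd (nat_lit 78) (nat_lit 0) (nat_lit 0) (XT.lf (nat_lit 0) (nat_lit 1643412179) (nat_lit 912) (nat_lit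 5612257829) (nat_lit 76) (nat_lit 616632326) (nat_lit 186) (nat_lit 5) (nat_lit 198) (nat_lit 5) (nat_lit 187) (nat_lit 5) (nat_lit 286) (nat_lit 268) (nat_lit 226)) (XT.lf (nat_lit 0) (nat_lit 3353955238) (nat_lit 912) (nat_lit 1767330091) (nat_lit 76) (nat_lit 2845702316) (nat_lit 186) (nat_lit 5) (nat_lit 198) (nat_lit 5) (nat_lit 187) (nat_lit 5) (nat_lit 287) (nat_lit 268) (nat_lit 225)))))) (XT.nd (nat_lit 390) (nat_lit 1824) (nat_lit 0) (XT.nd (nat_lit 156) (nat_lit 2128) (nat_lit 0) (XT.nd (nat_lit 78) (nat_lit 0) (nat_lit 0) (XT.lf (nat_lit 0) (nat_lit 2196187773) (nat_lit 912) (nat_lit 2892525486) (nat_lit 988) (nat_lit 2976746259) (nat_lit 174) (nat_lit 5) (nat_lit 186) (nat_lit 5) (nat_lit 187) (nat_lit 5) (nat_lit 288) (nat_lit 268) (nat_lit 224)) (XT.lf (nat_lit 0) (nat_lit 6275614832) (nat_lit 912) (nat_lit 570560519) (nat_lit 988) (nat_lit 1321719445) (nat_lit 174) (nat_lit 5)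 (nat_lit 186) (nat_lit 5) (nat_lit 187) (nat_lit 5) (nat_lit 289) (nat_lit 268) (nat_lit 223))) (XT.nd (nat_lit 78) (nat_lit 1064) (nat_lit 0) (XT.lf (nat_lit 0) (nat_lit 368107472) (nat_lit 1064) (nat_lit 6087766109) (nat_lit 76) (nat_lit 1817762130) (nat_lit 160) (nat_lit 5) (nat_lit 174) (nat_lit 5) (nat_lit 161) (nat_lit 5) (nat_lit 290) (nat_lit 268) (nat_lit 222)) (XT.nd (nat_lit 78) (nat_lit 1064) (nat_lit 0) (XT.lf (nat_lit 0) (nat_lit 2061665927) (nat_lit 1064) (nat_lit 2016034846) (nat_lit 76) (nat_lit 4305185565) (nat_lit 160) (nat_lit 5) (nat_lit 174) (nat_lit 5) (nat_lit 161) (nat_lit 5) (nat_lit 291) (nat_lit 268) (nat_lit 221)) (XT.lf (nat_lit 0) (nat_lit 2181298640) (nat_lit 1064) (nat_lit 1601676550) (nat_lit 1140) (nat_lit 4713245667) (nat_lit 146) (nat_lit 5) (nat_lit 160) (nat_lit 5) (nat_lit 161) (nat_lit 5) (nat_lit 292) (nat_lit 268) (nat_lit 220))))) (XT.nd (nat_lit 234)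 (nat_lit 1064) (nat_lit 0) (XT.nd (nat_lit 78) (nat_lit 760) (nat_lit 0) (XT.lf (nat_lit 0) (nat_lit 5542530242) (nat_lit 1140) (nat_lit 2115964296) (nat_lit 76) (nat_lit 954974034) (nat_lit 146) (nat_lit 5) (nat_lit 161) (nat_lit 5) (nat_lit 147) (nat_lit 5) (nat_lit 293) (nat_lit 268) (nat_lit 219)) (XT.nd (nat_lit 78) (nat_lit 76) (nat_lit 0) (XT.lf (nat_lit 0) (nat_lit 2196967024) (nat_lit 684) (nat_lit 5153064365) (nat_lit 760) (nat_lit 1384455657) (nat_lit 137) (nat_lit 5) (nat_lit 146) (nat_lit 5) (nat_lit 147) (nat_lit 5) (nat_lit 294) (nat_lit 268) (nat_lit 218)) (XT.lf (nat_lit 0) (nat_lit 325840020) (nat_lit 760) (nat_lit 2218987639) (nat_lit 76) (nat_lit 6314905647) (nat_lit 136) (nat_lit 5) (nat_lit 146) (nat_lit 5) (nat_lit 137) (nat_lit 5) (nat_lit 295) (nat_lit 268) (nat_lit 217)))) (XT.nd (nat_lit 78) (nat_lit 532) (nat_lit 0) (XT.lf (nat_lit 0) (nat_lit 2042417069) (nat_lit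 608) (nat_lit 6770400419) (nat_lit 76) (nat_lit 176123220) (nat_lit 129) (nat_lit 5) (nat_lit 137) (nat_lit 5) (nat_lit 130) (nat_lit 5) (nat_lit 296) (nat_lit 268) (nat_lit 216)) (XT.nd (nat_lit 78) (nat_lit 532) (nat_lit 0) (XT.lf (nat_lit 0) (nat_lit 3818867214) (nat_lit 608) (nat_lit 2351407331) (nat_lit 76) (nat_lit 2951594567) (nat_lit 129) (nat_lit 5) (nat_lit 137) (nat_lit 5) (nat_lit 130) (nat_lit 5) (nat_lit 297) (nat_lit 268) (nat_lit 215)) (XT.lf (nat_lit 0) (nat_lit 2205010250) (nat_lit 532) (nat_lit 3426495737) (nat_lit 608) (nat_lit 3627885785) (nat_lit 122) (nat_lit 5) (nat_lit 129) (nat_lit 5) (nat_lit 130) (nat_lit 5) (nat_lit 298) (nat_lit 268) (nat_lit 214))))))) (XT.nd (nat_lit 858) (nat_lit 2204) (nat_lit 0) (XT.nd (nat_lit 390) (nat_lit 1368) (nat_lit 0) (XT.nd (nat_lit 156) (nat_lit 532) (nat_lit 0) (XT.nd (nat_lit 78) (nat_lit 456) (nat_lit 0) (XT.lf (nat_lit 0) (nat_lit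 6908523156) (nat_lit 532) (nat_lit 576196797) (nat_lit 608) (nat_lit 1916824818) (nat_lit 122) (nat_lit 5) (nat_lit 129) (nat_lit 5) (nat_lit 130) (nat_lit 5) (nat_lit 299) (nat_lit 268) (nat_lit 213)) (XT.lf (nat_lit 0) (nat_lit 2187302176) (nat_lit 456) (nat_lit 7213478616) (nat_lit 532) (nat_lit 147051960) (nat_lit 116) (nat_lit 5) (nat_lit 122) (nat_lit 5) (nat_lit 123) (nat_lit 5) (nat_lit 300) (nat_lit 268) (nat_lit 212))) (XT.nd (nat_lit 78) (nat_lit 456) (nat_lit 0) (XT.lf (nat_lit 0) (nat_lit 1638048095) (nat_lit 532) (nat_lit 2698985942) (nat_lit 76) (nat_lit 5361226869) (nat_lit 115) (nat_lit 5) (nat_lit 122) (nat_lit 5) (nat_lit 116) (nat_lit 5) (nat_lit 301) (nat_lit 268) (nat_lit 211)) (XT.nd (nat_lit 78) (nat_lit 0) (nat_lit 0) (XT.lf (nat_lit 0) (nat_lit 2104828785) (nat_lit 456) (nat_lit 1354010231) (nat_lit 532) (nat_lit 6394846850) (nat_lit 109) (nat_lit 5) (nat_lit 115) (nat_lit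 5) (nat_lit 116) (nat_lit 5) (nat_lit 302) (nat_lit 268) (nat_lit 210)) (XT.lf (nat_lit 0) (nat_lit 5343804643) (nat_lit 532) (nat_lit 2959578549) (nat_lit 76) (nat_lit 1710181955) (nat_lit 109) (nat_lit 5) (nat_lit 116) (nat_lit 5) (nat_lit 110) (nat_lit 5) (nat_lit 303) (nat_lit 268) (nat_lit 209))))) (XT.nd (nat_lit 234) (nat_lit 380) (nat_lit 0) (XT.nd (nat_lit 78) (nat_lit 532) (nat_lit 0) (XT.lf (nat_lit 0) (nat_lit 1961433365) (nat_lit 456) (nat_lit 5322658404) (nat_lit 532) (nat_lit 2894261690) (nat_lit 103) (nat_lit 5) (nat_lit 109) (nat_lit 5) (nat_lit 110) (nat_lit 5) (nat_lit 304) (nat_lit 268) (nat_lit 208)) (XT.nd (nat_lit 78) (nat_lit 532) (nat_lit 0) (XT.lf (nat_lit 0) (nat_lit 7054291453) (nat_lit 456) (nat_lit 2225318962) (nat_lit 532) (nat_lit 1068637935) (nat_lit 103) (nat_lit 5) (nat_lit 109) (nat_lit 5) (nat_lit 110) (nat_lit 5) (nat_lit 305) (nat_lit 268) (nat_lit 207))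 (XT.lf (nat_lit 0) (nat_lit 790094989) (nat_lit 532) (nat_lit 8765743888) (nat_lit 76) (nat_lit 967411089) (nat_lit 96) (nat_lit 5) (nat_lit 103) (nat_lit 5) (nat_lit 97) (nat_lit 5) (nat_lit 306) (nat_lit 268) (nat_lit 206)))) (XT.nd (nat_lit 78) (nat_lit 380) (nat_lit 0) (XT.lf (nat_lit 0) (nat_lit 2707002126) (nat_lit 532) (nat_lit 3744138967) (nat_lit 76) (nat_lit 4251393769) (nat_lit 96) (nat_lit 5) (nat_lit 103) (nat_lit 5) (nat_lit 97) (nat_lit 5) (nat_lit 307) (nat_lit 268) (nat_lit 205)) (XT.nd (nat_lit 78) (nat_lit 0) (nat_lit 0) (XT.lf (nat_lit 0) (nat_lit 1420168175) (nat_lit 380) (nat_lit 3244090205) (nat_lit 456) (nat_lit 6223520077) (nat_lit 91) (nat_lit 5) (nat_lit 96) (nat_lit 5) (nat_lit 97) (nat_lit 5) (nat_lit 308) (nat_lit 268) (nat_lit 204)) (XT.lf (nat_lit 0) (nat_lit 6688683645) (nat_lit 456) (nat_lit 4298463903) (nat_lit 76) (nat_lit 91241773) (nat_lit 91) (nat_lit 5)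 (nat_lit 97) (nat_lit 5) (nat_lit 92) (nat_lit 5) (nat_lit 309) (nat_lit 268) (nat_lit 203)))))) (XT.nd (nat_lit 468) (nat_lit 988) (nat_lit 0) (XT.nd (nat_lit 234) (nat_lit 380) (nat_lit 0) (XT.nd (nat_lit 78) (nat_lit 456) (nat_lit 0) (XT.lf (nat_lit 0) (nat_lit 977536329) (nat_lit 380) (nat_lit 7808403975) (nat_lit 456) (nat_lit 2488476905) (nat_lit 86) (nat_lit 5) (nat_lit 91) (nat_lit 5) (nat_lit 92) (nat_lit 5) (nat_lit 310) (nat_lit 268) (nat_lit 202)) (XT.nd (nat_lit 78) (nat_lit 456) (nat_lit 0) (XT.lf (nat_lit 0) (nat_lit 6465099642) (nat_lit 380) (nat_lit 4495525339) (nat_lit 456) (nat_lit 515325500) (nat_lit 86) (nat_lit 5) (nat_lit 91) (nat_lit 5) (nat_lit 92) (nat_lit 5) (nat_lit 311) (nat_lit 268) (nat_lit 201)) (XT.lf (nat_lit 0) (nat_lit 392396506) (nat_lit 380) (nat_lit 1070404503) (nat_lit 456) (nat_lit 10221086196) (nat_lit 80) (nat_lit 5) (nat_lit 85) (nat_lit 5) (nat_lit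 86) (nat_lit 5) (nat_lit 312) (nat_lit 268) (nat_lit 200)))) (XT.nd (nat_lit 78) (nat_lit 380) (nat_lit 0) (XT.lf (nat_lit 0) (nat_lit 3536687748) (nat_lit 456) (nat_lit 5900243441) (nat_lit 76) (nat_lit 2459629334) (nat_lit 80) (nat_lit 5) (nat_lit 86) (nat_lit 5) (nat_lit 81) (nat_lit 5) (nat_lit 313) (nat_lit 268) (nat_lit 199)) (XT.nd (nat_lit 78) (nat_lit 380) (nat_lit 0) (XT.lf (nat_lit 0) (nat_lit 5656253722) (nat_lit 456) (nat_lit 391771664) (nat_lit 76) (nat_lit 6068137960) (nat_lit 80) (nat_lit 5) (nat_lit 86) (nat_lit 5) (nat_lit 81) (nat_lit 5) (nat_lit 314) (nat_lit 268) (nat_lit 198)) (XT.lf (nat_lit 0) (nat_lit 5353493175) (nat_lit 380) (nat_lit 2511029469) (nat_lit 456) (nat_lit 4477129763) (nat_lit 75) (nat_lit 5) (nat_lit 80) (nat_lit 5) (nat_lit 81) (nat_lit 5) (nat_lit 315) (nat_lit 268) (nat_lit 197))))) (XT.nd (nat_lit 234) (nat_lit 608) (nat_lit 0) (XT.nd (nat_lit 78)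 (nat_lit 380) (nat_lit 0) (XT.lf (nat_lit 0) (nat_lit 10127961453) (nat_lit 456) (nat_lit 1338928488) (nat_lit 76) (nat_lit 1107398677) (nat_lit 75) (nat_lit 5) (nat_lit 81) (nat_lit 5) (nat_lit 76) (nat_lit 5) (nat_lit 316) (nat_lit 268) (nat_lit 196)) (XT.nd (nat_lit 78) (nat_lit 76) (nat_lit 0) (XT.lf (nat_lit 0) (nat_lit 4510539671) (nat_lit 304) (nat_lit 7991783800) (nat_lit 380) (nat_lit 310338513) (nat_lit 71) (nat_lit 5) (nat_lit 75) (nat_lit 5) (nat_lit 76) (nat_lit 5) (nat_lit 317) (nat_lit 268) (nat_lit 195)) (XT.lf (nat_lit 0) (nat_lit 1841443094) (nat_lit 380) (nat_lit 2545763284) (nat_lit 76) (nat_lit 8670823430) (nat_lit 70) (nat_lit 5) (nat_lit 75) (nat_lit 5) (nat_lit 71) (nat_lit 5) (nat_lit 318) (nat_lit 268) (nat_lit 194)))) (XT.nd (nat_lit 78) (nat_lit 304) (nat_lit 0) (XT.lf (nat_lit 0) (nat_lit 3415184720) (nat_lit 304) (nat_lit 644849156) (nat_lit 380) (nat_lit 9250422354)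 (nat_lit 66) (nat_lit 5) (nat_lit 70) (nat_lit 5) (nat_lit 71) (nat_lit 5) (nat_lit 319) (nat_lit 268) (nat_lit 193)) (XT.nd (nat_lit 78) (nat_lit 304) (nat_lit 0) (XT.lf (nat_lit 0) (nat_lit 6377998755) (nat_lit 380) (nat_lit 4025697123) (nat_lit 76) (nat_lit 3165818319) (nat_lit 66) (nat_lit 5) (nat_lit 71) (nat_lit 5) (nat_lit 67) (nat_lit 5) (nat_lit 320) (nat_lit 268) (nat_lit 192)) (XT.lf (nat_lit 0) (nat_lit 2021917435) (nat_lit 304) (nat_lit 6746104989) (nat_lit 380) (nat_lit 5068287867) (nat_lit 62) (nat_lit 5) (nat_lit 66) (nat_lit 5) (nat_lit 67) (nat_lit 5) (nat_lit 321) (nat_lit 268) (nat_lit 191))))))))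
noncomputable def xc135 : XT := (XT.nd (nat_lit 1716) (nat_lit 1292) (nat_lit 0) (XT.nd (nat_lit 858) (nat_lit 912) (nat_lit 0) (XT.nd (nat_lit 390) (nat_lit 608) (nat_lit 0) (XT.nd (nat_lit 156) (nat_lit 304) (nat_lit 0) (XT.nd (nat_lit 78) (nat_lit 304) (nat_lit 0) (XT.lf (nat_lit 0) (nat_lit 8302671040) (nat_lit 304) (nat_lit 2944809179) (nat_lit 380) (nat_lit 2863138807) (nat_lit 62) (nat_lit 5) (nat_lit 66) (nat_lit 5) (nat_lit 67) (nat_lit 5) (nat_lit 322) (nat_lit 268) (nat_lit 190)) (XT.lf (nat_lit 0) (nat_lit 345555766) (nat_lit 304) (nat_lit 13446092577) (nat_lit 380) (nat_lit 601838456) (nat_lit 58) (nat_lit 5) (nat_lit 62) (nat_lit 5) (nat_lit 63) (nat_lit 5) (nat_lit 323) (nat_lit 268) (nat_lit 189))) (XT.nd (nat_lit 78) (nat_lit 228) (nat_lit 0) (XT.lf (nat_lit 0) (nat_lit 1759761065) (nat_lit 380) (nat_lit 7957428594) (nat_lit 76) (nat_lit 4965205151) (nat_lit 57) (nat_lit 5)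 (nat_lit 62) (nat_lit 5) (nat_lit 58) (nat_lit 5) (nat_lit 324) (nat_lit 268) (nat_lit 188)) (XT.nd (nat_lit 78) (nat_lit 228) (nat_lit 0) (XT.lf (nat_lit 0) (nat_lit 4158539329) (nat_lit 380) (nat_lit 1720003128) (nat_lit 76) (nat_lit 9101932242) (nat_lit 57) (nat_lit 5) (nat_lit 62) (nat_lit 5) (nat_lit 58) (nat_lit 5) (nat_lit 325) (nat_lit 268) (nat_lit 187)) (XT.lf (nat_lit 0) (nat_lit 4768634006) (nat_lit 228) (nat_lit 1885541412) (nat_lit 304) (nat_lit 8632609893) (nat_lit 54) (nat_lit 5) (nat_lit 57) (nat_lit 5) (nat_lit 58) (nat_lit 5) (nat_lit 326) (nat_lit 268) (nat_lit 186))))) (XT.nd (nat_lit 234) (nat_lit 304) (nat_lit 0) (XT.nd (nat_lit 78) (nat_lit 304) (nat_lit 0) (XT.lf (nat_lit 0) (nat_lit 9242943119) (nat_lit 304) (nat_lit 4165412425) (nat_lit 76) (nat_lit 2193415957) (nat_lit 54) (nat_lit 5) (nat_lit 58) (nat_lit 5) (nat_lit 55) (nat_lit 5) (nat_lit 327) (nat_lit 268) (nat_lit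 185)) (XT.nd (nat_lit 78) (nat_lit 0) (nat_lit 0) (XT.lf (nat_lit 0) (nat_lit 2377224986) (nat_lit 304) (nat_lit 9553583707) (nat_lit 380) (nat_lit 3994788682) (nat_lit 50) (nat_lit 5) (nat_lit 54) (nat_lit 5) (nat_lit 55) (nat_lit 5) (nat_lit 328) (nat_lit 268) (nat_lit 184)) (XT.lf (nat_lit 0) (nat_lit 9173403723) (nat_lit 304) (nat_lit 5548198437) (nat_lit 380) (nat_lit 1536899283) (nat_lit 50) (nat_lit 5) (nat_lit 54) (nat_lit 5) (nat_lit 55) (nat_lit 5) (nat_lit 329) (nat_lit 268) (nat_lit 183)))) (XT.nd (nat_lit 78) (nat_lit 228) (nat_lit 0) (XT.lf (nat_lit 0) (nat_lit 955900689) (nat_lit 380) (nat_lit 465208970) (nat_lit 76) (nat_lit 15180608909) (nat_lit 49) (nat_lit 5) (nat_lit 54) (nat_lit 5) (nat_lit 50) (nat_lit 5) (nat_lit 330) (nat_lit 268) (nat_lit 182)) (XT.nd (nat_lit 78) (nat_lit 0) (nat_lit 0) (XT.lf (nat_lit 0) (nat_lit 3563506008) (nat_lit 304) (nat_lit 10544652887) (nat_lit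 76) (nat_lit 2844518908) (nat_lit 46) (nat_lit 5) (nat_lit 50) (nat_lit 5) (nat_lit 47) (nat_lit 5) (nat_lit 331) (nat_lit 268) (nat_lit 181)) (XT.lf (nat_lit 0) (nat_lit 6249519219) (nat_lit 304) (nat_lit 3858308060) (nat_lit 76) (nat_lit 7206361733) (nat_lit 46) (nat_lit 5) (nat_lit 50) (nat_lit 5) (nat_lit 47) (nat_lit 5) (nat_lit 332) (nat_lit 268) (nat_lit 180)))))) (XT.nd (nat_lit 390) (nat_lit 380) (nat_lit 0) (XT.nd (nat_lit 156) (nat_lit 304) (nat_lit 0) (XT.nd (nat_lit 78) (nat_lit 0) (nat_lit 0) (XT.lf (nat_lit 0) (nat_lit 3062010567) (nat_lit 228) (nat_lit 5965444070) (nat_lit 304) (nat_lit 8658778422) (nat_lit 43) (nat_lit 5) (nat_lit 46) (nat_lit 5) (nat_lit 47) (nat_lit 5) (nat_lit 333) (nat_lit 268) (nat_lit 179)) (XT.lf (nat_lit 0) (nat_lit 10242921392) (nat_lit 228) (nat_lit 1666951945) (nat_lit 304) (nat_lit 6158957681) (nat_lit 43) (nat_lit 5) (nat_lit 46) (nat_lit 5) (nat_lit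 47) (nat_lit 5) (nat_lit 334) (nat_lit 268) (nat_lit 178))) (XT.nd (nat_lit 78) (nat_lit 304) (nat_lit 0) (XT.lf (nat_lit 0) (nat_lit 14887925561) (nat_lit 304) (nat_lit 875999068) (nat_lit 76) (nat_lit 2698733622) (nat_lit 43) (nat_lit 5) (nat_lit 47) (nat_lit 5) (nat_lit 44) (nat_lit 5) (nat_lit 335) (nat_lit 268) (nat_lit 177)) (XT.nd (nat_lit 78) (nat_lit 76) (nat_lit 0) (XT.lf (nat_lit 0) (nat_lit 6365045088) (nat_lit 228) (nat_lit 11651094897) (nat_lit 304) (nat_lit 850361096) (nat_lit 40) (nat_lit 5) (nat_lit 43) (nat_lit 5) (nat_lit 44) (nat_lit 5) (nat_lit 336) (nat_lit 268) (nat_lit 176)) (XT.lf (nat_lit 0) (nat_lit 1909707042) (nat_lit 304) (nat_lit 5484980357) (nat_lit 76) (nat_lit 11887467878) (nat_lit 39) (nat_lit 5) (nat_lit 43) (nat_lit 5) (nat_lit 40) (nat_lit 5) (nat_lit 337) (nat_lit 268) (nat_lit 175))))) (XT.nd (nat_lit 234) (nat_lit 152) (nat_lit 0) (XT.nd (nat_lit 78)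 (nat_lit 0) (nat_lit 0) (XT.lf (nat_lit 0) (nat_lit 1743141551) (nat_lit 228) (nat_lit 2992785360) (nat_lit 304) (nat_lit 14974109618) (nat_lit 36) (nat_lit 5) (nat_lit 39) (nat_lit 5) (nat_lit 40) (nat_lit 5) (nat_lit 338) (nat_lit 268) (nat_lit 174)) (XT.nd (nat_lit 78) (nat_lit 0) (nat_lit 0) (XT.lf (nat_lit 0) (nat_lit 7701533344) (nat_lit 304) (nat_lit 10888542340) (nat_lit 76) (nat_lit 1559063102) (nat_lit 36) (nat_lit 5) (nat_lit 40) (nat_lit 5) (nat_lit 37) (nat_lit 5) (nat_lit 339) (nat_lit 268) (nat_lit 173)) (XT.lf (nat_lit 0) (nat_lit 10770059243) (nat_lit 304) (nat_lit 3651383756) (nat_lit 76) (nat_lit 6179574485) (nat_lit 36) (nat_lit 5) (nat_lit 40) (nat_lit 5) (nat_lit 37) (nat_lit 5) (nat_lit 340) (nat_lit 268) (nat_lit 172)))) (XT.nd (nat_lit 78) (nat_lit 0) (nat_lit 0) (XT.lf (nat_lit 0) (nat_lit 3854895889) (nat_lit 152) (nat_lit 10097577088) (nat_lit 228) (nat_lit 7113345877)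 (nat_lit 34) (nat_lit 5) (nat_lit 36) (nat_lit 5) (nat_lit 37) (nat_lit 5) (nat_lit 341) (nat_lit 268) (nat_lit 171)) (XT.nd (nat_lit 78) (nat_lit 0) (nat_lit 0) (XT.lf (nat_lit 0) (nat_lit 11638224729) (nat_lit 152) (nat_lit 5614005073) (nat_lit 228) (nat_lit 4291698997) (nat_lit 34) (nat_lit 5) (nat_lit 36) (nat_lit 5) (nat_lit 37) (nat_lit 5) (nat_lit 342) (nat_lit 268) (nat_lit 170)) (XT.lf (nat_lit 0) (nat_lit 19632734032) (nat_lit 152) (nat_lit 1003681087) (nat_lit 228) (nat_lit 1400423901) (nat_lit 34) (nat_lit 5) (nat_lit 36) (nat_lit 5) (nat_lit 37) (nat_lit 5) (nat_lit 343) (nat_lit 268) (nat_lit 169))))))) (XT.nd (nat_lit 858) (nat_lit 456) (nat_lit 0) (XT.nd (nat_lit 390) (nat_lit 380) (nat_lit 0) (XT.nd (nat_lit 156) (nat_lit 152) (nat_lit 0) (XT.nd (nat_lit 78) (nat_lit 0) (nat_lit 0) (XT.lf (nat_lit 0) (nat_lit 1620911791) (nat_lit 304) (nat_lit 17188968729) (nat_lit 76) (nat_lit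 3731996781) (nat_lit 30) (nat_lit 5) (nat_lit 34) (nat_lit 5) (nat_lit 31) (nat_lit 5) (nat_lit 344) (nat_lit 268) (nat_lit 168)) (XT.lf (nat_lit 0) (nat_lit 4725029514) (nat_lit 304) (nat_lit 9715592276) (nat_lit 76) (nat_lit 8620438649) (nat_lit 30) (nat_lit 5) (nat_lit 34) (nat_lit 5) (nat_lit 31) (nat_lit 5) (nat_lit 345) (nat_lit 268) (nat_lit 167))) (XT.nd (nat_lit 78) (nat_lit 152) (nat_lit 0) (XT.lf (nat_lit 0) (nat_lit 7908517903) (nat_lit 304) (nat_lit 2039494917) (nat_lit 76) (nat_lit 13648236654) (nat_lit 30) (nat_lit 5) (nat_lit 34) (nat_lit 5) (nat_lit 31) (nat_lit 5) (nat_lit 346) (nat_lit 268) (nat_lit 166)) (XT.nd (nat_lit 78) (nat_lit 0) (nat_lit 0) (XT.lf (nat_lit 0) (nat_lit 5962378087) (nat_lit 152) (nat_lit 5269094582) (nat_lit 228) (nat_lit 12914719955) (nat_lit 28) (nat_lit 5) (nat_lit 30) (nat_lit 5) (nat_lit 31) (nat_lit 5) (nat_lit 347) (nat_lit 268) (nat_lit 165))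 (XT.lf (nat_lit 0) (nat_lit 14225464642) (nat_lit 152) (nat_lit 436084438) (nat_lit 228) (nat_lit 10050878792) (nat_lit 28) (nat_lit 5) (nat_lit 30) (nat_lit 5) (nat_lit 31) (nat_lit 5) (nat_lit 348) (nat_lit 268) (nat_lit 164))))) (XT.nd (nat_lit 234) (nat_lit 228) (nat_lit 0) (XT.nd (nat_lit 78) (nat_lit 152) (nat_lit 0) (XT.lf (nat_lit 0) (nat_lit 18225339031) (nat_lit 228) (nat_lit 2623244656) (nat_lit 76) (nat_lit 4446158458) (nat_lit 28) (nat_lit 5) (nat_lit 31) (nat_lit 5) (nat_lit 29) (nat_lit 5) (nat_lit 349) (nat_lit 268) (nat_lit 163)) (XT.nd (nat_lit 78) (nat_lit 0) (nat_lit 0) (XT.lf (nat_lit 0) (nat_lit 5560793880) (nat_lit 152) (nat_lit 16380546014) (nat_lit 228) (nat_lit 3951842861) (nat_lit 26) (nat_lit 5) (nat_lit 28) (nat_lit 5) (nat_lit 29) (nat_lit 5) (nat_lit 350) (nat_lit 268) (nat_lit 162)) (XT.lf (nat_lit 0) (nat_lit 14024536443) (nat_lit 152) (nat_lit 11758474771) (nat_lit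 228) (nat_lit 726155027) (nat_lit 26) (nat_lit 5) (nat_lit 28) (nat_lit 5) (nat_lit 29) (nat_lit 5) (nat_lit 351) (nat_lit 268) (nat_lit 161)))) (XT.nd (nat_lit 78) (nat_lit 152) (nat_lit 0) (XT.lf (nat_lit 0) (nat_lit 2533566384) (nat_lit 228) (nat_lit 4445670445) (nat_lit 76) (nat_lit 20164020386) (nat_lit 25) (nat_lit 5) (nat_lit 28) (nat_lit 5) (nat_lit 26) (nat_lit 5) (nat_lit 352) (nat_lit 268) (nat_lit 160)) (XT.nd (nat_lit 78) (nat_lit 0) (nat_lit 0) (XT.lf (nat_lit 0) (nat_lit 3884351908) (nat_lit 152) (nat_lit 2017749138) (nat_lit 228) (nat_lit 21893299746) (nat_lit 23) (nat_lit 5) (nat_lit 25) (nat_lit 5) (nat_lit 26) (nat_lit 5) (nat_lit 353) (nat_lit 268) (nat_lit 159)) (XT.lf (nat_lit 0) (nat_lit 9435130709) (nat_lit 228) (nat_lit 15959351126) (nat_lit 76) (nat_lit 3070737328) (nat_lit 23) (nat_lit 5) (nat_lit 26) (nat_lit 5) (nat_lit 24) (nat_lit 5) (nat_lit 354) (nat_lit 268)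 (nat_lit 158)))))) (XT.nd (nat_lit 468) (nat_lit 152) (nat_lit 0) (XT.nd (nat_lit 234) (nat_lit 152) (nat_lit 0) (XT.nd (nat_lit 78) (nat_lit 152) (nat_lit 0) (XT.lf (nat_lit 0) (nat_lit 13082841714) (nat_lit 228) (nat_lit 7807355645) (nat_lit 76) (nat_lit 8264687268) (nat_lit 23) (nat_lit 5) (nat_lit 26) (nat_lit 5) (nat_lit 24) (nat_lit 5) (nat_lit 355) (nat_lit 268) (nat_lit 157)) (XT.nd (nat_lit 78) (nat_lit 0) (nat_lit 0) (XT.lf (nat_lit 0) (nat_lit 582829604) (nat_lit 152) (nat_lit 16251798455) (nat_lit 228) (nat_lit 13030785547) (nat_lit 21) (nat_lit 5) (nat_lit 23) (nat_lit 5) (nat_lit 24) (nat_lit 5) (nat_lit 356) (nat_lit 268) (nat_lit 156)) (XT.lf (nat_lit 0) (nat_lit 9367194302) (nat_lit 152) (nat_lit 11399804465) (nat_lit 228) (nat_lit 9828231260) (nat_lit 21) (nat_lit 5) (nat_lit 23) (nat_lit 5) (nat_lit 24) (nat_lit 5) (nat_lit 357) (nat_lit 268) (nat_lit 155)))) (XT.nd (nat_lit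 78) (nat_lit 152) (nat_lit 0) (XT.lf (nat_lit 0) (nat_lit 18398032419) (nat_lit 152) (nat_lit 6408814767) (nat_lit 228) (nat_lit 6540420687) (nat_lit 21) (nat_lit 5) (nat_lit 23) (nat_lit 5) (nat_lit 24) (nat_lit 5) (nat_lit 358) (nat_lit 268) (nat_lit 154)) (XT.nd (nat_lit 78) (nat_lit 152) (nat_lit 0) (XT.lf (nat_lit 0) (nat_lit 27683234980) (nat_lit 152) (nat_lit 1274468302) (nat_lit 228) (nat_lit 3164480985) (nat_lit 21) (nat_lit 5) (nat_lit 23) (nat_lit 5) (nat_lit 24) (nat_lit 5) (nat_lit 359) (nat_lit 268) (nat_lit 153)) (XT.lf (nat_lit 0) (nat_lit 377834595) (nat_lit 152) (nat_lit 28565198280) (nat_lit 76) (nat_lit 3975100183) (nat_lit 19) (nat_lit 5) (nat_lit 21) (nat_lit 5) (nat_lit 20) (nat_lit 5) (nat_lit 360) (nat_lit 268) (nat_lit 152))))) (XT.nd (nat_lit 234) (nat_lit 152) (nat_lit 0) (XT.nd (nat_lit 78) (nat_lit 0) (nat_lit 0) (XT.lf (nat_lit 0) (nat_lit 4010779519) (nat_lit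 152) (nat_lit 20297815159) (nat_lit 76) (nat_lit 9426997584) (nat_lit 19) (nat_lit 5) (nat_lit 21) (nat_lit 5) (nat_lit 20) (nat_lit 5) (nat_lit 361) (nat_lit 268) (nat_lit 151)) (XT.nd (nat_lit 78) (nat_lit 0) (nat_lit 0) (XT.lf (nat_lit 0) (nat_lit 7743077663) (nat_lit 152) (nat_lit 11798308856) (nat_lit 76) (nat_lit 15036488243) (nat_lit 19) (nat_lit 5) (nat_lit 21) (nat_lit 5) (nat_lit 20) (nat_lit 5) (nat_lit 362) (nat_lit 268) (nat_lit 150)) (XT.lf (nat_lit 0) (nat_lit 11577990258) (nat_lit 152) (nat_lit 3059252617) (nat_lit 76) (nat_lit 20808473655) (nat_lit 19) (nat_lit 5) (nat_lit 21) (nat_lit 5) (nat_lit 20) (nat_lit 5) (nat_lit 363) (nat_lit 268) (nat_lit 149)))) (XT.nd (nat_lit 78) (nat_lit 0) (nat_lit 0) (XT.lf (nat_lit 0) (nat_lit 6044948339) (nat_lit 152) (nat_lit 9532027601) (nat_lit 228) (nat_lit 20761156705) (nat_lit 17) (nat_lit 5) (nat_lit 19) (nat_lit 5) (nat_lit 20) (nat_lit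 5) (nat_lit 364) (nat_lit 268) (nat_lit 148)) (XT.nd (nat_lit 78) (nat_lit 0) (nat_lit 0) (XT.lf (nat_lit 0) (nat_lit 15470148241) (nat_lit 152) (nat_lit 4247715260) (nat_lit 228) (nat_lit 17538809351) (nat_lit 17) (nat_lit 5) (nat_lit 19) (nat_lit 5) (nat_lit 20) (nat_lit 5) (nat_lit 365) (nat_lit 268) (nat_lit 147)) (XT.lf (nat_lit 0) (nat_lit 23985711942) (nat_lit 228) (nat_lit 13050775389) (nat_lit 76) (nat_lit 1166209203) (nat_lit 17) (nat_lit 5) (nat_lit 20) (nat_lit 5) (nat_lit 18) (nat_lit 4) (nat_lit 366) (nat_lit 268) (nat_lit 146))))))))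
noncomputable def xc136 : XT := (XT.nd (nat_lit 1716) (nat_lit 76) (nat_lit 0) (XT.nd (nat_lit 858) (nat_lit 228) (nat_lit 0) (XT.nd (nat_lit 390) (nat_lit 228) (nat_lit 0) (XT.nd (nat_lit 156) (nat_lit 76) (nat_lit 0) (XT.nd (nat_lit 78) (nat_lit 76) (nat_lit 0) (XT.lf (nat_lit 0) (nat_lit 28415153360) (nat_lit 228) (nat_lit 4109206371) (nat_lit 76) (nat_lit 6651743497) (nat_lit 17) (nat_lit 5) (nat_lit 20) (nat_lit 5) (nat_lit 18) (nat_lit 4) (nat_lit 367) (nat_lit 268) (nat_lit 145)) (XT.lf (nat_lit 0) (nat_lit 5188064934) (nat_lit 76) (nat_lit 27831032424) (nat_lit 152) (nat_lit 7158374949) (nat_lit 16) (nat_lit 5) (nat_lit 17) (nat_lit 5) (nat_lit 18) (nat_lit 4) (nat_lit 368) (nat_lit 268) (nat_lit 144))) (XT.nd (nat_lit 78) (nat_lit 76) (nat_lit 0) (XT.lf (nat_lit 0) (nat_lit 14834841588) (nat_lit 76) (nat_lit 22959670646) (nat_lit 152) (nat_lit 3413378156) (nat_lit 16) (nat_lit 5) (nat_lit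 17) (nat_lit 5) (nat_lit 18) (nat_lit 4) (nat_lit 369) (nat_lit 268) (nat_lit 143)) (XT.nd (nat_lit 78) (nat_lit 0) (nat_lit 0) (XT.lf (nat_lit 0) (nat_lit 427313533) (nat_lit 152) (nat_lit 17515884232) (nat_lit 76) (nat_lit 24326142988) (nat_lit 15) (nat_lit 5) (nat_lit 17) (nat_lit 5) (nat_lit 16) (nat_lit 5) (nat_lit 370) (nat_lit 268) (nat_lit 142)) (XT.lf (nat_lit 0) (nat_lit 4306861634) (nat_lit 152) (nat_lit 8439826822) (nat_lit 76) (nat_lit 30615172847) (nat_lit 15) (nat_lit 5) (nat_lit 17) (nat_lit 5) (nat_lit 16) (nat_lit 5) (nat_lit 371) (nat_lit 268) (nat_lit 141))))) (XT.nd (nat_lit 234) (nat_lit 76) (nat_lit 0) (XT.nd (nat_lit 78) (nat_lit 0) (nat_lit 0) (XT.lf (nat_lit 0) (nat_lit 913694923) (nat_lit 152) (nat_lit 7390351418) (nat_lit 228) (nat_lit 36183081183) (nat_lit 13) (nat_lit 5) (nat_lit 15) (nat_lit 5) (nat_lit 16) (nat_lit 5) (nat_lit 372) (nat_lit 268) (nat_lit 140))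 (XT.nd (nat_lit 78) (nat_lit 0) (nat_lit 0) (XT.lf (nat_lit 0) (nat_lit 10708307617) (nat_lit 152) (nat_lit 1790630867) (nat_lit 228) (nat_lit 33144886831) (nat_lit 13) (nat_lit 5) (nat_lit 15) (nat_lit 5) (nat_lit 16) (nat_lit 5) (nat_lit 373) (nat_lit 268) (nat_lit 139)) (XT.lf (nat_lit 0) (nat_lit 16850642748) (nat_lit 228) (nat_lit 26089029770) (nat_lit 76) (nat_lit 3894629687) (nat_lit 13) (nat_lit 5) (nat_lit 16) (nat_lit 5) (nat_lit 14) (nat_lit 4) (nat_lit 374) (nat_lit 268) (nat_lit 138)))) (XT.nd (nat_lit 78) (nat_lit 76) (nat_lit 0) (XT.lf (nat_lit 0) (nat_lit 21343573971) (nat_lit 228) (nat_lit 17006851256) (nat_lit 76) (nat_lit 9709754819) (nat_lit 13) (nat_lit 5) (nat_lit 16) (nat_lit 5) (nat_lit 14) (nat_lit 4) (nat_lit 375) (nat_lit 268) (nat_lit 137)) (XT.nd (nat_lit 78) (nat_lit 76) (nat_lit 0) (XT.lf (nat_lit 0) (nat_lit 25964445375) (nat_lit 228) (nat_lit 7663833632) (nat_lit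 76) (nat_lit 15694767364) (nat_lit 13) (nat_lit 5) (nat_lit 16) (nat_lit 5) (nat_lit 14) (nat_lit 4) (nat_lit 376) (nat_lit 268) (nat_lit 136)) (XT.lf (nat_lit 0) (nat_lit 1986959642) (nat_lit 76) (nat_lit 28749434846) (nat_lit 152) (nat_lit 19887037172) (nat_lit 12) (nat_lit 5) (nat_lit 13) (nat_lit 5) (nat_lit 14) (nat_lit 4) (nat_lit 377) (nat_lit 268) (nat_lit 135)))))) (XT.nd (nat_lit 390) (nat_lit 228) (nat_lit 0) (XT.nd (nat_lit 156) (nat_lit 0) (nat_lit 0) (XT.nd (nat_lit 78) (nat_lit 0) (nat_lit 0) (XT.lf (nat_lit 0) (nat_lit 12073200836) (nat_lit 76) (nat_lit 23649128825) (nat_lit 152) (nat_lit 16238380350) (nat_lit 12) (nat_lit 5) (nat_lit 13) (nat_lit 5) (nat_lit 14) (nat_lit 4) (nat_lit 378) (nat_lit 268) (nat_lit 134)) (XT.lf (nat_lit 0) (nat_lit 22451177854) (nat_lit 76) (nat_lit 18400294061) (nat_lit 152) (nat_lit 12486832075) (nat_lit 12) (nat_lit 5) (nat_lit 13) (nat_lit 5)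 (nat_lit 14) (nat_lit 4) (nat_lit 379) (nat_lit 268) (nat_lit 133))) (XT.nd (nat_lit 78) (nat_lit 0) (nat_lit 0) (XT.lf (nat_lit 0) (nat_lit 33129958831) (nat_lit 76) (nat_lit 12998344191) (nat_lit 152) (nat_lit 8629114296) (nat_lit 12) (nat_lit 5) (nat_lit 13) (nat_lit 5) (nat_lit 14) (nat_lit 4) (nat_lit 380) (nat_lit 268) (nat_lit 132)) (XT.nd (nat_lit 78) (nat_lit 0) (nat_lit 0) (XT.lf (nat_lit 0) (nat_lit 44118874741) (nat_lit 76) (nat_lit 7438559066) (nat_lit 152) (nat_lit 4661856191) (nat_lit 12) (nat_lit 5) (nat_lit 13) (nat_lit 5) (nat_lit 14) (nat_lit 4) (nat_lit 381) (nat_lit 268) (nat_lit 131)) (XT.lf (nat_lit 0) (nat_lit 55427527548) (nat_lit 76) (nat_lit 1716080621) (nat_lit 152) (nat_lit 581591223) (nat_lit 12) (nat_lit 5) (nat_lit 13) (nat_lit 5) (nat_lit 14) (nat_lit 4) (nat_lit 382) (nat_lit 268) (nat_lit 130))))) (XT.nd (nat_lit 234) (nat_lit 0) (nat_lit 0) (XT.nd (nat_lit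 78) (nat_lit 0) (nat_lit 0) (XT.lf (nat_lit 0) (nat_lit 3661945487) (nat_lit 228) (nat_lit 51405442005) (nat_lit 76) (nat_lit 4204513916) (nat_lit 9) (nat_lit 5) (nat_lit 12) (nat_lit 5) (nat_lit 10) (nat_lit 4) (nat_lit 383) (nat_lit 268) (nat_lit 129)) (XT.nd (nat_lit 78) (nat_lit 0) (nat_lit 0) (XT.lf (nat_lit 0) (nat_lit 8055834706) (nat_lit 228) (nat_lit 42514473572) (nat_lit 76) (nat_lit 10293486527) (nat_lit 9) (nat_lit 5) (nat_lit 12) (nat_lit 5) (nat_lit 10) (nat_lit 4) (nat_lit 384) (nat_lit 268) (nat_lit 128)) (XT.lf (nat_lit 0) (nat_lit 12576019450) (nat_lit 228) (nat_lit 33366291437) (nat_lit 76) (nat_lit 16561304751) (nat_lit 9) (nat_lit 5) (nat_lit 12) (nat_lit 5) (nat_lit 10) (nat_lit 4) (nat_lit 385) (nat_lit 268) (nat_lit 127)))) (XT.nd (nat_lit 78) (nat_lit 0) (nat_lit 0) (XT.lf (nat_lit 0) (nat_lit 17226449396) (nat_lit 228) (nat_lit 23952902041) (nat_lit 76) (nat_lit 23013445321)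 (nat_lit 9) (nat_lit 5) (nat_lit 12) (nat_lit 5) (nat_lit 10) (nat_lit 4) (nat_lit 386) (nat_lit 268) (nat_lit 126)) (XT.nd (nat_lit 78) (nat_lit 0) (nat_lit 0) (XT.lf (nat_lit 0) (nat_lit 22011188025) (nat_lit 228) (nat_lit 14266080094) (nat_lit 76) (nat_lit 29655546031) (nat_lit 9) (nat_lit 5) (nat_lit 12) (nat_lit 5) (nat_lit 10) (nat_lit 4) (nat_lit 387) (nat_lit 268) (nat_lit 125)) (XT.lf (nat_lit 0) (nat_lit 26934416177) (nat_lit 228) (nat_lit 4297361381) (nat_lit 76) (nat_lit 36493410658) (nat_lit 9) (nat_lit 5) (nat_lit 12) (nat_lit 5) (nat_lit 10) (nat_lit 4) (nat_lit 388) (nat_lit 268) (nat_lit 124))))))) (XT.nd (nat_lit 31668) (nat_lit 0) (nat_lit 14364) (XT.nd (nat_lit 390) (nat_lit 0) (nat_lit 0) (XT.nd (nat_lit 156) (nat_lit 0) (nat_lit 0) (XT.nd (nat_lit 78) (nat_lit 0) (nat_lit 0) (XT.lf (nat_lit 0) (nat_lit 6080619413) (nat_lit 76) (nat_lit 25978266923) (nat_lit 152) (nat_lit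 37510845254) (nat_lit 8) (nat_lit 5) (nat_lit 9) (nat_lit 5) (nat_lit 10) (nat_lit 4) (nat_lit 389) (nat_lit 268) (nat_lit 123)) (XT.lf (nat_lit 0) (nat_lit 16849659947) (nat_lit 76) (nat_lit 20525982512) (nat_lit 152) (nat_lit 34092816562) (nat_lit 8) (nat_lit 5) (nat_lit 9) (nat_lit 5) (nat_lit 10) (nat_lit 4) (nat_lit 390) (nat_lit 268) (nat_lit 122))) (XT.nd (nat_lit 78) (nat_lit 0) (nat_lit 0) (XT.lf (nat_lit 0) (nat_lit 27933644144) (nat_lit 76) (nat_lit 14913555118) (nat_lit 152) (nat_lit 30577094259) (nat_lit 8) (nat_lit 5) (nat_lit 9) (nat_lit 5) (nat_lit 10) (nat_lit 4) (nat_lit 391) (nat_lit 268) (nat_lit 121)) (XT.nd (nat_lit 78) (nat_lit 0) (nat_lit 0) (XT.lf (nat_lit 0) (nat_lit 39342257037) (nat_lit 76) (nat_lit 9136080678) (nat_lit 152) (nat_lit 26960606355) (nat_lit 8) (nat_lit 5) (nat_lit 9) (nat_lit 5) (nat_lit 10) (nat_lit 4) (nat_lit 392) (nat_lit 268) (nat_lit 120)) (XT.lf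 (nat_lit 0) (nat_lit 51085467319) (nat_lit 76) (nat_lit 3188510913) (nat_lit 152) (nat_lit 23240192813) (nat_lit 8) (nat_lit 5) (nat_lit 9) (nat_lit 5) (nat_lit 10) (nat_lit 4) (nat_lit 393) (nat_lit 268) (nat_lit 119))))) (XT.nd (nat_lit 31044) (nat_lit 0) (nat_lit 16416) (XT.nd (nat_lit 30888) (nat_lit 0) (nat_lit 17024) (XT.lf (nat_lit 0) (nat_lit 60267391743) (nat_lit 152) (nat_lit 16506458482) (nat_lit 0) (nat_lit 2877091321) (nat_lit 8) (nat_lit 5) (nat_lit 10) (nat_lit 4) (nat_lit 8) (nat_lit 4) (nat_lit 394) (nat_lit 268) (nat_lit 118)) (XT.nd (nat_lit 78) (nat_lit 0) (nat_lit 0) (XT.lf (nat_lit 0) (nat_lit 550624270) (nat_lit 0) (nat_lit 550624270) (nat_lit 532) (nat_lit 2300481264) (nat_lit 232) (nat_lit 5) (nat_lit 232) (nat_lit 3) (nat_lit 239) (nat_lit 3) (nat_lit 269) (nat_lit 269) (nat_lit 242)) (XT.lf (nat_lit 0) (nat_lit 4054931109) (nat_lit 532) (nat_lit 2764660989) (nat_lit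 608) (nat_lit 25184222) (nat_lit 232) (nat_lit 5) (nat_lit 239) (nat_lit 3) (nat_lit 240) (nat_lit 5) (nat_lit 270) (nat_lit 269) (nat_lit 241)))) (XT.nd (nat_lit 78) (nat_lit 608) (nat_lit 0) (XT.lf (nat_lit 76) (nat_lit 216119992) (nat_lit 0) (nat_lit 5689143998) (nat_lit 608) (nat_lit 984038913) (nat_lit 233) (nat_lit 5) (nat_lit 232) (nat_lit 5) (nat_lit 240) (nat_lit 5) (nat_lit 271) (nat_lit 269) (nat_lit 240)) (XT.nd (nat_lit 78) (nat_lit 0) (nat_lit 0) (XT.lf (nat_lit 0) (nat_lit 817170613) (nat_lit 608) (nat_lit 3639478790) (nat_lit 684) (nat_lit 2479739985) (nat_lit 224) (nat_lit 5) (nat_lit 232) (nat_lit 5) (nat_lit 233) (nat_lit 5) (nat_lit 272) (nat_lit 269) (nat_lit 239)) (XT.lf (nat_lit 0) (nat_lit 2584801079) (nat_lit 608) (nat_lit 562809204) (nat_lit 684) (nat_lit 3839240776) (nat_lit 224) (nat_lit 5) (nat_lit 232) (nat_lit 5) (nat_lit 233) (nat_lit 5) (nat_lit 273) (nat_lit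 269) (nat_lit 238)))))) (XT.nd (nat_lit 468) (nat_lit 1444) (nat_lit 0) (XT.nd (nat_lit 234) (nat_lit 0) (nat_lit 0) (XT.nd (nat_lit 78) (nat_lit 608) (nat_lit 0) (XT.lf (nat_lit 76) (nat_lit 2620100990) (nat_lit 0) (nat_lit 1744684182) (nat_lit 684) (nat_lit 2675475033) (nat_lit 225) (nat_lit 5) (nat_lit 224) (nat_lit 5) (nat_lit 233) (nat_lit 5) (nat_lit 274) (nat_lit 269) (nat_lit 237)) (XT.nd (nat_lit 78) (nat_lit 608) (nat_lit 0) (XT.lf (nat_lit 76) (nat_lit 5873213020) (nat_lit 0) (nat_lit 266342069) (nat_lit 684) (nat_lit 957682100) (nat_lit 225) (nat_lit 5) (nat_lit 224) (nat_lit 5) (nat_lit 233) (nat_lit 5) (nat_lit 275) (nat_lit 269) (nat_lit 236)) (XT.lf (nat_lit 0) (nat_lit 765000933) (nat_lit 684) (nat_lit 5106537069) (nat_lit 760) (nat_lit 1285270846) (nat_lit 216) (nat_lit 5) (nat_lit 225) (nat_lit 5) (nat_lit 226) (nat_lit 5) (nat_lit 276) (nat_lit 269) (nat_lit 235)))) (XT.nd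 (nat_lit 78) (nat_lit 0) (nat_lit 0) (XT.lf (nat_lit 0) (nat_lit 2473723452) (nat_lit 684) (nat_lit 1821271090) (nat_lit 760) (nat_lit 2924470004) (nat_lit 216) (nat_lit 5) (nat_lit 225) (nat_lit 5) (nat_lit 226) (nat_lit 5) (nat_lit 277) (nat_lit 269) (nat_lit 234)) (XT.nd (nat_lit 78) (nat_lit 0) (nat_lit 0) (XT.lf (nat_lit 76) (nat_lit 1554913557) (nat_lit 0) (nat_lit 2634020272) (nat_lit 760) (nat_lit 3096593353) (nat_lit 217) (nat_lit 5) (nat_lit 216) (nat_lit 5) (nat_lit 226) (nat_lit 5) (nat_lit 278) (nat_lit 269) (nat_lit 233)) (XT.lf (nat_lit 76) (nat_lit 5032109107) (nat_lit 0) (nat_lit 883539995) (nat_lit 760) (nat_lit 1439299828) (nat_lit 217) (nat_lit 5) (nat_lit 216) (nat_lit 5) (nat_lit 226) (nat_lit 5) (nat_lit 279) (nat_lit 269) (nat_lit 232))))) (XT.nd (nat_lit 234) (nat_lit 760) (nat_lit 0) (XT.nd (nat_lit 78) (nat_lit 0) (nat_lit 0) (XT.lf (nat_lit 0) (nat_lit 225520088)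 (nat_lit 760) (nat_lit 6267498644) (nat_lit 836) (nat_lit 934634880) (nat_lit 207) (nat_lit 5) (nat_lit 217) (nat_lit 5) (nat_lit 218) (nat_lit 5) (nat_lit 280) (nat_lit 269) (nat_lit 231)) (XT.nd (nat_lit 78) (nat_lit 0) (nat_lit 0) (XT.lf (nat_lit 0) (nat_lit 1887908048) (nat_lit 760) (nat_lit 2769288155) (nat_lit 836) (nat_lit 2845782686) (nat_lit 207) (nat_lit 5) (nat_lit 217) (nat_lit 5) (nat_lit 218) (nat_lit 5) (nat_lit 281) (nat_lit 269) (nat_lit 230)) (XT.lf (nat_lit 76) (nat_lit 811374007) (nat_lit 0) (nat_lit 2742336423) (nat_lit 836) (nat_lit 4028405976) (nat_lit 208) (nat_lit 5) (nat_lit 207) (nat_lit 5) (nat_lit 218) (nat_lit 5) (nat_lit 282) (nat_lit 269) (nat_lit 229)))) (XT.nd (nat_lit 78) (nat_lit 760) (nat_lit 0) (XT.lf (nat_lit 76) (nat_lit 4518272016) (nat_lit 0) (nat_lit 726138084) (nat_lit 836) (nat_lit 2420124392) (nat_lit 208) (nat_lit 5) (nat_lit 207) (nat_lit 5) (nat_lit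 218) (nat_lit 5) (nat_lit 283) (nat_lit 269) (nat_lit 228)) (XT.nd (nat_lit 78) (nat_lit 76) (nat_lit 0) (XT.lf (nat_lit 0) (nat_lit 545941161) (nat_lit 760) (nat_lit 6406764342) (nat_lit 836) (nat_lit 797863025) (nat_lit 198) (nat_lit 5) (nat_lit 208) (nat_lit 5) (nat_lit 209) (nat_lit 5) (nat_lit 284) (nat_lit 269) (nat_lit 227)) (XT.lf (nat_lit 0) (nat_lit 844437038) (nat_lit 836) (nat_lit 3480176624) (nat_lit 76) (nat_lit 3514806985) (nat_lit 197) (nat_lit 5) (nat_lit 208) (nat_lit 5) (nat_lit 198) (nat_lit 5) (nat_lit 285) (nat_lit 269) (nat_lit 226))))))))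
noncomputable def xc137 : XT := (XT.nd (nat_lit 1716) (nat_lit 3496) (nat_lit 0) (XT.nd (nat_lit 858) (nat_lit 3040) (nat_lit 0) (XT.nd (nat_lit 390) (nat_lit 2812) (nat_lit 0) (XT.nd (nat_lit 156) (nat_lit 988) (nat_lit 0) (XT.nd (nat_lit 78) (nat_lit 0) (nat_lit 0) (XT.lf (nat_lit 0) (nat_lit 315966983) (nat_lit 836) (nat_lit 2157654101) (nat_lit 912) (nat_lit 5458607671) (nat_lit 186) (nat_lit 5) (nat_lit 197) (nat_lit 5) (nat_lit 198) (nat_lit 5) (nat_lit 286) (nat_lit 269) (nat_lit 225)) (XT.lf (nat_lit 0) (nat_lit 4139673487) (nat_lit 912) (nat_lit 3770107254) (nat_lit 76) (nat_lit 118533543) (nat_lit 186) (nat_lit 5) (nat_lit 198) (nat_lit 5) (nat_lit 187) (nat_lit 5) (nat_lit 287) (nat_lit 269) (nat_lit 224))) (XT.nd (nat_lit 78) (nat_lit 76) (nat_lit 0) (XT.lf (nat_lit 0) (nat_lit 134228818) (nat_lit 912) (nat_lit 5697323661) (nat_lit 988) (nat_lit 2296583641) (nat_lit 174) (nat_lit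 5) (nat_lit 186) (nat_lit 5) (nat_lit 187) (nat_lit 5) (nat_lit 288) (nat_lit 269) (nat_lit 223)) (XT.nd (nat_lit 78) (nat_lit 76) (nat_lit 0) (XT.lf (nat_lit 0) (nat_lit 4194896072) (nat_lit 912) (nat_lit 3371551548) (nat_lit 988) (nat_lit 664862525) (nat_lit 174) (nat_lit 5) (nat_lit 186) (nat_lit 5) (nat_lit 187) (nat_lit 5) (nat_lit 289) (nat_lit 269) (nat_lit 222)) (XT.lf (nat_lit 0) (nat_lit 950951826) (nat_lit 988) (nat_lit 7948291) (nat_lit 76) (nat_lit 7379855562) (nat_lit 173) (nat_lit 5) (nat_lit 186) (nat_lit 5) (nat_lit 174) (nat_lit 5) (nat_lit 290) (nat_lit 269) (nat_lit 221))))) (XT.nd (nat_lit 234) (nat_lit 760) (nat_lit 0) (XT.nd (nat_lit 78) (nat_lit 1064) (nat_lit 0) (XT.lf (nat_lit 0) (nat_lit 2613527390) (nat_lit 1064) (nat_lit 4285183255) (nat_lit 76) (nat_lit 1550281648) (nat_lit 160) (nat_lit 5) (nat_lit 174) (nat_lit 5) (nat_lit 161) (nat_lit 5) (nat_lit 291) (nat_lit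 269) (nat_lit 220)) (XT.nd (nat_lit 78) (nat_lit 1064) (nat_lit 0) (XT.lf (nat_lit 0) (nat_lit 4292813666) (nat_lit 1064) (nat_lit 149121875) (nat_lit 76) (nat_lit 4121706816) (nat_lit 160) (nat_lit 5) (nat_lit 174) (nat_lit 5) (nat_lit 161) (nat_lit 5) (nat_lit 292) (nat_lit 269) (nat_lit 219)) (XT.lf (nat_lit 0) (nat_lit 4155235596) (nat_lit 1064) (nat_lit 1865688832) (nat_lit 1140) (nat_lit 2660962229) (nat_lit 146) (nat_lit 5) (nat_lit 160) (nat_lit 5) (nat_lit 161) (nat_lit 5) (nat_lit 293) (nat_lit 269) (nat_lit 218)))) (XT.nd (nat_lit 78) (nat_lit 760) (nat_lit 0) (XT.lf (nat_lit 0) (nat_lit 7769373162) (nat_lit 1140) (nat_lit 257312369) (nat_lit 76) (nat_lit 778042878) (nat_lit 146) (nat_lit 5) (nat_lit 161) (nat_lit 5) (nat_lit 147) (nat_lit 5) (nat_lit 294) (nat_lit 269) (nat_lit 217)) (XT.nd (nat_lit 78) (nat_lit 0) (nat_lit 0) (XT.lf (nat_lit 0) (nat_lit 645742610) (nat_lit 760)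 (nat_lit 4770952567) (nat_lit 76) (nat_lit 3513899126) (nat_lit 136) (nat_lit 5) (nat_lit 146) (nat_lit 5) (nat_lit 137) (nat_lit 5) (nat_lit 295) (nat_lit 269) (nat_lit 216)) (XT.lf (nat_lit 0) (nat_lit 2319989735) (nat_lit 760) (nat_lit 393338264) (nat_lit 76) (nat_lit 6347790919) (nat_lit 136) (nat_lit 5) (nat_lit 146) (nat_lit 5) (nat_lit 137) (nat_lit 5) (nat_lit 296) (nat_lit 269) (nat_lit 215)))))) (XT.nd (nat_lit 390) (nat_lit 1444) (nat_lit 0) (XT.nd (nat_lit 156) (nat_lit 1064) (nat_lit 0) (XT.nd (nat_lit 78) (nat_lit 0) (nat_lit 0) (XT.lf (nat_lit 0) (nat_lit 4047595892) (nat_lit 608) (nat_lit 5036092066) (nat_lit 76) (nat_lit 111870624) (nat_lit 129) (nat_lit 5) (nat_lit 137) (nat_lit 5) (nat_lit 130) (nat_lit 5) (nat_lit 297) (nat_lit 269) (nat_lit 214)) (XT.lf (nat_lit 0) (nat_lit 5820720912) (nat_lit 608) (nat_lit 540958905) (nat_lit 76) (nat_lit 2972631440) (nat_lit 129) (nat_lit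 5) (nat_lit 137) (nat_lit 5) (nat_lit 130) (nat_lit 5) (nat_lit 298) (nat_lit 269) (nat_lit 213))) (XT.nd (nat_lit 78) (nat_lit 532) (nat_lit 0) (XT.lf (nat_lit 0) (nat_lit 4133710118) (nat_lit 532) (nat_lit 3516963150) (nat_lit 608) (nat_lit 1826532138) (nat_lit 122) (nat_lit 5) (nat_lit 129) (nat_lit 5) (nat_lit 130) (nat_lit 5) (nat_lit 299) (nat_lit 269) (nat_lit 212)) (XT.nd (nat_lit 78) (nat_lit 532) (nat_lit 0) (XT.lf (nat_lit 0) (nat_lit 8924079396) (nat_lit 532) (nat_lit 581514295) (nat_lit 608) (nat_lit 119775950) (nat_lit 122) (nat_lit 5) (nat_lit 129) (nat_lit 5) (nat_lit 130) (nat_lit 5) (nat_lit 300) (nat_lit 269) (nat_lit 211)) (XT.lf (nat_lit 0) (nat_lit 1634948444) (nat_lit 532) (nat_lit 5692204528) (nat_lit 76) (nat_lit 2449571887) (nat_lit 115) (nat_lit 5) (nat_lit 122) (nat_lit 5) (nat_lit 116) (nat_lit 5) (nat_lit 301) (nat_lit 269) (nat_lit 210))))) (XT.nd (nat_lit 234)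 (nat_lit 988) (nat_lit 0) (XT.nd (nat_lit 78) (nat_lit 456) (nat_lit 0) (XT.lf (nat_lit 0) (nat_lit 3418700572) (nat_lit 532) (nat_lit 947250660) (nat_lit 76) (nat_lit 5567348225) (nat_lit 115) (nat_lit 5) (nat_lit 122) (nat_lit 5) (nat_lit 116) (nat_lit 5) (nat_lit 302) (nat_lit 269) (nat_lit 209)) (XT.nd (nat_lit 78) (nat_lit 0) (nat_lit 0) (XT.lf (nat_lit 0) (nat_lit 3982710814) (nat_lit 456) (nat_lit 1278416410) (nat_lit 532) (nat_lit 4833365037) (nat_lit 109) (nat_lit 5) (nat_lit 115) (nat_lit 5) (nat_lit 116) (nat_lit 5) (nat_lit 303) (nat_lit 269) (nat_lit 208)) (XT.lf (nat_lit 0) (nat_lit 7154254859) (nat_lit 532) (nat_lit 1234361803) (nat_lit 76) (nat_lit 1872114959) (nat_lit 109) (nat_lit 5) (nat_lit 116) (nat_lit 5) (nat_lit 110) (nat_lit 5) (nat_lit 304) (nat_lit 269) (nat_lit 207)))) (XT.nd (nat_lit 78) (nat_lit 532) (nat_lit 0) (XT.lf (nat_lit 0) (nat_lit 3816496114) (nat_lit 456)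 (nat_lit 5305458632) (nat_lit 532) (nat_lit 1309541539) (nat_lit 103) (nat_lit 5) (nat_lit 109) (nat_lit 5) (nat_lit 110) (nat_lit 5) (nat_lit 305) (nat_lit 269) (nat_lit 206)) (XT.nd (nat_lit 78) (nat_lit 456) (nat_lit 0) (XT.lf (nat_lit 0) (nat_lit 511975742) (nat_lit 532) (nat_lit 1603205144) (nat_lit 76) (nat_lit 8492677171) (nat_lit 102) (nat_lit 5) (nat_lit 109) (nat_lit 5) (nat_lit 103) (nat_lit 5) (nat_lit 306) (nat_lit 269) (nat_lit 205)) (XT.lf (nat_lit 0) (nat_lit 2377499994) (nat_lit 532) (nat_lit 7218914479) (nat_lit 76) (nat_lit 1192302187) (nat_lit 96) (nat_lit 5) (nat_lit 103) (nat_lit 5) (nat_lit 97) (nat_lit 5) (nat_lit 307) (nat_lit 269) (nat_lit 204))))))) (XT.nd (nat_lit 858) (nat_lit 1520) (nat_lit 0) (XT.nd (nat_lit 390) (nat_lit 1140) (nat_lit 0) (XT.nd (nat_lit 156) (nat_lit 456) (nat_lit 0) (XT.nd (nat_lit 78) (nat_lit 380) (nat_lit 0) (XT.lf (nat_lit 0) (nat_lit 4306369622)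 (nat_lit 532) (nat_lit 2099374082) (nat_lit 76) (nat_lit 4569099432) (nat_lit 96) (nat_lit 5) (nat_lit 103) (nat_lit 5) (nat_lit 97) (nat_lit 5) (nat_lit 308) (nat_lit 269) (nat_lit 203)) (XT.lf (nat_lit 0) (nat_lit 3202635911) (nat_lit 380) (nat_lit 3092214098) (nat_lit 456) (nat_lit 4871712709) (nat_lit 91) (nat_lit 5) (nat_lit 96) (nat_lit 5) (nat_lit 97) (nat_lit 5) (nat_lit 309) (nat_lit 269) (nat_lit 202))) (XT.nd (nat_lit 78) (nat_lit 456) (nat_lit 0) (XT.lf (nat_lit 0) (nat_lit 8338916320) (nat_lit 456) (nat_lit 2694100994) (nat_lit 76) (nat_lit 331198489) (nat_lit 91) (nat_lit 5) (nat_lit 97) (nat_lit 5) (nat_lit 92) (nat_lit 5) (nat_lit 310) (nat_lit 269) (nat_lit 201)) (XT.nd (nat_lit 78) (nat_lit 76) (nat_lit 0) (XT.lf (nat_lit 0) (nat_lit 2723185942) (nat_lit 380) (nat_lit 7750182538) (nat_lit 456) (nat_lit 1093616198) (nat_lit 86) (nat_lit 5) (nat_lit 91) (nat_lit 5) (nat_lit 92)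 (nat_lit 5) (nat_lit 311) (nat_lit 269) (nat_lit 200)) (XT.lf (nat_lit 0) (nat_lit 878445552) (nat_lit 456) (nat_lit 3459120061) (nat_lit 76) (nat_lit 7438070020) (nat_lit 85) (nat_lit 5) (nat_lit 91) (nat_lit 5) (nat_lit 86) (nat_lit 5) (nat_lit 312) (nat_lit 269) (nat_lit 199))))) (XT.nd (nat_lit 234) (nat_lit 380) (nat_lit 0) (XT.nd (nat_lit 78) (nat_lit 380) (nat_lit 0) (XT.lf (nat_lit 0) (nat_lit 2084485667) (nat_lit 380) (nat_lit 796481013) (nat_lit 456) (nat_lit 9109509438) (nat_lit 80) (nat_lit 5) (nat_lit 85) (nat_lit 5) (nat_lit 86) (nat_lit 5) (nat_lit 313) (nat_lit 269) (nat_lit 198)) (XT.nd (nat_lit 78) (nat_lit 380) (nat_lit 0) (XT.lf (nat_lit 0) (nat_lit 4979898519) (nat_lit 456) (nat_lit 4406082620) (nat_lit 76) (nat_lit 2824742261) (nat_lit 80) (nat_lit 5) (nat_lit 86) (nat_lit 5) (nat_lit 81) (nat_lit 5) (nat_lit 314) (nat_lit 269) (nat_lit 197)) (XT.lf (nat_lit 0) (nat_lit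 1243228373) (nat_lit 380) (nat_lit 5892828814) (nat_lit 456) (nat_lit 5301743278) (nat_lit 75) (nat_lit 5) (nat_lit 80) (nat_lit 5) (nat_lit 81) (nat_lit 5) (nat_lit 315) (nat_lit 269) (nat_lit 196)))) (XT.nd (nat_lit 78) (nat_lit 380) (nat_lit 0) (XT.lf (nat_lit 0) (nat_lit 7120684498) (nat_lit 380) (nat_lit 2255571866) (nat_lit 456) (nat_lit 3294901477) (nat_lit 75) (nat_lit 5) (nat_lit 80) (nat_lit 5) (nat_lit 81) (nat_lit 5) (nat_lit 316) (nat_lit 269) (nat_lit 195)) (XT.nd (nat_lit 78) (nat_lit 76) (nat_lit 0) (XT.lf (nat_lit 0) (nat_lit 221488734) (nat_lit 304) (nat_lit 11454166648) (nat_lit 380) (nat_lit 1236147991) (nat_lit 71) (nat_lit 5) (nat_lit 75) (nat_lit 5) (nat_lit 76) (nat_lit 5) (nat_lit 317) (nat_lit 269) (nat_lit 194)) (XT.lf (nat_lit 0) (nat_lit 921711503) (nat_lit 380) (nat_lit 6940657981) (nat_lit 76) (nat_lit 5295450277) (nat_lit 70) (nat_lit 5) (nat_lit 75) (nat_lit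 5) (nat_lit 71) (nat_lit 5) (nat_lit 318) (nat_lit 269) (nat_lit 193)))))) (XT.nd (nat_lit 468) (nat_lit 532) (nat_lit 0) (XT.nd (nat_lit 234) (nat_lit 684) (nat_lit 0) (XT.nd (nat_lit 78) (nat_lit 304) (nat_lit 0) (XT.lf (nat_lit 0) (nat_lit 3095834615) (nat_lit 380) (nat_lit 1061499927) (nat_lit 76) (nat_lit 9254266973) (nat_lit 70) (nat_lit 5) (nat_lit 75) (nat_lit 5) (nat_lit 71) (nat_lit 5) (nat_lit 319) (nat_lit 269) (nat_lit 192)) (XT.nd (nat_lit 78) (nat_lit 0) (nat_lit 0) (XT.lf (nat_lit 0) (nat_lit 5062976161) (nat_lit 304) (nat_lit 297935025) (nat_lit 380) (nat_lit 8311355626) (nat_lit 66) (nat_lit 5) (nat_lit 70) (nat_lit 5) (nat_lit 71) (nat_lit 5) (nat_lit 320) (nat_lit 269) (nat_lit 191)) (XT.lf (nat_lit 0) (nat_lit 7717491151) (nat_lit 380) (nat_lit 2613149306) (nat_lit 76) (nat_lit 3609445841) (nat_lit 66) (nat_lit 5) (nat_lit 71) (nat_lit 5) (nat_lit 67) (nat_lit 5) (nat_lit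 321) (nat_lit 269) (nat_lit 190)))) (XT.nd (nat_lit 78) (nat_lit 380) (nat_lit 0) (XT.lf (nat_lit 0) (nat_lit 3600861153) (nat_lit 304) (nat_lit 6559507740) (nat_lit 380) (nat_lit 4055143035) (nat_lit 62) (nat_lit 5) (nat_lit 66) (nat_lit 5) (nat_lit 67) (nat_lit 5) (nat_lit 322) (nat_lit 269) (nat_lit 189)) (XT.nd (nat_lit 78) (nat_lit 380) (nat_lit 0) (XT.lf (nat_lit 0) (nat_lit 10025815438) (nat_lit 304) (nat_lit 2655502582) (nat_lit 380) (nat_lit 1817777178) (nat_lit 62) (nat_lit 5) (nat_lit 66) (nat_lit 5) (nat_lit 67) (nat_lit 5) (nat_lit 323) (nat_lit 269) (nat_lit 188)) (XT.lf (nat_lit 0) (nat_lit 487106436) (nat_lit 380) (nat_lit 12949262533) (nat_lit 76) (nat_lit 1354416027) (nat_lit 57) (nat_lit 5) (nat_lit 62) (nat_lit 5) (nat_lit 58) (nat_lit 5) (nat_lit 324) (nat_lit 269) (nat_lit 187))))) (XT.nd (nat_lit 234) (nat_lit 304) (nat_lit 0) (XT.nd (nat_lit 78) (nat_lit 228) (nat_lit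 0) (XT.lf (nat_lit 0) (nat_lit 2875567187) (nat_lit 380) (nat_lit 6726105206) (nat_lit 76) (nat_lit 5487519338) (nat_lit 57) (nat_lit 5) (nat_lit 62) (nat_lit 5) (nat_lit 58) (nat_lit 5) (nat_lit 325) (nat_lit 269) (nat_lit 186)) (XT.nd (nat_lit 78) (nat_lit 228) (nat_lit 0) (XT.lf (nat_lit 0) (nat_lit 5315347247) (nat_lit 380) (nat_lit 344373857) (nat_lit 76) (nat_lit 9737473736) (nat_lit 57) (nat_lit 5) (nat_lit 62) (nat_lit 5) (nat_lit 58) (nat_lit 5) (nat_lit 326) (nat_lit 269) (nat_lit 185)) (XT.lf (nat_lit 0) (nat_lit 6324929947) (nat_lit 228) (nat_lit 1544447610) (nat_lit 304) (nat_lit 7843861921) (nat_lit 54) (nat_lit 5) (nat_lit 57) (nat_lit 5) (nat_lit 58) (nat_lit 5) (nat_lit 327) (nat_lit 269) (nat_lit 184)))) (XT.nd (nat_lit 78) (nat_lit 304) (nat_lit 0) (XT.lf (nat_lit 0) (nat_lit 10509939596) (nat_lit 304) (nat_lit 2890798331) (nat_lit 76) (nat_lit 2637762382) (nat_lit 54) (nat_lit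 5) (nat_lit 58) (nat_lit 5) (nat_lit 55) (nat_lit 5) (nat_lit 328) (nat_lit 269) (nat_lit 183)) (XT.nd (nat_lit 78) (nat_lit 0) (nat_lit 0) (XT.lf (nat_lit 0) (nat_lit 3834396865) (nat_lit 304) (nat_lit 9428539507) (nat_lit 380) (nat_lit 3109617295) (nat_lit 50) (nat_lit 5) (nat_lit 54) (nat_lit 5) (nat_lit 55) (nat_lit 5) (nat_lit 329) (nat_lit 269) (nat_lit 182)) (XT.lf (nat_lit 0) (nat_lit 10794096252) (nat_lit 304) (nat_lit 5314982535) (nat_lit 380) (nat_lit 607263496) (nat_lit 50) (nat_lit 5) (nat_lit 54) (nat_lit 5) (nat_lit 55) (nat_lit 5) (nat_lit 330) (nat_lit 269) (nat_lit 181))))))))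
noncomputable def xc138 : XT := (XT.nd (nat_lit 1716) (nat_lit 988) (nat_lit 0) (XT.nd (nat_lit 858) (nat_lit 760) (nat_lit 0) (XT.nd (nat_lit 390) (nat_lit 532) (nat_lit 0) (XT.nd (nat_lit 156) (nat_lit 228) (nat_lit 0) (XT.nd (nat_lit 78) (nat_lit 0) (nat_lit 0) (XT.lf (nat_lit 0) (nat_lit 863931212) (nat_lit 228) (nat_lit 1057788520) (nat_lit 304) (nat_lit 15148485150) (nat_lit 46) (nat_lit 5) (nat_lit 49) (nat_lit 5) (nat_lit 50) (nat_lit 5) (nat_lit 331) (nat_lit 269) (nat_lit 180)) (XT.lf (nat_lit 0) (nat_lit 4588652465) (nat_lit 304) (nat_lit 9522749600) (nat_lit 76) (nat_lit 3320900113) (nat_lit 46) (nat_lit 5) (nat_lit 50) (nat_lit 5) (nat_lit 47) (nat_lit 5) (nat_lit 332) (nat_lit 269) (nat_lit 179))) (XT.nd (nat_lit 78) (nat_lit 228) (nat_lit 0) (XT.lf (nat_lit 0) (nat_lit 7328501181) (nat_lit 304) (nat_lit 2674792377) (nat_lit 76) (nat_lit 7802208544) (nat_lit 46) (nat_lit 5) (nat_lit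 50) (nat_lit 5) (nat_lit 47) (nat_lit 5) (nat_lit 333) (nat_lit 269) (nat_lit 178)) (XT.nd (nat_lit 78) (nat_lit 0) (nat_lit 0) (XT.lf (nat_lit 0) (nat_lit 4440397918) (nat_lit 228) (nat_lit 5735777715) (nat_lit 304) (nat_lit 8012979644) (nat_lit 43) (nat_lit 5) (nat_lit 46) (nat_lit 5) (nat_lit 47) (nat_lit 5) (nat_lit 334) (nat_lit 269) (nat_lit 177)) (XT.lf (nat_lit 0) (nat_lit 11799264407) (nat_lit 228) (nat_lit 1320232661) (nat_lit 304) (nat_lit 5464539877) (nat_lit 43) (nat_lit 5) (nat_lit 46) (nat_lit 5) (nat_lit 47) (nat_lit 5) (nat_lit 335) (nat_lit 269) (nat_lit 176))))) (XT.nd (nat_lit 234) (nat_lit 228) (nat_lit 0) (XT.nd (nat_lit 78) (nat_lit 76) (nat_lit 0) (XT.lf (nat_lit 0) (nat_lit 339393048) (nat_lit 228) (nat_lit 15829637706) (nat_lit 304) (nat_lit 2821221593) (nat_lit 40) (nat_lit 5) (nat_lit 43) (nat_lit 5) (nat_lit 44) (nat_lit 5) (nat_lit 336) (nat_lit 269) (nat_lit 175))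 (XT.nd (nat_lit 78) (nat_lit 76) (nat_lit 0) (XT.lf (nat_lit 0) (nat_lit 7778937421) (nat_lit 228) (nat_lit 11596437539) (nat_lit 304) (nat_lit 31343456) (nat_lit 40) (nat_lit 5) (nat_lit 43) (nat_lit 5) (nat_lit 44) (nat_lit 5) (nat_lit 337) (nat_lit 269) (nat_lit 174)) (XT.lf (nat_lit 0) (nat_lit 2770929012) (nat_lit 304) (nat_lit 4445063210) (nat_lit 76) (nat_lit 12619364373) (nat_lit 39) (nat_lit 5) (nat_lit 43) (nat_lit 5) (nat_lit 40) (nat_lit 5) (nat_lit 338) (nat_lit 269) (nat_lit 173)))) (XT.nd (nat_lit 78) (nat_lit 0) (nat_lit 0) (XT.lf (nat_lit 0) (nat_lit 2988093859) (nat_lit 228) (nat_lit 2681890716) (nat_lit 304) (nat_lit 14606481597) (nat_lit 36) (nat_lit 5) (nat_lit 39) (nat_lit 5) (nat_lit 40) (nat_lit 5) (nat_lit 339) (nat_lit 269) (nat_lit 172)) (XT.nd (nat_lit 78) (nat_lit 0) (nat_lit 0) (XT.lf (nat_lit 0) (nat_lit 8705231211) (nat_lit 304) (nat_lit 10036870503) (nat_lit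 76) (nat_lit 1987252014) (nat_lit 36) (nat_lit 5) (nat_lit 40) (nat_lit 5) (nat_lit 37) (nat_lit 5) (nat_lit 340) (nat_lit 269) (nat_lit 171)) (XT.lf (nat_lit 0) (nat_lit 11843308463) (nat_lit 304) (nat_lit 2616917398) (nat_lit 76) (nat_lit 6735269504) (nat_lit 36) (nat_lit 5) (nat_lit 40) (nat_lit 5) (nat_lit 37) (nat_lit 5) (nat_lit 341) (nat_lit 269) (nat_lit 170)))))) (XT.nd (nat_lit 390) (nat_lit 304) (nat_lit 0) (XT.nd (nat_lit 156) (nat_lit 304) (nat_lit 0) (XT.nd (nat_lit 78) (nat_lit 0) (nat_lit 0) (XT.lf (nat_lit 0) (nat_lit 5103334874) (nat_lit 152) (nat_lit 10006899872) (nat_lit 228) (nat_lit 6564365358) (nat_lit 34) (nat_lit 5) (nat_lit 36) (nat_lit 5) (nat_lit 37) (nat_lit 5) (nat_lit 342) (nat_lit 269) (nat_lit 169)) (XT.lf (nat_lit 0) (nat_lit 13087169634) (nat_lit 152) (nat_lit 5400284906) (nat_lit 228) (nat_lit 3680274340) (nat_lit 34) (nat_lit 5) (nat_lit 36) (nat_lit 5) (nat_lit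 37) (nat_lit 5) (nat_lit 343) (nat_lit 269) (nat_lit 168))) (XT.nd (nat_lit 78) (nat_lit 304) (nat_lit 0) (XT.lf (nat_lit 0) (nat_lit 21289481260) (nat_lit 152) (nat_lit 662781501) (nat_lit 228) (nat_lit 723819504) (nat_lit 34) (nat_lit 5) (nat_lit 36) (nat_lit 5) (nat_lit 37) (nat_lit 5) (nat_lit 344) (nat_lit 269) (nat_lit 167)) (XT.nd (nat_lit 78) (nat_lit 0) (nat_lit 0) (XT.lf (nat_lit 0) (nat_lit 2367547948) (nat_lit 304) (nat_lit 16614428740) (nat_lit 76) (nat_lit 4214312462) (nat_lit 30) (nat_lit 5) (nat_lit 34) (nat_lit 5) (nat_lit 31) (nat_lit 5) (nat_lit 345) (nat_lit 269) (nat_lit 166)) (XT.lf (nat_lit 0) (nat_lit 5544458850) (nat_lit 304) (nat_lit 8948604656) (nat_lit 76) (nat_lit 9238620525) (nat_lit 30) (nat_lit 5) (nat_lit 34) (nat_lit 5) (nat_lit 31) (nat_lit 5) (nat_lit 346) (nat_lit 269) (nat_lit 165))))) (XT.nd (nat_lit 234) (nat_lit 152) (nat_lit 0) (XT.nd (nat_lit 78) (nat_lit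 152) (nat_lit 0) (XT.lf (nat_lit 0) (nat_lit 8803713683) (nat_lit 304) (nat_lit 1073053174) (nat_lit 76) (nat_lit 14406779595) (nat_lit 30) (nat_lit 5) (nat_lit 34) (nat_lit 5) (nat_lit 31) (nat_lit 5) (nat_lit 347) (nat_lit 269) (nat_lit 164)) (XT.nd (nat_lit 78) (nat_lit 0) (nat_lit 0) (XT.lf (nat_lit 0) (nat_lit 7158801250) (nat_lit 152) (nat_lit 5058173865) (nat_lit 228) (nat_lit 12633319065) (nat_lit 28) (nat_lit 5) (nat_lit 30) (nat_lit 5) (nat_lit 31) (nat_lit 5) (nat_lit 348) (nat_lit 269) (nat_lit 163)) (XT.lf (nat_lit 0) (nat_lit 15640142970) (nat_lit 152) (nat_lit 90920802) (nat_lit 228) (nat_lit 9703043517) (nat_lit 28) (nat_lit 5) (nat_lit 30) (nat_lit 5) (nat_lit 31) (nat_lit 5) (nat_lit 349) (nat_lit 269) (nat_lit 162)))) (XT.nd (nat_lit 78) (nat_lit 152) (nat_lit 0) (XT.lf (nat_lit 0) (nat_lit 19386770949) (nat_lit 228) (nat_lit 1727025367) (nat_lit 76) (nat_lit 4920567966) (nat_lit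 28) (nat_lit 5) (nat_lit 31) (nat_lit 5) (nat_lit 29) (nat_lit 5) (nat_lit 350) (nat_lit 269) (nat_lit 161)) (XT.nd (nat_lit 78) (nat_lit 0) (nat_lit 0) (XT.lf (nat_lit 0) (nat_lit 6692976319) (nat_lit 152) (nat_lit 16512652077) (nat_lit 228) (nat_lit 3445411137) (nat_lit 26) (nat_lit 5) (nat_lit 28) (nat_lit 5) (nat_lit 29) (nat_lit 5) (nat_lit 351) (nat_lit 269) (nat_lit 160)) (XT.lf (nat_lit 0) (nat_lit 15382513918) (nat_lit 152) (nat_lit 11762384046) (nat_lit 228) (nat_lit 141156173) (nat_lit 26) (nat_lit 5) (nat_lit 28) (nat_lit 5) (nat_lit 29) (nat_lit 5) (nat_lit 352) (nat_lit 269) (nat_lit 159))))))) (XT.nd (nat_lit 858) (nat_lit 456) (nat_lit 0) (XT.nd (nat_lit 390) (nat_lit 152) (nat_lit 0) (XT.nd (nat_lit 156) (nat_lit 152) (nat_lit 0) (XT.nd (nat_lit 78) (nat_lit 152) (nat_lit 0) (XT.lf (nat_lit 0) (nat_lit 3187187913) (nat_lit 228) (nat_lit 3656908811) (nat_lit 76) (nat_lit 21095436774)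 (nat_lit 25) (nat_lit 5) (nat_lit 28) (nat_lit 5) (nat_lit 26) (nat_lit 5) (nat_lit 353) (nat_lit 269) (nat_lit 158)) (XT.lf (nat_lit 0) (nat_lit 4913973705) (nat_lit 152) (nat_lit 1734758377) (nat_lit 228) (nat_lit 21962770881) (nat_lit 23) (nat_lit 5) (nat_lit 25) (nat_lit 5) (nat_lit 26) (nat_lit 5) (nat_lit 354) (nat_lit 269) (nat_lit 157))) (XT.nd (nat_lit 78) (nat_lit 152) (nat_lit 0) (XT.lf (nat_lit 0) (nat_lit 10274369252) (nat_lit 228) (nat_lit 15537598711) (nat_lit 76) (nat_lit 3489869020) (nat_lit 23) (nat_lit 5) (nat_lit 26) (nat_lit 5) (nat_lit 24) (nat_lit 5) (nat_lit 355) (nat_lit 269) (nat_lit 156)) (XT.nd (nat_lit 78) (nat_lit 152) (nat_lit 0) (XT.lf (nat_lit 0) (nat_lit 14015312035) (nat_lit 228) (nat_lit 7167272481) (nat_lit 76) (nat_lit 8830112908) (nat_lit 23) (nat_lit 5) (nat_lit 26) (nat_lit 5) (nat_lit 24) (nat_lit 5) (nat_lit 356) (nat_lit 269) (nat_lit 155)) (XT.lf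 (nat_lit 0) (nat_lit 1466046720) (nat_lit 152) (nat_lit 16406199478) (nat_lit 228) (nat_lit 12872536719) (nat_lit 21) (nat_lit 5) (nat_lit 23) (nat_lit 5) (nat_lit 24) (nat_lit 5) (nat_lit 357) (nat_lit 269) (nat_lit 154))))) (XT.nd (nat_lit 234) (nat_lit 152) (nat_lit 0) (XT.nd (nat_lit 78) (nat_lit 0) (nat_lit 0) (XT.lf (nat_lit 0) (nat_lit 10488726857) (nat_lit 152) (nat_lit 11418349151) (nat_lit 228) (nat_lit 9589901116) (nat_lit 21) (nat_lit 5) (nat_lit 23) (nat_lit 5) (nat_lit 24) (nat_lit 5) (nat_lit 358) (nat_lit 269) (nat_lit 153)) (XT.nd (nat_lit 78) (nat_lit 0) (nat_lit 0) (XT.lf (nat_lit 0) (nat_lit 19766009048) (nat_lit 152) (nat_lit 6287050620) (nat_lit 228) (nat_lit 6218985655) (nat_lit 21) (nat_lit 5) (nat_lit 23) (nat_lit 5) (nat_lit 24) (nat_lit 5) (nat_lit 359) (nat_lit 269) (nat_lit 152)) (XT.lf (nat_lit 0) (nat_lit 29305999656) (nat_lit 152) (nat_lit 1007820225) (nat_lit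 228) (nat_lit 2756844878) (nat_lit 21) (nat_lit 5) (nat_lit 23) (nat_lit 5) (nat_lit 24) (nat_lit 5) (nat_lit 360) (nat_lit 269) (nat_lit 151)))) (XT.nd (nat_lit 78) (nat_lit 0) (nat_lit 0) (XT.lf (nat_lit 0) (nat_lit 878187953) (nat_lit 152) (nat_lit 28615256202) (nat_lit 76) (nat_lit 4397031221) (nat_lit 19) (nat_lit 5) (nat_lit 21) (nat_lit 5) (nat_lit 20) (nat_lit 5) (nat_lit 361) (nat_lit 269) (nat_lit 150)) (XT.nd (nat_lit 78) (nat_lit 0) (nat_lit 0) (XT.lf (nat_lit 0) (nat_lit 4605877972) (nat_lit 152) (nat_lit 20123353472) (nat_lit 76) (nat_lit 10003669679) (nat_lit 19) (nat_lit 5) (nat_lit 21) (nat_lit 5) (nat_lit 20) (nat_lit 5) (nat_lit 362) (nat_lit 269) (nat_lit 149)) (XT.lf (nat_lit 0) (nat_lit 8436316661) (nat_lit 152) (nat_lit 11391679343) (nat_lit 76) (nat_lit 15772885966) (nat_lit 19) (nat_lit 5) (nat_lit 21) (nat_lit 5) (nat_lit 20) (nat_lit 5) (nat_lit 363) (nat_lit 269)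 (nat_lit 148)))))) (XT.nd (nat_lit 468) (nat_lit 228) (nat_lit 0) (XT.nd (nat_lit 234) (nat_lit 76) (nat_lit 0) (XT.nd (nat_lit 78) (nat_lit 152) (nat_lit 0) (XT.lf (nat_lit 0) (nat_lit 12372851003) (nat_lit 152) (nat_lit 2412604197) (nat_lit 76) (nat_lit 21709721142) (nat_lit 19) (nat_lit 5) (nat_lit 21) (nat_lit 5) (nat_lit 20) (nat_lit 5) (nat_lit 364) (nat_lit 269) (nat_lit 147)) (XT.nd (nat_lit 78) (nat_lit 0) (nat_lit 0) (XT.lf (nat_lit 0) (nat_lit 6957483318) (nat_lit 152) (nat_lit 9528316957) (nat_lit 228) (nat_lit 20928759002) (nat_lit 17) (nat_lit 5) (nat_lit 19) (nat_lit 5) (nat_lit 20) (nat_lit 5) (nat_lit 365) (nat_lit 269) (nat_lit 146)) (XT.lf (nat_lit 0) (nat_lit 16644142522) (nat_lit 152) (nat_lit 4093912278) (nat_lit 228) (nat_lit 17623000423) (nat_lit 17) (nat_lit 5) (nat_lit 19) (nat_lit 5) (nat_lit 20) (nat_lit 5) (nat_lit 366) (nat_lit 269) (nat_lit 145)))) (XT.nd (nat_lit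 78) (nat_lit 76) (nat_lit 0) (XT.lf (nat_lit 0) (nat_lit 25124078243) (nat_lit 228) (nat_lit 12742779961) (nat_lit 76) (nat_lit 1468910570) (nat_lit 17) (nat_lit 5) (nat_lit 20) (nat_lit 5) (nat_lit 18) (nat_lit 4) (nat_lit 367) (nat_lit 269) (nat_lit 144)) (XT.nd (nat_lit 78) (nat_lit 76) (nat_lit 0) (XT.lf (nat_lit 0) (nat_lit 29674204993) (nat_lit 228) (nat_lit 3553338203) (nat_lit 76) (nat_lit 7111213365) (nat_lit 17) (nat_lit 5) (nat_lit 20) (nat_lit 5) (nat_lit 18) (nat_lit 4) (nat_lit 368) (nat_lit 269) (nat_lit 143)) (XT.lf (nat_lit 0) (nat_lit 6016192963) (nat_lit 76) (nat_lit 28394696063) (nat_lit 152) (nat_lit 6959451613) (nat_lit 16) (nat_lit 5) (nat_lit 17) (nat_lit 5) (nat_lit 18) (nat_lit 4) (nat_lit 369) (nat_lit 269) (nat_lit 142))))) (XT.nd (nat_lit 234) (nat_lit 152) (nat_lit 0) (XT.nd (nat_lit 78) (nat_lit 76) (nat_lit 0) (XT.lf (nat_lit 0) (nat_lit 15932785943) (nat_lit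 76) (nat_lit 23385094422) (nat_lit 152) (nat_lit 3114153691) (nat_lit 16) (nat_lit 5) (nat_lit 17) (nat_lit 5) (nat_lit 18) (nat_lit 4) (nat_lit 370) (nat_lit 269) (nat_lit 141)) (XT.nd (nat_lit 78) (nat_lit 0) (nat_lit 0) (XT.lf (nat_lit 0) (nat_lit 822452010) (nat_lit 152) (nat_lit 17399485536) (nat_lit 76) (nat_lit 25303630161) (nat_lit 15) (nat_lit 5) (nat_lit 17) (nat_lit 5) (nat_lit 16) (nat_lit 5) (nat_lit 371) (nat_lit 269) (nat_lit 140)) (XT.lf (nat_lit 0) (nat_lit 4807251048) (nat_lit 152) (nat_lit 8069841797) (nat_lit 76) (nat_lit 31774116269) (nat_lit 15) (nat_lit 5) (nat_lit 17) (nat_lit 5) (nat_lit 16) (nat_lit 5) (nat_lit 372) (nat_lit 269) (nat_lit 139)))) (XT.nd (nat_lit 78) (nat_lit 0) (nat_lit 0) (XT.lf (nat_lit 0) (nat_lit 1558175993) (nat_lit 152) (nat_lit 7361295788) (nat_lit 228) (nat_lit 36890918778) (nat_lit 13) (nat_lit 5) (nat_lit 15) (nat_lit 5) (nat_lit 16) (nat_lit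 5) (nat_lit 373) (nat_lit 269) (nat_lit 138)) (XT.nd (nat_lit 78) (nat_lit 0) (nat_lit 0) (XT.lf (nat_lit 0) (nat_lit 11628654149) (nat_lit 152) (nat_lit 1600887489) (nat_lit 228) (nat_lit 33772578250) (nat_lit 13) (nat_lit 5) (nat_lit 15) (nat_lit 5) (nat_lit 16) (nat_lit 5) (nat_lit 374) (nat_lit 269) (nat_lit 137)) (XT.lf (nat_lit 0) (nat_lit 17703710873) (nat_lit 228) (nat_lit 26281625730) (nat_lit 76) (nat_lit 4243227294) (nat_lit 13) (nat_lit 5) (nat_lit 16) (nat_lit 5) (nat_lit 14) (nat_lit 4) (nat_lit 375) (nat_lit 269) (nat_lit 136))))))))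
noncomputable def xc139 : XT := (XT.nd (nat_lit 32604) (nat_lit 0) (nat_lit 9728) (XT.nd (nat_lit 858) (nat_lit 76) (nat_lit 0) (XT.nd (nat_lit 390) (nat_lit 228) (nat_lit 0) (XT.nd (nat_lit 156) (nat_lit 76) (nat_lit 0) (XT.nd (nat_lit 78) (nat_lit 0) (nat_lit 0) (XT.lf (nat_lit 0) (nat_lit 22321307251) (nat_lit 228) (nat_lit 16944168509) (nat_lit 76) (nat_lit 10226055926) (nat_lit 13) (nat_lit 5) (nat_lit 16) (nat_lit 5) (nat_lit 14) (nat_lit 4) (nat_lit 376) (nat_lit 269) (nat_lit 135)) (XT.lf (nat_lit 0) (nat_lit 27070976854) (nat_lit 228) (nat_lit 7337546423) (nat_lit 76) (nat_lit 16384065202) (nat_lit 13) (nat_lit 5) (nat_lit 16) (nat_lit 5) (nat_lit 14) (nat_lit 4) (nat_lit 377) (nat_lit 269) (nat_lit 134))) (XT.nd (nat_lit 78) (nat_lit 0) (nat_lit 0) (XT.lf (nat_lit 0) (nat_lit 2597317686) (nat_lit 76) (nat_lit 29384519200) (nat_lit 152) (nat_lit 20150285227) (nat_lit 12) (nat_lit 5)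 (nat_lit 13) (nat_lit 5) (nat_lit 14) (nat_lit 4) (nat_lit 378) (nat_lit 269) (nat_lit 133)) (XT.nd (nat_lit 78) (nat_lit 0) (nat_lit 0) (XT.lf (nat_lit 0) (nat_lit 12970104876) (nat_lit 76) (nat_lit 24137827262) (nat_lit 152) (nat_lit 16401878304) (nat_lit 12) (nat_lit 5) (nat_lit 13) (nat_lit 5) (nat_lit 14) (nat_lit 4) (nat_lit 379) (nat_lit 269) (nat_lit 132)) (XT.lf (nat_lit 0) (nat_lit 23643847184) (nat_lit 76) (nat_lit 18737957806) (nat_lit 152) (nat_lit 12547210381) (nat_lit 12) (nat_lit 5) (nat_lit 13) (nat_lit 5) (nat_lit 14) (nat_lit 4) (nat_lit 380) (nat_lit 269) (nat_lit 131))))) (XT.nd (nat_lit 234) (nat_lit 228) (nat_lit 0) (XT.nd (nat_lit 78) (nat_lit 0) (nat_lit 0) (XT.lf (nat_lit 0) (nat_lit 34627871183) (nat_lit 76) (nat_lit 13180192501) (nat_lit 152) (nat_lit 8582913301) (nat_lit 12) (nat_lit 5) (nat_lit 13) (nat_lit 5) (nat_lit 14) (nat_lit 4) (nat_lit 381) (nat_lit 269)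 (nat_lit 130)) (XT.nd (nat_lit 78) (nat_lit 0) (nat_lit 0) (XT.lf (nat_lit 0) (nat_lit 45931774562) (nat_lit 76) (nat_lit 7459675046) (nat_lit 152) (nat_lit 4505523115) (nat_lit 12) (nat_lit 5) (nat_lit 13) (nat_lit 5) (nat_lit 14) (nat_lit 4) (nat_lit 382) (nat_lit 269) (nat_lit 129)) (XT.lf (nat_lit 0) (nat_lit 57565434520) (nat_lit 76) (nat_lit 1571406931) (nat_lit 152) (nat_lit 311477056) (nat_lit 12) (nat_lit 5) (nat_lit 13) (nat_lit 5) (nat_lit 14) (nat_lit 4) (nat_lit 383) (nat_lit 269) (nat_lit 128)))) (XT.nd (nat_lit 78) (nat_lit 0) (nat_lit 0) (XT.lf (nat_lit 0) (nat_lit 4052022682) (nat_lit 228) (nat_lit 52464666100) (nat_lit 76) (nat_lit 4524709435) (nat_lit 9) (nat_lit 5) (nat_lit 12) (nat_lit 5) (nat_lit 10) (nat_lit 4) (nat_lit 384) (nat_lit 269) (nat_lit 127)) (XT.nd (nat_lit 78) (nat_lit 0) (nat_lit 0) (XT.lf (nat_lit 0) (nat_lit 8569566864) (nat_lit 228) (nat_lit 43321034804)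 (nat_lit 76) (nat_lit 10790698988) (nat_lit 9) (nat_lit 5) (nat_lit 12) (nat_lit 5) (nat_lit 10) (nat_lit 4) (nat_lit 385) (nat_lit 269) (nat_lit 126)) (XT.lf (nat_lit 0) (nat_lit 13217433157) (nat_lit 228) (nat_lit 33912063699) (nat_lit 76) (nat_lit 17241064151) (nat_lit 9) (nat_lit 5) (nat_lit 12) (nat_lit 5) (nat_lit 10) (nat_lit 4) (nat_lit 386) (nat_lit 269) (nat_lit 125)))))) (XT.nd (nat_lit 390) (nat_lit 0) (nat_lit 0) (XT.nd (nat_lit 156) (nat_lit 76) (nat_lit 0) (XT.nd (nat_lit 78) (nat_lit 0) (nat_lit 0) (XT.lf (nat_lit 0) (nat_lit 17999682803) (nat_lit 228) (nat_lit 24229531354) (nat_lit 76) (nat_lit 23881441164) (nat_lit 9) (nat_lit 5) (nat_lit 12) (nat_lit 5) (nat_lit 10) (nat_lit 4) (nat_lit 387) (nat_lit 269) (nat_lit 124)) (XT.lf (nat_lit 0) (nat_lit 22920494467) (nat_lit 228) (nat_lit 14264977304) (nat_lit 76) (nat_lit 30717632299) (nat_lit 9) (nat_lit 5) (nat_lit 12) (nat_lit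 5) (nat_lit 10) (nat_lit 4) (nat_lit 388) (nat_lit 269) (nat_lit 123))) (XT.nd (nat_lit 78) (nat_lit 76) (nat_lit 0) (XT.lf (nat_lit 0) (nat_lit 27984167887) (nat_lit 228) (nat_lit 4009694656) (nat_lit 76) (nat_lit 37755610926) (nat_lit 9) (nat_lit 5) (nat_lit 12) (nat_lit 5) (nat_lit 10) (nat_lit 4) (nat_lit 389) (nat_lit 269) (nat_lit 122)) (XT.nd (nat_lit 78) (nat_lit 0) (nat_lit 0) (XT.lf (nat_lit 0) (nat_lit 6675541370) (nat_lit 76) (nat_lit 26583755650) (nat_lit 152) (nat_lit 38390154752) (nat_lit 8) (nat_lit 5) (nat_lit 9) (nat_lit 5) (nat_lit 10) (nat_lit 4) (nat_lit 390) (nat_lit 269) (nat_lit 121)) (XT.lf (nat_lit 0) (nat_lit 17755638459) (nat_lit 76) (nat_lit 20972966569) (nat_lit 152) (nat_lit 34876750710) (nat_lit 8) (nat_lit 5) (nat_lit 9) (nat_lit 5) (nat_lit 10) (nat_lit 4) (nat_lit 391) (nat_lit 269) (nat_lit 120))))) (XT.nd (nat_lit 31122) (nat_lit 0) (nat_lit 16340) (XT.nd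 (nat_lit 78) (nat_lit 0) (nat_lit 0) (XT.lf (nat_lit 0) (nat_lit 29160477461) (nat_lit 76) (nat_lit 15197082725) (nat_lit 152) (nat_lit 31262513544) (nat_lit 8) (nat_lit 5) (nat_lit 9) (nat_lit 5) (nat_lit 10) (nat_lit 4) (nat_lit 392) (nat_lit 269) (nat_lit 119)) (XT.nd (nat_lit 78) (nat_lit 0) (nat_lit 0) (XT.lf (nat_lit 0) (nat_lit 40900023771) (nat_lit 76) (nat_lit 9251057228) (nat_lit 152) (nat_lit 27544285184) (nat_lit 8) (nat_lit 5) (nat_lit 9) (nat_lit 5) (nat_lit 10) (nat_lit 4) (nat_lit 393) (nat_lit 269) (nat_lit 118)) (XT.lf (nat_lit 0) (nat_lit 52984535244) (nat_lit 76) (nat_lit 3129694522) (nat_lit 152) (nat_lit 23718816692) (nat_lit 8) (nat_lit 5) (nat_lit 9) (nat_lit 5) (nat_lit 10) (nat_lit 4) (nat_lit 394) (nat_lit 269) (nat_lit 117)))) (XT.nd (nat_lit 78) (nat_lit 684) (nat_lit 0) (XT.lf (nat_lit 0) (nat_lit 1467974442) (nat_lit 0) (nat_lit 1467974442) (nat_lit 532) (nat_lit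 507688791) (nat_lit 232) (nat_lit 5) (nat_lit 232) (nat_lit 3) (nat_lit 239) (nat_lit 3) (nat_lit 270) (nat_lit 270) (nat_lit 240)) (XT.nd (nat_lit 78) (nat_lit 0) (nat_lit 0) (XT.lf (nat_lit 0) (nat_lit 726890003) (nat_lit 684) (nat_lit 988501101) (nat_lit 684) (nat_lit 5217737834) (nat_lit 223) (nat_lit 3) (nat_lit 232) (nat_lit 3) (nat_lit 232) (nat_lit 5) (nat_lit 271) (nat_lit 270) (nat_lit 239)) (XT.lf (nat_lit 76) (nat_lit 2058290801) (nat_lit 0) (nat_lit 394706911) (nat_lit 684) (nat_lit 4528719184) (nat_lit 224) (nat_lit 5) (nat_lit 223) (nat_lit 3) (nat_lit 232) (nat_lit 5) (nat_lit 272) (nat_lit 270) (nat_lit 238))))))) (XT.nd (nat_lit 858) (nat_lit 5320) (nat_lit 0) (XT.nd (nat_lit 390) (nat_lit 684) (nat_lit 0) (XT.nd (nat_lit 156) (nat_lit 684) (nat_lit 0) (XT.nd (nat_lit 78) (nat_lit 0) (nat_lit 0) (XT.lf (nat_lit 0) (nat_lit 4184390024) (nat_lit 608) (nat_lit 1861281107) (nat_lit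 684) (nat_lit 987699687) (nat_lit 224) (nat_lit 5) (nat_lit 232) (nat_lit 5) (nat_lit 233) (nat_lit 5) (nat_lit 273) (nat_lit 270) (nat_lit 237)) (XT.lf (nat_lit 76) (nat_lit 1277647783) (nat_lit 0) (nat_lit 4642322834) (nat_lit 684) (nat_lit 1168243498) (nat_lit 225) (nat_lit 5) (nat_lit 224) (nat_lit 5) (nat_lit 233) (nat_lit 5) (nat_lit 274) (nat_lit 270) (nat_lit 236))) (XT.nd (nat_lit 78) (nat_lit 0) (nat_lit 0) (XT.lf (nat_lit 0) (nat_lit 507673284) (nat_lit 684) (nat_lit 2638040914) (nat_lit 760) (nat_lit 4000349183) (nat_lit 215) (nat_lit 5) (nat_lit 224) (nat_lit 5) (nat_lit 225) (nat_lit 5) (nat_lit 275) (nat_lit 270) (nat_lit 235)) (XT.nd (nat_lit 78) (nat_lit 0) (nat_lit 76) (XT.lf (nat_lit 76) (nat_lit 593555657) (nat_lit 0) (nat_lit 1561139423) (nat_lit 760) (nat_lit 5052466373) (nat_lit 216) (nat_lit 5) (nat_lit 215) (nat_lit 5) (nat_lit 225) (nat_lit 5) (nat_lit 276) (nat_lit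 270) (nat_lit 234)) (XT.lf (nat_lit 0) (nat_lit 3818991959) (nat_lit 684) (nat_lit 3332043178) (nat_lit 760) (nat_lit 120205450) (nat_lit 216) (nat_lit 5) (nat_lit 225) (nat_lit 5) (nat_lit 226) (nat_lit 5) (nat_lit 277) (nat_lit 270) (nat_lit 233))))) (XT.nd (nat_lit 234) (nat_lit 0) (nat_lit 76) (XT.nd (nat_lit 78) (nat_lit 760) (nat_lit 0) (XT.lf (nat_lit 0) (nat_lit 5490693407) (nat_lit 684) (nat_lit 4365531) (nat_lit 760) (nat_lit 1843637578) (nat_lit 216) (nat_lit 5) (nat_lit 225) (nat_lit 5) (nat_lit 226) (nat_lit 5) (nat_lit 278) (nat_lit 270) (nat_lit 232)) (XT.nd (nat_lit 78) (nat_lit 760) (nat_lit 0) (XT.lf (nat_lit 76) (nat_lit 3454756188) (nat_lit 0) (nat_lit 3734706548) (nat_lit 760) (nat_lit 219579367) (nat_lit 217) (nat_lit 5) (nat_lit 216) (nat_lit 5) (nat_lit 226) (nat_lit 5) (nat_lit 279) (nat_lit 270) (nat_lit 231)) (XT.lf (nat_lit 0) (nat_lit 1373593473) (nat_lit 760) (nat_lit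 514490535) (nat_lit 836) (nat_lit 5594826970) (nat_lit 206) (nat_lit 5) (nat_lit 216) (nat_lit 5) (nat_lit 217) (nat_lit 5) (nat_lit 280) (nat_lit 270) (nat_lit 230)))) (XT.nd (nat_lit 78) (nat_lit 0) (nat_lit 0) (XT.lf (nat_lit 0) (nat_lit 2986010641) (nat_lit 760) (nat_lit 4510262884) (nat_lit 836) (nat_lit 63540063) (nat_lit 207) (nat_lit 5) (nat_lit 217) (nat_lit 5) (nat_lit 218) (nat_lit 5) (nat_lit 281) (nat_lit 270) (nat_lit 229)) (XT.nd (nat_lit 78) (nat_lit 0) (nat_lit 0) (XT.lf (nat_lit 0) (nat_lit 4618064659) (nat_lit 760) (nat_lit 963764159) (nat_lit 836) (nat_lit 2058210668) (nat_lit 207) (nat_lit 5) (nat_lit 217) (nat_lit 5) (nat_lit 218) (nat_lit 5) (nat_lit 282) (nat_lit 270) (nat_lit 228)) (XT.lf (nat_lit 76) (nat_lit 2705802155) (nat_lit 0) (nat_lit 3568145880) (nat_lit 836) (nat_lit 1449627745) (nat_lit 208) (nat_lit 5) (nat_lit 207) (nat_lit 5) (nat_lit 218) (nat_lit 5) (nat_lit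 283) (nat_lit 270) (nat_lit 227)))))) (XT.nd (nat_lit 468) (nat_lit 2888) (nat_lit 0) (XT.nd (nat_lit 234) (nat_lit 1672) (nat_lit 0) (XT.nd (nat_lit 78) (nat_lit 0) (nat_lit 76) (XT.lf (nat_lit 0) (nat_lit 125769219) (nat_lit 836) (nat_lit 1342765862) (nat_lit 912) (nat_lit 6342399311) (nat_lit 196) (nat_lit 5) (nat_lit 207) (nat_lit 5) (nat_lit 208) (nat_lit 5) (nat_lit 284) (nat_lit 270) (nat_lit 226)) (XT.nd (nat_lit 78) (nat_lit 0) (nat_lit 0) (XT.lf (nat_lit 0) (nat_lit 1700760839) (nat_lit 836) (nat_lit 5468661151) (nat_lit 76) (nat_lit 731754077) (nat_lit 197) (nat_lit 5) (nat_lit 208) (nat_lit 5) (nat_lit 198) (nat_lit 5) (nat_lit 285) (nat_lit 270) (nat_lit 225)) (XT.lf (nat_lit 0) (nat_lit 3303288109) (nat_lit 836) (nat_lit 1697003861) (nat_lit 76) (nat_lit 2994557407) (nat_lit 197) (nat_lit 5) (nat_lit 208) (nat_lit 5) (nat_lit 198) (nat_lit 5) (nat_lit 286) (nat_lit 270) (nat_lit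 224)))) (XT.nd (nat_lit 78) (nat_lit 912) (nat_lit 0) (XT.lf (nat_lit 0) (nat_lit 2194518388) (nat_lit 836) (nat_lit 2733916793) (nat_lit 912) (nat_lit 3163790477) (nat_lit 186) (nat_lit 5) (nat_lit 197) (nat_lit 5) (nat_lit 198) (nat_lit 5) (nat_lit 287) (nat_lit 270) (nat_lit 223)) (XT.nd (nat_lit 78) (nat_lit 912) (nat_lit 0) (XT.lf (nat_lit 0) (nat_lit 6201819500) (nat_lit 836) (nat_lit 372114676) (nat_lit 912) (nat_lit 1619566455) (nat_lit 186) (nat_lit 5) (nat_lit 197) (nat_lit 5) (nat_lit 198) (nat_lit 5) (nat_lit 288) (nat_lit 270) (nat_lit 222)) (XT.lf (nat_lit 0) (nat_lit 2014782543) (nat_lit 912) (nat_lit 6249068902) (nat_lit 988) (nat_lit 34232489) (nat_lit 174) (nat_lit 5) (nat_lit 186) (nat_lit 5) (nat_lit 187) (nat_lit 5) (nat_lit 289) (nat_lit 270) (nat_lit 221))))) (XT.nd (nat_lit 234) (nat_lit 1824) (nat_lit 0) (XT.nd (nat_lit 78) (nat_lit 988) (nat_lit 0) (XT.lf (nat_lit 0)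 (nat_lit 1547736815) (nat_lit 988) (nat_lit 2279065697) (nat_lit 76) (nat_lit 4579247770) (nat_lit 173) (nat_lit 5) (nat_lit 186) (nat_lit 5) (nat_lit 174) (nat_lit 5) (nat_lit 290) (nat_lit 270) (nat_lit 220)) (XT.nd (nat_lit 78) (nat_lit 0) (nat_lit 0) (XT.lf (nat_lit 0) (nat_lit 1845156779) (nat_lit 988) (nat_lit 1306606143) (nat_lit 1064) (nat_lit 5366335313) (nat_lit 160) (nat_lit 5) (nat_lit 173) (nat_lit 5) (nat_lit 174) (nat_lit 5) (nat_lit 291) (nat_lit 270) (nat_lit 219)) (XT.lf (nat_lit 0) (nat_lit 4798047543) (nat_lit 1064) (nat_lit 2542482426) (nat_lit 76) (nat_lit 1293261636) (nat_lit 160) (nat_lit 5) (nat_lit 174) (nat_lit 5) (nat_lit 161) (nat_lit 5) (nat_lit 292) (nat_lit 270) (nat_lit 218)))) (XT.nd (nat_lit 78) (nat_lit 760) (nat_lit 0) (XT.lf (nat_lit 0) (nat_lit 1696258291) (nat_lit 1064) (nat_lit 4786416452) (nat_lit 1140) (nat_lit 2270717374) (nat_lit 146) (nat_lit 5)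 (nat_lit 160) (nat_lit 5) (nat_lit 161) (nat_lit 5) (nat_lit 293) (nat_lit 270) (nat_lit 217)) (XT.nd (nat_lit 78) (nat_lit 760) (nat_lit 0) (XT.lf (nat_lit 0) (nat_lit 6078835068) (nat_lit 1064) (nat_lit 2125224380) (nat_lit 1140) (nat_lit 673036541) (nat_lit 146) (nat_lit 5) (nat_lit 160) (nat_lit 5) (nat_lit 161) (nat_lit 5) (nat_lit 294) (nat_lit 270) (nat_lit 216)) (XT.lf (nat_lit 0) (nat_lit 936144148) (nat_lit 760) (nat_lit 7436758831) (nat_lit 76) (nat_lit 631947148) (nat_lit 136) (nat_lit 5) (nat_lit 146) (nat_lit 5) (nat_lit 137) (nat_lit 5) (nat_lit 295) (nat_lit 270) (nat_lit 215))))))))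
noncomputable def xc140 : XT := (XT.nd (nat_lit 1716) (nat_lit 2964) (nat_lit 0) (XT.nd (nat_lit 858) (nat_lit 2052) (nat_lit 0) (XT.nd (nat_lit 390) (nat_lit 1520) (nat_lit 0) (XT.nd (nat_lit 156) (nat_lit 532) (nat_lit 0) (XT.nd (nat_lit 78) (nat_lit 532) (nat_lit 0) (XT.lf (nat_lit 0) (nat_lit 2591692087) (nat_lit 760) (nat_lit 3076975314) (nat_lit 76) (nat_lit 3467314258) (nat_lit 136) (nat_lit 5) (nat_lit 146) (nat_lit 5) (nat_lit 137) (nat_lit 5) (nat_lit 296) (nat_lit 270) (nat_lit 214)) (XT.lf (nat_lit 0) (nat_lit 1405893527) (nat_lit 532) (nat_lit 2867673508) (nat_lit 608) (nat_lit 4998270824) (nat_lit 129) (nat_lit 5) (nat_lit 136) (nat_lit 5) (nat_lit 137) (nat_lit 5) (nat_lit 297) (nat_lit 270) (nat_lit 213))) (XT.nd (nat_lit 78) (nat_lit 532) (nat_lit 0) (XT.lf (nat_lit 0) (nat_lit 6001341906) (nat_lit 608) (nat_lit 3360970317) (nat_lit 76) (nat_lit 49682117) (nat_lit 129) (nat_lit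 5) (nat_lit 137) (nat_lit 5) (nat_lit 130) (nat_lit 5) (nat_lit 298) (nat_lit 270) (nat_lit 212)) (XT.nd (nat_lit 78) (nat_lit 0) (nat_lit 0) (XT.lf (nat_lit 0) (nat_lit 1240023745) (nat_lit 532) (nat_lit 6546188308) (nat_lit 608) (nat_lit 1770070946) (nat_lit 122) (nat_lit 5) (nat_lit 129) (nat_lit 5) (nat_lit 130) (nat_lit 5) (nat_lit 299) (nat_lit 270) (nat_lit 211)) (XT.lf (nat_lit 0) (nat_lit 6013353019) (nat_lit 532) (nat_lit 3610852233) (nat_lit 608) (nat_lit 80790614) (nat_lit 122) (nat_lit 5) (nat_lit 129) (nat_lit 5) (nat_lit 130) (nat_lit 5) (nat_lit 300) (nat_lit 270) (nat_lit 210))))) (XT.nd (nat_lit 234) (nat_lit 532) (nat_lit 0) (XT.nd (nat_lit 78) (nat_lit 456) (nat_lit 0) (XT.lf (nat_lit 0) (nat_lit 1041757655) (nat_lit 456) (nat_lit 561277530) (nat_lit 532) (nat_lit 8255447266) (nat_lit 115) (nat_lit 5) (nat_lit 121) (nat_lit 5) (nat_lit 122) (nat_lit 5) (nat_lit 301) (nat_lit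 270) (nat_lit 209)) (XT.nd (nat_lit 78) (nat_lit 456) (nat_lit 0) (XT.lf (nat_lit 0) (nat_lit 3365075571) (nat_lit 532) (nat_lit 4083645557) (nat_lit 76) (nat_lit 2567024627) (nat_lit 115) (nat_lit 5) (nat_lit 122) (nat_lit 5) (nat_lit 116) (nat_lit 5) (nat_lit 302) (nat_lit 270) (nat_lit 208)) (XT.lf (nat_lit 0) (nat_lit 766794852) (nat_lit 456) (nat_lit 4393952855) (nat_lit 532) (nat_lit 5017629752) (nat_lit 109) (nat_lit 5) (nat_lit 115) (nat_lit 5) (nat_lit 116) (nat_lit 5) (nat_lit 303) (nat_lit 270) (nat_lit 207)))) (XT.nd (nat_lit 78) (nat_lit 532) (nat_lit 0) (XT.lf (nat_lit 0) (nat_lit 5812755967) (nat_lit 456) (nat_lit 1207225940) (nat_lit 532) (nat_lit 3325686925) (nat_lit 109) (nat_lit 5) (nat_lit 115) (nat_lit 5) (nat_lit 116) (nat_lit 5) (nat_lit 304) (nat_lit 270) (nat_lit 206)) (XT.nd (nat_lit 78) (nat_lit 76) (nat_lit 0) (XT.lf (nat_lit 0) (nat_lit 447206803) (nat_lit 456) (nat_lit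 8481386042) (nat_lit 532) (nat_lit 1589647502) (nat_lit 103) (nat_lit 5) (nat_lit 109) (nat_lit 5) (nat_lit 110) (nat_lit 5) (nat_lit 305) (nat_lit 270) (nat_lit 205)) (XT.lf (nat_lit 0) (nat_lit 222341490) (nat_lit 532) (nat_lit 5073309770) (nat_lit 76) (nat_lit 5399513681) (nat_lit 102) (nat_lit 5) (nat_lit 109) (nat_lit 5) (nat_lit 103) (nat_lit 5) (nat_lit 306) (nat_lit 270) (nat_lit 204)))))) (XT.nd (nat_lit 390) (nat_lit 1216) (nat_lit 0) (XT.nd (nat_lit 156) (nat_lit 380) (nat_lit 0) (XT.nd (nat_lit 78) (nat_lit 0) (nat_lit 0) (XT.lf (nat_lit 0) (nat_lit 26076131) (nat_lit 456) (nat_lit 2001362735) (nat_lit 532) (nat_lit 8850428767) (nat_lit 96) (nat_lit 5) (nat_lit 102) (nat_lit 5) (nat_lit 103) (nat_lit 5) (nat_lit 307) (nat_lit 270) (nat_lit 203)) (XT.lf (nat_lit 0) (nat_lit 3922764248) (nat_lit 532) (nat_lit 5729570210) (nat_lit 76) (nat_lit 1412696350) (nat_lit 96) (nat_lit 5) (nat_lit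 103) (nat_lit 5) (nat_lit 97) (nat_lit 5) (nat_lit 308) (nat_lit 270) (nat_lit 202))) (XT.nd (nat_lit 78) (nat_lit 380) (nat_lit 0) (XT.lf (nat_lit 0) (nat_lit 5866569695) (nat_lit 532) (nat_lit 506130350) (nat_lit 76) (nat_lit 4885420081) (nat_lit 96) (nat_lit 5) (nat_lit 103) (nat_lit 5) (nat_lit 97) (nat_lit 5) (nat_lit 309) (nat_lit 270) (nat_lit 201)) (XT.nd (nat_lit 78) (nat_lit 0) (nat_lit 0) (XT.lf (nat_lit 0) (nat_lit 4938702444) (nat_lit 380) (nat_lit 2950086740) (nat_lit 456) (nat_lit 3567668059) (nat_lit 91) (nat_lit 5) (nat_lit 96) (nat_lit 5) (nat_lit 97) (nat_lit 5) (nat_lit 310) (nat_lit 270) (nat_lit 200)) (XT.lf (nat_lit 0) (nat_lit 9955444602) (nat_lit 456) (nat_lit 1141106675) (nat_lit 76) (nat_lit 564736538) (nat_lit 91) (nat_lit 5) (nat_lit 97) (nat_lit 5) (nat_lit 92) (nat_lit 5) (nat_lit 311) (nat_lit 270) (nat_lit 199))))) (XT.nd (nat_lit 234) (nat_lit 380) (nat_lit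 0) (XT.nd (nat_lit 78) (nat_lit 380) (nat_lit 0) (XT.lf (nat_lit 0) (nat_lit 253685321) (nat_lit 456) (nat_lit 7450756591) (nat_lit 76) (nat_lit 4166434007) (nat_lit 85) (nat_lit 5) (nat_lit 91) (nat_lit 5) (nat_lit 86) (nat_lit 5) (nat_lit 312) (nat_lit 270) (nat_lit 198)) (XT.nd (nat_lit 78) (nat_lit 380) (nat_lit 0) (XT.lf (nat_lit 0) (nat_lit 2223371154) (nat_lit 456) (nat_lit 1963351697) (nat_lit 76) (nat_lit 7900004048) (nat_lit 85) (nat_lit 5) (nat_lit 91) (nat_lit 5) (nat_lit 86) (nat_lit 5) (nat_lit 313) (nat_lit 270) (nat_lit 197)) (XT.lf (nat_lit 0) (nat_lit 3730880418) (nat_lit 380) (nat_lit 531907515) (nat_lit 456) (nat_lit 8045996395) (nat_lit 80) (nat_lit 5) (nat_lit 85) (nat_lit 5) (nat_lit 86) (nat_lit 5) (nat_lit 314) (nat_lit 270) (nat_lit 196)))) (XT.nd (nat_lit 78) (nat_lit 380) (nat_lit 0) (XT.lf (nat_lit 0) (nat_lit 6389650021) (nat_lit 456) (nat_lit 2963028862) (nat_lit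 76) (nat_lit 3184085383) (nat_lit 80) (nat_lit 5) (nat_lit 86) (nat_lit 5) (nat_lit 81) (nat_lit 5) (nat_lit 315) (nat_lit 270) (nat_lit 195)) (XT.nd (nat_lit 78) (nat_lit 0) (nat_lit 0) (XT.lf (nat_lit 0) (nat_lit 2840317968) (nat_lit 380) (nat_lit 5748459807) (nat_lit 456) (nat_lit 4182599285) (nat_lit 75) (nat_lit 5) (nat_lit 80) (nat_lit 5) (nat_lit 81) (nat_lit 5) (nat_lit 316) (nat_lit 270) (nat_lit 194)) (XT.lf (nat_lit 0) (nat_lit 8848666920) (nat_lit 380) (nat_lit 2011439146) (nat_lit 456) (nat_lit 2152781248) (nat_lit 75) (nat_lit 5) (nat_lit 80) (nat_lit 5) (nat_lit 81) (nat_lit 5) (nat_lit 317) (nat_lit 270) (nat_lit 193))))))) (XT.nd (nat_lit 858) (nat_lit 1368) (nat_lit 0) (XT.nd (nat_lit 390) (nat_lit 912) (nat_lit 0) (XT.nd (nat_lit 156) (nat_lit 304) (nat_lit 0) (XT.nd (nat_lit 78) (nat_lit 76) (nat_lit 0) (XT.lf (nat_lit 0) (nat_lit 1762709510) (nat_lit 304) (nat_lit 11448412665)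 (nat_lit 380) (nat_lit 50218802) (nat_lit 71) (nat_lit 5) (nat_lit 75) (nat_lit 5) (nat_lit 76) (nat_lit 5) (nat_lit 318) (nat_lit 270) (nat_lit 192)) (XT.lf (nat_lit 0) (nat_lit 2113584428) (nat_lit 380) (nat_lit 5633696890) (nat_lit 76) (nat_lit 5768215572) (nat_lit 70) (nat_lit 5) (nat_lit 75) (nat_lit 5) (nat_lit 71) (nat_lit 5) (nat_lit 319) (nat_lit 270) (nat_lit 191))) (XT.nd (nat_lit 78) (nat_lit 0) (nat_lit 0) (XT.lf (nat_lit 0) (nat_lit 385221482) (nat_lit 304) (nat_lit 3937503369) (nat_lit 380) (nat_lit 9455135500) (nat_lit 66) (nat_lit 5) (nat_lit 70) (nat_lit 5) (nat_lit 71) (nat_lit 5) (nat_lit 320) (nat_lit 270) (nat_lit 190)) (XT.nd (nat_lit 78) (nat_lit 0) (nat_lit 0) (XT.lf (nat_lit 0) (nat_lit 6633499771) (nat_lit 380) (nat_lit 7375960557) (nat_lit 76) (nat_lit 37613153) (nat_lit 66) (nat_lit 5) (nat_lit 71) (nat_lit 5) (nat_lit 67) (nat_lit 5) (nat_lit 321) (nat_lit 270)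 (nat_lit 189)) (XT.lf (nat_lit 0) (nat_lit 9031259671) (nat_lit 380) (nat_lit 1246243821) (nat_lit 76) (nat_lit 4046368081) (nat_lit 66) (nat_lit 5) (nat_lit 71) (nat_lit 5) (nat_lit 67) (nat_lit 5) (nat_lit 322) (nat_lit 270) (nat_lit 188))))) (XT.nd (nat_lit 234) (nat_lit 228) (nat_lit 0) (XT.nd (nat_lit 78) (nat_lit 380) (nat_lit 0) (XT.lf (nat_lit 0) (nat_lit 5140017343) (nat_lit 304) (nat_lit 6389641639) (nat_lit 380) (nat_lit 3078490730) (nat_lit 62) (nat_lit 5) (nat_lit 66) (nat_lit 5) (nat_lit 67) (nat_lit 5) (nat_lit 323) (nat_lit 270) (nat_lit 187)) (XT.nd (nat_lit 78) (nat_lit 380) (nat_lit 0) (XT.lf (nat_lit 0) (nat_lit 11716036848) (nat_lit 304) (nat_lit 2379195491) (nat_lit 380) (nat_lit 805993409) (nat_lit 62) (nat_lit 5) (nat_lit 66) (nat_lit 5) (nat_lit 67) (nat_lit 5) (nat_lit 324) (nat_lit 270) (nat_lit 186)) (XT.lf (nat_lit 0) (nat_lit 1533771367) (nat_lit 380) (nat_lit 11910511044)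 (nat_lit 76) (nat_lit 1757532034) (nat_lit 57) (nat_lit 5) (nat_lit 62) (nat_lit 5) (nat_lit 58) (nat_lit 5) (nat_lit 325) (nat_lit 270) (nat_lit 185)))) (XT.nd (nat_lit 78) (nat_lit 228) (nat_lit 0) (XT.lf (nat_lit 0) (nat_lit 3963826182) (nat_lit 380) (nat_lit 5542228783) (nat_lit 76) (nat_lit 6004070672) (nat_lit 57) (nat_lit 5) (nat_lit 62) (nat_lit 5) (nat_lit 58) (nat_lit 5) (nat_lit 326) (nat_lit 270) (nat_lit 184)) (XT.nd (nat_lit 78) (nat_lit 0) (nat_lit 0) (XT.lf (nat_lit 0) (nat_lit 1010310281) (nat_lit 228) (nat_lit 5447016850) (nat_lit 304) (nat_lit 9370674877) (nat_lit 54) (nat_lit 5) (nat_lit 57) (nat_lit 5) (nat_lit 58) (nat_lit 5) (nat_lit 327) (nat_lit 270) (nat_lit 183)) (XT.lf (nat_lit 0) (nat_lit 7846789185) (nat_lit 228) (nat_lit 1215948308) (nat_lit 304) (nat_lit 7091595284) (nat_lit 54) (nat_lit 5) (nat_lit 57) (nat_lit 5) (nat_lit 58) (nat_lit 5) (nat_lit 328) (nat_lit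 270) (nat_lit 182)))))) (XT.nd (nat_lit 468) (nat_lit 760) (nat_lit 0) (XT.nd (nat_lit 234) (nat_lit 228) (nat_lit 0) (XT.nd (nat_lit 78) (nat_lit 380) (nat_lit 0) (XT.lf (nat_lit 0) (nat_lit 11758132668) (nat_lit 304) (nat_lit 1658287228) (nat_lit 76) (nat_lit 3073709228) (nat_lit 54) (nat_lit 5) (nat_lit 58) (nat_lit 5) (nat_lit 55) (nat_lit 5) (nat_lit 329) (nat_lit 270) (nat_lit 181)) (XT.nd (nat_lit 78) (nat_lit 76) (nat_lit 0) (XT.lf (nat_lit 0) (nat_lit 5255730146) (nat_lit 304) (nat_lit 9323374474) (nat_lit 380) (nat_lit 2255582741) (nat_lit 50) (nat_lit 5) (nat_lit 54) (nat_lit 5) (nat_lit 55) (nat_lit 5) (nat_lit 330) (nat_lit 270) (nat_lit 180)) (XT.lf (nat_lit 0) (nat_lit 288507864) (nat_lit 380) (nat_lit 4806291153) (nat_lit 76) (nat_lit 12094751674) (nat_lit 49) (nat_lit 5) (nat_lit 54) (nat_lit 5) (nat_lit 50) (nat_lit 5) (nat_lit 331) (nat_lit 270) (nat_lit 179)))) (XT.nd (nat_lit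 78) (nat_lit 0) (nat_lit 0) (XT.lf (nat_lit 0) (nat_lit 2164835273) (nat_lit 228) (nat_lit 702310319) (nat_lit 304) (nat_lit 14687164519) (nat_lit 46) (nat_lit 5) (nat_lit 49) (nat_lit 5) (nat_lit 50) (nat_lit 5) (nat_lit 332) (nat_lit 270) (nat_lit 178)) (XT.nd (nat_lit 78) (nat_lit 0) (nat_lit 0) (XT.lf (nat_lit 0) (nat_lit 5591842511) (nat_lit 304) (nat_lit 8547009831) (nat_lit 76) (nat_lit 3789125135) (nat_lit 46) (nat_lit 5) (nat_lit 50) (nat_lit 5) (nat_lit 47) (nat_lit 5) (nat_lit 333) (nat_lit 270) (nat_lit 177)) (XT.lf (nat_lit 0) (nat_lit 8388677063) (nat_lit 304) (nat_lit 1530354344) (nat_lit 76) (nat_lit 8394136954) (nat_lit 46) (nat_lit 5) (nat_lit 50) (nat_lit 5) (nat_lit 47) (nat_lit 5) (nat_lit 334) (nat_lit 270) (nat_lit 176))))) (XT.nd (nat_lit 234) (nat_lit 304) (nat_lit 0) (XT.nd (nat_lit 78) (nat_lit 228) (nat_lit 0) (XT.lf (nat_lit 0) (nat_lit 5786284975) (nat_lit 228)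 (nat_lit 5522678384) (nat_lit 304) (nat_lit 7399789873) (nat_lit 43) (nat_lit 5) (nat_lit 46) (nat_lit 5) (nat_lit 47) (nat_lit 5) (nat_lit 335) (nat_lit 270) (nat_lit 175)) (XT.nd (nat_lit 78) (nat_lit 228) (nat_lit 0) (XT.lf (nat_lit 0) (nat_lit 13330596824) (nat_lit 228) (nat_lit 985885600) (nat_lit 304) (nat_lit 4799758442) (nat_lit 43) (nat_lit 5) (nat_lit 46) (nat_lit 5) (nat_lit 47) (nat_lit 5) (nat_lit 336) (nat_lit 270) (nat_lit 174)) (XT.lf (nat_lit 0) (nat_lit 1536896180) (nat_lit 228) (nat_lit 15912109162) (nat_lit 304) (nat_lit 2085927684) (nat_lit 40) (nat_lit 5) (nat_lit 43) (nat_lit 5) (nat_lit 44) (nat_lit 5) (nat_lit 337) (nat_lit 270) (nat_lit 173)))) (XT.nd (nat_lit 78) (nat_lit 228) (nat_lit 0) (XT.lf (nat_lit 0) (nat_lit 748861510) (nat_lit 304) (nat_lit 10806919087) (nat_lit 76) (nat_lit 8408621166) (nat_lit 39) (nat_lit 5) (nat_lit 43) (nat_lit 5) (nat_lit 40) (nat_lit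 5) (nat_lit 338) (nat_lit 270) (nat_lit 172)) (XT.nd (nat_lit 78) (nat_lit 228) (nat_lit 0) (XT.lf (nat_lit 0) (nat_lit 3611838726) (nat_lit 304) (nat_lit 3443089856) (nat_lit 76) (nat_lit 13351675588) (nat_lit 39) (nat_lit 5) (nat_lit 43) (nat_lit 5) (nat_lit 40) (nat_lit 5) (nat_lit 339) (nat_lit 270) (nat_lit 171)) (XT.lf (nat_lit 0) (nat_lit 4201931285) (nat_lit 228) (nat_lit 2384669802) (nat_lit 304) (nat_lit 14274715341) (nat_lit 36) (nat_lit 5) (nat_lit 39) (nat_lit 5) (nat_lit 40) (nat_lit 5) (nat_lit 340) (nat_lit 270) (nat_lit 170))))))))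
noncomputable def xc141 : XT := (XT.nd (nat_lit 1716) (nat_lit 760) (nat_lit 0) (XT.nd (nat_lit 858) (nat_lit 684) (nat_lit 0) (XT.nd (nat_lit 390) (nat_lit 456) (nat_lit 0) (XT.nd (nat_lit 156) (nat_lit 152) (nat_lit 0) (XT.nd (nat_lit 78) (nat_lit 0) (nat_lit 0) (XT.lf (nat_lit 0) (nat_lit 9694686635) (nat_lit 304) (nat_lit 9227289365) (nat_lit 76) (nat_lit 2406391695) (nat_lit 36) (nat_lit 5) (nat_lit 40) (nat_lit 5) (nat_lit 37) (nat_lit 5) (nat_lit 341) (nat_lit 270) (nat_lit 169)) (XT.lf (nat_lit 0) (nat_lit 12905693628) (nat_lit 304) (nat_lit 1617087781) (nat_lit 76) (nat_lit 7286378193) (nat_lit 36) (nat_lit 5) (nat_lit 40) (nat_lit 5) (nat_lit 37) (nat_lit 5) (nat_lit 342) (nat_lit 270) (nat_lit 168))) (XT.nd (nat_lit 78) (nat_lit 0) (nat_lit 0) (XT.lf (nat_lit 0) (nat_lit 6324200127) (nat_lit 152) (nat_lit 9936096849) (nat_lit 228) (nat_lit 6042679206) (nat_lit 34) (nat_lit 5) (nat_lit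 36) (nat_lit 5) (nat_lit 37) (nat_lit 5) (nat_lit 343) (nat_lit 270) (nat_lit 167)) (XT.nd (nat_lit 78) (nat_lit 0) (nat_lit 0) (XT.lf (nat_lit 0) (nat_lit 14516449972) (nat_lit 152) (nat_lit 5202089551) (nat_lit 228) (nat_lit 3092996053) (nat_lit 34) (nat_lit 5) (nat_lit 36) (nat_lit 5) (nat_lit 37) (nat_lit 5) (nat_lit 344) (nat_lit 270) (nat_lit 166)) (XT.lf (nat_lit 0) (nat_lit 22934636813) (nat_lit 152) (nat_lit 332952420) (nat_lit 228) (nat_lit 68168538) (nat_lit 34) (nat_lit 5) (nat_lit 36) (nat_lit 5) (nat_lit 37) (nat_lit 5) (nat_lit 345) (nat_lit 270) (nat_lit 165))))) (XT.nd (nat_lit 234) (nat_lit 152) (nat_lit 0) (XT.nd (nat_lit 78) (nat_lit 0) (nat_lit 0) (XT.lf (nat_lit 0) (nat_lit 3096514630) (nat_lit 304) (nat_lit 16085235012) (nat_lit 76) (nat_lit 4689837678) (nat_lit 30) (nat_lit 5) (nat_lit 34) (nat_lit 5) (nat_lit 31) (nat_lit 5) (nat_lit 346) (nat_lit 270) (nat_lit 164))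 (XT.nd (nat_lit 78) (nat_lit 0) (nat_lit 0) (XT.lf (nat_lit 0) (nat_lit 6349569550) (nat_lit 304) (nat_lit 8219367076) (nat_lit 76) (nat_lit 9854707143) (nat_lit 30) (nat_lit 5) (nat_lit 34) (nat_lit 5) (nat_lit 31) (nat_lit 5) (nat_lit 347) (nat_lit 270) (nat_lit 163)) (XT.lf (nat_lit 0) (nat_lit 9687996874) (nat_lit 304) (nat_lit 136608149) (nat_lit 76) (nat_lit 15168039296) (nat_lit 30) (nat_lit 5) (nat_lit 34) (nat_lit 5) (nat_lit 31) (nat_lit 5) (nat_lit 348) (nat_lit 270) (nat_lit 162)))) (XT.nd (nat_lit 78) (nat_lit 0) (nat_lit 0) (XT.lf (nat_lit 0) (nat_lit 8332705471) (nat_lit 152) (nat_lit 4862107265) (nat_lit 228) (nat_lit 12381870444) (nat_lit 28) (nat_lit 5) (nat_lit 30) (nat_lit 5) (nat_lit 31) (nat_lit 5) (nat_lit 349) (nat_lit 270) (nat_lit 161)) (XT.nd (nat_lit 78) (nat_lit 0) (nat_lit 0) (XT.lf (nat_lit 0) (nat_lit 16798864167) (nat_lit 228) (nat_lit 9140362044) (nat_lit 76)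 (nat_lit 239270985) (nat_lit 28) (nat_lit 5) (nat_lit 31) (nat_lit 5) (nat_lit 29) (nat_lit 5) (nat_lit 350) (nat_lit 270) (nat_lit 160)) (XT.lf (nat_lit 0) (nat_lit 20547761153) (nat_lit 228) (nat_lit 859883702) (nat_lit 76) (nat_lit 5389633543) (nat_lit 28) (nat_lit 5) (nat_lit 31) (nat_lit 5) (nat_lit 29) (nat_lit 5) (nat_lit 351) (nat_lit 270) (nat_lit 159)))))) (XT.nd (nat_lit 390) (nat_lit 304) (nat_lit 0) (XT.nd (nat_lit 156) (nat_lit 152) (nat_lit 0) (XT.nd (nat_lit 78) (nat_lit 76) (nat_lit 0) (XT.lf (nat_lit 0) (nat_lit 7803708697) (nat_lit 152) (nat_lit 16669347204) (nat_lit 228) (nat_lit 2959663272) (nat_lit 26) (nat_lit 5) (nat_lit 28) (nat_lit 5) (nat_lit 29) (nat_lit 5) (nat_lit 352) (nat_lit 270) (nat_lit 158)) (XT.lf (nat_lit 0) (nat_lit 418237054) (nat_lit 228) (nat_lit 11363975299) (nat_lit 76) (nat_lit 16304968798) (nat_lit 25) (nat_lit 5) (nat_lit 28) (nat_lit 5) (nat_lit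 26) (nat_lit 5) (nat_lit 353) (nat_lit 270) (nat_lit 157))) (XT.nd (nat_lit 78) (nat_lit 152) (nat_lit 0) (XT.lf (nat_lit 0) (nat_lit 3827260650) (nat_lit 228) (nat_lit 2897418463) (nat_lit 76) (nat_lit 22036053461) (nat_lit 25) (nat_lit 5) (nat_lit 28) (nat_lit 5) (nat_lit 26) (nat_lit 5) (nat_lit 354) (nat_lit 270) (nat_lit 156)) (XT.nd (nat_lit 78) (nat_lit 0) (nat_lit 0) (XT.lf (nat_lit 0) (nat_lit 5922068984) (nat_lit 152) (nat_lit 1462997533) (nat_lit 228) (nat_lit 22068041172) (nat_lit 23) (nat_lit 5) (nat_lit 25) (nat_lit 5) (nat_lit 26) (nat_lit 5) (nat_lit 355) (nat_lit 270) (nat_lit 155)) (XT.lf (nat_lit 0) (nat_lit 11106857678) (nat_lit 228) (nat_lit 15154887999) (nat_lit 76) (nat_lit 3902802976) (nat_lit 23) (nat_lit 5) (nat_lit 26) (nat_lit 5) (nat_lit 24) (nat_lit 5) (nat_lit 356) (nat_lit 270) (nat_lit 154))))) (XT.nd (nat_lit 234) (nat_lit 152) (nat_lit 0) (XT.nd (nat_lit 78)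 (nat_lit 152) (nat_lit 0) (XT.lf (nat_lit 0) (nat_lit 14944759114) (nat_lit 228) (nat_lit 6558175438) (nat_lit 76) (nat_lit 9394276378) (nat_lit 23) (nat_lit 5) (nat_lit 26) (nat_lit 5) (nat_lit 24) (nat_lit 5) (nat_lit 357) (nat_lit 270) (nat_lit 153)) (XT.nd (nat_lit 78) (nat_lit 0) (nat_lit 0) (XT.lf (nat_lit 0) (nat_lit 2326063778) (nat_lit 152) (nat_lit 16584356872) (nat_lit 228) (nat_lit 12741065168) (nat_lit 21) (nat_lit 5) (nat_lit 23) (nat_lit 5) (nat_lit 24) (nat_lit 5) (nat_lit 358) (nat_lit 270) (nat_lit 152)) (XT.lf (nat_lit 0) (nat_lit 11595656290) (nat_lit 152) (nat_lit 11456017500) (nat_lit 228) (nat_lit 9375027613) (nat_lit 21) (nat_lit 5) (nat_lit 23) (nat_lit 5) (nat_lit 24) (nat_lit 5) (nat_lit 359) (nat_lit 270) (nat_lit 151)))) (XT.nd (nat_lit 78) (nat_lit 152) (nat_lit 0) (XT.lf (nat_lit 0) (nat_lit 21128181190) (nat_lit 152) (nat_lit 6179660075) (nat_lit 228) (nat_lit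 5917622666) (nat_lit 21) (nat_lit 5) (nat_lit 23) (nat_lit 5) (nat_lit 24) (nat_lit 5) (nat_lit 360) (nat_lit 270) (nat_lit 150)) (XT.nd (nat_lit 78) (nat_lit 152) (nat_lit 0) (XT.lf (nat_lit 0) (nat_lit 30931967870) (nat_lit 152) (nat_lit 750674187) (nat_lit 228) (nat_lit 2365829293) (nat_lit 21) (nat_lit 5) (nat_lit 23) (nat_lit 5) (nat_lit 24) (nat_lit 5) (nat_lit 361) (nat_lit 270) (nat_lit 149)) (XT.lf (nat_lit 0) (nat_lit 1365480259) (nat_lit 152) (nat_lit 28713135109) (nat_lit 76) (nat_lit 4814245233) (nat_lit 19) (nat_lit 5) (nat_lit 21) (nat_lit 5) (nat_lit 20) (nat_lit 5) (nat_lit 362) (nat_lit 270) (nat_lit 148))))))) (XT.nd (nat_lit 858) (nat_lit 456) (nat_lit 0) (XT.nd (nat_lit 390) (nat_lit 152) (nat_lit 0) (XT.nd (nat_lit 156) (nat_lit 152) (nat_lit 0) (XT.nd (nat_lit 78) (nat_lit 0) (nat_lit 0) (XT.lf (nat_lit 0) (nat_lit 5191575348) (nat_lit 152) (nat_lit 19988628077) (nat_lit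 76) (nat_lit 10580773047) (nat_lit 19) (nat_lit 5) (nat_lit 21) (nat_lit 5) (nat_lit 20) (nat_lit 5) (nat_lit 363) (nat_lit 270) (nat_lit 147)) (XT.lf (nat_lit 0) (nat_lit 9123892604) (nat_lit 152) (nat_lit 11016511278) (nat_lit 76) (nat_lit 16514998056) (nat_lit 19) (nat_lit 5) (nat_lit 21) (nat_lit 5) (nat_lit 20) (nat_lit 5) (nat_lit 364) (nat_lit 270) (nat_lit 146))) (XT.nd (nat_lit 78) (nat_lit 152) (nat_lit 0) (XT.lf (nat_lit 0) (nat_lit 13165868031) (nat_lit 152) (nat_lit 1788944997) (nat_lit 76) (nat_lit 22622105506) (nat_lit 19) (nat_lit 5) (nat_lit 21) (nat_lit 5) (nat_lit 20) (nat_lit 5) (nat_lit 365) (nat_lit 270) (nat_lit 145)) (XT.nd (nat_lit 78) (nat_lit 0) (nat_lit 0) (XT.lf (nat_lit 0) (nat_lit 7855421248) (nat_lit 152) (nat_lit 9541123320) (nat_lit 228) (nat_lit 21127521570) (nat_lit 17) (nat_lit 5) (nat_lit 19) (nat_lit 5) (nat_lit 20) (nat_lit 5) (nat_lit 366) (nat_lit 270)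 (nat_lit 144)) (XT.lf (nat_lit 0) (nat_lit 17812606050) (nat_lit 152) (nat_lit 3951639214) (nat_lit 228) (nat_lit 17735088298) (nat_lit 17) (nat_lit 5) (nat_lit 19) (nat_lit 5) (nat_lit 20) (nat_lit 5) (nat_lit 367) (nat_lit 270) (nat_lit 143))))) (XT.nd (nat_lit 234) (nat_lit 76) (nat_lit 0) (XT.nd (nat_lit 78) (nat_lit 76) (nat_lit 0) (XT.lf (nat_lit 0) (nat_lit 26272554990) (nat_lit 228) (nat_lit 12465699904) (nat_lit 76) (nat_lit 1765325036) (nat_lit 17) (nat_lit 5) (nat_lit 20) (nat_lit 5) (nat_lit 18) (nat_lit 4) (nat_lit 368) (nat_lit 270) (nat_lit 142)) (XT.nd (nat_lit 78) (nat_lit 76) (nat_lit 0) (XT.lf (nat_lit 0) (nat_lit 30947687841) (nat_lit 228) (nat_lit 3019779655) (nat_lit 76) (nat_lit 7569546998) (nat_lit 17) (nat_lit 5) (nat_lit 20) (nat_lit 5) (nat_lit 18) (nat_lit 4) (nat_lit 369) (nat_lit 270) (nat_lit 141)) (XT.lf (nat_lit 0) (nat_lit 6830561380) (nat_lit 76) (nat_lit 28990841467)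 (nat_lit 152) (nat_lit 6778307190) (nat_lit 16) (nat_lit 5) (nat_lit 17) (nat_lit 5) (nat_lit 18) (nat_lit 4) (nat_lit 370) (nat_lit 270) (nat_lit 140)))) (XT.nd (nat_lit 78) (nat_lit 76) (nat_lit 0) (XT.lf (nat_lit 0) (nat_lit 17026189550) (nat_lit 76) (nat_lit 23838399217) (nat_lit 152) (nat_lit 2829007456) (nat_lit 16) (nat_lit 5) (nat_lit 17) (nat_lit 5) (nat_lit 18) (nat_lit 4) (nat_lit 371) (nat_lit 270) (nat_lit 139)) (XT.nd (nat_lit 78) (nat_lit 0) (nat_lit 0) (XT.lf (nat_lit 0) (nat_lit 1207497964) (nat_lit 152) (nat_lit 17316441142) (nat_lit 76) (nat_lit 26296222791) (nat_lit 15) (nat_lit 5) (nat_lit 17) (nat_lit 5) (nat_lit 16) (nat_lit 5) (nat_lit 372) (nat_lit 270) (nat_lit 138)) (XT.lf (nat_lit 0) (nat_lit 5301344690) (nat_lit 152) (nat_lit 7724530294) (nat_lit 76) (nat_lit 32954022985) (nat_lit 15) (nat_lit 5) (nat_lit 17) (nat_lit 5) (nat_lit 16) (nat_lit 5) (nat_lit 373) (nat_lit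 270) (nat_lit 137)))))) (XT.nd (nat_lit 468) (nat_lit 228) (nat_lit 0) (XT.nd (nat_lit 234) (nat_lit 76) (nat_lit 0) (XT.nd (nat_lit 78) (nat_lit 0) (nat_lit 0) (XT.lf (nat_lit 0) (nat_lit 2186569140) (nat_lit 152) (nat_lit 7345763493) (nat_lit 228) (nat_lit 37641670433) (nat_lit 13) (nat_lit 5) (nat_lit 15) (nat_lit 5) (nat_lit 16) (nat_lit 5) (nat_lit 374) (nat_lit 270) (nat_lit 136)) (XT.nd (nat_lit 78) (nat_lit 0) (nat_lit 0) (XT.lf (nat_lit 0) (nat_lit 12542220441) (nat_lit 152) (nat_lit 1419427542) (nat_lit 228) (nat_lit 34440147920) (nat_lit 13) (nat_lit 5) (nat_lit 15) (nat_lit 5) (nat_lit 16) (nat_lit 5) (nat_lit 375) (nat_lit 270) (nat_lit 135)) (XT.lf (nat_lit 0) (nat_lit 18562420317) (nat_lit 228) (nat_lit 26513872284) (nat_lit 76) (nat_lit 4588978930) (nat_lit 13) (nat_lit 5) (nat_lit 16) (nat_lit 5) (nat_lit 14) (nat_lit 4) (nat_lit 376) (nat_lit 270) (nat_lit 134)))) (XT.nd (nat_lit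 78) (nat_lit 76) (nat_lit 0) (XT.lf (nat_lit 0) (nat_lit 23309002893) (nat_lit 228) (nat_lit 16912491411) (nat_lit 76) (nat_lit 10744929660) (nat_lit 13) (nat_lit 5) (nat_lit 16) (nat_lit 5) (nat_lit 14) (nat_lit 4) (nat_lit 377) (nat_lit 270) (nat_lit 133)) (XT.nd (nat_lit 78) (nat_lit 76) (nat_lit 0) (XT.lf (nat_lit 0) (nat_lit 28191898805) (nat_lit 228) (nat_lit 7033398881) (nat_lit 76) (nat_lit 17081501776) (nat_lit 13) (nat_lit 5) (nat_lit 16) (nat_lit 5) (nat_lit 14) (nat_lit 4) (nat_lit 378) (nat_lit 270) (nat_lit 132)) (XT.lf (nat_lit 0) (nat_lit 3194371211) (nat_lit 76) (nat_lit 30051709700) (nat_lit 152) (nat_lit 20440567127) (nat_lit 12) (nat_lit 5) (nat_lit 13) (nat_lit 5) (nat_lit 14) (nat_lit 4) (nat_lit 379) (nat_lit 270) (nat_lit 131))))) (XT.nd (nat_lit 234) (nat_lit 228) (nat_lit 0) (XT.nd (nat_lit 78) (nat_lit 0) (nat_lit 0) (XT.lf (nat_lit 0) (nat_lit 13863221609) (nat_lit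 76) (nat_lit 24653860064) (nat_lit 152) (nat_lit 16588860229) (nat_lit 12) (nat_lit 5) (nat_lit 13) (nat_lit 5) (nat_lit 14) (nat_lit 4) (nat_lit 380) (nat_lit 270) (nat_lit 130)) (XT.nd (nat_lit 78) (nat_lit 0) (nat_lit 0) (XT.lf (nat_lit 0) (nat_lit 24842496179) (nat_lit 76) (nat_lit 19098055749) (nat_lit 152) (nat_lit 12627437931) (nat_lit 12) (nat_lit 5) (nat_lit 13) (nat_lit 5) (nat_lit 14) (nat_lit 4) (nat_lit 381) (nat_lit 270) (nat_lit 129)) (XT.lf (nat_lit 0) (nat_lit 36141788464) (nat_lit 76) (nat_lit 13379442168) (nat_lit 152) (nat_lit 8552838795) (nat_lit 12) (nat_lit 5) (nat_lit 13) (nat_lit 5) (nat_lit 14) (nat_lit 4) (nat_lit 382) (nat_lit 270) (nat_lit 128)))) (XT.nd (nat_lit 78) (nat_lit 228) (nat_lit 0) (XT.lf (nat_lit 0) (nat_lit 47770971630) (nat_lit 76) (nat_lit 7493022474) (nat_lit 152) (nat_lit 4361502494) (nat_lit 12) (nat_lit 5) (nat_lit 13) (nat_lit 5) (nat_lit 14)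 (nat_lit 4) (nat_lit 383) (nat_lit 270) (nat_lit 127)) (XT.nd (nat_lit 78) (nat_lit 228) (nat_lit 0) (XT.lf (nat_lit 0) (nat_lit 59740207100) (nat_lit 76) (nat_lit 1433653194) (nat_lit 152) (nat_lit 49766693) (nat_lit 12) (nat_lit 5) (nat_lit 13) (nat_lit 5) (nat_lit 14) (nat_lit 4) (nat_lit 384) (nat_lit 270) (nat_lit 126)) (XT.lf (nat_lit 0) (nat_lit 4437716486) (nat_lit 228) (nat_lit 53583389602) (nat_lit 76) (nat_lit 4843370975) (nat_lit 9) (nat_lit 5) (nat_lit 12) (nat_lit 5) (nat_lit 10) (nat_lit 4) (nat_lit 385) (nat_lit 270) (nat_lit 125))))))))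
noncomputable def xc142 : XT := (XT.nd (nat_lit 32682) (nat_lit 0) (nat_lit 7220) (XT.nd (nat_lit 31824) (nat_lit 0) (nat_lit 15048) (XT.nd (nat_lit 390) (nat_lit 76) (nat_lit 0) (XT.nd (nat_lit 156) (nat_lit 0) (nat_lit 0) (XT.nd (nat_lit 78) (nat_lit 0) (nat_lit 0) (XT.lf (nat_lit 0) (nat_lit 9083093795) (nat_lit 228) (nat_lit 44178708099) (nat_lit 76) (nat_lit 11292012441) (nat_lit 9) (nat_lit 5) (nat_lit 12) (nat_lit 5) (nat_lit 10) (nat_lit 4) (nat_lit 386) (nat_lit 270) (nat_lit 124)) (XT.lf (nat_lit 0) (nat_lit 13862926953) (nat_lit 228) (nat_lit 34500340417) (nat_lit 76) (nat_lit 17930715962) (nat_lit 9) (nat_lit 5) (nat_lit 12) (nat_lit 5) (nat_lit 10) (nat_lit 4) (nat_lit 387) (nat_lit 270) (nat_lit 123))) (XT.nd (nat_lit 78) (nat_lit 0) (nat_lit 0) (XT.lf (nat_lit 0) (nat_lit 18781392512) (nat_lit 228) (nat_lit 24539829729) (nat_lit 76) (nat_lit 24765282347) (nat_lit 9) (nat_lit 5)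 (nat_lit 12) (nat_lit 5) (nat_lit 10) (nat_lit 4) (nat_lit 388) (nat_lit 270) (nat_lit 122)) (XT.nd (nat_lit 78) (nat_lit 0) (nat_lit 0) (XT.lf (nat_lit 0) (nat_lit 23842788160) (nat_lit 228) (nat_lit 14288472675) (nat_lit 76) (nat_lit 31801683548) (nat_lit 9) (nat_lit 5) (nat_lit 12) (nat_lit 5) (nat_lit 10) (nat_lit 4) (nat_lit 389) (nat_lit 270) (nat_lit 121)) (XT.lf (nat_lit 0) (nat_lit 29051536476) (nat_lit 228) (nat_lit 3737311761) (nat_lit 76) (nat_lit 39046067875) (nat_lit 9) (nat_lit 5) (nat_lit 12) (nat_lit 5) (nat_lit 10) (nat_lit 4) (nat_lit 390) (nat_lit 270) (nat_lit 120))))) (XT.nd (nat_lit 234) (nat_lit 0) (nat_lit 0) (XT.nd (nat_lit 78) (nat_lit 0) (nat_lit 0) (XT.lf (nat_lit 0) (nat_lit 7264631604) (nat_lit 76) (nat_lit 27217389273) (nat_lit 152) (nat_lit 39309965852) (nat_lit 8) (nat_lit 5) (nat_lit 9) (nat_lit 5) (nat_lit 10) (nat_lit 4) (nat_lit 391) (nat_lit 270) (nat_lit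 119)) (XT.nd (nat_lit 78) (nat_lit 0) (nat_lit 0) (XT.lf (nat_lit 0) (nat_lit 18665806635) (nat_lit 76) (nat_lit 21443049696) (nat_lit 152) (nat_lit 35697913869) (nat_lit 8) (nat_lit 5) (nat_lit 9) (nat_lit 5) (nat_lit 10) (nat_lit 4) (nat_lit 392) (nat_lit 270) (nat_lit 118)) (XT.lf (nat_lit 0) (nat_lit 30401795690) (nat_lit 76) (nat_lit 15498523488) (nat_lit 152) (nat_lit 31981807046) (nat_lit 8) (nat_lit 5) (nat_lit 9) (nat_lit 5) (nat_lit 10) (nat_lit 4) (nat_lit 393) (nat_lit 270) (nat_lit 117)))) (XT.nd (nat_lit 31044) (nat_lit 0) (nat_lit 16340) (XT.lf (nat_lit 0) (nat_lit 42482853518) (nat_lit 76) (nat_lit 9378616402) (nat_lit 152) (nat_lit 28158398298) (nat_lit 8) (nat_lit 5) (nat_lit 9) (nat_lit 5) (nat_lit 10) (nat_lit 4) (nat_lit 394) (nat_lit 270) (nat_lit 116)) (XT.nd (nat_lit 78) (nat_lit 0) (nat_lit 0) (XT.lf (nat_lit 0) (nat_lit 1207971127) (nat_lit 684) (nat_lit 1140964441)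 (nat_lit 684) (nat_lit 1140964441) (nat_lit 223) (nat_lit 3) (nat_lit 232) (nat_lit 3) (nat_lit 232) (nat_lit 5) (nat_lit 271) (nat_lit 271) (nat_lit 238)) (XT.lf (nat_lit 76) (nat_lit 722034461) (nat_lit 0) (nat_lit 3374741794) (nat_lit 684) (nat_lit 2933075043) (nat_lit 224) (nat_lit 5) (nat_lit 223) (nat_lit 3) (nat_lit 232) (nat_lit 5) (nat_lit 272) (nat_lit 271) (nat_lit 237)))))) (XT.nd (nat_lit 390) (nat_lit 608) (nat_lit 0) (XT.nd (nat_lit 156) (nat_lit 0) (nat_lit 76) (XT.nd (nat_lit 78) (nat_lit 684) (nat_lit 0) (XT.lf (nat_lit 76) (nat_lit 3829218067) (nat_lit 0) (nat_lit 1957623435) (nat_lit 684) (nat_lit 1296005574) (nat_lit 224) (nat_lit 5) (nat_lit 223) (nat_lit 3) (nat_lit 232) (nat_lit 5) (nat_lit 273) (nat_lit 271) (nat_lit 236)) (XT.lf (nat_lit 0) (nat_lit 319381758) (nat_lit 684) (nat_lit 145713924) (nat_lit 760) (nat_lit 6674315203) (nat_lit 214) (nat_lit 5) (nat_lit 223)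 (nat_lit 3) (nat_lit 224) (nat_lit 5) (nat_lit 274) (nat_lit 271) (nat_lit 235))) (XT.nd (nat_lit 78) (nat_lit 0) (nat_lit 0) (XT.lf (nat_lit 0) (nat_lit 1936343296) (nat_lit 684) (nat_lit 4140080412) (nat_lit 760) (nat_lit 1121677691) (nat_lit 215) (nat_lit 5) (nat_lit 224) (nat_lit 5) (nat_lit 225) (nat_lit 5) (nat_lit 275) (nat_lit 271) (nat_lit 234)) (XT.nd (nat_lit 78) (nat_lit 0) (nat_lit 0) (XT.lf (nat_lit 0) (nat_lit 3548295290) (nat_lit 684) (nat_lit 937341226) (nat_lit 760) (nat_lit 2774705715) (nat_lit 215) (nat_lit 5) (nat_lit 224) (nat_lit 5) (nat_lit 225) (nat_lit 5) (nat_lit 276) (nat_lit 271) (nat_lit 233)) (XT.lf (nat_lit 76) (nat_lit 2373753821) (nat_lit 0) (nat_lit 2799796897) (nat_lit 760) (nat_lit 2152129916) (nat_lit 216) (nat_lit 5) (nat_lit 215) (nat_lit 5) (nat_lit 225) (nat_lit 5) (nat_lit 277) (nat_lit 271) (nat_lit 232))))) (XT.nd (nat_lit 234) (nat_lit 0) (nat_lit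 0) (XT.nd (nat_lit 78) (nat_lit 684) (nat_lit 0) (XT.lf (nat_lit 76) (nat_lit 5769683289) (nat_lit 0) (nat_lit 1030834283) (nat_lit 760) (nat_lit 594046489) (nat_lit 216) (nat_lit 5) (nat_lit 215) (nat_lit 5) (nat_lit 225) (nat_lit 5) (nat_lit 278) (nat_lit 271) (nat_lit 231)) (XT.nd (nat_lit 78) (nat_lit 0) (nat_lit 0) (XT.lf (nat_lit 0) (nat_lit 960799105) (nat_lit 760) (nat_lit 5681363233) (nat_lit 836) (nat_lit 824131385) (nat_lit 206) (nat_lit 5) (nat_lit 216) (nat_lit 5) (nat_lit 217) (nat_lit 5) (nat_lit 279) (nat_lit 271) (nat_lit 230)) (XT.lf (nat_lit 0) (nat_lit 2523046380) (nat_lit 760) (nat_lit 2261241420) (nat_lit 836) (nat_lit 2756688909) (nat_lit 206) (nat_lit 5) (nat_lit 216) (nat_lit 5) (nat_lit 217) (nat_lit 5) (nat_lit 280) (nat_lit 271) (nat_lit 229)))) (XT.nd (nat_lit 78) (nat_lit 0) (nat_lit 0) (XT.lf (nat_lit 76) (nat_lit 1251287030) (nat_lit 0) (nat_lit 2840396560) (nat_lit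 836) (nat_lit 3527585060) (nat_lit 207) (nat_lit 5) (nat_lit 206) (nat_lit 5) (nat_lit 217) (nat_lit 5) (nat_lit 281) (nat_lit 271) (nat_lit 228)) (XT.nd (nat_lit 78) (nat_lit 0) (nat_lit 76) (XT.lf (nat_lit 76) (nat_lit 4881269787) (nat_lit 0) (nat_lit 797638434) (nat_lit 836) (nat_lit 2022004928) (nat_lit 207) (nat_lit 5) (nat_lit 206) (nat_lit 5) (nat_lit 217) (nat_lit 5) (nat_lit 282) (nat_lit 271) (nat_lit 227)) (XT.lf (nat_lit 76) (nat_lit 803185072) (nat_lit 0) (nat_lit 6481190653) (nat_lit 836) (nat_lit 501657767) (nat_lit 208) (nat_lit 5) (nat_lit 207) (nat_lit 5) (nat_lit 218) (nat_lit 5) (nat_lit 283) (nat_lit 271) (nat_lit 226))))))) (XT.nd (nat_lit 858) (nat_lit 3268) (nat_lit 0) (XT.nd (nat_lit 390) (nat_lit 3040) (nat_lit 0) (XT.nd (nat_lit 156) (nat_lit 760) (nat_lit 0) (XT.nd (nat_lit 78) (nat_lit 0) (nat_lit 0) (XT.lf (nat_lit 0) (nat_lit 1031024591) (nat_lit 836) (nat_lit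 3334611501) (nat_lit 912) (nat_lit 3508276590) (nat_lit 196) (nat_lit 5) (nat_lit 207) (nat_lit 5) (nat_lit 208) (nat_lit 5) (nat_lit 284) (nat_lit 271) (nat_lit 225)) (XT.lf (nat_lit 76) (nat_lit 390931669) (nat_lit 0) (nat_lit 2164703537) (nat_lit 912) (nat_lit 5410096080) (nat_lit 197) (nat_lit 5) (nat_lit 196) (nat_lit 5) (nat_lit 208) (nat_lit 5) (nat_lit 285) (nat_lit 271) (nat_lit 224))) (XT.nd (nat_lit 78) (nat_lit 836) (nat_lit 0) (XT.lf (nat_lit 0) (nat_lit 4114422460) (nat_lit 836) (nat_lit 3800120926) (nat_lit 76) (nat_lit 146237002) (nat_lit 197) (nat_lit 5) (nat_lit 208) (nat_lit 5) (nat_lit 198) (nat_lit 5) (nat_lit 286) (nat_lit 271) (nat_lit 223)) (XT.nd (nat_lit 78) (nat_lit 0) (nat_lit 0) (XT.lf (nat_lit 0) (nat_lit 31932499) (nat_lit 836) (nat_lit 5664585281) (nat_lit 912) (nat_lit 2462992179) (nat_lit 186) (nat_lit 5) (nat_lit 197) (nat_lit 5) (nat_lit 198) (nat_lit 5) (nat_lit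 287) (nat_lit 271) (nat_lit 222)) (XT.lf (nat_lit 0) (nat_lit 4022133932) (nat_lit 836) (nat_lit 3298103275) (nat_lit 912) (nat_lit 941261054) (nat_lit 186) (nat_lit 5) (nat_lit 197) (nat_lit 5) (nat_lit 198) (nat_lit 5) (nat_lit 288) (nat_lit 271) (nat_lit 221))))) (XT.nd (nat_lit 234) (nat_lit 2052) (nat_lit 0) (XT.nd (nat_lit 78) (nat_lit 912) (nat_lit 0) (XT.lf (nat_lit 0) (nat_lit 570438499) (nat_lit 912) (nat_lit 275204528) (nat_lit 76) (nat_lit 7522141287) (nat_lit 185) (nat_lit 5) (nat_lit 197) (nat_lit 5) (nat_lit 186) (nat_lit 5) (nat_lit 289) (nat_lit 271) (nat_lit 220)) (XT.nd (nat_lit 78) (nat_lit 0) (nat_lit 0) (XT.lf (nat_lit 0) (nat_lit 2119974340) (nat_lit 988) (nat_lit 4654123633) (nat_lit 76) (nat_lit 1702650636) (nat_lit 173) (nat_lit 5) (nat_lit 186) (nat_lit 5) (nat_lit 174) (nat_lit 5) (nat_lit 290) (nat_lit 271) (nat_lit 219)) (XT.lf (nat_lit 0) (nat_lit 3685960925) (nat_lit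 988) (nat_lit 583031974) (nat_lit 76) (nat_lit 4320998105) (nat_lit 173) (nat_lit 5) (nat_lit 186) (nat_lit 5) (nat_lit 174) (nat_lit 5) (nat_lit 291) (nat_lit 271) (nat_lit 218)))) (XT.nd (nat_lit 78) (nat_lit 1064) (nat_lit 0) (XT.lf (nat_lit 0) (nat_lit 3647619082) (nat_lit 988) (nat_lit 1646357020) (nat_lit 1064) (nat_lit 3412908061) (nat_lit 160) (nat_lit 5) (nat_lit 173) (nat_lit 5) (nat_lit 174) (nat_lit 5) (nat_lit 292) (nat_lit 271) (nat_lit 217)) (XT.nd (nat_lit 78) (nat_lit 1064) (nat_lit 0) (XT.lf (nat_lit 0) (nat_lit 6927203722) (nat_lit 1064) (nat_lit 854918341) (nat_lit 76) (nat_lit 1045954799) (nat_lit 160) (nat_lit 5) (nat_lit 174) (nat_lit 5) (nat_lit 161) (nat_lit 5) (nat_lit 293) (nat_lit 271) (nat_lit 216)) (XT.lf (nat_lit 0) (nat_lit 3493692064) (nat_lit 1064) (nat_lit 5127644755) (nat_lit 1140) (nat_lit 331310200) (nat_lit 146) (nat_lit 5) (nat_lit 160) (nat_lit 5) (nat_lit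 161) (nat_lit 5) (nat_lit 294) (nat_lit 271) (nat_lit 215)))))) (XT.nd (nat_lit 468) (nat_lit 1444) (nat_lit 0) (XT.nd (nat_lit 234) (nat_lit 1064) (nat_lit 0) (XT.nd (nat_lit 78) (nat_lit 684) (nat_lit 0) (XT.lf (nat_lit 0) (nat_lit 1231323594) (nat_lit 1140) (nat_lit 1137102990) (nat_lit 76) (nat_lit 6713118323) (nat_lit 145) (nat_lit 5) (nat_lit 160) (nat_lit 5) (nat_lit 146) (nat_lit 5) (nat_lit 295) (nat_lit 271) (nat_lit 214)) (XT.nd (nat_lit 78) (nat_lit 0) (nat_lit 0) (XT.lf (nat_lit 0) (nat_lit 2834691772) (nat_lit 760) (nat_lit 5876263703) (nat_lit 76) (nat_lit 503330958) (nat_lit 136) (nat_lit 5) (nat_lit 146) (nat_lit 5) (nat_lit 137) (nat_lit 5) (nat_lit 296) (nat_lit 271) (nat_lit 213)) (XT.lf (nat_lit 0) (nat_lit 4485426635) (nat_lit 760) (nat_lit 1437636133) (nat_lit 76) (nat_lit 3428057371) (nat_lit 136) (nat_lit 5) (nat_lit 146) (nat_lit 5) (nat_lit 137) (nat_lit 5) (nat_lit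 297) (nat_lit 271) (nat_lit 212)))) (XT.nd (nat_lit 78) (nat_lit 532) (nat_lit 0) (XT.lf (nat_lit 0) (nat_lit 3162741827) (nat_lit 532) (nat_lit 3018605744) (nat_lit 608) (nat_lit 3310926708) (nat_lit 129) (nat_lit 5) (nat_lit 136) (nat_lit 5) (nat_lit 137) (nat_lit 5) (nat_lit 298) (nat_lit 271) (nat_lit 211)) (XT.nd (nat_lit 78) (nat_lit 532) (nat_lit 0) (XT.lf (nat_lit 0) (nat_lit 7897801093) (nat_lit 532) (nat_lit 10820665) (nat_lit 608) (nat_lit 1729709875) (nat_lit 129) (nat_lit 5) (nat_lit 136) (nat_lit 5) (nat_lit 137) (nat_lit 5) (nat_lit 299) (nat_lit 271) (nat_lit 210)) (XT.lf (nat_lit 0) (nat_lit 2981721153) (nat_lit 532) (nat_lit 6731292586) (nat_lit 608) (nat_lit 75078425) (nat_lit 122) (nat_lit 5) (nat_lit 129) (nat_lit 5) (nat_lit 130) (nat_lit 5) (nat_lit 300) (nat_lit 271) (nat_lit 209))))) (XT.nd (nat_lit 234) (nat_lit 912) (nat_lit 0) (XT.nd (nat_lit 78) (nat_lit 456) (nat_lit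 0) (XT.lf (nat_lit 0) (nat_lit 1582470668) (nat_lit 608) (nat_lit 2109774494) (nat_lit 76) (nat_lit 6250154252) (nat_lit 121) (nat_lit 5) (nat_lit 129) (nat_lit 5) (nat_lit 122) (nat_lit 5) (nat_lit 301) (nat_lit 271) (nat_lit 208)) (XT.nd (nat_lit 78) (nat_lit 0) (nat_lit 0) (XT.lf (nat_lit 0) (nat_lit 2748241668) (nat_lit 456) (nat_lit 534581309) (nat_lit 532) (nat_lit 6818726647) (nat_lit 115) (nat_lit 5) (nat_lit 121) (nat_lit 5) (nat_lit 122) (nat_lit 5) (nat_lit 302) (nat_lit 271) (nat_lit 207)) (XT.lf (nat_lit 0) (nat_lit 5050605718) (nat_lit 532) (nat_lit 2528970357) (nat_lit 76) (nat_lit 2685477144) (nat_lit 115) (nat_lit 5) (nat_lit 122) (nat_lit 5) (nat_lit 116) (nat_lit 5) (nat_lit 303) (nat_lit 271) (nat_lit 206)))) (XT.nd (nat_lit 78) (nat_lit 456) (nat_lit 0) (XT.lf (nat_lit 0) (nat_lit 2450540278) (nat_lit 456) (nat_lit 4419419050) (nat_lit 532) (nat_lit 3563615865) (nat_lit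 109) (nat_lit 5) (nat_lit 115) (nat_lit 5) (nat_lit 116) (nat_lit 5) (nat_lit 304) (nat_lit 271) (nat_lit 205)) (XT.nd (nat_lit 78) (nat_lit 456) (nat_lit 0) (XT.lf (nat_lit 0) (nat_lit 7599509112) (nat_lit 456) (nat_lit 1140187971) (nat_lit 532) (nat_lit 1867649008) (nat_lit 109) (nat_lit 5) (nat_lit 115) (nat_lit 5) (nat_lit 116) (nat_lit 5) (nat_lit 305) (nat_lit 271) (nat_lit 204)) (XT.lf (nat_lit 0) (nat_lit 2104418528) (nat_lit 456) (nat_lit 8573957801) (nat_lit 532) (nat_lit 107633715) (nat_lit 103) (nat_lit 5) (nat_lit 109) (nat_lit 5) (nat_lit 110) (nat_lit 5) (nat_lit 306) (nat_lit 271) (nat_lit 203))))))))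
noncomputable def xc143 : XT := (XT.nd (nat_lit 1794) (nat_lit 1976) (nat_lit 0) (XT.nd (nat_lit 858) (nat_lit 1596) (nat_lit 0) (XT.nd (nat_lit 390) (nat_lit 1216) (nat_lit 0) (XT.nd (nat_lit 156) (nat_lit 380) (nat_lit 0) (XT.nd (nat_lit 78) (nat_lit 456) (nat_lit 0) (XT.lf (nat_lit 0) (nat_lit 1685179883) (nat_lit 532) (nat_lit 3597481305) (nat_lit 76) (nat_lit 5686544482) (nat_lit 102) (nat_lit 5) (nat_lit 109) (nat_lit 5) (nat_lit 103) (nat_lit 5) (nat_lit 307) (nat_lit 271) (nat_lit 202)) (XT.lf (nat_lit 0) (nat_lit 1638925116) (nat_lit 456) (nat_lit 1878588570) (nat_lit 532) (nat_lit 7640774392) (nat_lit 96) (nat_lit 5) (nat_lit 102) (nat_lit 5) (nat_lit 103) (nat_lit 5) (nat_lit 308) (nat_lit 271) (nat_lit 201))) (XT.nd (nat_lit 78) (nat_lit 380) (nat_lit 0) (XT.lf (nat_lit 0) (nat_lit 5429776287) (nat_lit 532) (nat_lit 4293471923) (nat_lit 76) (nat_lit 1629104101) (nat_lit 96) (nat_lit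 5) (nat_lit 103) (nat_lit 5) (nat_lit 97) (nat_lit 5) (nat_lit 309) (nat_lit 271) (nat_lit 200)) (XT.nd (nat_lit 78) (nat_lit 0) (nat_lit 0) (XT.lf (nat_lit 0) (nat_lit 1060531393) (nat_lit 380) (nat_lit 6341093083) (nat_lit 456) (nat_lit 4150603884) (nat_lit 91) (nat_lit 5) (nat_lit 96) (nat_lit 5) (nat_lit 97) (nat_lit 5) (nat_lit 310) (nat_lit 271) (nat_lit 199)) (XT.lf (nat_lit 0) (nat_lit 6632708983) (nat_lit 380) (nat_lit 2817179425) (nat_lit 456) (nat_lit 2307749254) (nat_lit 91) (nat_lit 5) (nat_lit 96) (nat_lit 5) (nat_lit 97) (nat_lit 5) (nat_lit 311) (nat_lit 271) (nat_lit 198))))) (XT.nd (nat_lit 234) (nat_lit 760) (nat_lit 0) (XT.nd (nat_lit 78) (nat_lit 76) (nat_lit 0) (XT.lf (nat_lit 0) (nat_lit 371947713) (nat_lit 380) (nat_lit 11173661709) (nat_lit 456) (nat_lit 424072729) (nat_lit 86) (nat_lit 5) (nat_lit 91) (nat_lit 5) (nat_lit 92) (nat_lit 5) (nat_lit 312) (nat_lit 271)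 (nat_lit 197)) (XT.nd (nat_lit 78) (nat_lit 0) (nat_lit 0) (XT.lf (nat_lit 0) (nat_lit 1541463101) (nat_lit 456) (nat_lit 6121325925) (nat_lit 76) (nat_lit 4523263850) (nat_lit 85) (nat_lit 5) (nat_lit 91) (nat_lit 5) (nat_lit 86) (nat_lit 5) (nat_lit 313) (nat_lit 271) (nat_lit 196)) (XT.lf (nat_lit 0) (nat_lit 3532953085) (nat_lit 456) (nat_lit 514530535) (nat_lit 76) (nat_lit 8362088463) (nat_lit 85) (nat_lit 5) (nat_lit 91) (nat_lit 5) (nat_lit 86) (nat_lit 5) (nat_lit 314) (nat_lit 271) (nat_lit 195)))) (XT.nd (nat_lit 78) (nat_lit 380) (nat_lit 0) (XT.lf (nat_lit 0) (nat_lit 5335746959) (nat_lit 380) (nat_lit 275956050) (nat_lit 456) (nat_lit 7027315654) (nat_lit 80) (nat_lit 5) (nat_lit 85) (nat_lit 5) (nat_lit 86) (nat_lit 5) (nat_lit 315) (nat_lit 271) (nat_lit 194)) (XT.nd (nat_lit 78) (nat_lit 380) (nat_lit 0) (XT.lf (nat_lit 0) (nat_lit 7769344561) (nat_lit 456) (nat_lit 1567108495)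 (nat_lit 76) (nat_lit 3538445587) (nat_lit 80) (nat_lit 5) (nat_lit 86) (nat_lit 5) (nat_lit 81) (nat_lit 5) (nat_lit 316) (nat_lit 271) (nat_lit 193)) (XT.lf (nat_lit 0) (nat_lit 4395781767) (nat_lit 380) (nat_lit 5618195276) (nat_lit 456) (nat_lit 3103254669) (nat_lit 75) (nat_lit 5) (nat_lit 80) (nat_lit 5) (nat_lit 81) (nat_lit 5) (nat_lit 317) (nat_lit 271) (nat_lit 192)))))) (XT.nd (nat_lit 468) (nat_lit 608) (nat_lit 0) (XT.nd (nat_lit 234) (nat_lit 608) (nat_lit 0) (XT.nd (nat_lit 78) (nat_lit 380) (nat_lit 0) (XT.lf (nat_lit 0) (nat_lit 10541558248) (nat_lit 380) (nat_lit 1777881033) (nat_lit 456) (nat_lit 1047634011) (nat_lit 75) (nat_lit 5) (nat_lit 80) (nat_lit 5) (nat_lit 81) (nat_lit 5) (nat_lit 318) (nat_lit 271) (nat_lit 191)) (XT.nd (nat_lit 78) (nat_lit 0) (nat_lit 0) (XT.lf (nat_lit 0) (nat_lit 1079596196) (nat_lit 380) (nat_lit 10372043846) (nat_lit 76) (nat_lit 2171577962)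 (nat_lit 70) (nat_lit 5) (nat_lit 75) (nat_lit 5) (nat_lit 71) (nat_lit 5) (nat_lit 319) (nat_lit 271) (nat_lit 190)) (XT.lf (nat_lit 0) (nat_lit 3274382460) (nat_lit 380) (nat_lit 4374504544) (nat_lit 76) (nat_lit 6237144579) (nat_lit 70) (nat_lit 5) (nat_lit 75) (nat_lit 5) (nat_lit 71) (nat_lit 5) (nat_lit 320) (nat_lit 271) (nat_lit 189)))) (XT.nd (nat_lit 78) (nat_lit 304) (nat_lit 0) (XT.lf (nat_lit 0) (nat_lit 1810979387) (nat_lit 304) (nat_lit 3720449047) (nat_lit 380) (nat_lit 8625447075) (nat_lit 66) (nat_lit 5) (nat_lit 70) (nat_lit 5) (nat_lit 71) (nat_lit 5) (nat_lit 321) (nat_lit 271) (nat_lit 188)) (XT.nd (nat_lit 78) (nat_lit 304) (nat_lit 0) (XT.lf (nat_lit 0) (nat_lit 7883226887) (nat_lit 380) (nat_lit 6194035526) (nat_lit 76) (nat_lit 357808407) (nat_lit 66) (nat_lit 5) (nat_lit 71) (nat_lit 5) (nat_lit 67) (nat_lit 5) (nat_lit 322) (nat_lit 271) (nat_lit 187)) (XT.lf (nat_lit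 0) (nat_lit 80269034) (nat_lit 304) (nat_lit 10242818588) (nat_lit 380) (nat_lit 4398035334) (nat_lit 62) (nat_lit 5) (nat_lit 66) (nat_lit 5) (nat_lit 67) (nat_lit 5) (nat_lit 323) (nat_lit 271) (nat_lit 186))))) (XT.nd (nat_lit 234) (nat_lit 228) (nat_lit 0) (XT.nd (nat_lit 78) (nat_lit 380) (nat_lit 0) (XT.lf (nat_lit 0) (nat_lit 6643195483) (nat_lit 304) (nat_lit 6235726842) (nat_lit 380) (nat_lit 2135586148) (nat_lit 62) (nat_lit 5) (nat_lit 66) (nat_lit 5) (nat_lit 67) (nat_lit 5) (nat_lit 324) (nat_lit 271) (nat_lit 185)) (XT.nd (nat_lit 78) (nat_lit 304) (nat_lit 0) (XT.lf (nat_lit 0) (nat_lit 171519337) (nat_lit 380) (nat_lit 1941782100) (nat_lit 76) (nat_lit 13203953616) (nat_lit 61) (nat_lit 5) (nat_lit 66) (nat_lit 5) (nat_lit 62) (nat_lit 5) (nat_lit 325) (nat_lit 271) (nat_lit 184)) (XT.lf (nat_lit 0) (nat_lit 2552592255) (nat_lit 380) (nat_lit 10922525814) (nat_lit 76) (nat_lit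 2151933485) (nat_lit 57) (nat_lit 5) (nat_lit 62) (nat_lit 5) (nat_lit 58) (nat_lit 5) (nat_lit 326) (nat_lit 271) (nat_lit 183)))) (XT.nd (nat_lit 78) (nat_lit 228) (nat_lit 0) (XT.lf (nat_lit 0) (nat_lit 5027214508) (nat_lit 380) (nat_lit 4402378597) (nat_lit 76) (nat_lit 6515916568) (nat_lit 57) (nat_lit 5) (nat_lit 62) (nat_lit 5) (nat_lit 58) (nat_lit 5) (nat_lit 327) (nat_lit 271) (nat_lit 182)) (XT.nd (nat_lit 78) (nat_lit 0) (nat_lit 0) (XT.lf (nat_lit 0) (nat_lit 2333931570) (nat_lit 228) (nat_lit 5246512083) (nat_lit 304) (nat_lit 8692977167) (nat_lit 54) (nat_lit 5) (nat_lit 57) (nat_lit 5) (nat_lit 58) (nat_lit 5) (nat_lit 328) (nat_lit 271) (nat_lit 181)) (XT.lf (nat_lit 0) (nat_lit 9337835561) (nat_lit 228) (nat_lit 899110958) (nat_lit 304) (nat_lit 6373451923) (nat_lit 54) (nat_lit 5) (nat_lit 57) (nat_lit 5) (nat_lit 58) (nat_lit 5) (nat_lit 329) (nat_lit 271) (nat_lit 180)))))))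 (XT.nd (nat_lit 858) (nat_lit 836) (nat_lit 0) (XT.nd (nat_lit 390) (nat_lit 532) (nat_lit 0) (XT.nd (nat_lit 156) (nat_lit 304) (nat_lit 0) (XT.nd (nat_lit 78) (nat_lit 304) (nat_lit 0) (XT.lf (nat_lit 0) (nat_lit 12990219550) (nat_lit 304) (nat_lit 464530282) (nat_lit 76) (nat_lit 3502251898) (nat_lit 54) (nat_lit 5) (nat_lit 58) (nat_lit 5) (nat_lit 55) (nat_lit 5) (nat_lit 330) (nat_lit 271) (nat_lit 179)) (XT.lf (nat_lit 0) (nat_lit 6644716383) (nat_lit 304) (nat_lit 9237328494) (nat_lit 380) (nat_lit 1430307370) (nat_lit 50) (nat_lit 5) (nat_lit 54) (nat_lit 5) (nat_lit 55) (nat_lit 5) (nat_lit 331) (nat_lit 271) (nat_lit 178))) (XT.nd (nat_lit 78) (nat_lit 228) (nat_lit 0) (XT.lf (nat_lit 0) (nat_lit 1147180888) (nat_lit 380) (nat_lit 3736784204) (nat_lit 76) (nat_lit 12794443731) (nat_lit 49) (nat_lit 5) (nat_lit 54) (nat_lit 5) (nat_lit 50) (nat_lit 5) (nat_lit 332) (nat_lit 271) (nat_lit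 177)) (XT.nd (nat_lit 78) (nat_lit 0) (nat_lit 0) (XT.lf (nat_lit 0) (nat_lit 3431577037) (nat_lit 228) (nat_lit 358395317) (nat_lit 304) (nat_lit 14264573511) (nat_lit 46) (nat_lit 5) (nat_lit 49) (nat_lit 5) (nat_lit 50) (nat_lit 5) (nat_lit 333) (nat_lit 271) (nat_lit 176)) (XT.lf (nat_lit 0) (nat_lit 6575443268) (nat_lit 304) (nat_lit 7614408666) (nat_lit 76) (nat_lit 4250237873) (nat_lit 46) (nat_lit 5) (nat_lit 50) (nat_lit 5) (nat_lit 47) (nat_lit 5) (nat_lit 334) (nat_lit 271) (nat_lit 175))))) (XT.nd (nat_lit 234) (nat_lit 304) (nat_lit 0) (XT.nd (nat_lit 78) (nat_lit 228) (nat_lit 0) (XT.lf (nat_lit 0) (nat_lit 9432420366) (nat_lit 304) (nat_lit 421884917) (nat_lit 76) (nat_lit 8983280465) (nat_lit 46) (nat_lit 5) (nat_lit 50) (nat_lit 5) (nat_lit 47) (nat_lit 5) (nat_lit 335) (nat_lit 271) (nat_lit 174)) (XT.nd (nat_lit 78) (nat_lit 0) (nat_lit 0) (XT.lf (nat_lit 0) (nat_lit 7102936131)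 (nat_lit 228) (nat_lit 5325296559) (nat_lit 304) (nat_lit 6817203345) (nat_lit 43) (nat_lit 5) (nat_lit 46) (nat_lit 5) (nat_lit 47) (nat_lit 5) (nat_lit 336) (nat_lit 271) (nat_lit 173)) (XT.lf (nat_lit 0) (nat_lit 14840284250) (nat_lit 228) (nat_lit 662974618) (nat_lit 304) (nat_lit 4162605346) (nat_lit 43) (nat_lit 5) (nat_lit 46) (nat_lit 5) (nat_lit 47) (nat_lit 5) (nat_lit 337) (nat_lit 271) (nat_lit 172)))) (XT.nd (nat_lit 78) (nat_lit 76) (nat_lit 0) (XT.lf (nat_lit 0) (nat_lit 2702167304) (nat_lit 228) (nat_lit 16019581141) (nat_lit 304) (nat_lit 1375642326) (nat_lit 40) (nat_lit 5) (nat_lit 43) (nat_lit 5) (nat_lit 44) (nat_lit 5) (nat_lit 338) (nat_lit 271) (nat_lit 171)) (XT.nd (nat_lit 78) (nat_lit 0) (nat_lit 0) (XT.lf (nat_lit 0) (nat_lit 1507037884) (nat_lit 304) (nat_lit 10028869135) (nat_lit 76) (nat_lit 9004307261) (nat_lit 39) (nat_lit 5) (nat_lit 43) (nat_lit 5) (nat_lit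 40) (nat_lit 5) (nat_lit 339) (nat_lit 271) (nat_lit 170)) (XT.lf (nat_lit 0) (nat_lit 4434475953) (nat_lit 304) (nat_lit 2476229616) (nat_lit 76) (nat_lit 14085650575) (nat_lit 39) (nat_lit 5) (nat_lit 43) (nat_lit 5) (nat_lit 40) (nat_lit 5) (nat_lit 340) (nat_lit 271) (nat_lit 169)))))) (XT.nd (nat_lit 468) (nat_lit 152) (nat_lit 0) (XT.nd (nat_lit 234) (nat_lit 456) (nat_lit 0) (XT.nd (nat_lit 78) (nat_lit 0) (nat_lit 0) (XT.lf (nat_lit 0) (nat_lit 5387650464) (nat_lit 228) (nat_lit 2100212501) (nat_lit 304) (nat_lit 13977194992) (nat_lit 36) (nat_lit 5) (nat_lit 39) (nat_lit 5) (nat_lit 40) (nat_lit 5) (nat_lit 341) (nat_lit 271) (nat_lit 168)) (XT.nd (nat_lit 78) (nat_lit 0) (nat_lit 0) (XT.lf (nat_lit 0) (nat_lit 10672018409) (nat_lit 304) (nat_lit 8457178784) (nat_lit 76) (nat_lit 2817467527) (nat_lit 36) (nat_lit 5) (nat_lit 40) (nat_lit 5) (nat_lit 37) (nat_lit 5) (nat_lit 342) (nat_lit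 271) (nat_lit 167)) (XT.lf (nat_lit 0) (nat_lit 13959360724) (nat_lit 304) (nat_lit 649164238) (nat_lit 76) (nat_lit 7833983209) (nat_lit 36) (nat_lit 5) (nat_lit 40) (nat_lit 5) (nat_lit 37) (nat_lit 5) (nat_lit 343) (nat_lit 271) (nat_lit 166)))) (XT.nd (nat_lit 78) (nat_lit 304) (nat_lit 0) (XT.lf (nat_lit 0) (nat_lit 7520397246) (nat_lit 152) (nat_lit 9884467229) (nat_lit 228) (nat_lit 5546594031) (nat_lit 34) (nat_lit 5) (nat_lit 36) (nat_lit 5) (nat_lit 37) (nat_lit 5) (nat_lit 344) (nat_lit 271) (nat_lit 165)) (XT.nd (nat_lit 78) (nat_lit 304) (nat_lit 0) (XT.lf (nat_lit 0) (nat_lit 15929099894) (nat_lit 152) (nat_lit 5018625513) (nat_lit 228) (nat_lit 2528149477) (nat_lit 34) (nat_lit 5) (nat_lit 36) (nat_lit 5) (nat_lit 37) (nat_lit 5) (nat_lit 345) (nat_lit 271) (nat_lit 164)) (XT.lf (nat_lit 0) (nat_lit 560438639) (nat_lit 228) (nat_lit 2128079) (nat_lit 304) (nat_lit 23453514254)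 (nat_lit 30) (nat_lit 5) (nat_lit 33) (nat_lit 5) (nat_lit 34) (nat_lit 5) (nat_lit 346) (nat_lit 271) (nat_lit 163))))) (XT.nd (nat_lit 234) (nat_lit 0) (nat_lit 0) (XT.nd (nat_lit 78) (nat_lit 152) (nat_lit 0) (XT.lf (nat_lit 0) (nat_lit 3809581850) (nat_lit 304) (nat_lit 15599155442) (nat_lit 76) (nat_lit 5159589121) (nat_lit 30) (nat_lit 5) (nat_lit 34) (nat_lit 5) (nat_lit 31) (nat_lit 5) (nat_lit 347) (nat_lit 271) (nat_lit 162)) (XT.nd (nat_lit 78) (nat_lit 152) (nat_lit 0) (XT.lf (nat_lit 0) (nat_lit 7142165162) (nat_lit 304) (nat_lit 7525524185) (nat_lit 76) (nat_lit 10469820505) (nat_lit 30) (nat_lit 5) (nat_lit 34) (nat_lit 5) (nat_lit 31) (nat_lit 5) (nat_lit 348) (nat_lit 271) (nat_lit 161)) (XT.lf (nat_lit 0) (nat_lit 787697334) (nat_lit 152) (nat_lit 9783082659) (nat_lit 228) (nat_lit 15153122102) (nat_lit 28) (nat_lit 5) (nat_lit 30) (nat_lit 5) (nat_lit 31) (nat_lit 5) (nat_lit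 349) (nat_lit 271) (nat_lit 160)))) (XT.nd (nat_lit 78) (nat_lit 0) (nat_lit 0) (XT.lf (nat_lit 0) (nat_lit 9486768248) (nat_lit 152) (nat_lit 4680124489) (nat_lit 228) (nat_lit 12159068670) (nat_lit 28) (nat_lit 5) (nat_lit 30) (nat_lit 5) (nat_lit 31) (nat_lit 5) (nat_lit 350) (nat_lit 271) (nat_lit 159)) (XT.nd (nat_lit 78) (nat_lit 0) (nat_lit 0) (XT.lf (nat_lit 0) (nat_lit 17865341815) (nat_lit 228) (nat_lit 8522386084) (nat_lit 76) (nat_lit 558535074) (nat_lit 28) (nat_lit 5) (nat_lit 31) (nat_lit 5) (nat_lit 29) (nat_lit 5) (nat_lit 351) (nat_lit 271) (nat_lit 158)) (XT.lf (nat_lit 0) (nat_lit 21710321874) (nat_lit 228) (nat_lit 19479416) (nat_lit 76) (nat_lit 5854318626) (nat_lit 28) (nat_lit 5) (nat_lit 31) (nat_lit 5) (nat_lit 29) (nat_lit 5) (nat_lit 352) (nat_lit 271) (nat_lit 157))))))))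
noncomputable def xc144 : XT := (XT.nd (nat_lit 1716) (nat_lit 532) (nat_lit 0) (XT.nd (nat_lit 858) (nat_lit 304) (nat_lit 0) (XT.nd (nat_lit 390) (nat_lit 304) (nat_lit 0) (XT.nd (nat_lit 156) (nat_lit 152) (nat_lit 0) (XT.nd (nat_lit 78) (nat_lit 76) (nat_lit 0) (XT.lf (nat_lit 0) (nat_lit 8895528590) (nat_lit 152) (nat_lit 16850185057) (nat_lit 228) (nat_lit 2493160306) (nat_lit 26) (nat_lit 5) (nat_lit 28) (nat_lit 5) (nat_lit 29) (nat_lit 5) (nat_lit 353) (nat_lit 271) (nat_lit 156)) (XT.lf (nat_lit 0) (nat_lit 959383291) (nat_lit 228) (nat_lit 10861013381) (nat_lit 76) (nat_lit 17092907749) (nat_lit 25) (nat_lit 5) (nat_lit 28) (nat_lit 5) (nat_lit 26) (nat_lit 5) (nat_lit 354) (nat_lit 271) (nat_lit 155))) (XT.nd (nat_lit 78) (nat_lit 152) (nat_lit 0) (XT.lf (nat_lit 0) (nat_lit 4455281505) (nat_lit 228) (nat_lit 2165038903) (nat_lit 76) (nat_lit 22987222333) (nat_lit 25) (nat_lit 5)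 (nat_lit 28) (nat_lit 5) (nat_lit 26) (nat_lit 5) (nat_lit 355) (nat_lit 271) (nat_lit 154)) (XT.nd (nat_lit 78) (nat_lit 0) (nat_lit 0) (XT.lf (nat_lit 0) (nat_lit 6911000793) (nat_lit 152) (nat_lit 1201671514) (nat_lit 228) (nat_lit 22208249213) (nat_lit 23) (nat_lit 5) (nat_lit 25) (nat_lit 5) (nat_lit 26) (nat_lit 5) (nat_lit 356) (nat_lit 271) (nat_lit 153)) (XT.lf (nat_lit 0) (nat_lit 11934226241) (nat_lit 228) (nat_lit 14809422778) (nat_lit 76) (nat_lit 4310430835) (nat_lit 23) (nat_lit 5) (nat_lit 26) (nat_lit 5) (nat_lit 24) (nat_lit 5) (nat_lit 357) (nat_lit 271) (nat_lit 152))))) (XT.nd (nat_lit 234) (nat_lit 152) (nat_lit 0) (XT.nd (nat_lit 78) (nat_lit 152) (nat_lit 0) (XT.lf (nat_lit 0) (nat_lit 15872871627) (nat_lit 228) (nat_lit 5978113069) (nat_lit 76) (nat_lit 9958185999) (nat_lit 23) (nat_lit 5) (nat_lit 26) (nat_lit 5) (nat_lit 24) (nat_lit 5) (nat_lit 358) (nat_lit 271)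 (nat_lit 151)) (XT.nd (nat_lit 78) (nat_lit 0) (nat_lit 0) (XT.lf (nat_lit 0) (nat_lit 3165037562) (nat_lit 152) (nat_lit 16785885515) (nat_lit 228) (nat_lit 12635364564) (nat_lit 21) (nat_lit 5) (nat_lit 23) (nat_lit 5) (nat_lit 24) (nat_lit 5) (nat_lit 359) (nat_lit 271) (nat_lit 150)) (XT.lf (nat_lit 0) (nat_lit 12690314203) (nat_lit 152) (nat_lit 11512317380) (nat_lit 228) (nat_lit 9182557510) (nat_lit 21) (nat_lit 5) (nat_lit 23) (nat_lit 5) (nat_lit 24) (nat_lit 5) (nat_lit 360) (nat_lit 271) (nat_lit 149)))) (XT.nd (nat_lit 78) (nat_lit 152) (nat_lit 0) (XT.lf (nat_lit 0) (nat_lit 22487063737) (nat_lit 152) (nat_lit 6086039542) (nat_lit 228) (nat_lit 5635228111) (nat_lit 21) (nat_lit 5) (nat_lit 23) (nat_lit 5) (nat_lit 24) (nat_lit 5) (nat_lit 361) (nat_lit 271) (nat_lit 148)) (XT.nd (nat_lit 78) (nat_lit 152) (nat_lit 0) (XT.lf (nat_lit 0) (nat_lit 32563846432) (nat_lit 152) (nat_lit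 502310593) (nat_lit 228) (nat_lit 1990276760) (nat_lit 21) (nat_lit 5) (nat_lit 23) (nat_lit 5) (nat_lit 24) (nat_lit 5) (nat_lit 362) (nat_lit 271) (nat_lit 147)) (XT.lf (nat_lit 0) (nat_lit 1840931110) (nat_lit 152) (nat_lit 28857610717) (nat_lit 76) (nat_lit 5227598101) (nat_lit 19) (nat_lit 5) (nat_lit 21) (nat_lit 5) (nat_lit 20) (nat_lit 5) (nat_lit 363) (nat_lit 271) (nat_lit 146)))))) (XT.nd (nat_lit 390) (nat_lit 152) (nat_lit 0) (XT.nd (nat_lit 156) (nat_lit 152) (nat_lit 0) (XT.nd (nat_lit 78) (nat_lit 0) (nat_lit 0) (XT.lf (nat_lit 0) (nat_lit 5769154107) (nat_lit 152) (nat_lit 19892249594) (nat_lit 76) (nat_lit 11159288968) (nat_lit 19) (nat_lit 5) (nat_lit 21) (nat_lit 5) (nat_lit 20) (nat_lit 5) (nat_lit 364) (nat_lit 271) (nat_lit 145)) (XT.lf (nat_lit 0) (nat_lit 9807154526) (nat_lit 152) (nat_lit 10671242222) (nat_lit 76) (nat_lit 17263936085) (nat_lit 19) (nat_lit 5) (nat_lit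 21) (nat_lit 5) (nat_lit 20) (nat_lit 5) (nat_lit 365) (nat_lit 271) (nat_lit 144))) (XT.nd (nat_lit 78) (nat_lit 152) (nat_lit 0) (XT.lf (nat_lit 0) (nat_lit 13958460717) (nat_lit 152) (nat_lit 1186531411) (nat_lit 76) (nat_lit 23546873610) (nat_lit 19) (nat_lit 5) (nat_lit 21) (nat_lit 5) (nat_lit 20) (nat_lit 5) (nat_lit 366) (nat_lit 271) (nat_lit 143)) (XT.nd (nat_lit 78) (nat_lit 0) (nat_lit 0) (XT.lf (nat_lit 0) (nat_lit 8740733646) (nat_lit 152) (nat_lit 9569987668) (nat_lit 228) (nat_lit 21356879122) (nat_lit 17) (nat_lit 5) (nat_lit 19) (nat_lit 5) (nat_lit 20) (nat_lit 5) (nat_lit 367) (nat_lit 271) (nat_lit 142)) (XT.lf (nat_lit 0) (nat_lit 18977712154) (nat_lit 152) (nat_lit 3820315234) (nat_lit 228) (nat_lit 17874453476) (nat_lit 17) (nat_lit 5) (nat_lit 19) (nat_lit 5) (nat_lit 20) (nat_lit 5) (nat_lit 368) (nat_lit 271) (nat_lit 141))))) (XT.nd (nat_lit 234) (nat_lit 76) (nat_lit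 0) (XT.nd (nat_lit 78) (nat_lit 76) (nat_lit 0) (XT.lf (nat_lit 0) (nat_lit 27432825522) (nat_lit 228) (nat_lit 12218157606) (nat_lit 76) (nat_lit 2056146177) (nat_lit 17) (nat_lit 5) (nat_lit 20) (nat_lit 5) (nat_lit 18) (nat_lit 4) (nat_lit 369) (nat_lit 271) (nat_lit 140)) (XT.nd (nat_lit 78) (nat_lit 76) (nat_lit 0) (XT.lf (nat_lit 0) (nat_lit 32237374673) (nat_lit 228) (nat_lit 2506962078) (nat_lit 76) (nat_lit 8027566796) (nat_lit 17) (nat_lit 5) (nat_lit 20) (nat_lit 5) (nat_lit 18) (nat_lit 4) (nat_lit 370) (nat_lit 271) (nat_lit 139)) (XT.lf (nat_lit 0) (nat_lit 7632973394) (nat_lit 76) (nat_lit 29619549198) (nat_lit 152) (nat_lit 6614111896) (nat_lit 16) (nat_lit 5) (nat_lit 17) (nat_lit 5) (nat_lit 18) (nat_lit 4) (nat_lit 371) (nat_lit 271) (nat_lit 138)))) (XT.nd (nat_lit 78) (nat_lit 76) (nat_lit 0) (XT.lf (nat_lit 0) (nat_lit 18117067637) (nat_lit 76) (nat_lit 24319553609) (nat_lit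 152) (nat_lit 2557038349) (nat_lit 16) (nat_lit 5) (nat_lit 17) (nat_lit 5) (nat_lit 18) (nat_lit 4) (nat_lit 372) (nat_lit 271) (nat_lit 137)) (XT.nd (nat_lit 78) (nat_lit 0) (nat_lit 0) (XT.lf (nat_lit 0) (nat_lit 1583408447) (nat_lit 152) (nat_lit 17265636554) (nat_lit 76) (nat_lit 27305190279) (nat_lit 15) (nat_lit 5) (nat_lit 17) (nat_lit 5) (nat_lit 16) (nat_lit 5) (nat_lit 373) (nat_lit 271) (nat_lit 136)) (XT.lf (nat_lit 0) (nat_lit 5790176820) (nat_lit 152) (nat_lit 7402578997) (nat_lit 76) (nat_lit 34156314358) (nat_lit 15) (nat_lit 5) (nat_lit 17) (nat_lit 5) (nat_lit 16) (nat_lit 5) (nat_lit 374) (nat_lit 271) (nat_lit 135))))))) (XT.nd (nat_lit 858) (nat_lit 228) (nat_lit 0) (XT.nd (nat_lit 390) (nat_lit 152) (nat_lit 0) (XT.nd (nat_lit 156) (nat_lit 0) (nat_lit 0) (XT.nd (nat_lit 78) (nat_lit 0) (nat_lit 0) (XT.lf (nat_lit 0) (nat_lit 2800425115) (nat_lit 152) (nat_lit 7343333901)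 (nat_lit 228) (nat_lit 38435379111) (nat_lit 13) (nat_lit 5) (nat_lit 15) (nat_lit 5) (nat_lit 16) (nat_lit 5) (nat_lit 375) (nat_lit 271) (nat_lit 134)) (XT.lf (nat_lit 0) (nat_lit 13450777249) (nat_lit 152) (nat_lit 1245697265) (nat_lit 228) (nat_lit 35147583974) (nat_lit 13) (nat_lit 5) (nat_lit 15) (nat_lit 5) (nat_lit 16) (nat_lit 5) (nat_lit 376) (nat_lit 271) (nat_lit 133))) (XT.nd (nat_lit 78) (nat_lit 0) (nat_lit 0) (XT.lf (nat_lit 0) (nat_lit 19428085572) (nat_lit 228) (nat_lit 26785014518) (nat_lit 76) (nat_lit 4932562915) (nat_lit 13) (nat_lit 5) (nat_lit 16) (nat_lit 5) (nat_lit 14) (nat_lit 4) (nat_lit 377) (nat_lit 271) (nat_lit 132)) (XT.nd (nat_lit 78) (nat_lit 0) (nat_lit 0) (XT.lf (nat_lit 0) (nat_lit 24308071665) (nat_lit 228) (nat_lit 16910862333) (nat_lit 76) (nat_lit 11267194654) (nat_lit 13) (nat_lit 5) (nat_lit 16) (nat_lit 5) (nat_lit 14) (nat_lit 4) (nat_lit 378) (nat_lit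 271) (nat_lit 131)) (XT.lf (nat_lit 0) (nat_lit 29328722454) (nat_lit 228) (nat_lit 6750222381) (nat_lit 76) (nat_lit 17788041105) (nat_lit 13) (nat_lit 5) (nat_lit 16) (nat_lit 5) (nat_lit 14) (nat_lit 4) (nat_lit 379) (nat_lit 271) (nat_lit 130))))) (XT.nd (nat_lit 234) (nat_lit 76) (nat_lit 0) (XT.nd (nat_lit 78) (nat_lit 0) (nat_lit 0) (XT.lf (nat_lit 0) (nat_lit 3779535927) (nat_lit 76) (nat_lit 30751220199) (nat_lit 152) (nat_lit 20757595380) (nat_lit 12) (nat_lit 5) (nat_lit 13) (nat_lit 5) (nat_lit 14) (nat_lit 4) (nat_lit 380) (nat_lit 271) (nat_lit 129)) (XT.nd (nat_lit 78) (nat_lit 0) (nat_lit 0) (XT.lf (nat_lit 0) (nat_lit 14754199402) (nat_lit 76) (nat_lit 25197319758) (nat_lit 152) (nat_lit 16798964132) (nat_lit 12) (nat_lit 5) (nat_lit 13) (nat_lit 5) (nat_lit 14) (nat_lit 4) (nat_lit 381) (nat_lit 271) (nat_lit 128)) (XT.lf (nat_lit 0) (nat_lit 26049014895) (nat_lit 76) (nat_lit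 19480554598) (nat_lit 152) (nat_lit 12727074754) (nat_lit 12) (nat_lit 5) (nat_lit 13) (nat_lit 5) (nat_lit 14) (nat_lit 4) (nat_lit 382) (nat_lit 271) (nat_lit 127)))) (XT.nd (nat_lit 78) (nat_lit 76) (nat_lit 0) (XT.lf (nat_lit 0) (nat_lit 37673851661) (nat_lit 76) (nat_lit 13595929487) (nat_lit 152) (nat_lit 8538369285) (nat_lit 12) (nat_lit 5) (nat_lit 13) (nat_lit 5) (nat_lit 14) (nat_lit 4) (nat_lit 383) (nat_lit 271) (nat_lit 126)) (XT.nd (nat_lit 78) (nat_lit 76) (nat_lit 0) (XT.lf (nat_lit 0) (nat_lit 49638867326) (nat_lit 76) (nat_lit 7538302521) (nat_lit 152) (nat_lit 4229187691) (nat_lit 12) (nat_lit 5) (nat_lit 13) (nat_lit 5) (nat_lit 14) (nat_lit 4) (nat_lit 384) (nat_lit 271) (nat_lit 125)) (XT.lf (nat_lit 0) (nat_lit 200249965) (nat_lit 152) (nat_lit 1100108530) (nat_lit 76) (nat_lit 61752244659) (nat_lit 11) (nat_lit 5) (nat_lit 13) (nat_lit 5) (nat_lit 12) (nat_lit 5) (nat_lit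 385) (nat_lit 271) (nat_lit 124)))))) (XT.nd (nat_lit 468) (nat_lit 76) (nat_lit 0) (XT.nd (nat_lit 234) (nat_lit 0) (nat_lit 0) (XT.nd (nat_lit 78) (nat_lit 0) (nat_lit 0) (XT.lf (nat_lit 0) (nat_lit 4819818782) (nat_lit 228) (nat_lit 54761806097) (nat_lit 76) (nat_lit 5161091991) (nat_lit 9) (nat_lit 5) (nat_lit 12) (nat_lit 5) (nat_lit 10) (nat_lit 4) (nat_lit 386) (nat_lit 271) (nat_lit 123)) (XT.nd (nat_lit 78) (nat_lit 0) (nat_lit 0) (XT.lf (nat_lit 0) (nat_lit 9597305834) (nat_lit 228) (nat_lit 45087481776) (nat_lit 76) (nat_lit 11798170763) (nat_lit 9) (nat_lit 5) (nat_lit 12) (nat_lit 5) (nat_lit 10) (nat_lit 4) (nat_lit 387) (nat_lit 271) (nat_lit 122)) (XT.lf (nat_lit 0) (nat_lit 14513493621) (nat_lit 228) (nat_lit 35130896682) (nat_lit 76) (nat_lit 18631159721) (nat_lit 9) (nat_lit 5) (nat_lit 12) (nat_lit 5) (nat_lit 10) (nat_lit 4) (nat_lit 388) (nat_lit 271) (nat_lit 121)))) (XT.nd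 (nat_lit 78) (nat_lit 0) (nat_lit 0) (XT.lf (nat_lit 0) (nat_lit 19572677840) (nat_lit 228) (nat_lit 24883350885) (nat_lit 76) (nat_lit 25666029439) (nat_lit 9) (nat_lit 5) (nat_lit 12) (nat_lit 5) (nat_lit 10) (nat_lit 4) (nat_lit 389) (nat_lit 271) (nat_lit 120)) (XT.nd (nat_lit 78) (nat_lit 0) (nat_lit 0) (XT.lf (nat_lit 0) (nat_lit 24779279137) (nat_lit 228) (nat_lit 14335890219) (nat_lit 76) (nat_lit 32908926890) (nat_lit 9) (nat_lit 5) (nat_lit 12) (nat_lit 5) (nat_lit 10) (nat_lit 4) (nat_lit 390) (nat_lit 271) (nat_lit 119)) (XT.lf (nat_lit 0) (nat_lit 30137846971) (nat_lit 228) (nat_lit 3479298457) (nat_lit 76) (nat_lit 40366180820) (nat_lit 9) (nat_lit 5) (nat_lit 12) (nat_lit 5) (nat_lit 10) (nat_lit 4) (nat_lit 391) (nat_lit 271) (nat_lit 118))))) (XT.nd (nat_lit 31356) (nat_lit 0) (nat_lit 15656) (XT.nd (nat_lit 78) (nat_lit 0) (nat_lit 0) (XT.lf (nat_lit 0) (nat_lit 7849074457)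 (nat_lit 76) (nat_lit 27879439232) (nat_lit 152) (nat_lit 40270682923) (nat_lit 8) (nat_lit 5) (nat_lit 9) (nat_lit 5) (nat_lit 10) (nat_lit 4) (nat_lit 392) (nat_lit 271) (nat_lit 117)) (XT.nd (nat_lit 31200) (nat_lit 0) (nat_lit 16340) (XT.lf (nat_lit 0) (nat_lit 19581609868) (nat_lit 76) (nat_lit 21936368644) (nat_lit 152) (nat_lit 36556635844) (nat_lit 8) (nat_lit 5) (nat_lit 9) (nat_lit 5) (nat_lit 10) (nat_lit 4) (nat_lit 393) (nat_lit 271) (nat_lit 116)) (XT.lf (nat_lit 0) (nat_lit 2866122356) (nat_lit 684) (nat_lit 337280218) (nat_lit 684) (nat_lit 337280218) (nat_lit 223) (nat_lit 3) (nat_lit 232) (nat_lit 3) (nat_lit 232) (nat_lit 5) (nat_lit 272) (nat_lit 272) (nat_lit 236)))) (XT.nd (nat_lit 78) (nat_lit 0) (nat_lit 0) (XT.lf (nat_lit 0) (nat_lit 244527475) (nat_lit 684) (nat_lit 4734885690) (nat_lit 760) (nat_lit 2156095415) (nat_lit 214) (nat_lit 5) (nat_lit 223) (nat_lit 3) (nat_lit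 224) (nat_lit 5) (nat_lit 273) (nat_lit 272) (nat_lit 235)) (XT.nd (nat_lit 78) (nat_lit 0) (nat_lit 0) (XT.lf (nat_lit 0) (nat_lit 1804408187) (nat_lit 684) (nat_lit 1655760214) (nat_lit 760) (nat_lit 3732530140) (nat_lit 214) (nat_lit 5) (nat_lit 223) (nat_lit 3) (nat_lit 224) (nat_lit 5) (nat_lit 274) (nat_lit 272) (nat_lit 234)) (XT.lf (nat_lit 76) (nat_lit 1513077063) (nat_lit 0) (nat_lit 1852999216) (nat_lit 760) (nat_lit 3887062245) (nat_lit 215) (nat_lit 5) (nat_lit 214) (nat_lit 5) (nat_lit 224) (nat_lit 5) (nat_lit 275) (nat_lit 272) (nat_lit 233))))))))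
noncomputable def xc145 : XT := (XT.nd (nat_lit 1716) (nat_lit 5016) (nat_lit 0) (XT.nd (nat_lit 858) (nat_lit 4484) (nat_lit 0) (XT.nd (nat_lit 390) (nat_lit 760) (nat_lit 0) (XT.nd (nat_lit 156) (nat_lit 684) (nat_lit 0) (XT.nd (nat_lit 78) (nat_lit 0) (nat_lit 76) (XT.lf (nat_lit 76) (nat_lit 4779048940) (nat_lit 0) (nat_lit 154139942) (nat_lit 760) (nat_lit 2383623681) (nat_lit 215) (nat_lit 5) (nat_lit 214) (nat_lit 5) (nat_lit 224) (nat_lit 5) (nat_lit 276) (nat_lit 272) (nat_lit 232)) (XT.lf (nat_lit 76) (nat_lit 726383663) (nat_lit 0) (nat_lit 5787064871) (nat_lit 760) (nat_lit 870137765) (nat_lit 216) (nat_lit 5) (nat_lit 215) (nat_lit 5) (nat_lit 225) (nat_lit 5) (nat_lit 277) (nat_lit 272) (nat_lit 231))) (XT.nd (nat_lit 78) (nat_lit 0) (nat_lit 0) (XT.lf (nat_lit 0) (nat_lit 647145034) (nat_lit 760) (nat_lit 3353518631) (nat_lit 836) (nat_lit 3452509518) (nat_lit 205) (nat_lit 5)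 (nat_lit 215) (nat_lit 5) (nat_lit 216) (nat_lit 5) (nat_lit 278) (nat_lit 272) (nat_lit 230)) (XT.nd (nat_lit 78) (nat_lit 0) (nat_lit 0) (XT.lf (nat_lit 76) (nat_lit 7802601) (nat_lit 0) (nat_lit 2130774524) (nat_lit 836) (nat_lit 5387787266) (nat_lit 206) (nat_lit 5) (nat_lit 205) (nat_lit 5) (nat_lit 216) (nat_lit 5) (nat_lit 279) (nat_lit 272) (nat_lit 229)) (XT.lf (nat_lit 76) (nat_lit 3506020622) (nat_lit 0) (nat_lit 149897539) (nat_lit 836) (nat_lit 3946552333) (nat_lit 206) (nat_lit 5) (nat_lit 205) (nat_lit 5) (nat_lit 216) (nat_lit 5) (nat_lit 280) (nat_lit 272) (nat_lit 228))))) (XT.nd (nat_lit 234) (nat_lit 0) (nat_lit 76) (XT.nd (nat_lit 78) (nat_lit 836) (nat_lit 0) (XT.lf (nat_lit 0) (nat_lit 5185974836) (nat_lit 760) (nat_lit 623452289) (nat_lit 836) (nat_lit 1872566445) (nat_lit 206) (nat_lit 5) (nat_lit 216) (nat_lit 5) (nat_lit 217) (nat_lit 5) (nat_lit 281) (nat_lit 272)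 (nat_lit 227)) (XT.nd (nat_lit 78) (nat_lit 836) (nat_lit 0) (XT.lf (nat_lit 76) (nat_lit 2977730187) (nat_lit 0) (nat_lit 3764819339) (nat_lit 836) (nat_lit 1022079614) (nat_lit 207) (nat_lit 5) (nat_lit 206) (nat_lit 5) (nat_lit 217) (nat_lit 5) (nat_lit 282) (nat_lit 272) (nat_lit 226)) (XT.lf (nat_lit 0) (nat_lit 443777632) (nat_lit 836) (nat_lit 1188076517) (nat_lit 912) (nat_lit 6219162116) (nat_lit 195) (nat_lit 5) (nat_lit 206) (nat_lit 5) (nat_lit 207) (nat_lit 5) (nat_lit 283) (nat_lit 272) (nat_lit 225)))) (XT.nd (nat_lit 78) (nat_lit 0) (nat_lit 0) (XT.lf (nat_lit 0) (nat_lit 1915710360) (nat_lit 836) (nat_lit 5421014942) (nat_lit 912) (nat_lit 603619800) (nat_lit 196) (nat_lit 5) (nat_lit 207) (nat_lit 5) (nat_lit 208) (nat_lit 5) (nat_lit 284) (nat_lit 272) (nat_lit 224)) (XT.nd (nat_lit 78) (nat_lit 0) (nat_lit 0) (XT.lf (nat_lit 0) (nat_lit 3413736918) (nat_lit 836) (nat_lit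 1719744970) (nat_lit 912) (nat_lit 2899542931) (nat_lit 196) (nat_lit 5) (nat_lit 207) (nat_lit 5) (nat_lit 208) (nat_lit 5) (nat_lit 285) (nat_lit 272) (nat_lit 223)) (XT.lf (nat_lit 76) (nat_lit 2100751702) (nat_lit 0) (nat_lit 2831158755) (nat_lit 912) (nat_lit 3197443613) (nat_lit 197) (nat_lit 5) (nat_lit 196) (nat_lit 5) (nat_lit 208) (nat_lit 5) (nat_lit 286) (nat_lit 272) (nat_lit 222)))))) (XT.nd (nat_lit 390) (nat_lit 2812) (nat_lit 0) (XT.nd (nat_lit 156) (nat_lit 988) (nat_lit 0) (XT.nd (nat_lit 78) (nat_lit 760) (nat_lit 0) (XT.lf (nat_lit 76) (nat_lit 6038633346) (nat_lit 0) (nat_lit 430372455) (nat_lit 912) (nat_lit 1760487781) (nat_lit 197) (nat_lit 5) (nat_lit 196) (nat_lit 5) (nat_lit 208) (nat_lit 5) (nat_lit 287) (nat_lit 272) (nat_lit 221)) (XT.lf (nat_lit 0) (nat_lit 1743356487) (nat_lit 836) (nat_lit 6302648061) (nat_lit 912) (nat_lit 286937150) (nat_lit 186) (nat_lit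 5) (nat_lit 197) (nat_lit 5) (nat_lit 198) (nat_lit 5) (nat_lit 288) (nat_lit 272) (nat_lit 220))) (XT.nd (nat_lit 78) (nat_lit 912) (nat_lit 0) (XT.lf (nat_lit 0) (nat_lit 1191206196) (nat_lit 912) (nat_lit 2648301836) (nat_lit 76) (nat_lit 4600209521) (nat_lit 185) (nat_lit 5) (nat_lit 197) (nat_lit 5) (nat_lit 186) (nat_lit 5) (nat_lit 289) (nat_lit 272) (nat_lit 219)) (XT.nd (nat_lit 78) (nat_lit 0) (nat_lit 0) (XT.lf (nat_lit 0) (nat_lit 1403067762) (nat_lit 912) (nat_lit 1277375568) (nat_lit 988) (nat_lit 5870100736) (nat_lit 173) (nat_lit 5) (nat_lit 185) (nat_lit 5) (nat_lit 186) (nat_lit 5) (nat_lit 290) (nat_lit 272) (nat_lit 218)) (XT.lf (nat_lit 0) (nat_lit 4214439595) (nat_lit 988) (nat_lit 3080732104) (nat_lit 76) (nat_lit 1369626177) (nat_lit 173) (nat_lit 5) (nat_lit 186) (nat_lit 5) (nat_lit 174) (nat_lit 5) (nat_lit 291) (nat_lit 272) (nat_lit 217))))) (XT.nd (nat_lit 234)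 (nat_lit 760) (nat_lit 0) (XT.nd (nat_lit 78) (nat_lit 1064) (nat_lit 0) (XT.lf (nat_lit 0) (nat_lit 1083746452) (nat_lit 988) (nat_lit 4694925521) (nat_lit 1064) (nat_lit 3004382745) (nat_lit 160) (nat_lit 5) (nat_lit 173) (nat_lit 5) (nat_lit 174) (nat_lit 5) (nat_lit 292) (nat_lit 272) (nat_lit 216)) (XT.nd (nat_lit 78) (nat_lit 1064) (nat_lit 0) (XT.lf (nat_lit 0) (nat_lit 5403864130) (nat_lit 988) (nat_lit 1979047469) (nat_lit 1064) (nat_lit 1522254195) (nat_lit 160) (nat_lit 5) (nat_lit 173) (nat_lit 5) (nat_lit 174) (nat_lit 5) (nat_lit 293) (nat_lit 272) (nat_lit 215)) (XT.lf (nat_lit 0) (nat_lit 797584871) (nat_lit 1064) (nat_lit 8216357141) (nat_lit 1140) (nat_lit 17734338) (nat_lit 146) (nat_lit 5) (nat_lit 160) (nat_lit 5) (nat_lit 161) (nat_lit 5) (nat_lit 294) (nat_lit 272) (nat_lit 214)))) (XT.nd (nat_lit 78) (nat_lit 684) (nat_lit 0) (XT.lf (nat_lit 0) (nat_lit 1520772474) (nat_lit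 1140) (nat_lit 3931635509) (nat_lit 76) (nat_lit 3708660668) (nat_lit 145) (nat_lit 5) (nat_lit 160) (nat_lit 5) (nat_lit 146) (nat_lit 5) (nat_lit 295) (nat_lit 272) (nat_lit 213)) (XT.nd (nat_lit 78) (nat_lit 0) (nat_lit 0) (XT.lf (nat_lit 0) (nat_lit 476735084) (nat_lit 684) (nat_lit 2597434162) (nat_lit 760) (nat_lit 6221183375) (nat_lit 136) (nat_lit 5) (nat_lit 145) (nat_lit 5) (nat_lit 146) (nat_lit 5) (nat_lit 296) (nat_lit 272) (nat_lit 212)) (XT.lf (nat_lit 0) (nat_lit 4682823579) (nat_lit 760) (nat_lit 4371339536) (nat_lit 76) (nat_lit 379327669) (nat_lit 136) (nat_lit 5) (nat_lit 146) (nat_lit 5) (nat_lit 137) (nat_lit 5) (nat_lit 297) (nat_lit 272) (nat_lit 211))))))) (XT.nd (nat_lit 858) (nat_lit 2432) (nat_lit 0) (XT.nd (nat_lit 390) (nat_lit 1444) (nat_lit 0) (XT.nd (nat_lit 156) (nat_lit 608) (nat_lit 0) (XT.nd (nat_lit 78) (nat_lit 0) (nat_lit 0) (XT.lf (nat_lit 0) (nat_lit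 154494257) (nat_lit 532) (nat_lit 6178719158) (nat_lit 608) (nat_lit 3242838260) (nat_lit 129) (nat_lit 5) (nat_lit 136) (nat_lit 5) (nat_lit 137) (nat_lit 5) (nat_lit 298) (nat_lit 272) (nat_lit 210)) (XT.lf (nat_lit 0) (nat_lit 4873866418) (nat_lit 532) (nat_lit 3170340306) (nat_lit 608) (nat_lit 1678430358) (nat_lit 129) (nat_lit 5) (nat_lit 136) (nat_lit 5) (nat_lit 137) (nat_lit 5) (nat_lit 299) (nat_lit 272) (nat_lit 209))) (XT.nd (nat_lit 78) (nat_lit 608) (nat_lit 0) (XT.lf (nat_lit 0) (nat_lit 9703902443) (nat_lit 532) (nat_lit 70539837) (nat_lit 608) (nat_lit 100218501) (nat_lit 129) (nat_lit 5) (nat_lit 136) (nat_lit 5) (nat_lit 137) (nat_lit 5) (nat_lit 300) (nat_lit 272) (nat_lit 208)) (XT.nd (nat_lit 78) (nat_lit 0) (nat_lit 0) (XT.lf (nat_lit 0) (nat_lit 1539771611) (nat_lit 608) (nat_lit 5367277304) (nat_lit 76) (nat_lit 3122504115) (nat_lit 121) (nat_lit 5) (nat_lit 129) (nat_lit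 5) (nat_lit 122) (nat_lit 5) (nat_lit 301) (nat_lit 272) (nat_lit 207)) (XT.lf (nat_lit 0) (nat_lit 3198482058) (nat_lit 608) (nat_lit 578367255) (nat_lit 76) (nat_lit 6413138393) (nat_lit 121) (nat_lit 5) (nat_lit 129) (nat_lit 5) (nat_lit 122) (nat_lit 5) (nat_lit 302) (nat_lit 272) (nat_lit 206))))) (XT.nd (nat_lit 234) (nat_lit 532) (nat_lit 0) (XT.nd (nat_lit 78) (nat_lit 456) (nat_lit 0) (XT.lf (nat_lit 0) (nat_lit 4409755073) (nat_lit 456) (nat_lit 509583261) (nat_lit 532) (nat_lit 5435594944) (nat_lit 115) (nat_lit 5) (nat_lit 121) (nat_lit 5) (nat_lit 122) (nat_lit 5) (nat_lit 303) (nat_lit 272) (nat_lit 205)) (XT.nd (nat_lit 78) (nat_lit 456) (nat_lit 0) (XT.lf (nat_lit 0) (nat_lit 6695740518) (nat_lit 532) (nat_lit 1023932157) (nat_lit 76) (nat_lit 2805104309) (nat_lit 115) (nat_lit 5) (nat_lit 122) (nat_lit 5) (nat_lit 116) (nat_lit 5) (nat_lit 304) (nat_lit 272) (nat_lit 204)) (XT.lf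 (nat_lit 0) (nat_lit 4089464706) (nat_lit 456) (nat_lit 4451754294) (nat_lit 532) (nat_lit 2158088880) (nat_lit 109) (nat_lit 5) (nat_lit 115) (nat_lit 5) (nat_lit 116) (nat_lit 5) (nat_lit 305) (nat_lit 272) (nat_lit 203)))) (XT.nd (nat_lit 78) (nat_lit 532) (nat_lit 0) (XT.lf (nat_lit 0) (nat_lit 9347308192) (nat_lit 456) (nat_lit 1077066107) (nat_lit 532) (nat_lit 455294536) (nat_lit 109) (nat_lit 5) (nat_lit 115) (nat_lit 5) (nat_lit 116) (nat_lit 5) (nat_lit 306) (nat_lit 272) (nat_lit 202)) (XT.nd (nat_lit 78) (nat_lit 0) (nat_lit 0) (XT.lf (nat_lit 0) (nat_lit 1305056086) (nat_lit 532) (nat_lit 7360364108) (nat_lit 76) (nat_lit 2398751423) (nat_lit 102) (nat_lit 5) (nat_lit 109) (nat_lit 5) (nat_lit 103) (nat_lit 5) (nat_lit 307) (nat_lit 272) (nat_lit 201)) (XT.lf (nat_lit 0) (nat_lit 3108313418) (nat_lit 532) (nat_lit 2170833440) (nat_lit 76) (nat_lit 5975008090) (nat_lit 102) (nat_lit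 5) (nat_lit 109) (nat_lit 5) (nat_lit 103) (nat_lit 5) (nat_lit 308) (nat_lit 272) (nat_lit 200)))))) (XT.nd (nat_lit 468) (nat_lit 1140) (nat_lit 0) (XT.nd (nat_lit 234) (nat_lit 456) (nat_lit 0) (XT.nd (nat_lit 78) (nat_lit 380) (nat_lit 0) (XT.lf (nat_lit 0) (nat_lit 3207620347) (nat_lit 456) (nat_lit 1762625512) (nat_lit 532) (nat_lit 6479511020) (nat_lit 96) (nat_lit 5) (nat_lit 102) (nat_lit 5) (nat_lit 103) (nat_lit 5) (nat_lit 309) (nat_lit 272) (nat_lit 199)) (XT.nd (nat_lit 78) (nat_lit 380) (nat_lit 0) (XT.lf (nat_lit 0) (nat_lit 6902245512) (nat_lit 532) (nat_lit 2906595627) (nat_lit 76) (nat_lit 1842014231) (nat_lit 96) (nat_lit 5) (nat_lit 103) (nat_lit 5) (nat_lit 97) (nat_lit 5) (nat_lit 310) (nat_lit 272) (nat_lit 198)) (XT.lf (nat_lit 0) (nat_lit 2593168176) (nat_lit 380) (nat_lit 6316364791) (nat_lit 456) (nat_lit 2947987198) (nat_lit 91) (nat_lit 5) (nat_lit 96) (nat_lit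 5) (nat_lit 97) (nat_lit 5) (nat_lit 311) (nat_lit 272) (nat_lit 197)))) (XT.nd (nat_lit 78) (nat_lit 456) (nat_lit 0) (XT.lf (nat_lit 0) (nat_lit 8288797865) (nat_lit 380) (nat_lit 2692994726) (nat_lit 456) (nat_lit 1088501340) (nat_lit 91) (nat_lit 5) (nat_lit 96) (nat_lit 5) (nat_lit 97) (nat_lit 5) (nat_lit 312) (nat_lit 272) (nat_lit 196)) (XT.nd (nat_lit 78) (nat_lit 0) (nat_lit 0) (XT.lf (nat_lit 0) (nat_lit 814609326) (nat_lit 456) (nat_lit 10433746018) (nat_lit 76) (nat_lit 1040786610) (nat_lit 85) (nat_lit 5) (nat_lit 91) (nat_lit 5) (nat_lit 86) (nat_lit 5) (nat_lit 313) (nat_lit 272) (nat_lit 195)) (XT.lf (nat_lit 0) (nat_lit 2794387378) (nat_lit 456) (nat_lit 4841158214) (nat_lit 76) (nat_lit 4877490206) (nat_lit 85) (nat_lit 5) (nat_lit 91) (nat_lit 5) (nat_lit 86) (nat_lit 5) (nat_lit 314) (nat_lit 272) (nat_lit 194))))) (XT.nd (nat_lit 234) (nat_lit 760) (nat_lit 0) (XT.nd (nat_lit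 78) (nat_lit 0) (nat_lit 0) (XT.lf (nat_lit 0) (nat_lit 908942610) (nat_lit 380) (nat_lit 3910270732) (nat_lit 456) (nat_lit 7924909353) (nat_lit 80) (nat_lit 5) (nat_lit 85) (nat_lit 5) (nat_lit 86) (nat_lit 5) (nat_lit 315) (nat_lit 272) (nat_lit 193)) (XT.nd (nat_lit 78) (nat_lit 0) (nat_lit 0) (XT.lf (nat_lit 0) (nat_lit 6903058624) (nat_lit 380) (nat_lit 27934714) (nat_lit 456) (nat_lit 6050407126) (nat_lit 80) (nat_lit 5) (nat_lit 85) (nat_lit 5) (nat_lit 86) (nat_lit 5) (nat_lit 316) (nat_lit 272) (nat_lit 192)) (XT.lf (nat_lit 0) (nat_lit 9122233588) (nat_lit 456) (nat_lit 214544756) (nat_lit 76) (nat_lit 3888578258) (nat_lit 80) (nat_lit 5) (nat_lit 86) (nat_lit 5) (nat_lit 81) (nat_lit 5) (nat_lit 317) (nat_lit 272) (nat_lit 191)))) (XT.nd (nat_lit 78) (nat_lit 380) (nat_lit 0) (XT.lf (nat_lit 0) (nat_lit 5913510871) (nat_lit 380) (nat_lit 5501400078) (nat_lit 456) (nat_lit 2060691460)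 (nat_lit 75) (nat_lit 5) (nat_lit 80) (nat_lit 5) (nat_lit 81) (nat_lit 5) (nat_lit 318) (nat_lit 272) (nat_lit 190)) (XT.nd (nat_lit 78) (nat_lit 304) (nat_lit 0) (XT.lf (nat_lit 0) (nat_lit 23061350) (nat_lit 456) (nat_lit 1530893088) (nat_lit 76) (nat_lit 12180001694) (nat_lit 74) (nat_lit 5) (nat_lit 80) (nat_lit 5) (nat_lit 75) (nat_lit 5) (nat_lit 319) (nat_lit 272) (nat_lit 189)) (XT.lf (nat_lit 0) (nat_lit 2177411750) (nat_lit 380) (nat_lit 9296600062) (nat_lit 76) (nat_lit 2523989903) (nat_lit 70) (nat_lit 5) (nat_lit 75) (nat_lit 5) (nat_lit 71) (nat_lit 5) (nat_lit 320) (nat_lit 272) (nat_lit 188))))))))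
noncomputable def xc146 : XT := (XT.nd (nat_lit 1716) (nat_lit 1292) (nat_lit 0) (XT.nd (nat_lit 858) (nat_lit 1064) (nat_lit 0) (XT.nd (nat_lit 390) (nat_lit 912) (nat_lit 0) (XT.nd (nat_lit 156) (nat_lit 304) (nat_lit 0) (XT.nd (nat_lit 78) (nat_lit 304) (nat_lit 0) (XT.lf (nat_lit 0) (nat_lit 4407009729) (nat_lit 380) (nat_lit 3159521137) (nat_lit 76) (nat_lit 6703156589) (nat_lit 70) (nat_lit 5) (nat_lit 75) (nat_lit 5) (nat_lit 71) (nat_lit 5) (nat_lit 321) (nat_lit 272) (nat_lit 187)) (XT.lf (nat_lit 0) (nat_lit 3198329090) (nat_lit 304) (nat_lit 3516123765) (nat_lit 380) (nat_lit 7834778411) (nat_lit 66) (nat_lit 5) (nat_lit 70) (nat_lit 5) (nat_lit 71) (nat_lit 5) (nat_lit 322) (nat_lit 272) (nat_lit 186))) (XT.nd (nat_lit 78) (nat_lit 304) (nat_lit 0) (XT.lf (nat_lit 0) (nat_lit 9110130068) (nat_lit 380) (nat_lit 5057202385) (nat_lit 76) (nat_lit 669293776) (nat_lit 66) (nat_lit 5)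 (nat_lit 71) (nat_lit 5) (nat_lit 67) (nat_lit 5) (nat_lit 323) (nat_lit 272) (nat_lit 185)) (XT.nd (nat_lit 78) (nat_lit 0) (nat_lit 0) (XT.lf (nat_lit 0) (nat_lit 1392364114) (nat_lit 304) (nat_lit 10214565236) (nat_lit 380) (nat_lit 3524870274) (nat_lit 62) (nat_lit 5) (nat_lit 66) (nat_lit 5) (nat_lit 67) (nat_lit 5) (nat_lit 324) (nat_lit 272) (nat_lit 184)) (XT.lf (nat_lit 0) (nat_lit 8114032132) (nat_lit 304) (nat_lit 6097033687) (nat_lit 380) (nat_lit 1223822547) (nat_lit 62) (nat_lit 5) (nat_lit 66) (nat_lit 5) (nat_lit 67) (nat_lit 5) (nat_lit 325) (nat_lit 272) (nat_lit 183))))) (XT.nd (nat_lit 234) (nat_lit 532) (nat_lit 0) (XT.nd (nat_lit 78) (nat_lit 304) (nat_lit 0) (XT.lf (nat_lit 0) (nat_lit 1105586474) (nat_lit 380) (nat_lit 745457059) (nat_lit 76) (nat_lit 13896275998) (nat_lit 61) (nat_lit 5) (nat_lit 66) (nat_lit 5) (nat_lit 62) (nat_lit 5) (nat_lit 326) (nat_lit 272) (nat_lit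 182)) (XT.nd (nat_lit 78) (nat_lit 0) (nat_lit 0) (XT.lf (nat_lit 0) (nat_lit 3546134625) (nat_lit 380) (nat_lit 9982126783) (nat_lit 76) (nat_lit 2538553408) (nat_lit 57) (nat_lit 5) (nat_lit 62) (nat_lit 5) (nat_lit 58) (nat_lit 5) (nat_lit 327) (nat_lit 272) (nat_lit 181)) (XT.lf (nat_lit 0) (nat_lit 6068287838) (nat_lit 380) (nat_lit 3303309367) (nat_lit 76) (nat_lit 7024075540) (nat_lit 57) (nat_lit 5) (nat_lit 62) (nat_lit 5) (nat_lit 58) (nat_lit 5) (nat_lit 328) (nat_lit 272) (nat_lit 180)))) (XT.nd (nat_lit 78) (nat_lit 304) (nat_lit 0) (XT.lf (nat_lit 0) (nat_lit 3623020099) (nat_lit 228) (nat_lit 5060882399) (nat_lit 304) (nat_lit 8049988599) (nat_lit 54) (nat_lit 5) (nat_lit 57) (nat_lit 5) (nat_lit 58) (nat_lit 5) (nat_lit 329) (nat_lit 272) (nat_lit 179)) (XT.nd (nat_lit 78) (nat_lit 304) (nat_lit 0) (XT.lf (nat_lit 0) (nat_lit 10801534300) (nat_lit 228) (nat_lit 593050261) (nat_lit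 304) (nat_lit 5687201225) (nat_lit 54) (nat_lit 5) (nat_lit 57) (nat_lit 5) (nat_lit 58) (nat_lit 5) (nat_lit 330) (nat_lit 272) (nat_lit 178)) (XT.lf (nat_lit 0) (nat_lit 707462202) (nat_lit 304) (nat_lit 13508129515) (nat_lit 380) (nat_lit 3223682407) (nat_lit 50) (nat_lit 5) (nat_lit 54) (nat_lit 5) (nat_lit 55) (nat_lit 5) (nat_lit 331) (nat_lit 272) (nat_lit 177)))))) (XT.nd (nat_lit 390) (nat_lit 532) (nat_lit 0) (XT.nd (nat_lit 156) (nat_lit 456) (nat_lit 0) (XT.nd (nat_lit 78) (nat_lit 76) (nat_lit 0) (XT.lf (nat_lit 0) (nat_lit 8004689727) (nat_lit 304) (nat_lit 9169696522) (nat_lit 380) (nat_lit 631532311) (nat_lit 50) (nat_lit 5) (nat_lit 54) (nat_lit 5) (nat_lit 55) (nat_lit 5) (nat_lit 332) (nat_lit 272) (nat_lit 176)) (XT.lf (nat_lit 0) (nat_lit 1982819605) (nat_lit 380) (nat_lit 2704863145) (nat_lit 76) (nat_lit 13495790011) (nat_lit 49) (nat_lit 5) (nat_lit 54) (nat_lit 5) (nat_lit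 50) (nat_lit 5) (nat_lit 333) (nat_lit 272) (nat_lit 175))) (XT.nd (nat_lit 78) (nat_lit 228) (nat_lit 0) (XT.lf (nat_lit 0) (nat_lit 4667333007) (nat_lit 228) (nat_lit 25114457) (nat_lit 304) (nat_lit 13878856324) (nat_lit 46) (nat_lit 5) (nat_lit 49) (nat_lit 5) (nat_lit 50) (nat_lit 5) (nat_lit 334) (nat_lit 272) (nat_lit 174)) (XT.nd (nat_lit 78) (nat_lit 228) (nat_lit 0) (XT.lf (nat_lit 0) (nat_lit 7541719179) (nat_lit 304) (nat_lit 6722083588) (nat_lit 76) (nat_lit 4705239574) (nat_lit 46) (nat_lit 5) (nat_lit 50) (nat_lit 5) (nat_lit 47) (nat_lit 5) (nat_lit 335) (nat_lit 272) (nat_lit 173)) (XT.lf (nat_lit 0) (nat_lit 666579829) (nat_lit 228) (nat_lit 9801834909) (nat_lit 304) (nat_lit 8910562511) (nat_lit 43) (nat_lit 5) (nat_lit 46) (nat_lit 5) (nat_lit 47) (nat_lit 5) (nat_lit 336) (nat_lit 272) (nat_lit 172))))) (XT.nd (nat_lit 234) (nat_lit 304) (nat_lit 0) (XT.nd (nat_lit 78) (nat_lit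 228) (nat_lit 0) (XT.lf (nat_lit 0) (nat_lit 8393470351) (nat_lit 228) (nat_lit 5142834534) (nat_lit 304) (nat_lit 6263325417) (nat_lit 43) (nat_lit 5) (nat_lit 46) (nat_lit 5) (nat_lit 47) (nat_lit 5) (nat_lit 337) (nat_lit 272) (nat_lit 171)) (XT.nd (nat_lit 78) (nat_lit 228) (nat_lit 0) (XT.lf (nat_lit 0) (nat_lit 16331556988) (nat_lit 228) (nat_lit 350610534) (nat_lit 304) (nat_lit 3551178625) (nat_lit 43) (nat_lit 5) (nat_lit 46) (nat_lit 5) (nat_lit 47) (nat_lit 5) (nat_lit 338) (nat_lit 272) (nat_lit 170)) (XT.lf (nat_lit 0) (nat_lit 3838151956) (nat_lit 228) (nat_lit 16151510553) (nat_lit 304) (nat_lit 688413917) (nat_lit 40) (nat_lit 5) (nat_lit 43) (nat_lit 5) (nat_lit 44) (nat_lit 5) (nat_lit 339) (nat_lit 272) (nat_lit 169)))) (XT.nd (nat_lit 78) (nat_lit 228) (nat_lit 0) (XT.lf (nat_lit 0) (nat_lit 2245726754) (nat_lit 304) (nat_lit 9290751776) (nat_lit 76) (nat_lit 9598149798)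 (nat_lit 39) (nat_lit 5) (nat_lit 43) (nat_lit 5) (nat_lit 40) (nat_lit 5) (nat_lit 340) (nat_lit 272) (nat_lit 168)) (XT.nd (nat_lit 78) (nat_lit 228) (nat_lit 0) (XT.lf (nat_lit 0) (nat_lit 5240789585) (nat_lit 304) (nat_lit 1541794725) (nat_lit 76) (nat_lit 14822504868) (nat_lit 39) (nat_lit 5) (nat_lit 43) (nat_lit 5) (nat_lit 40) (nat_lit 5) (nat_lit 341) (nat_lit 272) (nat_lit 167)) (XT.lf (nat_lit 0) (nat_lit 6548112329) (nat_lit 228) (nat_lit 1827657188) (nat_lit 304) (nat_lit 13712410729) (nat_lit 36) (nat_lit 5) (nat_lit 39) (nat_lit 5) (nat_lit 40) (nat_lit 5) (nat_lit 342) (nat_lit 272) (nat_lit 166))))))) (XT.nd (nat_lit 858) (nat_lit 532) (nat_lit 0) (XT.nd (nat_lit 390) (nat_lit 304) (nat_lit 0) (XT.nd (nat_lit 156) (nat_lit 304) (nat_lit 0) (XT.nd (nat_lit 78) (nat_lit 152) (nat_lit 0) (XT.lf (nat_lit 0) (nat_lit 11639262735) (nat_lit 304) (nat_lit 7724062909) (nat_lit 76) (nat_lit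 3221422301) (nat_lit 36) (nat_lit 5) (nat_lit 40) (nat_lit 5) (nat_lit 37) (nat_lit 5) (nat_lit 343) (nat_lit 272) (nat_lit 165)) (XT.lf (nat_lit 0) (nat_lit 295210026) (nat_lit 152) (nat_lit 14714005931) (nat_lit 228) (nat_lit 8086757358) (nat_lit 34) (nat_lit 5) (nat_lit 36) (nat_lit 5) (nat_lit 37) (nat_lit 5) (nat_lit 344) (nat_lit 272) (nat_lit 164))) (XT.nd (nat_lit 78) (nat_lit 304) (nat_lit 0) (XT.lf (nat_lit 0) (nat_lit 8694704720) (nat_lit 152) (nat_lit 9851363649) (nat_lit 228) (nat_lit 5074509854) (nat_lit 34) (nat_lit 5) (nat_lit 36) (nat_lit 5) (nat_lit 37) (nat_lit 5) (nat_lit 345) (nat_lit 272) (nat_lit 163)) (XT.nd (nat_lit 78) (nat_lit 304) (nat_lit 0) (XT.lf (nat_lit 0) (nat_lit 17328036538) (nat_lit 152) (nat_lit 4849147777) (nat_lit 228) (nat_lit 1984108527) (nat_lit 34) (nat_lit 5) (nat_lit 36) (nat_lit 5) (nat_lit 37) (nat_lit 5) (nat_lit 346) (nat_lit 272) (nat_lit 162))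 (XT.lf (nat_lit 0) (nat_lit 1181531175) (nat_lit 304) (nat_lit 23218866630) (nat_lit 76) (nat_lit 317322998) (nat_lit 30) (nat_lit 5) (nat_lit 34) (nat_lit 5) (nat_lit 31) (nat_lit 5) (nat_lit 347) (nat_lit 272) (nat_lit 161))))) (XT.nd (nat_lit 234) (nat_lit 152) (nat_lit 0) (XT.nd (nat_lit 78) (nat_lit 152) (nat_lit 0) (XT.lf (nat_lit 0) (nat_lit 4508440690) (nat_lit 304) (nat_lit 15154097189) (nat_lit 76) (nat_lit 5624543928) (nat_lit 30) (nat_lit 5) (nat_lit 34) (nat_lit 5) (nat_lit 31) (nat_lit 5) (nat_lit 348) (nat_lit 272) (nat_lit 160)) (XT.nd (nat_lit 78) (nat_lit 152) (nat_lit 0) (XT.lf (nat_lit 0) (nat_lit 7923975150) (nat_lit 304) (nat_lit 6864850186) (nat_lit 76) (nat_lit 11085048260) (nat_lit 30) (nat_lit 5) (nat_lit 34) (nat_lit 5) (nat_lit 31) (nat_lit 5) (nat_lit 349) (nat_lit 272) (nat_lit 159)) (XT.lf (nat_lit 0) (nat_lit 1689077393) (nat_lit 152) (nat_lit 9758278057) (nat_lit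 228) (nat_lit 15030766360) (nat_lit 28) (nat_lit 5) (nat_lit 30) (nat_lit 5) (nat_lit 31) (nat_lit 5) (nat_lit 350) (nat_lit 272) (nat_lit 158)))) (XT.nd (nat_lit 78) (nat_lit 152) (nat_lit 0) (XT.lf (nat_lit 0) (nat_lit 10623554925) (nat_lit 152) (nat_lit 4511501931) (nat_lit 228) (nat_lit 11963695676) (nat_lit 28) (nat_lit 5) (nat_lit 30) (nat_lit 5) (nat_lit 31) (nat_lit 5) (nat_lit 351) (nat_lit 272) (nat_lit 157)) (XT.nd (nat_lit 78) (nat_lit 152) (nat_lit 0) (XT.lf (nat_lit 0) (nat_lit 18931523319) (nat_lit 228) (nat_lit 7937086019) (nat_lit 76) (nat_lit 869462075) (nat_lit 28) (nat_lit 5) (nat_lit 31) (nat_lit 5) (nat_lit 29) (nat_lit 5) (nat_lit 352) (nat_lit 272) (nat_lit 156)) (XT.lf (nat_lit 0) (nat_lit 812263719) (nat_lit 152) (nat_lit 22071953698) (nat_lit 228) (nat_lit 5511095304) (nat_lit 26) (nat_lit 5) (nat_lit 28) (nat_lit 5) (nat_lit 29) (nat_lit 5) (nat_lit 353) (nat_lit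 272) (nat_lit 155)))))) (XT.nd (nat_lit 468) (nat_lit 304) (nat_lit 0) (XT.nd (nat_lit 234) (nat_lit 152) (nat_lit 0) (XT.nd (nat_lit 78) (nat_lit 76) (nat_lit 0) (XT.lf (nat_lit 0) (nat_lit 9970867096) (nat_lit 152) (nat_lit 17054773875) (nat_lit 228) (nat_lit 2044538333) (nat_lit 26) (nat_lit 5) (nat_lit 28) (nat_lit 5) (nat_lit 29) (nat_lit 5) (nat_lit 354) (nat_lit 272) (nat_lit 154)) (XT.nd (nat_lit 78) (nat_lit 0) (nat_lit 0) (XT.lf (nat_lit 0) (nat_lit 1486420164) (nat_lit 228) (nat_lit 10391404837) (nat_lit 76) (nat_lit 17887333106) (nat_lit 25) (nat_lit 5) (nat_lit 28) (nat_lit 5) (nat_lit 26) (nat_lit 5) (nat_lit 355) (nat_lit 272) (nat_lit 153)) (XT.lf (nat_lit 0) (nat_lit 5072683032) (nat_lit 228) (nat_lit 1457719249) (nat_lit 76) (nat_lit 23950274076) (nat_lit 25) (nat_lit 5) (nat_lit 28) (nat_lit 5) (nat_lit 26) (nat_lit 5) (nat_lit 356) (nat_lit 272) (nat_lit 152)))) (XT.nd (nat_lit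 78) (nat_lit 0) (nat_lit 0) (XT.lf (nat_lit 0) (nat_lit 7883030355) (nat_lit 152) (nat_lit 950026358) (nat_lit 228) (nat_lit 22382618855) (nat_lit 23) (nat_lit 5) (nat_lit 25) (nat_lit 5) (nat_lit 26) (nat_lit 5) (nat_lit 357) (nat_lit 272) (nat_lit 151)) (XT.nd (nat_lit 78) (nat_lit 0) (nat_lit 0) (XT.lf (nat_lit 0) (nat_lit 12758048892) (nat_lit 228) (nat_lit 14499523295) (nat_lit 76) (nat_lit 4713609129) (nat_lit 23) (nat_lit 5) (nat_lit 26) (nat_lit 5) (nat_lit 24) (nat_lit 5) (nat_lit 358) (nat_lit 272) (nat_lit 150)) (XT.lf (nat_lit 0) (nat_lit 16801286771) (nat_lit 228) (nat_lit 5425240765) (nat_lit 76) (nat_lit 10522820286) (nat_lit 23) (nat_lit 5) (nat_lit 26) (nat_lit 5) (nat_lit 24) (nat_lit 5) (nat_lit 359) (nat_lit 272) (nat_lit 149))))) (XT.nd (nat_lit 234) (nat_lit 152) (nat_lit 0) (XT.nd (nat_lit 78) (nat_lit 0) (nat_lit 0) (XT.lf (nat_lit 0) (nat_lit 3985025800) (nat_lit 152)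 (nat_lit 17010451746) (nat_lit 228) (nat_lit 12554502266) (nat_lit 21) (nat_lit 5) (nat_lit 23) (nat_lit 5) (nat_lit 24) (nat_lit 5) (nat_lit 360) (nat_lit 272) (nat_lit 148)) (XT.nd (nat_lit 78) (nat_lit 0) (nat_lit 0) (XT.lf (nat_lit 0) (nat_lit 13774943154) (nat_lit 152) (nat_lit 11586803082) (nat_lit 228) (nat_lit 9011506823) (nat_lit 21) (nat_lit 5) (nat_lit 23) (nat_lit 5) (nat_lit 24) (nat_lit 5) (nat_lit 361) (nat_lit 272) (nat_lit 147)) (XT.lf (nat_lit 0) (nat_lit 23845092664) (nat_lit 152) (nat_lit 6005626729) (nat_lit 228) (nat_lit 5370763195) (nat_lit 21) (nat_lit 5) (nat_lit 23) (nat_lit 5) (nat_lit 24) (nat_lit 5) (nat_lit 362) (nat_lit 272) (nat_lit 146)))) (XT.nd (nat_lit 78) (nat_lit 152) (nat_lit 0) (XT.lf (nat_lit 0) (nat_lit 34204273489) (nat_lit 152) (nat_lit 262045930) (nat_lit 228) (nat_lit 1629090150) (nat_lit 21) (nat_lit 5) (nat_lit 23) (nat_lit 5) (nat_lit 24) (nat_lit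 5) (nat_lit 363) (nat_lit 272) (nat_lit 145)) (XT.nd (nat_lit 78) (nat_lit 0) (nat_lit 0) (XT.lf (nat_lit 0) (nat_lit 2305704188) (nat_lit 152) (nat_lit 29047574644) (nat_lit 76) (nat_lit 5637914132) (nat_lit 19) (nat_lit 5) (nat_lit 21) (nat_lit 5) (nat_lit 20) (nat_lit 5) (nat_lit 364) (nat_lit 272) (nat_lit 144)) (XT.lf (nat_lit 0) (nat_lit 6339845375) (nat_lit 152) (nat_lit 19832935146) (nat_lit 76) (nat_lit 11740172576) (nat_lit 19) (nat_lit 5) (nat_lit 21) (nat_lit 5) (nat_lit 20) (nat_lit 5) (nat_lit 365) (nat_lit 272) (nat_lit 143))))))))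
noncomputable def xc147 : XT := (XT.nd (nat_lit 1716) (nat_lit 76) (nat_lit 0) (XT.nd (nat_lit 858) (nat_lit 304) (nat_lit 0) (XT.nd (nat_lit 390) (nat_lit 304) (nat_lit 0) (XT.nd (nat_lit 156) (nat_lit 152) (nat_lit 0) (XT.nd (nat_lit 78) (nat_lit 0) (nat_lit 0) (XT.lf (nat_lit 0) (nat_lit 10487404739) (nat_lit 152) (nat_lit 10354406735) (nat_lit 76) (nat_lit 18020791002) (nat_lit 19) (nat_lit 5) (nat_lit 21) (nat_lit 5) (nat_lit 20) (nat_lit 5) (nat_lit 366) (nat_lit 272) (nat_lit 142)) (XT.lf (nat_lit 0) (nat_lit 14752006361) (nat_lit 152) (nat_lit 603707205) (nat_lit 76) (nat_lit 24485257327) (nat_lit 19) (nat_lit 5) (nat_lit 21) (nat_lit 5) (nat_lit 20) (nat_lit 5) (nat_lit 367) (nat_lit 272) (nat_lit 141))) (XT.nd (nat_lit 78) (nat_lit 0) (nat_lit 0) (XT.lf (nat_lit 0) (nat_lit 9615312861) (nat_lit 152) (nat_lit 9614492000) (nat_lit 228) (nat_lit 21616335524) (nat_lit 17) (nat_lit 5) (nat_lit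 19) (nat_lit 5) (nat_lit 20) (nat_lit 5) (nat_lit 368) (nat_lit 272) (nat_lit 140)) (XT.nd (nat_lit 78) (nat_lit 0) (nat_lit 0) (XT.lf (nat_lit 0) (nat_lit 20141565078) (nat_lit 152) (nat_lit 3699395275) (nat_lit 228) (nat_lit 18040541476) (nat_lit 17) (nat_lit 5) (nat_lit 19) (nat_lit 5) (nat_lit 20) (nat_lit 5) (nat_lit 369) (nat_lit 272) (nat_lit 139)) (XT.lf (nat_lit 0) (nat_lit 28606544459) (nat_lit 228) (nat_lit 11998866444) (nat_lit 76) (nat_lit 2342037735) (nat_lit 17) (nat_lit 5) (nat_lit 20) (nat_lit 5) (nat_lit 18) (nat_lit 4) (nat_lit 370) (nat_lit 272) (nat_lit 138))))) (XT.nd (nat_lit 234) (nat_lit 228) (nat_lit 0) (XT.nd (nat_lit 78) (nat_lit 76) (nat_lit 0) (XT.lf (nat_lit 0) (nat_lit 33545014526) (nat_lit 228) (nat_lit 2013398232) (nat_lit 76) (nat_lit 8486070667) (nat_lit 17) (nat_lit 5) (nat_lit 20) (nat_lit 5) (nat_lit 18) (nat_lit 4) (nat_lit 371) (nat_lit 272) (nat_lit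 137)) (XT.nd (nat_lit 78) (nat_lit 0) (nat_lit 0) (XT.lf (nat_lit 0) (nat_lit 8425159102) (nat_lit 76) (nat_lit 30280953553) (nat_lit 152) (nat_lit 6466089301) (nat_lit 16) (nat_lit 5) (nat_lit 17) (nat_lit 5) (nat_lit 18) (nat_lit 4) (nat_lit 372) (nat_lit 272) (nat_lit 136)) (XT.lf (nat_lit 0) (nat_lit 19207372390) (nat_lit 76) (nat_lit 24828575051) (nat_lit 152) (nat_lit 2297394206) (nat_lit 16) (nat_lit 5) (nat_lit 17) (nat_lit 5) (nat_lit 18) (nat_lit 4) (nat_lit 373) (nat_lit 272) (nat_lit 135)))) (XT.nd (nat_lit 78) (nat_lit 152) (nat_lit 0) (XT.lf (nat_lit 0) (nat_lit 1951096904) (nat_lit 152) (nat_lit 17246045256) (nat_lit 76) (nat_lit 28331793253) (nat_lit 15) (nat_lit 5) (nat_lit 17) (nat_lit 5) (nat_lit 16) (nat_lit 5) (nat_lit 374) (nat_lit 272) (nat_lit 134)) (XT.nd (nat_lit 78) (nat_lit 152) (nat_lit 0) (XT.lf (nat_lit 0) (nat_lit 6274742517) (nat_lit 152) (nat_lit 7102753071)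 (nat_lit 76) (nat_lit 35382408901) (nat_lit 15) (nat_lit 5) (nat_lit 17) (nat_lit 5) (nat_lit 16) (nat_lit 5) (nat_lit 375) (nat_lit 272) (nat_lit 133)) (XT.lf (nat_lit 0) (nat_lit 3401224465) (nat_lit 152) (nat_lit 7353621196) (nat_lit 228) (nat_lit 39272160500) (nat_lit 13) (nat_lit 5) (nat_lit 15) (nat_lit 5) (nat_lit 16) (nat_lit 5) (nat_lit 376) (nat_lit 272) (nat_lit 132)))))) (XT.nd (nat_lit 390) (nat_lit 228) (nat_lit 0) (XT.nd (nat_lit 156) (nat_lit 76) (nat_lit 0) (XT.nd (nat_lit 78) (nat_lit 0) (nat_lit 0) (XT.lf (nat_lit 0) (nat_lit 14356035127) (nat_lit 152) (nat_lit 1079172336) (nat_lit 228) (nat_lit 35894943548) (nat_lit 13) (nat_lit 5) (nat_lit 15) (nat_lit 5) (nat_lit 16) (nat_lit 5) (nat_lit 377) (nat_lit 272) (nat_lit 131)) (XT.lf (nat_lit 0) (nat_lit 20301994824) (nat_lit 228) (nat_lit 27094386487) (nat_lit 76) (nat_lit 5274634079) (nat_lit 13) (nat_lit 5) (nat_lit 16) (nat_lit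 5) (nat_lit 14) (nat_lit 4) (nat_lit 378) (nat_lit 272) (nat_lit 130))) (XT.nd (nat_lit 78) (nat_lit 76) (nat_lit 0) (XT.lf (nat_lit 0) (nat_lit 25319902829) (nat_lit 228) (nat_lit 16938403284) (nat_lit 76) (nat_lit 11793651538) (nat_lit 13) (nat_lit 5) (nat_lit 16) (nat_lit 5) (nat_lit 14) (nat_lit 4) (nat_lit 379) (nat_lit 272) (nat_lit 129)) (XT.nd (nat_lit 78) (nat_lit 76) (nat_lit 0) (XT.lf (nat_lit 0) (nat_lit 30482942394) (nat_lit 228) (nat_lit 6486918451) (nat_lit 76) (nat_lit 18504634808) (nat_lit 13) (nat_lit 5) (nat_lit 16) (nat_lit 5) (nat_lit 14) (nat_lit 4) (nat_lit 380) (nat_lit 272) (nat_lit 128)) (XT.lf (nat_lit 0) (nat_lit 4354165835) (nat_lit 76) (nat_lit 31483313982) (nat_lit 152) (nat_lit 21101136926) (nat_lit 12) (nat_lit 5) (nat_lit 13) (nat_lit 5) (nat_lit 14) (nat_lit 4) (nat_lit 381) (nat_lit 272) (nat_lit 127))))) (XT.nd (nat_lit 234) (nat_lit 228) (nat_lit 0) (XT.nd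 (nat_lit 78) (nat_lit 0) (nat_lit 0) (XT.lf (nat_lit 0) (nat_lit 15644634928) (nat_lit 76) (nat_lit 25768343405) (nat_lit 152) (nat_lit 17031878381) (nat_lit 12) (nat_lit 5) (nat_lit 13) (nat_lit 5) (nat_lit 14) (nat_lit 4) (nat_lit 382) (nat_lit 272) (nat_lit 126)) (XT.nd (nat_lit 78) (nat_lit 0) (nat_lit 0) (XT.lf (nat_lit 0) (nat_lit 27265251889) (nat_lit 76) (nat_lit 19885460609) (nat_lit 152) (nat_lit 12845727118) (nat_lit 12) (nat_lit 5) (nat_lit 13) (nat_lit 5) (nat_lit 14) (nat_lit 4) (nat_lit 383) (nat_lit 272) (nat_lit 125)) (XT.lf (nat_lit 0) (nat_lit 39226170655) (nat_lit 76) (nat_lit 13829525210) (nat_lit 152) (nat_lit 8539025336) (nat_lit 12) (nat_lit 5) (nat_lit 13) (nat_lit 5) (nat_lit 14) (nat_lit 4) (nat_lit 384) (nat_lit 272) (nat_lit 124)))) (XT.nd (nat_lit 78) (nat_lit 228) (nat_lit 0) (XT.lf (nat_lit 0) (nat_lit 51537842515) (nat_lit 76) (nat_lit 7595245615) (nat_lit 152)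 (nat_lit 4108009897) (nat_lit 12) (nat_lit 5) (nat_lit 13) (nat_lit 5) (nat_lit 14) (nat_lit 4) (nat_lit 385) (nat_lit 272) (nat_lit 123)) (XT.nd (nat_lit 78) (nat_lit 152) (nat_lit 0) (XT.lf (nat_lit 0) (nat_lit 442386599) (nat_lit 152) (nat_lit 730320557) (nat_lit 76) (nat_lit 63764171403) (nat_lit 11) (nat_lit 5) (nat_lit 13) (nat_lit 5) (nat_lit 12) (nat_lit 5) (nat_lit 386) (nat_lit 272) (nat_lit 122)) (XT.lf (nat_lit 0) (nat_lit 5199092204) (nat_lit 228) (nat_lit 56000206332) (nat_lit 76) (nat_lit 5478447031) (nat_lit 9) (nat_lit 5) (nat_lit 12) (nat_lit 5) (nat_lit 10) (nat_lit 4) (nat_lit 387) (nat_lit 272) (nat_lit 121))))))) (XT.nd (nat_lit 32058) (nat_lit 0) (nat_lit 13376) (XT.nd (nat_lit 390) (nat_lit 76) (nat_lit 0) (XT.nd (nat_lit 156) (nat_lit 0) (nat_lit 0) (XT.nd (nat_lit 78) (nat_lit 0) (nat_lit 0) (XT.lf (nat_lit 0) (nat_lit 10113068561) (nat_lit 228) (nat_lit 46047432494)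 (nat_lit 76) (nat_lit 12309904507) (nat_lit 9) (nat_lit 5) (nat_lit 12) (nat_lit 5) (nat_lit 10) (nat_lit 4) (nat_lit 388) (nat_lit 272) (nat_lit 120)) (XT.lf (nat_lit 0) (nat_lit 15170105762) (nat_lit 228) (nat_lit 35803586946) (nat_lit 76) (nat_lit 19343287349) (nat_lit 9) (nat_lit 5) (nat_lit 12) (nat_lit 5) (nat_lit 10) (nat_lit 4) (nat_lit 389) (nat_lit 272) (nat_lit 119))) (XT.nd (nat_lit 78) (nat_lit 0) (nat_lit 0) (XT.lf (nat_lit 0) (nat_lit 20374622575) (nat_lit 228) (nat_lit 25259718755) (nat_lit 76) (nat_lit 26584741231) (nat_lit 9) (nat_lit 5) (nat_lit 12) (nat_lit 5) (nat_lit 10) (nat_lit 4) (nat_lit 390) (nat_lit 272) (nat_lit 118)) (XT.nd (nat_lit 78) (nat_lit 0) (nat_lit 0) (XT.lf (nat_lit 0) (nat_lit 25731166638) (nat_lit 228) (nat_lit 14406614832) (nat_lit 76) (nat_lit 34040593637) (nat_lit 9) (nat_lit 5) (nat_lit 12) (nat_lit 5) (nat_lit 10) (nat_lit 4) (nat_lit 391) (nat_lit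 272) (nat_lit 117)) (XT.lf (nat_lit 0) (nat_lit 31244418425) (nat_lit 228) (nat_lit 3234791883) (nat_lit 76) (nat_lit 41717359391) (nat_lit 9) (nat_lit 5) (nat_lit 12) (nat_lit 5) (nat_lit 10) (nat_lit 4) (nat_lit 392) (nat_lit 272) (nat_lit 116))))) (XT.nd (nat_lit 31434) (nat_lit 0) (nat_lit 14896) (XT.nd (nat_lit 31278) (nat_lit 0) (nat_lit 15656) (XT.lf (nat_lit 0) (nat_lit 8430011773) (nat_lit 76) (nat_lit 28570217999) (nat_lit 152) (nat_lit 41272769001) (nat_lit 8) (nat_lit 5) (nat_lit 9) (nat_lit 5) (nat_lit 10) (nat_lit 4) (nat_lit 393) (nat_lit 272) (nat_lit 115)) (XT.nd (nat_lit 78) (nat_lit 0) (nat_lit 0) (XT.lf (nat_lit 0) (nat_lit 438077487) (nat_lit 0) (nat_lit 438077487) (nat_lit 684) (nat_lit 2719416071) (nat_lit 214) (nat_lit 5) (nat_lit 214) (nat_lit 3) (nat_lit 223) (nat_lit 3) (nat_lit 273) (nat_lit 273) (nat_lit 234)) (XT.lf (nat_lit 0) (nat_lit 3274431745) (nat_lit 684)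 (nat_lit 3243295438) (nat_lit 760) (nat_lit 731828304) (nat_lit 214) (nat_lit 5) (nat_lit 223) (nat_lit 3) (nat_lit 224) (nat_lit 5) (nat_lit 274) (nat_lit 273) (nat_lit 233)))) (XT.nd (nat_lit 78) (nat_lit 760) (nat_lit 0) (XT.lf (nat_lit 0) (nat_lit 4793072905) (nat_lit 684) (nat_lit 119377853) (nat_lit 760) (nat_lit 2398923545) (nat_lit 214) (nat_lit 5) (nat_lit 223) (nat_lit 3) (nat_lit 224) (nat_lit 5) (nat_lit 275) (nat_lit 273) (nat_lit 232)) (XT.nd (nat_lit 78) (nat_lit 760) (nat_lit 0) (XT.lf (nat_lit 76) (nat_lit 3128974982) (nat_lit 0) (nat_lit 3202240899) (nat_lit 760) (nat_lit 1044787011) (nat_lit 215) (nat_lit 5) (nat_lit 214) (nat_lit 5) (nat_lit 224) (nat_lit 5) (nat_lit 276) (nat_lit 273) (nat_lit 231)) (XT.lf (nat_lit 0) (nat_lit 409425167) (nat_lit 760) (nat_lit 1001177112) (nat_lit 836) (nat_lit 6033623575) (nat_lit 204) (nat_lit 5) (nat_lit 214) (nat_lit 5) (nat_lit 215)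 (nat_lit 5) (nat_lit 277) (nat_lit 273) (nat_lit 230)))))) (XT.nd (nat_lit 468) (nat_lit 836) (nat_lit 0) (XT.nd (nat_lit 234) (nat_lit 760) (nat_lit 0) (XT.nd (nat_lit 78) (nat_lit 0) (nat_lit 0) (XT.lf (nat_lit 0) (nat_lit 1859677269) (nat_lit 760) (nat_lit 5172907598) (nat_lit 836) (nat_lit 482556687) (nat_lit 205) (nat_lit 5) (nat_lit 215) (nat_lit 5) (nat_lit 216) (nat_lit 5) (nat_lit 278) (nat_lit 273) (nat_lit 229)) (XT.nd (nat_lit 78) (nat_lit 0) (nat_lit 0) (XT.lf (nat_lit 0) (nat_lit 3325229541) (nat_lit 760) (nat_lit 1827526236) (nat_lit 836) (nat_lit 2436429309) (nat_lit 205) (nat_lit 5) (nat_lit 215) (nat_lit 5) (nat_lit 216) (nat_lit 5) (nat_lit 279) (nat_lit 273) (nat_lit 228)) (XT.lf (nat_lit 76) (nat_lit 1618687594) (nat_lit 0) (nat_lit 3180762567) (nat_lit 836) (nat_lit 2867208361) (nat_lit 206) (nat_lit 5) (nat_lit 205) (nat_lit 5) (nat_lit 216) (nat_lit 5) (nat_lit 280) (nat_lit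 273) (nat_lit 227)))) (XT.nd (nat_lit 78) (nat_lit 760) (nat_lit 0) (XT.lf (nat_lit 76) (nat_lit 5174939994) (nat_lit 0) (nat_lit 1111738939) (nat_lit 836) (nat_lit 1460859075) (nat_lit 206) (nat_lit 5) (nat_lit 205) (nat_lit 5) (nat_lit 216) (nat_lit 5) (nat_lit 281) (nat_lit 273) (nat_lit 226)) (XT.nd (nat_lit 78) (nat_lit 836) (nat_lit 0) (XT.lf (nat_lit 76) (nat_lit 984777132) (nat_lit 0) (nat_lit 6804962302) (nat_lit 836) (nat_lit 42109057) (nat_lit 207) (nat_lit 5) (nat_lit 206) (nat_lit 5) (nat_lit 217) (nat_lit 5) (nat_lit 282) (nat_lit 273) (nat_lit 225)) (XT.lf (nat_lit 0) (nat_lit 1381201185) (nat_lit 836) (nat_lit 3273652055) (nat_lit 912) (nat_lit 3263868000) (nat_lit 195) (nat_lit 5) (nat_lit 206) (nat_lit 5) (nat_lit 207) (nat_lit 5) (nat_lit 283) (nat_lit 273) (nat_lit 224))))) (XT.nd (nat_lit 234) (nat_lit 836) (nat_lit 0) (XT.nd (nat_lit 78) (nat_lit 0) (nat_lit 0) (XT.lf (nat_lit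 76) (nat_lit 382516596) (nat_lit 0) (nat_lit 2421358533) (nat_lit 912) (nat_lit 5205716302) (nat_lit 196) (nat_lit 5) (nat_lit 195) (nat_lit 5) (nat_lit 207) (nat_lit 5) (nat_lit 284) (nat_lit 273) (nat_lit 223)) (XT.nd (nat_lit 78) (nat_lit 0) (nat_lit 76) (XT.lf (nat_lit 76) (nat_lit 4184285209) (nat_lit 0) (nat_lit 72880125) (nat_lit 912) (nat_lit 3846509643) (nat_lit 196) (nat_lit 5) (nat_lit 195) (nat_lit 5) (nat_lit 207) (nat_lit 5) (nat_lit 285) (nat_lit 273) (nat_lit 222)) (XT.lf (nat_lit 0) (nat_lit 5732928730) (nat_lit 836) (nat_lit 154874998) (nat_lit 912) (nat_lit 2313532747) (nat_lit 196) (nat_lit 5) (nat_lit 207) (nat_lit 5) (nat_lit 208) (nat_lit 5) (nat_lit 286) (nat_lit 273) (nat_lit 221)))) (XT.nd (nat_lit 78) (nat_lit 912) (nat_lit 0) (XT.lf (nat_lit 76) (nat_lit 3764388905) (nat_lit 0) (nat_lit 3483078259) (nat_lit 912) (nat_lit 1054743724) (nat_lit 197) (nat_lit 5) (nat_lit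 196) (nat_lit 5) (nat_lit 208) (nat_lit 5) (nat_lit 287) (nat_lit 273) (nat_lit 220)) (XT.nd (nat_lit 78) (nat_lit 0) (nat_lit 76) (XT.lf (nat_lit 0) (nat_lit 353090961) (nat_lit 912) (nat_lit 637097764) (nat_lit 988) (nat_lit 7417130665) (nat_lit 184) (nat_lit 5) (nat_lit 196) (nat_lit 5) (nat_lit 197) (nat_lit 5) (nat_lit 288) (nat_lit 273) (nat_lit 219)) (XT.lf (nat_lit 0) (nat_lit 1789626418) (nat_lit 912) (nat_lit 5125282286) (nat_lit 76) (nat_lit 1600237312) (nat_lit 185) (nat_lit 5) (nat_lit 197) (nat_lit 5) (nat_lit 186) (nat_lit 5) (nat_lit 289) (nat_lit 273) (nat_lit 218))))))))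
noncomputable def xc148 : XT := (XT.nd (nat_lit 1716) (nat_lit 3572) (nat_lit 0) (XT.nd (nat_lit 858) (nat_lit 2508) (nat_lit 0) (XT.nd (nat_lit 390) (nat_lit 2280) (nat_lit 0) (XT.nd (nat_lit 156) (nat_lit 1064) (nat_lit 0) (XT.nd (nat_lit 78) (nat_lit 912) (nat_lit 0) (XT.lf (nat_lit 0) (nat_lit 3245781732) (nat_lit 912) (nat_lit 1116926114) (nat_lit 76) (nat_lit 4264308842) (nat_lit 185) (nat_lit 5) (nat_lit 197) (nat_lit 5) (nat_lit 186) (nat_lit 5) (nat_lit 290) (nat_lit 273) (nat_lit 217)) (XT.lf (nat_lit 0) (nat_lit 3040192172) (nat_lit 912) (nat_lit 1696035089) (nat_lit 988) (nat_lit 4006399959) (nat_lit 173) (nat_lit 5) (nat_lit 185) (nat_lit 5) (nat_lit 186) (nat_lit 5) (nat_lit 291) (nat_lit 273) (nat_lit 216))) (XT.nd (nat_lit 78) (nat_lit 1064) (nat_lit 0) (XT.lf (nat_lit 0) (nat_lit 6255158790) (nat_lit 988) (nat_lit 1558472912) (nat_lit 76) (nat_lit 1048660123) (nat_lit 173) (nat_lit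 5) (nat_lit 186) (nat_lit 5) (nat_lit 174) (nat_lit 5) (nat_lit 292) (nat_lit 273) (nat_lit 215)) (XT.nd (nat_lit 78) (nat_lit 76) (nat_lit 0) (XT.lf (nat_lit 0) (nat_lit 2715109793) (nat_lit 988) (nat_lit 5110821577) (nat_lit 1064) (nat_lit 1159522860) (nat_lit 160) (nat_lit 5) (nat_lit 173) (nat_lit 5) (nat_lit 174) (nat_lit 5) (nat_lit 293) (nat_lit 273) (nat_lit 214)) (XT.lf (nat_lit 0) (nat_lit 304647490) (nat_lit 1064) (nat_lit 1997732234) (nat_lit 76) (nat_lit 6810538695) (nat_lit 159) (nat_lit 5) (nat_lit 173) (nat_lit 5) (nat_lit 160) (nat_lit 5) (nat_lit 294) (nat_lit 273) (nat_lit 213))))) (XT.nd (nat_lit 234) (nat_lit 532) (nat_lit 0) (XT.nd (nat_lit 78) (nat_lit 684) (nat_lit 0) (XT.lf (nat_lit 0) (nat_lit 1783413349) (nat_lit 1140) (nat_lit 6842290290) (nat_lit 76) (nat_lit 618427115) (nat_lit 145) (nat_lit 5) (nat_lit 160) (nat_lit 5) (nat_lit 146) (nat_lit 5) (nat_lit 295) (nat_lit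 273) (nat_lit 212)) (XT.nd (nat_lit 78) (nat_lit 684) (nat_lit 0) (XT.lf (nat_lit 0) (nat_lit 3315253197) (nat_lit 1140) (nat_lit 2458663850) (nat_lit 76) (nat_lit 3605186427) (nat_lit 145) (nat_lit 5) (nat_lit 160) (nat_lit 5) (nat_lit 146) (nat_lit 5) (nat_lit 296) (nat_lit 273) (nat_lit 211)) (XT.lf (nat_lit 0) (nat_lit 2066360599) (nat_lit 684) (nat_lit 2813096648) (nat_lit 760) (nat_lit 4639158716) (nat_lit 136) (nat_lit 5) (nat_lit 145) (nat_lit 5) (nat_lit 146) (nat_lit 5) (nat_lit 297) (nat_lit 273) (nat_lit 210)))) (XT.nd (nat_lit 78) (nat_lit 532) (nat_lit 0) (XT.lf (nat_lit 0) (nat_lit 6485190702) (nat_lit 760) (nat_lit 2917776096) (nat_lit 76) (nat_lit 259589375) (nat_lit 136) (nat_lit 5) (nat_lit 146) (nat_lit 5) (nat_lit 137) (nat_lit 5) (nat_lit 298) (nat_lit 273) (nat_lit 209)) (XT.nd (nat_lit 78) (nat_lit 0) (nat_lit 0) (XT.lf (nat_lit 0) (nat_lit 1728296401) (nat_lit 532) (nat_lit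 6423475285) (nat_lit 608) (nat_lit 1658740737) (nat_lit 129) (nat_lit 5) (nat_lit 136) (nat_lit 5) (nat_lit 137) (nat_lit 5) (nat_lit 299) (nat_lit 273) (nat_lit 208)) (XT.lf (nat_lit 0) (nat_lit 6543545825) (nat_lit 532) (nat_lit 3323115129) (nat_lit 608) (nat_lit 96372910) (nat_lit 129) (nat_lit 5) (nat_lit 136) (nat_lit 5) (nat_lit 137) (nat_lit 5) (nat_lit 300) (nat_lit 273) (nat_lit 207)))))) (XT.nd (nat_lit 390) (nat_lit 988) (nat_lit 0) (XT.nd (nat_lit 156) (nat_lit 912) (nat_lit 0) (XT.nd (nat_lit 78) (nat_lit 0) (nat_lit 0) (XT.lf (nat_lit 0) (nat_lit 1365399717) (nat_lit 532) (nat_lit 100452589) (nat_lit 608) (nat_lit 8654438604) (nat_lit 121) (nat_lit 5) (nat_lit 128) (nat_lit 5) (nat_lit 129) (nat_lit 5) (nat_lit 301) (nat_lit 273) (nat_lit 206)) (XT.lf (nat_lit 0) (nat_lit 3108816478) (nat_lit 608) (nat_lit 3980042737) (nat_lit 76) (nat_lit 3192372942) (nat_lit 121) (nat_lit 5)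 (nat_lit 129) (nat_lit 5) (nat_lit 122) (nat_lit 5) (nat_lit 302) (nat_lit 273) (nat_lit 205))) (XT.nd (nat_lit 78) (nat_lit 456) (nat_lit 0) (XT.lf (nat_lit 0) (nat_lit 925499701) (nat_lit 456) (nat_lit 3856330101) (nat_lit 532) (nat_lit 5665816403) (nat_lit 115) (nat_lit 5) (nat_lit 121) (nat_lit 5) (nat_lit 122) (nat_lit 5) (nat_lit 303) (nat_lit 273) (nat_lit 204)) (XT.nd (nat_lit 78) (nat_lit 456) (nat_lit 0) (XT.lf (nat_lit 0) (nat_lit 6030469024) (nat_lit 456) (nat_lit 486190878) (nat_lit 532) (nat_lit 4102109392) (nat_lit 115) (nat_lit 5) (nat_lit 121) (nat_lit 5) (nat_lit 122) (nat_lit 5) (nat_lit 304) (nat_lit 273) (nat_lit 203)) (XT.lf (nat_lit 0) (nat_lit 444174078) (nat_lit 456) (nat_lit 7864585251) (nat_lit 532) (nat_lit 2486173516) (nat_lit 109) (nat_lit 5) (nat_lit 115) (nat_lit 5) (nat_lit 116) (nat_lit 5) (nat_lit 305) (nat_lit 273) (nat_lit 202))))) (XT.nd (nat_lit 234) (nat_lit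 456) (nat_lit 0) (XT.nd (nat_lit 78) (nat_lit 532) (nat_lit 0) (XT.lf (nat_lit 0) (nat_lit 5687696032) (nat_lit 456) (nat_lit 4490814202) (nat_lit 532) (nat_lit 797216069) (nat_lit 109) (nat_lit 5) (nat_lit 115) (nat_lit 5) (nat_lit 116) (nat_lit 5) (nat_lit 306) (nat_lit 273) (nat_lit 201)) (XT.nd (nat_lit 78) (nat_lit 456) (nat_lit 0) (XT.lf (nat_lit 0) (nat_lit 897281660) (nat_lit 532) (nat_lit 111295139) (nat_lit 76) (nat_lit 10153955268) (nat_lit 108) (nat_lit 5) (nat_lit 115) (nat_lit 5) (nat_lit 109) (nat_lit 5) (nat_lit 307) (nat_lit 273) (nat_lit 200)) (XT.lf (nat_lit 0) (nat_lit 2676807904) (nat_lit 532) (nat_lit 6091299008) (nat_lit 76) (nat_lit 2585148212) (nat_lit 102) (nat_lit 5) (nat_lit 109) (nat_lit 5) (nat_lit 103) (nat_lit 5) (nat_lit 308) (nat_lit 273) (nat_lit 199)))) (XT.nd (nat_lit 78) (nat_lit 456) (nat_lit 0) (XT.lf (nat_lit 0) (nat_lit 4495349360) (nat_lit 532) (nat_lit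 789476867) (nat_lit 76) (nat_lit 6265359543) (nat_lit 102) (nat_lit 5) (nat_lit 109) (nat_lit 5) (nat_lit 103) (nat_lit 5) (nat_lit 309) (nat_lit 273) (nat_lit 198)) (XT.nd (nat_lit 78) (nat_lit 0) (nat_lit 0) (XT.lf (nat_lit 0) (nat_lit 4736149342) (nat_lit 456) (nat_lit 1653075476) (nat_lit 532) (nat_lit 5363229366) (nat_lit 96) (nat_lit 5) (nat_lit 102) (nat_lit 5) (nat_lit 103) (nat_lit 5) (nat_lit 310) (nat_lit 273) (nat_lit 197)) (XT.lf (nat_lit 0) (nat_lit 8343713798) (nat_lit 532) (nat_lit 1565119301) (nat_lit 76) (nat_lit 2051895270) (nat_lit 96) (nat_lit 5) (nat_lit 103) (nat_lit 5) (nat_lit 97) (nat_lit 5) (nat_lit 311) (nat_lit 273) (nat_lit 196))))))) (XT.nd (nat_lit 858) (nat_lit 1596) (nat_lit 0) (XT.nd (nat_lit 390) (nat_lit 760) (nat_lit 0) (XT.nd (nat_lit 156) (nat_lit 760) (nat_lit 0) (XT.nd (nat_lit 78) (nat_lit 76) (nat_lit 0) (XT.lf (nat_lit 0) (nat_lit 4085630806) (nat_lit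 380) (nat_lit 6303234296) (nat_lit 456) (nat_lit 1785474978) (nat_lit 91) (nat_lit 5) (nat_lit 96) (nat_lit 5) (nat_lit 97) (nat_lit 5) (nat_lit 312) (nat_lit 273) (nat_lit 195)) (XT.lf (nat_lit 0) (nat_lit 91538175) (nat_lit 456) (nat_lit 2484602192) (nat_lit 76) (nat_lit 9818462945) (nat_lit 90) (nat_lit 5) (nat_lit 96) (nat_lit 5) (nat_lit 91) (nat_lit 5) (nat_lit 313) (nat_lit 273) (nat_lit 194))) (XT.nd (nat_lit 78) (nat_lit 380) (nat_lit 0) (XT.lf (nat_lit 0) (nat_lit 2010581960) (nat_lit 456) (nat_lit 9325586080) (nat_lit 76) (nat_lit 1284173743) (nat_lit 85) (nat_lit 5) (nat_lit 91) (nat_lit 5) (nat_lit 86) (nat_lit 5) (nat_lit 314) (nat_lit 273) (nat_lit 193)) (XT.nd (nat_lit 78) (nat_lit 380) (nat_lit 0) (XT.lf (nat_lit 0) (nat_lit 4015630993) (nat_lit 456) (nat_lit 3606614010) (nat_lit 76) (nat_lit 5229798926) (nat_lit 85) (nat_lit 5) (nat_lit 91) (nat_lit 5) (nat_lit 86) (nat_lit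 5) (nat_lit 315) (nat_lit 273) (nat_lit 192)) (XT.lf (nat_lit 0) (nat_lit 2302462594) (nat_lit 380) (nat_lit 3778743885) (nat_lit 456) (nat_lit 7009522655) (nat_lit 80) (nat_lit 5) (nat_lit 85) (nat_lit 5) (nat_lit 86) (nat_lit 5) (nat_lit 316) (nat_lit 273) (nat_lit 191))))) (XT.nd (nat_lit 234) (nat_lit 380) (nat_lit 0) (XT.nd (nat_lit 78) (nat_lit 380) (nat_lit 0) (XT.lf (nat_lit 0) (nat_lit 8225839460) (nat_lit 456) (nat_lit 4901602898) (nat_lit 76) (nat_lit 208661814) (nat_lit 80) (nat_lit 5) (nat_lit 86) (nat_lit 5) (nat_lit 81) (nat_lit 5) (nat_lit 317) (nat_lit 273) (nat_lit 190)) (XT.nd (nat_lit 78) (nat_lit 0) (nat_lit 0) (XT.lf (nat_lit 0) (nat_lit 1120111867) (nat_lit 380) (nat_lit 9342083020) (nat_lit 456) (nat_lit 3125864831) (nat_lit 75) (nat_lit 5) (nat_lit 80) (nat_lit 5) (nat_lit 81) (nat_lit 5) (nat_lit 318) (nat_lit 273) (nat_lit 189)) (XT.lf (nat_lit 0) (nat_lit 7397218065)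 (nat_lit 380) (nat_lit 5397480769) (nat_lit 456) (nat_lit 1052042933) (nat_lit 75) (nat_lit 5) (nat_lit 80) (nat_lit 5) (nat_lit 81) (nat_lit 5) (nat_lit 319) (nat_lit 273) (nat_lit 188)))) (XT.nd (nat_lit 78) (nat_lit 304) (nat_lit 0) (XT.lf (nat_lit 0) (nat_lit 1042763442) (nat_lit 456) (nat_lit 286392137) (nat_lit 76) (nat_lit 12784355728) (nat_lit 74) (nat_lit 5) (nat_lit 80) (nat_lit 5) (nat_lit 75) (nat_lit 5) (nat_lit 320) (nat_lit 273) (nat_lit 187)) (XT.nd (nat_lit 78) (nat_lit 0) (nat_lit 0) (XT.lf (nat_lit 0) (nat_lit 3247001865) (nat_lit 380) (nat_lit 8268489769) (nat_lit 76) (nat_lit 2870484039) (nat_lit 70) (nat_lit 5) (nat_lit 75) (nat_lit 5) (nat_lit 71) (nat_lit 5) (nat_lit 321) (nat_lit 273) (nat_lit 186)) (XT.lf (nat_lit 0) (nat_lit 5514237266) (nat_lit 380) (nat_lit 1985366680) (nat_lit 76) (nat_lit 7167139091) (nat_lit 70) (nat_lit 5) (nat_lit 75) (nat_lit 5) (nat_lit 71)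 (nat_lit 5) (nat_lit 322) (nat_lit 273) (nat_lit 185)))))) (XT.nd (nat_lit 468) (nat_lit 608) (nat_lit 0) (XT.nd (nat_lit 234) (nat_lit 380) (nat_lit 0) (XT.nd (nat_lit 78) (nat_lit 304) (nat_lit 0) (XT.lf (nat_lit 0) (nat_lit 4550778466) (nat_lit 304) (nat_lit 3323804902) (nat_lit 380) (nat_lit 7080631381) (nat_lit 66) (nat_lit 5) (nat_lit 70) (nat_lit 5) (nat_lit 71) (nat_lit 5) (nat_lit 323) (nat_lit 273) (nat_lit 184)) (XT.nd (nat_lit 78) (nat_lit 304) (nat_lit 0) (XT.lf (nat_lit 0) (nat_lit 10316986967) (nat_lit 380) (nat_lit 3962190012) (nat_lit 76) (nat_lit 972859361) (nat_lit 66) (nat_lit 5) (nat_lit 71) (nat_lit 5) (nat_lit 67) (nat_lit 5) (nat_lit 324) (nat_lit 273) (nat_lit 183)) (XT.lf (nat_lit 0) (nat_lit 2668640654) (nat_lit 304) (nat_lit 10204725533) (nat_lit 380) (nat_lit 2683207464) (nat_lit 62) (nat_lit 5) (nat_lit 66) (nat_lit 5) (nat_lit 67) (nat_lit 5) (nat_lit 325) (nat_lit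 273) (nat_lit 182)))) (XT.nd (nat_lit 78) (nat_lit 380) (nat_lit 0) (XT.lf (nat_lit 0) (nat_lit 9556002239) (nat_lit 304) (nat_lit 5972879978) (nat_lit 380) (nat_lit 340722740) (nat_lit 62) (nat_lit 5) (nat_lit 66) (nat_lit 5) (nat_lit 67) (nat_lit 5) (nat_lit 326) (nat_lit 273) (nat_lit 181)) (XT.nd (nat_lit 78) (nat_lit 0) (nat_lit 0) (XT.lf (nat_lit 0) (nat_lit 422993929) (nat_lit 304) (nat_lit 1595423875) (nat_lit 380) (nat_lit 14173436890) (nat_lit 57) (nat_lit 5) (nat_lit 61) (nat_lit 5) (nat_lit 62) (nat_lit 5) (nat_lit 327) (nat_lit 273) (nat_lit 180)) (XT.lf (nat_lit 0) (nat_lit 4516845746) (nat_lit 380) (nat_lit 9086308462) (nat_lit 76) (nat_lit 2918284257) (nat_lit 57) (nat_lit 5) (nat_lit 62) (nat_lit 5) (nat_lit 58) (nat_lit 5) (nat_lit 328) (nat_lit 273) (nat_lit 179))))) (XT.nd (nat_lit 234) (nat_lit 380) (nat_lit 0) (XT.nd (nat_lit 78) (nat_lit 228) (nat_lit 0) (XT.lf (nat_lit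 0) (nat_lit 7089488981) (nat_lit 380) (nat_lit 2241940566) (nat_lit 76) (nat_lit 7529530085) (nat_lit 57) (nat_lit 5) (nat_lit 62) (nat_lit 5) (nat_lit 58) (nat_lit 5) (nat_lit 329) (nat_lit 273) (nat_lit 178)) (XT.nd (nat_lit 78) (nat_lit 0) (nat_lit 0) (XT.lf (nat_lit 0) (nat_lit 4880801646) (nat_lit 228) (nat_lit 4889374865) (nat_lit 304) (nat_lit 7439590921) (nat_lit 54) (nat_lit 5) (nat_lit 57) (nat_lit 5) (nat_lit 58) (nat_lit 5) (nat_lit 330) (nat_lit 273) (nat_lit 177)) (XT.lf (nat_lit 0) (nat_lit 12241202604) (nat_lit 228) (nat_lit 296925258) (nat_lit 304) (nat_lit 5030732470) (nat_lit 54) (nat_lit 5) (nat_lit 57) (nat_lit 5) (nat_lit 58) (nat_lit 5) (nat_lit 331) (nat_lit 273) (nat_lit 176)))) (XT.nd (nat_lit 78) (nat_lit 76) (nat_lit 0) (XT.lf (nat_lit 0) (nat_lit 1855513110) (nat_lit 304) (nat_lit 13578662889) (nat_lit 380) (nat_lit 2503223675) (nat_lit 50) (nat_lit 5) (nat_lit 54)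 (nat_lit 5) (nat_lit 55) (nat_lit 5) (nat_lit 332) (nat_lit 273) (nat_lit 175)) (XT.nd (nat_lit 78) (nat_lit 0) (nat_lit 0) (XT.lf (nat_lit 0) (nat_lit 140101582) (nat_lit 380) (nat_lit 8978309422) (nat_lit 76) (nat_lit 9197320922) (nat_lit 49) (nat_lit 5) (nat_lit 54) (nat_lit 5) (nat_lit 50) (nat_lit 5) (nat_lit 333) (nat_lit 273) (nat_lit 174)) (XT.lf (nat_lit 0) (nat_lit 2797533988) (nat_lit 380) (nat_lit 1707656145) (nat_lit 76) (nat_lit 14199950135) (nat_lit 49) (nat_lit 5) (nat_lit 54) (nat_lit 5) (nat_lit 50) (nat_lit 5) (nat_lit 334) (nat_lit 273) (nat_lit 173))))))))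
noncomputable def xc149 : XT := (XT.nd (nat_lit 1716) (nat_lit 912) (nat_lit 0) (XT.nd (nat_lit 858) (nat_lit 684) (nat_lit 0) (XT.nd (nat_lit 390) (nat_lit 684) (nat_lit 0) (XT.nd (nat_lit 156) (nat_lit 228) (nat_lit 0) (XT.nd (nat_lit 78) (nat_lit 0) (nat_lit 0) (XT.lf (nat_lit 0) (nat_lit 5579586418) (nat_lit 304) (nat_lit 13232727327) (nat_lit 76) (nat_lit 292592773) (nat_lit 46) (nat_lit 5) (nat_lit 50) (nat_lit 5) (nat_lit 47) (nat_lit 5) (nat_lit 335) (nat_lit 273) (nat_lit 172)) (XT.lf (nat_lit 0) (nat_lit 8492838898) (nat_lit 304) (nat_lit 5867324814) (nat_lit 76) (nat_lit 5155091799) (nat_lit 46) (nat_lit 5) (nat_lit 50) (nat_lit 5) (nat_lit 47) (nat_lit 5) (nat_lit 336) (nat_lit 273) (nat_lit 171))) (XT.nd (nat_lit 78) (nat_lit 0) (nat_lit 0) (XT.lf (nat_lit 0) (nat_lit 1732641434) (nat_lit 228) (nat_lit 9763636634) (nat_lit 304) (nat_lit 8441574505) (nat_lit 43) (nat_lit 5) (nat_lit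 46) (nat_lit 5) (nat_lit 47) (nat_lit 5) (nat_lit 337) (nat_lit 273) (nat_lit 170)) (XT.nd (nat_lit 78) (nat_lit 0) (nat_lit 0) (XT.lf (nat_lit 0) (nat_lit 9660870783) (nat_lit 228) (nat_lit 4974543529) (nat_lit 304) (nat_lit 5736366071) (nat_lit 43) (nat_lit 5) (nat_lit 46) (nat_lit 5) (nat_lit 47) (nat_lit 5) (nat_lit 338) (nat_lit 273) (nat_lit 169)) (XT.lf (nat_lit 0) (nat_lit 17807519543) (nat_lit 228) (nat_lit 47948228) (nat_lit 304) (nat_lit 2963676014) (nat_lit 43) (nat_lit 5) (nat_lit 46) (nat_lit 5) (nat_lit 47) (nat_lit 5) (nat_lit 339) (nat_lit 273) (nat_lit 168))))) (XT.nd (nat_lit 234) (nat_lit 380) (nat_lit 0) (XT.nd (nat_lit 78) (nat_lit 76) (nat_lit 0) (XT.lf (nat_lit 0) (nat_lit 4947659445) (nat_lit 228) (nat_lit 16307412245) (nat_lit 304) (nat_lit 22387402) (nat_lit 40) (nat_lit 5) (nat_lit 43) (nat_lit 5) (nat_lit 44) (nat_lit 5) (nat_lit 340) (nat_lit 273) (nat_lit 167))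 (XT.nd (nat_lit 78) (nat_lit 0) (nat_lit 0) (XT.lf (nat_lit 0) (nat_lit 2966767831) (nat_lit 304) (nat_lit 8590132796) (nat_lit 76) (nat_lit 10191225143) (nat_lit 39) (nat_lit 5) (nat_lit 43) (nat_lit 5) (nat_lit 40) (nat_lit 5) (nat_lit 341) (nat_lit 273) (nat_lit 166)) (XT.lf (nat_lit 0) (nat_lit 6032643636) (nat_lit 304) (nat_lit 637231544) (nat_lit 76) (nat_lit 15563423558) (nat_lit 39) (nat_lit 5) (nat_lit 43) (nat_lit 5) (nat_lit 40) (nat_lit 5) (nat_lit 342) (nat_lit 273) (nat_lit 165)))) (XT.nd (nat_lit 78) (nat_lit 152) (nat_lit 0) (XT.lf (nat_lit 0) (nat_lit 7686050986) (nat_lit 228) (nat_lit 1566187829) (nat_lit 304) (nat_lit 13478953084) (nat_lit 36) (nat_lit 5) (nat_lit 39) (nat_lit 5) (nat_lit 40) (nat_lit 5) (nat_lit 343) (nat_lit 273) (nat_lit 164)) (XT.nd (nat_lit 78) (nat_lit 152) (nat_lit 0) (XT.lf (nat_lit 0) (nat_lit 12598379135) (nat_lit 304) (nat_lit 7025601707) (nat_lit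 76) (nat_lit 3619159087) (nat_lit 36) (nat_lit 5) (nat_lit 40) (nat_lit 5) (nat_lit 37) (nat_lit 5) (nat_lit 344) (nat_lit 273) (nat_lit 163)) (XT.lf (nat_lit 0) (nat_lit 1225129974) (nat_lit 152) (nat_lit 14835389608) (nat_lit 228) (nat_lit 7709474645) (nat_lit 34) (nat_lit 5) (nat_lit 36) (nat_lit 5) (nat_lit 37) (nat_lit 5) (nat_lit 345) (nat_lit 273) (nat_lit 162)))))) (XT.nd (nat_lit 390) (nat_lit 380) (nat_lit 0) (XT.nd (nat_lit 156) (nat_lit 304) (nat_lit 0) (XT.nd (nat_lit 78) (nat_lit 0) (nat_lit 0) (XT.lf (nat_lit 0) (nat_lit 9849782412) (nat_lit 152) (nat_lit 9836189509) (nat_lit 228) (nat_lit 4624914631) (nat_lit 34) (nat_lit 5) (nat_lit 36) (nat_lit 5) (nat_lit 37) (nat_lit 5) (nat_lit 346) (nat_lit 273) (nat_lit 161)) (XT.lf (nat_lit 0) (nat_lit 18716068459) (nat_lit 152) (nat_lit 4692957114) (nat_lit 228) (nat_lit 1459330308) (nat_lit 34) (nat_lit 5) (nat_lit 36) (nat_lit 5) (nat_lit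 37) (nat_lit 5) (nat_lit 347) (nat_lit 273) (nat_lit 160))) (XT.nd (nat_lit 78) (nat_lit 0) (nat_lit 0) (XT.lf (nat_lit 0) (nat_lit 1784522143) (nat_lit 304) (nat_lit 23028992904) (nat_lit 76) (nat_lit 627975828) (nat_lit 30) (nat_lit 5) (nat_lit 34) (nat_lit 5) (nat_lit 31) (nat_lit 5) (nat_lit 348) (nat_lit 273) (nat_lit 159)) (XT.nd (nat_lit 78) (nat_lit 0) (nat_lit 0) (XT.lf (nat_lit 0) (nat_lit 5194708506) (nat_lit 304) (nat_lit 14748099013) (nat_lit 76) (nat_lit 6085642517) (nat_lit 30) (nat_lit 5) (nat_lit 34) (nat_lit 5) (nat_lit 31) (nat_lit 5) (nat_lit 349) (nat_lit 273) (nat_lit 158)) (XT.lf (nat_lit 0) (nat_lit 8696660031) (nat_lit 304) (nat_lit 6235241234) (nat_lit 76) (nat_lit 11701446573) (nat_lit 30) (nat_lit 5) (nat_lit 34) (nat_lit 5) (nat_lit 31) (nat_lit 5) (nat_lit 350) (nat_lit 273) (nat_lit 157))))) (XT.nd (nat_lit 234) (nat_lit 228) (nat_lit 0) (XT.nd (nat_lit 78) (nat_lit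 0) (nat_lit 0) (XT.lf (nat_lit 0) (nat_lit 2567112462) (nat_lit 152) (nat_lit 9751000871) (nat_lit 228) (nat_lit 14937859201) (nat_lit 28) (nat_lit 5) (nat_lit 30) (nat_lit 5) (nat_lit 31) (nat_lit 5) (nat_lit 351) (nat_lit 273) (nat_lit 156)) (XT.nd (nat_lit 78) (nat_lit 0) (nat_lit 0) (XT.lf (nat_lit 0) (nat_lit 11745526376) (nat_lit 152) (nat_lit 4355560069) (nat_lit 228) (nat_lit 11794616110) (nat_lit 28) (nat_lit 5) (nat_lit 30) (nat_lit 5) (nat_lit 31) (nat_lit 5) (nat_lit 352) (nat_lit 273) (nat_lit 155)) (XT.lf (nat_lit 0) (nat_lit 19999253399) (nat_lit 228) (nat_lit 7382502165) (nat_lit 76) (nat_lit 1172830270) (nat_lit 28) (nat_lit 5) (nat_lit 31) (nat_lit 5) (nat_lit 29) (nat_lit 5) (nat_lit 353) (nat_lit 273) (nat_lit 154)))) (XT.nd (nat_lit 78) (nat_lit 76) (nat_lit 0) (XT.lf (nat_lit 0) (nat_lit 1621556532) (nat_lit 152) (nat_lit 22441960140) (nat_lit 228) (nat_lit 5168256530)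 (nat_lit 26) (nat_lit 5) (nat_lit 28) (nat_lit 5) (nat_lit 29) (nat_lit 5) (nat_lit 354) (nat_lit 273) (nat_lit 153)) (XT.nd (nat_lit 78) (nat_lit 76) (nat_lit 0) (XT.lf (nat_lit 0) (nat_lit 11032056120) (nat_lit 152) (nat_lit 17282774208) (nat_lit 228) (nat_lit 1612503966) (nat_lit 26) (nat_lit 5) (nat_lit 28) (nat_lit 5) (nat_lit 29) (nat_lit 5) (nat_lit 355) (nat_lit 273) (nat_lit 152)) (XT.lf (nat_lit 0) (nat_lit 2000666246) (nat_lit 228) (nat_lit 9953369486) (nat_lit 76) (nat_lit 18689424044) (nat_lit 25) (nat_lit 5) (nat_lit 28) (nat_lit 5) (nat_lit 26) (nat_lit 5) (nat_lit 356) (nat_lit 273) (nat_lit 151))))))) (XT.nd (nat_lit 858) (nat_lit 456) (nat_lit 0) (XT.nd (nat_lit 390) (nat_lit 152) (nat_lit 0) (XT.nd (nat_lit 156) (nat_lit 152) (nat_lit 0) (XT.nd (nat_lit 78) (nat_lit 152) (nat_lit 0) (XT.lf (nat_lit 0) (nat_lit 5680837773) (nat_lit 228) (nat_lit 773511510) (nat_lit 76) (nat_lit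 24926521079) (nat_lit 25) (nat_lit 5) (nat_lit 28) (nat_lit 5) (nat_lit 26) (nat_lit 5) (nat_lit 357) (nat_lit 273) (nat_lit 150)) (XT.lf (nat_lit 0) (nat_lit 8840323923) (nat_lit 152) (nat_lit 707346734) (nat_lit 228) (nat_lit 22590455386) (nat_lit 23) (nat_lit 5) (nat_lit 25) (nat_lit 5) (nat_lit 26) (nat_lit 5) (nat_lit 358) (nat_lit 273) (nat_lit 149))) (XT.nd (nat_lit 78) (nat_lit 152) (nat_lit 0) (XT.lf (nat_lit 0) (nat_lit 13579847635) (nat_lit 228) (nat_lit 14223619968) (nat_lit 76) (nat_lit 5113161779) (nat_lit 23) (nat_lit 5) (nat_lit 26) (nat_lit 5) (nat_lit 24) (nat_lit 5) (nat_lit 359) (nat_lit 273) (nat_lit 148)) (XT.nd (nat_lit 78) (nat_lit 152) (nat_lit 0) (XT.lf (nat_lit 0) (nat_lit 17731594574) (nat_lit 228) (nat_lit 4897814468) (nat_lit 76) (nat_lit 11089130503) (nat_lit 23) (nat_lit 5) (nat_lit 26) (nat_lit 5) (nat_lit 24) (nat_lit 5) (nat_lit 360) (nat_lit 273) (nat_lit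 147)) (XT.lf (nat_lit 0) (nat_lit 4787993589) (nat_lit 152) (nat_lit 17257771298) (nat_lit 228) (nat_lit 12497615575) (nat_lit 21) (nat_lit 5) (nat_lit 23) (nat_lit 5) (nat_lit 24) (nat_lit 5) (nat_lit 361) (nat_lit 273) (nat_lit 146))))) (XT.nd (nat_lit 234) (nat_lit 152) (nat_lit 0) (XT.nd (nat_lit 78) (nat_lit 0) (nat_lit 0) (XT.lf (nat_lit 0) (nat_lit 14851703113) (nat_lit 152) (nat_lit 11679073194) (nat_lit 228) (nat_lit 8860957115) (nat_lit 21) (nat_lit 5) (nat_lit 23) (nat_lit 5) (nat_lit 24) (nat_lit 5) (nat_lit 362) (nat_lit 273) (nat_lit 145)) (XT.nd (nat_lit 78) (nat_lit 0) (nat_lit 0) (XT.lf (nat_lit 0) (nat_lit 25204631526) (nat_lit 152) (nat_lit 5937898462) (nat_lit 228) (nat_lit 5123250254) (nat_lit 21) (nat_lit 5) (nat_lit 23) (nat_lit 5) (nat_lit 24) (nat_lit 5) (nat_lit 363) (nat_lit 273) (nat_lit 144)) (XT.lf (nat_lit 0) (nat_lit 35855825075) (nat_lit 152) (nat_lit 29230543)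 (nat_lit 228) (nat_lit 1281229032) (nat_lit 21) (nat_lit 5) (nat_lit 23) (nat_lit 5) (nat_lit 24) (nat_lit 5) (nat_lit 364) (nat_lit 273) (nat_lit 143)))) (XT.nd (nat_lit 78) (nat_lit 0) (nat_lit 0) (XT.lf (nat_lit 0) (nat_lit 2760910891) (nat_lit 152) (nat_lit 29282029130) (nat_lit 76) (nat_lit 6045988390) (nat_lit 19) (nat_lit 5) (nat_lit 21) (nat_lit 5) (nat_lit 20) (nat_lit 5) (nat_lit 365) (nat_lit 273) (nat_lit 142)) (XT.nd (nat_lit 78) (nat_lit 0) (nat_lit 0) (XT.lf (nat_lit 0) (nat_lit 6904832559) (nat_lit 152) (nat_lit 19809503051) (nat_lit 76) (nat_lit 12324355262) (nat_lit 19) (nat_lit 5) (nat_lit 21) (nat_lit 5) (nat_lit 20) (nat_lit 5) (nat_lit 366) (nat_lit 273) (nat_lit 141)) (XT.lf (nat_lit 0) (nat_lit 11165902437) (nat_lit 152) (nat_lit 10064631026) (nat_lit 76) (nat_lit 18786635614) (nat_lit 19) (nat_lit 5) (nat_lit 21) (nat_lit 5) (nat_lit 20) (nat_lit 5) (nat_lit 367) (nat_lit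 273) (nat_lit 140)))))) (XT.nd (nat_lit 468) (nat_lit 228) (nat_lit 0) (XT.nd (nat_lit 234) (nat_lit 76) (nat_lit 0) (XT.nd (nat_lit 78) (nat_lit 152) (nat_lit 0) (XT.lf (nat_lit 0) (nat_lit 15547843791) (nat_lit 152) (nat_lit 38898119) (nat_lit 76) (nat_lit 25438476098) (nat_lit 19) (nat_lit 5) (nat_lit 21) (nat_lit 5) (nat_lit 20) (nat_lit 5) (nat_lit 368) (nat_lit 273) (nat_lit 139)) (XT.nd (nat_lit 78) (nat_lit 0) (nat_lit 0) (XT.lf (nat_lit 0) (nat_lit 10480977644) (nat_lit 152) (nat_lit 9674257424) (nat_lit 228) (nat_lit 21905460926) (nat_lit 17) (nat_lit 5) (nat_lit 19) (nat_lit 5) (nat_lit 20) (nat_lit 5) (nat_lit 369) (nat_lit 273) (nat_lit 138)) (XT.lf (nat_lit 0) (nat_lit 21306205620) (nat_lit 152) (nat_lit 3588368070) (nat_lit 228) (nat_lit 18232859989) (nat_lit 17) (nat_lit 5) (nat_lit 19) (nat_lit 5) (nat_lit 20) (nat_lit 5) (nat_lit 370) (nat_lit 273) (nat_lit 137)))) (XT.nd (nat_lit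 78) (nat_lit 76) (nat_lit 0) (XT.lf (nat_lit 0) (nat_lit 29795341388) (nat_lit 228) (nat_lit 11806625925) (nat_lit 76) (nat_lit 2623635632) (nat_lit 17) (nat_lit 5) (nat_lit 20) (nat_lit 5) (nat_lit 18) (nat_lit 4) (nat_lit 371) (nat_lit 273) (nat_lit 136)) (XT.nd (nat_lit 78) (nat_lit 76) (nat_lit 0) (XT.lf (nat_lit 0) (nat_lit 34872336414) (nat_lit 228) (nat_lit 1537677351) (nat_lit 76) (nat_lit 8945834112) (nat_lit 17) (nat_lit 5) (nat_lit 20) (nat_lit 5) (nat_lit 18) (nat_lit 4) (nat_lit 372) (nat_lit 273) (nat_lit 135)) (XT.lf (nat_lit 0) (nat_lit 9208780597) (nat_lit 76) (nat_lit 30975241222) (nat_lit 152) (nat_lit 6333513443) (nat_lit 16) (nat_lit 5) (nat_lit 17) (nat_lit 5) (nat_lit 18) (nat_lit 4) (nat_lit 373) (nat_lit 273) (nat_lit 134))))) (XT.nd (nat_lit 234) (nat_lit 152) (nat_lit 0) (XT.nd (nat_lit 78) (nat_lit 76) (nat_lit 0) (XT.lf (nat_lit 0) (nat_lit 20298998146) (nat_lit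 76) (nat_lit 25365528480) (nat_lit 152) (nat_lit 2049268909) (nat_lit 16) (nat_lit 5) (nat_lit 17) (nat_lit 5) (nat_lit 18) (nat_lit 4) (nat_lit 374) (nat_lit 273) (nat_lit 133)) (XT.nd (nat_lit 78) (nat_lit 0) (nat_lit 0) (XT.lf (nat_lit 0) (nat_lit 2311436017) (nat_lit 152) (nat_lit 17256724385) (nat_lit 76) (nat_lit 29377285994) (nat_lit 15) (nat_lit 5) (nat_lit 17) (nat_lit 5) (nat_lit 16) (nat_lit 5) (nat_lit 375) (nat_lit 273) (nat_lit 132)) (XT.lf (nat_lit 0) (nat_lit 6756000526) (nat_lit 152) (nat_lit 6823891752) (nat_lit 76) (nat_lit 36633724803) (nat_lit 15) (nat_lit 5) (nat_lit 17) (nat_lit 5) (nat_lit 16) (nat_lit 5) (nat_lit 376) (nat_lit 273) (nat_lit 131)))) (XT.nd (nat_lit 78) (nat_lit 0) (nat_lit 0) (XT.lf (nat_lit 0) (nat_lit 3990382131) (nat_lit 152) (nat_lit 7376272699) (nat_lit 228) (nat_lit 40152201096) (nat_lit 13) (nat_lit 5) (nat_lit 15) (nat_lit 5) (nat_lit 16) (nat_lit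 5) (nat_lit 377) (nat_lit 273) (nat_lit 130)) (XT.nd (nat_lit 78) (nat_lit 0) (nat_lit 0) (XT.lf (nat_lit 0) (nat_lit 15259649124) (nat_lit 152) (nat_lit 919356115) (nat_lit 228) (nat_lit 36682350865) (nat_lit 13) (nat_lit 5) (nat_lit 15) (nat_lit 5) (nat_lit 16) (nat_lit 5) (nat_lit 378) (nat_lit 273) (nat_lit 129)) (XT.lf (nat_lit 0) (nat_lit 21185412935) (nat_lit 228) (nat_lit 27441407481) (nat_lit 76) (nat_lit 5615825572) (nat_lit 13) (nat_lit 5) (nat_lit 16) (nat_lit 5) (nat_lit 14) (nat_lit 4) (nat_lit 379) (nat_lit 273) (nat_lit 128))))))))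
noncomputable def xc150 : XT := (XT.nd (nat_lit 32994) (nat_lit 0) (nat_lit 8056) (XT.nd (nat_lit 858) (nat_lit 0) (nat_lit 0) (XT.nd (nat_lit 390) (nat_lit 228) (nat_lit 0) (XT.nd (nat_lit 156) (nat_lit 76) (nat_lit 0) (XT.nd (nat_lit 78) (nat_lit 0) (nat_lit 0) (XT.lf (nat_lit 0) (nat_lit 26345867162) (nat_lit 228) (nat_lit 16994312081) (nat_lit 76) (nat_lit 12325084842) (nat_lit 13) (nat_lit 5) (nat_lit 16) (nat_lit 5) (nat_lit 14) (nat_lit 4) (nat_lit 380) (nat_lit 273) (nat_lit 127)) (XT.lf (nat_lit 0) (nat_lit 31656039645) (nat_lit 228) (nat_lit 6242454838) (nat_lit 76) (nat_lit 19232224103) (nat_lit 13) (nat_lit 5) (nat_lit 16) (nat_lit 5) (nat_lit 14) (nat_lit 4) (nat_lit 381) (nat_lit 273) (nat_lit 126))) (XT.nd (nat_lit 78) (nat_lit 0) (nat_lit 0) (XT.lf (nat_lit 0) (nat_lit 4919557357) (nat_lit 76) (nat_lit 32248302774) (nat_lit 152) (nat_lit 21471011156) (nat_lit 12) (nat_lit 5)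 (nat_lit 13) (nat_lit 5) (nat_lit 14) (nat_lit 4) (nat_lit 382) (nat_lit 273) (nat_lit 125)) (XT.nd (nat_lit 78) (nat_lit 0) (nat_lit 0) (XT.lf (nat_lit 0) (nat_lit 16536077420) (nat_lit 76) (nat_lit 26367111545) (nat_lit 152) (nat_lit 17287339705) (nat_lit 12) (nat_lit 5) (nat_lit 13) (nat_lit 5) (nat_lit 14) (nat_lit 4) (nat_lit 383) (nat_lit 273) (nat_lit 124)) (XT.lf (nat_lit 0) (nat_lit 28493018615) (nat_lit 76) (nat_lit 20312818445) (nat_lit 152) (nat_lit 12983045508) (nat_lit 12) (nat_lit 5) (nat_lit 13) (nat_lit 5) (nat_lit 14) (nat_lit 4) (nat_lit 384) (nat_lit 273) (nat_lit 123))))) (XT.nd (nat_lit 234) (nat_lit 152) (nat_lit 0) (XT.nd (nat_lit 78) (nat_lit 76) (nat_lit 0) (XT.lf (nat_lit 0) (nat_lit 40800828755) (nat_lit 76) (nat_lit 14080133314) (nat_lit 152) (nat_lit 8554367529) (nat_lit 12) (nat_lit 5) (nat_lit 13) (nat_lit 5) (nat_lit 14) (nat_lit 4) (nat_lit 385) (nat_lit 273)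 (nat_lit 122)) (XT.nd (nat_lit 78) (nat_lit 76) (nat_lit 0) (XT.lf (nat_lit 0) (nat_lit 53470262237) (nat_lit 76) (nat_lit 7663610116) (nat_lit 152) (nat_lit 3997436051) (nat_lit 12) (nat_lit 5) (nat_lit 13) (nat_lit 5) (nat_lit 14) (nat_lit 4) (nat_lit 386) (nat_lit 273) (nat_lit 121)) (XT.lf (nat_lit 0) (nat_lit 678232553) (nat_lit 152) (nat_lit 372560809) (nat_lit 76) (nat_lit 65827308067) (nat_lit 11) (nat_lit 5) (nat_lit 13) (nat_lit 5) (nat_lit 12) (nat_lit 5) (nat_lit 387) (nat_lit 273) (nat_lit 120)))) (XT.nd (nat_lit 78) (nat_lit 0) (nat_lit 0) (XT.lf (nat_lit 0) (nat_lit 5576272303) (nat_lit 228) (nat_lit 57298975886) (nat_lit 76) (nat_lit 5795993278) (nat_lit 9) (nat_lit 5) (nat_lit 12) (nat_lit 5) (nat_lit 10) (nat_lit 4) (nat_lit 388) (nat_lit 273) (nat_lit 119)) (XT.nd (nat_lit 78) (nat_lit 0) (nat_lit 0) (XT.lf (nat_lit 0) (nat_lit 10631225019) (nat_lit 228) (nat_lit 47058722812)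 (nat_lit 76) (nat_lit 12827932551) (nat_lit 9) (nat_lit 5) (nat_lit 12) (nat_lit 5) (nat_lit 10) (nat_lit 4) (nat_lit 389) (nat_lit 273) (nat_lit 118)) (XT.lf (nat_lit 0) (nat_lit 15833718061) (nat_lit 228) (nat_lit 36518342461) (nat_lit 76) (nat_lit 20067984910) (nat_lit 9) (nat_lit 5) (nat_lit 12) (nat_lit 5) (nat_lit 10) (nat_lit 4) (nat_lit 390) (nat_lit 273) (nat_lit 117)))))) (XT.nd (nat_lit 31668) (nat_lit 0) (nat_lit 14820) (XT.nd (nat_lit 156) (nat_lit 0) (nat_lit 0) (XT.nd (nat_lit 78) (nat_lit 0) (nat_lit 0) (XT.lf (nat_lit 0) (nat_lit 21188297298) (nat_lit 228) (nat_lit 25668624789) (nat_lit 76) (nat_lit 27522476614) (nat_lit 9) (nat_lit 5) (nat_lit 12) (nat_lit 5) (nat_lit 10) (nat_lit 4) (nat_lit 391) (nat_lit 273) (nat_lit 116)) (XT.lf (nat_lit 0) (nat_lit 26699641487) (nat_lit 228) (nat_lit 14500089463) (nat_lit 76) (nat_lit 35197921297) (nat_lit 9) (nat_lit 5) (nat_lit 12) (nat_lit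 5) (nat_lit 10) (nat_lit 4) (nat_lit 392) (nat_lit 273) (nat_lit 115))) (XT.nd (nat_lit 31356) (nat_lit 0) (nat_lit 15580) (XT.lf (nat_lit 0) (nat_lit 32372566366) (nat_lit 228) (nat_lit 3002977568) (nat_lit 76) (nat_lit 43101025659) (nat_lit 9) (nat_lit 5) (nat_lit 12) (nat_lit 5) (nat_lit 10) (nat_lit 4) (nat_lit 393) (nat_lit 273) (nat_lit 114)) (XT.nd (nat_lit 78) (nat_lit 0) (nat_lit 0) (XT.lf (nat_lit 0) (nat_lit 1188396024) (nat_lit 0) (nat_lit 1188396024) (nat_lit 684) (nat_lit 1277880946) (nat_lit 214) (nat_lit 5) (nat_lit 214) (nat_lit 3) (nat_lit 223) (nat_lit 3) (nat_lit 274) (nat_lit 274) (nat_lit 232)) (XT.lf (nat_lit 0) (nat_lit 5565469704) (nat_lit 0) (nat_lit 662625205) (nat_lit 684) (nat_lit 1144479269) (nat_lit 214) (nat_lit 5) (nat_lit 214) (nat_lit 3) (nat_lit 223) (nat_lit 3) (nat_lit 275) (nat_lit 274) (nat_lit 231))))) (XT.nd (nat_lit 234) (nat_lit 0) (nat_lit 0) (XT.nd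 (nat_lit 78) (nat_lit 0) (nat_lit 0) (XT.lf (nat_lit 0) (nat_lit 272196589) (nat_lit 760) (nat_lit 6042093218) (nat_lit 836) (nat_lit 1124411166) (nat_lit 204) (nat_lit 5) (nat_lit 214) (nat_lit 5) (nat_lit 215) (nat_lit 5) (nat_lit 276) (nat_lit 274) (nat_lit 230)) (XT.nd (nat_lit 78) (nat_lit 0) (nat_lit 0) (XT.lf (nat_lit 0) (nat_lit 1679479322) (nat_lit 760) (nat_lit 2821260162) (nat_lit 836) (nat_lit 3006757621) (nat_lit 204) (nat_lit 5) (nat_lit 214) (nat_lit 5) (nat_lit 215) (nat_lit 5) (nat_lit 277) (nat_lit 274) (nat_lit 229)) (XT.lf (nat_lit 76) (nat_lit 475972760) (nat_lit 0) (nat_lit 2605272406) (nat_lit 836) (nat_lit 4498698157) (nat_lit 205) (nat_lit 5) (nat_lit 204) (nat_lit 5) (nat_lit 215) (nat_lit 5) (nat_lit 278) (nat_lit 274) (nat_lit 228)))) (XT.nd (nat_lit 78) (nat_lit 0) (nat_lit 76) (XT.lf (nat_lit 76) (nat_lit 3900732013) (nat_lit 0) (nat_lit 601753153) (nat_lit 836)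 (nat_lit 3152904777) (nat_lit 205) (nat_lit 5) (nat_lit 204) (nat_lit 5) (nat_lit 215) (nat_lit 5) (nat_lit 279) (nat_lit 274) (nat_lit 227)) (XT.nd (nat_lit 78) (nat_lit 0) (nat_lit 0) (XT.lf (nat_lit 0) (nat_lit 5931038040) (nat_lit 760) (nat_lit 349127446) (nat_lit 836) (nat_lit 1454139499) (nat_lit 205) (nat_lit 5) (nat_lit 215) (nat_lit 5) (nat_lit 216) (nat_lit 5) (nat_lit 280) (nat_lit 274) (nat_lit 226)) (XT.lf (nat_lit 76) (nat_lit 3185441186) (nat_lit 0) (nat_lit 4205646098) (nat_lit 836) (nat_lit 424982060) (nat_lit 206) (nat_lit 5) (nat_lit 205) (nat_lit 5) (nat_lit 216) (nat_lit 5) (nat_lit 281) (nat_lit 274) (nat_lit 225))))))) (XT.nd (nat_lit 858) (nat_lit 4408) (nat_lit 0) (XT.nd (nat_lit 390) (nat_lit 1596) (nat_lit 0) (XT.nd (nat_lit 156) (nat_lit 0) (nat_lit 76) (XT.nd (nat_lit 78) (nat_lit 0) (nat_lit 76) (XT.lf (nat_lit 0) (nat_lit 931383219) (nat_lit 836) (nat_lit 1106691728)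 (nat_lit 912) (nat_lit 5863373581) (nat_lit 194) (nat_lit 5) (nat_lit 205) (nat_lit 5) (nat_lit 206) (nat_lit 5) (nat_lit 282) (nat_lit 274) (nat_lit 224)) (XT.lf (nat_lit 0) (nat_lit 2300581206) (nat_lit 836) (nat_lit 5453295446) (nat_lit 912) (nat_lit 236094790) (nat_lit 195) (nat_lit 5) (nat_lit 206) (nat_lit 5) (nat_lit 207) (nat_lit 5) (nat_lit 283) (nat_lit 274) (nat_lit 223))) (XT.nd (nat_lit 78) (nat_lit 0) (nat_lit 0) (XT.lf (nat_lit 0) (nat_lit 3697498565) (nat_lit 836) (nat_lit 1819656633) (nat_lit 912) (nat_lit 2564520870) (nat_lit 195) (nat_lit 5) (nat_lit 206) (nat_lit 5) (nat_lit 207) (nat_lit 5) (nat_lit 284) (nat_lit 274) (nat_lit 222)) (XT.nd (nat_lit 78) (nat_lit 0) (nat_lit 0) (XT.lf (nat_lit 76) (nat_lit 1930979382) (nat_lit 0) (nat_lit 3180389710) (nat_lit 912) (nat_lit 3065633053) (nat_lit 196) (nat_lit 5) (nat_lit 195) (nat_lit 5) (nat_lit 207) (nat_lit 5) (nat_lit 285)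 (nat_lit 274) (nat_lit 221)) (XT.lf (nat_lit 76) (nat_lit 5802034434) (nat_lit 0) (nat_lit 741464996) (nat_lit 912) (nat_lit 1732531400) (nat_lit 196) (nat_lit 5) (nat_lit 195) (nat_lit 5) (nat_lit 207) (nat_lit 5) (nat_lit 286) (nat_lit 274) (nat_lit 220))))) (XT.nd (nat_lit 234) (nat_lit 836) (nat_lit 0) (XT.nd (nat_lit 78) (nat_lit 912) (nat_lit 0) (XT.lf (nat_lit 76) (nat_lit 1391298773) (nat_lit 0) (nat_lit 6616519315) (nat_lit 912) (nat_lit 370650250) (nat_lit 197) (nat_lit 5) (nat_lit 196) (nat_lit 5) (nat_lit 208) (nat_lit 5) (nat_lit 287) (nat_lit 274) (nat_lit 219)) (XT.nd (nat_lit 78) (nat_lit 0) (nat_lit 0) (XT.lf (nat_lit 0) (nat_lit 1003754351) (nat_lit 912) (nat_lit 3108117803) (nat_lit 988) (nat_lit 4372163093) (nat_lit 184) (nat_lit 5) (nat_lit 196) (nat_lit 5) (nat_lit 197) (nat_lit 5) (nat_lit 288) (nat_lit 274) (nat_lit 218)) (XT.lf (nat_lit 76) (nat_lit 870876278) (nat_lit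 0) (nat_lit 1509859471) (nat_lit 988) (nat_lit 6212964450) (nat_lit 185) (nat_lit 5) (nat_lit 184) (nat_lit 5) (nat_lit 197) (nat_lit 5) (nat_lit 289) (nat_lit 274) (nat_lit 217)))) (XT.nd (nat_lit 78) (nat_lit 912) (nat_lit 0) (XT.lf (nat_lit 0) (nat_lit 3803353414) (nat_lit 912) (nat_lit 3715133204) (nat_lit 76) (nat_lit 1188140582) (nat_lit 185) (nat_lit 5) (nat_lit 197) (nat_lit 5) (nat_lit 186) (nat_lit 5) (nat_lit 290) (nat_lit 274) (nat_lit 216)) (XT.nd (nat_lit 78) (nat_lit 0) (nat_lit 0) (XT.lf (nat_lit 0) (nat_lit 375245335) (nat_lit 912) (nat_lit 4874466649) (nat_lit 988) (nat_lit 3573897094) (nat_lit 173) (nat_lit 5) (nat_lit 185) (nat_lit 5) (nat_lit 186) (nat_lit 5) (nat_lit 291) (nat_lit 274) (nat_lit 215)) (XT.lf (nat_lit 0) (nat_lit 4634868931) (nat_lit 912) (nat_lit 2105421424) (nat_lit 988) (nat_lit 2203881241) (nat_lit 173) (nat_lit 5) (nat_lit 185) (nat_lit 5) (nat_lit 186)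 (nat_lit 5) (nat_lit 292) (nat_lit 274) (nat_lit 214)))))) (XT.nd (nat_lit 468) (nat_lit 1596) (nat_lit 0) (XT.nd (nat_lit 234) (nat_lit 1748) (nat_lit 0) (XT.nd (nat_lit 78) (nat_lit 1064) (nat_lit 0) (XT.lf (nat_lit 0) (nat_lit 8247211713) (nat_lit 988) (nat_lit 83235249) (nat_lit 76) (nat_lit 738848516) (nat_lit 173) (nat_lit 5) (nat_lit 186) (nat_lit 5) (nat_lit 174) (nat_lit 5) (nat_lit 293) (nat_lit 274) (nat_lit 213)) (XT.nd (nat_lit 78) (nat_lit 0) (nat_lit 0) (XT.lf (nat_lit 0) (nat_lit 617320511) (nat_lit 1064) (nat_lit 4899851379) (nat_lit 76) (nat_lit 3680079212) (nat_lit 159) (nat_lit 5) (nat_lit 173) (nat_lit 5) (nat_lit 160) (nat_lit 5) (nat_lit 294) (nat_lit 274) (nat_lit 212)) (XT.lf (nat_lit 0) (nat_lit 2050023611) (nat_lit 1064) (nat_lit 555603068) (nat_lit 76) (nat_lit 6724260683) (nat_lit 159) (nat_lit 5) (nat_lit 173) (nat_lit 5) (nat_lit 160) (nat_lit 5) (nat_lit 295)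 (nat_lit 274) (nat_lit 211)))) (XT.nd (nat_lit 78) (nat_lit 684) (nat_lit 0) (XT.lf (nat_lit 0) (nat_lit 3534835701) (nat_lit 1140) (nat_lit 5502975771) (nat_lit 76) (nat_lit 428500258) (nat_lit 145) (nat_lit 5) (nat_lit 160) (nat_lit 5) (nat_lit 146) (nat_lit 5) (nat_lit 296) (nat_lit 274) (nat_lit 210)) (XT.nd (nat_lit 78) (nat_lit 684) (nat_lit 0) (XT.lf (nat_lit 0) (nat_lit 5063176765) (nat_lit 1140) (nat_lit 1032828398) (nat_lit 76) (nat_lit 3510934573) (nat_lit 145) (nat_lit 5) (nat_lit 160) (nat_lit 5) (nat_lit 146) (nat_lit 5) (nat_lit 297) (nat_lit 274) (nat_lit 209)) (XT.lf (nat_lit 0) (nat_lit 3613244868) (nat_lit 684) (nat_lit 3027322200) (nat_lit 760) (nat_lit 3111201645) (nat_lit 136) (nat_lit 5) (nat_lit 145) (nat_lit 5) (nat_lit 146) (nat_lit 5) (nat_lit 298) (nat_lit 274) (nat_lit 208))))) (XT.nd (nat_lit 234) (nat_lit 988) (nat_lit 0) (XT.nd (nat_lit 78) (nat_lit 608) (nat_lit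 0) (XT.lf (nat_lit 0) (nat_lit 8246229989) (nat_lit 760) (nat_lit 1511574223) (nat_lit 76) (nat_lit 143785648) (nat_lit 136) (nat_lit 5) (nat_lit 146) (nat_lit 5) (nat_lit 137) (nat_lit 5) (nat_lit 299) (nat_lit 274) (nat_lit 207)) (XT.nd (nat_lit 78) (nat_lit 76) (nat_lit 0) (XT.lf (nat_lit 0) (nat_lit 3259235987) (nat_lit 532) (nat_lit 6672164606) (nat_lit 608) (nat_lit 123638533) (nat_lit 129) (nat_lit 5) (nat_lit 136) (nat_lit 5) (nat_lit 137) (nat_lit 5) (nat_lit 300) (nat_lit 274) (nat_lit 206)) (XT.lf (nat_lit 0) (nat_lit 1411350585) (nat_lit 608) (nat_lit 2051560553) (nat_lit 76) (nat_lit 6750260123) (nat_lit 128) (nat_lit 5) (nat_lit 136) (nat_lit 5) (nat_lit 129) (nat_lit 5) (nat_lit 301) (nat_lit 274) (nat_lit 205)))) (XT.nd (nat_lit 78) (nat_lit 456) (nat_lit 0) (XT.lf (nat_lit 0) (nat_lit 2861512217) (nat_lit 532) (nat_lit 127039069) (nat_lit 608) (nat_lit 7387567314) (nat_lit 121)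 (nat_lit 5) (nat_lit 128) (nat_lit 5) (nat_lit 129) (nat_lit 5) (nat_lit 302) (nat_lit 274) (nat_lit 204)) (XT.nd (nat_lit 78) (nat_lit 456) (nat_lit 0) (XT.lf (nat_lit 0) (nat_lit 4637514772) (nat_lit 608) (nat_lit 2640067182) (nat_lit 76) (nat_lit 3265704411) (nat_lit 121) (nat_lit 5) (nat_lit 129) (nat_lit 5) (nat_lit 122) (nat_lit 5) (nat_lit 303) (nat_lit 274) (nat_lit 203)) (XT.lf (nat_lit 0) (nat_lit 2398333913) (nat_lit 456) (nat_lit 3934466721) (nat_lit 532) (nat_lit 4382826429) (nat_lit 115) (nat_lit 5) (nat_lit 121) (nat_lit 5) (nat_lit 122) (nat_lit 5) (nat_lit 304) (nat_lit 274) (nat_lit 202))))))))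
noncomputable def xc151 : XT := (XT.nd (nat_lit 1716) (nat_lit 2432) (nat_lit 0) (XT.nd (nat_lit 858) (nat_lit 1748) (nat_lit 0) (XT.nd (nat_lit 390) (nat_lit 1292) (nat_lit 0) (XT.nd (nat_lit 156) (nat_lit 532) (nat_lit 0) (XT.nd (nat_lit 78) (nat_lit 456) (nat_lit 0) (XT.lf (nat_lit 0) (nat_lit 7614362921) (nat_lit 456) (nat_lit 464317106) (nat_lit 532) (nat_lit 2814527561) (nat_lit 115) (nat_lit 5) (nat_lit 121) (nat_lit 5) (nat_lit 122) (nat_lit 5) (nat_lit 305) (nat_lit 274) (nat_lit 201)) (XT.lf (nat_lit 0) (nat_lit 1890069577) (nat_lit 456) (nat_lit 8008782302) (nat_lit 532) (nat_lit 1176666024) (nat_lit 109) (nat_lit 5) (nat_lit 115) (nat_lit 5) (nat_lit 116) (nat_lit 5) (nat_lit 306) (nat_lit 274) (nat_lit 200))) (XT.nd (nat_lit 78) (nat_lit 456) (nat_lit 0) (XT.lf (nat_lit 0) (nat_lit 512448045) (nat_lit 532) (nat_lit 4018847410) (nat_lit 76) (nat_lit 6731549075) (nat_lit 108) (nat_lit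 5) (nat_lit 115) (nat_lit 5) (nat_lit 109) (nat_lit 5) (nat_lit 307) (nat_lit 274) (nat_lit 199)) (XT.nd (nat_lit 78) (nat_lit 0) (nat_lit 0) (XT.lf (nat_lit 0) (nat_lit 1289094218) (nat_lit 456) (nat_lit 926679340) (nat_lit 532) (nat_lit 9240107036) (nat_lit 102) (nat_lit 5) (nat_lit 108) (nat_lit 5) (nat_lit 109) (nat_lit 5) (nat_lit 308) (nat_lit 274) (nat_lit 198)) (XT.lf (nat_lit 0) (nat_lit 4013215577) (nat_lit 532) (nat_lit 4869686933) (nat_lit 76) (nat_lit 2770567911) (nat_lit 102) (nat_lit 5) (nat_lit 109) (nat_lit 5) (nat_lit 103) (nat_lit 5) (nat_lit 309) (nat_lit 274) (nat_lit 197))))) (XT.nd (nat_lit 234) (nat_lit 836) (nat_lit 0) (XT.nd (nat_lit 78) (nat_lit 0) (nat_lit 0) (XT.lf (nat_lit 0) (nat_lit 561238222) (nat_lit 456) (nat_lit 5293884482) (nat_lit 532) (nat_lit 6002200618) (nat_lit 96) (nat_lit 5) (nat_lit 102) (nat_lit 5) (nat_lit 103) (nat_lit 5) (nat_lit 310) (nat_lit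 274) (nat_lit 196)) (XT.nd (nat_lit 78) (nat_lit 0) (nat_lit 0) (XT.lf (nat_lit 0) (nat_lit 6228314306) (nat_lit 456) (nat_lit 1549563017) (nat_lit 532) (nat_lit 4288696909) (nat_lit 96) (nat_lit 5) (nat_lit 102) (nat_lit 5) (nat_lit 103) (nat_lit 5) (nat_lit 311) (nat_lit 274) (nat_lit 195)) (XT.lf (nat_lit 0) (nat_lit 9757566470) (nat_lit 532) (nat_lit 265410429) (nat_lit 76) (nat_lit 2259196884) (nat_lit 96) (nat_lit 5) (nat_lit 103) (nat_lit 5) (nat_lit 97) (nat_lit 5) (nat_lit 312) (nat_lit 274) (nat_lit 194)))) (XT.nd (nat_lit 78) (nat_lit 456) (nat_lit 0) (XT.lf (nat_lit 0) (nat_lit 5541659609) (nat_lit 380) (nat_lit 6301341185) (nat_lit 456) (nat_lit 659897144) (nat_lit 91) (nat_lit 5) (nat_lit 96) (nat_lit 5) (nat_lit 97) (nat_lit 5) (nat_lit 313) (nat_lit 274) (nat_lit 193)) (XT.nd (nat_lit 78) (nat_lit 380) (nat_lit 0) (XT.lf (nat_lit 0) (nat_lit 1216743324) (nat_lit 456) (nat_lit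 1239919299) (nat_lit 76) (nat_lit 10273844435) (nat_lit 90) (nat_lit 5) (nat_lit 96) (nat_lit 5) (nat_lit 91) (nat_lit 5) (nat_lit 314) (nat_lit 274) (nat_lit 192)) (XT.lf (nat_lit 0) (nat_lit 3175182908) (nat_lit 456) (nat_lit 8265762449) (nat_lit 76) (nat_lit 1522683435) (nat_lit 85) (nat_lit 5) (nat_lit 91) (nat_lit 5) (nat_lit 86) (nat_lit 5) (nat_lit 315) (nat_lit 274) (nat_lit 191)))))) (XT.nd (nat_lit 390) (nat_lit 988) (nat_lit 0) (XT.nd (nat_lit 156) (nat_lit 380) (nat_lit 0) (XT.nd (nat_lit 78) (nat_lit 380) (nat_lit 0) (XT.lf (nat_lit 0) (nat_lit 5208219815) (nat_lit 456) (nat_lit 2414238437) (nat_lit 76) (nat_lit 5580852583) (nat_lit 85) (nat_lit 5) (nat_lit 91) (nat_lit 5) (nat_lit 86) (nat_lit 5) (nat_lit 316) (nat_lit 274) (nat_lit 190)) (XT.lf (nat_lit 0) (nat_lit 3659359741) (nat_lit 380) (nat_lit 3657555377) (nat_lit 456) (nat_lit 6132868964) (nat_lit 80) (nat_lit 5) (nat_lit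 85) (nat_lit 5) (nat_lit 86) (nat_lit 5) (nat_lit 317) (nat_lit 274) (nat_lit 189))) (XT.nd (nat_lit 78) (nat_lit 380) (nat_lit 0) (XT.lf (nat_lit 0) (nat_lit 9497398227) (nat_lit 456) (nat_lit 3767839773) (nat_lit 76) (nat_lit 438197292) (nat_lit 80) (nat_lit 5) (nat_lit 86) (nat_lit 5) (nat_lit 81) (nat_lit 5) (nat_lit 318) (nat_lit 274) (nat_lit 188)) (XT.nd (nat_lit 78) (nat_lit 0) (nat_lit 0) (XT.lf (nat_lit 0) (nat_lit 2421969463) (nat_lit 380) (nat_lit 9361218023) (nat_lit 456) (nat_lit 2180350222) (nat_lit 75) (nat_lit 5) (nat_lit 80) (nat_lit 5) (nat_lit 81) (nat_lit 5) (nat_lit 319) (nat_lit 274) (nat_lit 187)) (XT.lf (nat_lit 0) (nat_lit 8850449403) (nat_lit 380) (nat_lit 5305883360) (nat_lit 456) (nat_lit 74584266) (nat_lit 75) (nat_lit 5) (nat_lit 80) (nat_lit 5) (nat_lit 81) (nat_lit 5) (nat_lit 320) (nat_lit 274) (nat_lit 186))))) (XT.nd (nat_lit 234) (nat_lit 608) (nat_lit 0)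 (XT.nd (nat_lit 78) (nat_lit 0) (nat_lit 0) (XT.lf (nat_lit 0) (nat_lit 939705041) (nat_lit 304) (nat_lit 1103889219) (nat_lit 380) (nat_lit 12462451424) (nat_lit 70) (nat_lit 5) (nat_lit 74) (nat_lit 5) (nat_lit 75) (nat_lit 5) (nat_lit 321) (nat_lit 274) (nat_lit 185)) (XT.nd (nat_lit 78) (nat_lit 0) (nat_lit 0) (XT.lf (nat_lit 0) (nat_lit 4291030606) (nat_lit 380) (nat_lit 7284563791) (nat_lit 76) (nat_lit 3211829439) (nat_lit 70) (nat_lit 5) (nat_lit 75) (nat_lit 5) (nat_lit 71) (nat_lit 5) (nat_lit 322) (nat_lit 274) (nat_lit 184)) (XT.lf (nat_lit 0) (nat_lit 6598711650) (nat_lit 380) (nat_lit 848829941) (nat_lit 76) (nat_lit 7629950233) (nat_lit 70) (nat_lit 5) (nat_lit 75) (nat_lit 5) (nat_lit 71) (nat_lit 5) (nat_lit 323) (nat_lit 274) (nat_lit 183)))) (XT.nd (nat_lit 78) (nat_lit 304) (nat_lit 0) (XT.lf (nat_lit 0) (nat_lit 5871673110) (nat_lit 304) (nat_lit 3142811559) (nat_lit 380)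 (nat_lit 6360643515) (nat_lit 66) (nat_lit 5) (nat_lit 70) (nat_lit 5) (nat_lit 71) (nat_lit 5) (nat_lit 324) (nat_lit 274) (nat_lit 182)) (XT.nd (nat_lit 78) (nat_lit 304) (nat_lit 0) (XT.lf (nat_lit 0) (nat_lit 11506459812) (nat_lit 380) (nat_lit 2905894581) (nat_lit 76) (nat_lit 1269258614) (nat_lit 66) (nat_lit 5) (nat_lit 71) (nat_lit 5) (nat_lit 67) (nat_lit 5) (nat_lit 325) (nat_lit 274) (nat_lit 181)) (XT.lf (nat_lit 0) (nat_lit 3912339818) (nat_lit 304) (nat_lit 10212746212) (nat_lit 380) (nat_lit 1870679918) (nat_lit 62) (nat_lit 5) (nat_lit 66) (nat_lit 5) (nat_lit 67) (nat_lit 5) (nat_lit 326) (nat_lit 274) (nat_lit 180))))))) (XT.nd (nat_lit 858) (nat_lit 1216) (nat_lit 0) (XT.nd (nat_lit 390) (nat_lit 608) (nat_lit 0) (XT.nd (nat_lit 156) (nat_lit 228) (nat_lit 0) (XT.nd (nat_lit 78) (nat_lit 304) (nat_lit 0) (XT.lf (nat_lit 0) (nat_lit 505998581) (nat_lit 380) (nat_lit 5351520254)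 (nat_lit 76) (nat_lit 10461321649) (nat_lit 61) (nat_lit 5) (nat_lit 66) (nat_lit 5) (nat_lit 62) (nat_lit 5) (nat_lit 327) (nat_lit 274) (nat_lit 179)) (XT.lf (nat_lit 0) (nat_lit 1572544751) (nat_lit 304) (nat_lit 1342688563) (nat_lit 380) (nat_lit 13735880411) (nat_lit 57) (nat_lit 5) (nat_lit 61) (nat_lit 5) (nat_lit 62) (nat_lit 5) (nat_lit 328) (nat_lit 274) (nat_lit 178))) (XT.nd (nat_lit 78) (nat_lit 228) (nat_lit 0) (XT.lf (nat_lit 0) (nat_lit 5467062291) (nat_lit 380) (nat_lit 8232229675) (nat_lit 76) (nat_lit 3291980628) (nat_lit 57) (nat_lit 5) (nat_lit 62) (nat_lit 5) (nat_lit 58) (nat_lit 5) (nat_lit 329) (nat_lit 274) (nat_lit 177)) (XT.nd (nat_lit 78) (nat_lit 228) (nat_lit 0) (XT.lf (nat_lit 0) (nat_lit 8093155372) (nat_lit 380) (nat_lit 1215346316) (nat_lit 76) (nat_lit 8033229428) (nat_lit 57) (nat_lit 5) (nat_lit 62) (nat_lit 5) (nat_lit 58) (nat_lit 5) (nat_lit 330) (nat_lit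 274) (nat_lit 176)) (XT.lf (nat_lit 0) (nat_lit 6110354118) (nat_lit 228) (nat_lit 4731282799) (nat_lit 304) (nat_lit 6859783706) (nat_lit 54) (nat_lit 5) (nat_lit 57) (nat_lit 5) (nat_lit 58) (nat_lit 5) (nat_lit 331) (nat_lit 274) (nat_lit 175))))) (XT.nd (nat_lit 234) (nat_lit 228) (nat_lit 0) (XT.nd (nat_lit 78) (nat_lit 380) (nat_lit 0) (XT.lf (nat_lit 0) (nat_lit 13660019676) (nat_lit 228) (nat_lit 9936596) (nat_lit 304) (nat_lit 4402047703) (nat_lit 54) (nat_lit 5) (nat_lit 57) (nat_lit 5) (nat_lit 58) (nat_lit 5) (nat_lit 332) (nat_lit 274) (nat_lit 174)) (XT.nd (nat_lit 78) (nat_lit 76) (nat_lit 0) (XT.lf (nat_lit 0) (nat_lit 2973321063) (nat_lit 304) (nat_lit 13670526016) (nat_lit 380) (nat_lit 1808060036) (nat_lit 50) (nat_lit 5) (nat_lit 54) (nat_lit 5) (nat_lit 55) (nat_lit 5) (nat_lit 333) (nat_lit 274) (nat_lit 173)) (XT.lf (nat_lit 0) (nat_lit 877537441) (nat_lit 380) (nat_lit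 8200714147) (nat_lit 76) (nat_lit 9763809893) (nat_lit 49) (nat_lit 5) (nat_lit 54) (nat_lit 5) (nat_lit 50) (nat_lit 5) (nat_lit 334) (nat_lit 274) (nat_lit 172)))) (XT.nd (nat_lit 78) (nat_lit 228) (nat_lit 0) (XT.lf (nat_lit 0) (nat_lit 3593336523) (nat_lit 380) (nat_lit 742434802) (nat_lit 76) (nat_lit 14908054799) (nat_lit 49) (nat_lit 5) (nat_lit 54) (nat_lit 5) (nat_lit 50) (nat_lit 5) (nat_lit 335) (nat_lit 274) (nat_lit 171)) (XT.nd (nat_lit 78) (nat_lit 0) (nat_lit 0) (XT.lf (nat_lit 0) (nat_lit 6450729490) (nat_lit 304) (nat_lit 12604057417) (nat_lit 76) (nat_lit 601074476) (nat_lit 46) (nat_lit 5) (nat_lit 50) (nat_lit 5) (nat_lit 47) (nat_lit 5) (nat_lit 336) (nat_lit 274) (nat_lit 170)) (XT.lf (nat_lit 0) (nat_lit 9430881812) (nat_lit 304) (nat_lit 5047566179) (nat_lit 76) (nat_lit 5600719232) (nat_lit 46) (nat_lit 5) (nat_lit 50) (nat_lit 5) (nat_lit 47) (nat_lit 5) (nat_lit 337)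 (nat_lit 274) (nat_lit 169)))))) (XT.nd (nat_lit 468) (nat_lit 456) (nat_lit 0) (XT.nd (nat_lit 234) (nat_lit 532) (nat_lit 0) (XT.nd (nat_lit 78) (nat_lit 0) (nat_lit 0) (XT.lf (nat_lit 0) (nat_lit 2770636522) (nat_lit 228) (nat_lit 9743365111) (nat_lit 304) (nat_lit 8000783770) (nat_lit 43) (nat_lit 5) (nat_lit 46) (nat_lit 5) (nat_lit 47) (nat_lit 5) (nat_lit 338) (nat_lit 274) (nat_lit 168)) (XT.nd (nat_lit 78) (nat_lit 0) (nat_lit 0) (XT.lf (nat_lit 0) (nat_lit 10907993844) (nat_lit 228) (nat_lit 4819720978) (nat_lit 304) (nat_lit 5234633782) (nat_lit 43) (nat_lit 5) (nat_lit 46) (nat_lit 5) (nat_lit 47) (nat_lit 5) (nat_lit 339) (nat_lit 274) (nat_lit 167)) (XT.lf (nat_lit 0) (nat_lit 19027706468) (nat_lit 304) (nat_lit 2154935781) (nat_lit 76) (nat_lit 241019340) (nat_lit 43) (nat_lit 5) (nat_lit 47) (nat_lit 5) (nat_lit 44) (nat_lit 5) (nat_lit 340) (nat_lit 274) (nat_lit 166)))) (XT.nd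 (nat_lit 78) (nat_lit 228) (nat_lit 0) (XT.lf (nat_lit 0) (nat_lit 612021304) (nat_lit 304) (nat_lit 15868654956) (nat_lit 76) (nat_lit 5415170139) (nat_lit 39) (nat_lit 5) (nat_lit 43) (nat_lit 5) (nat_lit 40) (nat_lit 5) (nat_lit 341) (nat_lit 274) (nat_lit 165)) (XT.nd (nat_lit 78) (nat_lit 228) (nat_lit 0) (XT.lf (nat_lit 0) (nat_lit 3671916851) (nat_lit 304) (nat_lit 7924713456) (nat_lit 76) (nat_lit 10784576988) (nat_lit 39) (nat_lit 5) (nat_lit 43) (nat_lit 5) (nat_lit 40) (nat_lit 5) (nat_lit 342) (nat_lit 274) (nat_lit 164)) (XT.lf (nat_lit 0) (nat_lit 244661982) (nat_lit 228) (nat_lit 6569512789) (nat_lit 304) (nat_lit 16067254076) (nat_lit 36) (nat_lit 5) (nat_lit 39) (nat_lit 5) (nat_lit 40) (nat_lit 5) (nat_lit 343) (nat_lit 274) (nat_lit 163))))) (XT.nd (nat_lit 234) (nat_lit 304) (nat_lit 0) (XT.nd (nat_lit 78) (nat_lit 152) (nat_lit 0) (XT.lf (nat_lit 0) (nat_lit 8804082122)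 (nat_lit 228) (nat_lit 1315031251) (nat_lit 304) (nat_lit 13275507587) (nat_lit 36) (nat_lit 5) (nat_lit 39) (nat_lit 5) (nat_lit 40) (nat_lit 5) (nat_lit 344) (nat_lit 274) (nat_lit 162)) (XT.nd (nat_lit 78) (nat_lit 152) (nat_lit 0) (XT.lf (nat_lit 0) (nat_lit 13551256061) (nat_lit 304) (nat_lit 6359582984) (nat_lit 76) (nat_lit 4011543942) (nat_lit 36) (nat_lit 5) (nat_lit 40) (nat_lit 5) (nat_lit 37) (nat_lit 5) (nat_lit 345) (nat_lit 274) (nat_lit 161)) (XT.lf (nat_lit 0) (nat_lit 2130074699) (nat_lit 152) (nat_lit 14978786199) (nat_lit 228) (nat_lit 7356457409) (nat_lit 34) (nat_lit 5) (nat_lit 36) (nat_lit 5) (nat_lit 37) (nat_lit 5) (nat_lit 346) (nat_lit 274) (nat_lit 160)))) (XT.nd (nat_lit 78) (nat_lit 304) (nat_lit 0) (XT.lf (nat_lit 0) (nat_lit 10988179598) (nat_lit 152) (nat_lit 9838396459) (nat_lit 228) (nat_lit 4196379084) (nat_lit 34) (nat_lit 5) (nat_lit 36) (nat_lit 5) (nat_lit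 37) (nat_lit 5) (nat_lit 347) (nat_lit 274) (nat_lit 159)) (XT.nd (nat_lit 78) (nat_lit 304) (nat_lit 0) (XT.lf (nat_lit 0) (nat_lit 20095903634) (nat_lit 152) (nat_lit 4549397541) (nat_lit 228) (nat_lit 952350037) (nat_lit 34) (nat_lit 5) (nat_lit 36) (nat_lit 5) (nat_lit 37) (nat_lit 5) (nat_lit 348) (nat_lit 274) (nat_lit 158)) (XT.lf (nat_lit 0) (nat_lit 2373023434) (nat_lit 304) (nat_lit 22884308234) (nat_lit 76) (nat_lit 930661968) (nat_lit 30) (nat_lit 5) (nat_lit 34) (nat_lit 5) (nat_lit 31) (nat_lit 5) (nat_lit 349) (nat_lit 274) (nat_lit 157))))))))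
noncomputable def xc152 : XT := (XT.nd (nat_lit 1716) (nat_lit 608) (nat_lit 0) (XT.nd (nat_lit 858) (nat_lit 456) (nat_lit 0) (XT.nd (nat_lit 390) (nat_lit 380) (nat_lit 0) (XT.nd (nat_lit 156) (nat_lit 152) (nat_lit 0) (XT.nd (nat_lit 78) (nat_lit 0) (nat_lit 0) (XT.lf (nat_lit 0) (nat_lit 5869933864) (nat_lit 304) (nat_lit 14379324063) (nat_lit 76) (nat_lit 6543791274) (nat_lit 30) (nat_lit 5) (nat_lit 34) (nat_lit 5) (nat_lit 31) (nat_lit 5) (nat_lit 350) (nat_lit 274) (nat_lit 156)) (XT.lf (nat_lit 0) (nat_lit 9461816243) (nat_lit 304) (nat_lit 5634708257) (nat_lit 76) (nat_lit 12320042865) (nat_lit 30) (nat_lit 5) (nat_lit 34) (nat_lit 5) (nat_lit 31) (nat_lit 5) (nat_lit 351) (nat_lit 274) (nat_lit 155))) (XT.nd (nat_lit 78) (nat_lit 0) (nat_lit 0) (XT.lf (nat_lit 0) (nat_lit 3423994577) (nat_lit 152) (nat_lit 9760728063) (nat_lit 228) (nat_lit 14873382903) (nat_lit 28) (nat_lit 5) (nat_lit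 30) (nat_lit 5) (nat_lit 31) (nat_lit 5) (nat_lit 352) (nat_lit 274) (nat_lit 154)) (XT.nd (nat_lit 78) (nat_lit 0) (nat_lit 0) (XT.lf (nat_lit 0) (nat_lit 12855046285) (nat_lit 152) (nat_lit 4211661013) (nat_lit 228) (nat_lit 11650772968) (nat_lit 28) (nat_lit 5) (nat_lit 30) (nat_lit 5) (nat_lit 31) (nat_lit 5) (nat_lit 353) (nat_lit 274) (nat_lit 153)) (XT.lf (nat_lit 0) (nat_lit 21070325713) (nat_lit 228) (nat_lit 6856784813) (nat_lit 76) (nat_lit 1469382256) (nat_lit 28) (nat_lit 5) (nat_lit 31) (nat_lit 5) (nat_lit 29) (nat_lit 5) (nat_lit 354) (nat_lit 274) (nat_lit 152))))) (XT.nd (nat_lit 234) (nat_lit 152) (nat_lit 0) (XT.nd (nat_lit 78) (nat_lit 76) (nat_lit 0) (XT.lf (nat_lit 0) (nat_lit 2410070229) (nat_lit 152) (nat_lit 22839837505) (nat_lit 228) (nat_lit 4844303723) (nat_lit 26) (nat_lit 5) (nat_lit 28) (nat_lit 5) (nat_lit 29) (nat_lit 5) (nat_lit 355) (nat_lit 274) (nat_lit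 151)) (XT.nd (nat_lit 78) (nat_lit 76) (nat_lit 0) (XT.lf (nat_lit 0) (nat_lit 12081335280) (nat_lit 152) (nat_lit 17533896814) (nat_lit 228) (nat_lit 1195830053) (nat_lit 26) (nat_lit 5) (nat_lit 28) (nat_lit 5) (nat_lit 29) (nat_lit 5) (nat_lit 356) (nat_lit 274) (nat_lit 150)) (XT.lf (nat_lit 0) (nat_lit 2503379680) (nat_lit 228) (nat_lit 9545233370) (nat_lit 76) (nat_lit 19500338591) (nat_lit 25) (nat_lit 5) (nat_lit 28) (nat_lit 5) (nat_lit 26) (nat_lit 5) (nat_lit 357) (nat_lit 274) (nat_lit 149)))) (XT.nd (nat_lit 78) (nat_lit 152) (nat_lit 0) (XT.lf (nat_lit 0) (nat_lit 6281062368) (nat_lit 228) (nat_lit 110564234) (nat_lit 76) (nat_lit 25917260232) (nat_lit 25) (nat_lit 5) (nat_lit 28) (nat_lit 5) (nat_lit 26) (nat_lit 5) (nat_lit 358) (nat_lit 274) (nat_lit 148)) (XT.nd (nat_lit 78) (nat_lit 0) (nat_lit 0) (XT.lf (nat_lit 0) (nat_lit 9784959276) (nat_lit 152) (nat_lit 472953588) (nat_lit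 228) (nat_lit 22831141963) (nat_lit 23) (nat_lit 5) (nat_lit 25) (nat_lit 5) (nat_lit 26) (nat_lit 5) (nat_lit 359) (nat_lit 274) (nat_lit 147)) (XT.lf (nat_lit 0) (nat_lit 14401096657) (nat_lit 228) (nat_lit 13980247480) (nat_lit 76) (nat_lit 5509882465) (nat_lit 23) (nat_lit 5) (nat_lit 26) (nat_lit 5) (nat_lit 24) (nat_lit 5) (nat_lit 360) (nat_lit 274) (nat_lit 146)))))) (XT.nd (nat_lit 390) (nat_lit 304) (nat_lit 0) (XT.nd (nat_lit 156) (nat_lit 0) (nat_lit 0) (XT.nd (nat_lit 78) (nat_lit 152) (nat_lit 0) (XT.lf (nat_lit 0) (nat_lit 18665342015) (nat_lit 228) (nat_lit 4394184740) (nat_lit 76) (nat_lit 11658043091) (nat_lit 23) (nat_lit 5) (nat_lit 26) (nat_lit 5) (nat_lit 24) (nat_lit 5) (nat_lit 361) (nat_lit 274) (nat_lit 145)) (XT.lf (nat_lit 0) (nat_lit 5575819479) (nat_lit 152) (nat_lit 17527607369) (nat_lit 228) (nat_lit 12463908205) (nat_lit 21) (nat_lit 5) (nat_lit 23) (nat_lit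 5) (nat_lit 24) (nat_lit 5) (nat_lit 362) (nat_lit 274) (nat_lit 144))) (XT.nd (nat_lit 78) (nat_lit 0) (nat_lit 0) (XT.lf (nat_lit 0) (nat_lit 15922677588) (nat_lit 152) (nat_lit 11788768624) (nat_lit 228) (nat_lit 8730052006) (nat_lit 21) (nat_lit 5) (nat_lit 23) (nat_lit 5) (nat_lit 24) (nat_lit 5) (nat_lit 363) (nat_lit 274) (nat_lit 143)) (XT.nd (nat_lit 78) (nat_lit 0) (nat_lit 0) (XT.lf (nat_lit 0) (nat_lit 26567977638) (nat_lit 152) (nat_lit 5882368653) (nat_lit 228) (nat_lit 4891769293) (nat_lit 21) (nat_lit 5) (nat_lit 23) (nat_lit 5) (nat_lit 24) (nat_lit 5) (nat_lit 364) (nat_lit 274) (nat_lit 142)) (XT.lf (nat_lit 0) (nat_lit 37326159187) (nat_lit 228) (nat_lit 750844065) (nat_lit 76) (nat_lit 192914106) (nat_lit 21) (nat_lit 5) (nat_lit 24) (nat_lit 5) (nat_lit 22) (nat_lit 4) (nat_lit 365) (nat_lit 274) (nat_lit 141))))) (XT.nd (nat_lit 234) (nat_lit 152) (nat_lit 0) (XT.nd (nat_lit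 78) (nat_lit 0) (nat_lit 0) (XT.lf (nat_lit 0) (nat_lit 3207613774) (nat_lit 152) (nat_lit 29560082093) (nat_lit 76) (nat_lit 6452588924) (nat_lit 19) (nat_lit 5) (nat_lit 21) (nat_lit 5) (nat_lit 20) (nat_lit 5) (nat_lit 366) (nat_lit 274) (nat_lit 140)) (XT.nd (nat_lit 78) (nat_lit 0) (nat_lit 0) (XT.lf (nat_lit 0) (nat_lit 7465254774) (nat_lit 152) (nat_lit 19820867840) (nat_lit 76) (nat_lit 12912746971) (nat_lit 19) (nat_lit 5) (nat_lit 21) (nat_lit 5) (nat_lit 20) (nat_lit 5) (nat_lit 367) (nat_lit 274) (nat_lit 139)) (XT.lf (nat_lit 0) (nat_lit 11843867121) (nat_lit 152) (nat_lit 9800627916) (nat_lit 76) (nat_lit 19562526965) (nat_lit 19) (nat_lit 5) (nat_lit 21) (nat_lit 5) (nat_lit 20) (nat_lit 5) (nat_lit 368) (nat_lit 274) (nat_lit 138)))) (XT.nd (nat_lit 78) (nat_lit 0) (nat_lit 0) (XT.lf (nat_lit 0) (nat_lit 519531153) (nat_lit 152) (nat_lit 15832739682) (nat_lit 228) (nat_lit 25893202290)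 (nat_lit 17) (nat_lit 5) (nat_lit 19) (nat_lit 5) (nat_lit 20) (nat_lit 5) (nat_lit 369) (nat_lit 274) (nat_lit 137)) (XT.nd (nat_lit 78) (nat_lit 0) (nat_lit 0) (XT.lf (nat_lit 0) (nat_lit 11339478420) (nat_lit 152) (nat_lit 9748942367) (nat_lit 228) (nat_lit 22223889092) (nat_lit 17) (nat_lit 5) (nat_lit 19) (nat_lit 5) (nat_lit 20) (nat_lit 5) (nat_lit 370) (nat_lit 274) (nat_lit 136)) (XT.lf (nat_lit 0) (nat_lit 22473616494) (nat_lit 152) (nat_lit 3486754277) (nat_lit 228) (nat_lit 18450976214) (nat_lit 17) (nat_lit 5) (nat_lit 19) (nat_lit 5) (nat_lit 20) (nat_lit 5) (nat_lit 371) (nat_lit 274) (nat_lit 135))))))) (XT.nd (nat_lit 858) (nat_lit 304) (nat_lit 0) (XT.nd (nat_lit 390) (nat_lit 152) (nat_lit 0) (XT.nd (nat_lit 156) (nat_lit 152) (nat_lit 0) (XT.nd (nat_lit 78) (nat_lit 0) (nat_lit 0) (XT.lf (nat_lit 0) (nat_lit 31000824399) (nat_lit 228) (nat_lit 11640317102) (nat_lit 76) (nat_lit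 2901549870) (nat_lit 17) (nat_lit 5) (nat_lit 20) (nat_lit 5) (nat_lit 18) (nat_lit 4) (nat_lit 372) (nat_lit 274) (nat_lit 134)) (XT.lf (nat_lit 0) (nat_lit 36221052884) (nat_lit 228) (nat_lit 1078460486) (nat_lit 76) (nat_lit 9407612213) (nat_lit 17) (nat_lit 5) (nat_lit 20) (nat_lit 5) (nat_lit 18) (nat_lit 4) (nat_lit 373) (nat_lit 274) (nat_lit 133))) (XT.nd (nat_lit 78) (nat_lit 76) (nat_lit 0) (XT.lf (nat_lit 0) (nat_lit 9985436816) (nat_lit 76) (nat_lit 31702650087) (nat_lit 152) (nat_lit 6215706105) (nat_lit 16) (nat_lit 5) (nat_lit 17) (nat_lit 5) (nat_lit 18) (nat_lit 4) (nat_lit 374) (nat_lit 274) (nat_lit 132)) (XT.nd (nat_lit 78) (nat_lit 76) (nat_lit 0) (XT.lf (nat_lit 0) (nat_lit 21393786344) (nat_lit 76) (nat_lit 25930525041) (nat_lit 152) (nat_lit 1811899655) (nat_lit 16) (nat_lit 5) (nat_lit 17) (nat_lit 5) (nat_lit 18) (nat_lit 4) (nat_lit 375) (nat_lit 274) (nat_lit 131))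 (XT.lf (nat_lit 0) (nat_lit 2665260392) (nat_lit 152) (nat_lit 17296810668) (nat_lit 76) (nat_lit 30442918783) (nat_lit 15) (nat_lit 5) (nat_lit 17) (nat_lit 5) (nat_lit 16) (nat_lit 5) (nat_lit 376) (nat_lit 274) (nat_lit 130))))) (XT.nd (nat_lit 234) (nat_lit 0) (nat_lit 0) (XT.nd (nat_lit 78) (nat_lit 152) (nat_lit 0) (XT.lf (nat_lit 0) (nat_lit 7234875974) (nat_lit 152) (nat_lit 6564904186) (nat_lit 76) (nat_lit 37911682381) (nat_lit 15) (nat_lit 5) (nat_lit 17) (nat_lit 5) (nat_lit 16) (nat_lit 5) (nat_lit 377) (nat_lit 274) (nat_lit 129)) (XT.nd (nat_lit 78) (nat_lit 0) (nat_lit 0) (XT.lf (nat_lit 0) (nat_lit 4569251792) (nat_lit 152) (nat_lit 7410967297) (nat_lit 228) (nat_lit 41075756460) (nat_lit 13) (nat_lit 5) (nat_lit 15) (nat_lit 5) (nat_lit 16) (nat_lit 5) (nat_lit 378) (nat_lit 274) (nat_lit 128)) (XT.lf (nat_lit 0) (nat_lit 16163223256) (nat_lit 152) (nat_lit 765777980) (nat_lit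 228) (nat_lit 37509995499) (nat_lit 13) (nat_lit 5) (nat_lit 15) (nat_lit 5) (nat_lit 16) (nat_lit 5) (nat_lit 379) (nat_lit 274) (nat_lit 127)))) (XT.nd (nat_lit 78) (nat_lit 0) (nat_lit 0) (XT.lf (nat_lit 0) (nat_lit 22079584302) (nat_lit 228) (nat_lit 27825578539) (nat_lit 76) (nat_lit 5956750589) (nat_lit 13) (nat_lit 5) (nat_lit 16) (nat_lit 5) (nat_lit 14) (nat_lit 4) (nat_lit 380) (nat_lit 274) (nat_lit 126)) (XT.nd (nat_lit 78) (nat_lit 0) (nat_lit 0) (XT.lf (nat_lit 0) (nat_lit 27387319856) (nat_lit 228) (nat_lit 17077858757) (nat_lit 76) (nat_lit 12862264814) (nat_lit 13) (nat_lit 5) (nat_lit 16) (nat_lit 5) (nat_lit 14) (nat_lit 4) (nat_lit 381) (nat_lit 274) (nat_lit 125)) (XT.lf (nat_lit 0) (nat_lit 32849484600) (nat_lit 228) (nat_lit 6015861797) (nat_lit 76) (nat_lit 19971741726) (nat_lit 13) (nat_lit 5) (nat_lit 16) (nat_lit 5) (nat_lit 14) (nat_lit 4) (nat_lit 382) (nat_lit 274)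 (nat_lit 124)))))) (XT.nd (nat_lit 468) (nat_lit 152) (nat_lit 0) (XT.nd (nat_lit 234) (nat_lit 76) (nat_lit 0) (XT.nd (nat_lit 78) (nat_lit 0) (nat_lit 0) (XT.lf (nat_lit 0) (nat_lit 5476953247) (nat_lit 76) (nat_lit 33046545875) (nat_lit 152) (nat_lit 21867088066) (nat_lit 12) (nat_lit 5) (nat_lit 13) (nat_lit 5) (nat_lit 14) (nat_lit 4) (nat_lit 383) (nat_lit 274) (nat_lit 123)) (XT.nd (nat_lit 78) (nat_lit 0) (nat_lit 0) (XT.lf (nat_lit 0) (nat_lit 17430032723) (nat_lit 76) (nat_lit 26993847239) (nat_lit 152) (nat_lit 17565131329) (nat_lit 12) (nat_lit 5) (nat_lit 13) (nat_lit 5) (nat_lit 14) (nat_lit 4) (nat_lit 384) (nat_lit 274) (nat_lit 122)) (XT.lf (nat_lit 0) (nat_lit 29734093620) (nat_lit 76) (nat_lit 20762710131) (nat_lit 152) (nat_lit 13138722730) (nat_lit 12) (nat_lit 5) (nat_lit 13) (nat_lit 5) (nat_lit 14) (nat_lit 4) (nat_lit 385) (nat_lit 274) (nat_lit 121)))) (XT.nd (nat_lit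 78) (nat_lit 76) (nat_lit 0) (XT.lf (nat_lit 0) (nat_lit 42399887061) (nat_lit 76) (nat_lit 14347689870) (nat_lit 152) (nat_lit 8583994532) (nat_lit 12) (nat_lit 5) (nat_lit 13) (nat_lit 5) (nat_lit 14) (nat_lit 4) (nat_lit 386) (nat_lit 274) (nat_lit 120)) (XT.nd (nat_lit 78) (nat_lit 76) (nat_lit 0) (XT.lf (nat_lit 0) (nat_lit 55438480243) (nat_lit 76) (nat_lit 7743181096) (nat_lit 152) (nat_lit 3896966877) (nat_lit 12) (nat_lit 5) (nat_lit 13) (nat_lit 5) (nat_lit 14) (nat_lit 4) (nat_lit 387) (nat_lit 274) (nat_lit 119)) (XT.lf (nat_lit 0) (nat_lit 908377208) (nat_lit 152) (nat_lit 25862844) (nat_lit 76) (nat_lit 67943716075) (nat_lit 11) (nat_lit 5) (nat_lit 13) (nat_lit 5) (nat_lit 12) (nat_lit 5) (nat_lit 388) (nat_lit 274) (nat_lit 118))))) (XT.nd (nat_lit 234) (nat_lit 0) (nat_lit 0) (XT.nd (nat_lit 78) (nat_lit 0) (nat_lit 0) (XT.lf (nat_lit 0) (nat_lit 5952069598) (nat_lit 228) (nat_lit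 58658593069) (nat_lit 76) (nat_lit 6114272017) (nat_lit 9) (nat_lit 5) (nat_lit 12) (nat_lit 5) (nat_lit 10) (nat_lit 4) (nat_lit 389) (nat_lit 274) (nat_lit 117)) (XT.nd (nat_lit 78) (nat_lit 0) (nat_lit 0) (XT.lf (nat_lit 0) (nat_lit 11152597815) (nat_lit 228) (nat_lit 48121598969) (nat_lit 76) (nat_lit 13352963674) (nat_lit 9) (nat_lit 5) (nat_lit 12) (nat_lit 5) (nat_lit 10) (nat_lit 4) (nat_lit 390) (nat_lit 274) (nat_lit 116)) (XT.lf (nat_lit 0) (nat_lit 16505269453) (nat_lit 228) (nat_lit 37275168921) (nat_lit 76) (nat_lit 20806134308) (nat_lit 9) (nat_lit 5) (nat_lit 12) (nat_lit 5) (nat_lit 10) (nat_lit 4) (nat_lit 391) (nat_lit 274) (nat_lit 115)))) (XT.nd (nat_lit 31512) (nat_lit 0) (nat_lit 14744) (XT.lf (nat_lit 0) (nat_lit 22014761605) (nat_lit 228) (nat_lit 26109825462) (nat_lit 76) (nat_lit 28480296399) (nat_lit 9) (nat_lit 5) (nat_lit 12) (nat_lit 5) (nat_lit 10) (nat_lit 4)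 (nat_lit 392) (nat_lit 274) (nat_lit 114)) (XT.nd (nat_lit 78) (nat_lit 0) (nat_lit 0) (XT.lf (nat_lit 0) (nat_lit 117135819) (nat_lit 836) (nat_lit 1800588526) (nat_lit 836) (nat_lit 1800588526) (nat_lit 203) (nat_lit 3) (nat_lit 214) (nat_lit 3) (nat_lit 214) (nat_lit 5) (nat_lit 275) (nat_lit 275) (nat_lit 230)) (XT.lf (nat_lit 0) (nat_lit 1577527217) (nat_lit 836) (nat_lit 438288137) (nat_lit 836) (nat_lit 5488217971) (nat_lit 203) (nat_lit 3) (nat_lit 214) (nat_lit 3) (nat_lit 214) (nat_lit 5) (nat_lit 276) (nat_lit 275) (nat_lit 229))))))))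
noncomputable def xc153 : XT := (XT.nd (nat_lit 1716) (nat_lit 4712) (nat_lit 0) (XT.nd (nat_lit 858) (nat_lit 3572) (nat_lit 0) (XT.nd (nat_lit 390) (nat_lit 836) (nat_lit 0) (XT.nd (nat_lit 156) (nat_lit 684) (nat_lit 0) (XT.nd (nat_lit 78) (nat_lit 0) (nat_lit 76) (XT.lf (nat_lit 76) (nat_lit 2848058783) (nat_lit 0) (nat_lit 88112598) (nat_lit 836) (nat_lit 4638193165) (nat_lit 204) (nat_lit 5) (nat_lit 203) (nat_lit 3) (nat_lit 214) (nat_lit 5) (nat_lit 277) (nat_lit 275) (nat_lit 228)) (XT.lf (nat_lit 0) (nat_lit 4307496617) (nat_lit 760) (nat_lit 1451628798) (nat_lit 836) (nat_lit 1888672286) (nat_lit 204) (nat_lit 5) (nat_lit 214) (nat_lit 5) (nat_lit 215) (nat_lit 5) (nat_lit 278) (nat_lit 275) (nat_lit 227))) (XT.nd (nat_lit 78) (nat_lit 760) (nat_lit 0) (XT.lf (nat_lit 76) (nat_lit 1930263570) (nat_lit 0) (nat_lit 3759817453) (nat_lit 836) (nat_lit 2034394540) (nat_lit 205) (nat_lit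 5) (nat_lit 204) (nat_lit 5) (nat_lit 215) (nat_lit 5) (nat_lit 279) (nat_lit 275) (nat_lit 226)) (XT.nd (nat_lit 78) (nat_lit 760) (nat_lit 0) (XT.lf (nat_lit 76) (nat_lit 5415823515) (nat_lit 0) (nat_lit 1664841548) (nat_lit 836) (nat_lit 723934093) (nat_lit 205) (nat_lit 5) (nat_lit 204) (nat_lit 5) (nat_lit 215) (nat_lit 5) (nat_lit 280) (nat_lit 275) (nat_lit 225)) (XT.lf (nat_lit 0) (nat_lit 582024762) (nat_lit 836) (nat_lit 6786688632) (nat_lit 912) (nat_lit 519313638) (nat_lit 194) (nat_lit 5) (nat_lit 205) (nat_lit 5) (nat_lit 206) (nat_lit 5) (nat_lit 281) (nat_lit 275) (nat_lit 224))))) (XT.nd (nat_lit 234) (nat_lit 836) (nat_lit 0) (XT.nd (nat_lit 78) (nat_lit 0) (nat_lit 0) (XT.lf (nat_lit 0) (nat_lit 1907418202) (nat_lit 836) (nat_lit 3281241905) (nat_lit 912) (nat_lit 2785367512) (nat_lit 194) (nat_lit 5) (nat_lit 205) (nat_lit 5) (nat_lit 206) (nat_lit 5) (nat_lit 282) (nat_lit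 275) (nat_lit 223)) (XT.nd (nat_lit 78) (nat_lit 0) (nat_lit 0) (XT.lf (nat_lit 76) (nat_lit 306968804) (nat_lit 0) (nat_lit 2923858144) (nat_lit 912) (nat_lit 4833159000) (nat_lit 195) (nat_lit 5) (nat_lit 194) (nat_lit 5) (nat_lit 206) (nat_lit 5) (nat_lit 283) (nat_lit 275) (nat_lit 222)) (XT.lf (nat_lit 76) (nat_lit 4041976923) (nat_lit 0) (nat_lit 541429518) (nat_lit 912) (nat_lit 3573674213) (nat_lit 195) (nat_lit 5) (nat_lit 194) (nat_lit 5) (nat_lit 206) (nat_lit 5) (nat_lit 284) (nat_lit 275) (nat_lit 221)))) (XT.nd (nat_lit 78) (nat_lit 912) (nat_lit 0) (XT.lf (nat_lit 0) (nat_lit 5952698520) (nat_lit 836) (nat_lit 411144264) (nat_lit 912) (nat_lit 1889959495) (nat_lit 195) (nat_lit 5) (nat_lit 206) (nat_lit 5) (nat_lit 207) (nat_lit 5) (nat_lit 285) (nat_lit 275) (nat_lit 220)) (XT.nd (nat_lit 78) (nat_lit 912) (nat_lit 0) (XT.lf (nat_lit 76) (nat_lit 3437666694) (nat_lit 0) (nat_lit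 3922790205) (nat_lit 912) (nat_lit 993161723) (nat_lit 196) (nat_lit 5) (nat_lit 195) (nat_lit 5) (nat_lit 207) (nat_lit 5) (nat_lit 286) (nat_lit 275) (nat_lit 219)) (XT.lf (nat_lit 0) (nat_lit 310707342) (nat_lit 912) (nat_lit 1078008537) (nat_lit 988) (nat_lit 7068811686) (nat_lit 183) (nat_lit 5) (nat_lit 195) (nat_lit 5) (nat_lit 196) (nat_lit 5) (nat_lit 287) (nat_lit 275) (nat_lit 218)))))) (XT.nd (nat_lit 390) (nat_lit 2812) (nat_lit 0) (XT.nd (nat_lit 156) (nat_lit 836) (nat_lit 0) (XT.nd (nat_lit 78) (nat_lit 0) (nat_lit 0) (XT.lf (nat_lit 0) (nat_lit 1634360608) (nat_lit 912) (nat_lit 5683021805) (nat_lit 988) (nat_lit 1246962438) (nat_lit 184) (nat_lit 5) (nat_lit 196) (nat_lit 5) (nat_lit 197) (nat_lit 5) (nat_lit 288) (nat_lit 275) (nat_lit 217)) (XT.lf (nat_lit 0) (nat_lit 2984042382) (nat_lit 912) (nat_lit 1735251587) (nat_lit 988) (nat_lit 3955585023) (nat_lit 184) (nat_lit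 5) (nat_lit 196) (nat_lit 5) (nat_lit 197) (nat_lit 5) (nat_lit 289) (nat_lit 275) (nat_lit 216))) (XT.nd (nat_lit 78) (nat_lit 836) (nat_lit 0) (XT.lf (nat_lit 76) (nat_lit 2348738691) (nat_lit 0) (nat_lit 2010748282) (nat_lit 988) (nat_lit 4429782951) (nat_lit 185) (nat_lit 5) (nat_lit 184) (nat_lit 5) (nat_lit 197) (nat_lit 5) (nat_lit 290) (nat_lit 275) (nat_lit 215)) (XT.nd (nat_lit 78) (nat_lit 912) (nat_lit 0) (XT.lf (nat_lit 0) (nat_lit 5764978010) (nat_lit 912) (nat_lit 2352454341) (nat_lit 76) (nat_lit 790092794) (nat_lit 185) (nat_lit 5) (nat_lit 197) (nat_lit 5) (nat_lit 186) (nat_lit 5) (nat_lit 291) (nat_lit 275) (nat_lit 214)) (XT.lf (nat_lit 0) (nat_lit 1846183271) (nat_lit 912) (nat_lit 5368764030) (nat_lit 988) (nat_lit 1814404574) (nat_lit 173) (nat_lit 5) (nat_lit 185) (nat_lit 5) (nat_lit 186) (nat_lit 5) (nat_lit 292) (nat_lit 275) (nat_lit 213))))) (XT.nd (nat_lit 234)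 (nat_lit 1748) (nat_lit 0) (XT.nd (nat_lit 78) (nat_lit 1064) (nat_lit 0) (XT.lf (nat_lit 0) (nat_lit 6191080608) (nat_lit 912) (nat_lit 2506509679) (nat_lit 988) (nat_lit 457658422) (nat_lit 173) (nat_lit 5) (nat_lit 185) (nat_lit 5) (nat_lit 186) (nat_lit 5) (nat_lit 293) (nat_lit 275) (nat_lit 212)) (XT.nd (nat_lit 78) (nat_lit 0) (nat_lit 0) (XT.lf (nat_lit 0) (nat_lit 905164652) (nat_lit 1064) (nat_lit 7918629207) (nat_lit 76) (nat_lit 461431521) (nat_lit 159) (nat_lit 5) (nat_lit 173) (nat_lit 5) (nat_lit 160) (nat_lit 5) (nat_lit 294) (nat_lit 275) (nat_lit 211)) (XT.lf (nat_lit 0) (nat_lit 2321506821) (nat_lit 1064) (nat_lit 3588535140) (nat_lit 76) (nat_lit 3508351323) (nat_lit 159) (nat_lit 5) (nat_lit 173) (nat_lit 5) (nat_lit 160) (nat_lit 5) (nat_lit 295) (nat_lit 275) (nat_lit 210)))) (XT.nd (nat_lit 78) (nat_lit 684) (nat_lit 0) (XT.lf (nat_lit 0) (nat_lit 860354127) (nat_lit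 1064) (nat_lit 2896010048) (nat_lit 1140) (nat_lit 5799991748) (nat_lit 145) (nat_lit 5) (nat_lit 159) (nat_lit 5) (nat_lit 160) (nat_lit 5) (nat_lit 296) (nat_lit 275) (nat_lit 209)) (XT.nd (nat_lit 78) (nat_lit 684) (nat_lit 0) (XT.lf (nat_lit 0) (nat_lit 5241333171) (nat_lit 1140) (nat_lit 4212147212) (nat_lit 76) (nat_lit 244843181) (nat_lit 145) (nat_lit 5) (nat_lit 160) (nat_lit 5) (nat_lit 146) (nat_lit 5) (nat_lit 297) (nat_lit 275) (nat_lit 208)) (XT.lf (nat_lit 0) (nat_lit 356658907) (nat_lit 684) (nat_lit 6415678866) (nat_lit 760) (nat_lit 3072243694) (nat_lit 136) (nat_lit 5) (nat_lit 145) (nat_lit 5) (nat_lit 146) (nat_lit 5) (nat_lit 298) (nat_lit 275) (nat_lit 207))))))) (XT.nd (nat_lit 858) (nat_lit 2128) (nat_lit 0) (XT.nd (nat_lit 390) (nat_lit 1444) (nat_lit 0) (XT.nd (nat_lit 156) (nat_lit 1140) (nat_lit 0) (XT.nd (nat_lit 78) (nat_lit 0) (nat_lit 0) (XT.lf (nat_lit 0) (nat_lit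 5121296707) (nat_lit 684) (nat_lit 3240521593) (nat_lit 760) (nat_lit 1633106050) (nat_lit 136) (nat_lit 5) (nat_lit 145) (nat_lit 5) (nat_lit 146) (nat_lit 5) (nat_lit 299) (nat_lit 275) (nat_lit 206)) (XT.lf (nat_lit 0) (nat_lit 9970177890) (nat_lit 760) (nat_lit 148932802) (nat_lit 76) (nat_lit 31602463) (nat_lit 136) (nat_lit 5) (nat_lit 146) (nat_lit 5) (nat_lit 137) (nat_lit 5) (nat_lit 300) (nat_lit 275) (nat_lit 205))) (XT.nd (nat_lit 78) (nat_lit 532) (nat_lit 0) (XT.lf (nat_lit 0) (nat_lit 1339872937) (nat_lit 608) (nat_lit 5571697808) (nat_lit 76) (nat_lit 3397794877) (nat_lit 128) (nat_lit 5) (nat_lit 136) (nat_lit 5) (nat_lit 129) (nat_lit 5) (nat_lit 301) (nat_lit 275) (nat_lit 204)) (XT.nd (nat_lit 78) (nat_lit 532) (nat_lit 0) (XT.lf (nat_lit 0) (nat_lit 2875764514) (nat_lit 608) (nat_lit 727908068) (nat_lit 76) (nat_lit 6869911873) (nat_lit 128) (nat_lit 5) (nat_lit 136) (nat_lit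 5) (nat_lit 129) (nat_lit 5) (nat_lit 302) (nat_lit 275) (nat_lit 203)) (XT.lf (nat_lit 0) (nat_lit 4318976501) (nat_lit 532) (nat_lit 153069962) (nat_lit 608) (nat_lit 6170317486) (nat_lit 121) (nat_lit 5) (nat_lit 128) (nat_lit 5) (nat_lit 129) (nat_lit 5) (nat_lit 303) (nat_lit 275) (nat_lit 202))))) (XT.nd (nat_lit 234) (nat_lit 988) (nat_lit 0) (XT.nd (nat_lit 78) (nat_lit 456) (nat_lit 0) (XT.lf (nat_lit 0) (nat_lit 6129674243) (nat_lit 608) (nat_lit 1343666560) (nat_lit 76) (nat_lit 3342523957) (nat_lit 121) (nat_lit 5) (nat_lit 129) (nat_lit 5) (nat_lit 122) (nat_lit 5) (nat_lit 304) (nat_lit 275) (nat_lit 201)) (XT.nd (nat_lit 78) (nat_lit 0) (nat_lit 0) (XT.lf (nat_lit 0) (nat_lit 3832400267) (nat_lit 456) (nat_lit 4017103152) (nat_lit 532) (nat_lit 3144752859) (nat_lit 115) (nat_lit 5) (nat_lit 121) (nat_lit 5) (nat_lit 122) (nat_lit 5) (nat_lit 305) (nat_lit 275) (nat_lit 200)) (XT.lf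 (nat_lit 0) (nat_lit 9165236853) (nat_lit 456) (nat_lit 443880045) (nat_lit 532) (nat_lit 1569295075) (nat_lit 115) (nat_lit 5) (nat_lit 121) (nat_lit 5) (nat_lit 122) (nat_lit 5) (nat_lit 306) (nat_lit 275) (nat_lit 199)))) (XT.nd (nat_lit 78) (nat_lit 456) (nat_lit 0) (XT.lf (nat_lit 0) (nat_lit 90865702) (nat_lit 532) (nat_lit 8070788278) (nat_lit 76) (nat_lit 3205323277) (nat_lit 108) (nat_lit 5) (nat_lit 115) (nat_lit 5) (nat_lit 109) (nat_lit 5) (nat_lit 307) (nat_lit 275) (nat_lit 198)) (XT.nd (nat_lit 78) (nat_lit 456) (nat_lit 0) (XT.lf (nat_lit 0) (nat_lit 1769745648) (nat_lit 532) (nat_lit 2800992113) (nat_lit 76) (nat_lit 6990035126) (nat_lit 108) (nat_lit 5) (nat_lit 115) (nat_lit 5) (nat_lit 109) (nat_lit 5) (nat_lit 308) (nat_lit 275) (nat_lit 197)) (XT.lf (nat_lit 0) (nat_lit 2653065992) (nat_lit 456) (nat_lit 847671970) (nat_lit 532) (nat_lit 8259643679) (nat_lit 102) (nat_lit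 5) (nat_lit 108) (nat_lit 5) (nat_lit 109) (nat_lit 5) (nat_lit 309) (nat_lit 275) (nat_lit 196)))))) (XT.nd (nat_lit 468) (nat_lit 1216) (nat_lit 0) (XT.nd (nat_lit 234) (nat_lit 456) (nat_lit 0) (XT.nd (nat_lit 78) (nat_lit 456) (nat_lit 0) (XT.lf (nat_lit 0) (nat_lit 5317610004) (nat_lit 532) (nat_lit 3692041991) (nat_lit 76) (nat_lit 2955358294) (nat_lit 102) (nat_lit 5) (nat_lit 109) (nat_lit 5) (nat_lit 103) (nat_lit 5) (nat_lit 310) (nat_lit 275) (nat_lit 195)) (XT.nd (nat_lit 78) (nat_lit 0) (nat_lit 0) (XT.lf (nat_lit 0) (nat_lit 1888833119) (nat_lit 456) (nat_lit 5304055654) (nat_lit 532) (nat_lit 4982820677) (nat_lit 96) (nat_lit 5) (nat_lit 102) (nat_lit 5) (nat_lit 103) (nat_lit 5) (nat_lit 311) (nat_lit 275) (nat_lit 194)) (XT.lf (nat_lit 0) (nat_lit 7687744075) (nat_lit 456) (nat_lit 1451734021) (nat_lit 532) (nat_lit 3252847177) (nat_lit 96) (nat_lit 5) (nat_lit 102) (nat_lit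 5) (nat_lit 103) (nat_lit 5) (nat_lit 312) (nat_lit 275) (nat_lit 193)))) (XT.nd (nat_lit 78) (nat_lit 76) (nat_lit 0) (XT.lf (nat_lit 0) (nat_lit 1015807845) (nat_lit 380) (nat_lit 10140999415) (nat_lit 456) (nat_lit 1458307923) (nat_lit 91) (nat_lit 5) (nat_lit 96) (nat_lit 5) (nat_lit 97) (nat_lit 5) (nat_lit 313) (nat_lit 275) (nat_lit 192)) (XT.nd (nat_lit 78) (nat_lit 0) (nat_lit 0) (XT.lf (nat_lit 0) (nat_lit 423335243) (nat_lit 456) (nat_lit 5882744797) (nat_lit 76) (nat_lit 6537213124) (nat_lit 90) (nat_lit 5) (nat_lit 96) (nat_lit 5) (nat_lit 91) (nat_lit 5) (nat_lit 314) (nat_lit 275) (nat_lit 191)) (XT.lf (nat_lit 0) (nat_lit 2311270889) (nat_lit 456) (nat_lit 33624599) (nat_lit 76) (nat_lit 10733655209) (nat_lit 90) (nat_lit 5) (nat_lit 96) (nat_lit 5) (nat_lit 91) (nat_lit 5) (nat_lit 315) (nat_lit 275) (nat_lit 190))))) (XT.nd (nat_lit 234) (nat_lit 456) (nat_lit 0) (XT.nd (nat_lit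 78) (nat_lit 380) (nat_lit 0) (XT.lf (nat_lit 0) (nat_lit 4311331494) (nat_lit 456) (nat_lit 7251042124) (nat_lit 76) (nat_lit 1756868490) (nat_lit 85) (nat_lit 5) (nat_lit 91) (nat_lit 5) (nat_lit 86) (nat_lit 5) (nat_lit 316) (nat_lit 275) (nat_lit 189)) (XT.nd (nat_lit 78) (nat_lit 380) (nat_lit 0) (XT.lf (nat_lit 0) (nat_lit 6375042234) (nat_lit 456) (nat_lit 1260749864) (nat_lit 76) (nat_lit 5931292289) (nat_lit 85) (nat_lit 5) (nat_lit 91) (nat_lit 5) (nat_lit 86) (nat_lit 5) (nat_lit 317) (nat_lit 275) (nat_lit 188)) (XT.lf (nat_lit 0) (nat_lit 4983037478) (nat_lit 380) (nat_lit 3546195391) (nat_lit 456) (nat_lit 5292310428) (nat_lit 80) (nat_lit 5) (nat_lit 85) (nat_lit 5) (nat_lit 86) (nat_lit 5) (nat_lit 318) (nat_lit 275) (nat_lit 187)))) (XT.nd (nat_lit 78) (nat_lit 456) (nat_lit 0) (XT.lf (nat_lit 0) (nat_lit 10748276987) (nat_lit 456) (nat_lit 2673587556) (nat_lit 76) (nat_lit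 661801901) (nat_lit 80) (nat_lit 5) (nat_lit 86) (nat_lit 5) (nat_lit 81) (nat_lit 5) (nat_lit 319) (nat_lit 275) (nat_lit 186)) (XT.nd (nat_lit 78) (nat_lit 76) (nat_lit 0) (XT.lf (nat_lit 0) (nat_lit 3690079805) (nat_lit 380) (nat_lit 9395916863) (nat_lit 456) (nat_lit 1266129705) (nat_lit 75) (nat_lit 5) (nat_lit 80) (nat_lit 5) (nat_lit 81) (nat_lit 5) (nat_lit 320) (nat_lit 275) (nat_lit 185)) (XT.lf (nat_lit 0) (nat_lit 857216007) (nat_lit 456) (nat_lit 4360219011) (nat_lit 76) (nat_lit 9410722966) (nat_lit 74) (nat_lit 5) (nat_lit 80) (nat_lit 5) (nat_lit 75) (nat_lit 5) (nat_lit 321) (nat_lit 275) (nat_lit 184))))))))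
noncomputable def xc154 : XT := (XT.nd (nat_lit 1716) (nat_lit 1368) (nat_lit 0) (XT.nd (nat_lit 858) (nat_lit 1140) (nat_lit 0) (XT.nd (nat_lit 390) (nat_lit 912) (nat_lit 0) (XT.nd (nat_lit 156) (nat_lit 304) (nat_lit 0) (XT.nd (nat_lit 78) (nat_lit 0) (nat_lit 0) (XT.lf (nat_lit 0) (nat_lit 2137242691) (nat_lit 304) (nat_lit 884277281) (nat_lit 380) (nat_lit 11890526461) (nat_lit 70) (nat_lit 5) (nat_lit 74) (nat_lit 5) (nat_lit 75) (nat_lit 5) (nat_lit 322) (nat_lit 275) (nat_lit 183)) (XT.lf (nat_lit 0) (nat_lit 5312040423) (nat_lit 380) (nat_lit 6341840763) (nat_lit 76) (nat_lit 3548763904) (nat_lit 70) (nat_lit 5) (nat_lit 75) (nat_lit 5) (nat_lit 71) (nat_lit 5) (nat_lit 323) (nat_lit 275) (nat_lit 182))) (XT.nd (nat_lit 78) (nat_lit 0) (nat_lit 0) (XT.lf (nat_lit 0) (nat_lit 258180018) (nat_lit 304) (nat_lit 7407264960) (nat_lit 380) (nat_lit 7836722916) (nat_lit 66) (nat_lit 5) (nat_lit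 70) (nat_lit 5) (nat_lit 71) (nat_lit 5) (nat_lit 324) (nat_lit 275) (nat_lit 181)) (XT.nd (nat_lit 78) (nat_lit 0) (nat_lit 0) (XT.lf (nat_lit 0) (nat_lit 7164206837) (nat_lit 304) (nat_lit 2972502174) (nat_lit 380) (nat_lit 5672579978) (nat_lit 66) (nat_lit 5) (nat_lit 70) (nat_lit 5) (nat_lit 71) (nat_lit 5) (nat_lit 325) (nat_lit 275) (nat_lit 180)) (XT.lf (nat_lit 0) (nat_lit 12681103352) (nat_lit 380) (nat_lit 1885369343) (nat_lit 76) (nat_lit 1559210698) (nat_lit 66) (nat_lit 5) (nat_lit 71) (nat_lit 5) (nat_lit 67) (nat_lit 5) (nat_lit 326) (nat_lit 275) (nat_lit 179))))) (XT.nd (nat_lit 234) (nat_lit 228) (nat_lit 0) (XT.nd (nat_lit 78) (nat_lit 380) (nat_lit 0) (XT.lf (nat_lit 0) (nat_lit 5126552263) (nat_lit 304) (nat_lit 10238120882) (nat_lit 380) (nat_lit 1085039763) (nat_lit 62) (nat_lit 5) (nat_lit 66) (nat_lit 5) (nat_lit 67) (nat_lit 5) (nat_lit 327) (nat_lit 275) (nat_lit 178))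 (XT.nd (nat_lit 78) (nat_lit 304) (nat_lit 0) (XT.lf (nat_lit 0) (nat_lit 1322474434) (nat_lit 380) (nat_lit 4429855424) (nat_lit 76) (nat_lit 11030669275) (nat_lit 61) (nat_lit 5) (nat_lit 66) (nat_lit 5) (nat_lit 62) (nat_lit 5) (nat_lit 328) (nat_lit 275) (nat_lit 177)) (XT.lf (nat_lit 0) (nat_lit 2691321626) (nat_lit 304) (nat_lit 1099626747) (nat_lit 380) (nat_lit 13334723168) (nat_lit 57) (nat_lit 5) (nat_lit 61) (nat_lit 5) (nat_lit 62) (nat_lit 5) (nat_lit 329) (nat_lit 275) (nat_lit 176)))) (XT.nd (nat_lit 78) (nat_lit 228) (nat_lit 0) (XT.lf (nat_lit 0) (nat_lit 6399017579) (nat_lit 380) (nat_lit 7417203879) (nat_lit 76) (nat_lit 3660461834) (nat_lit 57) (nat_lit 5) (nat_lit 62) (nat_lit 5) (nat_lit 58) (nat_lit 5) (nat_lit 330) (nat_lit 275) (nat_lit 175)) (XT.nd (nat_lit 78) (nat_lit 228) (nat_lit 0) (XT.lf (nat_lit 0) (nat_lit 9081526167) (nat_lit 380) (nat_lit 220745846) (nat_lit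 76) (nat_lit 8536092123) (nat_lit 57) (nat_lit 5) (nat_lit 62) (nat_lit 5) (nat_lit 58) (nat_lit 5) (nat_lit 331) (nat_lit 275) (nat_lit 174)) (XT.lf (nat_lit 0) (nat_lit 7314617162) (nat_lit 228) (nat_lit 4585943206) (nat_lit 304) (nat_lit 6308677468) (nat_lit 54) (nat_lit 5) (nat_lit 57) (nat_lit 5) (nat_lit 58) (nat_lit 5) (nat_lit 332) (nat_lit 275) (nat_lit 173)))))) (XT.nd (nat_lit 390) (nat_lit 532) (nat_lit 0) (XT.nd (nat_lit 156) (nat_lit 304) (nat_lit 0) (XT.nd (nat_lit 78) (nat_lit 304) (nat_lit 0) (XT.lf (nat_lit 0) (nat_lit 14794942828) (nat_lit 304) (nat_lit 3533161629) (nat_lit 76) (nat_lit 263433221) (nat_lit 54) (nat_lit 5) (nat_lit 58) (nat_lit 5) (nat_lit 55) (nat_lit 5) (nat_lit 333) (nat_lit 275) (nat_lit 172)) (XT.lf (nat_lit 0) (nat_lit 4063691926) (nat_lit 304) (nat_lit 13783255842) (nat_lit 380) (nat_lit 1136257583) (nat_lit 50) (nat_lit 5) (nat_lit 54) (nat_lit 5) (nat_lit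 55) (nat_lit 5) (nat_lit 334) (nat_lit 275) (nat_lit 171))) (XT.nd (nat_lit 78) (nat_lit 228) (nat_lit 0) (XT.lf (nat_lit 0) (nat_lit 1595005812) (nat_lit 380) (nat_lit 7459889914) (nat_lit 76) (nat_lit 10330613665) (nat_lit 49) (nat_lit 5) (nat_lit 54) (nat_lit 5) (nat_lit 50) (nat_lit 5) (nat_lit 335) (nat_lit 275) (nat_lit 170)) (XT.nd (nat_lit 78) (nat_lit 0) (nat_lit 0) (XT.lf (nat_lit 0) (nat_lit 197243667) (nat_lit 228) (nat_lit 4176800869) (nat_lit 304) (nat_lit 15425860913) (nat_lit 46) (nat_lit 5) (nat_lit 49) (nat_lit 5) (nat_lit 50) (nat_lit 5) (nat_lit 336) (nat_lit 275) (nat_lit 169)) (XT.lf (nat_lit 0) (nat_lit 7307608410) (nat_lit 304) (nat_lit 12015404014) (nat_lit 76) (nat_lit 901606399) (nat_lit 46) (nat_lit 5) (nat_lit 50) (nat_lit 5) (nat_lit 47) (nat_lit 5) (nat_lit 337) (nat_lit 275) (nat_lit 168))))) (XT.nd (nat_lit 234) (nat_lit 304) (nat_lit 0) (XT.nd (nat_lit 78) (nat_lit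 228) (nat_lit 0) (XT.lf (nat_lit 0) (nat_lit 10357844223) (nat_lit 304) (nat_lit 4260376539) (nat_lit 76) (nat_lit 6043012352) (nat_lit 46) (nat_lit 5) (nat_lit 50) (nat_lit 5) (nat_lit 47) (nat_lit 5) (nat_lit 338) (nat_lit 275) (nat_lit 167)) (XT.nd (nat_lit 78) (nat_lit 0) (nat_lit 0) (XT.lf (nat_lit 0) (nat_lit 3783170121) (nat_lit 228) (nat_lit 9740463291) (nat_lit 304) (nat_lit 7586609933) (nat_lit 43) (nat_lit 5) (nat_lit 46) (nat_lit 5) (nat_lit 47) (nat_lit 5) (nat_lit 339) (nat_lit 275) (nat_lit 166)) (XT.lf (nat_lit 0) (nat_lit 12137577836) (nat_lit 228) (nat_lit 4677707973) (nat_lit 304) (nat_lit 4756529737) (nat_lit 43) (nat_lit 5) (nat_lit 46) (nat_lit 5) (nat_lit 47) (nat_lit 5) (nat_lit 340) (nat_lit 275) (nat_lit 165)))) (XT.nd (nat_lit 78) (nat_lit 304) (nat_lit 0) (XT.lf (nat_lit 0) (nat_lit 20199017819) (nat_lit 304) (nat_lit 1327357957) (nat_lit 76) (nat_lit 521077052) (nat_lit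 43) (nat_lit 5) (nat_lit 47) (nat_lit 5) (nat_lit 44) (nat_lit 5) (nat_lit 341) (nat_lit 275) (nat_lit 164)) (XT.nd (nat_lit 78) (nat_lit 0) (nat_lit 0) (XT.lf (nat_lit 0) (nat_lit 1228581928) (nat_lit 304) (nat_lit 15448478368) (nat_lit 76) (nat_lit 5856863196) (nat_lit 39) (nat_lit 5) (nat_lit 43) (nat_lit 5) (nat_lit 40) (nat_lit 5) (nat_lit 342) (nat_lit 275) (nat_lit 163)) (XT.lf (nat_lit 0) (nat_lit 4362851041) (nat_lit 304) (nat_lit 7292322592) (nat_lit 76) (nat_lit 11379219107) (nat_lit 39) (nat_lit 5) (nat_lit 43) (nat_lit 5) (nat_lit 40) (nat_lit 5) (nat_lit 343) (nat_lit 275) (nat_lit 162))))))) (XT.nd (nat_lit 858) (nat_lit 532) (nat_lit 0) (XT.nd (nat_lit 390) (nat_lit 456) (nat_lit 0) (XT.nd (nat_lit 156) (nat_lit 152) (nat_lit 0) (XT.nd (nat_lit 78) (nat_lit 0) (nat_lit 0) (XT.lf (nat_lit 0) (nat_lit 1113603401) (nat_lit 228) (nat_lit 6477139713) (nat_lit 304) (nat_lit 15959160932)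 (nat_lit 36) (nat_lit 5) (nat_lit 39) (nat_lit 5) (nat_lit 40) (nat_lit 5) (nat_lit 344) (nat_lit 275) (nat_lit 161)) (XT.lf (nat_lit 0) (nat_lit 9904710954) (nat_lit 228) (nat_lit 1073454558) (nat_lit 304) (nat_lit 13100849740) (nat_lit 36) (nat_lit 5) (nat_lit 39) (nat_lit 5) (nat_lit 40) (nat_lit 5) (nat_lit 345) (nat_lit 275) (nat_lit 160))) (XT.nd (nat_lit 78) (nat_lit 152) (nat_lit 0) (XT.lf (nat_lit 0) (nat_lit 14499716216) (nat_lit 304) (nat_lit 5723914847) (nat_lit 76) (nat_lit 4399408483) (nat_lit 36) (nat_lit 5) (nat_lit 40) (nat_lit 5) (nat_lit 37) (nat_lit 5) (nat_lit 346) (nat_lit 275) (nat_lit 159)) (XT.nd (nat_lit 78) (nat_lit 0) (nat_lit 0) (XT.lf (nat_lit 0) (nat_lit 3012330060) (nat_lit 152) (nat_lit 15143801499) (nat_lit 228) (nat_lit 7026390952) (nat_lit 34) (nat_lit 5) (nat_lit 36) (nat_lit 5) (nat_lit 37) (nat_lit 5) (nat_lit 347) (nat_lit 275) (nat_lit 158)) (XT.lf (nat_lit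 0) (nat_lit 12112342579) (nat_lit 152) (nat_lit 9857482055) (nat_lit 228) (nat_lit 3787551836) (nat_lit 34) (nat_lit 5) (nat_lit 36) (nat_lit 5) (nat_lit 37) (nat_lit 5) (nat_lit 348) (nat_lit 275) (nat_lit 157))))) (XT.nd (nat_lit 234) (nat_lit 152) (nat_lit 0) (XT.nd (nat_lit 78) (nat_lit 304) (nat_lit 0) (XT.lf (nat_lit 0) (nat_lit 21470157046) (nat_lit 152) (nat_lit 4417853936) (nat_lit 228) (nat_lit 461776246) (nat_lit 34) (nat_lit 5) (nat_lit 36) (nat_lit 5) (nat_lit 37) (nat_lit 5) (nat_lit 349) (nat_lit 275) (nat_lit 156)) (XT.nd (nat_lit 78) (nat_lit 0) (nat_lit 0) (XT.lf (nat_lit 0) (nat_lit 2948470548) (nat_lit 304) (nat_lit 22783247267) (nat_lit 76) (nat_lit 1226134721) (nat_lit 30) (nat_lit 5) (nat_lit 34) (nat_lit 5) (nat_lit 31) (nat_lit 5) (nat_lit 350) (nat_lit 275) (nat_lit 155)) (XT.lf (nat_lit 0) (nat_lit 6535601211) (nat_lit 304) (nat_lit 14046053092) (nat_lit 76) (nat_lit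 6999865104) (nat_lit 30) (nat_lit 5) (nat_lit 34) (nat_lit 5) (nat_lit 31) (nat_lit 5) (nat_lit 351) (nat_lit 275) (nat_lit 154)))) (XT.nd (nat_lit 78) (nat_lit 152) (nat_lit 0) (XT.lf (nat_lit 0) (nat_lit 10220980761) (nat_lit 304) (nat_lit 5061370191) (nat_lit 76) (nat_lit 12941838414) (nat_lit 30) (nat_lit 5) (nat_lit 34) (nat_lit 5) (nat_lit 31) (nat_lit 5) (nat_lit 352) (nat_lit 275) (nat_lit 153)) (XT.nd (nat_lit 78) (nat_lit 0) (nat_lit 0) (XT.lf (nat_lit 0) (nat_lit 4261815499) (nat_lit 152) (nat_lit 9786981110) (nat_lit 228) (nat_lit 14836398346) (nat_lit 28) (nat_lit 5) (nat_lit 30) (nat_lit 5) (nat_lit 31) (nat_lit 5) (nat_lit 353) (nat_lit 275) (nat_lit 152)) (XT.lf (nat_lit 0) (nat_lit 13954388048) (nat_lit 152) (nat_lit 4079206188) (nat_lit 228) (nat_lit 11531183493) (nat_lit 28) (nat_lit 5) (nat_lit 30) (nat_lit 5) (nat_lit 31) (nat_lit 5) (nat_lit 354) (nat_lit 275) (nat_lit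 151)))))) (XT.nd (nat_lit 468) (nat_lit 152) (nat_lit 0) (XT.nd (nat_lit 234) (nat_lit 228) (nat_lit 0) (XT.nd (nat_lit 78) (nat_lit 152) (nat_lit 0) (XT.lf (nat_lit 0) (nat_lit 22146487433) (nat_lit 228) (nat_lit 6358187842) (nat_lit 76) (nat_lit 1759827262) (nat_lit 28) (nat_lit 5) (nat_lit 31) (nat_lit 5) (nat_lit 29) (nat_lit 5) (nat_lit 355) (nat_lit 275) (nat_lit 150)) (XT.nd (nat_lit 78) (nat_lit 0) (nat_lit 0) (XT.lf (nat_lit 0) (nat_lit 3179767944) (nat_lit 152) (nat_lit 23265459211) (nat_lit 228) (nat_lit 4538128921) (nat_lit 26) (nat_lit 5) (nat_lit 28) (nat_lit 5) (nat_lit 29) (nat_lit 5) (nat_lit 356) (nat_lit 275) (nat_lit 149)) (XT.lf (nat_lit 0) (nat_lit 13120858454) (nat_lit 152) (nat_lit 17807900691) (nat_lit 228) (nat_lit 793351640) (nat_lit 26) (nat_lit 5) (nat_lit 28) (nat_lit 5) (nat_lit 29) (nat_lit 5) (nat_lit 357) (nat_lit 275) (nat_lit 148)))) (XT.nd (nat_lit 78) (nat_lit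 152) (nat_lit 0) (XT.lf (nat_lit 0) (nat_lit 2995762102) (nat_lit 228) (nat_lit 9165422777) (nat_lit 76) (nat_lit 20321216245) (nat_lit 25) (nat_lit 5) (nat_lit 28) (nat_lit 5) (nat_lit 26) (nat_lit 5) (nat_lit 358) (nat_lit 275) (nat_lit 147)) (XT.nd (nat_lit 78) (nat_lit 0) (nat_lit 0) (XT.lf (nat_lit 0) (nat_lit 543488919) (nat_lit 152) (nat_lit 6336356883) (nat_lit 228) (nat_lit 26385511036) (nat_lit 23) (nat_lit 5) (nat_lit 25) (nat_lit 5) (nat_lit 26) (nat_lit 5) (nat_lit 359) (nat_lit 275) (nat_lit 146)) (XT.lf (nat_lit 0) (nat_lit 10718931878) (nat_lit 152) (nat_lit 246201910) (nat_lit 228) (nat_lit 23104136280) (nat_lit 23) (nat_lit 5) (nat_lit 25) (nat_lit 5) (nat_lit 26) (nat_lit 5) (nat_lit 360) (nat_lit 275) (nat_lit 145))))) (XT.nd (nat_lit 234) (nat_lit 0) (nat_lit 0) (XT.nd (nat_lit 78) (nat_lit 152) (nat_lit 0) (XT.lf (nat_lit 0) (nat_lit 15223226260) (nat_lit 228) (nat_lit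 13768039212) (nat_lit 76) (nat_lit 5904536874) (nat_lit 23) (nat_lit 5) (nat_lit 26) (nat_lit 5) (nat_lit 24) (nat_lit 5) (nat_lit 361) (nat_lit 275) (nat_lit 144)) (XT.nd (nat_lit 78) (nat_lit 152) (nat_lit 0) (XT.lf (nat_lit 0) (nat_lit 19604036939) (nat_lit 228) (nat_lit 3912791164) (nat_lit 76) (nat_lit 12230461990) (nat_lit 23) (nat_lit 5) (nat_lit 26) (nat_lit 5) (nat_lit 24) (nat_lit 5) (nat_lit 362) (nat_lit 275) (nat_lit 143)) (XT.lf (nat_lit 0) (nat_lit 6350301229) (nat_lit 152) (nat_lit 17819768827) (nat_lit 228) (nat_lit 12452646983) (nat_lit 21) (nat_lit 5) (nat_lit 23) (nat_lit 5) (nat_lit 24) (nat_lit 5) (nat_lit 363) (nat_lit 275) (nat_lit 142)))) (XT.nd (nat_lit 78) (nat_lit 0) (nat_lit 0) (XT.lf (nat_lit 0) (nat_lit 16989879436) (nat_lit 152) (nat_lit 11915570748) (nat_lit 228) (nat_lit 8617993889) (nat_lit 21) (nat_lit 5) (nat_lit 23) (nat_lit 5) (nat_lit 24) (nat_lit 5) (nat_lit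 364) (nat_lit 275) (nat_lit 141)) (XT.nd (nat_lit 78) (nat_lit 0) (nat_lit 0) (XT.lf (nat_lit 0) (nat_lit 27937367958) (nat_lit 152) (nat_lit 5838586379) (nat_lit 228) (nat_lit 4675454723) (nat_lit 21) (nat_lit 5) (nat_lit 23) (nat_lit 5) (nat_lit 24) (nat_lit 5) (nat_lit 365) (nat_lit 275) (nat_lit 140)) (XT.lf (nat_lit 0) (nat_lit 38789841891) (nat_lit 228) (nat_lit 209093879) (nat_lit 76) (nat_lit 408366964) (nat_lit 21) (nat_lit 5) (nat_lit 24) (nat_lit 5) (nat_lit 22) (nat_lit 4) (nat_lit 366) (nat_lit 275) (nat_lit 139))))))))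
noncomputable def xc155 : XT := (XT.nd (nat_lit 1716) (nat_lit 228) (nat_lit 0) (XT.nd (nat_lit 858) (nat_lit 228) (nat_lit 0) (XT.nd (nat_lit 390) (nat_lit 152) (nat_lit 0) (XT.nd (nat_lit 156) (nat_lit 152) (nat_lit 0) (XT.nd (nat_lit 78) (nat_lit 0) (nat_lit 0) (XT.lf (nat_lit 0) (nat_lit 3646829797) (nat_lit 152) (nat_lit 29880942514) (nat_lit 76) (nat_lit 6858458874) (nat_lit 19) (nat_lit 5) (nat_lit 21) (nat_lit 5) (nat_lit 20) (nat_lit 5) (nat_lit 367) (nat_lit 275) (nat_lit 138)) (XT.lf (nat_lit 0) (nat_lit 8022210098) (nat_lit 152) (nat_lit 19866035583) (nat_lit 76) (nat_lit 13506238392) (nat_lit 19) (nat_lit 5) (nat_lit 21) (nat_lit 5) (nat_lit 20) (nat_lit 5) (nat_lit 368) (nat_lit 275) (nat_lit 137))) (XT.nd (nat_lit 78) (nat_lit 152) (nat_lit 0) (XT.lf (nat_lit 0) (nat_lit 12522481853) (nat_lit 152) (nat_lit 9561192100) (nat_lit 76) (nat_lit 20349508611) (nat_lit 19) (nat_lit 5)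 (nat_lit 21) (nat_lit 5) (nat_lit 20) (nat_lit 5) (nat_lit 369) (nat_lit 275) (nat_lit 136)) (XT.nd (nat_lit 78) (nat_lit 0) (nat_lit 0) (XT.lf (nat_lit 0) (nat_lit 1063341793) (nat_lit 152) (nat_lit 16098457037) (nat_lit 228) (nat_lit 26341128784) (nat_lit 17) (nat_lit 5) (nat_lit 19) (nat_lit 5) (nat_lit 20) (nat_lit 5) (nat_lit 370) (nat_lit 275) (nat_lit 135)) (XT.lf (nat_lit 0) (nat_lit 12192502292) (nat_lit 152) (nat_lit 9838240895) (nat_lit 228) (nat_lit 22571314915) (nat_lit 17) (nat_lit 5) (nat_lit 19) (nat_lit 5) (nat_lit 20) (nat_lit 5) (nat_lit 371) (nat_lit 275) (nat_lit 134))))) (XT.nd (nat_lit 234) (nat_lit 152) (nat_lit 0) (XT.nd (nat_lit 78) (nat_lit 0) (nat_lit 0) (XT.lf (nat_lit 0) (nat_lit 23645727435) (nat_lit 152) (nat_lit 3394104727) (nat_lit 228) (nat_lit 18694514384) (nat_lit 17) (nat_lit 5) (nat_lit 19) (nat_lit 5) (nat_lit 20) (nat_lit 5) (nat_lit 372) (nat_lit 275)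 (nat_lit 133)) (XT.nd (nat_lit 78) (nat_lit 0) (nat_lit 0) (XT.lf (nat_lit 0) (nat_lit 32224583478) (nat_lit 228) (nat_lit 11498898280) (nat_lit 76) (nat_lit 3176366344) (nat_lit 17) (nat_lit 5) (nat_lit 20) (nat_lit 5) (nat_lit 18) (nat_lit 4) (nat_lit 373) (nat_lit 275) (nat_lit 132)) (XT.lf (nat_lit 0) (nat_lit 37592863448) (nat_lit 228) (nat_lit 634476112) (nat_lit 76) (nat_lit 9872141528) (nat_lit 17) (nat_lit 5) (nat_lit 20) (nat_lit 5) (nat_lit 18) (nat_lit 4) (nat_lit 374) (nat_lit 275) (nat_lit 131)))) (XT.nd (nat_lit 78) (nat_lit 76) (nat_lit 0) (XT.lf (nat_lit 0) (nat_lit 10756668127) (nat_lit 76) (nat_lit 32463468139) (nat_lit 152) (nat_lit 6112034258) (nat_lit 16) (nat_lit 5) (nat_lit 17) (nat_lit 5) (nat_lit 18) (nat_lit 4) (nat_lit 375) (nat_lit 275) (nat_lit 130)) (XT.nd (nat_lit 78) (nat_lit 76) (nat_lit 0) (XT.lf (nat_lit 0) (nat_lit 22493530232) (nat_lit 76) (nat_lit 26523720938)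 (nat_lit 152) (nat_lit 1584564382) (nat_lit 16) (nat_lit 5) (nat_lit 17) (nat_lit 5) (nat_lit 18) (nat_lit 4) (nat_lit 376) (nat_lit 275) (nat_lit 129)) (XT.lf (nat_lit 0) (nat_lit 3013369109) (nat_lit 152) (nat_lit 17365516621) (nat_lit 76) (nat_lit 31529940165) (nat_lit 15) (nat_lit 5) (nat_lit 17) (nat_lit 5) (nat_lit 16) (nat_lit 5) (nat_lit 377) (nat_lit 275) (nat_lit 128)))))) (XT.nd (nat_lit 390) (nat_lit 76) (nat_lit 0) (XT.nd (nat_lit 156) (nat_lit 0) (nat_lit 0) (XT.nd (nat_lit 78) (nat_lit 152) (nat_lit 0) (XT.lf (nat_lit 0) (nat_lit 7712262938) (nat_lit 152) (nat_lit 6324765518) (nat_lit 76) (nat_lit 39217706463) (nat_lit 15) (nat_lit 5) (nat_lit 17) (nat_lit 5) (nat_lit 16) (nat_lit 5) (nat_lit 378) (nat_lit 275) (nat_lit 127)) (XT.lf (nat_lit 0) (nat_lit 5139129985) (nat_lit 152) (nat_lit 7457413968) (nat_lit 228) (nat_lit 42043149647) (nat_lit 13) (nat_lit 5) (nat_lit 15) (nat_lit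 5) (nat_lit 16) (nat_lit 5) (nat_lit 379) (nat_lit 275) (nat_lit 126))) (XT.nd (nat_lit 78) (nat_lit 0) (nat_lit 0) (XT.lf (nat_lit 0) (nat_lit 17068314748) (nat_lit 152) (nat_lit 617991758) (nat_lit 228) (nat_lit 38378130793) (nat_lit 13) (nat_lit 5) (nat_lit 15) (nat_lit 5) (nat_lit 16) (nat_lit 5) (nat_lit 380) (nat_lit 275) (nat_lit 125)) (XT.nd (nat_lit 78) (nat_lit 0) (nat_lit 0) (XT.lf (nat_lit 0) (nat_lit 22985735597) (nat_lit 228) (nat_lit 28246479209) (nat_lit 76) (nat_lit 6298004007) (nat_lit 13) (nat_lit 5) (nat_lit 16) (nat_lit 5) (nat_lit 14) (nat_lit 4) (nat_lit 381) (nat_lit 275) (nat_lit 124)) (XT.lf (nat_lit 0) (nat_lit 28445603302) (nat_lit 228) (nat_lit 17188382204) (nat_lit 76) (nat_lit 13405949167) (nat_lit 13) (nat_lit 5) (nat_lit 16) (nat_lit 5) (nat_lit 14) (nat_lit 4) (nat_lit 382) (nat_lit 275) (nat_lit 123))))) (XT.nd (nat_lit 234) (nat_lit 0) (nat_lit 0) (XT.nd (nat_lit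 78) (nat_lit 76) (nat_lit 0) (XT.lf (nat_lit 0) (nat_lit 34064739866) (nat_lit 228) (nat_lit 5806228607) (nat_lit 76) (nat_lit 20724113792) (nat_lit 13) (nat_lit 5) (nat_lit 16) (nat_lit 5) (nat_lit 14) (nat_lit 4) (nat_lit 383) (nat_lit 275) (nat_lit 122)) (XT.nd (nat_lit 78) (nat_lit 0) (nat_lit 0) (XT.lf (nat_lit 0) (nat_lit 6027546291) (nat_lit 76) (nat_lit 33878449385) (nat_lit 152) (nat_lit 22289286565) (nat_lit 12) (nat_lit 5) (nat_lit 13) (nat_lit 5) (nat_lit 14) (nat_lit 4) (nat_lit 384) (nat_lit 275) (nat_lit 121)) (XT.lf (nat_lit 0) (nat_lit 18327967147) (nat_lit 76) (nat_lit 27648815213) (nat_lit 152) (nat_lit 17865081246) (nat_lit 12) (nat_lit 5) (nat_lit 13) (nat_lit 5) (nat_lit 14) (nat_lit 4) (nat_lit 385) (nat_lit 275) (nat_lit 120)))) (XT.nd (nat_lit 78) (nat_lit 0) (nat_lit 0) (XT.lf (nat_lit 0) (nat_lit 30990226567) (nat_lit 76) (nat_lit 21235254112) (nat_lit 152) (nat_lit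 13312492157) (nat_lit 12) (nat_lit 5) (nat_lit 13) (nat_lit 5) (nat_lit 14) (nat_lit 4) (nat_lit 386) (nat_lit 275) (nat_lit 119)) (XT.nd (nat_lit 78) (nat_lit 0) (nat_lit 0) (XT.lf (nat_lit 0) (nat_lit 44025388662) (nat_lit 76) (nat_lit 14632161999) (nat_lit 152) (nat_lit 8627541305) (nat_lit 12) (nat_lit 5) (nat_lit 13) (nat_lit 5) (nat_lit 14) (nat_lit 4) (nat_lit 387) (nat_lit 275) (nat_lit 118)) (XT.lf (nat_lit 0) (nat_lit 57444843377) (nat_lit 76) (nat_lit 7833769183) (nat_lit 152) (nat_lit 3806135046) (nat_lit 12) (nat_lit 5) (nat_lit 13) (nat_lit 5) (nat_lit 14) (nat_lit 4) (nat_lit 388) (nat_lit 275) (nat_lit 117))))))) (XT.nd (nat_lit 32370) (nat_lit 0) (nat_lit 12388) (XT.nd (nat_lit 31902) (nat_lit 0) (nat_lit 13984) (XT.nd (nat_lit 156) (nat_lit 0) (nat_lit 0) (XT.nd (nat_lit 78) (nat_lit 0) (nat_lit 0) (XT.lf (nat_lit 0) (nat_lit 316875974) (nat_lit 152) (nat_lit 819552988) (nat_lit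 228) (nat_lit 69801658580) (nat_lit 9) (nat_lit 5) (nat_lit 11) (nat_lit 5) (nat_lit 12) (nat_lit 5) (nat_lit 389) (nat_lit 275) (nat_lit 116)) (XT.lf (nat_lit 0) (nat_lit 6327171536) (nat_lit 228) (nat_lit 60079627047) (nat_lit 76) (nat_lit 6433810028) (nat_lit 9) (nat_lit 5) (nat_lit 12) (nat_lit 5) (nat_lit 10) (nat_lit 4) (nat_lit 390) (nat_lit 275) (nat_lit 115))) (XT.nd (nat_lit 78) (nat_lit 0) (nat_lit 0) (XT.lf (nat_lit 0) (nat_lit 11677991137) (nat_lit 228) (nat_lit 49236388866) (nat_lit 76) (nat_lit 13885698070) (nat_lit 9) (nat_lit 5) (nat_lit 12) (nat_lit 5) (nat_lit 10) (nat_lit 4) (nat_lit 391) (nat_lit 275) (nat_lit 114)) (XT.nd (nat_lit 31590) (nat_lit 0) (nat_lit 14744) (XT.lf (nat_lit 0) (nat_lit 17185685195) (nat_lit 228) (nat_lit 38074144307) (nat_lit 76) (nat_lit 21558614926) (nat_lit 9) (nat_lit 5) (nat_lit 12) (nat_lit 5) (nat_lit 10) (nat_lit 4) (nat_lit 392) (nat_lit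 275) (nat_lit 113)) (XT.lf (nat_lit 0) (nat_lit 1447512983) (nat_lit 836) (nat_lit 1169315894) (nat_lit 836) (nat_lit 1169315894) (nat_lit 203) (nat_lit 3) (nat_lit 214) (nat_lit 3) (nat_lit 214) (nat_lit 5) (nat_lit 276) (nat_lit 276) (nat_lit 228))))) (XT.nd (nat_lit 234) (nat_lit 760) (nat_lit 0) (XT.nd (nat_lit 78) (nat_lit 0) (nat_lit 0) (XT.lf (nat_lit 76) (nat_lit 896722253) (nat_lit 0) (nat_lit 3313183806) (nat_lit 836) (nat_lit 3434101346) (nat_lit 204) (nat_lit 5) (nat_lit 203) (nat_lit 3) (nat_lit 214) (nat_lit 5) (nat_lit 277) (nat_lit 276) (nat_lit 227)) (XT.nd (nat_lit 78) (nat_lit 0) (nat_lit 76) (XT.lf (nat_lit 76) (nat_lit 4251115607) (nat_lit 0) (nat_lit 1287198078) (nat_lit 836) (nat_lit 2180485977) (nat_lit 204) (nat_lit 5) (nat_lit 203) (nat_lit 3) (nat_lit 214) (nat_lit 5) (nat_lit 278) (nat_lit 276) (nat_lit 226)) (XT.lf (nat_lit 0) (nat_lit 6866387758) (nat_lit 760) (nat_lit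 124389493) (nat_lit 836) (nat_lit 806405069) (nat_lit 204) (nat_lit 5) (nat_lit 214) (nat_lit 5) (nat_lit 215) (nat_lit 5) (nat_lit 279) (nat_lit 276) (nat_lit 225)))) (XT.nd (nat_lit 78) (nat_lit 0) (nat_lit 0) (XT.lf (nat_lit 0) (nat_lit 347709662) (nat_lit 836) (nat_lit 4535988992) (nat_lit 912) (nat_lit 2994299698) (nat_lit 193) (nat_lit 5) (nat_lit 204) (nat_lit 5) (nat_lit 205) (nat_lit 5) (nat_lit 280) (nat_lit 276) (nat_lit 224)) (XT.nd (nat_lit 78) (nat_lit 0) (nat_lit 0) (XT.lf (nat_lit 0) (nat_lit 1601176613) (nat_lit 836) (nat_lit 1082487907) (nat_lit 912) (nat_lit 5278767493) (nat_lit 193) (nat_lit 5) (nat_lit 204) (nat_lit 5) (nat_lit 205) (nat_lit 5) (nat_lit 281) (nat_lit 276) (nat_lit 223)) (XT.lf (nat_lit 76) (nat_lit 2497124212) (nat_lit 0) (nat_lit 374512801) (nat_lit 912) (nat_lit 5178505317) (nat_lit 194) (nat_lit 5) (nat_lit 193) (nat_lit 5) (nat_lit 205) (nat_lit 5) (nat_lit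 282) (nat_lit 276) (nat_lit 222)))))) (XT.nd (nat_lit 468) (nat_lit 836) (nat_lit 0) (XT.nd (nat_lit 234) (nat_lit 836) (nat_lit 0) (XT.nd (nat_lit 78) (nat_lit 0) (nat_lit 0) (XT.lf (nat_lit 0) (nat_lit 4167117895) (nat_lit 836) (nat_lit 1980775067) (nat_lit 912) (nat_lit 1993105474) (nat_lit 194) (nat_lit 5) (nat_lit 205) (nat_lit 5) (nat_lit 206) (nat_lit 5) (nat_lit 283) (nat_lit 276) (nat_lit 221)) (XT.nd (nat_lit 78) (nat_lit 0) (nat_lit 0) (XT.lf (nat_lit 76) (nat_lit 1701367218) (nat_lit 0) (nat_lit 3778027154) (nat_lit 912) (nat_lit 2755966054) (nat_lit 195) (nat_lit 5) (nat_lit 194) (nat_lit 5) (nat_lit 206) (nat_lit 5) (nat_lit 284) (nat_lit 276) (nat_lit 220)) (XT.lf (nat_lit 76) (nat_lit 5508080259) (nat_lit 0) (nat_lit 1301801787) (nat_lit 912) (nat_lit 1523420637) (nat_lit 195) (nat_lit 5) (nat_lit 194) (nat_lit 5) (nat_lit 206) (nat_lit 5) (nat_lit 285) (nat_lit 276) (nat_lit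 219)))) (XT.nd (nat_lit 78) (nat_lit 912) (nat_lit 0) (XT.lf (nat_lit 76) (nat_lit 974654450) (nat_lit 0) (nat_lit 7187178840) (nat_lit 912) (nat_lit 273014804) (nat_lit 196) (nat_lit 5) (nat_lit 195) (nat_lit 5) (nat_lit 207) (nat_lit 5) (nat_lit 286) (nat_lit 276) (nat_lit 218)) (XT.nd (nat_lit 78) (nat_lit 0) (nat_lit 0) (XT.lf (nat_lit 0) (nat_lit 997386079) (nat_lit 912) (nat_lit 3642865186) (nat_lit 988) (nat_lit 3898932269) (nat_lit 183) (nat_lit 5) (nat_lit 195) (nat_lit 5) (nat_lit 196) (nat_lit 5) (nat_lit 287) (nat_lit 276) (nat_lit 217)) (XT.lf (nat_lit 76) (nat_lit 264454397) (nat_lit 0) (nat_lit 2000233823) (nat_lit 988) (nat_lit 6383053334) (nat_lit 184) (nat_lit 5) (nat_lit 183) (nat_lit 5) (nat_lit 196) (nat_lit 5) (nat_lit 288) (nat_lit 276) (nat_lit 216))))) (XT.nd (nat_lit 234) (nat_lit 912) (nat_lit 0) (XT.nd (nat_lit 78) (nat_lit 0) (nat_lit 0) (XT.lf (nat_lit 0) (nat_lit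 3576765602) (nat_lit 912) (nat_lit 4430104935) (nat_lit 988) (nat_lit 752582027) (nat_lit 184) (nat_lit 5) (nat_lit 196) (nat_lit 5) (nat_lit 197) (nat_lit 5) (nat_lit 289) (nat_lit 276) (nat_lit 215)) (XT.nd (nat_lit 78) (nat_lit 0) (nat_lit 0) (XT.lf (nat_lit 0) (nat_lit 4911791009) (nat_lit 912) (nat_lit 405360082) (nat_lit 988) (nat_lit 3557952298) (nat_lit 184) (nat_lit 5) (nat_lit 196) (nat_lit 5) (nat_lit 197) (nat_lit 5) (nat_lit 290) (nat_lit 276) (nat_lit 214)) (XT.lf (nat_lit 76) (nat_lit 3787601385) (nat_lit 0) (nat_lit 2500510853) (nat_lit 988) (nat_lit 2706167406) (nat_lit 185) (nat_lit 5) (nat_lit 184) (nat_lit 5) (nat_lit 197) (nat_lit 5) (nat_lit 291) (nat_lit 276) (nat_lit 213)))) (XT.nd (nat_lit 78) (nat_lit 988) (nat_lit 0) (XT.lf (nat_lit 0) (nat_lit 7679395908) (nat_lit 912) (nat_lit 1033516368) (nat_lit 76) (nat_lit 404999268) (nat_lit 185) (nat_lit 5) (nat_lit 197) (nat_lit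 5) (nat_lit 186) (nat_lit 5) (nat_lit 292) (nat_lit 276) (nat_lit 212)) (XT.nd (nat_lit 78) (nat_lit 76) (nat_lit 0) (XT.lf (nat_lit 0) (nat_lit 3277457710) (nat_lit 912) (nat_lit 5857910069) (nat_lit 988) (nat_lit 109284035) (nat_lit 173) (nat_lit 5) (nat_lit 185) (nat_lit 5) (nat_lit 186) (nat_lit 5) (nat_lit 293) (nat_lit 276) (nat_lit 211)) (XT.lf (nat_lit 0) (nat_lit 1212778718) (nat_lit 988) (nat_lit 1675206863) (nat_lit 76) (nat_lit 6487602125) (nat_lit 172) (nat_lit 5) (nat_lit 185) (nat_lit 5) (nat_lit 173) (nat_lit 5) (nat_lit 294) (nat_lit 276) (nat_lit 210))))))))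
noncomputable def xc156 : XT := (XT.nd (nat_lit 1716) (nat_lit 2964) (nat_lit 0) (XT.nd (nat_lit 858) (nat_lit 2736) (nat_lit 0) (XT.nd (nat_lit 390) (nat_lit 1140) (nat_lit 0) (XT.nd (nat_lit 156) (nat_lit 1748) (nat_lit 0) (XT.nd (nat_lit 78) (nat_lit 0) (nat_lit 0) (XT.lf (nat_lit 0) (nat_lit 2568889198) (nat_lit 1064) (nat_lit 6740351404) (nat_lit 76) (nat_lit 201361588) (nat_lit 159) (nat_lit 5) (nat_lit 173) (nat_lit 5) (nat_lit 160) (nat_lit 5) (nat_lit 295) (nat_lit 276) (nat_lit 209)) (XT.lf (nat_lit 0) (nat_lit 3980054556) (nat_lit 1064) (nat_lit 2321592476) (nat_lit 76) (nat_lit 3347667029) (nat_lit 159) (nat_lit 5) (nat_lit 173) (nat_lit 5) (nat_lit 160) (nat_lit 5) (nat_lit 296) (nat_lit 276) (nat_lit 208))) (XT.nd (nat_lit 78) (nat_lit 684) (nat_lit 0) (XT.lf (nat_lit 0) (nat_lit 2247287011) (nat_lit 1064) (nat_lit 3177475846) (nat_lit 1140) (nat_lit 4367764021) (nat_lit 145) (nat_lit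 5) (nat_lit 159) (nat_lit 5) (nat_lit 160) (nat_lit 5) (nat_lit 297) (nat_lit 276) (nat_lit 207)) (XT.nd (nat_lit 78) (nat_lit 684) (nat_lit 0) (XT.lf (nat_lit 0) (nat_lit 6907153051) (nat_lit 1140) (nat_lit 2966169436) (nat_lit 76) (nat_lit 66956989) (nat_lit 145) (nat_lit 5) (nat_lit 160) (nat_lit 5) (nat_lit 146) (nat_lit 5) (nat_lit 298) (nat_lit 276) (nat_lit 206)) (XT.lf (nat_lit 0) (nat_lit 1726246531) (nat_lit 684) (nat_lit 6726964501) (nat_lit 760) (nat_lit 1638749214) (nat_lit 136) (nat_lit 5) (nat_lit 145) (nat_lit 5) (nat_lit 146) (nat_lit 5) (nat_lit 299) (nat_lit 276) (nat_lit 205))))) (XT.nd (nat_lit 234) (nat_lit 532) (nat_lit 0) (XT.nd (nat_lit 78) (nat_lit 608) (nat_lit 0) (XT.lf (nat_lit 0) (nat_lit 6594244208) (nat_lit 684) (nat_lit 3453091871) (nat_lit 760) (nat_lit 200874191) (nat_lit 136) (nat_lit 5) (nat_lit 145) (nat_lit 5) (nat_lit 146) (nat_lit 5) (nat_lit 300) (nat_lit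 276) (nat_lit 204)) (XT.nd (nat_lit 78) (nat_lit 0) (nat_lit 0) (XT.lf (nat_lit 0) (nat_lit 1184078660) (nat_lit 532) (nat_lit 54678794) (nat_lit 608) (nat_lit 9170578573) (nat_lit 128) (nat_lit 5) (nat_lit 135) (nat_lit 5) (nat_lit 136) (nat_lit 5) (nat_lit 301) (nat_lit 276) (nat_lit 203)) (XT.lf (nat_lit 0) (nat_lit 2760722923) (nat_lit 608) (nat_lit 4393995051) (nat_lit 76) (nat_lit 3419285952) (nat_lit 128) (nat_lit 5) (nat_lit 136) (nat_lit 5) (nat_lit 129) (nat_lit 5) (nat_lit 302) (nat_lit 276) (nat_lit 202)))) (XT.nd (nat_lit 78) (nat_lit 0) (nat_lit 0) (XT.lf (nat_lit 0) (nat_lit 567002139) (nat_lit 532) (nat_lit 3740926262) (nat_lit 608) (nat_lit 6436357684) (nat_lit 121) (nat_lit 5) (nat_lit 128) (nat_lit 5) (nat_lit 129) (nat_lit 5) (nat_lit 303) (nat_lit 276) (nat_lit 201)) (XT.nd (nat_lit 78) (nat_lit 0) (nat_lit 0) (XT.lf (nat_lit 0) (nat_lit 5741428176) (nat_lit 532) (nat_lit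 178606279) (nat_lit 608) (nat_lit 4999147581) (nat_lit 121) (nat_lit 5) (nat_lit 128) (nat_lit 5) (nat_lit 129) (nat_lit 5) (nat_lit 304) (nat_lit 276) (nat_lit 200)) (XT.lf (nat_lit 0) (nat_lit 7588928810) (nat_lit 608) (nat_lit 87339139) (nat_lit 76) (nat_lit 3422862277) (nat_lit 121) (nat_lit 5) (nat_lit 129) (nat_lit 5) (nat_lit 122) (nat_lit 5) (nat_lit 305) (nat_lit 276) (nat_lit 199)))))) (XT.nd (nat_lit 390) (nat_lit 1292) (nat_lit 0) (XT.nd (nat_lit 156) (nat_lit 988) (nat_lit 0) (XT.nd (nat_lit 78) (nat_lit 0) (nat_lit 0) (XT.lf (nat_lit 0) (nat_lit 5231297562) (nat_lit 456) (nat_lit 4104250641) (nat_lit 532) (nat_lit 1948155336) (nat_lit 115) (nat_lit 5) (nat_lit 121) (nat_lit 5) (nat_lit 122) (nat_lit 5) (nat_lit 306) (nat_lit 276) (nat_lit 198)) (XT.lf (nat_lit 0) (nat_lit 10686723363) (nat_lit 456) (nat_lit 424802654) (nat_lit 532) (nat_lit 363034016) (nat_lit 115) (nat_lit 5)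 (nat_lit 121) (nat_lit 5) (nat_lit 122) (nat_lit 5) (nat_lit 307) (nat_lit 276) (nat_lit 197))) (XT.nd (nat_lit 78) (nat_lit 456) (nat_lit 0) (XT.lf (nat_lit 0) (nat_lit 1299343287) (nat_lit 532) (nat_lit 7013474335) (nat_lit 76) (nat_lit 3356375771) (nat_lit 108) (nat_lit 5) (nat_lit 115) (nat_lit 5) (nat_lit 109) (nat_lit 5) (nat_lit 308) (nat_lit 276) (nat_lit 196)) (XT.nd (nat_lit 78) (nat_lit 456) (nat_lit 0) (XT.lf (nat_lit 0) (nat_lit 2993470652) (nat_lit 532) (nat_lit 1623431982) (nat_lit 76) (nat_lit 7253030156) (nat_lit 108) (nat_lit 5) (nat_lit 115) (nat_lit 5) (nat_lit 109) (nat_lit 5) (nat_lit 309) (nat_lit 276) (nat_lit 195)) (XT.lf (nat_lit 0) (nat_lit 3981879338) (nat_lit 456) (nat_lit 772425581) (nat_lit 532) (nat_lit 7321961628) (nat_lit 102) (nat_lit 5) (nat_lit 108) (nat_lit 5) (nat_lit 109) (nat_lit 5) (nat_lit 310) (nat_lit 276) (nat_lit 194))))) (XT.nd (nat_lit 234) (nat_lit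 836) (nat_lit 0) (XT.nd (nat_lit 78) (nat_lit 456) (nat_lit 0) (XT.lf (nat_lit 0) (nat_lit 6593169938) (nat_lit 532) (nat_lit 2555055537) (nat_lit 76) (nat_lit 3139855923) (nat_lit 102) (nat_lit 5) (nat_lit 109) (nat_lit 5) (nat_lit 103) (nat_lit 5) (nat_lit 311) (nat_lit 276) (nat_lit 193)) (XT.nd (nat_lit 78) (nat_lit 0) (nat_lit 0) (XT.lf (nat_lit 0) (nat_lit 3181013006) (nat_lit 456) (nat_lit 5323064813) (nat_lit 532) (nat_lit 4001712444) (nat_lit 96) (nat_lit 5) (nat_lit 102) (nat_lit 5) (nat_lit 103) (nat_lit 5) (nat_lit 312) (nat_lit 276) (nat_lit 192)) (XT.lf (nat_lit 0) (nat_lit 9117905420) (nat_lit 456) (nat_lit 1359254478) (nat_lit 532) (nat_lit 2252769627) (nat_lit 96) (nat_lit 5) (nat_lit 102) (nat_lit 5) (nat_lit 103) (nat_lit 5) (nat_lit 313) (nat_lit 276) (nat_lit 191)))) (XT.nd (nat_lit 78) (nat_lit 456) (nat_lit 0) (XT.lf (nat_lit 0) (nat_lit 2266586766) (nat_lit 380) (nat_lit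 10270446364) (nat_lit 456) (nat_lit 422975118) (nat_lit 91) (nat_lit 5) (nat_lit 96) (nat_lit 5) (nat_lit 97) (nat_lit 5) (nat_lit 314) (nat_lit 276) (nat_lit 190)) (XT.nd (nat_lit 78) (nat_lit 380) (nat_lit 0) (XT.lf (nat_lit 0) (nat_lit 1463244296) (nat_lit 456) (nat_lit 4851953084) (nat_lit 76) (nat_lit 6880509557) (nat_lit 90) (nat_lit 5) (nat_lit 96) (nat_lit 5) (nat_lit 91) (nat_lit 5) (nat_lit 315) (nat_lit 276) (nat_lit 189)) (XT.lf (nat_lit 0) (nat_lit 1160115428) (nat_lit 380) (nat_lit 2228935613) (nat_lit 456) (nat_lit 10049594418) (nat_lit 85) (nat_lit 5) (nat_lit 90) (nat_lit 5) (nat_lit 91) (nat_lit 5) (nat_lit 316) (nat_lit 276) (nat_lit 188))))))) (XT.nd (nat_lit 858) (nat_lit 1520) (nat_lit 0) (XT.nd (nat_lit 390) (nat_lit 684) (nat_lit 0) (XT.nd (nat_lit 156) (nat_lit 760) (nat_lit 0) (XT.nd (nat_lit 78) (nat_lit 0) (nat_lit 0) (XT.lf (nat_lit 0) (nat_lit 5421813016) (nat_lit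 456) (nat_lit 6278363945) (nat_lit 76) (nat_lit 1987258165) (nat_lit 85) (nat_lit 5) (nat_lit 91) (nat_lit 5) (nat_lit 86) (nat_lit 5) (nat_lit 317) (nat_lit 276) (nat_lit 187)) (XT.lf (nat_lit 0) (nat_lit 7518858139) (nat_lit 456) (nat_lit 143029211) (nat_lit 76) (nat_lit 6281739427) (nat_lit 85) (nat_lit 5) (nat_lit 91) (nat_lit 5) (nat_lit 86) (nat_lit 5) (nat_lit 318) (nat_lit 276) (nat_lit 186))) (XT.nd (nat_lit 78) (nat_lit 380) (nat_lit 0) (XT.lf (nat_lit 0) (nat_lit 6276742896) (nat_lit 380) (nat_lit 3444185884) (nat_lit 456) (nat_lit 4485348188) (nat_lit 80) (nat_lit 5) (nat_lit 85) (nat_lit 5) (nat_lit 86) (nat_lit 5) (nat_lit 319) (nat_lit 276) (nat_lit 185)) (XT.nd (nat_lit 78) (nat_lit 380) (nat_lit 0) (XT.lf (nat_lit 0) (nat_lit 11981232237) (nat_lit 456) (nat_lit 1615811010) (nat_lit 76) (nat_lit 880033458) (nat_lit 80) (nat_lit 5) (nat_lit 86) (nat_lit 5) (nat_lit 81) (nat_lit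 5) (nat_lit 320) (nat_lit 276) (nat_lit 184)) (XT.lf (nat_lit 0) (nat_lit 4927609665) (nat_lit 380) (nat_lit 9445785979) (nat_lit 456) (nat_lit 380717400) (nat_lit 75) (nat_lit 5) (nat_lit 80) (nat_lit 5) (nat_lit 81) (nat_lit 5) (nat_lit 321) (nat_lit 276) (nat_lit 183))))) (XT.nd (nat_lit 234) (nat_lit 304) (nat_lit 0) (XT.nd (nat_lit 78) (nat_lit 304) (nat_lit 0) (XT.lf (nat_lit 0) (nat_lit 1761939682) (nat_lit 456) (nat_lit 3377891273) (nat_lit 76) (nat_lit 9899168459) (nat_lit 74) (nat_lit 5) (nat_lit 80) (nat_lit 5) (nat_lit 75) (nat_lit 5) (nat_lit 322) (nat_lit 276) (nat_lit 182)) (XT.nd (nat_lit 78) (nat_lit 0) (nat_lit 0) (XT.lf (nat_lit 0) (nat_lit 3303581198) (nat_lit 304) (nat_lit 672584641) (nat_lit 380) (nat_lit 11355736451) (nat_lit 70) (nat_lit 5) (nat_lit 74) (nat_lit 5) (nat_lit 75) (nat_lit 5) (nat_lit 323) (nat_lit 276) (nat_lit 181)) (XT.lf (nat_lit 0) (nat_lit 6312460076)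 (nat_lit 380) (nat_lit 5437497117) (nat_lit 76) (nat_lit 3881996150) (nat_lit 70) (nat_lit 5) (nat_lit 75) (nat_lit 5) (nat_lit 71) (nat_lit 5) (nat_lit 324) (nat_lit 276) (nat_lit 180)))) (XT.nd (nat_lit 78) (nat_lit 0) (nat_lit 0) (XT.lf (nat_lit 0) (nat_lit 1349792926) (nat_lit 304) (nat_lit 7372595790) (nat_lit 380) (nat_lit 7218540290) (nat_lit 66) (nat_lit 5) (nat_lit 70) (nat_lit 5) (nat_lit 71) (nat_lit 5) (nat_lit 325) (nat_lit 276) (nat_lit 179)) (XT.nd (nat_lit 78) (nat_lit 0) (nat_lit 0) (XT.lf (nat_lit 0) (nat_lit 8431431594) (nat_lit 304) (nat_lit 2812272270) (nat_lit 380) (nat_lit 5014326005) (nat_lit 66) (nat_lit 5) (nat_lit 70) (nat_lit 5) (nat_lit 71) (nat_lit 5) (nat_lit 326) (nat_lit 276) (nat_lit 178)) (XT.lf (nat_lit 0) (nat_lit 13843372390) (nat_lit 380) (nat_lit 897814978) (nat_lit 76) (nat_lit 1843402727) (nat_lit 66) (nat_lit 5) (nat_lit 71) (nat_lit 5) (nat_lit 67)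 (nat_lit 5) (nat_lit 327) (nat_lit 276) (nat_lit 177)))))) (XT.nd (nat_lit 468) (nat_lit 608) (nat_lit 0) (XT.nd (nat_lit 234) (nat_lit 228) (nat_lit 0) (XT.nd (nat_lit 78) (nat_lit 380) (nat_lit 0) (XT.lf (nat_lit 0) (nat_lit 6314227850) (nat_lit 304) (nat_lit 10280387785) (nat_lit 380) (nat_lit 324150903) (nat_lit 62) (nat_lit 5) (nat_lit 66) (nat_lit 5) (nat_lit 67) (nat_lit 5) (nat_lit 328) (nat_lit 276) (nat_lit 176)) (XT.nd (nat_lit 78) (nat_lit 304) (nat_lit 0) (XT.lf (nat_lit 0) (nat_lit 2117446900) (nat_lit 380) (nat_lit 3542663954) (nat_lit 76) (nat_lit 11602430127) (nat_lit 61) (nat_lit 5) (nat_lit 66) (nat_lit 5) (nat_lit 62) (nat_lit 5) (nat_lit 329) (nat_lit 276) (nat_lit 175)) (XT.lf (nat_lit 0) (nat_lit 3782147552) (nat_lit 304) (nat_lit 865538094) (nat_lit 380) (nat_lit 12968214146) (nat_lit 57) (nat_lit 5) (nat_lit 61) (nat_lit 5) (nat_lit 62) (nat_lit 5) (nat_lit 330) (nat_lit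 276) (nat_lit 174)))) (XT.nd (nat_lit 78) (nat_lit 228) (nat_lit 0) (XT.lf (nat_lit 0) (nat_lit 7314848431) (nat_lit 380) (nat_lit 6638690034) (nat_lit 76) (nat_lit 4024514341) (nat_lit 57) (nat_lit 5) (nat_lit 62) (nat_lit 5) (nat_lit 58) (nat_lit 5) (nat_lit 331) (nat_lit 276) (nat_lit 173)) (XT.nd (nat_lit 78) (nat_lit 0) (nat_lit 0) (XT.lf (nat_lit 0) (nat_lit 759322647) (nat_lit 228) (nat_lit 9304725393) (nat_lit 304) (nat_lit 8286984956) (nat_lit 54) (nat_lit 5) (nat_lit 57) (nat_lit 5) (nat_lit 58) (nat_lit 5) (nat_lit 332) (nat_lit 276) (nat_lit 172)) (XT.lf (nat_lit 0) (nat_lit 8496401252) (nat_lit 228) (nat_lit 4452734363) (nat_lit 304) (nat_lit 5784487186) (nat_lit 54) (nat_lit 5) (nat_lit 57) (nat_lit 5) (nat_lit 58) (nat_lit 5) (nat_lit 333) (nat_lit 276) (nat_lit 171))))) (XT.nd (nat_lit 234) (nat_lit 228) (nat_lit 0) (XT.nd (nat_lit 78) (nat_lit 380) (nat_lit 0) (XT.lf (nat_lit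 0) (nat_lit 15912734226) (nat_lit 304) (nat_lit 2686113007) (nat_lit 76) (nat_lit 529106225) (nat_lit 54) (nat_lit 5) (nat_lit 58) (nat_lit 5) (nat_lit 55) (nat_lit 5) (nat_lit 334) (nat_lit 276) (nat_lit 170)) (XT.nd (nat_lit 78) (nat_lit 76) (nat_lit 0) (XT.lf (nat_lit 0) (nat_lit 5129302591) (nat_lit 304) (nat_lit 13916438734) (nat_lit 380) (nat_lit 485978967) (nat_lit 50) (nat_lit 5) (nat_lit 54) (nat_lit 5) (nat_lit 55) (nat_lit 5) (nat_lit 335) (nat_lit 276) (nat_lit 169)) (XT.lf (nat_lit 0) (nat_lit 2294323842) (nat_lit 380) (nat_lit 6753489932) (nat_lit 76) (nat_lit 10898699174) (nat_lit 49) (nat_lit 5) (nat_lit 54) (nat_lit 5) (nat_lit 50) (nat_lit 5) (nat_lit 336) (nat_lit 276) (nat_lit 168)))) (XT.nd (nat_lit 78) (nat_lit 0) (nat_lit 0) (XT.lf (nat_lit 0) (nat_lit 1124238081) (nat_lit 228) (nat_lit 4022374812) (nat_lit 304) (nat_lit 15227061262) (nat_lit 46) (nat_lit 5) (nat_lit 49)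 (nat_lit 5) (nat_lit 50) (nat_lit 5) (nat_lit 337) (nat_lit 276) (nat_lit 167)) (XT.nd (nat_lit 78) (nat_lit 0) (nat_lit 0) (XT.lf (nat_lit 0) (nat_lit 8152114290) (nat_lit 304) (nat_lit 11464587857) (nat_lit 76) (nat_lit 1194937641) (nat_lit 46) (nat_lit 5) (nat_lit 50) (nat_lit 5) (nat_lit 47) (nat_lit 5) (nat_lit 338) (nat_lit 276) (nat_lit 166)) (XT.lf (nat_lit 0) (nat_lit 11275645208) (nat_lit 304) (nat_lit 3503451643) (nat_lit 76) (nat_lit 6482829956) (nat_lit 46) (nat_lit 5) (nat_lit 50) (nat_lit 5) (nat_lit 47) (nat_lit 5) (nat_lit 339) (nat_lit 276) (nat_lit 165))))))))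
noncomputable def xc157 : XT := (XT.nd (nat_lit 1716) (nat_lit 760) (nat_lit 0) (XT.nd (nat_lit 858) (nat_lit 760) (nat_lit 0) (XT.nd (nat_lit 390) (nat_lit 456) (nat_lit 0) (XT.nd (nat_lit 156) (nat_lit 304) (nat_lit 0) (XT.nd (nat_lit 78) (nat_lit 0) (nat_lit 0) (XT.lf (nat_lit 0) (nat_lit 4772727532) (nat_lit 228) (nat_lit 9754420263) (nat_lit 304) (nat_lit 7197564484) (nat_lit 43) (nat_lit 5) (nat_lit 46) (nat_lit 5) (nat_lit 47) (nat_lit 5) (nat_lit 340) (nat_lit 276) (nat_lit 164)) (XT.lf (nat_lit 0) (nat_lit 13352251101) (nat_lit 228) (nat_lit 4547886856) (nat_lit 304) (nat_lit 4300542380) (nat_lit 43) (nat_lit 5) (nat_lit 46) (nat_lit 5) (nat_lit 47) (nat_lit 5) (nat_lit 341) (nat_lit 276) (nat_lit 163))) (XT.nd (nat_lit 78) (nat_lit 304) (nat_lit 0) (XT.lf (nat_lit 0) (nat_lit 21370998493) (nat_lit 304) (nat_lit 526170215) (nat_lit 76) (nat_lit 793875102) (nat_lit 43) (nat_lit 5) (nat_lit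 47) (nat_lit 5) (nat_lit 44) (nat_lit 5) (nat_lit 342) (nat_lit 276) (nat_lit 162)) (XT.nd (nat_lit 78) (nat_lit 0) (nat_lit 0) (XT.lf (nat_lit 0) (nat_lit 1829300244) (nat_lit 304) (nat_lit 15067144110) (nat_lit 76) (nat_lit 6295777644) (nat_lit 39) (nat_lit 5) (nat_lit 43) (nat_lit 5) (nat_lit 40) (nat_lit 5) (nat_lit 343) (nat_lit 276) (nat_lit 161)) (XT.lf (nat_lit 0) (nat_lit 5041174299) (nat_lit 304) (nat_lit 6690909153) (nat_lit 76) (nat_lit 11976137963) (nat_lit 39) (nat_lit 5) (nat_lit 43) (nat_lit 5) (nat_lit 40) (nat_lit 5) (nat_lit 344) (nat_lit 276) (nat_lit 160))))) (XT.nd (nat_lit 234) (nat_lit 228) (nat_lit 0) (XT.nd (nat_lit 78) (nat_lit 0) (nat_lit 0) (XT.lf (nat_lit 0) (nat_lit 1959153608) (nat_lit 228) (nat_lit 6398611544) (nat_lit 304) (nat_lit 15881699766) (nat_lit 36) (nat_lit 5) (nat_lit 39) (nat_lit 5) (nat_lit 40) (nat_lit 5) (nat_lit 345) (nat_lit 276) (nat_lit 159))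 (XT.nd (nat_lit 78) (nat_lit 0) (nat_lit 0) (XT.lf (nat_lit 0) (nat_lit 10990339764) (nat_lit 228) (nat_lit 840762699) (nat_lit 304) (nat_lit 12953840287) (nat_lit 36) (nat_lit 5) (nat_lit 39) (nat_lit 5) (nat_lit 40) (nat_lit 5) (nat_lit 346) (nat_lit 276) (nat_lit 158)) (XT.lf (nat_lit 0) (nat_lit 15445521608) (nat_lit 304) (nat_lit 5116618600) (nat_lit 76) (nat_lit 4783552320) (nat_lit 36) (nat_lit 5) (nat_lit 40) (nat_lit 5) (nat_lit 37) (nat_lit 5) (nat_lit 347) (nat_lit 276) (nat_lit 157)))) (XT.nd (nat_lit 78) (nat_lit 76) (nat_lit 0) (XT.lf (nat_lit 0) (nat_lit 3874076266) (nat_lit 152) (nat_lit 15330090012) (nat_lit 228) (nat_lit 6718038388) (nat_lit 34) (nat_lit 5) (nat_lit 36) (nat_lit 5) (nat_lit 37) (nat_lit 5) (nat_lit 348) (nat_lit 276) (nat_lit 156)) (XT.nd (nat_lit 78) (nat_lit 76) (nat_lit 0) (XT.lf (nat_lit 0) (nat_lit 13224621889) (nat_lit 152) (nat_lit 9892987555) (nat_lit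 228) (nat_lit 3397154806) (nat_lit 34) (nat_lit 5) (nat_lit 36) (nat_lit 5) (nat_lit 37) (nat_lit 5) (nat_lit 349) (nat_lit 276) (nat_lit 155)) (XT.lf (nat_lit 0) (nat_lit 13446147) (nat_lit 228) (nat_lit 4284167857) (nat_lit 76) (nat_lit 22827775979) (nat_lit 33) (nat_lit 5) (nat_lit 36) (nat_lit 5) (nat_lit 34) (nat_lit 5) (nat_lit 350) (nat_lit 276) (nat_lit 154)))))) (XT.nd (nat_lit 390) (nat_lit 380) (nat_lit 0) (XT.nd (nat_lit 156) (nat_lit 152) (nat_lit 0) (XT.nd (nat_lit 78) (nat_lit 0) (nat_lit 0) (XT.lf (nat_lit 0) (nat_lit 3512234695) (nat_lit 304) (nat_lit 22724365371) (nat_lit 76) (nat_lit 1515113027) (nat_lit 30) (nat_lit 5) (nat_lit 34) (nat_lit 5) (nat_lit 31) (nat_lit 5) (nat_lit 351) (nat_lit 276) (nat_lit 153)) (XT.lf (nat_lit 0) (nat_lit 7193135296) (nat_lit 304) (nat_lit 13746678070) (nat_lit 76) (nat_lit 7454709857) (nat_lit 30) (nat_lit 5) (nat_lit 34) (nat_lit 5) (nat_lit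 31) (nat_lit 5) (nat_lit 352) (nat_lit 276) (nat_lit 152))) (XT.nd (nat_lit 78) (nat_lit 152) (nat_lit 0) (XT.lf (nat_lit 0) (nat_lit 10975635474) (nat_lit 304) (nat_lit 4513447593) (nat_lit 76) (nat_lit 13567810848) (nat_lit 30) (nat_lit 5) (nat_lit 34) (nat_lit 5) (nat_lit 31) (nat_lit 5) (nat_lit 353) (nat_lit 276) (nat_lit 151)) (XT.nd (nat_lit 78) (nat_lit 0) (nat_lit 0) (XT.lf (nat_lit 0) (nat_lit 5082573240) (nat_lit 152) (nat_lit 9829323888) (nat_lit 228) (nat_lit 14826041108) (nat_lit 28) (nat_lit 5) (nat_lit 30) (nat_lit 5) (nat_lit 31) (nat_lit 5) (nat_lit 354) (nat_lit 276) (nat_lit 150)) (XT.lf (nat_lit 0) (nat_lit 15045741316) (nat_lit 152) (nat_lit 3957634164) (nat_lit 228) (nat_lit 11434935319) (nat_lit 28) (nat_lit 5) (nat_lit 30) (nat_lit 5) (nat_lit 31) (nat_lit 5) (nat_lit 355) (nat_lit 276) (nat_lit 149))))) (XT.nd (nat_lit 234) (nat_lit 228) (nat_lit 0) (XT.nd (nat_lit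 78) (nat_lit 152) (nat_lit 0) (XT.lf (nat_lit 0) (nat_lit 23229443606) (nat_lit 228) (nat_lit 5885062693) (nat_lit 76) (nat_lit 2044843343) (nat_lit 28) (nat_lit 5) (nat_lit 31) (nat_lit 5) (nat_lit 29) (nat_lit 5) (nat_lit 356) (nat_lit 276) (nat_lit 148)) (XT.nd (nat_lit 78) (nat_lit 0) (nat_lit 0) (XT.lf (nat_lit 0) (nat_lit 3932523230) (nat_lit 152) (nat_lit 23718750146) (nat_lit 228) (nat_lit 4248687046) (nat_lit 26) (nat_lit 5) (nat_lit 28) (nat_lit 5) (nat_lit 29) (nat_lit 5) (nat_lit 357) (nat_lit 276) (nat_lit 147)) (XT.lf (nat_lit 0) (nat_lit 14152699981) (nat_lit 152) (nat_lit 18104591263) (nat_lit 228) (nat_lit 403962149) (nat_lit 26) (nat_lit 5) (nat_lit 28) (nat_lit 5) (nat_lit 29) (nat_lit 5) (nat_lit 358) (nat_lit 276) (nat_lit 146)))) (XT.nd (nat_lit 78) (nat_lit 152) (nat_lit 0) (XT.lf (nat_lit 0) (nat_lit 3478962358) (nat_lit 228) (nat_lit 8812458612) (nat_lit 76) (nat_lit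 21153180469) (nat_lit 25) (nat_lit 5) (nat_lit 28) (nat_lit 5) (nat_lit 26) (nat_lit 5) (nat_lit 359) (nat_lit 276) (nat_lit 145)) (XT.nd (nat_lit 78) (nat_lit 0) (nat_lit 0) (XT.lf (nat_lit 0) (nat_lit 1181564290) (nat_lit 152) (nat_lit 6292524982) (nat_lit 228) (nat_lit 26777134676) (nat_lit 23) (nat_lit 5) (nat_lit 25) (nat_lit 5) (nat_lit 26) (nat_lit 5) (nat_lit 360) (nat_lit 276) (nat_lit 144)) (XT.lf (nat_lit 0) (nat_lit 11644160712) (nat_lit 152) (nat_lit 26478639) (nat_lit 228) (nat_lit 23408967464) (nat_lit 23) (nat_lit 5) (nat_lit 25) (nat_lit 5) (nat_lit 26) (nat_lit 5) (nat_lit 361) (nat_lit 276) (nat_lit 143))))))) (XT.nd (nat_lit 858) (nat_lit 304) (nat_lit 0) (XT.nd (nat_lit 390) (nat_lit 304) (nat_lit 0) (XT.nd (nat_lit 156) (nat_lit 152) (nat_lit 0) (XT.nd (nat_lit 78) (nat_lit 0) (nat_lit 0) (XT.lf (nat_lit 0) (nat_lit 16047626604) (nat_lit 228) (nat_lit 13585722022) (nat_lit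 76) (nat_lit 6297864831) (nat_lit 23) (nat_lit 5) (nat_lit 26) (nat_lit 5) (nat_lit 24) (nat_lit 5) (nat_lit 362) (nat_lit 276) (nat_lit 142)) (XT.lf (nat_lit 0) (nat_lit 20549151792) (nat_lit 228) (nat_lit 3452157067) (nat_lit 76) (nat_lit 12807270851) (nat_lit 23) (nat_lit 5) (nat_lit 26) (nat_lit 5) (nat_lit 24) (nat_lit 5) (nat_lit 363) (nat_lit 276) (nat_lit 141))) (XT.nd (nat_lit 78) (nat_lit 0) (nat_lit 0) (XT.lf (nat_lit 0) (nat_lit 7113161256) (nat_lit 152) (nat_lit 18134108557) (nat_lit 228) (nat_lit 12463158744) (nat_lit 21) (nat_lit 5) (nat_lit 23) (nat_lit 5) (nat_lit 24) (nat_lit 5) (nat_lit 364) (nat_lit 276) (nat_lit 140)) (XT.nd (nat_lit 78) (nat_lit 0) (nat_lit 0) (XT.lf (nat_lit 0) (nat_lit 18055256392) (nat_lit 152) (nat_lit 12059199682) (nat_lit 228) (nat_lit 8524040843) (nat_lit 21) (nat_lit 5) (nat_lit 23) (nat_lit 5) (nat_lit 24) (nat_lit 5) (nat_lit 365) (nat_lit 276)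 (nat_lit 139)) (XT.lf (nat_lit 0) (nat_lit 29314984699) (nat_lit 152) (nat_lit 5806134078) (nat_lit 228) (nat_lit 4473492285) (nat_lit 21) (nat_lit 5) (nat_lit 23) (nat_lit 5) (nat_lit 24) (nat_lit 5) (nat_lit 366) (nat_lit 276) (nat_lit 138))))) (XT.nd (nat_lit 234) (nat_lit 152) (nat_lit 0) (XT.nd (nat_lit 78) (nat_lit 76) (nat_lit 0) (XT.lf (nat_lit 0) (nat_lit 322816400) (nat_lit 76) (nat_lit 39957980636) (nat_lit 152) (nat_lit 298534464) (nat_lit 20) (nat_lit 5) (nat_lit 21) (nat_lit 5) (nat_lit 22) (nat_lit 4) (nat_lit 367) (nat_lit 276) (nat_lit 137)) (XT.nd (nat_lit 78) (nat_lit 0) (nat_lit 0) (XT.lf (nat_lit 0) (nat_lit 4079533410) (nat_lit 152) (nat_lit 30243916137) (nat_lit 76) (nat_lit 7264318477) (nat_lit 19) (nat_lit 5) (nat_lit 21) (nat_lit 5) (nat_lit 20) (nat_lit 5) (nat_lit 368) (nat_lit 276) (nat_lit 136)) (XT.lf (nat_lit 0) (nat_lit 8576758652) (nat_lit 152) (nat_lit 19944099512)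 (nat_lit 76) (nat_lit 14105703055) (nat_lit 19) (nat_lit 5) (nat_lit 21) (nat_lit 5) (nat_lit 20) (nat_lit 5) (nat_lit 369) (nat_lit 276) (nat_lit 135)))) (XT.nd (nat_lit 78) (nat_lit 152) (nat_lit 0) (XT.lf (nat_lit 0) (nat_lit 13202896358) (nat_lit 152) (nat_lit 9345195690) (nat_lit 76) (nat_lit 21148612812) (nat_lit 19) (nat_lit 5) (nat_lit 21) (nat_lit 5) (nat_lit 20) (nat_lit 5) (nat_lit 370) (nat_lit 276) (nat_lit 134)) (XT.nd (nat_lit 78) (nat_lit 0) (nat_lit 0) (XT.lf (nat_lit 0) (nat_lit 1593144493) (nat_lit 152) (nat_lit 16384158571) (nat_lit 228) (nat_lit 26821371532) (nat_lit 17) (nat_lit 5) (nat_lit 19) (nat_lit 5) (nat_lit 20) (nat_lit 5) (nat_lit 371) (nat_lit 276) (nat_lit 133)) (XT.lf (nat_lit 0) (nat_lit 13041677795) (nat_lit 152) (nat_lit 9941881153) (nat_lit 228) (nat_lit 22947492114) (nat_lit 17) (nat_lit 5) (nat_lit 19) (nat_lit 5) (nat_lit 20) (nat_lit 5) (nat_lit 372)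 (nat_lit 276) (nat_lit 132)))))) (XT.nd (nat_lit 468) (nat_lit 152) (nat_lit 0) (XT.nd (nat_lit 234) (nat_lit 152) (nat_lit 0) (XT.nd (nat_lit 78) (nat_lit 0) (nat_lit 0) (XT.lf (nat_lit 0) (nat_lit 24824420067) (nat_lit 152) (nat_lit 3309998774) (nat_lit 228) (nat_lit 18963153458) (nat_lit 17) (nat_lit 5) (nat_lit 19) (nat_lit 5) (nat_lit 20) (nat_lit 5) (nat_lit 373) (nat_lit 276) (nat_lit 131)) (XT.nd (nat_lit 78) (nat_lit 0) (nat_lit 0) (XT.lf (nat_lit 0) (nat_lit 33468193776) (nat_lit 228) (nat_lit 11381400968) (nat_lit 76) (nat_lit 3448648547) (nat_lit 17) (nat_lit 5) (nat_lit 20) (nat_lit 5) (nat_lit 18) (nat_lit 4) (nat_lit 374) (nat_lit 276) (nat_lit 130)) (XT.lf (nat_lit 0) (nat_lit 38989457889) (nat_lit 228) (nat_lit 204515967) (nat_lit 76) (nat_lit 10340141903) (nat_lit 17) (nat_lit 5) (nat_lit 20) (nat_lit 5) (nat_lit 18) (nat_lit 4) (nat_lit 375) (nat_lit 276) (nat_lit 129))))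 (XT.nd (nat_lit 78) (nat_lit 76) (nat_lit 0) (XT.lf (nat_lit 0) (nat_lit 11523960693) (nat_lit 76) (nat_lit 33258032519) (nat_lit 152) (nat_lit 6021907652) (nat_lit 16) (nat_lit 5) (nat_lit 17) (nat_lit 5) (nat_lit 18) (nat_lit 4) (nat_lit 376) (nat_lit 276) (nat_lit 128)) (XT.nd (nat_lit 78) (nat_lit 76) (nat_lit 0) (XT.lf (nat_lit 0) (nat_lit 23599979364) (nat_lit 76) (nat_lit 27145316387) (nat_lit 152) (nat_lit 1366579339) (nat_lit 16) (nat_lit 5) (nat_lit 17) (nat_lit 5) (nat_lit 18) (nat_lit 4) (nat_lit 377) (nat_lit 276) (nat_lit 127)) (XT.lf (nat_lit 0) (nat_lit 3356528128) (nat_lit 152) (nat_lit 17462126980) (nat_lit 76) (nat_lit 32639599157) (nat_lit 15) (nat_lit 5) (nat_lit 17) (nat_lit 5) (nat_lit 16) (nat_lit 5) (nat_lit 378) (nat_lit 276) (nat_lit 126))))) (XT.nd (nat_lit 234) (nat_lit 0) (nat_lit 0) (XT.nd (nat_lit 78) (nat_lit 152) (nat_lit 0) (XT.lf (nat_lit 0) (nat_lit 8189026890)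 (nat_lit 152) (nat_lit 6102513202) (nat_lit 76) (nat_lit 40553228712) (nat_lit 15) (nat_lit 5) (nat_lit 17) (nat_lit 5) (nat_lit 16) (nat_lit 5) (nat_lit 379) (nat_lit 276) (nat_lit 125)) (XT.nd (nat_lit 78) (nat_lit 0) (nat_lit 0) (XT.lf (nat_lit 0) (nat_lit 5701259996) (nat_lit 152) (nat_lit 7515350405) (nat_lit 228) (nat_lit 43054769796) (nat_lit 13) (nat_lit 5) (nat_lit 15) (nat_lit 5) (nat_lit 16) (nat_lit 5) (nat_lit 380) (nat_lit 276) (nat_lit 124)) (XT.lf (nat_lit 0) (nat_lit 17976438086) (nat_lit 152) (nat_lit 475574247) (nat_lit 228) (nat_lit 39287072446) (nat_lit 13) (nat_lit 5) (nat_lit 15) (nat_lit 5) (nat_lit 16) (nat_lit 5) (nat_lit 381) (nat_lit 276) (nat_lit 123)))) (XT.nd (nat_lit 78) (nat_lit 0) (nat_lit 0) (XT.lf (nat_lit 0) (nat_lit 23905078393) (nat_lit 228) (nat_lit 28703764541) (nat_lit 76) (nat_lit 6640163941) (nat_lit 13) (nat_lit 5) (nat_lit 16) (nat_lit 5) (nat_lit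 14) (nat_lit 4) (nat_lit 382) (nat_lit 276) (nat_lit 122)) (XT.nd (nat_lit 78) (nat_lit 0) (nat_lit 0) (XT.lf (nat_lit 0) (nat_lit 29522049778) (nat_lit 228) (nat_lit 17325287025) (nat_lit 76) (nat_lit 13956884743) (nat_lit 13) (nat_lit 5) (nat_lit 16) (nat_lit 5) (nat_lit 14) (nat_lit 4) (nat_lit 383) (nat_lit 276) (nat_lit 121)) (XT.lf (nat_lit 0) (nat_lit 35303263011) (nat_lit 228) (nat_lit 5612700275) (nat_lit 76) (nat_lit 21490261575) (nat_lit 13) (nat_lit 5) (nat_lit 16) (nat_lit 5) (nat_lit 14) (nat_lit 4) (nat_lit 384) (nat_lit 276) (nat_lit 120))))))))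
noncomputable def xc158 : XT := (XT.nd (nat_lit 33306) (nat_lit 0) (nat_lit 6612) (XT.nd (nat_lit 32448) (nat_lit 0) (nat_lit 13148) (XT.nd (nat_lit 390) (nat_lit 228) (nat_lit 0) (XT.nd (nat_lit 156) (nat_lit 0) (nat_lit 0) (XT.nd (nat_lit 78) (nat_lit 0) (nat_lit 0) (XT.lf (nat_lit 0) (nat_lit 6572482819) (nat_lit 76) (nat_lit 34744465543) (nat_lit 152) (nat_lit 22737572907) (nat_lit 12) (nat_lit 5) (nat_lit 13) (nat_lit 5) (nat_lit 14) (nat_lit 4) (nat_lit 385) (nat_lit 276) (nat_lit 119)) (XT.lf (nat_lit 0) (nat_lit 19231311151) (nat_lit 76) (nat_lit 28332321102) (nat_lit 152) (nat_lit 18187060621) (nat_lit 12) (nat_lit 5) (nat_lit 13) (nat_lit 5) (nat_lit 14) (nat_lit 4) (nat_lit 386) (nat_lit 276) (nat_lit 118))) (XT.nd (nat_lit 78) (nat_lit 0) (nat_lit 0) (XT.lf (nat_lit 0) (nat_lit 32263142092) (nat_lit 76) (nat_lit 21730604389) (nat_lit 152) (nat_lit 13504126083) (nat_lit 12) (nat_lit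 5) (nat_lit 13) (nat_lit 5) (nat_lit 14) (nat_lit 4) (nat_lit 387) (nat_lit 276) (nat_lit 117)) (XT.nd (nat_lit 78) (nat_lit 0) (nat_lit 0) (XT.lf (nat_lit 0) (nat_lit 45679362678) (nat_lit 76) (nat_lit 14933546911) (nat_lit 152) (nat_lit 8684677410) (nat_lit 12) (nat_lit 5) (nat_lit 13) (nat_lit 5) (nat_lit 14) (nat_lit 4) (nat_lit 388) (nat_lit 276) (nat_lit 116)) (XT.lf (nat_lit 0) (nat_lit 59491695821) (nat_lit 76) (nat_lit 7935209493) (nat_lit 152) (nat_lit 3724503433) (nat_lit 12) (nat_lit 5) (nat_lit 13) (nat_lit 5) (nat_lit 14) (nat_lit 4) (nat_lit 389) (nat_lit 276) (nat_lit 115))))) (XT.nd (nat_lit 31824) (nat_lit 0) (nat_lit 13908) (XT.nd (nat_lit 78) (nat_lit 0) (nat_lit 0) (XT.lf (nat_lit 0) (nat_lit 650677538) (nat_lit 152) (nat_lit 709364137) (nat_lit 228) (nat_lit 71700330162) (nat_lit 9) (nat_lit 5) (nat_lit 11) (nat_lit 5) (nat_lit 12) (nat_lit 5) (nat_lit 390) (nat_lit 276)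 (nat_lit 114)) (XT.nd (nat_lit 78) (nat_lit 0) (nat_lit 0) (XT.lf (nat_lit 0) (nat_lit 6702244340) (nat_lit 228) (nat_lit 61562736177) (nat_lit 76) (nat_lit 6755120918) (nat_lit 9) (nat_lit 5) (nat_lit 12) (nat_lit 5) (nat_lit 10) (nat_lit 4) (nat_lit 391) (nat_lit 276) (nat_lit 113)) (XT.lf (nat_lit 0) (nat_lit 12208192675) (nat_lit 228) (nat_lit 50403500259) (nat_lit 76) (nat_lit 14426828807) (nat_lit 9) (nat_lit 5) (nat_lit 12) (nat_lit 5) (nat_lit 10) (nat_lit 4) (nat_lit 392) (nat_lit 276) (nat_lit 112)))) (XT.nd (nat_lit 78) (nat_lit 836) (nat_lit 0) (XT.lf (nat_lit 0) (nat_lit 2741634092) (nat_lit 836) (nat_lit 558443548) (nat_lit 836) (nat_lit 558443548) (nat_lit 203) (nat_lit 3) (nat_lit 214) (nat_lit 3) (nat_lit 214) (nat_lit 5) (nat_lit 277) (nat_lit 277) (nat_lit 226)) (XT.nd (nat_lit 78) (nat_lit 836) (nat_lit 0) (XT.lf (nat_lit 76) (nat_lit 2202861843) (nat_lit 0) (nat_lit 4574173594)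 (nat_lit 836) (nat_lit 1015907898) (nat_lit 204) (nat_lit 5) (nat_lit 203) (nat_lit 3) (nat_lit 214) (nat_lit 5) (nat_lit 278) (nat_lit 277) (nat_lit 225)) (XT.lf (nat_lit 0) (nat_lit 197942987) (nat_lit 836) (nat_lit 2253633628) (nat_lit 912) (nat_lit 5420685817) (nat_lit 192) (nat_lit 5) (nat_lit 203) (nat_lit 3) (nat_lit 204) (nat_lit 5) (nat_lit 279) (nat_lit 277) (nat_lit 224)))))) (XT.nd (nat_lit 390) (nat_lit 760) (nat_lit 0) (XT.nd (nat_lit 156) (nat_lit 0) (nat_lit 76) (XT.nd (nat_lit 78) (nat_lit 0) (nat_lit 76) (XT.lf (nat_lit 76) (nat_lit 1170896835) (nat_lit 0) (nat_lit 222238954) (nat_lit 912) (nat_lit 6561692293) (nat_lit 193) (nat_lit 5) (nat_lit 192) (nat_lit 5) (nat_lit 204) (nat_lit 5) (nat_lit 280) (nat_lit 277) (nat_lit 223)) (XT.lf (nat_lit 0) (nat_lit 2622488885) (nat_lit 836) (nat_lit 3341211050) (nat_lit 912) (nat_lit 2076346961) (nat_lit 193) (nat_lit 5) (nat_lit 204)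 (nat_lit 5) (nat_lit 205) (nat_lit 5) (nat_lit 281) (nat_lit 277) (nat_lit 222))) (XT.nd (nat_lit 78) (nat_lit 0) (nat_lit 0) (XT.lf (nat_lit 76) (nat_lit 180657502) (nat_lit 0) (nat_lit 3668687051) (nat_lit 912) (nat_lit 4279780743) (nat_lit 194) (nat_lit 5) (nat_lit 193) (nat_lit 5) (nat_lit 205) (nat_lit 5) (nat_lit 282) (nat_lit 277) (nat_lit 221)) (XT.nd (nat_lit 78) (nat_lit 0) (nat_lit 76) (XT.lf (nat_lit 76) (nat_lit 3851465111) (nat_lit 0) (nat_lit 1252984748) (nat_lit 912) (nat_lit 3116801006) (nat_lit 194) (nat_lit 5) (nat_lit 193) (nat_lit 5) (nat_lit 205) (nat_lit 5) (nat_lit 283) (nat_lit 277) (nat_lit 220)) (XT.lf (nat_lit 0) (nat_lit 6368177381) (nat_lit 836) (nat_lit 721597042) (nat_lit 912) (nat_lit 1227351401) (nat_lit 194) (nat_lit 5) (nat_lit 205) (nat_lit 5) (nat_lit 206) (nat_lit 5) (nat_lit 284) (nat_lit 277) (nat_lit 219))))) (XT.nd (nat_lit 234) (nat_lit 0) (nat_lit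 76) (XT.nd (nat_lit 78) (nat_lit 912) (nat_lit 0) (XT.lf (nat_lit 76) (nat_lit 3058082049) (nat_lit 0) (nat_lit 4613823681) (nat_lit 912) (nat_lit 744019986) (nat_lit 195) (nat_lit 5) (nat_lit 194) (nat_lit 5) (nat_lit 206) (nat_lit 5) (nat_lit 285) (nat_lit 277) (nat_lit 218)) (XT.nd (nat_lit 78) (nat_lit 0) (nat_lit 76) (XT.lf (nat_lit 0) (nat_lit 455429359) (nat_lit 912) (nat_lit 1582240851) (nat_lit 988) (nat_lit 6480938843) (nat_lit 182) (nat_lit 5) (nat_lit 194) (nat_lit 5) (nat_lit 195) (nat_lit 5) (nat_lit 286) (nat_lit 277) (nat_lit 217)) (XT.lf (nat_lit 0) (nat_lit 1666399638) (nat_lit 912) (nat_lit 6311653605) (nat_lit 988) (nat_lit 646485812) (nat_lit 183) (nat_lit 5) (nat_lit 195) (nat_lit 5) (nat_lit 196) (nat_lit 5) (nat_lit 287) (nat_lit 277) (nat_lit 216)))) (XT.nd (nat_lit 78) (nat_lit 0) (nat_lit 0) (XT.lf (nat_lit 0) (nat_lit 2912858691) (nat_lit 912) (nat_lit 2422400916)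 (nat_lit 988) (nat_lit 3398511496) (nat_lit 183) (nat_lit 5) (nat_lit 195) (nat_lit 5) (nat_lit 196) (nat_lit 5) (nat_lit 288) (nat_lit 277) (nat_lit 215)) (XT.nd (nat_lit 78) (nat_lit 0) (nat_lit 76) (XT.lf (nat_lit 76) (nat_lit 1589101488) (nat_lit 0) (nat_lit 2586816502) (nat_lit 988) (nat_lit 4671081985) (nat_lit 184) (nat_lit 5) (nat_lit 183) (nat_lit 5) (nat_lit 196) (nat_lit 5) (nat_lit 289) (nat_lit 277) (nat_lit 214)) (XT.lf (nat_lit 0) (nat_lit 5468755323) (nat_lit 912) (nat_lit 3221309973) (nat_lit 988) (nat_lit 273897084) (nat_lit 184) (nat_lit 5) (nat_lit 196) (nat_lit 5) (nat_lit 197) (nat_lit 5) (nat_lit 290) (nat_lit 277) (nat_lit 213))))))) (XT.nd (nat_lit 858) (nat_lit 2964) (nat_lit 0) (XT.nd (nat_lit 390) (nat_lit 2812) (nat_lit 0) (XT.nd (nat_lit 156) (nat_lit 912) (nat_lit 0) (XT.nd (nat_lit 78) (nat_lit 0) (nat_lit 0) (XT.lf (nat_lit 76) (nat_lit 902713837) (nat_lit 0)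 (nat_lit 5897813925) (nat_lit 988) (nat_lit 2283991939) (nat_lit 185) (nat_lit 5) (nat_lit 184) (nat_lit 5) (nat_lit 197) (nat_lit 5) (nat_lit 291) (nat_lit 277) (nat_lit 212)) (XT.lf (nat_lit 76) (nat_lit 5191078170) (nat_lit 0) (nat_lit 2980314682) (nat_lit 988) (nat_lit 1037414608) (nat_lit 185) (nat_lit 5) (nat_lit 184) (nat_lit 5) (nat_lit 197) (nat_lit 5) (nat_lit 292) (nat_lit 277) (nat_lit 211))) (XT.nd (nat_lit 78) (nat_lit 0) (nat_lit 0) (XT.lf (nat_lit 0) (nat_lit 211670227) (nat_lit 988) (nat_lit 9089768847) (nat_lit 76) (nat_lit 36298892) (nat_lit 172) (nat_lit 5) (nat_lit 185) (nat_lit 5) (nat_lit 173) (nat_lit 5) (nat_lit 293) (nat_lit 277) (nat_lit 210)) (XT.nd (nat_lit 78) (nat_lit 0) (nat_lit 0) (XT.lf (nat_lit 0) (nat_lit 1515816869) (nat_lit 988) (nat_lit 4811773529) (nat_lit 76) (nat_lit 3141565080) (nat_lit 172) (nat_lit 5) (nat_lit 185) (nat_lit 5) (nat_lit 173) (nat_lit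 5) (nat_lit 294) (nat_lit 277) (nat_lit 209)) (XT.lf (nat_lit 0) (nat_lit 2827980454) (nat_lit 988) (nat_lit 430944255) (nat_lit 76) (nat_lit 6346602133) (nat_lit 172) (nat_lit 5) (nat_lit 185) (nat_lit 5) (nat_lit 173) (nat_lit 5) (nat_lit 295) (nat_lit 277) (nat_lit 208))))) (XT.nd (nat_lit 234) (nat_lit 760) (nat_lit 0) (XT.nd (nat_lit 78) (nat_lit 1064) (nat_lit 0) (XT.lf (nat_lit 0) (nat_lit 4137280121) (nat_lit 988) (nat_lit 51797478) (nat_lit 1064) (nat_lit 5556700515) (nat_lit 159) (nat_lit 5) (nat_lit 172) (nat_lit 5) (nat_lit 173) (nat_lit 5) (nat_lit 296) (nat_lit 277) (nat_lit 207)) (XT.nd (nat_lit 78) (nat_lit 1064) (nat_lit 0) (XT.lf (nat_lit 0) (nat_lit 5597149218) (nat_lit 1064) (nat_lit 1095549122) (nat_lit 76) (nat_lit 3197427954) (nat_lit 159) (nat_lit 5) (nat_lit 173) (nat_lit 5) (nat_lit 160) (nat_lit 5) (nat_lit 297) (nat_lit 277) (nat_lit 206)) (XT.lf (nat_lit 0) (nat_lit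 3597693896) (nat_lit 1064) (nat_lit 3456215613) (nat_lit 1140) (nat_lit 2984773491) (nat_lit 145) (nat_lit 5) (nat_lit 159) (nat_lit 5) (nat_lit 160) (nat_lit 5) (nat_lit 298) (nat_lit 277) (nat_lit 205)))) (XT.nd (nat_lit 78) (nat_lit 760) (nat_lit 0) (XT.lf (nat_lit 0) (nat_lit 8429649444) (nat_lit 1064) (nat_lit 107735041) (nat_lit 1140) (nat_lit 1654890957) (nat_lit 145) (nat_lit 5) (nat_lit 159) (nat_lit 5) (nat_lit 160) (nat_lit 5) (nat_lit 299) (nat_lit 277) (nat_lit 204)) (XT.nd (nat_lit 78) (nat_lit 76) (nat_lit 0) (XT.lf (nat_lit 0) (nat_lit 3058916062) (nat_lit 684) (nat_lit 7040768222) (nat_lit 760) (nat_lit 249829127) (nat_lit 136) (nat_lit 5) (nat_lit 145) (nat_lit 5) (nat_lit 146) (nat_lit 5) (nat_lit 300) (nat_lit 277) (nat_lit 203)) (XT.lf (nat_lit 0) (nat_lit 1166088792) (nat_lit 760) (nat_lit 2487553427) (nat_lit 76) (nat_lit 6857782420) (nat_lit 135) (nat_lit 5) (nat_lit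 145) (nat_lit 5) (nat_lit 136) (nat_lit 5) (nat_lit 301) (nat_lit 277) (nat_lit 202)))))) (XT.nd (nat_lit 468) (nat_lit 1444) (nat_lit 0) (XT.nd (nat_lit 234) (nat_lit 456) (nat_lit 0) (XT.nd (nat_lit 78) (nat_lit 532) (nat_lit 0) (XT.lf (nat_lit 0) (nat_lit 2481153168) (nat_lit 532) (nat_lit 135973274) (nat_lit 608) (nat_lit 8061124302) (nat_lit 128) (nat_lit 5) (nat_lit 135) (nat_lit 5) (nat_lit 136) (nat_lit 5) (nat_lit 302) (nat_lit 277) (nat_lit 201)) (XT.nd (nat_lit 78) (nat_lit 532) (nat_lit 0) (XT.lf (nat_lit 0) (nat_lit 4144943233) (nat_lit 608) (nat_lit 3258161314) (nat_lit 76) (nat_lit 3446039505) (nat_lit 128) (nat_lit 5) (nat_lit 136) (nat_lit 5) (nat_lit 129) (nat_lit 5) (nat_lit 303) (nat_lit 277) (nat_lit 200)) (XT.lf (nat_lit 0) (nat_lit 1839237815) (nat_lit 532) (nat_lit 3873488243) (nat_lit 608) (nat_lit 5312672269) (nat_lit 121) (nat_lit 5) (nat_lit 128) (nat_lit 5) (nat_lit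 129) (nat_lit 5) (nat_lit 304) (nat_lit 277) (nat_lit 199)))) (XT.nd (nat_lit 78) (nat_lit 456) (nat_lit 0) (XT.lf (nat_lit 0) (nat_lit 7132336664) (nat_lit 532) (nat_lit 203706402) (nat_lit 608) (nat_lit 3870698566) (nat_lit 121) (nat_lit 5) (nat_lit 128) (nat_lit 5) (nat_lit 129) (nat_lit 5) (nat_lit 305) (nat_lit 277) (nat_lit 198)) (XT.nd (nat_lit 78) (nat_lit 0) (nat_lit 0) (XT.lf (nat_lit 0) (nat_lit 1154779723) (nat_lit 456) (nat_lit 7875070609) (nat_lit 532) (nat_lit 2363075960) (nat_lit 115) (nat_lit 5) (nat_lit 121) (nat_lit 5) (nat_lit 122) (nat_lit 5) (nat_lit 306) (nat_lit 277) (nat_lit 197)) (XT.lf (nat_lit 0) (nat_lit 6598459211) (nat_lit 456) (nat_lit 4195927876) (nat_lit 532) (nat_lit 789765130) (nat_lit 115) (nat_lit 5) (nat_lit 121) (nat_lit 5) (nat_lit 122) (nat_lit 5) (nat_lit 307) (nat_lit 277) (nat_lit 196))))) (XT.nd (nat_lit 234) (nat_lit 912) (nat_lit 0) (XT.nd (nat_lit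 78) (nat_lit 0) (nat_lit 0) (XT.lf (nat_lit 0) (nat_lit 400509056) (nat_lit 456) (nat_lit 395052309) (nat_lit 532) (nat_lit 10985933303) (nat_lit 108) (nat_lit 5) (nat_lit 114) (nat_lit 5) (nat_lit 115) (nat_lit 5) (nat_lit 308) (nat_lit 277) (nat_lit 195)) (XT.nd (nat_lit 78) (nat_lit 0) (nat_lit 0) (XT.lf (nat_lit 0) (nat_lit 2474860123) (nat_lit 532) (nat_lit 5999034007) (nat_lit 76) (nat_lit 3508808768) (nat_lit 108) (nat_lit 5) (nat_lit 115) (nat_lit 5) (nat_lit 109) (nat_lit 5) (nat_lit 309) (nat_lit 277) (nat_lit 194)) (XT.lf (nat_lit 0) (nat_lit 4186708303) (nat_lit 532) (nat_lit 482965467) (nat_lit 76) (nat_lit 7520855745) (nat_lit 108) (nat_lit 5) (nat_lit 115) (nat_lit 5) (nat_lit 109) (nat_lit 5) (nat_lit 310) (nat_lit 277) (nat_lit 193)))) (XT.nd (nat_lit 78) (nat_lit 456) (nat_lit 0) (XT.lf (nat_lit 0) (nat_lit 5278846667) (nat_lit 456) (nat_lit 700701046) (nat_lit 532) (nat_lit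 6424200020) (nat_lit 102) (nat_lit 5) (nat_lit 108) (nat_lit 5) (nat_lit 109) (nat_lit 5) (nat_lit 311) (nat_lit 277) (nat_lit 192)) (XT.nd (nat_lit 78) (nat_lit 456) (nat_lit 0) (XT.lf (nat_lit 0) (nat_lit 7842931889) (nat_lit 532) (nat_lit 1455585312) (nat_lit 76) (nat_lit 3324387051) (nat_lit 102) (nat_lit 5) (nat_lit 109) (nat_lit 5) (nat_lit 103) (nat_lit 5) (nat_lit 312) (nat_lit 277) (nat_lit 191)) (XT.lf (nat_lit 0) (nat_lit 4441034681) (nat_lit 456) (nat_lit 5350687278) (nat_lit 532) (nat_lit 3056071618) (nat_lit 96) (nat_lit 5) (nat_lit 102) (nat_lit 5) (nat_lit 103) (nat_lit 5) (nat_lit 313) (nat_lit 277) (nat_lit 190))))))))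
noncomputable def xc159 : XT := (XT.nd (nat_lit 1794) (nat_lit 1748) (nat_lit 0) (XT.nd (nat_lit 858) (nat_lit 1596) (nat_lit 0) (XT.nd (nat_lit 390) (nat_lit 1140) (nat_lit 0) (XT.nd (nat_lit 156) (nat_lit 380) (nat_lit 0) (XT.nd (nat_lit 78) (nat_lit 456) (nat_lit 0) (XT.lf (nat_lit 0) (nat_lit 10522113733) (nat_lit 456) (nat_lit 1271809317) (nat_lit 532) (nat_lit 1285700095) (nat_lit 96) (nat_lit 5) (nat_lit 102) (nat_lit 5) (nat_lit 103) (nat_lit 5) (nat_lit 314) (nat_lit 277) (nat_lit 189)) (XT.lf (nat_lit 0) (nat_lit 570127295) (nat_lit 456) (nat_lit 9837925520) (nat_lit 76) (nat_lit 2908954110) (nat_lit 90) (nat_lit 5) (nat_lit 96) (nat_lit 5) (nat_lit 91) (nat_lit 5) (nat_lit 315) (nat_lit 277) (nat_lit 188))) (XT.nd (nat_lit 78) (nat_lit 380) (nat_lit 0) (XT.lf (nat_lit 0) (nat_lit 2475384622) (nat_lit 456) (nat_lit 3859540089) (nat_lit 76) (nat_lit 7225656146) (nat_lit 90) (nat_lit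 5) (nat_lit 96) (nat_lit 5) (nat_lit 91) (nat_lit 5) (nat_lit 316) (nat_lit 277) (nat_lit 187)) (XT.nd (nat_lit 78) (nat_lit 0) (nat_lit 0) (XT.lf (nat_lit 0) (nat_lit 2321733894) (nat_lit 380) (nat_lit 2119862058) (nat_lit 456) (nat_lit 9369789467) (nat_lit 85) (nat_lit 5) (nat_lit 90) (nat_lit 5) (nat_lit 91) (nat_lit 5) (nat_lit 317) (nat_lit 277) (nat_lit 186)) (XT.lf (nat_lit 0) (nat_lit 6509287444) (nat_lit 456) (nat_lit 5344828311) (nat_lit 76) (nat_lit 2214359763) (nat_lit 85) (nat_lit 5) (nat_lit 91) (nat_lit 5) (nat_lit 86) (nat_lit 5) (nat_lit 318) (nat_lit 277) (nat_lit 185))))) (XT.nd (nat_lit 234) (nat_lit 760) (nat_lit 0) (XT.nd (nat_lit 78) (nat_lit 0) (nat_lit 0) (XT.lf (nat_lit 0) (nat_lit 960635617) (nat_lit 380) (nat_lit 7690906014) (nat_lit 456) (nat_lit 5681395892) (nat_lit 80) (nat_lit 5) (nat_lit 85) (nat_lit 5) (nat_lit 86) (nat_lit 5) (nat_lit 319) (nat_lit 277) (nat_lit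 184)) (XT.nd (nat_lit 78) (nat_lit 0) (nat_lit 0) (XT.lf (nat_lit 0) (nat_lit 7543576896) (nat_lit 380) (nat_lit 3351078838) (nat_lit 456) (nat_lit 3709614023) (nat_lit 80) (nat_lit 5) (nat_lit 85) (nat_lit 5) (nat_lit 86) (nat_lit 5) (nat_lit 320) (nat_lit 277) (nat_lit 183)) (XT.lf (nat_lit 0) (nat_lit 13198909321) (nat_lit 456) (nat_lit 591626114) (nat_lit 76) (nat_lit 1093424281) (nat_lit 80) (nat_lit 5) (nat_lit 86) (nat_lit 5) (nat_lit 81) (nat_lit 5) (nat_lit 321) (nat_lit 277) (nat_lit 182)))) (XT.nd (nat_lit 78) (nat_lit 304) (nat_lit 0) (XT.lf (nat_lit 0) (nat_lit 468918163) (nat_lit 456) (nat_lit 9036816081) (nat_lit 76) (nat_lit 5663927596) (nat_lit 74) (nat_lit 5) (nat_lit 80) (nat_lit 5) (nat_lit 75) (nat_lit 5) (nat_lit 322) (nat_lit 277) (nat_lit 181)) (XT.nd (nat_lit 78) (nat_lit 304) (nat_lit 0) (XT.lf (nat_lit 0) (nat_lit 2643346458) (nat_lit 456) (nat_lit 2429992166) (nat_lit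 76) (nat_lit 10390434968) (nat_lit 74) (nat_lit 5) (nat_lit 80) (nat_lit 5) (nat_lit 75) (nat_lit 5) (nat_lit 323) (nat_lit 277) (nat_lit 180)) (XT.lf (nat_lit 0) (nat_lit 4441637853) (nat_lit 304) (nat_lit 468216079) (nat_lit 380) (nat_lit 10856078822) (nat_lit 70) (nat_lit 5) (nat_lit 74) (nat_lit 5) (nat_lit 75) (nat_lit 5) (nat_lit 324) (nat_lit 277) (nat_lit 179)))))) (XT.nd (nat_lit 468) (nat_lit 912) (nat_lit 0) (XT.nd (nat_lit 234) (nat_lit 380) (nat_lit 0) (XT.nd (nat_lit 78) (nat_lit 304) (nat_lit 0) (XT.lf (nat_lit 0) (nat_lit 7294612124) (nat_lit 380) (nat_lit 4568857613) (nat_lit 76) (nat_lit 4212207877) (nat_lit 70) (nat_lit 5) (nat_lit 75) (nat_lit 5) (nat_lit 71) (nat_lit 5) (nat_lit 325) (nat_lit 277) (nat_lit 178)) (XT.nd (nat_lit 78) (nat_lit 0) (nat_lit 0) (XT.lf (nat_lit 0) (nat_lit 2411935794) (nat_lit 304) (nat_lit 7351632917) (nat_lit 380) (nat_lit 6630794196) (nat_lit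 66) (nat_lit 5) (nat_lit 70) (nat_lit 5) (nat_lit 71) (nat_lit 5) (nat_lit 326) (nat_lit 277) (nat_lit 177)) (XT.lf (nat_lit 0) (nat_lit 9676266852) (nat_lit 304) (nat_lit 2661552334) (nat_lit 380) (nat_lit 4383879763) (nat_lit 66) (nat_lit 5) (nat_lit 70) (nat_lit 5) (nat_lit 71) (nat_lit 5) (nat_lit 327) (nat_lit 277) (nat_lit 176)))) (XT.nd (nat_lit 78) (nat_lit 76) (nat_lit 0) (XT.lf (nat_lit 0) (nat_lit 60612282) (nat_lit 304) (nat_lit 14935599278) (nat_lit 380) (nat_lit 2062462245) (nat_lit 62) (nat_lit 5) (nat_lit 66) (nat_lit 5) (nat_lit 67) (nat_lit 5) (nat_lit 328) (nat_lit 277) (nat_lit 175)) (XT.nd (nat_lit 78) (nat_lit 0) (nat_lit 0) (XT.lf (nat_lit 0) (nat_lit 405938937) (nat_lit 380) (nat_lit 9929089578) (nat_lit 76) (nat_lit 7068146695) (nat_lit 61) (nat_lit 5) (nat_lit 66) (nat_lit 5) (nat_lit 62) (nat_lit 5) (nat_lit 329) (nat_lit 277) (nat_lit 174)) (XT.lf (nat_lit 0) (nat_lit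 2892911332) (nat_lit 380) (nat_lit 2687413915) (nat_lit 76) (nat_lit 12177518559) (nat_lit 61) (nat_lit 5) (nat_lit 66) (nat_lit 5) (nat_lit 62) (nat_lit 5) (nat_lit 330) (nat_lit 277) (nat_lit 173))))) (XT.nd (nat_lit 234) (nat_lit 380) (nat_lit 0) (XT.nd (nat_lit 78) (nat_lit 228) (nat_lit 0) (XT.lf (nat_lit 0) (nat_lit 4847715172) (nat_lit 304) (nat_lit 639758121) (nat_lit 380) (nat_lit 12634713001) (nat_lit 57) (nat_lit 5) (nat_lit 61) (nat_lit 5) (nat_lit 62) (nat_lit 5) (nat_lit 331) (nat_lit 277) (nat_lit 172)) (XT.nd (nat_lit 78) (nat_lit 228) (nat_lit 0) (XT.lf (nat_lit 0) (nat_lit 8216601664) (nat_lit 380) (nat_lit 5894283988) (nat_lit 76) (nat_lit 4384894086) (nat_lit 57) (nat_lit 5) (nat_lit 62) (nat_lit 5) (nat_lit 58) (nat_lit 5) (nat_lit 332) (nat_lit 277) (nat_lit 171)) (XT.lf (nat_lit 0) (nat_lit 1716418418) (nat_lit 228) (nat_lit 9320967019) (nat_lit 304) (nat_lit 7842924013)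 (nat_lit 54) (nat_lit 5) (nat_lit 57) (nat_lit 5) (nat_lit 58) (nat_lit 5) (nat_lit 333) (nat_lit 277) (nat_lit 170)))) (XT.nd (nat_lit 78) (nat_lit 380) (nat_lit 0) (XT.lf (nat_lit 0) (nat_lit 9658396292) (nat_lit 228) (nat_lit 4331073543) (nat_lit 304) (nat_lit 5285526178) (nat_lit 54) (nat_lit 5) (nat_lit 57) (nat_lit 5) (nat_lit 58) (nat_lit 5) (nat_lit 334) (nat_lit 277) (nat_lit 169)) (XT.nd (nat_lit 78) (nat_lit 380) (nat_lit 0) (XT.lf (nat_lit 0) (nat_lit 17025372274) (nat_lit 304) (nat_lit 1868361521) (nat_lit 76) (nat_lit 787952366) (nat_lit 54) (nat_lit 5) (nat_lit 58) (nat_lit 5) (nat_lit 55) (nat_lit 5) (nat_lit 335) (nat_lit 277) (nat_lit 168)) (XT.lf (nat_lit 0) (nat_lit 141702423) (nat_lit 380) (nat_lit 13926574987) (nat_lit 76) (nat_lit 6029576001) (nat_lit 49) (nat_lit 5) (nat_lit 54) (nat_lit 5) (nat_lit 50) (nat_lit 5) (nat_lit 336) (nat_lit 277) (nat_lit 167))))))) (XT.nd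 (nat_lit 858) (nat_lit 760) (nat_lit 0) (XT.nd (nat_lit 390) (nat_lit 532) (nat_lit 0) (XT.nd (nat_lit 156) (nat_lit 228) (nat_lit 0) (XT.nd (nat_lit 78) (nat_lit 228) (nat_lit 0) (XT.lf (nat_lit 0) (nat_lit 2977224493) (nat_lit 380) (nat_lit 6079295045) (nat_lit 76) (nat_lit 11469007400) (nat_lit 49) (nat_lit 5) (nat_lit 54) (nat_lit 5) (nat_lit 50) (nat_lit 5) (nat_lit 337) (nat_lit 277) (nat_lit 166)) (XT.lf (nat_lit 0) (nat_lit 2026168734) (nat_lit 228) (nat_lit 3879373623) (nat_lit 304) (nat_lit 15060274760) (nat_lit 46) (nat_lit 5) (nat_lit 49) (nat_lit 5) (nat_lit 50) (nat_lit 5) (nat_lit 338) (nat_lit 277) (nat_lit 165))) (XT.nd (nat_lit 78) (nat_lit 228) (nat_lit 0) (XT.lf (nat_lit 0) (nat_lit 8986061853) (nat_lit 304) (nat_lit 10949558316) (nat_lit 76) (nat_lit 1481783085) (nat_lit 46) (nat_lit 5) (nat_lit 50) (nat_lit 5) (nat_lit 47) (nat_lit 5) (nat_lit 339) (nat_lit 277) (nat_lit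 164)) (XT.nd (nat_lit 78) (nat_lit 228) (nat_lit 0) (XT.lf (nat_lit 0) (nat_lit 12186132171) (nat_lit 304) (nat_lit 2774606477) (nat_lit 76) (nat_lit 6921001568) (nat_lit 46) (nat_lit 5) (nat_lit 50) (nat_lit 5) (nat_lit 47) (nat_lit 5) (nat_lit 340) (nat_lit 277) (nat_lit 163)) (XT.lf (nat_lit 0) (nat_lit 5741682105) (nat_lit 228) (nat_lit 9784769030) (nat_lit 304) (nat_lit 6832245546) (nat_lit 43) (nat_lit 5) (nat_lit 46) (nat_lit 5) (nat_lit 47) (nat_lit 5) (nat_lit 341) (nat_lit 277) (nat_lit 162))))) (XT.nd (nat_lit 234) (nat_lit 228) (nat_lit 0) (XT.nd (nat_lit 78) (nat_lit 304) (nat_lit 0) (XT.lf (nat_lit 0) (nat_lit 14554539748) (nat_lit 228) (nat_lit 4429678956) (nat_lit 304) (nat_lit 3865242270) (nat_lit 43) (nat_lit 5) (nat_lit 46) (nat_lit 5) (nat_lit 47) (nat_lit 5) (nat_lit 342) (nat_lit 277) (nat_lit 161)) (XT.nd (nat_lit 78) (nat_lit 76) (nat_lit 0) (XT.lf (nat_lit 0) (nat_lit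 255766762) (nat_lit 228) (nat_lit 22292339114) (nat_lit 304) (nat_lit 806786552) (nat_lit 40) (nat_lit 5) (nat_lit 43) (nat_lit 5) (nat_lit 44) (nat_lit 5) (nat_lit 343) (nat_lit 277) (nat_lit 160)) (XT.lf (nat_lit 0) (nat_lit 2415672190) (nat_lit 304) (nat_lit 14722864145) (nat_lit 76) (nat_lit 6732750278) (nat_lit 39) (nat_lit 5) (nat_lit 43) (nat_lit 5) (nat_lit 40) (nat_lit 5) (nat_lit 344) (nat_lit 277) (nat_lit 159)))) (XT.nd (nat_lit 78) (nat_lit 228) (nat_lit 0) (XT.lf (nat_lit 0) (nat_lit 5708422090) (nat_lit 304) (nat_lit 6118535178) (nat_lit 76) (nat_lit 12576295213) (nat_lit 39) (nat_lit 5) (nat_lit 43) (nat_lit 5) (nat_lit 40) (nat_lit 5) (nat_lit 345) (nat_lit 277) (nat_lit 158)) (XT.nd (nat_lit 78) (nat_lit 0) (nat_lit 0) (XT.lf (nat_lit 0) (nat_lit 2783450043) (nat_lit 228) (nat_lit 6333389798) (nat_lit 304) (nat_lit 15833844986) (nat_lit 36) (nat_lit 5) (nat_lit 39) (nat_lit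 5) (nat_lit 40) (nat_lit 5) (nat_lit 346) (nat_lit 277) (nat_lit 157)) (XT.lf (nat_lit 0) (nat_lit 12063275031) (nat_lit 228) (nat_lit 616296170) (nat_lit 304) (nat_lit 12833420764) (nat_lit 36) (nat_lit 5) (nat_lit 39) (nat_lit 5) (nat_lit 40) (nat_lit 5) (nat_lit 347) (nat_lit 277) (nat_lit 156)))))) (XT.nd (nat_lit 468) (nat_lit 304) (nat_lit 0) (XT.nd (nat_lit 234) (nat_lit 304) (nat_lit 0) (XT.nd (nat_lit 78) (nat_lit 152) (nat_lit 0) (XT.lf (nat_lit 0) (nat_lit 16390378355) (nat_lit 304) (nat_lit 4535822038) (nat_lit 76) (nat_lit 5164745366) (nat_lit 36) (nat_lit 5) (nat_lit 40) (nat_lit 5) (nat_lit 37) (nat_lit 5) (nat_lit 348) (nat_lit 277) (nat_lit 155)) (XT.nd (nat_lit 78) (nat_lit 0) (nat_lit 0) (XT.lf (nat_lit 0) (nat_lit 4717394702) (nat_lit 152) (nat_lit 15537352943) (nat_lit 228) (nat_lit 6430236253) (nat_lit 34) (nat_lit 5) (nat_lit 36) (nat_lit 5) (nat_lit 37) (nat_lit 5) (nat_lit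 349) (nat_lit 277) (nat_lit 154)) (XT.lf (nat_lit 0) (nat_lit 14327279136) (nat_lit 152) (nat_lit 9944495852) (nat_lit 228) (nat_lit 3023978881) (nat_lit 34) (nat_lit 5) (nat_lit 36) (nat_lit 5) (nat_lit 37) (nat_lit 5) (nat_lit 350) (nat_lit 277) (nat_lit 153)))) (XT.nd (nat_lit 78) (nat_lit 228) (nat_lit 0) (XT.lf (nat_lit 0) (nat_lit 466101804) (nat_lit 228) (nat_lit 3717736545) (nat_lit 76) (nat_lit 23741147979) (nat_lit 33) (nat_lit 5) (nat_lit 36) (nat_lit 5) (nat_lit 34) (nat_lit 5) (nat_lit 351) (nat_lit 277) (nat_lit 152)) (XT.nd (nat_lit 78) (nat_lit 0) (nat_lit 0) (XT.lf (nat_lit 0) (nat_lit 4065627026) (nat_lit 304) (nat_lit 22706332628) (nat_lit 76) (nat_lit 1798283699) (nat_lit 30) (nat_lit 5) (nat_lit 34) (nat_lit 5) (nat_lit 31) (nat_lit 5) (nat_lit 352) (nat_lit 277) (nat_lit 151)) (XT.lf (nat_lit 0) (nat_lit 7843905365) (nat_lit 304) (nat_lit 13479696175) (nat_lit 76) (nat_lit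 7909144629) (nat_lit 30) (nat_lit 5) (nat_lit 34) (nat_lit 5) (nat_lit 31) (nat_lit 5) (nat_lit 353) (nat_lit 277) (nat_lit 150))))) (XT.nd (nat_lit 234) (nat_lit 152) (nat_lit 0) (XT.nd (nat_lit 78) (nat_lit 152) (nat_lit 0) (XT.lf (nat_lit 0) (nat_lit 11727211344) (nat_lit 304) (nat_lit 3989256616) (nat_lit 76) (nat_lit 14198916510) (nat_lit 30) (nat_lit 5) (nat_lit 34) (nat_lit 5) (nat_lit 31) (nat_lit 5) (nat_lit 354) (nat_lit 277) (nat_lit 149)) (XT.nd (nat_lit 78) (nat_lit 0) (nat_lit 0) (XT.lf (nat_lit 0) (nat_lit 5888178230) (nat_lit 152) (nat_lit 9887360683) (nat_lit 228) (nat_lit 14841517800) (nat_lit 28) (nat_lit 5) (nat_lit 30) (nat_lit 5) (nat_lit 31) (nat_lit 5) (nat_lit 355) (nat_lit 277) (nat_lit 148)) (XT.lf (nat_lit 0) (nat_lit 16131218209) (nat_lit 152) (nat_lit 3846418605) (nat_lit 228) (nat_lit 11361182853) (nat_lit 28) (nat_lit 5) (nat_lit 30) (nat_lit 5) (nat_lit 31) (nat_lit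 5) (nat_lit 356) (nat_lit 277) (nat_lit 147)))) (XT.nd (nat_lit 78) (nat_lit 152) (nat_lit 0) (XT.lf (nat_lit 0) (nat_lit 24320861320) (nat_lit 228) (nat_lit 5435852688) (nat_lit 76) (nat_lit 2325079456) (nat_lit 28) (nat_lit 5) (nat_lit 31) (nat_lit 5) (nat_lit 29) (nat_lit 5) (nat_lit 357) (nat_lit 277) (nat_lit 146)) (XT.nd (nat_lit 78) (nat_lit 0) (nat_lit 0) (XT.lf (nat_lit 0) (nat_lit 4670125892) (nat_lit 152) (nat_lit 24199685030) (nat_lit 228) (nat_lit 3974992278) (nat_lit 26) (nat_lit 5) (nat_lit 28) (nat_lit 5) (nat_lit 29) (nat_lit 5) (nat_lit 358) (nat_lit 277) (nat_lit 145)) (XT.lf (nat_lit 0) (nat_lit 15178860559) (nat_lit 152) (nat_lit 18423818690) (nat_lit 228) (nat_lit 26609771) (nat_lit 26) (nat_lit 5) (nat_lit 28) (nat_lit 5) (nat_lit 29) (nat_lit 5) (nat_lit 359) (nat_lit 277) (nat_lit 144))))))))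
noncomputable def xc160 : XT := (XT.nd (nat_lit 1716) (nat_lit 304) (nat_lit 0) (XT.nd (nat_lit 858) (nat_lit 456) (nat_lit 0) (XT.nd (nat_lit 390) (nat_lit 304) (nat_lit 0) (XT.nd (nat_lit 156) (nat_lit 0) (nat_lit 0) (XT.nd (nat_lit 78) (nat_lit 152) (nat_lit 0) (XT.lf (nat_lit 0) (nat_lit 3954080021) (nat_lit 228) (nat_lit 8484951091) (nat_lit 76) (nat_lit 21997341098) (nat_lit 25) (nat_lit 5) (nat_lit 28) (nat_lit 5) (nat_lit 26) (nat_lit 5) (nat_lit 360) (nat_lit 277) (nat_lit 143)) (XT.lf (nat_lit 0) (nat_lit 1803089740) (nat_lit 152) (nat_lit 6260806239) (nat_lit 228) (nat_lit 27203465314) (nat_lit 23) (nat_lit 5) (nat_lit 25) (nat_lit 5) (nat_lit 26) (nat_lit 5) (nat_lit 361) (nat_lit 277) (nat_lit 142))) (XT.nd (nat_lit 78) (nat_lit 0) (nat_lit 0) (XT.lf (nat_lit 0) (nat_lit 12377490112) (nat_lit 228) (nat_lit 23560229490) (nat_lit 76) (nat_lit 183154196) (nat_lit 23) (nat_lit 5) (nat_lit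 26) (nat_lit 5) (nat_lit 24) (nat_lit 5) (nat_lit 362) (nat_lit 277) (nat_lit 141)) (XT.nd (nat_lit 78) (nat_lit 0) (nat_lit 0) (XT.lf (nat_lit 0) (nat_lit 16875651271) (nat_lit 228) (nat_lit 13432111321) (nat_lit 76) (nat_lit 6690582330) (nat_lit 23) (nat_lit 5) (nat_lit 26) (nat_lit 5) (nat_lit 24) (nat_lit 5) (nat_lit 363) (nat_lit 277) (nat_lit 140)) (XT.lf (nat_lit 0) (nat_lit 21502127188) (nat_lit 228) (nat_lit 3010884535) (nat_lit 76) (nat_lit 13389335145) (nat_lit 23) (nat_lit 5) (nat_lit 26) (nat_lit 5) (nat_lit 24) (nat_lit 5) (nat_lit 364) (nat_lit 277) (nat_lit 139))))) (XT.nd (nat_lit 234) (nat_lit 152) (nat_lit 0) (XT.nd (nat_lit 78) (nat_lit 0) (nat_lit 0) (XT.lf (nat_lit 0) (nat_lit 7866051797) (nat_lit 152) (nat_lit 18470521922) (nat_lit 228) (nat_lit 12494827426) (nat_lit 21) (nat_lit 5) (nat_lit 23) (nat_lit 5) (nat_lit 24) (nat_lit 5) (nat_lit 365) (nat_lit 277) (nat_lit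 138)) (XT.nd (nat_lit 78) (nat_lit 0) (nat_lit 0) (XT.lf (nat_lit 0) (nat_lit 19120696319) (nat_lit 152) (nat_lit 12219412670) (nat_lit 228) (nat_lit 8447503738) (nat_lit 21) (nat_lit 5) (nat_lit 23) (nat_lit 5) (nat_lit 24) (nat_lit 5) (nat_lit 366) (nat_lit 277) (nat_lit 137)) (XT.lf (nat_lit 0) (nat_lit 30702960682) (nat_lit 152) (nat_lit 5784625865) (nat_lit 228) (nat_lit 4285116150) (nat_lit 21) (nat_lit 5) (nat_lit 23) (nat_lit 5) (nat_lit 24) (nat_lit 5) (nat_lit 367) (nat_lit 277) (nat_lit 136)))) (XT.nd (nat_lit 78) (nat_lit 0) (nat_lit 0) (XT.lf (nat_lit 0) (nat_lit 12391999) (nat_lit 152) (nat_lit 40943337628) (nat_lit 76) (nat_lit 831313115) (nat_lit 19) (nat_lit 5) (nat_lit 21) (nat_lit 5) (nat_lit 20) (nat_lit 5) (nat_lit 368) (nat_lit 277) (nat_lit 135)) (XT.nd (nat_lit 78) (nat_lit 0) (nat_lit 0) (XT.lf (nat_lit 0) (nat_lit 4506659462) (nat_lit 152) (nat_lit 30648401448) (nat_lit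 76) (nat_lit 7670866974) (nat_lit 19) (nat_lit 5) (nat_lit 21) (nat_lit 5) (nat_lit 20) (nat_lit 5) (nat_lit 369) (nat_lit 277) (nat_lit 134)) (XT.lf (nat_lit 0) (nat_lit 9129925537) (nat_lit 152) (nat_lit 20054235921) (nat_lit 76) (nat_lit 14711999335) (nat_lit 19) (nat_lit 5) (nat_lit 21) (nat_lit 5) (nat_lit 20) (nat_lit 5) (nat_lit 370) (nat_lit 277) (nat_lit 133)))))) (XT.nd (nat_lit 390) (nat_lit 304) (nat_lit 0) (XT.nd (nat_lit 156) (nat_lit 0) (nat_lit 0) (XT.nd (nat_lit 78) (nat_lit 152) (nat_lit 0) (XT.lf (nat_lit 0) (nat_lit 13886229973) (nat_lit 152) (nat_lit 9151584011) (nat_lit 76) (nat_lit 21960862641) (nat_lit 19) (nat_lit 5) (nat_lit 21) (nat_lit 5) (nat_lit 20) (nat_lit 5) (nat_lit 371) (nat_lit 277) (nat_lit 132)) (XT.lf (nat_lit 0) (nat_lit 2110259637) (nat_lit 152) (nat_lit 16689754232) (nat_lit 228) (nat_lit 27333816320) (nat_lit 17) (nat_lit 5) (nat_lit 19) (nat_lit 5)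 (nat_lit 20) (nat_lit 5) (nat_lit 372) (nat_lit 277) (nat_lit 131))) (XT.nd (nat_lit 78) (nat_lit 0) (nat_lit 0) (XT.lf (nat_lit 0) (nat_lit 13888579399) (nat_lit 152) (nat_lit 10059623902) (nat_lit 228) (nat_lit 23352231093) (nat_lit 17) (nat_lit 5) (nat_lit 19) (nat_lit 5) (nat_lit 20) (nat_lit 5) (nat_lit 373) (nat_lit 277) (nat_lit 130)) (XT.nd (nat_lit 78) (nat_lit 0) (nat_lit 0) (XT.lf (nat_lit 0) (nat_lit 26011532544) (nat_lit 152) (nat_lit 3234042732) (nat_lit 228) (nat_lit 19256624971) (nat_lit 17) (nat_lit 5) (nat_lit 19) (nat_lit 5) (nat_lit 20) (nat_lit 5) (nat_lit 374) (nat_lit 277) (nat_lit 129)) (XT.lf (nat_lit 0) (nat_lit 34733218752) (nat_lit 228) (nat_lit 11286926076) (nat_lit 76) (nat_lit 3718939197) (nat_lit 17) (nat_lit 5) (nat_lit 20) (nat_lit 5) (nat_lit 18) (nat_lit 4) (nat_lit 375) (nat_lit 277) (nat_lit 128))))) (XT.nd (nat_lit 234) (nat_lit 228) (nat_lit 0) (XT.nd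 (nat_lit 78) (nat_lit 0) (nat_lit 0) (XT.lf (nat_lit 0) (nat_lit 216799402) (nat_lit 76) (nat_lit 40197804059) (nat_lit 152) (nat_lit 10597602799) (nat_lit 16) (nat_lit 5) (nat_lit 17) (nat_lit 5) (nat_lit 18) (nat_lit 4) (nat_lit 376) (nat_lit 277) (nat_lit 127)) (XT.nd (nat_lit 78) (nat_lit 0) (nat_lit 0) (XT.lf (nat_lit 0) (nat_lit 12288750606) (nat_lit 76) (nat_lit 34086728661) (nat_lit 152) (nat_lit 5944776556) (nat_lit 16) (nat_lit 5) (nat_lit 17) (nat_lit 5) (nat_lit 18) (nat_lit 4) (nat_lit 377) (nat_lit 277) (nat_lit 126)) (XT.lf (nat_lit 0) (nat_lit 24714843884) (nat_lit 76) (nat_lit 27795554681) (nat_lit 152) (nat_lit 1157296792) (nat_lit 16) (nat_lit 5) (nat_lit 17) (nat_lit 5) (nat_lit 18) (nat_lit 4) (nat_lit 378) (nat_lit 277) (nat_lit 125)))) (XT.nd (nat_lit 78) (nat_lit 152) (nat_lit 0) (XT.lf (nat_lit 0) (nat_lit 3695472578) (nat_lit 152) (nat_lit 17585995371) (nat_lit 76)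 (nat_lit 33773147380) (nat_lit 15) (nat_lit 5) (nat_lit 17) (nat_lit 5) (nat_lit 16) (nat_lit 5) (nat_lit 379) (nat_lit 277) (nat_lit 124)) (XT.nd (nat_lit 78) (nat_lit 152) (nat_lit 0) (XT.lf (nat_lit 0) (nat_lit 8666007023) (nat_lit 152) (nat_lit 5897243532) (nat_lit 76) (nat_lit 41919689892) (nat_lit 15) (nat_lit 5) (nat_lit 17) (nat_lit 5) (nat_lit 16) (nat_lit 5) (nat_lit 380) (nat_lit 277) (nat_lit 123)) (XT.lf (nat_lit 0) (nat_lit 6256835558) (nat_lit 152) (nat_lit 7584541728) (nat_lit 228) (nat_lit 44111070879) (nat_lit 13) (nat_lit 5) (nat_lit 15) (nat_lit 5) (nat_lit 16) (nat_lit 5) (nat_lit 381) (nat_lit 277) (nat_lit 122))))))) (XT.nd (nat_lit 32604) (nat_lit 0) (nat_lit 13148) (XT.nd (nat_lit 390) (nat_lit 228) (nat_lit 0) (XT.nd (nat_lit 156) (nat_lit 76) (nat_lit 0) (XT.nd (nat_lit 78) (nat_lit 0) (nat_lit 0) (XT.lf (nat_lit 0) (nat_lit 18889068861) (nat_lit 152) (nat_lit 338123815)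 (nat_lit 228) (nat_lit 40237197229) (nat_lit 13) (nat_lit 5) (nat_lit 15) (nat_lit 5) (nat_lit 16) (nat_lit 5) (nat_lit 382) (nat_lit 277) (nat_lit 121)) (XT.lf (nat_lit 0) (nat_lit 24838811694) (nat_lit 228) (nat_lit 29197162287) (nat_lit 76) (nat_lit 6983793229) (nat_lit 13) (nat_lit 5) (nat_lit 16) (nat_lit 5) (nat_lit 14) (nat_lit 4) (nat_lit 383) (nat_lit 277) (nat_lit 120))) (XT.nd (nat_lit 78) (nat_lit 76) (nat_lit 0) (XT.lf (nat_lit 0) (nat_lit 30617984038) (nat_lit 228) (nat_lit 17488040597) (nat_lit 76) (nat_lit 14515809119) (nat_lit 13) (nat_lit 5) (nat_lit 16) (nat_lit 5) (nat_lit 14) (nat_lit 4) (nat_lit 384) (nat_lit 277) (nat_lit 119)) (XT.nd (nat_lit 78) (nat_lit 76) (nat_lit 0) (XT.lf (nat_lit 0) (nat_lit 36566509217) (nat_lit 228) (nat_lit 5434474450) (nat_lit 76) (nat_lit 22271103242) (nat_lit 13) (nat_lit 5) (nat_lit 16) (nat_lit 5) (nat_lit 14) (nat_lit 4) (nat_lit 385)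 (nat_lit 277) (nat_lit 118)) (XT.lf (nat_lit 0) (nat_lit 7112866031) (nat_lit 76) (nat_lit 35645092163) (nat_lit 152) (nat_lit 23211959256) (nat_lit 12) (nat_lit 5) (nat_lit 13) (nat_lit 5) (nat_lit 14) (nat_lit 4) (nat_lit 386) (nat_lit 277) (nat_lit 117))))) (XT.nd (nat_lit 234) (nat_lit 228) (nat_lit 0) (XT.nd (nat_lit 78) (nat_lit 0) (nat_lit 0) (XT.lf (nat_lit 0) (nat_lit 20141462842) (nat_lit 76) (nat_lit 29044710787) (nat_lit 152) (nat_lit 18530982306) (nat_lit 12) (nat_lit 5) (nat_lit 13) (nat_lit 5) (nat_lit 14) (nat_lit 4) (nat_lit 387) (nat_lit 277) (nat_lit 116)) (XT.nd (nat_lit 78) (nat_lit 0) (nat_lit 0) (XT.lf (nat_lit 0) (nat_lit 33554543497) (nat_lit 76) (nat_lit 22248949755) (nat_lit 152) (nat_lit 13713434202) (nat_lit 12) (nat_lit 5) (nat_lit 13) (nat_lit 5) (nat_lit 14) (nat_lit 4) (nat_lit 388) (nat_lit 277) (nat_lit 115)) (XT.lf (nat_lit 0) (nat_lit 47363828163) (nat_lit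 76) (nat_lit 15251871022) (nat_lit 152) (nat_lit 8755105438) (nat_lit 12) (nat_lit 5) (nat_lit 13) (nat_lit 5) (nat_lit 14) (nat_lit 4) (nat_lit 389) (nat_lit 277) (nat_lit 114)))) (XT.nd (nat_lit 78) (nat_lit 228) (nat_lit 0) (XT.lf (nat_lit 0) (nat_lit 61581383205) (nat_lit 76) (nat_lit 8047360636) (nat_lit 152) (nat_lit 3651663492) (nat_lit 12) (nat_lit 5) (nat_lit 13) (nat_lit 5) (nat_lit 14) (nat_lit 4) (nat_lit 390) (nat_lit 277) (nat_lit 113)) (XT.nd (nat_lit 31824) (nat_lit 0) (nat_lit 13908) (XT.lf (nat_lit 0) (nat_lit 975877273) (nat_lit 152) (nat_lit 603606283) (nat_lit 228) (nat_lit 73667177399) (nat_lit 9) (nat_lit 5) (nat_lit 11) (nat_lit 5) (nat_lit 12) (nat_lit 5) (nat_lit 391) (nat_lit 277) (nat_lit 112)) (XT.lf (nat_lit 0) (nat_lit 33344545) (nat_lit 0) (nat_lit 33344545) (nat_lit 836) (nat_lit 3868706273) (nat_lit 192) (nat_lit 5) (nat_lit 192) (nat_lit 3) (nat_lit 203) (nat_lit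 3) (nat_lit 278) (nat_lit 278) (nat_lit 224)))))) (XT.nd (nat_lit 468) (nat_lit 760) (nat_lit 0) (XT.nd (nat_lit 234) (nat_lit 0) (nat_lit 76) (XT.nd (nat_lit 78) (nat_lit 0) (nat_lit 0) (XT.lf (nat_lit 0) (nat_lit 1304148107) (nat_lit 836) (nat_lit 4488995366) (nat_lit 912) (nat_lit 2157434685) (nat_lit 192) (nat_lit 5) (nat_lit 203) (nat_lit 3) (nat_lit 204) (nat_lit 5) (nat_lit 279) (nat_lit 278) (nat_lit 223)) (XT.nd (nat_lit 78) (nat_lit 0) (nat_lit 0) (XT.lf (nat_lit 0) (nat_lit 2466128364) (nat_lit 836) (nat_lit 1099174601) (nat_lit 912) (nat_lit 4468898959) (nat_lit 192) (nat_lit 5) (nat_lit 203) (nat_lit 3) (nat_lit 204) (nat_lit 5) (nat_lit 280) (nat_lit 278) (nat_lit 222)) (XT.lf (nat_lit 76) (nat_lit 2416110717) (nat_lit 0) (nat_lit 1226807638) (nat_lit 912) (nat_lit 4478139217) (nat_lit 193) (nat_lit 5) (nat_lit 192) (nat_lit 5) (nat_lit 204) (nat_lit 5) (nat_lit 281) (nat_lit 278)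 (nat_lit 221)))) (XT.nd (nat_lit 78) (nat_lit 0) (nat_lit 0) (XT.lf (nat_lit 0) (nat_lit 4835528651) (nat_lit 836) (nat_lit 2186986442) (nat_lit 912) (nat_lit 1188706436) (nat_lit 193) (nat_lit 5) (nat_lit 204) (nat_lit 5) (nat_lit 205) (nat_lit 5) (nat_lit 282) (nat_lit 278) (nat_lit 220)) (XT.nd (nat_lit 78) (nat_lit 0) (nat_lit 0) (XT.lf (nat_lit 76) (nat_lit 1428239531) (nat_lit 0) (nat_lit 4620724909) (nat_lit 912) (nat_lit 2255689243) (nat_lit 194) (nat_lit 5) (nat_lit 193) (nat_lit 5) (nat_lit 205) (nat_lit 5) (nat_lit 283) (nat_lit 278) (nat_lit 219)) (XT.lf (nat_lit 76) (nat_lit 5172991883) (nat_lit 0) (nat_lit 2108027927) (nat_lit 912) (nat_lit 1120513849) (nat_lit 194) (nat_lit 5) (nat_lit 193) (nat_lit 5) (nat_lit 205) (nat_lit 5) (nat_lit 284) (nat_lit 278) (nat_lit 218))))) (XT.nd (nat_lit 234) (nat_lit 0) (nat_lit 76) (XT.nd (nat_lit 78) (nat_lit 0) (nat_lit 0) (XT.lf (nat_lit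 0) (nat_lit 18329546) (nat_lit 912) (nat_lit 7992871647) (nat_lit 988) (nat_lit 491092855) (nat_lit 182) (nat_lit 5) (nat_lit 194) (nat_lit 5) (nat_lit 195) (nat_lit 5) (nat_lit 285) (nat_lit 278) (nat_lit 217)) (XT.nd (nat_lit 78) (nat_lit 0) (nat_lit 0) (XT.lf (nat_lit 0) (nat_lit 1184471120) (nat_lit 912) (nat_lit 4236790235) (nat_lit 988) (nat_lit 3184115350) (nat_lit 182) (nat_lit 5) (nat_lit 194) (nat_lit 5) (nat_lit 195) (nat_lit 5) (nat_lit 286) (nat_lit 278) (nat_lit 216)) (XT.lf (nat_lit 0) (nat_lit 2348565678) (nat_lit 912) (nat_lit 392404962) (nat_lit 988) (nat_lit 5971791075) (nat_lit 182) (nat_lit 5) (nat_lit 194) (nat_lit 5) (nat_lit 195) (nat_lit 5) (nat_lit 287) (nat_lit 278) (nat_lit 215)))) (XT.nd (nat_lit 78) (nat_lit 0) (nat_lit 0) (XT.lf (nat_lit 0) (nat_lit 3547023695) (nat_lit 912) (nat_lit 5209983576) (nat_lit 988) (nat_lit 66473842) (nat_lit 183) (nat_lit 5) (nat_lit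 195) (nat_lit 5) (nat_lit 196) (nat_lit 5) (nat_lit 288) (nat_lit 278) (nat_lit 214)) (XT.nd (nat_lit 78) (nat_lit 0) (nat_lit 0) (XT.lf (nat_lit 0) (nat_lit 4777557139) (nat_lit 912) (nat_lit 1241655820) (nat_lit 988) (nat_lit 2918518739) (nat_lit 183) (nat_lit 5) (nat_lit 195) (nat_lit 5) (nat_lit 196) (nat_lit 5) (nat_lit 289) (nat_lit 278) (nat_lit 213)) (XT.lf (nat_lit 76) (nat_lit 2877903252) (nat_lit 0) (nat_lit 3160769063) (nat_lit 988) (nat_lit 3017018056) (nat_lit 184) (nat_lit 5) (nat_lit 183) (nat_lit 5) (nat_lit 196) (nat_lit 5) (nat_lit 290) (nat_lit 278) (nat_lit 212))))))))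
noncomputable def xc161 : XT := (XT.nd (nat_lit 1716) (nat_lit 3648) (nat_lit 0) (XT.nd (nat_lit 858) (nat_lit 2508) (nat_lit 0) (XT.nd (nat_lit 390) (nat_lit 2736) (nat_lit 0) (XT.nd (nat_lit 156) (nat_lit 912) (nat_lit 0) (XT.nd (nat_lit 78) (nat_lit 0) (nat_lit 76) (XT.lf (nat_lit 76) (nat_lit 7122760118) (nat_lit 0) (nat_lit 194162707) (nat_lit 988) (nat_lit 1860973826) (nat_lit 184) (nat_lit 5) (nat_lit 183) (nat_lit 5) (nat_lit 196) (nat_lit 5) (nat_lit 291) (nat_lit 278) (nat_lit 211)) (XT.lf (nat_lit 76) (nat_lit 2182075586) (nat_lit 0) (nat_lit 6467746890) (nat_lit 988) (nat_lit 653542940) (nat_lit 185) (nat_lit 5) (nat_lit 184) (nat_lit 5) (nat_lit 197) (nat_lit 5) (nat_lit 292) (nat_lit 278) (nat_lit 210))) (XT.nd (nat_lit 78) (nat_lit 0) (nat_lit 0) (XT.lf (nat_lit 0) (nat_lit 569610811) (nat_lit 988) (nat_lit 2875913347) (nat_lit 1064) (nat_lit 5987253901) (nat_lit 171) (nat_lit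 5) (nat_lit 184) (nat_lit 5) (nat_lit 185) (nat_lit 5) (nat_lit 293) (nat_lit 278) (nat_lit 209)) (XT.nd (nat_lit 78) (nat_lit 0) (nat_lit 76) (XT.lf (nat_lit 76) (nat_lit 1495586869) (nat_lit 0) (nat_lit 304175761) (nat_lit 1064) (nat_lit 7766691260) (nat_lit 172) (nat_lit 5) (nat_lit 171) (nat_lit 5) (nat_lit 185) (nat_lit 5) (nat_lit 294) (nat_lit 278) (nat_lit 208)) (XT.lf (nat_lit 0) (nat_lit 3094124748) (nat_lit 988) (nat_lit 3699312352) (nat_lit 76) (nat_lit 2909959551) (nat_lit 172) (nat_lit 5) (nat_lit 185) (nat_lit 5) (nat_lit 173) (nat_lit 5) (nat_lit 295) (nat_lit 278) (nat_lit 207))))) (XT.nd (nat_lit 234) (nat_lit 760) (nat_lit 0) (XT.nd (nat_lit 78) (nat_lit 1064) (nat_lit 0) (XT.lf (nat_lit 0) (nat_lit 791786155) (nat_lit 988) (nat_lit 3616832586) (nat_lit 1064) (nat_lit 5436463542) (nat_lit 159) (nat_lit 5) (nat_lit 172) (nat_lit 5) (nat_lit 173) (nat_lit 5) (nat_lit 296) (nat_lit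 278) (nat_lit 206)) (XT.nd (nat_lit 78) (nat_lit 1064) (nat_lit 0) (XT.lf (nat_lit 0) (nat_lit 5469643839) (nat_lit 988) (nat_lit 301562948) (nat_lit 1064) (nat_lit 4219623393) (nat_lit 159) (nat_lit 5) (nat_lit 172) (nat_lit 5) (nat_lit 173) (nat_lit 5) (nat_lit 297) (nat_lit 278) (nat_lit 205)) (XT.lf (nat_lit 0) (nat_lit 94746404) (nat_lit 1064) (nat_lit 7082947370) (nat_lit 1140) (nat_lit 2963235493) (nat_lit 145) (nat_lit 5) (nat_lit 159) (nat_lit 5) (nat_lit 160) (nat_lit 5) (nat_lit 298) (nat_lit 278) (nat_lit 204)))) (XT.nd (nat_lit 78) (nat_lit 760) (nat_lit 0) (XT.lf (nat_lit 0) (nat_lit 4914964211) (nat_lit 1064) (nat_lit 3732788775) (nat_lit 1140) (nat_lit 1647204384) (nat_lit 145) (nat_lit 5) (nat_lit 159) (nat_lit 5) (nat_lit 160) (nat_lit 5) (nat_lit 299) (nat_lit 278) (nat_lit 203)) (XT.nd (nat_lit 78) (nat_lit 760) (nat_lit 0) (XT.lf (nat_lit 0) (nat_lit 9856654946) (nat_lit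 1064) (nat_lit 278818250) (nat_lit 1140) (nat_lit 318991752) (nat_lit 145) (nat_lit 5) (nat_lit 159) (nat_lit 5) (nat_lit 160) (nat_lit 5) (nat_lit 300) (nat_lit 278) (nat_lit 202)) (XT.lf (nat_lit 0) (nat_lit 1076776770) (nat_lit 760) (nat_lit 6269906992) (nat_lit 76) (nat_lit 3270387700) (nat_lit 135) (nat_lit 5) (nat_lit 145) (nat_lit 5) (nat_lit 136) (nat_lit 5) (nat_lit 301) (nat_lit 278) (nat_lit 201)))))) (XT.nd (nat_lit 390) (nat_lit 1444) (nat_lit 0) (XT.nd (nat_lit 156) (nat_lit 532) (nat_lit 0) (XT.nd (nat_lit 78) (nat_lit 532) (nat_lit 0) (XT.lf (nat_lit 0) (nat_lit 2491439857) (nat_lit 760) (nat_lit 1361272532) (nat_lit 76) (nat_lit 6932305902) (nat_lit 135) (nat_lit 5) (nat_lit 145) (nat_lit 5) (nat_lit 136) (nat_lit 5) (nat_lit 302) (nat_lit 278) (nat_lit 200)) (XT.lf (nat_lit 0) (nat_lit 3744721658) (nat_lit 532) (nat_lit 215134116) (nat_lit 608) (nat_lit 6997866480) (nat_lit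 128) (nat_lit 5) (nat_lit 135) (nat_lit 5) (nat_lit 136) (nat_lit 5) (nat_lit 303) (nat_lit 278) (nat_lit 199))) (XT.nd (nat_lit 78) (nat_lit 532) (nat_lit 0) (XT.lf (nat_lit 0) (nat_lit 5495984547) (nat_lit 608) (nat_lit 2161021067) (nat_lit 76) (nat_lit 3477948330) (nat_lit 128) (nat_lit 5) (nat_lit 136) (nat_lit 5) (nat_lit 129) (nat_lit 5) (nat_lit 304) (nat_lit 278) (nat_lit 198)) (XT.nd (nat_lit 78) (nat_lit 0) (nat_lit 0) (XT.lf (nat_lit 0) (nat_lit 3077585476) (nat_lit 532) (nat_lit 4008859817) (nat_lit 608) (nat_lit 4230864629) (nat_lit 121) (nat_lit 5) (nat_lit 128) (nat_lit 5) (nat_lit 129) (nat_lit 5) (nat_lit 305) (nat_lit 278) (nat_lit 197)) (XT.lf (nat_lit 0) (nat_lit 8495016013) (nat_lit 532) (nat_lit 228426261) (nat_lit 608) (nat_lit 2781782816) (nat_lit 121) (nat_lit 5) (nat_lit 128) (nat_lit 5) (nat_lit 129) (nat_lit 5) (nat_lit 306) (nat_lit 278) (nat_lit 196))))) (XT.nd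 (nat_lit 234) (nat_lit 456) (nat_lit 0) (XT.nd (nat_lit 78) (nat_lit 532) (nat_lit 0) (XT.lf (nat_lit 0) (nat_lit 2364396632) (nat_lit 456) (nat_lit 8080788472) (nat_lit 532) (nat_lit 1252575165) (nat_lit 115) (nat_lit 5) (nat_lit 121) (nat_lit 5) (nat_lit 122) (nat_lit 5) (nat_lit 307) (nat_lit 278) (nat_lit 195)) (XT.nd (nat_lit 78) (nat_lit 456) (nat_lit 0) (XT.lf (nat_lit 0) (nat_lit 327017198) (nat_lit 532) (nat_lit 3961841373) (nat_lit 76) (nat_lit 7606844544) (nat_lit 114) (nat_lit 5) (nat_lit 121) (nat_lit 5) (nat_lit 115) (nat_lit 5) (nat_lit 308) (nat_lit 278) (nat_lit 194)) (XT.lf (nat_lit 0) (nat_lit 1566699815) (nat_lit 456) (nat_lit 355669426) (nat_lit 532) (nat_lit 10177083784) (nat_lit 108) (nat_lit 5) (nat_lit 114) (nat_lit 5) (nat_lit 115) (nat_lit 5) (nat_lit 309) (nat_lit 278) (nat_lit 193)))) (XT.nd (nat_lit 78) (nat_lit 456) (nat_lit 0) (XT.lf (nat_lit 0) (nat_lit 3620400618)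 (nat_lit 532) (nat_lit 5024471557) (nat_lit 76) (nat_lit 3662844569) (nat_lit 108) (nat_lit 5) (nat_lit 115) (nat_lit 5) (nat_lit 109) (nat_lit 5) (nat_lit 310) (nat_lit 278) (nat_lit 192)) (XT.nd (nat_lit 78) (nat_lit 0) (nat_lit 0) (XT.lf (nat_lit 0) (nat_lit 635859763) (nat_lit 456) (nat_lit 4722653995) (nat_lit 532) (nat_lit 7164084934) (nat_lit 102) (nat_lit 5) (nat_lit 108) (nat_lit 5) (nat_lit 109) (nat_lit 5) (nat_lit 311) (nat_lit 278) (nat_lit 191)) (XT.lf (nat_lit 0) (nat_lit 6547129071) (nat_lit 456) (nat_lit 632272268) (nat_lit 532) (nat_lit 5563650070) (nat_lit 102) (nat_lit 5) (nat_lit 108) (nat_lit 5) (nat_lit 109) (nat_lit 5) (nat_lit 312) (nat_lit 278) (nat_lit 190))))))) (XT.nd (nat_lit 858) (nat_lit 1520) (nat_lit 0) (XT.nd (nat_lit 390) (nat_lit 1216) (nat_lit 0) (XT.nd (nat_lit 156) (nat_lit 456) (nat_lit 0) (XT.nd (nat_lit 78) (nat_lit 456) (nat_lit 0) (XT.lf (nat_lit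 0) (nat_lit 9069799497) (nat_lit 532) (nat_lit 390645188) (nat_lit 76) (nat_lit 3509268489) (nat_lit 102) (nat_lit 5) (nat_lit 109) (nat_lit 5) (nat_lit 103) (nat_lit 5) (nat_lit 313) (nat_lit 278) (nat_lit 189)) (XT.lf (nat_lit 0) (nat_lit 5672004702) (nat_lit 456) (nat_lit 5386719745) (nat_lit 532) (nat_lit 2143236659) (nat_lit 96) (nat_lit 5) (nat_lit 102) (nat_lit 5) (nat_lit 103) (nat_lit 5) (nat_lit 314) (nat_lit 278) (nat_lit 188))) (XT.nd (nat_lit 78) (nat_lit 456) (nat_lit 0) (XT.lf (nat_lit 0) (nat_lit 11903543145) (nat_lit 456) (nat_lit 1189101314) (nat_lit 532) (nat_lit 349011770) (nat_lit 96) (nat_lit 5) (nat_lit 102) (nat_lit 5) (nat_lit 103) (nat_lit 5) (nat_lit 315) (nat_lit 278) (nat_lit 187)) (XT.nd (nat_lit 78) (nat_lit 0) (nat_lit 0) (XT.lf (nat_lit 0) (nat_lit 1527272859) (nat_lit 456) (nat_lit 9028236501) (nat_lit 76) (nat_lit 3130913319) (nat_lit 90) (nat_lit 5) (nat_lit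 96) (nat_lit 5) (nat_lit 91) (nat_lit 5) (nat_lit 316) (nat_lit 278) (nat_lit 186)) (XT.lf (nat_lit 0) (nat_lit 3462308048) (nat_lit 456) (nat_lit 2902678928) (nat_lit 76) (nat_lit 7573193389) (nat_lit 90) (nat_lit 5) (nat_lit 96) (nat_lit 5) (nat_lit 91) (nat_lit 5) (nat_lit 317) (nat_lit 278) (nat_lit 185))))) (XT.nd (nat_lit 234) (nat_lit 456) (nat_lit 0) (XT.nd (nat_lit 78) (nat_lit 380) (nat_lit 0) (XT.lf (nat_lit 0) (nat_lit 3453517123) (nat_lit 380) (nat_lit 2017616065) (nat_lit 456) (nat_lit 8725920588) (nat_lit 85) (nat_lit 5) (nat_lit 90) (nat_lit 5) (nat_lit 91) (nat_lit 5) (nat_lit 318) (nat_lit 278) (nat_lit 184)) (XT.nd (nat_lit 78) (nat_lit 380) (nat_lit 0) (XT.lf (nat_lit 0) (nat_lit 7576297651) (nat_lit 456) (nat_lit 4447687486) (nat_lit 76) (nat_lit 2438660151) (nat_lit 85) (nat_lit 5) (nat_lit 91) (nat_lit 5) (nat_lit 86) (nat_lit 5) (nat_lit 319) (nat_lit 278) (nat_lit 183))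 (XT.lf (nat_lit 0) (nat_lit 2036572854) (nat_lit 380) (nat_lit 7730921911) (nat_lit 456) (nat_lit 4968056593) (nat_lit 80) (nat_lit 5) (nat_lit 85) (nat_lit 5) (nat_lit 86) (nat_lit 5) (nat_lit 320) (nat_lit 278) (nat_lit 182)))) (XT.nd (nat_lit 78) (nat_lit 456) (nat_lit 0) (XT.lf (nat_lit 0) (nat_lit 8786503783) (nat_lit 380) (nat_lit 3266454616) (nat_lit 456) (nat_lit 2962862467) (nat_lit 80) (nat_lit 5) (nat_lit 85) (nat_lit 5) (nat_lit 86) (nat_lit 5) (nat_lit 321) (nat_lit 278) (nat_lit 181)) (XT.nd (nat_lit 78) (nat_lit 76) (nat_lit 0) (XT.lf (nat_lit 0) (nat_lit 409704103) (nat_lit 380) (nat_lit 13998084447) (nat_lit 456) (nat_lit 896717072) (nat_lit 75) (nat_lit 5) (nat_lit 80) (nat_lit 5) (nat_lit 81) (nat_lit 5) (nat_lit 322) (nat_lit 278) (nat_lit 180)) (XT.lf (nat_lit 0) (nat_lit 1287401811) (nat_lit 456) (nat_lit 8289244986) (nat_lit 76) (nat_lit 6022477905) (nat_lit 74) (nat_lit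 5) (nat_lit 80) (nat_lit 5) (nat_lit 75) (nat_lit 5) (nat_lit 323) (nat_lit 278) (nat_lit 179)))))) (XT.nd (nat_lit 468) (nat_lit 608) (nat_lit 0) (XT.nd (nat_lit 234) (nat_lit 608) (nat_lit 0) (XT.nd (nat_lit 78) (nat_lit 304) (nat_lit 0) (XT.lf (nat_lit 0) (nat_lit 3503633360) (nat_lit 456) (nat_lit 1513886516) (nat_lit 76) (nat_lit 10885286348) (nat_lit 74) (nat_lit 5) (nat_lit 80) (nat_lit 5) (nat_lit 75) (nat_lit 5) (nat_lit 324) (nat_lit 278) (nat_lit 178)) (XT.nd (nat_lit 78) (nat_lit 0) (nat_lit 0) (XT.lf (nat_lit 0) (nat_lit 5554196273) (nat_lit 304) (nat_lit 270606325) (nat_lit 380) (nat_lit 10389669827) (nat_lit 70) (nat_lit 5) (nat_lit 74) (nat_lit 5) (nat_lit 75) (nat_lit 5) (nat_lit 325) (nat_lit 278) (nat_lit 177)) (XT.lf (nat_lit 0) (nat_lit 8260720018) (nat_lit 380) (nat_lit 3733386423) (nat_lit 76) (nat_lit 4540055726) (nat_lit 70) (nat_lit 5) (nat_lit 75) (nat_lit 5) (nat_lit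 71) (nat_lit 5) (nat_lit 326) (nat_lit 278) (nat_lit 176)))) (XT.nd (nat_lit 78) (nat_lit 304) (nat_lit 0) (XT.lf (nat_lit 0) (nat_lit 3447296110) (nat_lit 304) (nat_lit 7343941027) (nat_lit 380) (nat_lit 6071585961) (nat_lit 66) (nat_lit 5) (nat_lit 70) (nat_lit 5) (nat_lit 71) (nat_lit 5) (nat_lit 327) (nat_lit 278) (nat_lit 175)) (XT.nd (nat_lit 78) (nat_lit 304) (nat_lit 0) (XT.lf (nat_lit 0) (nat_lit 10901508492) (nat_lit 304) (nat_lit 2519805820) (nat_lit 380) (nat_lit 3779345612) (nat_lit 66) (nat_lit 5) (nat_lit 70) (nat_lit 5) (nat_lit 71) (nat_lit 5) (nat_lit 328) (nat_lit 278) (nat_lit 174)) (XT.lf (nat_lit 0) (nat_lit 1008576411) (nat_lit 304) (nat_lit 15141267532) (nat_lit 380) (nat_lit 1398226065) (nat_lit 62) (nat_lit 5) (nat_lit 66) (nat_lit 5) (nat_lit 67) (nat_lit 5) (nat_lit 329) (nat_lit 278) (nat_lit 173))))) (XT.nd (nat_lit 234) (nat_lit 228) (nat_lit 0) (XT.nd (nat_lit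 78) (nat_lit 304) (nat_lit 0) (XT.lf (nat_lit 0) (nat_lit 1109321983) (nat_lit 380) (nat_lit 9293438034) (nat_lit 76) (nat_lit 7500594521) (nat_lit 61) (nat_lit 5) (nat_lit 66) (nat_lit 5) (nat_lit 62) (nat_lit 5) (nat_lit 330) (nat_lit 278) (nat_lit 172)) (XT.nd (nat_lit 78) (nat_lit 304) (nat_lit 0) (XT.lf (nat_lit 0) (nat_lit 3650771369) (nat_lit 380) (nat_lit 1861702128) (nat_lit 76) (nat_lit 12756828023) (nat_lit 61) (nat_lit 5) (nat_lit 66) (nat_lit 5) (nat_lit 62) (nat_lit 5) (nat_lit 331) (nat_lit 278) (nat_lit 171)) (XT.lf (nat_lit 0) (nat_lit 5890595203) (nat_lit 304) (nat_lit 421656004) (nat_lit 380) (nat_lit 12332684008) (nat_lit 57) (nat_lit 5) (nat_lit 61) (nat_lit 5) (nat_lit 62) (nat_lit 5) (nat_lit 332) (nat_lit 278) (nat_lit 170)))) (XT.nd (nat_lit 78) (nat_lit 228) (nat_lit 0) (XT.lf (nat_lit 0) (nat_lit 9106240237) (nat_lit 380) (nat_lit 5181710353) (nat_lit 76) (nat_lit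 4742328658) (nat_lit 57) (nat_lit 5) (nat_lit 62) (nat_lit 5) (nat_lit 58) (nat_lit 5) (nat_lit 333) (nat_lit 278) (nat_lit 169)) (XT.nd (nat_lit 78) (nat_lit 0) (nat_lit 0) (XT.lf (nat_lit 0) (nat_lit 2648593497) (nat_lit 228) (nat_lit 9352787437) (nat_lit 304) (nat_lit 7425303361) (nat_lit 54) (nat_lit 5) (nat_lit 57) (nat_lit 5) (nat_lit 58) (nat_lit 5) (nat_lit 334) (nat_lit 278) (nat_lit 168)) (XT.lf (nat_lit 0) (nat_lit 10803179760) (nat_lit 228) (nat_lit 4220414883) (nat_lit 304) (nat_lit 4810200340) (nat_lit 54) (nat_lit 5) (nat_lit 57) (nat_lit 5) (nat_lit 58) (nat_lit 5) (nat_lit 335) (nat_lit 278) (nat_lit 167))))))))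
noncomputable def xc162 : XT := (XT.nd (nat_lit 1716) (nat_lit 988) (nat_lit 0) (XT.nd (nat_lit 858) (nat_lit 836) (nat_lit 0) (XT.nd (nat_lit 390) (nat_lit 532) (nat_lit 0) (XT.nd (nat_lit 156) (nat_lit 228) (nat_lit 0) (XT.nd (nat_lit 78) (nat_lit 380) (nat_lit 0) (XT.lf (nat_lit 0) (nat_lit 18134923170) (nat_lit 304) (nat_lit 1077645587) (nat_lit 76) (nat_lit 1040616250) (nat_lit 54) (nat_lit 5) (nat_lit 58) (nat_lit 5) (nat_lit 55) (nat_lit 5) (nat_lit 336) (nat_lit 278) (nat_lit 166)) (XT.lf (nat_lit 0) (nat_lit 742138870) (nat_lit 380) (nat_lit 13493110504) (nat_lit 76) (nat_lit 6446722748) (nat_lit 49) (nat_lit 5) (nat_lit 54) (nat_lit 5) (nat_lit 50) (nat_lit 5) (nat_lit 337) (nat_lit 278) (nat_lit 165))) (XT.nd (nat_lit 78) (nat_lit 228) (nat_lit 0) (XT.lf (nat_lit 0) (nat_lit 3645361979) (nat_lit 380) (nat_lit 5435206195) (nat_lit 76) (nat_lit 12042455746) (nat_lit 49) (nat_lit 5)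 (nat_lit 54) (nat_lit 5) (nat_lit 50) (nat_lit 5) (nat_lit 338) (nat_lit 278) (nat_lit 164)) (XT.nd (nat_lit 78) (nat_lit 0) (nat_lit 0) (XT.lf (nat_lit 0) (nat_lit 2905318873) (nat_lit 228) (nat_lit 3747218276) (nat_lit 304) (nat_lit 14924281758) (nat_lit 46) (nat_lit 5) (nat_lit 49) (nat_lit 5) (nat_lit 50) (nat_lit 5) (nat_lit 339) (nat_lit 278) (nat_lit 163)) (XT.lf (nat_lit 0) (nat_lit 9811194783) (nat_lit 304) (nat_lit 10468386118) (nat_lit 76) (nat_lit 1762825619) (nat_lit 46) (nat_lit 5) (nat_lit 50) (nat_lit 5) (nat_lit 47) (nat_lit 5) (nat_lit 340) (nat_lit 278) (nat_lit 162))))) (XT.nd (nat_lit 234) (nat_lit 304) (nat_lit 0) (XT.nd (nat_lit 78) (nat_lit 228) (nat_lit 0) (XT.lf (nat_lit 0) (nat_lit 13091086110) (nat_lit 304) (nat_lit 2071768024) (nat_lit 76) (nat_lit 7358329714) (nat_lit 46) (nat_lit 5) (nat_lit 50) (nat_lit 5) (nat_lit 47) (nat_lit 5) (nat_lit 341) (nat_lit 278) (nat_lit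 161)) (XT.nd (nat_lit 78) (nat_lit 0) (nat_lit 0) (XT.lf (nat_lit 0) (nat_lit 6692302582) (nat_lit 228) (nat_lit 9831084426) (nat_lit 304) (nat_lit 6489332930) (nat_lit 43) (nat_lit 5) (nat_lit 46) (nat_lit 5) (nat_lit 47) (nat_lit 5) (nat_lit 342) (nat_lit 278) (nat_lit 160)) (XT.lf (nat_lit 0) (nat_lit 15746874983) (nat_lit 228) (nat_lit 4322542456) (nat_lit 304) (nat_lit 3449277225) (nat_lit 43) (nat_lit 5) (nat_lit 46) (nat_lit 5) (nat_lit 47) (nat_lit 5) (nat_lit 343) (nat_lit 278) (nat_lit 159)))) (XT.nd (nat_lit 78) (nat_lit 76) (nat_lit 0) (XT.lf (nat_lit 0) (nat_lit 1025536153) (nat_lit 228) (nat_lit 22709231314) (nat_lit 304) (nat_lit 304707925) (nat_lit 40) (nat_lit 5) (nat_lit 43) (nat_lit 5) (nat_lit 44) (nat_lit 5) (nat_lit 344) (nat_lit 278) (nat_lit 158)) (XT.nd (nat_lit 78) (nat_lit 0) (nat_lit 0) (XT.lf (nat_lit 0) (nat_lit 2989125426) (nat_lit 304) (nat_lit 14413966332) (nat_lit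 76) (nat_lit 7168590176) (nat_lit 39) (nat_lit 5) (nat_lit 43) (nat_lit 5) (nat_lit 40) (nat_lit 5) (nat_lit 345) (nat_lit 278) (nat_lit 157)) (XT.lf (nat_lit 0) (nat_lit 6366066082) (nat_lit 304) (nat_lit 5573369157) (nat_lit 76) (nat_lit 13180630079) (nat_lit 39) (nat_lit 5) (nat_lit 43) (nat_lit 5) (nat_lit 40) (nat_lit 5) (nat_lit 346) (nat_lit 278) (nat_lit 156)))))) (XT.nd (nat_lit 390) (nat_lit 456) (nat_lit 0) (XT.nd (nat_lit 156) (nat_lit 152) (nat_lit 0) (XT.nd (nat_lit 78) (nat_lit 0) (nat_lit 0) (XT.lf (nat_lit 0) (nat_lit 3588531286) (nat_lit 228) (nat_lit 6280974589) (nat_lit 304) (nat_lit 15814651859) (nat_lit 36) (nat_lit 5) (nat_lit 39) (nat_lit 5) (nat_lit 40) (nat_lit 5) (nat_lit 347) (nat_lit 278) (nat_lit 155)) (XT.lf (nat_lit 0) (nat_lit 13125734196) (nat_lit 228) (nat_lit 399428839) (nat_lit 304) (nat_lit 12738609332) (nat_lit 36) (nat_lit 5) (nat_lit 39) (nat_lit 5) (nat_lit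 40) (nat_lit 5) (nat_lit 348) (nat_lit 278) (nat_lit 154))) (XT.nd (nat_lit 78) (nat_lit 152) (nat_lit 0) (XT.lf (nat_lit 0) (nat_lit 17335941245) (nat_lit 304) (nat_lit 3979753123) (nat_lit 76) (nat_lit 5543730027) (nat_lit 36) (nat_lit 5) (nat_lit 40) (nat_lit 5) (nat_lit 37) (nat_lit 5) (nat_lit 349) (nat_lit 278) (nat_lit 153)) (XT.nd (nat_lit 78) (nat_lit 0) (nat_lit 0) (XT.lf (nat_lit 0) (nat_lit 5544274398) (nat_lit 152) (nat_lit 15765336318) (nat_lit 228) (nat_lit 6161890361) (nat_lit 34) (nat_lit 5) (nat_lit 36) (nat_lit 5) (nat_lit 37) (nat_lit 5) (nat_lit 350) (nat_lit 278) (nat_lit 152)) (XT.lf (nat_lit 0) (nat_lit 15422493486) (nat_lit 152) (nat_lit 10011629549) (nat_lit 228) (nat_lit 2666879821) (nat_lit 34) (nat_lit 5) (nat_lit 36) (nat_lit 5) (nat_lit 37) (nat_lit 5) (nat_lit 351) (nat_lit 278) (nat_lit 151))))) (XT.nd (nat_lit 234) (nat_lit 152) (nat_lit 0) (XT.nd (nat_lit 78)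 (nat_lit 228) (nat_lit 0) (XT.lf (nat_lit 0) (nat_lit 906376001) (nat_lit 228) (nat_lit 3174205632) (nat_lit 76) (nat_lit 24668802082) (nat_lit 33) (nat_lit 5) (nat_lit 36) (nat_lit 5) (nat_lit 34) (nat_lit 5) (nat_lit 352) (nat_lit 278) (nat_lit 150)) (XT.nd (nat_lit 78) (nat_lit 0) (nat_lit 0) (XT.lf (nat_lit 0) (nat_lit 4609902642) (nat_lit 304) (nat_lit 22727928203) (nat_lit 76) (nat_lit 2076303547) (nat_lit 30) (nat_lit 5) (nat_lit 34) (nat_lit 5) (nat_lit 31) (nat_lit 5) (nat_lit 353) (nat_lit 278) (nat_lit 149)) (XT.lf (nat_lit 0) (nat_lit 8489229133) (nat_lit 304) (nat_lit 13243704143) (nat_lit 76) (nat_lit 8363963955) (nat_lit 30) (nat_lit 5) (nat_lit 34) (nat_lit 5) (nat_lit 31) (nat_lit 5) (nat_lit 354) (nat_lit 278) (nat_lit 148)))) (XT.nd (nat_lit 78) (nat_lit 152) (nat_lit 0) (XT.lf (nat_lit 0) (nat_lit 12477092351) (nat_lit 304) (nat_lit 3487203327) (nat_lit 76) (nat_lit 14836092731)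 (nat_lit 30) (nat_lit 5) (nat_lit 34) (nat_lit 5) (nat_lit 31) (nat_lit 5) (nat_lit 355) (nat_lit 278) (nat_lit 147)) (XT.nd (nat_lit 78) (nat_lit 0) (nat_lit 0) (XT.lf (nat_lit 0) (nat_lit 6680459163) (nat_lit 152) (nat_lit 9960734334) (nat_lit 228) (nat_lit 14882102629) (nat_lit 28) (nat_lit 5) (nat_lit 30) (nat_lit 5) (nat_lit 31) (nat_lit 5) (nat_lit 356) (nat_lit 278) (nat_lit 146)) (XT.lf (nat_lit 0) (nat_lit 17212859207) (nat_lit 152) (nat_lit 3745066338) (nat_lit 228) (nat_lit 11309143868) (nat_lit 28) (nat_lit 5) (nat_lit 30) (nat_lit 5) (nat_lit 31) (nat_lit 5) (nat_lit 357) (nat_lit 278) (nat_lit 145))))))) (XT.nd (nat_lit 858) (nat_lit 456) (nat_lit 0) (XT.nd (nat_lit 390) (nat_lit 152) (nat_lit 0) (XT.nd (nat_lit 156) (nat_lit 228) (nat_lit 0) (XT.nd (nat_lit 78) (nat_lit 152) (nat_lit 0) (XT.lf (nat_lit 0) (nat_lit 25422373675) (nat_lit 228) (nat_lit 5009087675) (nat_lit 76) (nat_lit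 2601157424) (nat_lit 28) (nat_lit 5) (nat_lit 31) (nat_lit 5) (nat_lit 29) (nat_lit 5) (nat_lit 358) (nat_lit 278) (nat_lit 144)) (XT.lf (nat_lit 0) (nat_lit 5394287511) (nat_lit 152) (nat_lit 24708286929) (nat_lit 228) (nat_lit 3716114627) (nat_lit 26) (nat_lit 5) (nat_lit 28) (nat_lit 5) (nat_lit 29) (nat_lit 5) (nat_lit 359) (nat_lit 278) (nat_lit 143))) (XT.nd (nat_lit 78) (nat_lit 152) (nat_lit 0) (XT.lf (nat_lit 0) (nat_lit 333077048) (nat_lit 228) (nat_lit 18429035833) (nat_lit 76) (nat_lit 15864832351) (nat_lit 25) (nat_lit 5) (nat_lit 28) (nat_lit 5) (nat_lit 26) (nat_lit 5) (nat_lit 360) (nat_lit 278) (nat_lit 142)) (XT.nd (nat_lit 78) (nat_lit 152) (nat_lit 0) (XT.lf (nat_lit 0) (nat_lit 4422168716) (nat_lit 228) (nat_lit 8181594752) (nat_lit 76) (nat_lit 22854796645) (nat_lit 25) (nat_lit 5) (nat_lit 28) (nat_lit 5) (nat_lit 26) (nat_lit 5) (nat_lit 361) (nat_lit 278) (nat_lit 141))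 (XT.lf (nat_lit 0) (nat_lit 2409617649) (nat_lit 152) (nat_lit 6240793219) (nat_lit 228) (nat_lit 27664226260) (nat_lit 23) (nat_lit 5) (nat_lit 25) (nat_lit 5) (nat_lit 26) (nat_lit 5) (nat_lit 362) (nat_lit 278) (nat_lit 140))))) (XT.nd (nat_lit 234) (nat_lit 152) (nat_lit 0) (XT.nd (nat_lit 78) (nat_lit 0) (nat_lit 0) (XT.lf (nat_lit 0) (nat_lit 13085315658) (nat_lit 228) (nat_lit 23722199131) (nat_lit 76) (nat_lit 386494991) (nat_lit 23) (nat_lit 5) (nat_lit 26) (nat_lit 5) (nat_lit 24) (nat_lit 5) (nat_lit 363) (nat_lit 278) (nat_lit 139)) (XT.nd (nat_lit 78) (nat_lit 0) (nat_lit 0) (XT.lf (nat_lit 0) (nat_lit 17708620656) (nat_lit 228) (nat_lit 13306106463) (nat_lit 76) (nat_lit 7083383459) (nat_lit 23) (nat_lit 5) (nat_lit 26) (nat_lit 5) (nat_lit 24) (nat_lit 5) (nat_lit 364) (nat_lit 278) (nat_lit 138)) (XT.lf (nat_lit 0) (nat_lit 22464375322) (nat_lit 228) (nat_lit 2587649714) (nat_lit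 76) (nat_lit 13977504189) (nat_lit 23) (nat_lit 5) (nat_lit 26) (nat_lit 5) (nat_lit 24) (nat_lit 5) (nat_lit 365) (nat_lit 278) (nat_lit 137)))) (XT.nd (nat_lit 78) (nat_lit 0) (nat_lit 0) (XT.lf (nat_lit 0) (nat_lit 8610559792) (nat_lit 152) (nat_lit 18828945345) (nat_lit 228) (nat_lit 12547091346) (nat_lit 21) (nat_lit 5) (nat_lit 23) (nat_lit 5) (nat_lit 24) (nat_lit 5) (nat_lit 366) (nat_lit 278) (nat_lit 136)) (XT.nd (nat_lit 78) (nat_lit 0) (nat_lit 0) (XT.lf (nat_lit 0) (nat_lit 20188032201) (nat_lit 152) (nat_lit 12396002589) (nat_lit 228) (nat_lit 8387743507) (nat_lit 21) (nat_lit 5) (nat_lit 23) (nat_lit 5) (nat_lit 24) (nat_lit 5) (nat_lit 367) (nat_lit 278) (nat_lit 135)) (XT.lf (nat_lit 0) (nat_lit 32103384446) (nat_lit 152) (nat_lit 5773705941) (nat_lit 228) (nat_lit 4109606195) (nat_lit 21) (nat_lit 5) (nat_lit 23) (nat_lit 5) (nat_lit 24) (nat_lit 5) (nat_lit 368) (nat_lit 278)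 (nat_lit 134)))))) (XT.nd (nat_lit 468) (nat_lit 152) (nat_lit 0) (XT.nd (nat_lit 234) (nat_lit 152) (nat_lit 0) (XT.nd (nat_lit 78) (nat_lit 0) (nat_lit 0) (XT.lf (nat_lit 0) (nat_lit 308627885) (nat_lit 152) (nat_lit 41683451181) (nat_lit 76) (nat_lit 1039377696) (nat_lit 19) (nat_lit 5) (nat_lit 21) (nat_lit 5) (nat_lit 20) (nat_lit 5) (nat_lit 369) (nat_lit 278) (nat_lit 133)) (XT.nd (nat_lit 78) (nat_lit 0) (nat_lit 0) (XT.lf (nat_lit 0) (nat_lit 4929105969) (nat_lit 152) (nat_lit 31093885941) (nat_lit 76) (nat_lit 8078784428) (nat_lit 19) (nat_lit 5) (nat_lit 21) (nat_lit 5) (nat_lit 20) (nat_lit 5) (nat_lit 370) (nat_lit 278) (nat_lit 132)) (XT.lf (nat_lit 0) (nat_lit 9682703618) (nat_lit 152) (nat_lit 20195700329) (nat_lit 76) (nat_lit 15325972367) (nat_lit 19) (nat_lit 5) (nat_lit 21) (nat_lit 5) (nat_lit 20) (nat_lit 5) (nat_lit 371) (nat_lit 278) (nat_lit 131)))) (XT.nd (nat_lit 78)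 (nat_lit 152) (nat_lit 0) (XT.lf (nat_lit 0) (nat_lit 14573574459) (nat_lit 152) (nat_lit 8979371658) (nat_lit 76) (nat_lit 22787274008) (nat_lit 19) (nat_lit 5) (nat_lit 21) (nat_lit 5) (nat_lit 20) (nat_lit 5) (nat_lit 372) (nat_lit 278) (nat_lit 130)) (XT.nd (nat_lit 78) (nat_lit 0) (nat_lit 0) (XT.lf (nat_lit 0) (nat_lit 2615947301) (nat_lit 152) (nat_lit 17015190854) (nat_lit 228) (nat_lit 27878407719) (nat_lit 17) (nat_lit 5) (nat_lit 19) (nat_lit 5) (nat_lit 20) (nat_lit 5) (nat_lit 373) (nat_lit 278) (nat_lit 129)) (XT.lf (nat_lit 0) (nat_lit 14734731805) (nat_lit 152) (nat_lit 10191261158) (nat_lit 228) (nat_lit 23785396967) (nat_lit 17) (nat_lit 5) (nat_lit 19) (nat_lit 5) (nat_lit 20) (nat_lit 5) (nat_lit 374) (nat_lit 278) (nat_lit 128))))) (XT.nd (nat_lit 234) (nat_lit 76) (nat_lit 0) (XT.nd (nat_lit 78) (nat_lit 76) (nat_lit 0) (XT.lf (nat_lit 0) (nat_lit 27208863980) (nat_lit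 152) (nat_lit 3165868420) (nat_lit 228) (nat_lit 19574711041) (nat_lit 17) (nat_lit 5) (nat_lit 19) (nat_lit 5) (nat_lit 20) (nat_lit 5) (nat_lit 375) (nat_lit 278) (nat_lit 127)) (XT.nd (nat_lit 78) (nat_lit 76) (nat_lit 0) (XT.lf (nat_lit 0) (nat_lit 36021213205) (nat_lit 228) (nat_lit 11214640352) (nat_lit 76) (nat_lit 3987761773) (nat_lit 17) (nat_lit 5) (nat_lit 20) (nat_lit 5) (nat_lit 18) (nat_lit 4) (nat_lit 376) (nat_lit 278) (nat_lit 126)) (XT.lf (nat_lit 0) (nat_lit 630168522) (nat_lit 76) (nat_lit 41239616983) (nat_lit 152) (nat_lit 10665250956) (nat_lit 16) (nat_lit 5) (nat_lit 17) (nat_lit 5) (nat_lit 18) (nat_lit 4) (nat_lit 377) (nat_lit 278) (nat_lit 125)))) (XT.nd (nat_lit 78) (nat_lit 76) (nat_lit 0) (XT.lf (nat_lit 0) (nat_lit 13052427822) (nat_lit 76) (nat_lit 34949989552) (nat_lit 152) (nat_lit 5880129633) (nat_lit 16) (nat_lit 5) (nat_lit 17) (nat_lit 5) (nat_lit 18) (nat_lit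 4) (nat_lit 378) (nat_lit 278) (nat_lit 124)) (XT.nd (nat_lit 78) (nat_lit 76) (nat_lit 0) (XT.lf (nat_lit 0) (nat_lit 25839798615) (nat_lit 76) (nat_lit 28474721352) (nat_lit 152) (nat_lit 956102861) (nat_lit 16) (nat_lit 5) (nat_lit 17) (nat_lit 5) (nat_lit 18) (nat_lit 4) (nat_lit 379) (nat_lit 278) (nat_lit 123)) (XT.lf (nat_lit 0) (nat_lit 4030908916) (nat_lit 152) (nat_lit 17736541187) (nat_lit 76) (nat_lit 34931841139) (nat_lit 15) (nat_lit 5) (nat_lit 17) (nat_lit 5) (nat_lit 16) (nat_lit 5) (nat_lit 380) (nat_lit 278) (nat_lit 122))))))))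
noncomputable def xc163 : XT := (XT.nd (nat_lit 33540) (nat_lit 0) (nat_lit 6840) (XT.nd (nat_lit 32682) (nat_lit 0) (nat_lit 12844) (XT.nd (nat_lit 390) (nat_lit 76) (nat_lit 0) (XT.nd (nat_lit 156) (nat_lit 0) (nat_lit 0) (XT.nd (nat_lit 78) (nat_lit 152) (nat_lit 0) (XT.lf (nat_lit 0) (nat_lit 9144018458) (nat_lit 152) (nat_lit 5708108367) (nat_lit 76) (nat_lit 43318542082) (nat_lit 15) (nat_lit 5) (nat_lit 17) (nat_lit 5) (nat_lit 16) (nat_lit 5) (nat_lit 381) (nat_lit 278) (nat_lit 121)) (XT.lf (nat_lit 0) (nat_lit 6807004346) (nat_lit 152) (nat_lit 7664779282) (nat_lit 228) (nat_lit 45212570588) (nat_lit 13) (nat_lit 5) (nat_lit 15) (nat_lit 5) (nat_lit 16) (nat_lit 5) (nat_lit 382) (nat_lit 278) (nat_lit 120))) (XT.nd (nat_lit 78) (nat_lit 0) (nat_lit 0) (XT.lf (nat_lit 0) (nat_lit 19807647452) (nat_lit 152) (nat_lit 205259086) (nat_lit 228) (nat_lit 41228941867) (nat_lit 13) (nat_lit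 5) (nat_lit 15) (nat_lit 5) (nat_lit 16) (nat_lit 5) (nat_lit 383) (nat_lit 278) (nat_lit 119)) (XT.nd (nat_lit 78) (nat_lit 0) (nat_lit 0) (XT.lf (nat_lit 0) (nat_lit 25788124361) (nat_lit 228) (nat_lit 29726470322) (nat_lit 76) (nat_lit 7329440846) (nat_lit 13) (nat_lit 5) (nat_lit 16) (nat_lit 5) (nat_lit 14) (nat_lit 4) (nat_lit 384) (nat_lit 278) (nat_lit 118)) (XT.lf (nat_lit 0) (nat_lit 31734725807) (nat_lit 228) (nat_lit 17676170326) (nat_lit 76) (nat_lit 15083452150) (nat_lit 13) (nat_lit 5) (nat_lit 16) (nat_lit 5) (nat_lit 14) (nat_lit 4) (nat_lit 385) (nat_lit 278) (nat_lit 117))))) (XT.nd (nat_lit 234) (nat_lit 0) (nat_lit 0) (XT.nd (nat_lit 78) (nat_lit 76) (nat_lit 0) (XT.lf (nat_lit 0) (nat_lit 37855933862) (nat_lit 228) (nat_lit 5270798500) (nat_lit 76) (nat_lit 23067555521) (nat_lit 13) (nat_lit 5) (nat_lit 16) (nat_lit 5) (nat_lit 14) (nat_lit 4) (nat_lit 386) (nat_lit 278)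 (nat_lit 116)) (XT.nd (nat_lit 78) (nat_lit 0) (nat_lit 0) (XT.lf (nat_lit 0) (nat_lit 7649759154) (nat_lit 76) (nat_lit 36580872162) (nat_lit 152) (nat_lit 23712502370) (nat_lit 12) (nat_lit 5) (nat_lit 13) (nat_lit 5) (nat_lit 14) (nat_lit 4) (nat_lit 387) (nat_lit 278) (nat_lit 115)) (XT.lf (nat_lit 0) (nat_lit 21059791332) (nat_lit 76) (nat_lit 29786369815) (nat_lit 152) (nat_lit 18896799480) (nat_lit 12) (nat_lit 5) (nat_lit 13) (nat_lit 5) (nat_lit 14) (nat_lit 4) (nat_lit 388) (nat_lit 278) (nat_lit 114)))) (XT.nd (nat_lit 78) (nat_lit 0) (nat_lit 0) (XT.lf (nat_lit 0) (nat_lit 34866116311) (nat_lit 76) (nat_lit 22790513106) (nat_lit 152) (nat_lit 13940262184) (nat_lit 12) (nat_lit 5) (nat_lit 13) (nat_lit 5) (nat_lit 14) (nat_lit 4) (nat_lit 389) (nat_lit 278) (nat_lit 113)) (XT.nd (nat_lit 78) (nat_lit 0) (nat_lit 0) (XT.lf (nat_lit 0) (nat_lit 49080797871) (nat_lit 76) (nat_lit 15587189151)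 (nat_lit 152) (nat_lit 8838559529) (nat_lit 12) (nat_lit 5) (nat_lit 13) (nat_lit 5) (nat_lit 14) (nat_lit 4) (nat_lit 390) (nat_lit 278) (nat_lit 112)) (XT.lf (nat_lit 0) (nat_lit 63716256607) (nat_lit 76) (nat_lit 8170103784) (nat_lit 152) (nat_lit 3587233716) (nat_lit 12) (nat_lit 5) (nat_lit 13) (nat_lit 5) (nat_lit 14) (nat_lit 4) (nat_lit 391) (nat_lit 278) (nat_lit 111)))))) (XT.nd (nat_lit 390) (nat_lit 836) (nat_lit 0) (XT.nd (nat_lit 156) (nat_lit 0) (nat_lit 0) (XT.nd (nat_lit 78) (nat_lit 0) (nat_lit 0) (XT.lf (nat_lit 0) (nat_lit 602638044) (nat_lit 0) (nat_lit 602638044) (nat_lit 836) (nat_lit 2810903062) (nat_lit 192) (nat_lit 5) (nat_lit 192) (nat_lit 3) (nat_lit 203) (nat_lit 3) (nat_lit 279) (nat_lit 279) (nat_lit 222)) (XT.lf (nat_lit 0) (nat_lit 3539628946) (nat_lit 836) (nat_lit 3437191406) (nat_lit 912) (nat_lit 1140208762) (nat_lit 192) (nat_lit 5) (nat_lit 203) (nat_lit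 3) (nat_lit 204) (nat_lit 5) (nat_lit 280) (nat_lit 279) (nat_lit 221))) (XT.nd (nat_lit 78) (nat_lit 0) (nat_lit 0) (XT.lf (nat_lit 76) (nat_lit 20159884) (nat_lit 0) (nat_lit 4652530970) (nat_lit 912) (nat_lit 3532563946) (nat_lit 193) (nat_lit 5) (nat_lit 192) (nat_lit 5) (nat_lit 204) (nat_lit 5) (nat_lit 281) (nat_lit 279) (nat_lit 220)) (XT.nd (nat_lit 78) (nat_lit 0) (nat_lit 76) (XT.lf (nat_lit 76) (nat_lit 3629217073) (nat_lit 0) (nat_lit 2204229753) (nat_lit 912) (nat_lit 2462984059) (nat_lit 193) (nat_lit 5) (nat_lit 192) (nat_lit 5) (nat_lit 204) (nat_lit 5) (nat_lit 282) (nat_lit 279) (nat_lit 219)) (XT.lf (nat_lit 0) (nat_lit 6992438322) (nat_lit 836) (nat_lit 1070146284) (nat_lit 912) (nat_lit 328966616) (nat_lit 193) (nat_lit 5) (nat_lit 204) (nat_lit 5) (nat_lit 205) (nat_lit 5) (nat_lit 283) (nat_lit 279) (nat_lit 218))))) (XT.nd (nat_lit 234) (nat_lit 0) (nat_lit 76) (XT.nd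 (nat_lit 78) (nat_lit 912) (nat_lit 0) (XT.lf (nat_lit 76) (nat_lit 2641943823) (nat_lit 0) (nat_lit 5552990963) (nat_lit 912) (nat_lit 294436437) (nat_lit 194) (nat_lit 5) (nat_lit 193) (nat_lit 5) (nat_lit 205) (nat_lit 5) (nat_lit 284) (nat_lit 279) (nat_lit 217)) (XT.nd (nat_lit 78) (nat_lit 0) (nat_lit 0) (XT.lf (nat_lit 0) (nat_lit 799782126) (nat_lit 912) (nat_lit 2133938861) (nat_lit 988) (nat_lit 5657077754) (nat_lit 181) (nat_lit 5) (nat_lit 193) (nat_lit 5) (nat_lit 194) (nat_lit 5) (nat_lit 285) (nat_lit 279) (nat_lit 216)) (XT.lf (nat_lit 76) (nat_lit 1698605687) (nat_lit 0) (nat_lit 201685910) (nat_lit 988) (nat_lit 6795607500) (nat_lit 182) (nat_lit 5) (nat_lit 181) (nat_lit 5) (nat_lit 194) (nat_lit 5) (nat_lit 286) (nat_lit 279) (nat_lit 215)))) (XT.nd (nat_lit 78) (nat_lit 0) (nat_lit 0) (XT.lf (nat_lit 0) (nat_lit 3044736746) (nat_lit 912) (nat_lit 3162628782) (nat_lit 988)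 (nat_lit 2596555380) (nat_lit 182) (nat_lit 5) (nat_lit 194) (nat_lit 5) (nat_lit 195) (nat_lit 5) (nat_lit 287) (nat_lit 279) (nat_lit 214)) (XT.nd (nat_lit 78) (nat_lit 0) (nat_lit 0) (XT.lf (nat_lit 76) (nat_lit 777267021) (nat_lit 0) (nat_lit 3420811166) (nat_lit 988) (nat_lit 4717961555) (nat_lit 183) (nat_lit 5) (nat_lit 182) (nat_lit 5) (nat_lit 195) (nat_lit 5) (nat_lit 288) (nat_lit 279) (nat_lit 213)) (XT.lf (nat_lit 76) (nat_lit 4877436623) (nat_lit 0) (nat_lit 506412022) (nat_lit 988) (nat_lit 3647829174) (nat_lit 183) (nat_lit 5) (nat_lit 182) (nat_lit 5) (nat_lit 195) (nat_lit 5) (nat_lit 289) (nat_lit 279) (nat_lit 212))))))) (XT.nd (nat_lit 858) (nat_lit 3268) (nat_lit 0) (XT.nd (nat_lit 390) (nat_lit 1976) (nat_lit 0) (XT.nd (nat_lit 156) (nat_lit 912) (nat_lit 0) (XT.nd (nat_lit 78) (nat_lit 0) (nat_lit 0) (XT.lf (nat_lit 0) (nat_lit 6596171521) (nat_lit 912) (nat_lit 97439642)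 (nat_lit 988) (nat_lit 2457532401) (nat_lit 183) (nat_lit 5) (nat_lit 195) (nat_lit 5) (nat_lit 196) (nat_lit 5) (nat_lit 290) (nat_lit 279) (nat_lit 211)) (XT.lf (nat_lit 76) (nat_lit 4134123204) (nat_lit 0) (nat_lit 3723447792) (nat_lit 988) (nat_lit 1416326421) (nat_lit 184) (nat_lit 5) (nat_lit 183) (nat_lit 5) (nat_lit 196) (nat_lit 5) (nat_lit 291) (nat_lit 279) (nat_lit 210))) (XT.nd (nat_lit 78) (nat_lit 912) (nat_lit 0) (XT.lf (nat_lit 76) (nat_lit 8472251518) (nat_lit 0) (nat_lit 654216382) (nat_lit 988) (nat_lit 274859181) (nat_lit 184) (nat_lit 5) (nat_lit 183) (nat_lit 5) (nat_lit 196) (nat_lit 5) (nat_lit 292) (nat_lit 279) (nat_lit 209)) (XT.nd (nat_lit 78) (nat_lit 0) (nat_lit 0) (XT.lf (nat_lit 0) (nat_lit 910177455) (nat_lit 988) (nat_lit 6112849656) (nat_lit 1064) (nat_lit 2508563710) (nat_lit 171) (nat_lit 5) (nat_lit 184) (nat_lit 5) (nat_lit 185) (nat_lit 5) (nat_lit 293)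 (nat_lit 279) (nat_lit 208)) (XT.lf (nat_lit 0) (nat_lit 2111156532) (nat_lit 988) (nat_lit 1781988663) (nat_lit 1064) (nat_lit 5773033994) (nat_lit 171) (nat_lit 5) (nat_lit 184) (nat_lit 5) (nat_lit 185) (nat_lit 5) (nat_lit 294) (nat_lit 279) (nat_lit 207))))) (XT.nd (nat_lit 234) (nat_lit 1064) (nat_lit 0) (XT.nd (nat_lit 78) (nat_lit 912) (nat_lit 0) (XT.lf (nat_lit 76) (nat_lit 2709085951) (nat_lit 0) (nat_lit 635958884) (nat_lit 1064) (nat_lit 6459927594) (nat_lit 172) (nat_lit 5) (nat_lit 171) (nat_lit 5) (nat_lit 185) (nat_lit 5) (nat_lit 295) (nat_lit 279) (nat_lit 206)) (XT.nd (nat_lit 78) (nat_lit 988) (nat_lit 0) (XT.lf (nat_lit 0) (nat_lit 4631790957) (nat_lit 988) (nat_lit 2625623627) (nat_lit 76) (nat_lit 2690111121) (nat_lit 172) (nat_lit 5) (nat_lit 185) (nat_lit 5) (nat_lit 173) (nat_lit 5) (nat_lit 296) (nat_lit 279) (nat_lit 205)) (XT.lf (nat_lit 0) (nat_lit 1988593442)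 (nat_lit 988) (nat_lit 3966319647) (nat_lit 1064) (nat_lit 4139578674) (nat_lit 159) (nat_lit 5) (nat_lit 172) (nat_lit 5) (nat_lit 173) (nat_lit 5) (nat_lit 297) (nat_lit 279) (nat_lit 204)))) (XT.nd (nat_lit 78) (nat_lit 1064) (nat_lit 0) (XT.lf (nat_lit 0) (nat_lit 6772620244) (nat_lit 988) (nat_lit 544573024) (nat_lit 1064) (nat_lit 2928756975) (nat_lit 159) (nat_lit 5) (nat_lit 172) (nat_lit 5) (nat_lit 173) (nat_lit 5) (nat_lit 298) (nat_lit 279) (nat_lit 203)) (XT.nd (nat_lit 78) (nat_lit 0) (nat_lit 0) (XT.lf (nat_lit 0) (nat_lit 1271704815) (nat_lit 1064) (nat_lit 7463286949) (nat_lit 1140) (nat_lit 1666586625) (nat_lit 145) (nat_lit 5) (nat_lit 159) (nat_lit 5) (nat_lit 160) (nat_lit 5) (nat_lit 299) (nat_lit 279) (nat_lit 202)) (XT.lf (nat_lit 0) (nat_lit 6202331602) (nat_lit 1064) (nat_lit 4007734727) (nat_lit 1140) (nat_lit 351430290) (nat_lit 145) (nat_lit 5) (nat_lit 159) (nat_lit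 5) (nat_lit 160) (nat_lit 5) (nat_lit 300) (nat_lit 279) (nat_lit 201)))))) (XT.nd (nat_lit 468) (nat_lit 1444) (nat_lit 0) (XT.nd (nat_lit 234) (nat_lit 1064) (nat_lit 0) (XT.nd (nat_lit 78) (nat_lit 0) (nat_lit 0) (XT.lf (nat_lit 0) (nat_lit 533055816) (nat_lit 684) (nat_lit 430443125) (nat_lit 760) (nat_lit 9763087201) (nat_lit 135) (nat_lit 5) (nat_lit 144) (nat_lit 5) (nat_lit 145) (nat_lit 5) (nat_lit 301) (nat_lit 279) (nat_lit 200)) (XT.nd (nat_lit 78) (nat_lit 0) (nat_lit 0) (XT.lf (nat_lit 0) (nat_lit 2361864929) (nat_lit 760) (nat_lit 5292074593) (nat_lit 76) (nat_lit 3241110991) (nat_lit 135) (nat_lit 5) (nat_lit 145) (nat_lit 5) (nat_lit 136) (nat_lit 5) (nat_lit 302) (nat_lit 279) (nat_lit 199)) (XT.lf (nat_lit 0) (nat_lit 3782479030) (nat_lit 760) (nat_lit 270140214) (nat_lit 76) (nat_lit 7016597080) (nat_lit 135) (nat_lit 5) (nat_lit 145) (nat_lit 5) (nat_lit 136) (nat_lit 5)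 (nat_lit 303) (nat_lit 279) (nat_lit 198)))) (XT.nd (nat_lit 78) (nat_lit 532) (nat_lit 0) (XT.lf (nat_lit 0) (nat_lit 4977936052) (nat_lit 532) (nat_lit 292359789) (nat_lit 608) (nat_lit 5977628516) (nat_lit 128) (nat_lit 5) (nat_lit 135) (nat_lit 5) (nat_lit 136) (nat_lit 5) (nat_lit 304) (nat_lit 279) (nat_lit 197)) (XT.nd (nat_lit 78) (nat_lit 532) (nat_lit 0) (XT.lf (nat_lit 0) (nat_lit 6817139903) (nat_lit 608) (nat_lit 1099557905) (nat_lit 76) (nat_lit 3514917226) (nat_lit 128) (nat_lit 5) (nat_lit 136) (nat_lit 5) (nat_lit 129) (nat_lit 5) (nat_lit 305) (nat_lit 279) (nat_lit 196)) (XT.lf (nat_lit 0) (nat_lit 4285164739) (nat_lit 532) (nat_lit 4147192278) (nat_lit 608) (nat_lit 3187852017) (nat_lit 121) (nat_lit 5) (nat_lit 128) (nat_lit 5) (nat_lit 129) (nat_lit 5) (nat_lit 306) (nat_lit 279) (nat_lit 195))))) (XT.nd (nat_lit 234) (nat_lit 912) (nat_lit 0) (XT.nd (nat_lit 78) (nat_lit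 532) (nat_lit 0) (XT.lf (nat_lit 0) (nat_lit 9832635133) (nat_lit 532) (nat_lit 252819501) (nat_lit 608) (nat_lit 1729373630) (nat_lit 121) (nat_lit 5) (nat_lit 128) (nat_lit 5) (nat_lit 129) (nat_lit 5) (nat_lit 307) (nat_lit 279) (nat_lit 194)) (XT.nd (nat_lit 78) (nat_lit 76) (nat_lit 0) (XT.lf (nat_lit 0) (nat_lit 3542853762) (nat_lit 456) (nat_lit 8294430661) (nat_lit 532) (nat_lit 176576141) (nat_lit 115) (nat_lit 5) (nat_lit 121) (nat_lit 5) (nat_lit 122) (nat_lit 5) (nat_lit 308) (nat_lit 279) (nat_lit 193)) (XT.lf (nat_lit 0) (nat_lit 1396872757) (nat_lit 532) (nat_lit 2982004025) (nat_lit 76) (nat_lit 7839567675) (nat_lit 114) (nat_lit 5) (nat_lit 121) (nat_lit 5) (nat_lit 115) (nat_lit 5) (nat_lit 309) (nat_lit 279) (nat_lit 192)))) (XT.nd (nat_lit 78) (nat_lit 456) (nat_lit 0) (XT.lf (nat_lit 0) (nat_lit 2701621902) (nat_lit 456) (nat_lit 318046123) (nat_lit 532) (nat_lit 9409319176)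 (nat_lit 108) (nat_lit 5) (nat_lit 114) (nat_lit 5) (nat_lit 115) (nat_lit 5) (nat_lit 310) (nat_lit 279) (nat_lit 191)) (XT.nd (nat_lit 78) (nat_lit 456) (nat_lit 0) (XT.lf (nat_lit 0) (nat_lit 4738810630) (nat_lit 532) (nat_lit 4086947179) (nat_lit 76) (nat_lit 3818701758) (nat_lit 108) (nat_lit 5) (nat_lit 115) (nat_lit 5) (nat_lit 109) (nat_lit 5) (nat_lit 311) (nat_lit 279) (nat_lit 190)) (XT.lf (nat_lit 0) (nat_lit 1732524880) (nat_lit 456) (nat_lit 4777489140) (nat_lit 532) (nat_lit 6356409471) (nat_lit 102) (nat_lit 5) (nat_lit 108) (nat_lit 5) (nat_lit 109) (nat_lit 5) (nat_lit 312) (nat_lit 279) (nat_lit 189))))))))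
noncomputable def xc164 : XT := (XT.nd (nat_lit 1716) (nat_lit 2204) (nat_lit 0) (XT.nd (nat_lit 858) (nat_lit 1368) (nat_lit 0) (XT.nd (nat_lit 390) (nat_lit 1140) (nat_lit 0) (XT.nd (nat_lit 156) (nat_lit 456) (nat_lit 0) (XT.nd (nat_lit 78) (nat_lit 456) (nat_lit 0) (XT.lf (nat_lit 0) (nat_lit 7789746171) (nat_lit 456) (nat_lit 566925412) (nat_lit 532) (nat_lit 4737745970) (nat_lit 102) (nat_lit 5) (nat_lit 108) (nat_lit 5) (nat_lit 109) (nat_lit 5) (nat_lit 313) (nat_lit 279) (nat_lit 188)) (XT.lf (nat_lit 0) (nat_lit 655393613) (nat_lit 456) (nat_lit 9627458836) (nat_lit 532) (nat_lit 3045714853) (nat_lit 96) (nat_lit 5) (nat_lit 102) (nat_lit 5) (nat_lit 103) (nat_lit 5) (nat_lit 314) (nat_lit 279) (nat_lit 187))) (XT.nd (nat_lit 78) (nat_lit 456) (nat_lit 0) (XT.lf (nat_lit 0) (nat_lit 6876889115) (nat_lit 456) (nat_lit 5430979316) (nat_lit 532) (nat_lit 1260680042) (nat_lit 96) (nat_lit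 5) (nat_lit 102) (nat_lit 5) (nat_lit 103) (nat_lit 5) (nat_lit 315) (nat_lit 279) (nat_lit 186)) (XT.nd (nat_lit 78) (nat_lit 380) (nat_lit 0) (XT.lf (nat_lit 0) (nat_lit 548869744) (nat_lit 532) (nat_lit 556437808) (nat_lit 76) (nat_lit 12710823859) (nat_lit 95) (nat_lit 5) (nat_lit 102) (nat_lit 5) (nat_lit 96) (nat_lit 5) (nat_lit 316) (nat_lit 279) (nat_lit 185)) (XT.lf (nat_lit 0) (nat_lit 2459170547) (nat_lit 456) (nat_lit 8257678389) (nat_lit 76) (nat_lit 3351799513) (nat_lit 90) (nat_lit 5) (nat_lit 96) (nat_lit 5) (nat_lit 91) (nat_lit 5) (nat_lit 317) (nat_lit 279) (nat_lit 184))))) (XT.nd (nat_lit 234) (nat_lit 760) (nat_lit 0) (XT.nd (nat_lit 78) (nat_lit 380) (nat_lit 0) (XT.lf (nat_lit 0) (nat_lit 4426448651) (nat_lit 456) (nat_lit 1978686280) (nat_lit 76) (nat_lit 7923650156) (nat_lit 90) (nat_lit 5) (nat_lit 96) (nat_lit 5) (nat_lit 91) (nat_lit 5) (nat_lit 318) (nat_lit 279)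 (nat_lit 183)) (XT.nd (nat_lit 78) (nat_lit 0) (nat_lit 0) (XT.lf (nat_lit 0) (nat_lit 4558283173) (nat_lit 380) (nat_lit 1921822693) (nat_lit 456) (nat_lit 8115832277) (nat_lit 85) (nat_lit 5) (nat_lit 90) (nat_lit 5) (nat_lit 91) (nat_lit 5) (nat_lit 319) (nat_lit 279) (nat_lit 182)) (XT.lf (nat_lit 0) (nat_lit 8625277205) (nat_lit 456) (nat_lit 3584336440) (nat_lit 76) (nat_lit 2660627190) (nat_lit 85) (nat_lit 5) (nat_lit 91) (nat_lit 5) (nat_lit 86) (nat_lit 5) (nat_lit 320) (nat_lit 279) (nat_lit 181)))) (XT.nd (nat_lit 78) (nat_lit 380) (nat_lit 0) (XT.lf (nat_lit 0) (nat_lit 3084679340) (nat_lit 380) (nat_lit 7783085892) (nat_lit 456) (nat_lit 4284049770) (nat_lit 80) (nat_lit 5) (nat_lit 85) (nat_lit 5) (nat_lit 86) (nat_lit 5) (nat_lit 321) (nat_lit 279) (nat_lit 180)) (XT.nd (nat_lit 78) (nat_lit 380) (nat_lit 0) (XT.lf (nat_lit 0) (nat_lit 10008360354) (nat_lit 380) (nat_lit 3189920414)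 (nat_lit 456) (nat_lit 2242963369) (nat_lit 80) (nat_lit 5) (nat_lit 85) (nat_lit 5) (nat_lit 86) (nat_lit 5) (nat_lit 322) (nat_lit 279) (nat_lit 179)) (XT.lf (nat_lit 0) (nat_lit 1394006497) (nat_lit 380) (nat_lit 14217894505) (nat_lit 456) (nat_lit 127088914) (nat_lit 75) (nat_lit 5) (nat_lit 80) (nat_lit 5) (nat_lit 81) (nat_lit 5) (nat_lit 323) (nat_lit 279) (nat_lit 178)))))) (XT.nd (nat_lit 390) (nat_lit 684) (nat_lit 0) (XT.nd (nat_lit 156) (nat_lit 608) (nat_lit 0) (XT.nd (nat_lit 78) (nat_lit 0) (nat_lit 0) (XT.lf (nat_lit 0) (nat_lit 2084263193) (nat_lit 456) (nat_lit 7577722903) (nat_lit 76) (nat_lit 6380956446) (nat_lit 74) (nat_lit 5) (nat_lit 80) (nat_lit 5) (nat_lit 75) (nat_lit 5) (nat_lit 324) (nat_lit 279) (nat_lit 177)) (XT.lf (nat_lit 0) (nat_lit 4344897048) (nat_lit 456) (nat_lit 627070653) (nat_lit 76) (nat_lit 11384470379) (nat_lit 74) (nat_lit 5) (nat_lit 80) (nat_lit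 5) (nat_lit 75) (nat_lit 5) (nat_lit 325) (nat_lit 279) (nat_lit 176))) (XT.nd (nat_lit 78) (nat_lit 304) (nat_lit 0) (XT.lf (nat_lit 0) (nat_lit 6643915085) (nat_lit 304) (nat_lit 79218213) (nat_lit 380) (nat_lit 9954737847) (nat_lit 70) (nat_lit 5) (nat_lit 74) (nat_lit 5) (nat_lit 75) (nat_lit 5) (nat_lit 326) (nat_lit 279) (nat_lit 175)) (XT.nd (nat_lit 78) (nat_lit 304) (nat_lit 0) (XT.lf (nat_lit 0) (nat_lit 9212914822) (nat_lit 380) (nat_lit 2928678695) (nat_lit 76) (nat_lit 4866173141) (nat_lit 70) (nat_lit 5) (nat_lit 75) (nat_lit 5) (nat_lit 71) (nat_lit 5) (nat_lit 327) (nat_lit 279) (nat_lit 174)) (XT.lf (nat_lit 0) (nat_lit 4458436968) (nat_lit 304) (nat_lit 7349120341) (nat_lit 380) (nat_lit 5539121361) (nat_lit 66) (nat_lit 5) (nat_lit 70) (nat_lit 5) (nat_lit 71) (nat_lit 5) (nat_lit 328) (nat_lit 279) (nat_lit 173))))) (XT.nd (nat_lit 234) (nat_lit 304) (nat_lit 0) (XT.nd (nat_lit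 78) (nat_lit 380) (nat_lit 0) (XT.lf (nat_lit 0) (nat_lit 12109837217) (nat_lit 304) (nat_lit 2386527259) (nat_lit 380) (nat_lit 3198927748) (nat_lit 66) (nat_lit 5) (nat_lit 70) (nat_lit 5) (nat_lit 71) (nat_lit 5) (nat_lit 329) (nat_lit 279) (nat_lit 172)) (XT.nd (nat_lit 78) (nat_lit 76) (nat_lit 0) (XT.lf (nat_lit 0) (nat_lit 1930666827) (nat_lit 304) (nat_lit 15367020569) (nat_lit 380) (nat_lit 755744487) (nat_lit 62) (nat_lit 5) (nat_lit 66) (nat_lit 5) (nat_lit 67) (nat_lit 5) (nat_lit 330) (nat_lit 279) (nat_lit 171)) (XT.lf (nat_lit 0) (nat_lit 1794128533) (nat_lit 380) (nat_lit 8692305054) (nat_lit 76) (nat_lit 7933363723) (nat_lit 61) (nat_lit 5) (nat_lit 66) (nat_lit 5) (nat_lit 62) (nat_lit 5) (nat_lit 331) (nat_lit 279) (nat_lit 170)))) (XT.nd (nat_lit 78) (nat_lit 304) (nat_lit 0) (XT.lf (nat_lit 0) (nat_lit 4392844889) (nat_lit 380) (nat_lit 1063246279) (nat_lit 76) (nat_lit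 13341233220) (nat_lit 61) (nat_lit 5) (nat_lit 66) (nat_lit 5) (nat_lit 62) (nat_lit 5) (nat_lit 332) (nat_lit 279) (nat_lit 169)) (XT.nd (nat_lit 78) (nat_lit 0) (nat_lit 0) (XT.lf (nat_lit 0) (nat_lit 6913244414) (nat_lit 304) (nat_lit 210632520) (nat_lit 380) (nat_lit 12060690371) (nat_lit 57) (nat_lit 5) (nat_lit 61) (nat_lit 5) (nat_lit 62) (nat_lit 5) (nat_lit 333) (nat_lit 279) (nat_lit 168)) (XT.lf (nat_lit 0) (nat_lit 9985649070) (nat_lit 380) (nat_lit 4498814830) (nat_lit 76) (nat_lit 5097519387) (nat_lit 57) (nat_lit 5) (nat_lit 62) (nat_lit 5) (nat_lit 58) (nat_lit 5) (nat_lit 334) (nat_lit 279) (nat_lit 167))))))) (XT.nd (nat_lit 858) (nat_lit 836) (nat_lit 0) (XT.nd (nat_lit 390) (nat_lit 760) (nat_lit 0) (XT.nd (nat_lit 156) (nat_lit 380) (nat_lit 0) (XT.nd (nat_lit 78) (nat_lit 0) (nat_lit 0) (XT.lf (nat_lit 0) (nat_lit 3558179049) (nat_lit 228) (nat_lit 9399787695) (nat_lit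 304) (nat_lit 7032633702) (nat_lit 54) (nat_lit 5) (nat_lit 57) (nat_lit 5) (nat_lit 58) (nat_lit 5) (nat_lit 335) (nat_lit 279) (nat_lit 166)) (XT.lf (nat_lit 0) (nat_lit 11933224421) (nat_lit 228) (nat_lit 4120247363) (nat_lit 304) (nat_lit 4357002699) (nat_lit 54) (nat_lit 5) (nat_lit 57) (nat_lit 5) (nat_lit 58) (nat_lit 5) (nat_lit 336) (nat_lit 279) (nat_lit 165))) (XT.nd (nat_lit 78) (nat_lit 380) (nat_lit 0) (XT.lf (nat_lit 0) (nat_lit 19243387612) (nat_lit 304) (nat_lit 311816051) (nat_lit 76) (nat_lit 1287713060) (nat_lit 54) (nat_lit 5) (nat_lit 58) (nat_lit 5) (nat_lit 55) (nat_lit 5) (nat_lit 337) (nat_lit 279) (nat_lit 164)) (XT.nd (nat_lit 78) (nat_lit 0) (nat_lit 0) (XT.lf (nat_lit 0) (nat_lit 1326364931) (nat_lit 380) (nat_lit 13095507992) (nat_lit 76) (nat_lit 6862821638) (nat_lit 49) (nat_lit 5) (nat_lit 54) (nat_lit 5) (nat_lit 50) (nat_lit 5) (nat_lit 338) (nat_lit 279)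 (nat_lit 163)) (XT.lf (nat_lit 0) (nat_lit 4300316911) (nat_lit 380) (nat_lit 4819237306) (nat_lit 76) (nat_lit 12619940299) (nat_lit 49) (nat_lit 5) (nat_lit 54) (nat_lit 5) (nat_lit 50) (nat_lit 5) (nat_lit 339) (nat_lit 279) (nat_lit 162))))) (XT.nd (nat_lit 234) (nat_lit 532) (nat_lit 0) (XT.nd (nat_lit 78) (nat_lit 0) (nat_lit 0) (XT.lf (nat_lit 0) (nat_lit 3763866014) (nat_lit 228) (nat_lit 3625365282) (nat_lit 304) (nat_lit 14817951163) (nat_lit 46) (nat_lit 5) (nat_lit 49) (nat_lit 5) (nat_lit 50) (nat_lit 5) (nat_lit 340) (nat_lit 279) (nat_lit 161)) (XT.nd (nat_lit 78) (nat_lit 0) (nat_lit 0) (XT.lf (nat_lit 0) (nat_lit 10629190796) (nat_lit 304) (nat_lit 10019256491) (nat_lit 76) (nat_lit 2038718251) (nat_lit 46) (nat_lit 5) (nat_lit 50) (nat_lit 5) (nat_lit 47) (nat_lit 5) (nat_lit 341) (nat_lit 279) (nat_lit 160)) (XT.lf (nat_lit 0) (nat_lit 13992226625) (nat_lit 304) (nat_lit 1392968432)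 (nat_lit 76) (nat_lit 7795592093) (nat_lit 46) (nat_lit 5) (nat_lit 50) (nat_lit 5) (nat_lit 47) (nat_lit 5) (nat_lit 342) (nat_lit 279) (nat_lit 159)))) (XT.nd (nat_lit 78) (nat_lit 304) (nat_lit 0) (XT.lf (nat_lit 0) (nat_lit 7626760050) (nat_lit 228) (nat_lit 9892981163) (nat_lit 304) (nat_lit 6167583489) (nat_lit 43) (nat_lit 5) (nat_lit 46) (nat_lit 5) (nat_lit 47) (nat_lit 5) (nat_lit 343) (nat_lit 279) (nat_lit 158)) (XT.nd (nat_lit 78) (nat_lit 304) (nat_lit 0) (XT.lf (nat_lit 0) (nat_lit 16931600058) (nat_lit 228) (nat_lit 4225970385) (nat_lit 304) (nat_lit 3051367746) (nat_lit 43) (nat_lit 5) (nat_lit 46) (nat_lit 5) (nat_lit 47) (nat_lit 5) (nat_lit 344) (nat_lit 279) (nat_lit 157)) (XT.lf (nat_lit 0) (nat_lit 178666494) (nat_lit 304) (nat_lit 22972618430) (nat_lit 76) (nat_lit 1594180500) (nat_lit 39) (nat_lit 5) (nat_lit 43) (nat_lit 5) (nat_lit 40) (nat_lit 5) (nat_lit 345) (nat_lit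 279) (nat_lit 156)))))) (XT.nd (nat_lit 468) (nat_lit 456) (nat_lit 0) (XT.nd (nat_lit 234) (nat_lit 152) (nat_lit 0) (XT.nd (nat_lit 78) (nat_lit 228) (nat_lit 0) (XT.lf (nat_lit 0) (nat_lit 3551023781) (nat_lit 304) (nat_lit 14138888160) (nat_lit 76) (nat_lit 7604080899) (nat_lit 39) (nat_lit 5) (nat_lit 43) (nat_lit 5) (nat_lit 40) (nat_lit 5) (nat_lit 346) (nat_lit 279) (nat_lit 155)) (XT.nd (nat_lit 78) (nat_lit 228) (nat_lit 0) (XT.lf (nat_lit 0) (nat_lit 7015518542) (nat_lit 304) (nat_lit 5053679784) (nat_lit 76) (nat_lit 13790061620) (nat_lit 39) (nat_lit 5) (nat_lit 43) (nat_lit 5) (nat_lit 40) (nat_lit 5) (nat_lit 347) (nat_lit 279) (nat_lit 154)) (XT.lf (nat_lit 0) (nat_lit 4376343452) (nat_lit 228) (nat_lit 6240902646) (nat_lit 304) (nat_lit 15823252526) (nat_lit 36) (nat_lit 5) (nat_lit 39) (nat_lit 5) (nat_lit 40) (nat_lit 5) (nat_lit 348) (nat_lit 279) (nat_lit 153)))) (XT.nd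 (nat_lit 78) (nat_lit 152) (nat_lit 0) (XT.lf (nat_lit 0) (nat_lit 14179852074) (nat_lit 228) (nat_lit 189565897) (nat_lit 304) (nat_lit 12668496847) (nat_lit 36) (nat_lit 5) (nat_lit 39) (nat_lit 5) (nat_lit 40) (nat_lit 5) (nat_lit 349) (nat_lit 279) (nat_lit 152)) (XT.nd (nat_lit 78) (nat_lit 152) (nat_lit 0) (XT.lf (nat_lit 0) (nat_lit 18283818087) (nat_lit 304) (nat_lit 3446734013) (nat_lit 76) (nat_lit 5921223283) (nat_lit 36) (nat_lit 5) (nat_lit 40) (nat_lit 5) (nat_lit 37) (nat_lit 5) (nat_lit 350) (nat_lit 279) (nat_lit 151)) (XT.lf (nat_lit 0) (nat_lit 6356618140) (nat_lit 152) (nat_lit 16013829245) (nat_lit 228) (nat_lit 5911971900) (nat_lit 34) (nat_lit 5) (nat_lit 36) (nat_lit 5) (nat_lit 37) (nat_lit 5) (nat_lit 351) (nat_lit 279) (nat_lit 150))))) (XT.nd (nat_lit 234) (nat_lit 152) (nat_lit 0) (XT.nd (nat_lit 78) (nat_lit 304) (nat_lit 0) (XT.lf (nat_lit 0) (nat_lit 16512367815)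 (nat_lit 152) (nat_lit 10094049151) (nat_lit 228) (nat_lit 2324774398) (nat_lit 34) (nat_lit 5) (nat_lit 36) (nat_lit 5) (nat_lit 37) (nat_lit 5) (nat_lit 352) (nat_lit 279) (nat_lit 149)) (XT.nd (nat_lit 78) (nat_lit 228) (nat_lit 0) (XT.lf (nat_lit 0) (nat_lit 1335387567) (nat_lit 228) (nat_lit 2651972088) (nat_lit 76) (nat_lit 25611919837) (nat_lit 33) (nat_lit 5) (nat_lit 36) (nat_lit 5) (nat_lit 34) (nat_lit 5) (nat_lit 353) (nat_lit 279) (nat_lit 148)) (XT.lf (nat_lit 0) (nat_lit 5146264389) (nat_lit 304) (nat_lit 22788035061) (nat_lit 76) (nat_lit 2349801378) (nat_lit 30) (nat_lit 5) (nat_lit 34) (nat_lit 5) (nat_lit 31) (nat_lit 5) (nat_lit 354) (nat_lit 279) (nat_lit 147)))) (XT.nd (nat_lit 78) (nat_lit 152) (nat_lit 0) (XT.lf (nat_lit 0) (nat_lit 9130376558) (nat_lit 304) (nat_lit 13037392949) (nat_lit 76) (nat_lit 8819939889) (nat_lit 30) (nat_lit 5) (nat_lit 34) (nat_lit 5) (nat_lit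 31) (nat_lit 5) (nat_lit 355) (nat_lit 279) (nat_lit 146)) (XT.nd (nat_lit 78) (nat_lit 152) (nat_lit 0) (XT.lf (nat_lit 0) (nat_lit 13226619249) (nat_lit 304) (nat_lit 3005778341) (nat_lit 76) (nat_lit 15480259993) (nat_lit 30) (nat_lit 5) (nat_lit 34) (nat_lit 5) (nat_lit 31) (nat_lit 5) (nat_lit 356) (nat_lit 279) (nat_lit 145)) (XT.lf (nat_lit 0) (nat_lit 7461168522) (nat_lit 152) (nat_lit 10049124496) (nat_lit 228) (nat_lit 14947134182) (nat_lit 28) (nat_lit 5) (nat_lit 30) (nat_lit 5) (nat_lit 31) (nat_lit 5) (nat_lit 357) (nat_lit 279) (nat_lit 144))))))))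
noncomputable def xc165 : XT := (XT.nd (nat_lit 1716) (nat_lit 304) (nat_lit 0) (XT.nd (nat_lit 858) (nat_lit 380) (nat_lit 0) (XT.nd (nat_lit 390) (nat_lit 304) (nat_lit 0) (XT.nd (nat_lit 156) (nat_lit 228) (nat_lit 0) (XT.nd (nat_lit 78) (nat_lit 0) (nat_lit 0) (XT.lf (nat_lit 0) (nat_lit 18292638755) (nat_lit 152) (nat_lit 3653115544) (nat_lit 228) (nat_lit 11278096315) (nat_lit 28) (nat_lit 5) (nat_lit 30) (nat_lit 5) (nat_lit 31) (nat_lit 5) (nat_lit 358) (nat_lit 279) (nat_lit 143)) (XT.lf (nat_lit 0) (nat_lit 26535583595) (nat_lit 228) (nat_lit 4603378975) (nat_lit 76) (nat_lit 2873673799) (nat_lit 28) (nat_lit 5) (nat_lit 31) (nat_lit 5) (nat_lit 29) (nat_lit 5) (nat_lit 359) (nat_lit 279) (nat_lit 142))) (XT.nd (nat_lit 78) (nat_lit 76) (nat_lit 0) (XT.lf (nat_lit 0) (nat_lit 6106646670) (nat_lit 152) (nat_lit 25244625884) (nat_lit 228) (nat_lit 3471176707) (nat_lit 26) (nat_lit 5)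 (nat_lit 28) (nat_lit 5) (nat_lit 29) (nat_lit 5) (nat_lit 360) (nat_lit 279) (nat_lit 141)) (XT.nd (nat_lit 78) (nat_lit 0) (nat_lit 0) (XT.lf (nat_lit 0) (nat_lit 682357025) (nat_lit 228) (nat_lit 18440251693) (nat_lit 76) (nat_lit 16532559180) (nat_lit 25) (nat_lit 5) (nat_lit 28) (nat_lit 5) (nat_lit 26) (nat_lit 5) (nat_lit 361) (nat_lit 279) (nat_lit 140)) (XT.lf (nat_lit 0) (nat_lit 4884239277) (nat_lit 228) (nat_lit 7901163744) (nat_lit 76) (nat_lit 23726636524) (nat_lit 25) (nat_lit 5) (nat_lit 28) (nat_lit 5) (nat_lit 26) (nat_lit 5) (nat_lit 362) (nat_lit 279) (nat_lit 139))))) (XT.nd (nat_lit 234) (nat_lit 152) (nat_lit 0) (XT.nd (nat_lit 78) (nat_lit 0) (nat_lit 0) (XT.lf (nat_lit 0) (nat_lit 3002629353) (nat_lit 152) (nat_lit 6232110515) (nat_lit 228) (nat_lit 28159208178) (nat_lit 23) (nat_lit 5) (nat_lit 25) (nat_lit 5) (nat_lit 26) (nat_lit 5) (nat_lit 363) (nat_lit 279) (nat_lit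 138)) (XT.nd (nat_lit 78) (nat_lit 0) (nat_lit 0) (XT.lf (nat_lit 0) (nat_lit 13795059446) (nat_lit 228) (nat_lit 23920303747) (nat_lit 76) (nat_lit 584578830) (nat_lit 23) (nat_lit 5) (nat_lit 26) (nat_lit 5) (nat_lit 24) (nat_lit 5) (nat_lit 364) (nat_lit 279) (nat_lit 137)) (XT.lf (nat_lit 0) (nat_lit 18547825216) (nat_lit 228) (nat_lit 13206686397) (nat_lit 76) (nat_lit 7476942235) (nat_lit 23) (nat_lit 5) (nat_lit 26) (nat_lit 5) (nat_lit 24) (nat_lit 5) (nat_lit 365) (nat_lit 279) (nat_lit 136)))) (XT.nd (nat_lit 78) (nat_lit 152) (nat_lit 0) (XT.lf (nat_lit 0) (nat_lit 23437283222) (nat_lit 228) (nat_lit 2181198371) (nat_lit 76) (nat_lit 14572613074) (nat_lit 23) (nat_lit 5) (nat_lit 26) (nat_lit 5) (nat_lit 24) (nat_lit 5) (nat_lit 366) (nat_lit 279) (nat_lit 135)) (XT.nd (nat_lit 78) (nat_lit 0) (nat_lit 0) (XT.lf (nat_lit 0) (nat_lit 9348211530) (nat_lit 152) (nat_lit 19209355005)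 (nat_lit 228) (nat_lit 12619440646) (nat_lit 21) (nat_lit 5) (nat_lit 23) (nat_lit 5) (nat_lit 24) (nat_lit 5) (nat_lit 367) (nat_lit 279) (nat_lit 134)) (XT.lf (nat_lit 0) (nat_lit 21259046899) (nat_lit 152) (nat_lit 12588796550) (nat_lit 228) (nat_lit 8344168589) (nat_lit 21) (nat_lit 5) (nat_lit 23) (nat_lit 5) (nat_lit 24) (nat_lit 5) (nat_lit 368) (nat_lit 279) (nat_lit 133)))))) (XT.nd (nat_lit 390) (nat_lit 228) (nat_lit 0) (XT.nd (nat_lit 156) (nat_lit 0) (nat_lit 0) (XT.nd (nat_lit 78) (nat_lit 152) (nat_lit 0) (XT.lf (nat_lit 0) (nat_lit 33518305137) (nat_lit 152) (nat_lit 5773047103) (nat_lit 228) (nat_lit 3946285427) (nat_lit 21) (nat_lit 5) (nat_lit 23) (nat_lit 5) (nat_lit 24) (nat_lit 5) (nat_lit 369) (nat_lit 279) (nat_lit 132)) (XT.lf (nat_lit 0) (nat_lit 596767036) (nat_lit 152) (nat_lit 42473792047) (nat_lit 76) (nat_lit 1243172079) (nat_lit 19) (nat_lit 5) (nat_lit 21) (nat_lit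 5) (nat_lit 20) (nat_lit 5) (nat_lit 370) (nat_lit 279) (nat_lit 131))) (XT.nd (nat_lit 78) (nat_lit 0) (nat_lit 0) (XT.lf (nat_lit 0) (nat_lit 5347736736) (nat_lit 152) (nat_lit 31579942646) (nat_lit 76) (nat_lit 8488733449) (nat_lit 19) (nat_lit 5) (nat_lit 21) (nat_lit 5) (nat_lit 20) (nat_lit 5) (nat_lit 371) (nat_lit 279) (nat_lit 130)) (XT.nd (nat_lit 78) (nat_lit 0) (nat_lit 0) (XT.lf (nat_lit 0) (nat_lit 10236056170) (nat_lit 152) (nat_lit 20367823889) (nat_lit 76) (nat_lit 15948455896) (nat_lit 19) (nat_lit 5) (nat_lit 21) (nat_lit 5) (nat_lit 20) (nat_lit 5) (nat_lit 372) (nat_lit 279) (nat_lit 129)) (XT.lf (nat_lit 0) (nat_lit 15265996687) (nat_lit 152) (nat_lit 8827638779) (nat_lit 76) (nat_lit 23628857624) (nat_lit 19) (nat_lit 5) (nat_lit 21) (nat_lit 5) (nat_lit 20) (nat_lit 5) (nat_lit 373) (nat_lit 279) (nat_lit 128))))) (XT.nd (nat_lit 234) (nat_lit 76) (nat_lit 0) (XT.nd (nat_lit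 78) (nat_lit 0) (nat_lit 0) (XT.lf (nat_lit 0) (nat_lit 3111411180) (nat_lit 152) (nat_lit 17360450986) (nat_lit 228) (nat_lit 28455147271) (nat_lit 17) (nat_lit 5) (nat_lit 19) (nat_lit 5) (nat_lit 20) (nat_lit 5) (nat_lit 374) (nat_lit 279) (nat_lit 127)) (XT.nd (nat_lit 78) (nat_lit 0) (nat_lit 0) (XT.lf (nat_lit 0) (nat_lit 15581614012) (nat_lit 152) (nat_lit 10336614922) (nat_lit 228) (nat_lit 24246907731) (nat_lit 17) (nat_lit 5) (nat_lit 19) (nat_lit 5) (nat_lit 20) (nat_lit 5) (nat_lit 375) (nat_lit 279) (nat_lit 126)) (XT.lf (nat_lit 0) (nat_lit 28418178689) (nat_lit 152) (nat_lit 3105131783) (nat_lit 228) (nat_lit 19917242522) (nat_lit 17) (nat_lit 5) (nat_lit 19) (nat_lit 5) (nat_lit 20) (nat_lit 5) (nat_lit 376) (nat_lit 279) (nat_lit 125)))) (XT.nd (nat_lit 78) (nat_lit 76) (nat_lit 0) (XT.lf (nat_lit 0) (nat_lit 37333726207) (nat_lit 228) (nat_lit 11163773024) (nat_lit 76) (nat_lit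 4255621981) (nat_lit 17) (nat_lit 5) (nat_lit 20) (nat_lit 5) (nat_lit 18) (nat_lit 4) (nat_lit 377) (nat_lit 279) (nat_lit 124)) (XT.nd (nat_lit 78) (nat_lit 0) (nat_lit 0) (XT.lf (nat_lit 0) (nat_lit 1032582993) (nat_lit 76) (nat_lit 42322105523) (nat_lit 152) (nat_lit 10749295649) (nat_lit 16) (nat_lit 5) (nat_lit 17) (nat_lit 5) (nat_lit 18) (nat_lit 4) (nat_lit 378) (nat_lit 279) (nat_lit 123)) (XT.lf (nat_lit 0) (nat_lit 13816339895) (nat_lit 76) (nat_lit 35848295093) (nat_lit 152) (nat_lit 5827491934) (nat_lit 16) (nat_lit 5) (nat_lit 17) (nat_lit 5) (nat_lit 18) (nat_lit 4) (nat_lit 379) (nat_lit 279) (nat_lit 122))))))) (XT.nd (nat_lit 858) (nat_lit 0) (nat_lit 0) (XT.nd (nat_lit 390) (nat_lit 76) (nat_lit 0) (XT.nd (nat_lit 156) (nat_lit 152) (nat_lit 0) (XT.nd (nat_lit 78) (nat_lit 76) (nat_lit 0) (XT.lf (nat_lit 0) (nat_lit 26976486980) (nat_lit 76) (nat_lit 29183143434) (nat_lit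 152) (nat_lit 762415473) (nat_lit 16) (nat_lit 5) (nat_lit 17) (nat_lit 5) (nat_lit 18) (nat_lit 4) (nat_lit 380) (nat_lit 279) (nat_lit 121)) (XT.lf (nat_lit 0) (nat_lit 4363516984) (nat_lit 152) (nat_lit 17913246674) (nat_lit 76) (nat_lit 36116943455) (nat_lit 15) (nat_lit 5) (nat_lit 17) (nat_lit 5) (nat_lit 16) (nat_lit 5) (nat_lit 381) (nat_lit 279) (nat_lit 120))) (XT.nd (nat_lit 78) (nat_lit 152) (nat_lit 0) (XT.lf (nat_lit 0) (nat_lit 9623854352) (nat_lit 152) (nat_lit 5534312056) (nat_lit 76) (nat_lit 44751250850) (nat_lit 15) (nat_lit 5) (nat_lit 17) (nat_lit 5) (nat_lit 16) (nat_lit 5) (nat_lit 382) (nat_lit 279) (nat_lit 119)) (XT.nd (nat_lit 78) (nat_lit 0) (nat_lit 0) (XT.lf (nat_lit 0) (nat_lit 7352871297) (nat_lit 152) (nat_lit 7755879511) (nat_lit 228) (nat_lit 46359849377) (nat_lit 13) (nat_lit 5) (nat_lit 15) (nat_lit 5) (nat_lit 16) (nat_lit 5) (nat_lit 383) (nat_lit 279)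 (nat_lit 118)) (XT.lf (nat_lit 0) (nat_lit 20733582527) (nat_lit 152) (nat_lit 76617683) (nat_lit 228) (nat_lit 42262802037) (nat_lit 13) (nat_lit 5) (nat_lit 15) (nat_lit 5) (nat_lit 16) (nat_lit 5) (nat_lit 384) (nat_lit 279) (nat_lit 117))))) (XT.nd (nat_lit 234) (nat_lit 76) (nat_lit 0) (XT.nd (nat_lit 78) (nat_lit 0) (nat_lit 0) (XT.lf (nat_lit 0) (nat_lit 26754197459) (nat_lit 228) (nat_lit 30291554248) (nat_lit 76) (nat_lit 7677643253) (nat_lit 13) (nat_lit 5) (nat_lit 16) (nat_lit 5) (nat_lit 14) (nat_lit 4) (nat_lit 385) (nat_lit 279) (nat_lit 116)) (XT.nd (nat_lit 78) (nat_lit 0) (nat_lit 0) (XT.lf (nat_lit 0) (nat_lit 32873592211) (nat_lit 228) (nat_lit 17889261083) (nat_lit 76) (nat_lit 15660537445) (nat_lit 13) (nat_lit 5) (nat_lit 16) (nat_lit 5) (nat_lit 14) (nat_lit 4) (nat_lit 386) (nat_lit 279) (nat_lit 115)) (XT.lf (nat_lit 0) (nat_lit 39172995012) (nat_lit 228) (nat_lit 5120966773)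 (nat_lit 76) (nat_lit 23880535323) (nat_lit 13) (nat_lit 5) (nat_lit 16) (nat_lit 5) (nat_lit 14) (nat_lit 4) (nat_lit 387) (nat_lit 279) (nat_lit 114)))) (XT.nd (nat_lit 78) (nat_lit 0) (nat_lit 0) (XT.lf (nat_lit 0) (nat_lit 8184188438) (nat_lit 76) (nat_lit 37552393185) (nat_lit 152) (nat_lit 24239302398) (nat_lit 12) (nat_lit 5) (nat_lit 13) (nat_lit 5) (nat_lit 14) (nat_lit 4) (nat_lit 388) (nat_lit 279) (nat_lit 113)) (XT.nd (nat_lit 78) (nat_lit 0) (nat_lit 0) (XT.lf (nat_lit 0) (nat_lit 21987639935) (nat_lit 76) (nat_lit 30557722908) (nat_lit 152) (nat_lit 19284504392) (nat_lit 12) (nat_lit 5) (nat_lit 13) (nat_lit 5) (nat_lit 14) (nat_lit 4) (nat_lit 389) (nat_lit 279) (nat_lit 112)) (XT.lf (nat_lit 0) (nat_lit 36199531706) (nat_lit 76) (nat_lit 23355550828) (nat_lit 152) (nat_lit 14184490369) (nat_lit 12) (nat_lit 5) (nat_lit 13) (nat_lit 5) (nat_lit 14) (nat_lit 4) (nat_lit 390) (nat_lit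 279) (nat_lit 111)))))) (XT.nd (nat_lit 32370) (nat_lit 0) (nat_lit 12844) (XT.nd (nat_lit 32136) (nat_lit 0) (nat_lit 12768) (XT.nd (nat_lit 31980) (nat_lit 0) (nat_lit 13680) (XT.lf (nat_lit 0) (nat_lit 50832281910) (nat_lit 76) (nat_lit 15939583785) (nat_lit 152) (nat_lit 8934804003) (nat_lit 12) (nat_lit 5) (nat_lit 13) (nat_lit 5) (nat_lit 14) (nat_lit 4) (nat_lit 391) (nat_lit 279) (nat_lit 110)) (XT.nd (nat_lit 78) (nat_lit 0) (nat_lit 0) (XT.lf (nat_lit 0) (nat_lit 1156387996) (nat_lit 0) (nat_lit 1156387996) (nat_lit 836) (nat_lit 1788750373) (nat_lit 192) (nat_lit 5) (nat_lit 192) (nat_lit 3) (nat_lit 203) (nat_lit 3) (nat_lit 280) (nat_lit 280) (nat_lit 220)) (XT.lf (nat_lit 0) (nat_lit 5716094368) (nat_lit 836) (nat_lit 2421941778) (nat_lit 912) (nat_lit 154574358) (nat_lit 192) (nat_lit 5) (nat_lit 203) (nat_lit 3) (nat_lit 204) (nat_lit 5) (nat_lit 281) (nat_lit 280) (nat_lit 219))))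 (XT.nd (nat_lit 78) (nat_lit 912) (nat_lit 0) (XT.lf (nat_lit 76) (nat_lit 1128165684) (nat_lit 0) (nat_lit 5705328148) (nat_lit 912) (nat_lit 1551648306) (nat_lit 193) (nat_lit 5) (nat_lit 192) (nat_lit 5) (nat_lit 204) (nat_lit 5) (nat_lit 282) (nat_lit 280) (nat_lit 218)) (XT.nd (nat_lit 78) (nat_lit 912) (nat_lit 0) (XT.lf (nat_lit 76) (nat_lit 4813240191) (nat_lit 0) (nat_lit 3156979217) (nat_lit 912) (nat_lit 510764302) (nat_lit 193) (nat_lit 5) (nat_lit 192) (nat_lit 5) (nat_lit 204) (nat_lit 5) (nat_lit 283) (nat_lit 280) (nat_lit 217)) (XT.lf (nat_lit 76) (nat_lit 2392260) (nat_lit 0) (nat_lit 510021674) (nat_lit 988) (nat_lit 8068365970) (nat_lit 181) (nat_lit 5) (nat_lit 180) (nat_lit 5) (nat_lit 193) (nat_lit 5) (nat_lit 284) (nat_lit 280) (nat_lit 216))))) (XT.nd (nat_lit 234) (nat_lit 0) (nat_lit 76) (XT.nd (nat_lit 78) (nat_lit 0) (nat_lit 0) (XT.lf (nat_lit 0) (nat_lit 1577784439)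 (nat_lit 912) (nat_lit 4873949600) (nat_lit 988) (nat_lit 2231130287) (nat_lit 181) (nat_lit 5) (nat_lit 193) (nat_lit 5) (nat_lit 194) (nat_lit 5) (nat_lit 285) (nat_lit 280) (nat_lit 215)) (XT.nd (nat_lit 78) (nat_lit 0) (nat_lit 0) (XT.lf (nat_lit 0) (nat_lit 2644296065) (nat_lit 912) (nat_lit 1085349832) (nat_lit 988) (nat_lit 5059386039) (nat_lit 181) (nat_lit 5) (nat_lit 193) (nat_lit 5) (nat_lit 194) (nat_lit 5) (nat_lit 286) (nat_lit 280) (nat_lit 214)) (XT.lf (nat_lit 76) (nat_lit 2851263139) (nat_lit 0) (nat_lit 884123021) (nat_lit 988) (nat_lit 5163314178) (nat_lit 182) (nat_lit 5) (nat_lit 181) (nat_lit 5) (nat_lit 194) (nat_lit 5) (nat_lit 287) (nat_lit 280) (nat_lit 213)))) (XT.nd (nat_lit 78) (nat_lit 0) (nat_lit 0) (XT.lf (nat_lit 0) (nat_lit 4856063289) (nat_lit 912) (nat_lit 2125200020) (nat_lit 988) (nat_lit 2030580394) (nat_lit 182) (nat_lit 5) (nat_lit 194) (nat_lit 5) (nat_lit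 195) (nat_lit 5) (nat_lit 288) (nat_lit 280) (nat_lit 212)) (XT.nd (nat_lit 78) (nat_lit 0) (nat_lit 0) (XT.lf (nat_lit 76) (nat_lit 1921791602) (nat_lit 0) (nat_lit 4082894460) (nat_lit 988) (nat_lit 3123953451) (nat_lit 183) (nat_lit 5) (nat_lit 182) (nat_lit 5) (nat_lit 195) (nat_lit 5) (nat_lit 289) (nat_lit 280) (nat_lit 211)) (XT.lf (nat_lit 76) (nat_lit 6112309790) (nat_lit 0) (nat_lit 1064768421) (nat_lit 988) (nat_lit 2072267010) (nat_lit 183) (nat_lit 5) (nat_lit 182) (nat_lit 5) (nat_lit 195) (nat_lit 5) (nat_lit 290) (nat_lit 280) (nat_lit 210))))))))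
noncomputable def xc166 : XT := (XT.nd (nat_lit 1716) (nat_lit 3876) (nat_lit 0) (XT.nd (nat_lit 858) (nat_lit 2736) (nat_lit 0) (XT.nd (nat_lit 390) (nat_lit 1976) (nat_lit 0) (XT.nd (nat_lit 156) (nat_lit 0) (nat_lit 0) (XT.nd (nat_lit 78) (nat_lit 988) (nat_lit 0) (XT.lf (nat_lit 76) (nat_lit 1033448347) (nat_lit 0) (nat_lit 7349661759) (nat_lit 988) (nat_lit 990690812) (nat_lit 184) (nat_lit 5) (nat_lit 183) (nat_lit 5) (nat_lit 196) (nat_lit 5) (nat_lit 291) (nat_lit 280) (nat_lit 209)) (XT.lf (nat_lit 0) (nat_lit 132663769) (nat_lit 988) (nat_lit 4142146640) (nat_lit 1064) (nat_lit 5226870279) (nat_lit 170) (nat_lit 5) (nat_lit 183) (nat_lit 5) (nat_lit 184) (nat_lit 5) (nat_lit 292) (nat_lit 280) (nat_lit 208))) (XT.nd (nat_lit 78) (nat_lit 0) (nat_lit 76) (XT.lf (nat_lit 76) (nat_lit 153425455) (nat_lit 0) (nat_lit 1087957372) (nat_lit 1064) (nat_lit 8392648315) (nat_lit 171) (nat_lit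 5) (nat_lit 170) (nat_lit 5) (nat_lit 184) (nat_lit 5) (nat_lit 293) (nat_lit 280) (nat_lit 207)) (XT.nd (nat_lit 78) (nat_lit 0) (nat_lit 0) (XT.lf (nat_lit 0) (nat_lit 2417538503) (nat_lit 988) (nat_lit 5150407879) (nat_lit 1064) (nat_lit 2201454093) (nat_lit 171) (nat_lit 5) (nat_lit 184) (nat_lit 5) (nat_lit 185) (nat_lit 5) (nat_lit 294) (nat_lit 280) (nat_lit 206)) (XT.lf (nat_lit 0) (nat_lit 3611438533) (nat_lit 988) (nat_lit 722994666) (nat_lit 1064) (nat_lit 5574995375) (nat_lit 171) (nat_lit 5) (nat_lit 184) (nat_lit 5) (nat_lit 185) (nat_lit 5) (nat_lit 295) (nat_lit 280) (nat_lit 205))))) (XT.nd (nat_lit 234) (nat_lit 1140) (nat_lit 0) (XT.nd (nat_lit 78) (nat_lit 912) (nat_lit 0) (XT.lf (nat_lit 76) (nat_lit 3891905778) (nat_lit 0) (nat_lit 959173619) (nat_lit 1064) (nat_lit 5202349794) (nat_lit 172) (nat_lit 5) (nat_lit 171) (nat_lit 5) (nat_lit 185) (nat_lit 5) (nat_lit 296) (nat_lit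 280) (nat_lit 204)) (XT.nd (nat_lit 78) (nat_lit 988) (nat_lit 0) (XT.lf (nat_lit 0) (nat_lit 6132647284) (nat_lit 988) (nat_lit 1587729035) (nat_lit 76) (nat_lit 2481298745) (nat_lit 172) (nat_lit 5) (nat_lit 185) (nat_lit 5) (nat_lit 173) (nat_lit 5) (nat_lit 297) (nat_lit 280) (nat_lit 203)) (XT.lf (nat_lit 0) (nat_lit 3153966867) (nat_lit 988) (nat_lit 4312457962) (nat_lit 1064) (nat_lit 2887596015) (nat_lit 159) (nat_lit 5) (nat_lit 172) (nat_lit 5) (nat_lit 173) (nat_lit 5) (nat_lit 298) (nat_lit 280) (nat_lit 202)))) (XT.nd (nat_lit 78) (nat_lit 1140) (nat_lit 0) (XT.lf (nat_lit 0) (nat_lit 8049309163) (nat_lit 988) (nat_lit 781442959) (nat_lit 1064) (nat_lit 1680532287) (nat_lit 159) (nat_lit 5) (nat_lit 172) (nat_lit 5) (nat_lit 173) (nat_lit 5) (nat_lit 299) (nat_lit 280) (nat_lit 201)) (XT.nd (nat_lit 78) (nat_lit 76) (nat_lit 0) (XT.lf (nat_lit 0) (nat_lit 2416572915) (nat_lit 1064)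 (nat_lit 7845401372) (nat_lit 1140) (nat_lit 410574295) (nat_lit 145) (nat_lit 5) (nat_lit 159) (nat_lit 5) (nat_lit 160) (nat_lit 5) (nat_lit 300) (nat_lit 280) (nat_lit 200)) (XT.lf (nat_lit 0) (nat_lit 888318329) (nat_lit 1140) (nat_lit 3384285754) (nat_lit 76) (nat_lit 6565595429) (nat_lit 144) (nat_lit 5) (nat_lit 159) (nat_lit 5) (nat_lit 145) (nat_lit 5) (nat_lit 301) (nat_lit 280) (nat_lit 199)))))) (XT.nd (nat_lit 390) (nat_lit 1520) (nat_lit 0) (XT.nd (nat_lit 156) (nat_lit 532) (nat_lit 0) (XT.nd (nat_lit 78) (nat_lit 0) (nat_lit 0) (XT.lf (nat_lit 0) (nat_lit 1640416562) (nat_lit 684) (nat_lit 569495853) (nat_lit 760) (nat_lit 8799082417) (nat_lit 135) (nat_lit 5) (nat_lit 144) (nat_lit 5) (nat_lit 145) (nat_lit 5) (nat_lit 302) (nat_lit 280) (nat_lit 198)) (XT.lf (nat_lit 0) (nat_lit 3613590757) (nat_lit 760) (nat_lit 4351836350) (nat_lit 76) (nat_lit 3218268593) (nat_lit 135) (nat_lit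 5) (nat_lit 145) (nat_lit 5) (nat_lit 136) (nat_lit 5) (nat_lit 303) (nat_lit 280) (nat_lit 197))) (XT.nd (nat_lit 78) (nat_lit 0) (nat_lit 0) (XT.lf (nat_lit 0) (nat_lit 804443935) (nat_lit 532) (nat_lit 4245717884) (nat_lit 608) (nat_lit 6313805487) (nat_lit 128) (nat_lit 5) (nat_lit 135) (nat_lit 5) (nat_lit 136) (nat_lit 5) (nat_lit 304) (nat_lit 280) (nat_lit 196)) (XT.nd (nat_lit 78) (nat_lit 0) (nat_lit 0) (XT.lf (nat_lit 0) (nat_lit 6183804198) (nat_lit 532) (nat_lit 367839651) (nat_lit 608) (nat_lit 4997400431) (nat_lit 128) (nat_lit 5) (nat_lit 135) (nat_lit 5) (nat_lit 136) (nat_lit 5) (nat_lit 305) (nat_lit 280) (nat_lit 195)) (XT.lf (nat_lit 0) (nat_lit 8111554958) (nat_lit 608) (nat_lit 70904719) (nat_lit 76) (nat_lit 3556862477) (nat_lit 128) (nat_lit 5) (nat_lit 136) (nat_lit 5) (nat_lit 129) (nat_lit 5) (nat_lit 306) (nat_lit 280) (nat_lit 194))))) (XT.nd (nat_lit 234) (nat_lit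 456) (nat_lit 0) (XT.nd (nat_lit 78) (nat_lit 532) (nat_lit 0) (XT.lf (nat_lit 0) (nat_lit 5464951370) (nat_lit 532) (nat_lit 4288637612) (nat_lit 608) (nat_lit 2180708286) (nat_lit 121) (nat_lit 5) (nat_lit 128) (nat_lit 5) (nat_lit 129) (nat_lit 5) (nat_lit 307) (nat_lit 280) (nat_lit 193)) (XT.nd (nat_lit 78) (nat_lit 532) (nat_lit 0) (XT.lf (nat_lit 0) (nat_lit 11148227476) (nat_lit 532) (nat_lit 276937646) (nat_lit 608) (nat_lit 710595332) (nat_lit 121) (nat_lit 5) (nat_lit 128) (nat_lit 5) (nat_lit 129) (nat_lit 5) (nat_lit 308) (nat_lit 280) (nat_lit 192)) (XT.lf (nat_lit 0) (nat_lit 850845524) (nat_lit 532) (nat_lit 7656696894) (nat_lit 76) (nat_lit 3833650730) (nat_lit 114) (nat_lit 5) (nat_lit 121) (nat_lit 5) (nat_lit 115) (nat_lit 5) (nat_lit 309) (nat_lit 280) (nat_lit 191)))) (XT.nd (nat_lit 78) (nat_lit 456) (nat_lit 0) (XT.lf (nat_lit 0) (nat_lit 2437973061) (nat_lit 532) (nat_lit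 2035841006) (nat_lit 76) (nat_lit 8079013160) (nat_lit 114) (nat_lit 5) (nat_lit 121) (nat_lit 5) (nat_lit 115) (nat_lit 5) (nat_lit 310) (nat_lit 280) (nat_lit 190)) (XT.nd (nat_lit 78) (nat_lit 0) (nat_lit 0) (XT.lf (nat_lit 0) (nat_lit 3808140531) (nat_lit 456) (nat_lit 282066360) (nat_lit 532) (nat_lit 8680120646) (nat_lit 108) (nat_lit 5) (nat_lit 114) (nat_lit 5) (nat_lit 115) (nat_lit 5) (nat_lit 311) (nat_lit 280) (nat_lit 189)) (XT.lf (nat_lit 0) (nat_lit 5832806407) (nat_lit 532) (nat_lit 3183767560) (nat_lit 76) (nat_lit 3976595690) (nat_lit 108) (nat_lit 5) (nat_lit 115) (nat_lit 5) (nat_lit 109) (nat_lit 5) (nat_lit 312) (nat_lit 280) (nat_lit 188))))))) (XT.nd (nat_lit 858) (nat_lit 1748) (nat_lit 0) (XT.nd (nat_lit 390) (nat_lit 760) (nat_lit 0) (XT.nd (nat_lit 156) (nat_lit 912) (nat_lit 0) (XT.nd (nat_lit 78) (nat_lit 0) (nat_lit 0) (XT.lf (nat_lit 0) (nat_lit 2800231915) (nat_lit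 456) (nat_lit 4838954568) (nat_lit 532) (nat_lit 5583205054) (nat_lit 102) (nat_lit 5) (nat_lit 108) (nat_lit 5) (nat_lit 109) (nat_lit 5) (nat_lit 313) (nat_lit 280) (nat_lit 187)) (XT.lf (nat_lit 0) (nat_lit 9009585438) (nat_lit 456) (nat_lit 504458178) (nat_lit 532) (nat_lit 3944056309) (nat_lit 102) (nat_lit 5) (nat_lit 108) (nat_lit 5) (nat_lit 109) (nat_lit 5) (nat_lit 314) (nat_lit 280) (nat_lit 186))) (XT.nd (nat_lit 78) (nat_lit 456) (nat_lit 0) (XT.lf (nat_lit 0) (nat_lit 1679642093) (nat_lit 456) (nat_lit 9802358308) (nat_lit 532) (nat_lit 2217810846) (nat_lit 96) (nat_lit 5) (nat_lit 102) (nat_lit 5) (nat_lit 103) (nat_lit 5) (nat_lit 315) (nat_lit 280) (nat_lit 185)) (XT.nd (nat_lit 78) (nat_lit 456) (nat_lit 0) (XT.lf (nat_lit 0) (nat_lit 8058522654) (nat_lit 456) (nat_lit 5483302585) (nat_lit 532) (nat_lit 406000004) (nat_lit 96) (nat_lit 5) (nat_lit 102) (nat_lit 5) (nat_lit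 103) (nat_lit 5) (nat_lit 316) (nat_lit 280) (nat_lit 184)) (XT.lf (nat_lit 0) (nat_lit 400239649) (nat_lit 380) (nat_lit 1018540177) (nat_lit 456) (nat_lit 12784499659) (nat_lit 90) (nat_lit 5) (nat_lit 95) (nat_lit 5) (nat_lit 96) (nat_lit 5) (nat_lit 317) (nat_lit 280) (nat_lit 183))))) (XT.nd (nat_lit 234) (nat_lit 380) (nat_lit 0) (XT.nd (nat_lit 78) (nat_lit 380) (nat_lit 0) (XT.lf (nat_lit 0) (nat_lit 3368160578) (nat_lit 456) (nat_lit 7523784453) (nat_lit 76) (nat_lit 3572024338) (nat_lit 90) (nat_lit 5) (nat_lit 96) (nat_lit 5) (nat_lit 91) (nat_lit 5) (nat_lit 318) (nat_lit 280) (nat_lit 182)) (XT.nd (nat_lit 78) (nat_lit 380) (nat_lit 0) (XT.lf (nat_lit 0) (nat_lit 5370130377) (nat_lit 456) (nat_lit 1085013579) (nat_lit 76) (nat_lit 8277544943) (nat_lit 90) (nat_lit 5) (nat_lit 96) (nat_lit 5) (nat_lit 91) (nat_lit 5) (nat_lit 319) (nat_lit 280) (nat_lit 181)) (XT.lf (nat_lit 0) (nat_lit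 5638721494) (nat_lit 380) (nat_lit 1832129034) (nat_lit 456) (nat_lit 7537489988) (nat_lit 85) (nat_lit 5) (nat_lit 90) (nat_lit 5) (nat_lit 91) (nat_lit 5) (nat_lit 320) (nat_lit 280) (nat_lit 180)))) (XT.nd (nat_lit 78) (nat_lit 380) (nat_lit 0) (XT.lf (nat_lit 0) (nat_lit 9658557742) (nat_lit 456) (nat_lit 2752304209) (nat_lit 76) (nat_lit 2880711097) (nat_lit 85) (nat_lit 5) (nat_lit 91) (nat_lit 5) (nat_lit 86) (nat_lit 5) (nat_lit 321) (nat_lit 280) (nat_lit 179)) (XT.nd (nat_lit 78) (nat_lit 0) (nat_lit 0) (XT.lf (nat_lit 0) (nat_lit 4107570650) (nat_lit 380) (nat_lit 7847133963) (nat_lit 456) (nat_lit 3627343135) (nat_lit 80) (nat_lit 5) (nat_lit 85) (nat_lit 5) (nat_lit 86) (nat_lit 5) (nat_lit 322) (nat_lit 280) (nat_lit 178)) (XT.lf (nat_lit 0) (nat_lit 11211864495) (nat_lit 380) (nat_lit 3121108798) (nat_lit 456) (nat_lit 1547894864) (nat_lit 80) (nat_lit 5) (nat_lit 85) (nat_lit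 5) (nat_lit 86) (nat_lit 5) (nat_lit 323) (nat_lit 280) (nat_lit 177)))))) (XT.nd (nat_lit 468) (nat_lit 684) (nat_lit 0) (XT.nd (nat_lit 234) (nat_lit 304) (nat_lit 0) (XT.nd (nat_lit 78) (nat_lit 304) (nat_lit 0) (XT.lf (nat_lit 0) (nat_lit 607807466) (nat_lit 456) (nat_lit 13841842157) (nat_lit 76) (nat_lit 1738095409) (nat_lit 74) (nat_lit 5) (nat_lit 80) (nat_lit 5) (nat_lit 75) (nat_lit 5) (nat_lit 324) (nat_lit 280) (nat_lit 176)) (XT.nd (nat_lit 78) (nat_lit 304) (nat_lit 0) (XT.lf (nat_lit 0) (nat_lit 2861504377) (nat_lit 456) (nat_lit 6899974534) (nat_lit 76) (nat_lit 6739982655) (nat_lit 74) (nat_lit 5) (nat_lit 80) (nat_lit 5) (nat_lit 75) (nat_lit 5) (nat_lit 325) (nat_lit 280) (nat_lit 175)) (XT.lf (nat_lit 0) (nat_lit 237469615) (nat_lit 304) (nat_lit 4933953443) (nat_lit 380) (nat_lit 11653533613) (nat_lit 70) (nat_lit 5) (nat_lit 74) (nat_lit 5) (nat_lit 75) (nat_lit 5) (nat_lit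 326) (nat_lit 280) (nat_lit 174)))) (XT.nd (nat_lit 78) (nat_lit 304) (nat_lit 0) (XT.lf (nat_lit 0) (nat_lit 7607900437) (nat_lit 380) (nat_lit 9444181354) (nat_lit 76) (nat_lit 104381664) (nat_lit 70) (nat_lit 5) (nat_lit 75) (nat_lit 5) (nat_lit 71) (nat_lit 5) (nat_lit 327) (nat_lit 280) (nat_lit 173)) (XT.nd (nat_lit 78) (nat_lit 304) (nat_lit 0) (XT.lf (nat_lit 0) (nat_lit 10153241566) (nat_lit 380) (nat_lit 2152452600) (nat_lit 76) (nat_lit 5191172138) (nat_lit 70) (nat_lit 5) (nat_lit 75) (nat_lit 5) (nat_lit 71) (nat_lit 5) (nat_lit 328) (nat_lit 280) (nat_lit 172)) (XT.lf (nat_lit 0) (nat_lit 5447805097) (nat_lit 304) (nat_lit 7366804888) (nat_lit 380) (nat_lit 5031704486) (nat_lit 66) (nat_lit 5) (nat_lit 70) (nat_lit 5) (nat_lit 71) (nat_lit 5) (nat_lit 329) (nat_lit 280) (nat_lit 171))))) (XT.nd (nat_lit 234) (nat_lit 304) (nat_lit 0) (XT.nd (nat_lit 78) (nat_lit 380) (nat_lit 0)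 (XT.lf (nat_lit 0) (nat_lit 13303826527) (nat_lit 304) (nat_lit 2261240491) (nat_lit 380) (nat_lit 2640924206) (nat_lit 66) (nat_lit 5) (nat_lit 70) (nat_lit 5) (nat_lit 71) (nat_lit 5) (nat_lit 330) (nat_lit 280) (nat_lit 170)) (XT.nd (nat_lit 78) (nat_lit 76) (nat_lit 0) (XT.lf (nat_lit 0) (nat_lit 2829225086) (nat_lit 304) (nat_lit 15612662171) (nat_lit 380) (nat_lit 133277450) (nat_lit 62) (nat_lit 5) (nat_lit 66) (nat_lit 5) (nat_lit 67) (nat_lit 5) (nat_lit 331) (nat_lit 280) (nat_lit 169)) (XT.lf (nat_lit 0) (nat_lit 2462078971) (nat_lit 380) (nat_lit 8123650018) (nat_lit 76) (nat_lit 8367190223) (nat_lit 61) (nat_lit 5) (nat_lit 66) (nat_lit 5) (nat_lit 62) (nat_lit 5) (nat_lit 332) (nat_lit 280) (nat_lit 168)))) (XT.nd (nat_lit 78) (nat_lit 304) (nat_lit 0) (XT.lf (nat_lit 0) (nat_lit 5120869635) (nat_lit 380) (nat_lit 289877465) (nat_lit 76) (nat_lit 13931592147) (nat_lit 61) (nat_lit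 5) (nat_lit 66) (nat_lit 5) (nat_lit 62) (nat_lit 5) (nat_lit 333) (nat_lit 280) (nat_lit 167)) (XT.nd (nat_lit 78) (nat_lit 0) (nat_lit 0) (XT.lf (nat_lit 0) (nat_lit 7918013182) (nat_lit 304) (nat_lit 6118086) (nat_lit 380) (nat_lit 11817388867) (nat_lit 57) (nat_lit 5) (nat_lit 61) (nat_lit 5) (nat_lit 62) (nat_lit 5) (nat_lit 334) (nat_lit 280) (nat_lit 166)) (XT.lf (nat_lit 0) (nat_lit 10856640567) (nat_lit 380) (nat_lit 3843556980) (nat_lit 76) (nat_lit 5451143309) (nat_lit 57) (nat_lit 5) (nat_lit 62) (nat_lit 5) (nat_lit 58) (nat_lit 5) (nat_lit 335) (nat_lit 280) (nat_lit 165))))))))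
noncomputable def xc167 : XT := (XT.nd (nat_lit 1716) (nat_lit 1064) (nat_lit 0) (XT.nd (nat_lit 858) (nat_lit 684) (nat_lit 0) (XT.nd (nat_lit 390) (nat_lit 760) (nat_lit 0) (XT.nd (nat_lit 156) (nat_lit 380) (nat_lit 0) (XT.nd (nat_lit 78) (nat_lit 0) (nat_lit 0) (XT.lf (nat_lit 0) (nat_lit 4447399438) (nat_lit 228) (nat_lit 9461606601) (nat_lit 304) (nat_lit 6663512081) (nat_lit 54) (nat_lit 5) (nat_lit 57) (nat_lit 5) (nat_lit 58) (nat_lit 5) (nat_lit 336) (nat_lit 280) (nat_lit 164)) (XT.lf (nat_lit 0) (nat_lit 13050905637) (nat_lit 228) (nat_lit 4030092916) (nat_lit 304) (nat_lit 3924508283) (nat_lit 54) (nat_lit 5) (nat_lit 57) (nat_lit 5) (nat_lit 58) (nat_lit 5) (nat_lit 337) (nat_lit 280) (nat_lit 163))) (XT.nd (nat_lit 78) (nat_lit 76) (nat_lit 0) (XT.lf (nat_lit 0) (nat_lit 439751926) (nat_lit 304) (nat_lit 19917181395) (nat_lit 380) (nat_lit 1094305713) (nat_lit 50) (nat_lit 5)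 (nat_lit 54) (nat_lit 5) (nat_lit 55) (nat_lit 5) (nat_lit 338) (nat_lit 280) (nat_lit 162)) (XT.nd (nat_lit 78) (nat_lit 0) (nat_lit 0) (XT.lf (nat_lit 0) (nat_lit 1895858862) (nat_lit 380) (nat_lit 12732038208) (nat_lit 76) (nat_lit 7278619764) (nat_lit 49) (nat_lit 5) (nat_lit 54) (nat_lit 5) (nat_lit 50) (nat_lit 5) (nat_lit 339) (nat_lit 280) (nat_lit 161)) (XT.lf (nat_lit 0) (nat_lit 4943601160) (nat_lit 380) (nat_lit 4229508577) (nat_lit 76) (nat_lit 13202337999) (nat_lit 49) (nat_lit 5) (nat_lit 54) (nat_lit 5) (nat_lit 50) (nat_lit 5) (nat_lit 340) (nat_lit 280) (nat_lit 160))))) (XT.nd (nat_lit 234) (nat_lit 532) (nat_lit 0) (XT.nd (nat_lit 78) (nat_lit 0) (nat_lit 0) (XT.lf (nat_lit 0) (nat_lit 4603888765) (nat_lit 228) (nat_lit 3513304730) (nat_lit 304) (nat_lit 14740235905) (nat_lit 46) (nat_lit 5) (nat_lit 49) (nat_lit 5) (nat_lit 50) (nat_lit 5) (nat_lit 341) (nat_lit 280) (nat_lit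 159)) (XT.nd (nat_lit 78) (nat_lit 0) (nat_lit 0) (XT.lf (nat_lit 0) (nat_lit 11441666454) (nat_lit 304) (nat_lit 9600462698) (nat_lit 76) (nat_lit 2310086098) (nat_lit 46) (nat_lit 5) (nat_lit 50) (nat_lit 5) (nat_lit 47) (nat_lit 5) (nat_lit 342) (nat_lit 280) (nat_lit 158)) (XT.lf (nat_lit 0) (nat_lit 14891216661) (nat_lit 304) (nat_lit 736338565) (nat_lit 76) (nat_lit 8233543642) (nat_lit 46) (nat_lit 5) (nat_lit 50) (nat_lit 5) (nat_lit 47) (nat_lit 5) (nat_lit 343) (nat_lit 280) (nat_lit 157)))) (XT.nd (nat_lit 78) (nat_lit 304) (nat_lit 0) (XT.lf (nat_lit 0) (nat_lit 8547134527) (nat_lit 228) (nat_lit 9970112011) (nat_lit 304) (nat_lit 5865826726) (nat_lit 43) (nat_lit 5) (nat_lit 46) (nat_lit 5) (nat_lit 47) (nat_lit 5) (nat_lit 344) (nat_lit 280) (nat_lit 156)) (XT.nd (nat_lit 78) (nat_lit 304) (nat_lit 0) (XT.lf (nat_lit 0) (nat_lit 18110976871) (nat_lit 228) (nat_lit 4139488732) (nat_lit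 304) (nat_lit 2670302693) (nat_lit 43) (nat_lit 5) (nat_lit 46) (nat_lit 5) (nat_lit 47) (nat_lit 5) (nat_lit 345) (nat_lit 280) (nat_lit 155)) (XT.lf (nat_lit 0) (nat_lit 642496967) (nat_lit 304) (nat_lit 22974906536) (nat_lit 76) (nat_lit 1856018554) (nat_lit 39) (nat_lit 5) (nat_lit 43) (nat_lit 5) (nat_lit 40) (nat_lit 5) (nat_lit 346) (nat_lit 280) (nat_lit 154)))))) (XT.nd (nat_lit 390) (nat_lit 456) (nat_lit 0) (XT.nd (nat_lit 156) (nat_lit 228) (nat_lit 0) (XT.nd (nat_lit 78) (nat_lit 0) (nat_lit 0) (XT.lf (nat_lit 0) (nat_lit 4102671463) (nat_lit 304) (nat_lit 13896170876) (nat_lit 76) (nat_lit 8039982588) (nat_lit 39) (nat_lit 5) (nat_lit 43) (nat_lit 5) (nat_lit 40) (nat_lit 5) (nat_lit 347) (nat_lit 280) (nat_lit 153)) (XT.lf (nat_lit 0) (nat_lit 7658136495) (nat_lit 304) (nat_lit 4557830052) (nat_lit 76) (nat_lit 14405490907) (nat_lit 39) (nat_lit 5) (nat_lit 43) (nat_lit 5) (nat_lit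 40) (nat_lit 5) (nat_lit 348) (nat_lit 280) (nat_lit 152))) (XT.nd (nat_lit 78) (nat_lit 0) (nat_lit 0) (XT.lf (nat_lit 0) (nat_lit 5148746233) (nat_lit 228) (nat_lit 6212745447) (nat_lit 304) (nat_lit 15858852272) (nat_lit 36) (nat_lit 5) (nat_lit 39) (nat_lit 5) (nat_lit 40) (nat_lit 5) (nat_lit 349) (nat_lit 280) (nat_lit 151)) (XT.nd (nat_lit 78) (nat_lit 0) (nat_lit 0) (XT.lf (nat_lit 0) (nat_lit 15213962071) (nat_lit 304) (nat_lit 12608518316) (nat_lit 76) (nat_lit 13587654) (nat_lit 36) (nat_lit 5) (nat_lit 40) (nat_lit 5) (nat_lit 37) (nat_lit 5) (nat_lit 350) (nat_lit 280) (nat_lit 150)) (XT.lf (nat_lit 0) (nat_lit 19235573844) (nat_lit 304) (nat_lit 2935175431) (nat_lit 76) (nat_lit 6297918663) (nat_lit 36) (nat_lit 5) (nat_lit 40) (nat_lit 5) (nat_lit 37) (nat_lit 5) (nat_lit 351) (nat_lit 280) (nat_lit 149))))) (XT.nd (nat_lit 234) (nat_lit 228) (nat_lit 0) (XT.nd (nat_lit 78) (nat_lit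 76) (nat_lit 0) (XT.lf (nat_lit 0) (nat_lit 7156248261) (nat_lit 152) (nat_lit 16282662293) (nat_lit 228) (nat_lit 5679513759) (nat_lit 34) (nat_lit 5) (nat_lit 36) (nat_lit 5) (nat_lit 37) (nat_lit 5) (nat_lit 352) (nat_lit 280) (nat_lit 148)) (XT.nd (nat_lit 78) (nat_lit 76) (nat_lit 0) (XT.lf (nat_lit 0) (nat_lit 17598934555) (nat_lit 152) (nat_lit 10191451374) (nat_lit 228) (nat_lit 1996636758) (nat_lit 34) (nat_lit 5) (nat_lit 36) (nat_lit 5) (nat_lit 37) (nat_lit 5) (nat_lit 353) (nat_lit 280) (nat_lit 147)) (XT.lf (nat_lit 0) (nat_lit 1754203353) (nat_lit 228) (nat_lit 2149516250) (nat_lit 76) (nat_lit 26571675013) (nat_lit 33) (nat_lit 5) (nat_lit 36) (nat_lit 5) (nat_lit 34) (nat_lit 5) (nat_lit 354) (nat_lit 280) (nat_lit 146)))) (XT.nd (nat_lit 78) (nat_lit 0) (nat_lit 0) (XT.lf (nat_lit 0) (nat_lit 5675866447) (nat_lit 304) (nat_lit 22885635027) (nat_lit 76) (nat_lit 2619379900)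 (nat_lit 30) (nat_lit 5) (nat_lit 34) (nat_lit 5) (nat_lit 31) (nat_lit 5) (nat_lit 355) (nat_lit 280) (nat_lit 145)) (XT.nd (nat_lit 78) (nat_lit 0) (nat_lit 0) (XT.lf (nat_lit 0) (nat_lit 9768573415) (nat_lit 304) (nat_lit 12859542810) (nat_lit 76) (nat_lit 9277823989) (nat_lit 30) (nat_lit 5) (nat_lit 34) (nat_lit 5) (nat_lit 31) (nat_lit 5) (nat_lit 356) (nat_lit 280) (nat_lit 144)) (XT.lf (nat_lit 0) (nat_lit 13977093127) (nat_lit 304) (nat_lit 2543551762) (nat_lit 76) (nat_lit 16132324010) (nat_lit 30) (nat_lit 5) (nat_lit 34) (nat_lit 5) (nat_lit 31) (nat_lit 5) (nat_lit 357) (nat_lit 280) (nat_lit 143))))))) (XT.nd (nat_lit 858) (nat_lit 380) (nat_lit 0) (XT.nd (nat_lit 390) (nat_lit 304) (nat_lit 0) (XT.nd (nat_lit 156) (nat_lit 228) (nat_lit 0) (XT.nd (nat_lit 78) (nat_lit 0) (nat_lit 0) (XT.lf (nat_lit 0) (nat_lit 8231987822) (nat_lit 152) (nat_lit 10152246012) (nat_lit 228) (nat_lit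 15036012413) (nat_lit 28) (nat_lit 5) (nat_lit 30) (nat_lit 5) (nat_lit 31) (nat_lit 5) (nat_lit 358) (nat_lit 280) (nat_lit 142)) (XT.lf (nat_lit 0) (nat_lit 19372470582) (nat_lit 152) (nat_lit 3570134041) (nat_lit 228) (nat_lit 11267375325) (nat_lit 28) (nat_lit 5) (nat_lit 30) (nat_lit 5) (nat_lit 31) (nat_lit 5) (nat_lit 359) (nat_lit 280) (nat_lit 141))) (XT.nd (nat_lit 78) (nat_lit 228) (nat_lit 0) (XT.lf (nat_lit 0) (nat_lit 27662067455) (nat_lit 228) (nat_lit 4217414616) (nat_lit 76) (nat_lit 3143201622) (nat_lit 28) (nat_lit 5) (nat_lit 31) (nat_lit 5) (nat_lit 29) (nat_lit 5) (nat_lit 360) (nat_lit 280) (nat_lit 140)) (XT.nd (nat_lit 78) (nat_lit 76) (nat_lit 0) (XT.lf (nat_lit 0) (nat_lit 6808773898) (nat_lit 152) (nat_lit 25808817659) (nat_lit 228) (nat_lit 3239350693) (nat_lit 26) (nat_lit 5) (nat_lit 28) (nat_lit 5) (nat_lit 29) (nat_lit 5) (nat_lit 361) (nat_lit 280) (nat_lit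 139)) (XT.lf (nat_lit 0) (nat_lit 1022638900) (nat_lit 228) (nat_lit 18482897253) (nat_lit 76) (nat_lit 17209308750) (nat_lit 25) (nat_lit 5) (nat_lit 28) (nat_lit 5) (nat_lit 26) (nat_lit 5) (nat_lit 362) (nat_lit 280) (nat_lit 138))))) (XT.nd (nat_lit 234) (nat_lit 152) (nat_lit 0) (XT.nd (nat_lit 78) (nat_lit 152) (nat_lit 0) (XT.lf (nat_lit 0) (nat_lit 5341262732) (nat_lit 228) (nat_lit 7642507403) (nat_lit 76) (nat_lit 24613943188) (nat_lit 25) (nat_lit 5) (nat_lit 28) (nat_lit 5) (nat_lit 26) (nat_lit 5) (nat_lit 363) (nat_lit 280) (nat_lit 137)) (XT.nd (nat_lit 78) (nat_lit 0) (nat_lit 0) (XT.lf (nat_lit 0) (nat_lit 3583539769) (nat_lit 152) (nat_lit 6234413164) (nat_lit 228) (nat_lit 28688266759) (nat_lit 23) (nat_lit 5) (nat_lit 25) (nat_lit 5) (nat_lit 26) (nat_lit 5) (nat_lit 364) (nat_lit 280) (nat_lit 136)) (XT.lf (nat_lit 0) (nat_lit 14507887870) (nat_lit 228) (nat_lit 24153832025)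 (nat_lit 76) (nat_lit 777899954) (nat_lit 23) (nat_lit 5) (nat_lit 26) (nat_lit 5) (nat_lit 24) (nat_lit 5) (nat_lit 365) (nat_lit 280) (nat_lit 135)))) (XT.nd (nat_lit 78) (nat_lit 152) (nat_lit 0) (XT.lf (nat_lit 0) (nat_lit 19394528555) (nat_lit 228) (nat_lit 13132905596) (nat_lit 76) (nat_lit 7871914345) (nat_lit 23) (nat_lit 5) (nat_lit 26) (nat_lit 5) (nat_lit 24) (nat_lit 5) (nat_lit 366) (nat_lit 280) (nat_lit 134)) (XT.nd (nat_lit 78) (nat_lit 152) (nat_lit 0) (XT.lf (nat_lit 0) (nat_lit 24422215877) (nat_lit 228) (nat_lit 1790341708) (nat_lit 76) (nat_lit 15175484518) (nat_lit 23) (nat_lit 5) (nat_lit 26) (nat_lit 5) (nat_lit 24) (nat_lit 5) (nat_lit 367) (nat_lit 280) (nat_lit 133)) (XT.lf (nat_lit 0) (nat_lit 10080477033) (nat_lit 152) (nat_lit 19611765639) (nat_lit 228) (nat_lit 12711414911) (nat_lit 21) (nat_lit 5) (nat_lit 23) (nat_lit 5) (nat_lit 24) (nat_lit 5) (nat_lit 368)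 (nat_lit 280) (nat_lit 132)))))) (XT.nd (nat_lit 468) (nat_lit 228) (nat_lit 0) (XT.nd (nat_lit 234) (nat_lit 0) (nat_lit 0) (XT.nd (nat_lit 78) (nat_lit 152) (nat_lit 0) (XT.lf (nat_lit 0) (nat_lit 22335477682) (nat_lit 152) (nat_lit 12797654606) (nat_lit 228) (nat_lit 8316232526) (nat_lit 21) (nat_lit 5) (nat_lit 23) (nat_lit 5) (nat_lit 24) (nat_lit 5) (nat_lit 369) (nat_lit 280) (nat_lit 131)) (XT.nd (nat_lit 78) (nat_lit 152) (nat_lit 0) (XT.lf (nat_lit 0) (nat_lit 34949737180) (nat_lit 152) (nat_lit 5782349350) (nat_lit 228) (nat_lit 3794517562) (nat_lit 21) (nat_lit 5) (nat_lit 23) (nat_lit 5) (nat_lit 24) (nat_lit 5) (nat_lit 370) (nat_lit 280) (nat_lit 130)) (XT.lf (nat_lit 0) (nat_lit 877541491) (nat_lit 152) (nat_lit 43314258358) (nat_lit 76) (nat_lit 1443171599) (nat_lit 19) (nat_lit 5) (nat_lit 21) (nat_lit 5) (nat_lit 20) (nat_lit 5) (nat_lit 371) (nat_lit 280) (nat_lit 129))))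 (XT.nd (nat_lit 78) (nat_lit 0) (nat_lit 0) (XT.lf (nat_lit 0) (nat_lit 5763383832) (nat_lit 152) (nat_lit 32106226897) (nat_lit 76) (nat_lit 8901360848) (nat_lit 19) (nat_lit 5) (nat_lit 21) (nat_lit 5) (nat_lit 20) (nat_lit 5) (nat_lit 372) (nat_lit 280) (nat_lit 128)) (XT.nd (nat_lit 78) (nat_lit 0) (nat_lit 0) (XT.lf (nat_lit 0) (nat_lit 10790919403) (nat_lit 152) (nat_lit 20570010034) (nat_lit 76) (nat_lit 16580274034) (nat_lit 19) (nat_lit 5) (nat_lit 21) (nat_lit 5) (nat_lit 20) (nat_lit 5) (nat_lit 373) (nat_lit 280) (nat_lit 127)) (XT.lf (nat_lit 0) (nat_lit 15964541197) (nat_lit 152) (nat_lit 8695527581) (nat_lit 76) (nat_lit 24486620888) (nat_lit 19) (nat_lit 5) (nat_lit 21) (nat_lit 5) (nat_lit 20) (nat_lit 5) (nat_lit 374) (nat_lit 280) (nat_lit 126))))) (XT.nd (nat_lit 234) (nat_lit 76) (nat_lit 0) (XT.nd (nat_lit 78) (nat_lit 0) (nat_lit 0) (XT.lf (nat_lit 0) (nat_lit 3597802304)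 (nat_lit 152) (nat_lit 17725551826) (nat_lit 228) (nat_lit 29064091840) (nat_lit 17) (nat_lit 5) (nat_lit 19) (nat_lit 5) (nat_lit 20) (nat_lit 5) (nat_lit 375) (nat_lit 280) (nat_lit 125)) (XT.nd (nat_lit 78) (nat_lit 0) (nat_lit 0) (XT.lf (nat_lit 0) (nat_lit 16430663198) (nat_lit 152) (nat_lit 10495536000) (nat_lit 228) (nat_lit 24736732585) (nat_lit 17) (nat_lit 5) (nat_lit 19) (nat_lit 5) (nat_lit 20) (nat_lit 5) (nat_lit 376) (nat_lit 280) (nat_lit 124)) (XT.lf (nat_lit 0) (nat_lit 29641210230) (nat_lit 152) (nat_lit 3051511591) (nat_lit 228) (nat_lit 20284097295) (nat_lit 17) (nat_lit 5) (nat_lit 19) (nat_lit 5) (nat_lit 20) (nat_lit 5) (nat_lit 377) (nat_lit 280) (nat_lit 123)))) (XT.nd (nat_lit 78) (nat_lit 76) (nat_lit 0) (XT.lf (nat_lit 0) (nat_lit 38672303934) (nat_lit 228) (nat_lit 11133612657) (nat_lit 76) (nat_lit 4523009138) (nat_lit 17) (nat_lit 5) (nat_lit 20) (nat_lit 5) (nat_lit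 18) (nat_lit 4) (nat_lit 378) (nat_lit 280) (nat_lit 122)) (XT.nd (nat_lit 78) (nat_lit 0) (nat_lit 0) (XT.lf (nat_lit 0) (nat_lit 1425054889) (nat_lit 76) (nat_lit 43445949130) (nat_lit 152) (nat_lit 10849404045) (nat_lit 16) (nat_lit 5) (nat_lit 17) (nat_lit 5) (nat_lit 18) (nat_lit 4) (nat_lit 379) (nat_lit 280) (nat_lit 121)) (XT.lf (nat_lit 0) (nat_lit 14581795534) (nat_lit 76) (nat_lit 36782171559) (nat_lit 152) (nat_lit 5786423029) (nat_lit 16) (nat_lit 5) (nat_lit 17) (nat_lit 5) (nat_lit 18) (nat_lit 4) (nat_lit 380) (nat_lit 280) (nat_lit 120))))))))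
noncomputable def xc168 : XT := (XT.nd (nat_lit 33774) (nat_lit 0) (nat_lit 6840) (XT.nd (nat_lit 32916) (nat_lit 0) (nat_lit 12008) (XT.nd (nat_lit 390) (nat_lit 76) (nat_lit 0) (XT.nd (nat_lit 156) (nat_lit 152) (nat_lit 0) (XT.nd (nat_lit 78) (nat_lit 76) (nat_lit 0) (XT.lf (nat_lit 0) (nat_lit 28126524737) (nat_lit 76) (nat_lit 29921188817) (nat_lit 152) (nat_lit 575682439) (nat_lit 16) (nat_lit 5) (nat_lit 17) (nat_lit 5) (nat_lit 18) (nat_lit 4) (nat_lit 381) (nat_lit 280) (nat_lit 119)) (XT.lf (nat_lit 0) (nat_lit 4693951950) (nat_lit 152) (nat_lit 18115654209) (nat_lit 76) (nat_lit 37329726036) (nat_lit 15) (nat_lit 5) (nat_lit 17) (nat_lit 5) (nat_lit 16) (nat_lit 5) (nat_lit 382) (nat_lit 280) (nat_lit 118))) (XT.nd (nat_lit 78) (nat_lit 152) (nat_lit 0) (XT.lf (nat_lit 0) (nat_lit 10106287901) (nat_lit 152) (nat_lit 5375108539) (nat_lit 76) (nat_lit 46219297383) (nat_lit 15) (nat_lit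 5) (nat_lit 17) (nat_lit 5) (nat_lit 16) (nat_lit 5) (nat_lit 383) (nat_lit 280) (nat_lit 117)) (XT.nd (nat_lit 78) (nat_lit 0) (nat_lit 0) (XT.lf (nat_lit 0) (nat_lit 7895501758) (nat_lit 152) (nat_lit 7857682911) (nat_lit 228) (nat_lit 47553549628) (nat_lit 13) (nat_lit 5) (nat_lit 15) (nat_lit 5) (nat_lit 16) (nat_lit 5) (nat_lit 384) (nat_lit 280) (nat_lit 116)) (XT.lf (nat_lit 0) (nat_lit 21620572256) (nat_lit 228) (nat_lit 43291649369) (nat_lit 76) (nat_lit 47205455) (nat_lit 13) (nat_lit 5) (nat_lit 16) (nat_lit 5) (nat_lit 14) (nat_lit 4) (nat_lit 385) (nat_lit 280) (nat_lit 115))))) (XT.nd (nat_lit 234) (nat_lit 76) (nat_lit 0) (XT.nd (nat_lit 78) (nat_lit 0) (nat_lit 0) (XT.lf (nat_lit 0) (nat_lit 27738206518) (nat_lit 228) (nat_lit 30892345193) (nat_lit 76) (nat_lit 8028925686) (nat_lit 13) (nat_lit 5) (nat_lit 16) (nat_lit 5) (nat_lit 14) (nat_lit 4) (nat_lit 386) (nat_lit 280) (nat_lit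 114)) (XT.nd (nat_lit 78) (nat_lit 0) (nat_lit 0) (XT.lf (nat_lit 0) (nat_lit 34035900108) (nat_lit 228) (nat_lit 18126952816) (nat_lit 76) (nat_lit 16247783797) (nat_lit 13) (nat_lit 5) (nat_lit 16) (nat_lit 5) (nat_lit 14) (nat_lit 4) (nat_lit 387) (nat_lit 280) (nat_lit 113)) (XT.lf (nat_lit 0) (nat_lit 40519155864) (nat_lit 228) (nat_lit 4984318009) (nat_lit 76) (nat_lit 24710961314) (nat_lit 13) (nat_lit 5) (nat_lit 16) (nat_lit 5) (nat_lit 14) (nat_lit 4) (nat_lit 388) (nat_lit 280) (nat_lit 112)))) (XT.nd (nat_lit 78) (nat_lit 0) (nat_lit 0) (XT.lf (nat_lit 0) (nat_lit 8717145997) (nat_lit 76) (nat_lit 38560287309) (nat_lit 152) (nat_lit 24792501788) (nat_lit 12) (nat_lit 5) (nat_lit 13) (nat_lit 5) (nat_lit 14) (nat_lit 4) (nat_lit 389) (nat_lit 280) (nat_lit 111)) (XT.nd (nat_lit 32136) (nat_lit 0) (nat_lit 13680) (XT.lf (nat_lit 0) (nat_lit 22926329236) (nat_lit 76) (nat_lit 31359233555)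 (nat_lit 152) (nat_lit 19694127212) (nat_lit 12) (nat_lit 5) (nat_lit 13) (nat_lit 5) (nat_lit 14) (nat_lit 4) (nat_lit 390) (nat_lit 280) (nat_lit 110)) (XT.lf (nat_lit 0) (nat_lit 1696000750) (nat_lit 0) (nat_lit 1696000750) (nat_lit 836) (nat_lit 799449570) (nat_lit 192) (nat_lit 5) (nat_lit 192) (nat_lit 3) (nat_lit 203) (nat_lit 3) (nat_lit 281) (nat_lit 281) (nat_lit 218)))))) (XT.nd (nat_lit 390) (nat_lit 760) (nat_lit 0) (XT.nd (nat_lit 156) (nat_lit 0) (nat_lit 0) (XT.nd (nat_lit 78) (nat_lit 912) (nat_lit 0) (XT.lf (nat_lit 0) (nat_lit 7028825862) (nat_lit 0) (nat_lit 818049136) (nat_lit 836) (nat_lit 630247861) (nat_lit 192) (nat_lit 5) (nat_lit 192) (nat_lit 3) (nat_lit 203) (nat_lit 3) (nat_lit 282) (nat_lit 281) (nat_lit 217)) (XT.lf (nat_lit 0) (nat_lit 361700090) (nat_lit 912) (nat_lit 6371934053) (nat_lit 988) (nat_lit 1840489759) (nat_lit 180) (nat_lit 5) (nat_lit 192) (nat_lit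 5) (nat_lit 193) (nat_lit 5) (nat_lit 283) (nat_lit 281) (nat_lit 216))) (XT.nd (nat_lit 78) (nat_lit 0) (nat_lit 0) (XT.lf (nat_lit 0) (nat_lit 1356713821) (nat_lit 912) (nat_lit 2717001431) (nat_lit 988) (nat_lit 4600652218) (nat_lit 180) (nat_lit 5) (nat_lit 192) (nat_lit 5) (nat_lit 193) (nat_lit 5) (nat_lit 284) (nat_lit 281) (nat_lit 215)) (XT.nd (nat_lit 78) (nat_lit 0) (nat_lit 76) (XT.lf (nat_lit 76) (nat_lit 1047831179) (nat_lit 0) (nat_lit 1307999218) (nat_lit 988) (nat_lit 6422656431) (nat_lit 181) (nat_lit 5) (nat_lit 180) (nat_lit 5) (nat_lit 193) (nat_lit 5) (nat_lit 285) (nat_lit 281) (nat_lit 214)) (XT.lf (nat_lit 0) (nat_lit 3392613580) (nat_lit 912) (nat_lit 3939966929) (nat_lit 988) (nat_lit 1553011722) (nat_lit 181) (nat_lit 5) (nat_lit 193) (nat_lit 5) (nat_lit 194) (nat_lit 5) (nat_lit 286) (nat_lit 281) (nat_lit 213))))) (XT.nd (nat_lit 234) (nat_lit 836) (nat_lit 0)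 (XT.nd (nat_lit 78) (nat_lit 0) (nat_lit 0) (XT.lf (nat_lit 0) (nat_lit 4439640100) (nat_lit 912) (nat_lit 69171337) (nat_lit 988) (nat_lit 4487815704) (nat_lit 181) (nat_lit 5) (nat_lit 193) (nat_lit 5) (nat_lit 194) (nat_lit 5) (nat_lit 287) (nat_lit 281) (nat_lit 212)) (XT.nd (nat_lit 78) (nat_lit 0) (nat_lit 76) (XT.lf (nat_lit 76) (nat_lit 3975258268) (nat_lit 0) (nat_lit 1548205892) (nat_lit 988) (nat_lit 3587455241) (nat_lit 182) (nat_lit 5) (nat_lit 181) (nat_lit 5) (nat_lit 194) (nat_lit 5) (nat_lit 288) (nat_lit 281) (nat_lit 211)) (XT.lf (nat_lit 0) (nat_lit 6622995485) (nat_lit 912) (nat_lit 1121647486) (nat_lit 988) (nat_lit 1484587025) (nat_lit 182) (nat_lit 5) (nat_lit 194) (nat_lit 5) (nat_lit 195) (nat_lit 5) (nat_lit 289) (nat_lit 281) (nat_lit 210)))) (XT.nd (nat_lit 78) (nat_lit 912) (nat_lit 0) (XT.lf (nat_lit 76) (nat_lit 3036290076) (nat_lit 0) (nat_lit 4732725021) (nat_lit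 988) (nat_lit 1581752599) (nat_lit 183) (nat_lit 5) (nat_lit 182) (nat_lit 5) (nat_lit 195) (nat_lit 5) (nat_lit 290) (nat_lit 281) (nat_lit 209)) (XT.nd (nat_lit 78) (nat_lit 912) (nat_lit 0) (XT.lf (nat_lit 76) (nat_lit 7321741925) (nat_lit 0) (nat_lit 1608695674) (nat_lit 988) (nat_lit 546163704) (nat_lit 183) (nat_lit 5) (nat_lit 182) (nat_lit 5) (nat_lit 195) (nat_lit 5) (nat_lit 291) (nat_lit 281) (nat_lit 208)) (XT.lf (nat_lit 0) (nat_lit 516988935) (nat_lit 988) (nat_lit 7476096304) (nat_lit 1064) (nat_lit 1612850824) (nat_lit 170) (nat_lit 5) (nat_lit 183) (nat_lit 5) (nat_lit 184) (nat_lit 5) (nat_lit 292) (nat_lit 281) (nat_lit 207))))))) (XT.nd (nat_lit 858) (nat_lit 2508) (nat_lit 0) (XT.nd (nat_lit 390) (nat_lit 2660) (nat_lit 0) (XT.nd (nat_lit 156) (nat_lit 0) (nat_lit 76) (XT.nd (nat_lit 78) (nat_lit 0) (nat_lit 0) (XT.lf (nat_lit 0) (nat_lit 1609933554) (nat_lit 988) (nat_lit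 3193927520) (nat_lit 1064) (nat_lit 4934934941) (nat_lit 170) (nat_lit 5) (nat_lit 183) (nat_lit 5) (nat_lit 184) (nat_lit 5) (nat_lit 293) (nat_lit 281) (nat_lit 206)) (XT.lf (nat_lit 76) (nat_lit 1219997194) (nat_lit 0) (nat_lit 1499213930) (nat_lit 1064) (nat_lit 7156995777) (nat_lit 171) (nat_lit 5) (nat_lit 170) (nat_lit 5) (nat_lit 184) (nat_lit 5) (nat_lit 294) (nat_lit 281) (nat_lit 205))) (XT.nd (nat_lit 78) (nat_lit 0) (nat_lit 0) (XT.lf (nat_lit 0) (nat_lit 3885159130) (nat_lit 988) (nat_lit 4224868022) (nat_lit 1064) (nat_lit 1907080591) (nat_lit 171) (nat_lit 5) (nat_lit 184) (nat_lit 5) (nat_lit 185) (nat_lit 5) (nat_lit 295) (nat_lit 281) (nat_lit 204)) (XT.nd (nat_lit 78) (nat_lit 0) (nat_lit 0) (XT.lf (nat_lit 76) (nat_lit 309958159) (nat_lit 0) (nat_lit 4767263688) (nat_lit 1064) (nat_lit 5085347045) (nat_lit 172) (nat_lit 5) (nat_lit 171) (nat_lit 5) (nat_lit 185) (nat_lit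 5) (nat_lit 296) (nat_lit 281) (nat_lit 203)) (XT.lf (nat_lit 76) (nat_lit 5046976881) (nat_lit 0) (nat_lit 1274626148) (nat_lit 1064) (nat_lit 3990359559) (nat_lit 172) (nat_lit 5) (nat_lit 171) (nat_lit 5) (nat_lit 185) (nat_lit 5) (nat_lit 297) (nat_lit 281) (nat_lit 202))))) (XT.nd (nat_lit 234) (nat_lit 1824) (nat_lit 0) (XT.nd (nat_lit 78) (nat_lit 988) (nat_lit 0) (XT.lf (nat_lit 0) (nat_lit 7600350521) (nat_lit 988) (nat_lit 582798647) (nat_lit 76) (nat_lit 2282841384) (nat_lit 172) (nat_lit 5) (nat_lit 185) (nat_lit 5) (nat_lit 173) (nat_lit 5) (nat_lit 298) (nat_lit 281) (nat_lit 201)) (XT.nd (nat_lit 78) (nat_lit 0) (nat_lit 0) (XT.lf (nat_lit 0) (nat_lit 4290828894) (nat_lit 988) (nat_lit 4655941161) (nat_lit 1064) (nat_lit 1677051665) (nat_lit 159) (nat_lit 5) (nat_lit 172) (nat_lit 5) (nat_lit 173) (nat_lit 5) (nat_lit 299) (nat_lit 281) (nat_lit 200)) (XT.lf (nat_lit 0) (nat_lit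 9302674866) (nat_lit 988) (nat_lit 1012759510) (nat_lit 1064) (nat_lit 471557740) (nat_lit 159) (nat_lit 5) (nat_lit 172) (nat_lit 5) (nat_lit 173) (nat_lit 5) (nat_lit 300) (nat_lit 281) (nat_lit 199)))) (XT.nd (nat_lit 78) (nat_lit 684) (nat_lit 0) (XT.lf (nat_lit 0) (nat_lit 792378211) (nat_lit 1140) (nat_lit 7429517316) (nat_lit 76) (nat_lit 2731877300) (nat_lit 144) (nat_lit 5) (nat_lit 159) (nat_lit 5) (nat_lit 145) (nat_lit 5) (nat_lit 301) (nat_lit 281) (nat_lit 198)) (XT.nd (nat_lit 78) (nat_lit 684) (nat_lit 0) (XT.lf (nat_lit 0) (nat_lit 2086829625) (nat_lit 1140) (nat_lit 2446908957) (nat_lit 76) (nat_lit 6591670831) (nat_lit 144) (nat_lit 5) (nat_lit 159) (nat_lit 5) (nat_lit 145) (nat_lit 5) (nat_lit 302) (nat_lit 281) (nat_lit 197)) (XT.lf (nat_lit 0) (nat_lit 2718349082) (nat_lit 684) (nat_lit 705479244) (nat_lit 760) (nat_lit 7878308543) (nat_lit 135) (nat_lit 5) (nat_lit 144)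 (nat_lit 5) (nat_lit 145) (nat_lit 5) (nat_lit 303) (nat_lit 281) (nat_lit 196)))))) (XT.nd (nat_lit 468) (nat_lit 1368) (nat_lit 0) (XT.nd (nat_lit 234) (nat_lit 608) (nat_lit 0) (XT.nd (nat_lit 78) (nat_lit 532) (nat_lit 0) (XT.lf (nat_lit 0) (nat_lit 4835081598) (nat_lit 760) (nat_lit 3446478084) (nat_lit 76) (nat_lit 3201633761) (nat_lit 135) (nat_lit 5) (nat_lit 145) (nat_lit 5) (nat_lit 136) (nat_lit 5) (nat_lit 304) (nat_lit 281) (nat_lit 195)) (XT.nd (nat_lit 78) (nat_lit 0) (nat_lit 0) (XT.lf (nat_lit 0) (nat_lit 1854334596) (nat_lit 532) (nat_lit 4437855506) (nat_lit 608) (nat_lit 5377436215) (nat_lit 128) (nat_lit 5) (nat_lit 135) (nat_lit 5) (nat_lit 136) (nat_lit 5) (nat_lit 305) (nat_lit 281) (nat_lit 194)) (XT.lf (nat_lit 0) (nat_lit 7365199240) (nat_lit 532) (nat_lit 441754535) (nat_lit 608) (nat_lit 4054328816) (nat_lit 128) (nat_lit 5) (nat_lit 135) (nat_lit 5) (nat_lit 136)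 (nat_lit 5) (nat_lit 306) (nat_lit 281) (nat_lit 193)))) (XT.nd (nat_lit 78) (nat_lit 76) (nat_lit 0) (XT.lf (nat_lit 0) (nat_lit 946127951) (nat_lit 532) (nat_lit 8445204506) (nat_lit 608) (nat_lit 2666678185) (nat_lit 121) (nat_lit 5) (nat_lit 128) (nat_lit 5) (nat_lit 129) (nat_lit 5) (nat_lit 307) (nat_lit 281) (nat_lit 192)) (XT.nd (nat_lit 78) (nat_lit 76) (nat_lit 0) (XT.lf (nat_lit 0) (nat_lit 6619786600) (nat_lit 532) (nat_lit 4433348740) (nat_lit 608) (nat_lit 1206654285) (nat_lit 121) (nat_lit 5) (nat_lit 128) (nat_lit 5) (nat_lit 129) (nat_lit 5) (nat_lit 308) (nat_lit 281) (nat_lit 191)) (XT.lf (nat_lit 0) (nat_lit 271875227) (nat_lit 608) (nat_lit 26209606) (nat_lit 76) (nat_lit 12170079578) (nat_lit 120) (nat_lit 5) (nat_lit 128) (nat_lit 5) (nat_lit 121) (nat_lit 5) (nat_lit 309) (nat_lit 281) (nat_lit 190))))) (XT.nd (nat_lit 234) (nat_lit 456) (nat_lit 0) (XT.nd (nat_lit 78)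 (nat_lit 456) (nat_lit 0) (XT.lf (nat_lit 0) (nat_lit 1846462269) (nat_lit 532) (nat_lit 6880938442) (nat_lit 76) (nat_lit 3952794674) (nat_lit 114) (nat_lit 5) (nat_lit 121) (nat_lit 5) (nat_lit 115) (nat_lit 5) (nat_lit 310) (nat_lit 281) (nat_lit 189)) (XT.nd (nat_lit 78) (nat_lit 456) (nat_lit 0) (XT.lf (nat_lit 0) (nat_lit 3452948544) (nat_lit 532) (nat_lit 1120742101) (nat_lit 76) (nat_lit 8325397557) (nat_lit 114) (nat_lit 5) (nat_lit 121) (nat_lit 5) (nat_lit 115) (nat_lit 5) (nat_lit 311) (nat_lit 281) (nat_lit 188)) (XT.lf (nat_lit 0) (nat_lit 4888988547) (nat_lit 456) (nat_lit 247620303) (nat_lit 532) (nat_lit 7987109142) (nat_lit 108) (nat_lit 5) (nat_lit 114) (nat_lit 5) (nat_lit 115) (nat_lit 5) (nat_lit 312) (nat_lit 281) (nat_lit 187)))) (XT.nd (nat_lit 78) (nat_lit 456) (nat_lit 0) (XT.lf (nat_lit 0) (nat_lit 6904983037) (nat_lit 532) (nat_lit 2312376982) (nat_lit 76) (nat_lit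 4136738956) (nat_lit 108) (nat_lit 5) (nat_lit 115) (nat_lit 5) (nat_lit 109) (nat_lit 5) (nat_lit 313) (nat_lit 281) (nat_lit 186)) (XT.nd (nat_lit 78) (nat_lit 0) (nat_lit 0) (XT.lf (nat_lit 0) (nat_lit 3841663030) (nat_lit 456) (nat_lit 4906963014) (nat_lit 532) (nat_lit 4842136118) (nat_lit 102) (nat_lit 5) (nat_lit 108) (nat_lit 5) (nat_lit 109) (nat_lit 5) (nat_lit 314) (nat_lit 281) (nat_lit 185)) (XT.lf (nat_lit 0) (nat_lit 10209411018) (nat_lit 456) (nat_lit 444679116) (nat_lit 532) (nat_lit 3180275971) (nat_lit 102) (nat_lit 5) (nat_lit 108) (nat_lit 5) (nat_lit 109) (nat_lit 5) (nat_lit 315) (nat_lit 281) (nat_lit 184))))))))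
noncomputable def xc169 : XT := (XT.nd (nat_lit 1716) (nat_lit 1976) (nat_lit 0) (XT.nd (nat_lit 858) (nat_lit 1520) (nat_lit 0) (XT.nd (nat_lit 390) (nat_lit 1216) (nat_lit 0) (XT.nd (nat_lit 156) (nat_lit 380) (nat_lit 0) (XT.nd (nat_lit 78) (nat_lit 76) (nat_lit 0) (XT.lf (nat_lit 0) (nat_lit 2676950643) (nat_lit 456) (nat_lit 9989044485) (nat_lit 532) (nat_lit 1417839890) (nat_lit 96) (nat_lit 5) (nat_lit 102) (nat_lit 5) (nat_lit 103) (nat_lit 5) (nat_lit 316) (nat_lit 281) (nat_lit 183)) (XT.lf (nat_lit 0) (nat_lit 414831301) (nat_lit 532) (nat_lit 5124524512) (nat_lit 76) (nat_lit 8800597163) (nat_lit 95) (nat_lit 5) (nat_lit 102) (nat_lit 5) (nat_lit 96) (nat_lit 5) (nat_lit 317) (nat_lit 281) (nat_lit 182))) (XT.nd (nat_lit 78) (nat_lit 0) (nat_lit 0) (XT.lf (nat_lit 0) (nat_lit 1340493630) (nat_lit 380) (nat_lit 930598786) (nat_lit 456) (nat_lit 12332359885) (nat_lit 90) (nat_lit 5)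 (nat_lit 95) (nat_lit 5) (nat_lit 96) (nat_lit 5) (nat_lit 318) (nat_lit 281) (nat_lit 181)) (XT.nd (nat_lit 78) (nat_lit 0) (nat_lit 0) (XT.lf (nat_lit 0) (nat_lit 4256475557) (nat_lit 456) (nat_lit 6824222949) (nat_lit 76) (nat_lit 3791986313) (nat_lit 90) (nat_lit 5) (nat_lit 96) (nat_lit 5) (nat_lit 91) (nat_lit 5) (nat_lit 319) (nat_lit 281) (nat_lit 180)) (XT.lf (nat_lit 0) (nat_lit 6295574252) (nat_lit 456) (nat_lit 219238707) (nat_lit 76) (nat_lit 8635387062) (nat_lit 90) (nat_lit 5) (nat_lit 96) (nat_lit 5) (nat_lit 91) (nat_lit 5) (nat_lit 320) (nat_lit 281) (nat_lit 179))))) (XT.nd (nat_lit 234) (nat_lit 456) (nat_lit 0) (XT.nd (nat_lit 78) (nat_lit 380) (nat_lit 0) (XT.lf (nat_lit 0) (nat_lit 6697401308) (nat_lit 380) (nat_lit 1748202962) (nat_lit 456) (nat_lit 6988973104) (nat_lit 85) (nat_lit 5) (nat_lit 90) (nat_lit 5) (nat_lit 91) (nat_lit 5) (nat_lit 321) (nat_lit 281) (nat_lit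 178)) (XT.nd (nat_lit 78) (nat_lit 380) (nat_lit 0) (XT.lf (nat_lit 0) (nat_lit 10678375952) (nat_lit 456) (nat_lit 1949245731) (nat_lit 76) (nat_lit 3099345730) (nat_lit 85) (nat_lit 5) (nat_lit 91) (nat_lit 5) (nat_lit 86) (nat_lit 5) (nat_lit 322) (nat_lit 281) (nat_lit 177)) (XT.lf (nat_lit 0) (nat_lit 5107742750) (nat_lit 380) (nat_lit 7922830284) (nat_lit 456) (nat_lit 2996010608) (nat_lit 80) (nat_lit 5) (nat_lit 85) (nat_lit 5) (nat_lit 86) (nat_lit 5) (nat_lit 323) (nat_lit 281) (nat_lit 176)))) (XT.nd (nat_lit 78) (nat_lit 456) (nat_lit 0) (XT.lf (nat_lit 0) (nat_lit 12399623323) (nat_lit 380) (nat_lit 3059676335) (nat_lit 456) (nat_lit 875736738) (nat_lit 80) (nat_lit 5) (nat_lit 85) (nat_lit 5) (nat_lit 86) (nat_lit 5) (nat_lit 324) (nat_lit 281) (nat_lit 175)) (XT.nd (nat_lit 78) (nat_lit 0) (nat_lit 0) (XT.lf (nat_lit 0) (nat_lit 1319938087) (nat_lit 456) (nat_lit 13378378920)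 (nat_lit 76) (nat_lit 1952954306) (nat_lit 74) (nat_lit 5) (nat_lit 80) (nat_lit 5) (nat_lit 75) (nat_lit 5) (nat_lit 325) (nat_lit 281) (nat_lit 174)) (XT.lf (nat_lit 0) (nat_lit 3621035330) (nat_lit 456) (nat_lit 6253849011) (nat_lit 76) (nat_lit 7100158868) (nat_lit 74) (nat_lit 5) (nat_lit 80) (nat_lit 5) (nat_lit 75) (nat_lit 5) (nat_lit 326) (nat_lit 281) (nat_lit 173)))))) (XT.nd (nat_lit 390) (nat_lit 912) (nat_lit 0) (XT.nd (nat_lit 156) (nat_lit 304) (nat_lit 0) (XT.nd (nat_lit 78) (nat_lit 0) (nat_lit 0) (XT.lf (nat_lit 0) (nat_lit 1089354494) (nat_lit 304) (nat_lit 4899395518) (nat_lit 380) (nat_lit 11319874657) (nat_lit 70) (nat_lit 5) (nat_lit 74) (nat_lit 5) (nat_lit 75) (nat_lit 5) (nat_lit 327) (nat_lit 281) (nat_lit 172)) (XT.lf (nat_lit 0) (nat_lit 8480738712) (nat_lit 380) (nat_lit 8888587906) (nat_lit 76) (nat_lit 281312923) (nat_lit 70) (nat_lit 5) (nat_lit 75) (nat_lit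 5) (nat_lit 71) (nat_lit 5) (nat_lit 328) (nat_lit 281) (nat_lit 171))) (XT.nd (nat_lit 78) (nat_lit 304) (nat_lit 0) (XT.lf (nat_lit 0) (nat_lit 11083665280) (nat_lit 380) (nat_lit 1402541820) (nat_lit 76) (nat_lit 5515644980) (nat_lit 70) (nat_lit 5) (nat_lit 75) (nat_lit 5) (nat_lit 71) (nat_lit 5) (nat_lit 329) (nat_lit 281) (nat_lit 170)) (XT.nd (nat_lit 78) (nat_lit 0) (nat_lit 0) (XT.lf (nat_lit 0) (nat_lit 6417738468) (nat_lit 304) (nat_lit 7396660893) (nat_lit 380) (nat_lit 4547731955) (nat_lit 66) (nat_lit 5) (nat_lit 70) (nat_lit 5) (nat_lit 71) (nat_lit 5) (nat_lit 330) (nat_lit 281) (nat_lit 169)) (XT.lf (nat_lit 0) (nat_lit 14485950272) (nat_lit 304) (nat_lit 2143496986) (nat_lit 380) (nat_lit 2103721189) (nat_lit 66) (nat_lit 5) (nat_lit 70) (nat_lit 5) (nat_lit 71) (nat_lit 5) (nat_lit 331) (nat_lit 281) (nat_lit 168))))) (XT.nd (nat_lit 234) (nat_lit 228) (nat_lit 0) (XT.nd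 (nat_lit 78) (nat_lit 304) (nat_lit 0) (XT.lf (nat_lit 0) (nat_lit 461642370) (nat_lit 380) (nat_lit 15411732029) (nat_lit 76) (nat_lit 3240179964) (nat_lit 61) (nat_lit 5) (nat_lit 66) (nat_lit 5) (nat_lit 62) (nat_lit 5) (nat_lit 332) (nat_lit 281) (nat_lit 167)) (XT.nd (nat_lit 78) (nat_lit 304) (nat_lit 0) (XT.lf (nat_lit 0) (nat_lit 3114814543) (nat_lit 380) (nat_lit 7585547672) (nat_lit 76) (nat_lit 8802790329) (nat_lit 61) (nat_lit 5) (nat_lit 66) (nat_lit 5) (nat_lit 62) (nat_lit 5) (nat_lit 333) (nat_lit 281) (nat_lit 166)) (XT.lf (nat_lit 0) (nat_lit 469631030) (nat_lit 304) (nat_lit 5371391894) (nat_lit 380) (nat_lit 14063631416) (nat_lit 57) (nat_lit 5) (nat_lit 61) (nat_lit 5) (nat_lit 62) (nat_lit 5) (nat_lit 334) (nat_lit 281) (nat_lit 165)))) (XT.nd (nat_lit 78) (nat_lit 228) (nat_lit 0) (XT.lf (nat_lit 0) (nat_lit 8716573296) (nat_lit 380) (nat_lit 11410945476) (nat_lit 76)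 (nat_lit 188674095) (nat_lit 57) (nat_lit 5) (nat_lit 62) (nat_lit 5) (nat_lit 58) (nat_lit 5) (nat_lit 335) (nat_lit 281) (nat_lit 164)) (XT.nd (nat_lit 78) (nat_lit 228) (nat_lit 0) (XT.lf (nat_lit 0) (nat_lit 11720959847) (nat_lit 380) (nat_lit 3214003386) (nat_lit 76) (nat_lit 5803855042) (nat_lit 57) (nat_lit 5) (nat_lit 62) (nat_lit 5) (nat_lit 58) (nat_lit 5) (nat_lit 336) (nat_lit 281) (nat_lit 163)) (XT.lf (nat_lit 0) (nat_lit 5318379172) (nat_lit 228) (nat_lit 9537919004) (nat_lit 304) (nat_lit 6316616960) (nat_lit 54) (nat_lit 5) (nat_lit 57) (nat_lit 5) (nat_lit 58) (nat_lit 5) (nat_lit 337) (nat_lit 281) (nat_lit 162))))))) (XT.nd (nat_lit 858) (nat_lit 836) (nat_lit 0) (XT.nd (nat_lit 390) (nat_lit 532) (nat_lit 0) (XT.nd (nat_lit 156) (nat_lit 304) (nat_lit 0) (XT.nd (nat_lit 78) (nat_lit 304) (nat_lit 0) (XT.lf (nat_lit 0) (nat_lit 14158508293) (nat_lit 228) (nat_lit 3949504640)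 (nat_lit 304) (nat_lit 3511369277) (nat_lit 54) (nat_lit 5) (nat_lit 57) (nat_lit 5) (nat_lit 58) (nat_lit 5) (nat_lit 338) (nat_lit 281) (nat_lit 161)) (XT.lf (nat_lit 0) (nat_lit 1176211884) (nat_lit 304) (nat_lit 20299858896) (nat_lit 380) (nat_lit 602625068) (nat_lit 50) (nat_lit 5) (nat_lit 54) (nat_lit 5) (nat_lit 55) (nat_lit 5) (nat_lit 339) (nat_lit 281) (nat_lit 160))) (XT.nd (nat_lit 78) (nat_lit 228) (nat_lit 0) (XT.lf (nat_lit 0) (nat_lit 2452030493) (nat_lit 380) (nat_lit 12401081055) (nat_lit 76) (nat_lit 7694841941) (nat_lit 49) (nat_lit 5) (nat_lit 54) (nat_lit 5) (nat_lit 50) (nat_lit 5) (nat_lit 340) (nat_lit 281) (nat_lit 159)) (XT.nd (nat_lit 78) (nat_lit 228) (nat_lit 0) (XT.lf (nat_lit 0) (nat_lit 5576662462) (nat_lit 380) (nat_lit 3664240145) (nat_lit 76) (nat_lit 13790508707) (nat_lit 49) (nat_lit 5) (nat_lit 54) (nat_lit 5) (nat_lit 50) (nat_lit 5) (nat_lit 341) (nat_lit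 281) (nat_lit 158)) (XT.lf (nat_lit 0) (nat_lit 5427373297) (nat_lit 228) (nat_lit 3410558418) (nat_lit 304) (nat_lit 14690168695) (nat_lit 46) (nat_lit 5) (nat_lit 49) (nat_lit 5) (nat_lit 50) (nat_lit 5) (nat_lit 342) (nat_lit 281) (nat_lit 157))))) (XT.nd (nat_lit 234) (nat_lit 304) (nat_lit 0) (XT.nd (nat_lit 78) (nat_lit 228) (nat_lit 0) (XT.lf (nat_lit 0) (nat_lit 12250181725) (nat_lit 304) (nat_lit 9210399958) (nat_lit 76) (nat_lit 2577528278) (nat_lit 46) (nat_lit 5) (nat_lit 50) (nat_lit 5) (nat_lit 47) (nat_lit 5) (nat_lit 343) (nat_lit 281) (nat_lit 156)) (XT.nd (nat_lit 78) (nat_lit 228) (nat_lit 0) (XT.lf (nat_lit 0) (nat_lit 15789667023) (nat_lit 304) (nat_lit 100101906) (nat_lit 76) (nat_lit 8672918493) (nat_lit 46) (nat_lit 5) (nat_lit 50) (nat_lit 5) (nat_lit 47) (nat_lit 5) (nat_lit 344) (nat_lit 281) (nat_lit 155)) (XT.lf (nat_lit 0) (nat_lit 9455421196) (nat_lit 228) (nat_lit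 10062166085) (nat_lit 304) (nat_lit 5582960668) (nat_lit 43) (nat_lit 5) (nat_lit 46) (nat_lit 5) (nat_lit 47) (nat_lit 5) (nat_lit 345) (nat_lit 281) (nat_lit 154)))) (XT.nd (nat_lit 78) (nat_lit 304) (nat_lit 0) (XT.lf (nat_lit 0) (nat_lit 19287192228) (nat_lit 228) (nat_lit 4062654670) (nat_lit 304) (nat_lit 2304935212) (nat_lit 43) (nat_lit 5) (nat_lit 46) (nat_lit 5) (nat_lit 47) (nat_lit 5) (nat_lit 346) (nat_lit 281) (nat_lit 153)) (XT.nd (nat_lit 78) (nat_lit 0) (nat_lit 0) (XT.lf (nat_lit 0) (nat_lit 1093924272) (nat_lit 304) (nat_lit 23016693606) (nat_lit 76) (nat_lit 2113426549) (nat_lit 39) (nat_lit 5) (nat_lit 43) (nat_lit 5) (nat_lit 40) (nat_lit 5) (nat_lit 347) (nat_lit 281) (nat_lit 152)) (XT.lf (nat_lit 0) (nat_lit 4645317040) (nat_lit 304) (nat_lit 13684453938) (nat_lit 76) (nat_lit 8477033947) (nat_lit 39) (nat_lit 5) (nat_lit 43) (nat_lit 5) (nat_lit 40) (nat_lit 5) (nat_lit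 348) (nat_lit 281) (nat_lit 151)))))) (XT.nd (nat_lit 468) (nat_lit 456) (nat_lit 0) (XT.nd (nat_lit 234) (nat_lit 152) (nat_lit 0) (XT.nd (nat_lit 78) (nat_lit 228) (nat_lit 0) (XT.lf (nat_lit 0) (nat_lit 8295225672) (nat_lit 304) (nat_lit 4084271688) (nat_lit 76) (nat_lit 15027803093) (nat_lit 39) (nat_lit 5) (nat_lit 43) (nat_lit 5) (nat_lit 40) (nat_lit 5) (nat_lit 349) (nat_lit 281) (nat_lit 150)) (XT.nd (nat_lit 78) (nat_lit 0) (nat_lit 0) (XT.lf (nat_lit 0) (nat_lit 5907518619) (nat_lit 228) (nat_lit 6196107470) (nat_lit 304) (nat_lit 15920726021) (nat_lit 36) (nat_lit 5) (nat_lit 39) (nat_lit 5) (nat_lit 40) (nat_lit 5) (nat_lit 350) (nat_lit 281) (nat_lit 149)) (XT.lf (nat_lit 0) (nat_lit 16061877258) (nat_lit 304) (nat_lit 12389724737) (nat_lit 76) (nat_lit 207256140) (nat_lit 36) (nat_lit 5) (nat_lit 40) (nat_lit 5) (nat_lit 37) (nat_lit 5) (nat_lit 351) (nat_lit 281) (nat_lit 148))))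 (XT.nd (nat_lit 78) (nat_lit 152) (nat_lit 0) (XT.lf (nat_lit 0) (nat_lit 20192734579) (nat_lit 304) (nat_lit 2443571345) (nat_lit 76) (nat_lit 6674488122) (nat_lit 36) (nat_lit 5) (nat_lit 40) (nat_lit 5) (nat_lit 37) (nat_lit 5) (nat_lit 352) (nat_lit 281) (nat_lit 147)) (XT.nd (nat_lit 78) (nat_lit 0) (nat_lit 0) (XT.lf (nat_lit 0) (nat_lit 7944912123) (nat_lit 152) (nat_lit 16571705995) (nat_lit 228) (nat_lit 5463607063) (nat_lit 34) (nat_lit 5) (nat_lit 36) (nat_lit 5) (nat_lit 37) (nat_lit 5) (nat_lit 353) (nat_lit 281) (nat_lit 146)) (XT.lf (nat_lit 0) (nat_lit 18684161246) (nat_lit 152) (nat_lit 10303567569) (nat_lit 228) (nat_lit 1681494978) (nat_lit 34) (nat_lit 5) (nat_lit 36) (nat_lit 5) (nat_lit 37) (nat_lit 5) (nat_lit 354) (nat_lit 281) (nat_lit 145))))) (XT.nd (nat_lit 234) (nat_lit 152) (nat_lit 0) (XT.nd (nat_lit 78) (nat_lit 228) (nat_lit 0) (XT.lf (nat_lit 0) (nat_lit 2163841574)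 (nat_lit 228) (nat_lit 1665396780) (nat_lit 76) (nat_lit 27549235840) (nat_lit 33) (nat_lit 5) (nat_lit 36) (nat_lit 5) (nat_lit 34) (nat_lit 5) (nat_lit 355) (nat_lit 281) (nat_lit 144)) (XT.nd (nat_lit 78) (nat_lit 0) (nat_lit 0) (XT.lf (nat_lit 0) (nat_lit 6199817742) (nat_lit 304) (nat_lit 23019804148) (nat_lit 76) (nat_lit 2885617514) (nat_lit 30) (nat_lit 5) (nat_lit 34) (nat_lit 5) (nat_lit 31) (nat_lit 5) (nat_lit 356) (nat_lit 281) (nat_lit 143)) (XT.lf (nat_lit 0) (nat_lit 10405004696) (nat_lit 304) (nat_lit 12709018483) (nat_lit 76) (nat_lit 9738349210) (nat_lit 30) (nat_lit 5) (nat_lit 34) (nat_lit 5) (nat_lit 31) (nat_lit 5) (nat_lit 357) (nat_lit 281) (nat_lit 142)))) (XT.nd (nat_lit 78) (nat_lit 152) (nat_lit 0) (XT.lf (nat_lit 0) (nat_lit 14729778813) (nat_lit 304) (nat_lit 2099168401) (nat_lit 76) (nat_lit 16793177713) (nat_lit 30) (nat_lit 5) (nat_lit 34) (nat_lit 5) (nat_lit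 31) (nat_lit 5) (nat_lit 358) (nat_lit 281) (nat_lit 141)) (XT.nd (nat_lit 78) (nat_lit 0) (nat_lit 0) (XT.lf (nat_lit 0) (nat_lit 8994532568) (nat_lit 152) (nat_lit 10269847403) (nat_lit 228) (nat_lit 15148195815) (nat_lit 28) (nat_lit 5) (nat_lit 30) (nat_lit 5) (nat_lit 31) (nat_lit 5) (nat_lit 359) (nat_lit 281) (nat_lit 140)) (XT.lf (nat_lit 0) (nat_lit 20454212768) (nat_lit 152) (nat_lit 3495717684) (nat_lit 228) (nat_lit 11276370401) (nat_lit 28) (nat_lit 5) (nat_lit 30) (nat_lit 5) (nat_lit 31) (nat_lit 5) (nat_lit 360) (nat_lit 281) (nat_lit 139))))))))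
noncomputable def xc170 : XT := (XT.nd (nat_lit 1716) (nat_lit 304) (nat_lit 0) (XT.nd (nat_lit 858) (nat_lit 380) (nat_lit 0) (XT.nd (nat_lit 390) (nat_lit 152) (nat_lit 0) (XT.nd (nat_lit 156) (nat_lit 228) (nat_lit 0) (XT.nd (nat_lit 78) (nat_lit 152) (nat_lit 0) (XT.lf (nat_lit 0) (nat_lit 28803378582) (nat_lit 228) (nat_lit 3849954844) (nat_lit 76) (nat_lit 3410292100) (nat_lit 28) (nat_lit 5) (nat_lit 31) (nat_lit 5) (nat_lit 29) (nat_lit 5) (nat_lit 361) (nat_lit 281) (nat_lit 138)) (XT.lf (nat_lit 0) (nat_lit 7502176363) (nat_lit 152) (nat_lit 26401022616) (nat_lit 228) (nat_lit 3019855453) (nat_lit 26) (nat_lit 5) (nat_lit 28) (nat_lit 5) (nat_lit 29) (nat_lit 5) (nat_lit 362) (nat_lit 281) (nat_lit 137))) (XT.nd (nat_lit 78) (nat_lit 152) (nat_lit 0) (XT.lf (nat_lit 0) (nat_lit 1354770762) (nat_lit 228) (nat_lit 18556130527) (nat_lit 76) (nat_lit 17895983710) (nat_lit 25) (nat_lit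 5) (nat_lit 28) (nat_lit 5) (nat_lit 26) (nat_lit 5) (nat_lit 363) (nat_lit 281) (nat_lit 136)) (XT.nd (nat_lit 78) (nat_lit 152) (nat_lit 0) (XT.lf (nat_lit 0) (nat_lit 5794173134) (nat_lit 228) (nat_lit 7404546078) (nat_lit 76) (nat_lit 25517794199) (nat_lit 25) (nat_lit 5) (nat_lit 28) (nat_lit 5) (nat_lit 26) (nat_lit 5) (nat_lit 364) (nat_lit 281) (nat_lit 135)) (XT.lf (nat_lit 0) (nat_lit 4153701759) (nat_lit 152) (nat_lit 6247385170) (nat_lit 228) (nat_lit 29251320582) (nat_lit 23) (nat_lit 5) (nat_lit 25) (nat_lit 5) (nat_lit 26) (nat_lit 5) (nat_lit 365) (nat_lit 281) (nat_lit 134))))) (XT.nd (nat_lit 234) (nat_lit 152) (nat_lit 0) (XT.nd (nat_lit 78) (nat_lit 0) (nat_lit 0) (XT.lf (nat_lit 0) (nat_lit 15224938664) (nat_lit 228) (nat_lit 24422154372) (nat_lit 76) (nat_lit 966930005) (nat_lit 23) (nat_lit 5) (nat_lit 26) (nat_lit 5) (nat_lit 24) (nat_lit 5) (nat_lit 366) (nat_lit 281)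 (nat_lit 133)) (XT.nd (nat_lit 78) (nat_lit 0) (nat_lit 0) (XT.lf (nat_lit 0) (nat_lit 20249970391) (nat_lit 228) (nat_lit 13083890226) (nat_lit 76) (nat_lit 8268938816) (nat_lit 23) (nat_lit 5) (nat_lit 26) (nat_lit 5) (nat_lit 24) (nat_lit 5) (nat_lit 367) (nat_lit 281) (nat_lit 132)) (XT.lf (nat_lit 0) (nat_lit 25420519226) (nat_lit 228) (nat_lit 1413952407) (nat_lit 76) (nat_lit 15786930647) (nat_lit 23) (nat_lit 5) (nat_lit 26) (nat_lit 5) (nat_lit 24) (nat_lit 5) (nat_lit 368) (nat_lit 281) (nat_lit 131)))) (XT.nd (nat_lit 78) (nat_lit 0) (nat_lit 0) (XT.lf (nat_lit 0) (nat_lit 10808774234) (nat_lit 152) (nat_lit 20036229442) (nat_lit 228) (nat_lit 12822600931) (nat_lit 21) (nat_lit 5) (nat_lit 23) (nat_lit 5) (nat_lit 24) (nat_lit 5) (nat_lit 369) (nat_lit 281) (nat_lit 130)) (XT.nd (nat_lit 78) (nat_lit 0) (nat_lit 0) (XT.lf (nat_lit 0) (nat_lit 23419020546) (nat_lit 152) (nat_lit 13022468549)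 (nat_lit 228) (nat_lit 8303431708) (nat_lit 21) (nat_lit 5) (nat_lit 23) (nat_lit 5) (nat_lit 24) (nat_lit 5) (nat_lit 370) (nat_lit 281) (nat_lit 129)) (XT.lf (nat_lit 0) (nat_lit 36399664765) (nat_lit 152) (nat_lit 5801338573) (nat_lit 228) (nat_lit 3653704745) (nat_lit 21) (nat_lit 5) (nat_lit 23) (nat_lit 5) (nat_lit 24) (nat_lit 5) (nat_lit 371) (nat_lit 281) (nat_lit 128)))))) (XT.nd (nat_lit 390) (nat_lit 76) (nat_lit 0) (XT.nd (nat_lit 156) (nat_lit 152) (nat_lit 0) (XT.nd (nat_lit 78) (nat_lit 0) (nat_lit 0) (XT.lf (nat_lit 0) (nat_lit 1151649283) (nat_lit 152) (nat_lit 44204837537) (nat_lit 76) (nat_lit 1639831208) (nat_lit 19) (nat_lit 5) (nat_lit 21) (nat_lit 5) (nat_lit 20) (nat_lit 5) (nat_lit 372) (nat_lit 281) (nat_lit 127)) (XT.lf (nat_lit 0) (nat_lit 6176849956) (nat_lit 152) (nat_lit 32672473342) (nat_lit 76) (nat_lit 9317299209) (nat_lit 19) (nat_lit 5) (nat_lit 21) (nat_lit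 5) (nat_lit 20) (nat_lit 5) (nat_lit 373) (nat_lit 281) (nat_lit 126))) (XT.nd (nat_lit 78) (nat_lit 152) (nat_lit 0) (XT.lf (nat_lit 0) (nat_lit 11348204858) (nat_lit 152) (nat_lit 20801731344) (nat_lit 76) (nat_lit 17222242969) (nat_lit 19) (nat_lit 5) (nat_lit 21) (nat_lit 5) (nat_lit 20) (nat_lit 5) (nat_lit 374) (nat_lit 281) (nat_lit 125)) (XT.nd (nat_lit 78) (nat_lit 152) (nat_lit 0) (XT.lf (nat_lit 0) (nat_lit 16670232649) (nat_lit 152) (nat_lit 8582239048) (nat_lit 76) (nat_lit 25361569723) (nat_lit 19) (nat_lit 5) (nat_lit 21) (nat_lit 5) (nat_lit 20) (nat_lit 5) (nat_lit 375) (nat_lit 281) (nat_lit 124)) (XT.lf (nat_lit 0) (nat_lit 4076222554) (nat_lit 152) (nat_lit 18110544235) (nat_lit 228) (nat_lit 29705352092) (nat_lit 17) (nat_lit 5) (nat_lit 19) (nat_lit 5) (nat_lit 20) (nat_lit 5) (nat_lit 376) (nat_lit 281) (nat_lit 123))))) (XT.nd (nat_lit 234) (nat_lit 76) (nat_lit 0) (XT.nd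 (nat_lit 78) (nat_lit 0) (nat_lit 0) (XT.lf (nat_lit 0) (nat_lit 17283278415) (nat_lit 152) (nat_lit 10667902910) (nat_lit 228) (nat_lit 25254890385) (nat_lit 17) (nat_lit 5) (nat_lit 19) (nat_lit 5) (nat_lit 20) (nat_lit 5) (nat_lit 377) (nat_lit 281) (nat_lit 122)) (XT.nd (nat_lit 78) (nat_lit 0) (nat_lit 0) (XT.lf (nat_lit 0) (nat_lit 30879665295) (nat_lit 152) (nat_lit 3004708230) (nat_lit 228) (nat_lit 20675198682) (nat_lit 17) (nat_lit 5) (nat_lit 19) (nat_lit 5) (nat_lit 20) (nat_lit 5) (nat_lit 378) (nat_lit 281) (nat_lit 121)) (XT.lf (nat_lit 0) (nat_lit 40038492413) (nat_lit 228) (nat_lit 11123504194) (nat_lit 76) (nat_lit 4790397497) (nat_lit 17) (nat_lit 5) (nat_lit 20) (nat_lit 5) (nat_lit 18) (nat_lit 4) (nat_lit 379) (nat_lit 281) (nat_lit 120)))) (XT.nd (nat_lit 78) (nat_lit 0) (nat_lit 0) (XT.lf (nat_lit 0) (nat_lit 1808549684) (nat_lit 76) (nat_lit 44611878685) (nat_lit 152)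 (nat_lit 10965280668) (nat_lit 16) (nat_lit 5) (nat_lit 17) (nat_lit 5) (nat_lit 18) (nat_lit 4) (nat_lit 380) (nat_lit 281) (nat_lit 119)) (XT.nd (nat_lit 78) (nat_lit 0) (nat_lit 0) (XT.lf (nat_lit 0) (nat_lit 15350067991) (nat_lit 76) (nat_lit 37752191153) (nat_lit 152) (nat_lit 5756515236) (nat_lit 16) (nat_lit 5) (nat_lit 17) (nat_lit 5) (nat_lit 18) (nat_lit 4) (nat_lit 381) (nat_lit 281) (nat_lit 118)) (XT.lf (nat_lit 0) (nat_lit 29291503577) (nat_lit 76) (nat_lit 30689265693) (nat_lit 152) (nat_lit 395379627) (nat_lit 16) (nat_lit 5) (nat_lit 17) (nat_lit 5) (nat_lit 18) (nat_lit 4) (nat_lit 382) (nat_lit 281) (nat_lit 117))))))) (XT.nd (nat_lit 32994) (nat_lit 0) (nat_lit 11932) (XT.nd (nat_lit 390) (nat_lit 76) (nat_lit 0) (XT.nd (nat_lit 156) (nat_lit 152) (nat_lit 0) (XT.nd (nat_lit 78) (nat_lit 0) (nat_lit 0) (XT.lf (nat_lit 0) (nat_lit 5022846159) (nat_lit 152) (nat_lit 18343363758)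 (nat_lit 76) (nat_lit 38571471222) (nat_lit 15) (nat_lit 5) (nat_lit 17) (nat_lit 5) (nat_lit 16) (nat_lit 5) (nat_lit 383) (nat_lit 281) (nat_lit 116)) (XT.lf (nat_lit 0) (nat_lit 10592074256) (nat_lit 152) (nat_lit 5229798613) (nat_lit 76) (nat_lit 47724180582) (nat_lit 15) (nat_lit 5) (nat_lit 17) (nat_lit 5) (nat_lit 16) (nat_lit 5) (nat_lit 384) (nat_lit 281) (nat_lit 115))) (XT.nd (nat_lit 78) (nat_lit 0) (nat_lit 0) (XT.lf (nat_lit 0) (nat_lit 8435924471) (nat_lit 152) (nat_lit 7970053058) (nat_lit 228) (nat_lit 48794374960) (nat_lit 13) (nat_lit 5) (nat_lit 15) (nat_lit 5) (nat_lit 16) (nat_lit 5) (nat_lit 385) (nat_lit 281) (nat_lit 114)) (XT.nd (nat_lit 78) (nat_lit 0) (nat_lit 0) (XT.lf (nat_lit 0) (nat_lit 22445289554) (nat_lit 228) (nat_lit 44291412750) (nat_lit 76) (nat_lit 166051847) (nat_lit 13) (nat_lit 5) (nat_lit 16) (nat_lit 5) (nat_lit 14) (nat_lit 4) (nat_lit 386) (nat_lit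 281) (nat_lit 113)) (XT.lf (nat_lit 0) (nat_lit 28741323715) (nat_lit 228) (nat_lit 31528837783) (nat_lit 76) (nat_lit 8383803388) (nat_lit 13) (nat_lit 5) (nat_lit 16) (nat_lit 5) (nat_lit 14) (nat_lit 4) (nat_lit 387) (nat_lit 281) (nat_lit 112))))) (XT.nd (nat_lit 32370) (nat_lit 0) (nat_lit 12692) (XT.nd (nat_lit 78) (nat_lit 76) (nat_lit 0) (XT.lf (nat_lit 0) (nat_lit 35222968374) (nat_lit 228) (nat_lit 18388938326) (nat_lit 76) (nat_lit 16845906564) (nat_lit 13) (nat_lit 5) (nat_lit 16) (nat_lit 5) (nat_lit 14) (nat_lit 4) (nat_lit 388) (nat_lit 281) (nat_lit 111)) (XT.nd (nat_lit 78) (nat_lit 76) (nat_lit 0) (XT.lf (nat_lit 0) (nat_lit 41895887106) (nat_lit 228) (nat_lit 4860232915) (nat_lit 76) (nat_lit 25559755448) (nat_lit 13) (nat_lit 5) (nat_lit 16) (nat_lit 5) (nat_lit 14) (nat_lit 4) (nat_lit 389) (nat_lit 281) (nat_lit 110)) (XT.lf (nat_lit 0) (nat_lit 9249592515) (nat_lit 76)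 (nat_lit 39605230841) (nat_lit 152) (nat_lit 25372284306) (nat_lit 12) (nat_lit 5) (nat_lit 13) (nat_lit 5) (nat_lit 14) (nat_lit 4) (nat_lit 390) (nat_lit 281) (nat_lit 109)))) (XT.nd (nat_lit 78) (nat_lit 0) (nat_lit 0) (XT.lf (nat_lit 0) (nat_lit 156544356) (nat_lit 988) (nat_lit 2064692202) (nat_lit 988) (nat_lit 2064692202) (nat_lit 179) (nat_lit 3) (nat_lit 192) (nat_lit 3) (nat_lit 192) (nat_lit 5) (nat_lit 282) (nat_lit 282) (nat_lit 216)) (XT.nd (nat_lit 78) (nat_lit 0) (nat_lit 76) (XT.lf (nat_lit 0) (nat_lit 1235180545) (nat_lit 988) (nat_lit 519085856) (nat_lit 988) (nat_lit 6916185884) (nat_lit 179) (nat_lit 3) (nat_lit 192) (nat_lit 3) (nat_lit 192) (nat_lit 5) (nat_lit 283) (nat_lit 282) (nat_lit 215)) (XT.lf (nat_lit 0) (nat_lit 2190546429) (nat_lit 912) (nat_lit 5538123801) (nat_lit 988) (nat_lit 1043262376) (nat_lit 180) (nat_lit 5) (nat_lit 192) (nat_lit 5) (nat_lit 193) (nat_lit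 5) (nat_lit 284) (nat_lit 282) (nat_lit 214)))))) (XT.nd (nat_lit 468) (nat_lit 836) (nat_lit 0) (XT.nd (nat_lit 234) (nat_lit 0) (nat_lit 76) (XT.nd (nat_lit 78) (nat_lit 0) (nat_lit 0) (XT.lf (nat_lit 0) (nat_lit 3162459251) (nat_lit 912) (nat_lit 1803396646) (nat_lit 988) (nat_lit 3911058119) (nat_lit 180) (nat_lit 5) (nat_lit 192) (nat_lit 5) (nat_lit 193) (nat_lit 5) (nat_lit 285) (nat_lit 282) (nat_lit 213)) (XT.nd (nat_lit 78) (nat_lit 0) (nat_lit 76) (XT.lf (nat_lit 76) (nat_lit 2064624915) (nat_lit 0) (nat_lit 2084987232) (nat_lit 988) (nat_lit 4835940782) (nat_lit 181) (nat_lit 5) (nat_lit 180) (nat_lit 5) (nat_lit 193) (nat_lit 5) (nat_lit 286) (nat_lit 282) (nat_lit 212)) (XT.lf (nat_lit 0) (nat_lit 5160426116) (nat_lit 912) (nat_lit 3039972743) (nat_lit 988) (nat_lit 897318660) (nat_lit 181) (nat_lit 5) (nat_lit 193) (nat_lit 5) (nat_lit 194) (nat_lit 5) (nat_lit 287) (nat_lit 282)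 (nat_lit 211)))) (XT.nd (nat_lit 78) (nat_lit 0) (nat_lit 0) (XT.lf (nat_lit 76) (nat_lit 935546485) (nat_lit 0) (nat_lit 5263784726) (nat_lit 988) (nat_lit 3014068178) (nat_lit 182) (nat_lit 5) (nat_lit 181) (nat_lit 5) (nat_lit 194) (nat_lit 5) (nat_lit 288) (nat_lit 282) (nat_lit 210)) (XT.nd (nat_lit 78) (nat_lit 0) (nat_lit 76) (XT.lf (nat_lit 76) (nat_lit 5073361558) (nat_lit 0) (nat_lit 2195612744) (nat_lit 988) (nat_lit 2063673146) (nat_lit 182) (nat_lit 5) (nat_lit 181) (nat_lit 5) (nat_lit 194) (nat_lit 5) (nat_lit 289) (nat_lit 282) (nat_lit 209)) (XT.lf (nat_lit 0) (nat_lit 8349869248) (nat_lit 912) (nat_lit 149256251) (nat_lit 988) (nat_lit 957053017) (nat_lit 182) (nat_lit 5) (nat_lit 194) (nat_lit 5) (nat_lit 195) (nat_lit 5) (nat_lit 290) (nat_lit 282) (nat_lit 208))))) (XT.nd (nat_lit 234) (nat_lit 0) (nat_lit 76) (XT.nd (nat_lit 78) (nat_lit 988) (nat_lit 0) (XT.lf (nat_lit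 76) (nat_lit 4123556294) (nat_lit 0) (nat_lit 5371778811) (nat_lit 988) (nat_lit 87194190) (nat_lit 183) (nat_lit 5) (nat_lit 182) (nat_lit 5) (nat_lit 195) (nat_lit 5) (nat_lit 291) (nat_lit 282) (nat_lit 207)) (XT.nd (nat_lit 78) (nat_lit 0) (nat_lit 76) (XT.lf (nat_lit 0) (nat_lit 916313004) (nat_lit 988) (nat_lit 1213984789) (nat_lit 1064) (nat_lit 7582990850) (nat_lit 169) (nat_lit 5) (nat_lit 182) (nat_lit 5) (nat_lit 183) (nat_lit 5) (nat_lit 292) (nat_lit 282) (nat_lit 206)) (XT.lf (nat_lit 0) (nat_lit 1962877119) (nat_lit 988) (nat_lit 6659133058) (nat_lit 1064) (nat_lit 1225565041) (nat_lit 170) (nat_lit 5) (nat_lit 183) (nat_lit 5) (nat_lit 184) (nat_lit 5) (nat_lit 293) (nat_lit 282) (nat_lit 205)))) (XT.nd (nat_lit 78) (nat_lit 0) (nat_lit 0) (XT.lf (nat_lit 0) (nat_lit 3046948567) (nat_lit 988) (nat_lit 2278826768) (nat_lit 1064) (nat_lit 4660001137) (nat_lit 170) (nat_lit 5) (nat_lit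 183) (nat_lit 5) (nat_lit 184) (nat_lit 5) (nat_lit 294) (nat_lit 282) (nat_lit 204)) (XT.nd (nat_lit 78) (nat_lit 0) (nat_lit 76) (XT.lf (nat_lit 76) (nat_lit 2257604721) (nat_lit 0) (nat_lit 1901073972) (nat_lit 1064) (nat_lit 5969658344) (nat_lit 171) (nat_lit 5) (nat_lit 170) (nat_lit 5) (nat_lit 184) (nat_lit 5) (nat_lit 295) (nat_lit 282) (nat_lit 203)) (XT.lf (nat_lit 0) (nat_lit 5316724245) (nat_lit 988) (nat_lit 3333561377) (nat_lit 1064) (nat_lit 1624565301) (nat_lit 171) (nat_lit 5) (nat_lit 184) (nat_lit 5) (nat_lit 185) (nat_lit 5) (nat_lit 296) (nat_lit 282) (nat_lit 202))))))))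
noncomputable def xc171 : XT := (XT.nd (nat_lit 1716) (nat_lit 3496) (nat_lit 0) (XT.nd (nat_lit 858) (nat_lit 2508) (nat_lit 0) (XT.nd (nat_lit 390) (nat_lit 2280) (nat_lit 0) (XT.nd (nat_lit 156) (nat_lit 988) (nat_lit 0) (XT.nd (nat_lit 78) (nat_lit 0) (nat_lit 0) (XT.lf (nat_lit 76) (nat_lit 1327328681) (nat_lit 0) (nat_lit 5188609094) (nat_lit 1064) (nat_lit 3909693156) (nat_lit 172) (nat_lit 5) (nat_lit 171) (nat_lit 5) (nat_lit 185) (nat_lit 5) (nat_lit 297) (nat_lit 282) (nat_lit 201)) (XT.lf (nat_lit 76) (nat_lit 6177096650) (nat_lit 0) (nat_lit 1583085802) (nat_lit 1064) (nat_lit 2820541899) (nat_lit 172) (nat_lit 5) (nat_lit 171) (nat_lit 5) (nat_lit 185) (nat_lit 5) (nat_lit 298) (nat_lit 282) (nat_lit 200))) (XT.nd (nat_lit 78) (nat_lit 76) (nat_lit 0) (XT.lf (nat_lit 0) (nat_lit 399657020) (nat_lit 988) (nat_lit 8642578583) (nat_lit 1064) (nat_lit 1698280395) (nat_lit 159) (nat_lit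 5) (nat_lit 172) (nat_lit 5) (nat_lit 173) (nat_lit 5) (nat_lit 299) (nat_lit 282) (nat_lit 199)) (XT.nd (nat_lit 78) (nat_lit 76) (nat_lit 0) (XT.lf (nat_lit 0) (nat_lit 5401967769) (nat_lit 988) (nat_lit 4997438097) (nat_lit 1064) (nat_lit 504653977) (nat_lit 159) (nat_lit 5) (nat_lit 172) (nat_lit 5) (nat_lit 173) (nat_lit 5) (nat_lit 300) (nat_lit 282) (nat_lit 198)) (XT.lf (nat_lit 0) (nat_lit 687705192) (nat_lit 1064) (nat_lit 544433115) (nat_lit 76) (nat_lit 9840905454) (nat_lit 158) (nat_lit 5) (nat_lit 172) (nat_lit 5) (nat_lit 159) (nat_lit 5) (nat_lit 301) (nat_lit 282) (nat_lit 197))))) (XT.nd (nat_lit 234) (nat_lit 532) (nat_lit 0) (XT.nd (nat_lit 78) (nat_lit 684) (nat_lit 0) (XT.lf (nat_lit 0) (nat_lit 1953879408) (nat_lit 1140) (nat_lit 6643756846) (nat_lit 76) (nat_lit 2647918608) (nat_lit 144) (nat_lit 5) (nat_lit 159) (nat_lit 5) (nat_lit 145) (nat_lit 5) (nat_lit 302) (nat_lit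 282) (nat_lit 196)) (XT.nd (nat_lit 78) (nat_lit 684) (nat_lit 0) (XT.lf (nat_lit 0) (nat_lit 3254026602) (nat_lit 1140) (nat_lit 1541048275) (nat_lit 76) (nat_lit 6628338421) (nat_lit 144) (nat_lit 5) (nat_lit 159) (nat_lit 5) (nat_lit 145) (nat_lit 5) (nat_lit 303) (nat_lit 282) (nat_lit 195)) (XT.lf (nat_lit 0) (nat_lit 3769566839) (nat_lit 684) (nat_lit 838716875) (nat_lit 760) (nat_lit 6997920739) (nat_lit 135) (nat_lit 5) (nat_lit 144) (nat_lit 5) (nat_lit 145) (nat_lit 5) (nat_lit 304) (nat_lit 282) (nat_lit 194)))) (XT.nd (nat_lit 78) (nat_lit 532) (nat_lit 0) (XT.lf (nat_lit 0) (nat_lit 6029321640) (nat_lit 760) (nat_lit 2573424735) (nat_lit 76) (nat_lit 3190997045) (nat_lit 135) (nat_lit 5) (nat_lit 145) (nat_lit 5) (nat_lit 136) (nat_lit 5) (nat_lit 305) (nat_lit 282) (nat_lit 193)) (XT.nd (nat_lit 78) (nat_lit 0) (nat_lit 0) (XT.lf (nat_lit 0) (nat_lit 2876839310) (nat_lit 532) (nat_lit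 4632039419) (nat_lit 608) (nat_lit 4477600439) (nat_lit 128) (nat_lit 5) (nat_lit 135) (nat_lit 5) (nat_lit 136) (nat_lit 5) (nat_lit 306) (nat_lit 282) (nat_lit 192)) (XT.lf (nat_lit 0) (nat_lit 8524868494) (nat_lit 532) (nat_lit 514277314) (nat_lit 608) (nat_lit 3145707357) (nat_lit 128) (nat_lit 5) (nat_lit 135) (nat_lit 5) (nat_lit 136) (nat_lit 5) (nat_lit 307) (nat_lit 282) (nat_lit 191)))))) (XT.nd (nat_lit 390) (nat_lit 1444) (nat_lit 0) (XT.nd (nat_lit 156) (nat_lit 532) (nat_lit 0) (XT.nd (nat_lit 78) (nat_lit 0) (nat_lit 0) (XT.lf (nat_lit 0) (nat_lit 1936537701) (nat_lit 532) (nat_lit 8714145106) (nat_lit 608) (nat_lit 1737479259) (nat_lit 121) (nat_lit 5) (nat_lit 128) (nat_lit 5) (nat_lit 129) (nat_lit 5) (nat_lit 308) (nat_lit 282) (nat_lit 190)) (XT.lf (nat_lit 0) (nat_lit 7752385937) (nat_lit 532) (nat_lit 4581479751) (nat_lit 608) (nat_lit 263048797) (nat_lit 121) (nat_lit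 5) (nat_lit 128) (nat_lit 5) (nat_lit 129) (nat_lit 5) (nat_lit 309) (nat_lit 282) (nat_lit 189))) (XT.nd (nat_lit 78) (nat_lit 0) (nat_lit 0) (XT.lf (nat_lit 0) (nat_lit 918357660) (nat_lit 456) (nat_lit 303206096) (nat_lit 532) (nat_lit 11590330866) (nat_lit 114) (nat_lit 5) (nat_lit 120) (nat_lit 5) (nat_lit 121) (nat_lit 5) (nat_lit 310) (nat_lit 282) (nat_lit 188)) (XT.nd (nat_lit 78) (nat_lit 0) (nat_lit 0) (XT.lf (nat_lit 0) (nat_lit 2816260303) (nat_lit 532) (nat_lit 6139624717) (nat_lit 76) (nat_lit 4075275604) (nat_lit 114) (nat_lit 5) (nat_lit 121) (nat_lit 5) (nat_lit 115) (nat_lit 5) (nat_lit 311) (nat_lit 282) (nat_lit 187)) (XT.lf (nat_lit 0) (nat_lit 4444308035) (nat_lit 532) (nat_lit 234226618) (nat_lit 76) (nat_lit 8578943065) (nat_lit 114) (nat_lit 5) (nat_lit 121) (nat_lit 5) (nat_lit 115) (nat_lit 5) (nat_lit 312) (nat_lit 282) (nat_lit 186))))) (XT.nd (nat_lit 234) (nat_lit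 532) (nat_lit 0) (XT.nd (nat_lit 78) (nat_lit 456) (nat_lit 0) (XT.lf (nat_lit 0) (nat_lit 5946774992) (nat_lit 456) (nat_lit 214603962) (nat_lit 532) (nat_lit 7328037221) (nat_lit 108) (nat_lit 5) (nat_lit 114) (nat_lit 5) (nat_lit 115) (nat_lit 5) (nat_lit 313) (nat_lit 282) (nat_lit 185)) (XT.nd (nat_lit 78) (nat_lit 456) (nat_lit 0) (XT.lf (nat_lit 0) (nat_lit 7957822451) (nat_lit 532) (nat_lit 1470348910) (nat_lit 76) (nat_lit 4299341826) (nat_lit 108) (nat_lit 5) (nat_lit 115) (nat_lit 5) (nat_lit 109) (nat_lit 5) (nat_lit 314) (nat_lit 282) (nat_lit 184)) (XT.lf (nat_lit 0) (nat_lit 4859377015) (nat_lit 456) (nat_lit 4981441024) (nat_lit 532) (nat_lit 4130990467) (nat_lit 102) (nat_lit 5) (nat_lit 108) (nat_lit 5) (nat_lit 109) (nat_lit 5) (nat_lit 315) (nat_lit 282) (nat_lit 183)))) (XT.nd (nat_lit 78) (nat_lit 532) (nat_lit 0) (XT.lf (nat_lit 0) (nat_lit 11391872081) (nat_lit 456) (nat_lit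 387406984) (nat_lit 532) (nat_lit 2444218488) (nat_lit 102) (nat_lit 5) (nat_lit 108) (nat_lit 5) (nat_lit 109) (nat_lit 5) (nat_lit 316) (nat_lit 282) (nat_lit 182)) (XT.nd (nat_lit 78) (nat_lit 76) (nat_lit 0) (XT.lf (nat_lit 0) (nat_lit 3649821409) (nat_lit 456) (nat_lit 10187495560) (nat_lit 532) (nat_lit 643610754) (nat_lit 96) (nat_lit 5) (nat_lit 102) (nat_lit 5) (nat_lit 103) (nat_lit 5) (nat_lit 317) (nat_lit 282) (nat_lit 181)) (XT.lf (nat_lit 0) (nat_lit 1204777521) (nat_lit 532) (nat_lit 4394635632) (nat_lit 76) (nat_lit 9145827847) (nat_lit 95) (nat_lit 5) (nat_lit 102) (nat_lit 5) (nat_lit 96) (nat_lit 5) (nat_lit 318) (nat_lit 282) (nat_lit 180))))))) (XT.nd (nat_lit 858) (nat_lit 1596) (nat_lit 0) (XT.nd (nat_lit 390) (nat_lit 1140) (nat_lit 0) (XT.nd (nat_lit 156) (nat_lit 380) (nat_lit 0) (XT.nd (nat_lit 78) (nat_lit 0) (nat_lit 0) (XT.lf (nat_lit 0) (nat_lit 2255670068) (nat_lit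 380) (nat_lit 846821399) (nat_lit 456) (nat_lit 11914627068) (nat_lit 90) (nat_lit 5) (nat_lit 95) (nat_lit 5) (nat_lit 96) (nat_lit 5) (nat_lit 319) (nat_lit 282) (nat_lit 179)) (XT.lf (nat_lit 0) (nat_lit 5126247457) (nat_lit 456) (nat_lit 6156789172) (nat_lit 76) (nat_lit 4012071894) (nat_lit 90) (nat_lit 5) (nat_lit 96) (nat_lit 5) (nat_lit 91) (nat_lit 5) (nat_lit 320) (nat_lit 282) (nat_lit 178))) (XT.nd (nat_lit 78) (nat_lit 0) (nat_lit 0) (XT.lf (nat_lit 0) (nat_lit 633299826) (nat_lit 380) (nat_lit 6577693040) (nat_lit 456) (nat_lit 8370465632) (nat_lit 85) (nat_lit 5) (nat_lit 90) (nat_lit 5) (nat_lit 91) (nat_lit 5) (nat_lit 321) (nat_lit 282) (nat_lit 177)) (XT.nd (nat_lit 78) (nat_lit 0) (nat_lit 0) (XT.lf (nat_lit 0) (nat_lit 7736779534) (nat_lit 380) (nat_lit 1669731960) (nat_lit 456) (nat_lit 6468468308) (nat_lit 85) (nat_lit 5) (nat_lit 90) (nat_lit 5) (nat_lit 91) (nat_lit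 5) (nat_lit 322) (nat_lit 282) (nat_lit 176)) (XT.lf (nat_lit 0) (nat_lit 11686880192) (nat_lit 456) (nat_lit 1172934146) (nat_lit 76) (nat_lit 3316949818) (nat_lit 85) (nat_lit 5) (nat_lit 91) (nat_lit 5) (nat_lit 86) (nat_lit 5) (nat_lit 323) (nat_lit 282) (nat_lit 175))))) (XT.nd (nat_lit 234) (nat_lit 304) (nat_lit 0) (XT.nd (nat_lit 78) (nat_lit 456) (nat_lit 0) (XT.lf (nat_lit 0) (nat_lit 6087579784) (nat_lit 380) (nat_lit 8009965943) (nat_lit 456) (nat_lit 2388225905) (nat_lit 80) (nat_lit 5) (nat_lit 85) (nat_lit 5) (nat_lit 86) (nat_lit 5) (nat_lit 324) (nat_lit 282) (nat_lit 174)) (XT.nd (nat_lit 78) (nat_lit 456) (nat_lit 0) (XT.lf (nat_lit 0) (nat_lit 13574140907) (nat_lit 380) (nat_lit 3005302306) (nat_lit 456) (nat_lit 224664160) (nat_lit 80) (nat_lit 5) (nat_lit 85) (nat_lit 5) (nat_lit 86) (nat_lit 5) (nat_lit 325) (nat_lit 282) (nat_lit 173)) (XT.lf (nat_lit 0) (nat_lit 2013600134)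 (nat_lit 456) (nat_lit 12951453823) (nat_lit 76) (nat_lit 2164918404) (nat_lit 74) (nat_lit 5) (nat_lit 80) (nat_lit 5) (nat_lit 75) (nat_lit 5) (nat_lit 326) (nat_lit 282) (nat_lit 172)))) (XT.nd (nat_lit 78) (nat_lit 304) (nat_lit 0) (XT.lf (nat_lit 0) (nat_lit 4364679890) (nat_lit 456) (nat_lit 5637312573) (nat_lit 76) (nat_lit 7462071856) (nat_lit 74) (nat_lit 5) (nat_lit 80) (nat_lit 5) (nat_lit 75) (nat_lit 5) (nat_lit 327) (nat_lit 282) (nat_lit 171)) (XT.nd (nat_lit 78) (nat_lit 0) (nat_lit 0) (XT.lf (nat_lit 0) (nat_lit 1918303195) (nat_lit 304) (nat_lit 4874281494) (nat_lit 380) (nat_lit 11015428136) (nat_lit 70) (nat_lit 5) (nat_lit 74) (nat_lit 5) (nat_lit 75) (nat_lit 5) (nat_lit 328) (nat_lit 282) (nat_lit 170)) (XT.lf (nat_lit 0) (nat_lit 9342759386) (nat_lit 380) (nat_lit 8364484030) (nat_lit 76) (nat_lit 453575299) (nat_lit 70) (nat_lit 5) (nat_lit 75) (nat_lit 5) (nat_lit 71)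 (nat_lit 5) (nat_lit 329) (nat_lit 282) (nat_lit 169)))))) (XT.nd (nat_lit 468) (nat_lit 608) (nat_lit 0) (XT.nd (nat_lit 234) (nat_lit 684) (nat_lit 0) (XT.nd (nat_lit 78) (nat_lit 304) (nat_lit 0) (XT.lf (nat_lit 0) (nat_lit 12006076707) (nat_lit 380) (nat_lit 676888450) (nat_lit 76) (nat_lit 5840165775) (nat_lit 70) (nat_lit 5) (nat_lit 75) (nat_lit 5) (nat_lit 71) (nat_lit 5) (nat_lit 330) (nat_lit 282) (nat_lit 168)) (XT.nd (nat_lit 78) (nat_lit 0) (nat_lit 0) (XT.lf (nat_lit 0) (nat_lit 7370473485) (nat_lit 304) (nat_lit 7438385264) (nat_lit 380) (nat_lit 4085687465) (nat_lit 66) (nat_lit 5) (nat_lit 70) (nat_lit 5) (nat_lit 71) (nat_lit 5) (nat_lit 331) (nat_lit 282) (nat_lit 167)) (XT.lf (nat_lit 0) (nat_lit 15658589813) (nat_lit 304) (nat_lit 2032874268) (nat_lit 380) (nat_lit 1585787728) (nat_lit 66) (nat_lit 5) (nat_lit 70) (nat_lit 5) (nat_lit 71) (nat_lit 5) (nat_lit 332) (nat_lit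 282) (nat_lit 166)))) (XT.nd (nat_lit 78) (nat_lit 304) (nat_lit 0) (XT.lf (nat_lit 0) (nat_lit 1037504460) (nat_lit 380) (nat_lit 15115043362) (nat_lit 76) (nat_lit 3516593517) (nat_lit 61) (nat_lit 5) (nat_lit 66) (nat_lit 5) (nat_lit 62) (nat_lit 5) (nat_lit 333) (nat_lit 282) (nat_lit 165)) (XT.nd (nat_lit 78) (nat_lit 304) (nat_lit 0) (XT.lf (nat_lit 0) (nat_lit 3753902493) (nat_lit 380) (nat_lit 7076181454) (nat_lit 76) (nat_lit 9240862538) (nat_lit 61) (nat_lit 5) (nat_lit 66) (nat_lit 5) (nat_lit 62) (nat_lit 5) (nat_lit 334) (nat_lit 282) (nat_lit 164)) (XT.lf (nat_lit 0) (nat_lit 1213427780) (nat_lit 304) (nat_lit 5339591214) (nat_lit 380) (nat_lit 13931767811) (nat_lit 57) (nat_lit 5) (nat_lit 61) (nat_lit 5) (nat_lit 62) (nat_lit 5) (nat_lit 335) (nat_lit 282) (nat_lit 163))))) (XT.nd (nat_lit 234) (nat_lit 380) (nat_lit 0) (XT.nd (nat_lit 78) (nat_lit 228) (nat_lit 0) (XT.lf (nat_lit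 0) (nat_lit 9501002595) (nat_lit 380) (nat_lit 11030108497) (nat_lit 76) (nat_lit 378001730) (nat_lit 57) (nat_lit 5) (nat_lit 62) (nat_lit 5) (nat_lit 58) (nat_lit 5) (nat_lit 336) (nat_lit 282) (nat_lit 162)) (XT.nd (nat_lit 78) (nat_lit 228) (nat_lit 0) (XT.lf (nat_lit 0) (nat_lit 12580289710) (nat_lit 380) (nat_lit 2608321213) (nat_lit 76) (nat_lit 6156288569) (nat_lit 57) (nat_lit 5) (nat_lit 62) (nat_lit 5) (nat_lit 58) (nat_lit 5) (nat_lit 337) (nat_lit 282) (nat_lit 161)) (XT.lf (nat_lit 0) (nat_lit 6173149466) (nat_lit 228) (nat_lit 9628434183) (nat_lit 304) (nat_lit 5990703571) (nat_lit 54) (nat_lit 5) (nat_lit 57) (nat_lit 5) (nat_lit 58) (nat_lit 5) (nat_lit 338) (nat_lit 282) (nat_lit 160)))) (XT.nd (nat_lit 78) (nat_lit 380) (nat_lit 0) (XT.lf (nat_lit 0) (nat_lit 15258233365) (nat_lit 228) (nat_lit 3878065128) (nat_lit 304) (nat_lit 3116310454) (nat_lit 54) (nat_lit 5) (nat_lit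 57) (nat_lit 5) (nat_lit 58) (nat_lit 5) (nat_lit 339) (nat_lit 282) (nat_lit 159)) (XT.nd (nat_lit 78) (nat_lit 76) (nat_lit 0) (XT.lf (nat_lit 0) (nat_lit 1893247132) (nat_lit 304) (nat_lit 20706349299) (nat_lit 380) (nat_lit 126303012) (nat_lit 50) (nat_lit 5) (nat_lit 54) (nat_lit 5) (nat_lit 55) (nat_lit 5) (nat_lit 340) (nat_lit 282) (nat_lit 158)) (XT.lf (nat_lit 0) (nat_lit 2996225648) (nat_lit 380) (nat_lit 12101119614) (nat_lit 76) (nat_lit 8112192604) (nat_lit 49) (nat_lit 5) (nat_lit 54) (nat_lit 5) (nat_lit 50) (nat_lit 5) (nat_lit 341) (nat_lit 282) (nat_lit 157))))))))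
noncomputable def xc172 : XT := (XT.nd (nat_lit 1716) (nat_lit 988) (nat_lit 0) (XT.nd (nat_lit 858) (nat_lit 760) (nat_lit 0) (XT.nd (nat_lit 390) (nat_lit 532) (nat_lit 0) (XT.nd (nat_lit 156) (nat_lit 228) (nat_lit 0) (XT.nd (nat_lit 78) (nat_lit 228) (nat_lit 0) (XT.lf (nat_lit 0) (nat_lit 6200888782) (nat_lit 380) (nat_lit 3121746114) (nat_lit 76) (nat_lit 14385297177) (nat_lit 49) (nat_lit 5) (nat_lit 54) (nat_lit 5) (nat_lit 50) (nat_lit 5) (nat_lit 342) (nat_lit 282) (nat_lit 156)) (XT.lf (nat_lit 0) (nat_lit 6236219445) (nat_lit 228) (nat_lit 3316678118) (nat_lit 304) (nat_lit 14666858025) (nat_lit 46) (nat_lit 5) (nat_lit 49) (nat_lit 5) (nat_lit 50) (nat_lit 5) (nat_lit 343) (nat_lit 282) (nat_lit 155))) (XT.nd (nat_lit 78) (nat_lit 228) (nat_lit 0) (XT.lf (nat_lit 0) (nat_lit 13056244325) (nat_lit 304) (nat_lit 8847559707) (nat_lit 76) (nat_lit 2841619701) (nat_lit 46) (nat_lit 5)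 (nat_lit 50) (nat_lit 5) (nat_lit 47) (nat_lit 5) (nat_lit 344) (nat_lit 282) (nat_lit 154)) (XT.nd (nat_lit 78) (nat_lit 0) (nat_lit 0) (XT.lf (nat_lit 0) (nat_lit 527729096) (nat_lit 228) (nat_lit 16166484431) (nat_lit 304) (nat_lit 8591775606) (nat_lit 43) (nat_lit 5) (nat_lit 46) (nat_lit 5) (nat_lit 47) (nat_lit 5) (nat_lit 345) (nat_lit 282) (nat_lit 153)) (XT.lf (nat_lit 0) (nat_lit 10353536308) (nat_lit 228) (nat_lit 10168867258) (nat_lit 304) (nat_lit 5317947971) (nat_lit 43) (nat_lit 5) (nat_lit 46) (nat_lit 5) (nat_lit 47) (nat_lit 5) (nat_lit 346) (nat_lit 282) (nat_lit 152))))) (XT.nd (nat_lit 234) (nat_lit 228) (nat_lit 0) (XT.nd (nat_lit 78) (nat_lit 304) (nat_lit 0) (XT.lf (nat_lit 0) (nat_lit 20462363798) (nat_lit 228) (nat_lit 3995054883) (nat_lit 304) (nat_lit 1954178882) (nat_lit 43) (nat_lit 5) (nat_lit 46) (nat_lit 5) (nat_lit 47) (nat_lit 5) (nat_lit 347) (nat_lit 282)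 (nat_lit 151)) (XT.nd (nat_lit 78) (nat_lit 0) (nat_lit 0) (XT.lf (nat_lit 0) (nat_lit 1534087082) (nat_lit 304) (nat_lit 23096901148) (nat_lit 76) (nat_lit 2366976803) (nat_lit 39) (nat_lit 5) (nat_lit 43) (nat_lit 5) (nat_lit 40) (nat_lit 5) (nat_lit 348) (nat_lit 282) (nat_lit 150)) (XT.lf (nat_lit 0) (nat_lit 5180157213) (nat_lit 304) (nat_lit 13502469822) (nat_lit 76) (nat_lit 8915954148) (nat_lit 39) (nat_lit 5) (nat_lit 43) (nat_lit 5) (nat_lit 40) (nat_lit 5) (nat_lit 349) (nat_lit 282) (nat_lit 149)))) (XT.nd (nat_lit 78) (nat_lit 228) (nat_lit 0) (XT.lf (nat_lit 0) (nat_lit 8928044249) (nat_lit 304) (nat_lit 3631539903) (nat_lit 76) (nat_lit 15657869402) (nat_lit 39) (nat_lit 5) (nat_lit 43) (nat_lit 5) (nat_lit 40) (nat_lit 5) (nat_lit 350) (nat_lit 282) (nat_lit 148)) (XT.nd (nat_lit 78) (nat_lit 0) (nat_lit 0) (XT.lf (nat_lit 0) (nat_lit 6654364310) (nat_lit 228) (nat_lit 6190624553)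 (nat_lit 304) (nat_lit 16008215067) (nat_lit 36) (nat_lit 5) (nat_lit 39) (nat_lit 5) (nat_lit 40) (nat_lit 5) (nat_lit 351) (nat_lit 282) (nat_lit 147)) (XT.lf (nat_lit 0) (nat_lit 16912756410) (nat_lit 304) (nat_lit 12198640412) (nat_lit 76) (nat_lit 395640716) (nat_lit 36) (nat_lit 5) (nat_lit 40) (nat_lit 5) (nat_lit 37) (nat_lit 5) (nat_lit 352) (nat_lit 282) (nat_lit 146)))))) (XT.nd (nat_lit 390) (nat_lit 304) (nat_lit 0) (XT.nd (nat_lit 156) (nat_lit 304) (nat_lit 0) (XT.nd (nat_lit 78) (nat_lit 152) (nat_lit 0) (XT.lf (nat_lit 0) (nat_lit 21156791213) (nat_lit 304) (nat_lit 1970493955) (nat_lit 76) (nat_lit 7051583827) (nat_lit 36) (nat_lit 5) (nat_lit 40) (nat_lit 5) (nat_lit 37) (nat_lit 5) (nat_lit 353) (nat_lit 282) (nat_lit 145)) (XT.lf (nat_lit 0) (nat_lit 8724287306) (nat_lit 152) (nat_lit 16880869459) (nat_lit 228) (nat_lit 5263397913) (nat_lit 34) (nat_lit 5) (nat_lit 36) (nat_lit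 5) (nat_lit 37) (nat_lit 5) (nat_lit 354) (nat_lit 282) (nat_lit 144))) (XT.nd (nat_lit 78) (nat_lit 304) (nat_lit 0) (XT.lf (nat_lit 0) (nat_lit 19769955811) (nat_lit 152) (nat_lit 10430162251) (nat_lit 228) (nat_lit 1378427826) (nat_lit 34) (nat_lit 5) (nat_lit 36) (nat_lit 5) (nat_lit 37) (nat_lit 5) (nat_lit 355) (nat_lit 282) (nat_lit 143)) (XT.nd (nat_lit 78) (nat_lit 228) (nat_lit 0) (XT.lf (nat_lit 0) (nat_lit 2565274985) (nat_lit 228) (nat_lit 1198245895) (nat_lit 76) (nat_lit 28545767187) (nat_lit 33) (nat_lit 5) (nat_lit 36) (nat_lit 5) (nat_lit 34) (nat_lit 5) (nat_lit 356) (nat_lit 282) (nat_lit 142)) (XT.lf (nat_lit 0) (nat_lit 6719185166) (nat_lit 304) (nat_lit 23189708359) (nat_lit 76) (nat_lit 3149070022) (nat_lit 30) (nat_lit 5) (nat_lit 34) (nat_lit 5) (nat_lit 31) (nat_lit 5) (nat_lit 357) (nat_lit 282) (nat_lit 141))))) (XT.nd (nat_lit 234) (nat_lit 152) (nat_lit 0) (XT.nd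 (nat_lit 78) (nat_lit 152) (nat_lit 0) (XT.lf (nat_lit 0) (nat_lit 11040817839) (nat_lit 304) (nat_lit 12584764849) (nat_lit 76) (nat_lit 10202231709) (nat_lit 30) (nat_lit 5) (nat_lit 34) (nat_lit 5) (nat_lit 31) (nat_lit 5) (nat_lit 358) (nat_lit 282) (nat_lit 140)) (XT.nd (nat_lit 78) (nat_lit 152) (nat_lit 0) (XT.lf (nat_lit 0) (nat_lit 15485908102) (nat_lit 304) (nat_lit 1671343270) (nat_lit 76) (nat_lit 17463703162) (nat_lit 30) (nat_lit 5) (nat_lit 34) (nat_lit 5) (nat_lit 31) (nat_lit 5) (nat_lit 359) (nat_lit 282) (nat_lit 139)) (XT.lf (nat_lit 0) (nat_lit 9750356961) (nat_lit 152) (nat_lit 10401709449) (nat_lit 228) (nat_lit 15283198793) (nat_lit 28) (nat_lit 5) (nat_lit 30) (nat_lit 5) (nat_lit 31) (nat_lit 5) (nat_lit 360) (nat_lit 282) (nat_lit 138)))) (XT.nd (nat_lit 78) (nat_lit 152) (nat_lit 0) (XT.lf (nat_lit 0) (nat_lit 21539672565) (nat_lit 152) (nat_lit 3429488849) (nat_lit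 228) (nat_lit 11304522778) (nat_lit 28) (nat_lit 5) (nat_lit 30) (nat_lit 5) (nat_lit 31) (nat_lit 5) (nat_lit 361) (nat_lit 282) (nat_lit 137)) (XT.nd (nat_lit 78) (nat_lit 152) (nat_lit 0) (XT.lf (nat_lit 0) (nat_lit 29961050589) (nat_lit 228) (nat_lit 3499827878) (nat_lit 76) (nat_lit 3675476185) (nat_lit 28) (nat_lit 5) (nat_lit 31) (nat_lit 5) (nat_lit 29) (nat_lit 5) (nat_lit 362) (nat_lit 282) (nat_lit 136)) (XT.lf (nat_lit 0) (nat_lit 8188302309) (nat_lit 152) (nat_lit 27021444686) (nat_lit 228) (nat_lit 2811953839) (nat_lit 26) (nat_lit 5) (nat_lit 28) (nat_lit 5) (nat_lit 29) (nat_lit 5) (nat_lit 363) (nat_lit 282) (nat_lit 135))))))) (XT.nd (nat_lit 858) (nat_lit 456) (nat_lit 0) (XT.nd (nat_lit 390) (nat_lit 304) (nat_lit 0) (XT.nd (nat_lit 156) (nat_lit 152) (nat_lit 0) (XT.nd (nat_lit 78) (nat_lit 0) (nat_lit 0) (XT.lf (nat_lit 0) (nat_lit 1679561963) (nat_lit 228) (nat_lit 18659186727)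 (nat_lit 76) (nat_lit 18593477509) (nat_lit 25) (nat_lit 5) (nat_lit 28) (nat_lit 5) (nat_lit 26) (nat_lit 5) (nat_lit 364) (nat_lit 282) (nat_lit 134)) (XT.lf (nat_lit 0) (nat_lit 6243870248) (nat_lit 228) (nat_lit 7186267203) (nat_lit 76) (nat_lit 26439264226) (nat_lit 25) (nat_lit 5) (nat_lit 28) (nat_lit 5) (nat_lit 26) (nat_lit 5) (nat_lit 365) (nat_lit 282) (nat_lit 133))) (XT.nd (nat_lit 78) (nat_lit 0) (nat_lit 0) (XT.lf (nat_lit 0) (nat_lit 4714410273) (nat_lit 152) (nat_lit 6270738115) (nat_lit 228) (nat_lit 29848349144) (nat_lit 23) (nat_lit 5) (nat_lit 25) (nat_lit 5) (nat_lit 26) (nat_lit 5) (nat_lit 366) (nat_lit 282) (nat_lit 132)) (XT.nd (nat_lit 78) (nat_lit 0) (nat_lit 0) (XT.lf (nat_lit 0) (nat_lit 15947323697) (nat_lit 228) (nat_lit 24724719451) (nat_lit 76) (nat_lit 1152119498) (nat_lit 23) (nat_lit 5) (nat_lit 26) (nat_lit 5) (nat_lit 24) (nat_lit 5) (nat_lit 367) (nat_lit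 282) (nat_lit 131)) (XT.lf (nat_lit 0) (nat_lit 21115369379) (nat_lit 228) (nat_lit 13058834553) (nat_lit 76) (nat_lit 8668639595) (nat_lit 23) (nat_lit 5) (nat_lit 26) (nat_lit 5) (nat_lit 24) (nat_lit 5) (nat_lit 368) (nat_lit 282) (nat_lit 130))))) (XT.nd (nat_lit 234) (nat_lit 152) (nat_lit 0) (XT.nd (nat_lit 78) (nat_lit 152) (nat_lit 0) (XT.lf (nat_lit 0) (nat_lit 26433523033) (nat_lit 228) (nat_lit 1050960902) (nat_lit 76) (nat_lit 16407754697) (nat_lit 23) (nat_lit 5) (nat_lit 26) (nat_lit 5) (nat_lit 24) (nat_lit 5) (nat_lit 369) (nat_lit 282) (nat_lit 129)) (XT.nd (nat_lit 78) (nat_lit 0) (nat_lit 0) (XT.lf (nat_lit 0) (nat_lit 11534472930) (nat_lit 152) (nat_lit 20482835068) (nat_lit 228) (nat_lit 12952630615) (nat_lit 21) (nat_lit 5) (nat_lit 23) (nat_lit 5) (nat_lit 24) (nat_lit 5) (nat_lit 370) (nat_lit 282) (nat_lit 128)) (XT.lf (nat_lit 0) (nat_lit 24511334336) (nat_lit 152)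 (nat_lit 13263160802) (nat_lit 228) (nat_lit 8305303257) (nat_lit 21) (nat_lit 5) (nat_lit 23) (nat_lit 5) (nat_lit 24) (nat_lit 5) (nat_lit 371) (nat_lit 282) (nat_lit 127)))) (XT.nd (nat_lit 78) (nat_lit 152) (nat_lit 0) (XT.lf (nat_lit 0) (nat_lit 37870046139) (nat_lit 152) (nat_lit 5829765329) (nat_lit 228) (nat_lit 3523285400) (nat_lit 21) (nat_lit 5) (nat_lit 23) (nat_lit 5) (nat_lit 24) (nat_lit 5) (nat_lit 372) (nat_lit 282) (nat_lit 126)) (XT.nd (nat_lit 78) (nat_lit 0) (nat_lit 0) (XT.lf (nat_lit 0) (nat_lit 1419756635) (nat_lit 152) (nat_lit 45145603672) (nat_lit 76) (nat_lit 1833586859) (nat_lit 19) (nat_lit 5) (nat_lit 21) (nat_lit 5) (nat_lit 20) (nat_lit 5) (nat_lit 373) (nat_lit 282) (nat_lit 125)) (XT.lf (nat_lit 0) (nat_lit 6588910671) (nat_lit 152) (nat_lit 33278493182) (nat_lit 76) (nat_lit 9737168393) (nat_lit 19) (nat_lit 5) (nat_lit 21) (nat_lit 5) (nat_lit 20) (nat_lit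 5) (nat_lit 374) (nat_lit 282) (nat_lit 124)))))) (XT.nd (nat_lit 468) (nat_lit 304) (nat_lit 0) (XT.nd (nat_lit 234) (nat_lit 0) (nat_lit 0) (XT.nd (nat_lit 78) (nat_lit 152) (nat_lit 0) (XT.lf (nat_lit 0) (nat_lit 11908801699) (nat_lit 152) (nat_lit 21062526623) (nat_lit 76) (nat_lit 17875172596) (nat_lit 19) (nat_lit 5) (nat_lit 21) (nat_lit 5) (nat_lit 20) (nat_lit 5) (nat_lit 375) (nat_lit 282) (nat_lit 123)) (XT.nd (nat_lit 78) (nat_lit 152) (nat_lit 0) (XT.lf (nat_lit 0) (nat_lit 17384078168) (nat_lit 152) (nat_lit 8487029850) (nat_lit 76) (nat_lit 26254710346) (nat_lit 19) (nat_lit 5) (nat_lit 21) (nat_lit 5) (nat_lit 20) (nat_lit 5) (nat_lit 376) (nat_lit 282) (nat_lit 122)) (XT.lf (nat_lit 0) (nat_lit 4547727989) (nat_lit 152) (nat_lit 18515511854) (nat_lit 228) (nat_lit 30379091123) (nat_lit 17) (nat_lit 5) (nat_lit 19) (nat_lit 5) (nat_lit 20) (nat_lit 5) (nat_lit 377) (nat_lit 282)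 (nat_lit 121)))) (XT.nd (nat_lit 78) (nat_lit 0) (nat_lit 0) (XT.lf (nat_lit 0) (nat_lit 18140824105) (nat_lit 152) (nat_lit 10853620863) (nat_lit 228) (nat_lit 25801448231) (nat_lit 17) (nat_lit 5) (nat_lit 19) (nat_lit 5) (nat_lit 20) (nat_lit 5) (nat_lit 378) (nat_lit 282) (nat_lit 120)) (XT.nd (nat_lit 78) (nat_lit 0) (nat_lit 0) (XT.lf (nat_lit 0) (nat_lit 32135227426) (nat_lit 152) (nat_lit 2964442550) (nat_lit 228) (nat_lit 21090513997) (nat_lit 17) (nat_lit 5) (nat_lit 19) (nat_lit 5) (nat_lit 20) (nat_lit 5) (nat_lit 379) (nat_lit 282) (nat_lit 119)) (XT.lf (nat_lit 0) (nat_lit 41433840192) (nat_lit 228) (nat_lit 11132846192) (nat_lit 76) (nat_lit 5058247497) (nat_lit 17) (nat_lit 5) (nat_lit 20) (nat_lit 5) (nat_lit 18) (nat_lit 4) (nat_lit 380) (nat_lit 282) (nat_lit 118))))) (XT.nd (nat_lit 234) (nat_lit 228) (nat_lit 0) (XT.nd (nat_lit 78) (nat_lit 0) (nat_lit 0) (XT.lf (nat_lit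 0) (nat_lit 2183989272) (nat_lit 76) (nat_lit 45820676256) (nat_lit 152) (nat_lit 11096665803) (nat_lit 16) (nat_lit 5) (nat_lit 17) (nat_lit 5) (nat_lit 18) (nat_lit 4) (nat_lit 381) (nat_lit 282) (nat_lit 117)) (XT.nd (nat_lit 78) (nat_lit 0) (nat_lit 0) (XT.lf (nat_lit 0) (nat_lit 16122398281) (nat_lit 76) (nat_lit 38758971656) (nat_lit 152) (nat_lit 5737391969) (nat_lit 16) (nat_lit 5) (nat_lit 17) (nat_lit 5) (nat_lit 18) (nat_lit 4) (nat_lit 382) (nat_lit 282) (nat_lit 116)) (XT.lf (nat_lit 0) (nat_lit 30472994558) (nat_lit 76) (nat_lit 31487822079) (nat_lit 152) (nat_lit 221009245) (nat_lit 16) (nat_lit 5) (nat_lit 17) (nat_lit 5) (nat_lit 18) (nat_lit 4) (nat_lit 383) (nat_lit 282) (nat_lit 115)))) (XT.nd (nat_lit 78) (nat_lit 152) (nat_lit 0) (XT.lf (nat_lit 0) (nat_lit 5350810881) (nat_lit 152) (nat_lit 18596030514) (nat_lit 76) (nat_lit 39843473880) (nat_lit 15) (nat_lit 5) (nat_lit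 17) (nat_lit 5) (nat_lit 16) (nat_lit 5) (nat_lit 384) (nat_lit 282) (nat_lit 114)) (XT.nd (nat_lit 78) (nat_lit 152) (nat_lit 0) (XT.lf (nat_lit 0) (nat_lit 11081952346) (nat_lit 152) (nat_lit 5097727371) (nat_lit 76) (nat_lit 49267419127) (nat_lit 15) (nat_lit 5) (nat_lit 17) (nat_lit 5) (nat_lit 16) (nat_lit 5) (nat_lit 385) (nat_lit 282) (nat_lit 113)) (XT.lf (nat_lit 0) (nat_lit 8975134413) (nat_lit 152) (nat_lit 8092875698) (nat_lit 228) (nat_lit 50083089650) (nat_lit 13) (nat_lit 5) (nat_lit 15) (nat_lit 5) (nat_lit 16) (nat_lit 5) (nat_lit 386) (nat_lit 282) (nat_lit 112))))))))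
noncomputable def xc173 : XT := (XT.nd (nat_lit 33930) (nat_lit 0) (nat_lit 5472) (XT.nd (nat_lit 33072) (nat_lit 0) (nat_lit 11096) (XT.nd (nat_lit 32604) (nat_lit 0) (nat_lit 12616) (XT.nd (nat_lit 156) (nat_lit 0) (nat_lit 0) (XT.nd (nat_lit 78) (nat_lit 0) (nat_lit 0) (XT.lf (nat_lit 0) (nat_lit 23284639504) (nat_lit 228) (nat_lit 45338332059) (nat_lit 76) (nat_lit 281722656) (nat_lit 13) (nat_lit 5) (nat_lit 16) (nat_lit 5) (nat_lit 14) (nat_lit 4) (nat_lit 387) (nat_lit 282) (nat_lit 111)) (XT.lf (nat_lit 0) (nat_lit 29764719992) (nat_lit 228) (nat_lit 32201088281) (nat_lit 76) (nat_lit 8742782784) (nat_lit 13) (nat_lit 5) (nat_lit 16) (nat_lit 5) (nat_lit 14) (nat_lit 4) (nat_lit 388) (nat_lit 282) (nat_lit 110))) (XT.nd (nat_lit 78) (nat_lit 0) (nat_lit 0) (XT.lf (nat_lit 0) (nat_lit 36436120111) (nat_lit 228) (nat_lit 18674961199) (nat_lit 76) (nat_lit 17455618999) (nat_lit 13) (nat_lit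 5) (nat_lit 16) (nat_lit 5) (nat_lit 14) (nat_lit 4) (nat_lit 389) (nat_lit 282) (nat_lit 109)) (XT.nd (nat_lit 32292) (nat_lit 0) (nat_lit 12616) (XT.lf (nat_lit 0) (nat_lit 43304669239) (nat_lit 228) (nat_lit 4748131866) (nat_lit 76) (nat_lit 26427844458) (nat_lit 13) (nat_lit 5) (nat_lit 16) (nat_lit 5) (nat_lit 14) (nat_lit 4) (nat_lit 390) (nat_lit 282) (nat_lit 108)) (XT.lf (nat_lit 0) (nat_lit 1069817621) (nat_lit 988) (nat_lit 1657497059) (nat_lit 988) (nat_lit 1657497059) (nat_lit 179) (nat_lit 3) (nat_lit 192) (nat_lit 3) (nat_lit 192) (nat_lit 5) (nat_lit 283) (nat_lit 283) (nat_lit 214))))) (XT.nd (nat_lit 234) (nat_lit 0) (nat_lit 76) (XT.nd (nat_lit 78) (nat_lit 0) (nat_lit 76) (XT.lf (nat_lit 76) (nat_lit 383773891) (nat_lit 0) (nat_lit 2656378195) (nat_lit 988) (nat_lit 5832643125) (nat_lit 180) (nat_lit 5) (nat_lit 179) (nat_lit 3) (nat_lit 192) (nat_lit 5) (nat_lit 284) (nat_lit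 283) (nat_lit 213)) (XT.nd (nat_lit 78) (nat_lit 0) (nat_lit 0) (XT.lf (nat_lit 0) (nat_lit 3969897789) (nat_lit 912) (nat_lit 4738136614) (nat_lit 988) (nat_lit 271051834) (nat_lit 180) (nat_lit 5) (nat_lit 192) (nat_lit 5) (nat_lit 193) (nat_lit 5) (nat_lit 285) (nat_lit 283) (nat_lit 212)) (XT.lf (nat_lit 0) (nat_lit 4921056297) (nat_lit 912) (nat_lit 919507379) (nat_lit 988) (nat_lit 3248284607) (nat_lit 180) (nat_lit 5) (nat_lit 192) (nat_lit 5) (nat_lit 193) (nat_lit 5) (nat_lit 286) (nat_lit 283) (nat_lit 211)))) (XT.nd (nat_lit 78) (nat_lit 0) (nat_lit 76) (XT.lf (nat_lit 76) (nat_lit 3055358837) (nat_lit 0) (nat_lit 2842935131) (nat_lit 988) (nat_lit 3303768235) (nat_lit 181) (nat_lit 5) (nat_lit 180) (nat_lit 5) (nat_lit 193) (nat_lit 5) (nat_lit 287) (nat_lit 283) (nat_lit 210)) (XT.nd (nat_lit 78) (nat_lit 0) (nat_lit 0) (XT.lf (nat_lit 0) (nat_lit 6885635854) (nat_lit 912) (nat_lit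 2171427185) (nat_lit 988) (nat_lit 262268747) (nat_lit 181) (nat_lit 5) (nat_lit 193) (nat_lit 5) (nat_lit 194) (nat_lit 5) (nat_lit 288) (nat_lit 283) (nat_lit 209)) (XT.lf (nat_lit 76) (nat_lit 1913948357) (nat_lit 0) (nat_lit 6005155233) (nat_lit 988) (nat_lit 1520601144) (nat_lit 182) (nat_lit 5) (nat_lit 181) (nat_lit 5) (nat_lit 194) (nat_lit 5) (nat_lit 289) (nat_lit 283) (nat_lit 208)))))) (XT.nd (nat_lit 390) (nat_lit 760) (nat_lit 0) (XT.nd (nat_lit 156) (nat_lit 0) (nat_lit 0) (XT.nd (nat_lit 78) (nat_lit 912) (nat_lit 0) (XT.lf (nat_lit 76) (nat_lit 6148218208) (nat_lit 0) (nat_lit 2827944200) (nat_lit 988) (nat_lit 587826952) (nat_lit 182) (nat_lit 5) (nat_lit 181) (nat_lit 5) (nat_lit 194) (nat_lit 5) (nat_lit 290) (nat_lit 283) (nat_lit 207)) (XT.lf (nat_lit 0) (nat_lit 349099325) (nat_lit 988) (nat_lit 8885621344) (nat_lit 1064) (nat_lit 457744546) (nat_lit 169) (nat_lit 5) (nat_lit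 182) (nat_lit 5) (nat_lit 183) (nat_lit 5) (nat_lit 291) (nat_lit 283) (nat_lit 206))) (XT.nd (nat_lit 78) (nat_lit 0) (nat_lit 0) (XT.lf (nat_lit 0) (nat_lit 1337072859) (nat_lit 988) (nat_lit 4650895572) (nat_lit 1064) (nat_lit 3835681160) (nat_lit 169) (nat_lit 5) (nat_lit 182) (nat_lit 5) (nat_lit 183) (nat_lit 5) (nat_lit 292) (nat_lit 283) (nat_lit 205)) (XT.nd (nat_lit 78) (nat_lit 0) (nat_lit 76) (XT.lf (nat_lit 0) (nat_lit 2327424102) (nat_lit 988) (nat_lit 307702089) (nat_lit 1064) (nat_lit 7324530546) (nat_lit 169) (nat_lit 5) (nat_lit 182) (nat_lit 5) (nat_lit 183) (nat_lit 5) (nat_lit 293) (nat_lit 283) (nat_lit 204)) (XT.lf (nat_lit 0) (nat_lit 3370032371) (nat_lit 988) (nat_lit 5877432702) (nat_lit 1064) (nat_lit 851670000) (nat_lit 170) (nat_lit 5) (nat_lit 183) (nat_lit 5) (nat_lit 184) (nat_lit 5) (nat_lit 294) (nat_lit 283) (nat_lit 203))))) (XT.nd (nat_lit 234) (nat_lit 836)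 (nat_lit 0) (XT.nd (nat_lit 78) (nat_lit 0) (nat_lit 0) (XT.lf (nat_lit 0) (nat_lit 4447355993) (nat_lit 988) (nat_lit 1394303855) (nat_lit 1064) (nat_lit 4401100207) (nat_lit 170) (nat_lit 5) (nat_lit 183) (nat_lit 5) (nat_lit 184) (nat_lit 5) (nat_lit 295) (nat_lit 283) (nat_lit 202)) (XT.nd (nat_lit 78) (nat_lit 0) (nat_lit 76) (XT.lf (nat_lit 76) (nat_lit 3268878542) (nat_lit 0) (nat_lit 2294503235) (nat_lit 1064) (nat_lit 4827184039) (nat_lit 171) (nat_lit 5) (nat_lit 170) (nat_lit 5) (nat_lit 184) (nat_lit 5) (nat_lit 296) (nat_lit 283) (nat_lit 201)) (XT.lf (nat_lit 0) (nat_lit 6715749341) (nat_lit 988) (nat_lit 2473955922) (nat_lit 1064) (nat_lit 1353076312) (nat_lit 171) (nat_lit 5) (nat_lit 184) (nat_lit 5) (nat_lit 185) (nat_lit 5) (nat_lit 297) (nat_lit 283) (nat_lit 200)))) (XT.nd (nat_lit 78) (nat_lit 912) (nat_lit 0) (XT.lf (nat_lit 76) (nat_lit 2317352874) (nat_lit 0) (nat_lit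 5606617725) (nat_lit 1064) (nat_lit 2775014584) (nat_lit 172) (nat_lit 5) (nat_lit 171) (nat_lit 5) (nat_lit 185) (nat_lit 5) (nat_lit 298) (nat_lit 283) (nat_lit 199)) (XT.nd (nat_lit 78) (nat_lit 912) (nat_lit 0) (XT.lf (nat_lit 76) (nat_lit 7284938028) (nat_lit 0) (nat_lit 1885287462) (nat_lit 1064) (nat_lit 1689653917) (nat_lit 172) (nat_lit 5) (nat_lit 171) (nat_lit 5) (nat_lit 185) (nat_lit 5) (nat_lit 299) (nat_lit 283) (nat_lit 198)) (XT.lf (nat_lit 0) (nat_lit 1365446739) (nat_lit 988) (nat_lit 9097796427) (nat_lit 1064) (nat_lit 562132459) (nat_lit 159) (nat_lit 5) (nat_lit 172) (nat_lit 5) (nat_lit 173) (nat_lit 5) (nat_lit 300) (nat_lit 283) (nat_lit 197))))))) (XT.nd (nat_lit 858) (nat_lit 2204) (nat_lit 0) (XT.nd (nat_lit 390) (nat_lit 1596) (nat_lit 0) (XT.nd (nat_lit 156) (nat_lit 684) (nat_lit 0) (XT.nd (nat_lit 78) (nat_lit 1064) (nat_lit 0) (XT.lf (nat_lit 0) (nat_lit 620380343)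 (nat_lit 1064) (nat_lit 4710949753) (nat_lit 76) (nat_lit 5863401259) (nat_lit 158) (nat_lit 5) (nat_lit 172) (nat_lit 5) (nat_lit 159) (nat_lit 5) (nat_lit 301) (nat_lit 283) (nat_lit 196)) (XT.lf (nat_lit 0) (nat_lit 369956481) (nat_lit 1064) (nat_lit 1439053488) (nat_lit 1140) (nat_lit 9560584261) (nat_lit 144) (nat_lit 5) (nat_lit 158) (nat_lit 5) (nat_lit 159) (nat_lit 5) (nat_lit 302) (nat_lit 283) (nat_lit 195))) (XT.nd (nat_lit 78) (nat_lit 684) (nat_lit 0) (XT.lf (nat_lit 0) (nat_lit 3084915294) (nat_lit 1140) (nat_lit 5892323968) (nat_lit 76) (nat_lit 2570965356) (nat_lit 144) (nat_lit 5) (nat_lit 159) (nat_lit 5) (nat_lit 145) (nat_lit 5) (nat_lit 303) (nat_lit 283) (nat_lit 194)) (XT.nd (nat_lit 78) (nat_lit 684) (nat_lit 0) (XT.lf (nat_lit 0) (nat_lit 4392831384) (nat_lit 1140) (nat_lit 664225759) (nat_lit 76) (nat_lit 6675352835) (nat_lit 144) (nat_lit 5) (nat_lit 159) (nat_lit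 5) (nat_lit 145) (nat_lit 5) (nat_lit 304) (nat_lit 283) (nat_lit 193)) (XT.lf (nat_lit 0) (nat_lit 4796658260) (nat_lit 684) (nat_lit 969518172) (nat_lit 760) (nat_lit 6155226577) (nat_lit 135) (nat_lit 5) (nat_lit 144) (nat_lit 5) (nat_lit 145) (nat_lit 5) (nat_lit 305) (nat_lit 283) (nat_lit 192))))) (XT.nd (nat_lit 234) (nat_lit 1064) (nat_lit 0) (XT.nd (nat_lit 78) (nat_lit 532) (nat_lit 0) (XT.lf (nat_lit 0) (nat_lit 7199161223) (nat_lit 760) (nat_lit 1730231876) (nat_lit 76) (nat_lit 3186165425) (nat_lit 135) (nat_lit 5) (nat_lit 145) (nat_lit 5) (nat_lit 136) (nat_lit 5) (nat_lit 306) (nat_lit 283) (nat_lit 191)) (XT.nd (nat_lit 78) (nat_lit 0) (nat_lit 0) (XT.lf (nat_lit 0) (nat_lit 3874516603) (nat_lit 532) (nat_lit 4828544429) (nat_lit 608) (nat_lit 3611684449) (nat_lit 128) (nat_lit 5) (nat_lit 135) (nat_lit 5) (nat_lit 136) (nat_lit 5) (nat_lit 307) (nat_lit 283) (nat_lit 190))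 (XT.lf (nat_lit 0) (nat_lit 9665441844) (nat_lit 532) (nat_lit 585573428) (nat_lit 608) (nat_lit 2268967896) (nat_lit 128) (nat_lit 5) (nat_lit 135) (nat_lit 5) (nat_lit 136) (nat_lit 5) (nat_lit 308) (nat_lit 283) (nat_lit 189)))) (XT.nd (nat_lit 78) (nat_lit 532) (nat_lit 0) (XT.lf (nat_lit 0) (nat_lit 2901435521) (nat_lit 532) (nat_lit 8990259313) (nat_lit 608) (nat_lit 838336533) (nat_lit 121) (nat_lit 5) (nat_lit 128) (nat_lit 5) (nat_lit 129) (nat_lit 5) (nat_lit 309) (nat_lit 283) (nat_lit 188)) (XT.nd (nat_lit 78) (nat_lit 456) (nat_lit 0) (XT.lf (nat_lit 0) (nat_lit 639885066) (nat_lit 608) (nat_lit 4086839486) (nat_lit 76) (nat_lit 8219000853) (nat_lit 120) (nat_lit 5) (nat_lit 128) (nat_lit 5) (nat_lit 121) (nat_lit 5) (nat_lit 310) (nat_lit 283) (nat_lit 187)) (XT.lf (nat_lit 0) (nat_lit 1837501214) (nat_lit 456) (nat_lit 308443396) (nat_lit 532) (nat_lit 11021724834) (nat_lit 114)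 (nat_lit 5) (nat_lit 120) (nat_lit 5) (nat_lit 121) (nat_lit 5) (nat_lit 311) (nat_lit 283) (nat_lit 186)))))) (XT.nd (nat_lit 468) (nat_lit 1292) (nat_lit 0) (XT.nd (nat_lit 234) (nat_lit 456) (nat_lit 0) (XT.nd (nat_lit 78) (nat_lit 456) (nat_lit 0) (XT.lf (nat_lit 0) (nat_lit 3762661739) (nat_lit 532) (nat_lit 5430475841) (nat_lit 76) (nat_lit 4201207252) (nat_lit 114) (nat_lit 5) (nat_lit 121) (nat_lit 5) (nat_lit 115) (nat_lit 5) (nat_lit 312) (nat_lit 283) (nat_lit 185)) (XT.nd (nat_lit 78) (nat_lit 0) (nat_lit 0) (XT.lf (nat_lit 0) (nat_lit 638524572) (nat_lit 456) (nat_lit 4782059938) (nat_lit 532) (nat_lit 8207491062) (nat_lit 108) (nat_lit 5) (nat_lit 114) (nat_lit 5) (nat_lit 115) (nat_lit 5) (nat_lit 313) (nat_lit 283) (nat_lit 184)) (XT.lf (nat_lit 0) (nat_lit 6983993199) (nat_lit 456) (nat_lit 182918837) (nat_lit 532) (nat_lit 6700781348) (nat_lit 108) (nat_lit 5) (nat_lit 114)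 (nat_lit 5) (nat_lit 115) (nat_lit 5) (nat_lit 314) (nat_lit 283) (nat_lit 183)))) (XT.nd (nat_lit 78) (nat_lit 456) (nat_lit 0) (XT.lf (nat_lit 0) (nat_lit 8993700985) (nat_lit 532) (nat_lit 655378048) (nat_lit 76) (nat_lit 4464612686) (nat_lit 108) (nat_lit 5) (nat_lit 115) (nat_lit 5) (nat_lit 109) (nat_lit 5) (nat_lit 315) (nat_lit 283) (nat_lit 182)) (XT.nd (nat_lit 78) (nat_lit 0) (nat_lit 0) (XT.lf (nat_lit 0) (nat_lit 5855817289) (nat_lit 456) (nat_lit 5062328424) (nat_lit 532) (nat_lit 3447671868) (nat_lit 102) (nat_lit 5) (nat_lit 108) (nat_lit 5) (nat_lit 109) (nat_lit 5) (nat_lit 316) (nat_lit 283) (nat_lit 181)) (XT.lf (nat_lit 0) (nat_lit 12559510732) (nat_lit 456) (nat_lit 332470135) (nat_lit 532) (nat_lit 1733808817) (nat_lit 102) (nat_lit 5) (nat_lit 108) (nat_lit 5) (nat_lit 109) (nat_lit 5) (nat_lit 317) (nat_lit 283) (nat_lit 180))))) (XT.nd (nat_lit 234) (nat_lit 380) (nat_lit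 0) (XT.nd (nat_lit 78) (nat_lit 380) (nat_lit 0) (XT.lf (nat_lit 0) (nat_lit 104872474) (nat_lit 532) (nat_lit 10291779145) (nat_lit 76) (nat_lit 4494710094) (nat_lit 95) (nat_lit 5) (nat_lit 102) (nat_lit 5) (nat_lit 96) (nat_lit 5) (nat_lit 318) (nat_lit 283) (nat_lit 179)) (XT.nd (nat_lit 78) (nat_lit 380) (nat_lit 0) (XT.lf (nat_lit 0) (nat_lit 1973790373) (nat_lit 532) (nat_lit 3693573754) (nat_lit 76) (nat_lit 9496753506) (nat_lit 95) (nat_lit 5) (nat_lit 102) (nat_lit 5) (nat_lit 96) (nat_lit 5) (nat_lit 319) (nat_lit 283) (nat_lit 178)) (XT.lf (nat_lit 0) (nat_lit 3148075422) (nat_lit 380) (nat_lit 766942461) (nat_lit 456) (nat_lit 11529579676) (nat_lit 90) (nat_lit 5) (nat_lit 95) (nat_lit 5) (nat_lit 96) (nat_lit 5) (nat_lit 320) (nat_lit 283) (nat_lit 177)))) (XT.nd (nat_lit 78) (nat_lit 380) (nat_lit 0) (XT.lf (nat_lit 0) (nat_lit 5979514223) (nat_lit 456) (nat_lit 5519397960) (nat_lit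 76) (nat_lit 4232656496) (nat_lit 90) (nat_lit 5) (nat_lit 96) (nat_lit 5) (nat_lit 91) (nat_lit 5) (nat_lit 321) (nat_lit 283) (nat_lit 176)) (XT.nd (nat_lit 78) (nat_lit 0) (nat_lit 0) (XT.lf (nat_lit 0) (nat_lit 1466333954) (nat_lit 380) (nat_lit 6647919859) (nat_lit 456) (nat_lit 7912672815) (nat_lit 85) (nat_lit 5) (nat_lit 90) (nat_lit 5) (nat_lit 91) (nat_lit 5) (nat_lit 322) (nat_lit 283) (nat_lit 175)) (XT.lf (nat_lit 0) (nat_lit 8759208292) (nat_lit 380) (nat_lit 1596422003) (nat_lit 456) (nat_lit 5974263342) (nat_lit 85) (nat_lit 5) (nat_lit 90) (nat_lit 5) (nat_lit 91) (nat_lit 5) (nat_lit 323) (nat_lit 283) (nat_lit 174))))))))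
noncomputable def xc174 : XT := (XT.nd (nat_lit 1716) (nat_lit 1748) (nat_lit 0) (XT.nd (nat_lit 858) (nat_lit 1140) (nat_lit 0) (XT.nd (nat_lit 390) (nat_lit 988) (nat_lit 0) (XT.nd (nat_lit 156) (nat_lit 456) (nat_lit 0) (XT.nd (nat_lit 78) (nat_lit 380) (nat_lit 0) (XT.lf (nat_lit 0) (nat_lit 12686136765) (nat_lit 456) (nat_lit 421253515) (nat_lit 76) (nat_lit 3533928118) (nat_lit 85) (nat_lit 5) (nat_lit 91) (nat_lit 5) (nat_lit 86) (nat_lit 5) (nat_lit 324) (nat_lit 283) (nat_lit 173)) (XT.lf (nat_lit 0) (nat_lit 7049361434) (nat_lit 380) (nat_lit 8108357816) (nat_lit 456) (nat_lit 1802256487) (nat_lit 80) (nat_lit 5) (nat_lit 85) (nat_lit 5) (nat_lit 86) (nat_lit 5) (nat_lit 325) (nat_lit 283) (nat_lit 172))) (XT.nd (nat_lit 78) (nat_lit 380) (nat_lit 0) (XT.lf (nat_lit 0) (nat_lit 399115068) (nat_lit 456) (nat_lit 2554542138) (nat_lit 76) (nat_lit 14334680230) (nat_lit 79) (nat_lit 5)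 (nat_lit 85) (nat_lit 5) (nat_lit 80) (nat_lit 5) (nat_lit 326) (nat_lit 283) (nat_lit 171)) (XT.nd (nat_lit 78) (nat_lit 0) (nat_lit 0) (XT.lf (nat_lit 0) (nat_lit 2690526099) (nat_lit 456) (nat_lit 12559267430) (nat_lit 76) (nat_lit 2374437045) (nat_lit 74) (nat_lit 5) (nat_lit 80) (nat_lit 5) (nat_lit 75) (nat_lit 5) (nat_lit 327) (nat_lit 283) (nat_lit 170)) (XT.lf (nat_lit 0) (nat_lit 5094181414) (nat_lit 456) (nat_lit 5048441652) (nat_lit 76) (nat_lit 7826294292) (nat_lit 74) (nat_lit 5) (nat_lit 80) (nat_lit 5) (nat_lit 75) (nat_lit 5) (nat_lit 328) (nat_lit 283) (nat_lit 169))))) (XT.nd (nat_lit 234) (nat_lit 380) (nat_lit 0) (XT.nd (nat_lit 78) (nat_lit 304) (nat_lit 0) (XT.lf (nat_lit 0) (nat_lit 2726411312) (nat_lit 304) (nat_lit 4858293058) (nat_lit 380) (nat_lit 10738818909) (nat_lit 70) (nat_lit 5) (nat_lit 74) (nat_lit 5) (nat_lit 75) (nat_lit 5) (nat_lit 329) (nat_lit 283) (nat_lit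 168)) (XT.nd (nat_lit 78) (nat_lit 304) (nat_lit 0) (XT.lf (nat_lit 0) (nat_lit 10195762039) (nat_lit 380) (nat_lit 7870049984) (nat_lit 76) (nat_lit 621601437) (nat_lit 70) (nat_lit 5) (nat_lit 75) (nat_lit 5) (nat_lit 71) (nat_lit 5) (nat_lit 330) (nat_lit 283) (nat_lit 167)) (XT.lf (nat_lit 0) (nat_lit 26990378) (nat_lit 304) (nat_lit 12895566789) (nat_lit 380) (nat_lit 6138561060) (nat_lit 66) (nat_lit 5) (nat_lit 70) (nat_lit 5) (nat_lit 71) (nat_lit 5) (nat_lit 331) (nat_lit 283) (nat_lit 166)))) (XT.nd (nat_lit 78) (nat_lit 380) (nat_lit 0) (XT.lf (nat_lit 0) (nat_lit 8308151798) (nat_lit 304) (nat_lit 7491704174) (nat_lit 380) (nat_lit 3644136636) (nat_lit 66) (nat_lit 5) (nat_lit 70) (nat_lit 5) (nat_lit 71) (nat_lit 5) (nat_lit 332) (nat_lit 283) (nat_lit 165)) (XT.nd (nat_lit 78) (nat_lit 380) (nat_lit 0) (XT.lf (nat_lit 0) (nat_lit 16824040817) (nat_lit 304) (nat_lit 1928974430)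 (nat_lit 380) (nat_lit 1085670629) (nat_lit 66) (nat_lit 5) (nat_lit 70) (nat_lit 5) (nat_lit 71) (nat_lit 5) (nat_lit 333) (nat_lit 283) (nat_lit 164)) (XT.lf (nat_lit 0) (nat_lit 1598380578) (nat_lit 380) (nat_lit 14853026073) (nat_lit 76) (nat_lit 3791012196) (nat_lit 61) (nat_lit 5) (nat_lit 66) (nat_lit 5) (nat_lit 62) (nat_lit 5) (nat_lit 334) (nat_lit 283) (nat_lit 163)))))) (XT.nd (nat_lit 390) (nat_lit 608) (nat_lit 0) (XT.nd (nat_lit 156) (nat_lit 228) (nat_lit 0) (XT.nd (nat_lit 78) (nat_lit 304) (nat_lit 0) (XT.lf (nat_lit 0) (nat_lit 4380840912) (nat_lit 380) (nat_lit 6593837198) (nat_lit 76) (nat_lit 9682089261) (nat_lit 61) (nat_lit 5) (nat_lit 66) (nat_lit 5) (nat_lit 62) (nat_lit 5) (nat_lit 335) (nat_lit 283) (nat_lit 162)) (XT.lf (nat_lit 0) (nat_lit 1937650217) (nat_lit 304) (nat_lit 5317912199) (nat_lit 380) (nat_lit 13827737107) (nat_lit 57) (nat_lit 5) (nat_lit 61) (nat_lit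 5) (nat_lit 62) (nat_lit 5) (nat_lit 336) (nat_lit 283) (nat_lit 161))) (XT.nd (nat_lit 78) (nat_lit 228) (nat_lit 0) (XT.lf (nat_lit 0) (nat_lit 10278946331) (nat_lit 380) (nat_lit 10679359059) (nat_lit 76) (nat_lit 562465933) (nat_lit 57) (nat_lit 5) (nat_lit 62) (nat_lit 5) (nat_lit 58) (nat_lit 5) (nat_lit 337) (nat_lit 283) (nat_lit 160)) (XT.nd (nat_lit 78) (nat_lit 228) (nat_lit 0) (XT.lf (nat_lit 0) (nat_lit 13436255351) (nat_lit 380) (nat_lit 2024772118) (nat_lit 76) (nat_lit 6509058926) (nat_lit 57) (nat_lit 5) (nat_lit 62) (nat_lit 5) (nat_lit 58) (nat_lit 5) (nat_lit 338) (nat_lit 283) (nat_lit 159)) (XT.lf (nat_lit 0) (nat_lit 7013654459) (nat_lit 228) (nat_lit 9732894343) (nat_lit 304) (nat_lit 5684599532) (nat_lit 54) (nat_lit 5) (nat_lit 57) (nat_lit 5) (nat_lit 58) (nat_lit 5) (nat_lit 339) (nat_lit 283) (nat_lit 158))))) (XT.nd (nat_lit 234) (nat_lit 228) (nat_lit 0) (XT.nd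 (nat_lit 78) (nat_lit 380) (nat_lit 0) (XT.lf (nat_lit 0) (nat_lit 16352204161) (nat_lit 228) (nat_lit 3815384882) (nat_lit 304) (nat_lit 2738124868) (nat_lit 54) (nat_lit 5) (nat_lit 57) (nat_lit 5) (nat_lit 58) (nat_lit 5) (nat_lit 340) (nat_lit 283) (nat_lit 157)) (XT.nd (nat_lit 78) (nat_lit 0) (nat_lit 0) (XT.lf (nat_lit 0) (nat_lit 329372908) (nat_lit 380) (nat_lit 20803960121) (nat_lit 76) (nat_lit 2259959333) (nat_lit 49) (nat_lit 5) (nat_lit 54) (nat_lit 5) (nat_lit 50) (nat_lit 5) (nat_lit 341) (nat_lit 283) (nat_lit 156)) (XT.lf (nat_lit 0) (nat_lit 3529730327) (nat_lit 380) (nat_lit 11830734527) (nat_lit 76) (nat_lit 8531357614) (nat_lit 49) (nat_lit 5) (nat_lit 54) (nat_lit 5) (nat_lit 50) (nat_lit 5) (nat_lit 342) (nat_lit 283) (nat_lit 155)))) (XT.nd (nat_lit 78) (nat_lit 228) (nat_lit 0) (XT.lf (nat_lit 0) (nat_lit 6817612445) (nat_lit 380) (nat_lit 2600428910) (nat_lit 76) (nat_lit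 14987534958) (nat_lit 49) (nat_lit 5) (nat_lit 54) (nat_lit 5) (nat_lit 50) (nat_lit 5) (nat_lit 343) (nat_lit 283) (nat_lit 154)) (XT.nd (nat_lit 78) (nat_lit 0) (nat_lit 0) (XT.lf (nat_lit 0) (nat_lit 7032246502) (nat_lit 228) (nat_lit 3231243922) (nat_lit 304) (nat_lit 14669484437) (nat_lit 46) (nat_lit 5) (nat_lit 49) (nat_lit 5) (nat_lit 50) (nat_lit 5) (nat_lit 344) (nat_lit 283) (nat_lit 153)) (XT.lf (nat_lit 0) (nat_lit 13861313828) (nat_lit 304) (nat_lit 8510524203) (nat_lit 76) (nat_lit 3102912759) (nat_lit 46) (nat_lit 5) (nat_lit 50) (nat_lit 5) (nat_lit 47) (nat_lit 5) (nat_lit 345) (nat_lit 283) (nat_lit 152))))))) (XT.nd (nat_lit 858) (nat_lit 836) (nat_lit 0) (XT.nd (nat_lit 390) (nat_lit 380) (nat_lit 0) (XT.nd (nat_lit 156) (nat_lit 304) (nat_lit 0) (XT.nd (nat_lit 78) (nat_lit 0) (nat_lit 0) (XT.lf (nat_lit 0) (nat_lit 1140116771) (nat_lit 228) (nat_lit 16461999537) (nat_lit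 304) (nat_lit 8429624489) (nat_lit 43) (nat_lit 5) (nat_lit 46) (nat_lit 5) (nat_lit 47) (nat_lit 5) (nat_lit 346) (nat_lit 283) (nat_lit 151)) (XT.lf (nat_lit 0) (nat_lit 11243322788) (nat_lit 228) (nat_lit 10289972667) (nat_lit 304) (nat_lit 5069812249) (nat_lit 43) (nat_lit 5) (nat_lit 46) (nat_lit 5) (nat_lit 47) (nat_lit 5) (nat_lit 347) (nat_lit 283) (nat_lit 150))) (XT.nd (nat_lit 78) (nat_lit 304) (nat_lit 0) (XT.lf (nat_lit 0) (nat_lit 21638545771) (nat_lit 228) (nat_lit 3936303996) (nat_lit 304) (nat_lit 1617004093) (nat_lit 43) (nat_lit 5) (nat_lit 46) (nat_lit 5) (nat_lit 47) (nat_lit 5) (nat_lit 348) (nat_lit 283) (nat_lit 149)) (XT.nd (nat_lit 78) (nat_lit 0) (nat_lit 0) (XT.lf (nat_lit 0) (nat_lit 1964071502) (nat_lit 304) (nat_lit 23214548247) (nat_lit 76) (nat_lit 2617218324) (nat_lit 39) (nat_lit 5) (nat_lit 43) (nat_lit 5) (nat_lit 40) (nat_lit 5) (nat_lit 349) (nat_lit 283)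 (nat_lit 148)) (XT.lf (nat_lit 0) (nat_lit 5708340383) (nat_lit 304) (nat_lit 13349039125) (nat_lit 76) (nat_lit 9357444633) (nat_lit 39) (nat_lit 5) (nat_lit 43) (nat_lit 5) (nat_lit 40) (nat_lit 5) (nat_lit 350) (nat_lit 283) (nat_lit 147))))) (XT.nd (nat_lit 234) (nat_lit 152) (nat_lit 0) (XT.nd (nat_lit 78) (nat_lit 228) (nat_lit 0) (XT.lf (nat_lit 0) (nat_lit 9557806405) (nat_lit 304) (nat_lit 3198248437) (nat_lit 76) (nat_lit 16296549037) (nat_lit 39) (nat_lit 5) (nat_lit 43) (nat_lit 5) (nat_lit 40) (nat_lit 5) (nat_lit 351) (nat_lit 283) (nat_lit 146)) (XT.nd (nat_lit 78) (nat_lit 0) (nat_lit 0) (XT.lf (nat_lit 0) (nat_lit 7390916846) (nat_lit 228) (nat_lit 6195962347) (nat_lit 304) (nat_lit 16120723999) (nat_lit 36) (nat_lit 5) (nat_lit 39) (nat_lit 5) (nat_lit 40) (nat_lit 5) (nat_lit 352) (nat_lit 283) (nat_lit 145)) (XT.lf (nat_lit 0) (nat_lit 17767978517) (nat_lit 304) (nat_lit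 12034129207) (nat_lit 76) (nat_lit 579219705) (nat_lit 36) (nat_lit 5) (nat_lit 40) (nat_lit 5) (nat_lit 37) (nat_lit 5) (nat_lit 353) (nat_lit 283) (nat_lit 144)))) (XT.nd (nat_lit 78) (nat_lit 152) (nat_lit 0) (XT.lf (nat_lit 0) (nat_lit 22129203118) (nat_lit 304) (nat_lit 1514588950) (nat_lit 76) (nat_lit 7429839854) (nat_lit 36) (nat_lit 5) (nat_lit 40) (nat_lit 5) (nat_lit 37) (nat_lit 5) (nat_lit 354) (nat_lit 283) (nat_lit 143)) (XT.nd (nat_lit 78) (nat_lit 0) (nat_lit 0) (XT.lf (nat_lit 0) (nat_lit 9495986534) (nat_lit 152) (nat_lit 17210099092) (nat_lit 228) (nat_lit 5078084315) (nat_lit 34) (nat_lit 5) (nat_lit 36) (nat_lit 5) (nat_lit 37) (nat_lit 5) (nat_lit 355) (nat_lit 283) (nat_lit 142)) (XT.lf (nat_lit 0) (nat_lit 20858171582) (nat_lit 152) (nat_lit 10571031729) (nat_lit 228) (nat_lit 1086561694) (nat_lit 34) (nat_lit 5) (nat_lit 36) (nat_lit 5) (nat_lit 37) (nat_lit 5) (nat_lit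 356) (nat_lit 283) (nat_lit 141)))))) (XT.nd (nat_lit 468) (nat_lit 380) (nat_lit 0) (XT.nd (nat_lit 234) (nat_lit 152) (nat_lit 0) (XT.nd (nat_lit 78) (nat_lit 228) (nat_lit 0) (XT.lf (nat_lit 0) (nat_lit 2959433880) (nat_lit 228) (nat_lit 746764872) (nat_lit 76) (nat_lit 29562432664) (nat_lit 33) (nat_lit 5) (nat_lit 36) (nat_lit 5) (nat_lit 34) (nat_lit 5) (nat_lit 357) (nat_lit 283) (nat_lit 140)) (XT.nd (nat_lit 78) (nat_lit 0) (nat_lit 0) (XT.lf (nat_lit 0) (nat_lit 7234996646) (nat_lit 304) (nat_lit 23394599427) (nat_lit 76) (nat_lit 3410272241) (nat_lit 30) (nat_lit 5) (nat_lit 34) (nat_lit 5) (nat_lit 31) (nat_lit 5) (nat_lit 358) (nat_lit 283) (nat_lit 139)) (XT.lf (nat_lit 0) (nat_lit 11677125796) (nat_lit 304) (nat_lit 12485802763) (nat_lit 76) (nat_lit 10670172561) (nat_lit 30) (nat_lit 5) (nat_lit 34) (nat_lit 5) (nat_lit 31) (nat_lit 5) (nat_lit 359) (nat_lit 283) (nat_lit 138))))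 (XT.nd (nat_lit 78) (nat_lit 152) (nat_lit 0) (XT.lf (nat_lit 0) (nat_lit 16246682842) (nat_lit 304) (nat_lit 1258857324) (nat_lit 76) (nat_lit 18144773385) (nat_lit 30) (nat_lit 5) (nat_lit 34) (nat_lit 5) (nat_lit 31) (nat_lit 5) (nat_lit 360) (nat_lit 283) (nat_lit 137)) (XT.nd (nat_lit 78) (nat_lit 0) (nat_lit 0) (XT.lf (nat_lit 0) (nat_lit 10500958363) (nat_lit 152) (nat_lit 10547643872) (nat_lit 228) (nat_lit 15440589188) (nat_lit 28) (nat_lit 5) (nat_lit 30) (nat_lit 5) (nat_lit 31) (nat_lit 5) (nat_lit 361) (nat_lit 283) (nat_lit 136)) (XT.lf (nat_lit 0) (nat_lit 22630610988) (nat_lit 152) (nat_lit 3371095009) (nat_lit 228) (nat_lit 11351322958) (nat_lit 28) (nat_lit 5) (nat_lit 30) (nat_lit 5) (nat_lit 31) (nat_lit 5) (nat_lit 362) (nat_lit 283) (nat_lit 135))))) (XT.nd (nat_lit 234) (nat_lit 152) (nat_lit 0) (XT.nd (nat_lit 78) (nat_lit 228) (nat_lit 0) (XT.lf (nat_lit 0) (nat_lit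 31136600600) (nat_lit 228) (nat_lit 3165925918) (nat_lit 76) (nat_lit 3939266082) (nat_lit 28) (nat_lit 5) (nat_lit 31) (nat_lit 5) (nat_lit 29) (nat_lit 5) (nat_lit 363) (nat_lit 283) (nat_lit 134)) (XT.nd (nat_lit 78) (nat_lit 76) (nat_lit 0) (XT.lf (nat_lit 0) (nat_lit 8868545265) (nat_lit 152) (nat_lit 27670330454) (nat_lit 228) (nat_lit 2614950142) (nat_lit 26) (nat_lit 5) (nat_lit 28) (nat_lit 5) (nat_lit 29) (nat_lit 5) (nat_lit 364) (nat_lit 283) (nat_lit 133)) (XT.lf (nat_lit 0) (nat_lit 1997785637) (nat_lit 228) (nat_lit 18791374700) (nat_lit 76) (nat_lit 19302676204) (nat_lit 25) (nat_lit 5) (nat_lit 28) (nat_lit 5) (nat_lit 26) (nat_lit 5) (nat_lit 365) (nat_lit 283) (nat_lit 132)))) (XT.nd (nat_lit 78) (nat_lit 152) (nat_lit 0) (XT.lf (nat_lit 0) (nat_lit 6691222099) (nat_lit 228) (nat_lit 6986721598) (nat_lit 76) (nat_lit 27379426978) (nat_lit 25) (nat_lit 5) (nat_lit 28) (nat_lit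 5) (nat_lit 26) (nat_lit 5) (nat_lit 366) (nat_lit 283) (nat_lit 131)) (XT.nd (nat_lit 78) (nat_lit 0) (nat_lit 0) (XT.lf (nat_lit 0) (nat_lit 5266906264) (nat_lit 152) (nat_lit 6304209858) (nat_lit 228) (nat_lit 30479391045) (nat_lit 23) (nat_lit 5) (nat_lit 25) (nat_lit 5) (nat_lit 26) (nat_lit 5) (nat_lit 367) (nat_lit 283) (nat_lit 130)) (XT.lf (nat_lit 0) (nat_lit 16676131637) (nat_lit 228) (nat_lit 25061050957) (nat_lit 76) (nat_lit 1333899213) (nat_lit 23) (nat_lit 5) (nat_lit 26) (nat_lit 5) (nat_lit 24) (nat_lit 5) (nat_lit 368) (nat_lit 283) (nat_lit 129))))))))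
noncomputable def xc175 : XT := (XT.nd (nat_lit 34164) (nat_lit 0) (nat_lit 8740) (XT.nd (nat_lit 858) (nat_lit 304) (nat_lit 0) (XT.nd (nat_lit 390) (nat_lit 304) (nat_lit 0) (XT.nd (nat_lit 156) (nat_lit 152) (nat_lit 0) (XT.nd (nat_lit 78) (nat_lit 0) (nat_lit 0) (XT.lf (nat_lit 0) (nat_lit 21991925829) (nat_lit 228) (nat_lit 13056997572) (nat_lit 76) (nat_lit 9071627065) (nat_lit 23) (nat_lit 5) (nat_lit 26) (nat_lit 5) (nat_lit 24) (nat_lit 5) (nat_lit 369) (nat_lit 283) (nat_lit 128)) (XT.lf (nat_lit 0) (nat_lit 27462543645) (nat_lit 228) (nat_lit 700351848) (nat_lit 76) (nat_lit 17038752660) (nat_lit 23) (nat_lit 5) (nat_lit 26) (nat_lit 5) (nat_lit 24) (nat_lit 5) (nat_lit 370) (nat_lit 283) (nat_lit 127))) (XT.nd (nat_lit 78) (nat_lit 0) (nat_lit 0) (XT.lf (nat_lit 0) (nat_lit 12258898549) (nat_lit 152) (nat_lit 20951706719) (nat_lit 228) (nat_lit 13101179046) (nat_lit 21) (nat_lit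 5) (nat_lit 23) (nat_lit 5) (nat_lit 24) (nat_lit 5) (nat_lit 371) (nat_lit 283) (nat_lit 126)) (XT.nd (nat_lit 78) (nat_lit 0) (nat_lit 0) (XT.lf (nat_lit 0) (nat_lit 25614044688) (nat_lit 152) (nat_lit 13519683392) (nat_lit 228) (nat_lit 8321423047) (nat_lit 21) (nat_lit 5) (nat_lit 23) (nat_lit 5) (nat_lit 24) (nat_lit 5) (nat_lit 372) (nat_lit 283) (nat_lit 125)) (XT.lf (nat_lit 0) (nat_lit 39362817738) (nat_lit 152) (nat_lit 5867403693) (nat_lit 228) (nat_lit 3402732207) (nat_lit 21) (nat_lit 5) (nat_lit 23) (nat_lit 5) (nat_lit 24) (nat_lit 5) (nat_lit 373) (nat_lit 283) (nat_lit 124))))) (XT.nd (nat_lit 234) (nat_lit 152) (nat_lit 0) (XT.nd (nat_lit 78) (nat_lit 0) (nat_lit 0) (XT.lf (nat_lit 0) (nat_lit 1682500029) (nat_lit 152) (nat_lit 46136715122) (nat_lit 76) (nat_lit 2024856802) (nat_lit 19) (nat_lit 5) (nat_lit 21) (nat_lit 5) (nat_lit 20) (nat_lit 5) (nat_lit 374) (nat_lit 283)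 (nat_lit 123)) (XT.nd (nat_lit 78) (nat_lit 0) (nat_lit 0) (XT.lf (nat_lit 0) (nat_lit 7000316530) (nat_lit 152) (nat_lit 33924171608) (nat_lit 76) (nat_lit 10161576976) (nat_lit 19) (nat_lit 5) (nat_lit 21) (nat_lit 5) (nat_lit 20) (nat_lit 5) (nat_lit 375) (nat_lit 283) (nat_lit 122)) (XT.lf (nat_lit 0) (nat_lit 12473578895) (nat_lit 152) (nat_lit 21351998180) (nat_lit 76) (nat_lit 18539868096) (nat_lit 19) (nat_lit 5) (nat_lit 21) (nat_lit 5) (nat_lit 20) (nat_lit 5) (nat_lit 376) (nat_lit 283) (nat_lit 121)))) (XT.nd (nat_lit 78) (nat_lit 152) (nat_lit 0) (XT.lf (nat_lit 0) (nat_lit 18107069586) (nat_lit 152) (nat_lit 8409209442) (nat_lit 76) (nat_lit 27167050998) (nat_lit 19) (nat_lit 5) (nat_lit 21) (nat_lit 5) (nat_lit 20) (nat_lit 5) (nat_lit 377) (nat_lit 283) (nat_lit 120)) (XT.nd (nat_lit 78) (nat_lit 0) (nat_lit 0) (XT.lf (nat_lit 0) (nat_lit 5013332001) (nat_lit 152) (nat_lit 18940570282)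 (nat_lit 228) (nat_lit 31085523211) (nat_lit 17) (nat_lit 5) (nat_lit 19) (nat_lit 5) (nat_lit 20) (nat_lit 5) (nat_lit 378) (nat_lit 283) (nat_lit 119)) (XT.lf (nat_lit 0) (nat_lit 19004633462) (nat_lit 152) (nat_lit 11052620822) (nat_lit 228) (nat_lit 26376520176) (nat_lit 17) (nat_lit 5) (nat_lit 19) (nat_lit 5) (nat_lit 20) (nat_lit 5) (nat_lit 379) (nat_lit 283) (nat_lit 118)))))) (XT.nd (nat_lit 468) (nat_lit 152) (nat_lit 0) (XT.nd (nat_lit 234) (nat_lit 76) (nat_lit 0) (XT.nd (nat_lit 78) (nat_lit 76) (nat_lit 0) (XT.lf (nat_lit 0) (nat_lit 33409560593) (nat_lit 152) (nat_lit 2930454791) (nat_lit 228) (nat_lit 21530053202) (nat_lit 17) (nat_lit 5) (nat_lit 19) (nat_lit 5) (nat_lit 20) (nat_lit 5) (nat_lit 380) (nat_lit 283) (nat_lit 117)) (XT.nd (nat_lit 78) (nat_lit 76) (nat_lit 0) (XT.lf (nat_lit 0) (nat_lit 42859900932) (nat_lit 228) (nat_lit 11161088220) (nat_lit 76) (nat_lit 5327006965)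 (nat_lit 17) (nat_lit 5) (nat_lit 20) (nat_lit 5) (nat_lit 18) (nat_lit 4) (nat_lit 381) (nat_lit 283) (nat_lit 116)) (XT.lf (nat_lit 0) (nat_lit 2552254824) (nat_lit 76) (nat_lit 47073174959) (nat_lit 152) (nat_lit 11243334006) (nat_lit 16) (nat_lit 5) (nat_lit 17) (nat_lit 5) (nat_lit 18) (nat_lit 4) (nat_lit 382) (nat_lit 283) (nat_lit 115)))) (XT.nd (nat_lit 78) (nat_lit 76) (nat_lit 0) (XT.lf (nat_lit 0) (nat_lit 16899998262) (nat_lit 76) (nat_lit 39803176160) (nat_lit 152) (nat_lit 5728706184) (nat_lit 16) (nat_lit 5) (nat_lit 17) (nat_lit 5) (nat_lit 18) (nat_lit 4) (nat_lit 383) (nat_lit 283) (nat_lit 114)) (XT.nd (nat_lit 78) (nat_lit 76) (nat_lit 0) (XT.lf (nat_lit 0) (nat_lit 31672551417) (nat_lit 76) (nat_lit 32317345435) (nat_lit 152) (nat_lit 52098217) (nat_lit 16) (nat_lit 5) (nat_lit 17) (nat_lit 5) (nat_lit 18) (nat_lit 4) (nat_lit 384) (nat_lit 283) (nat_lit 113)) (XT.lf (nat_lit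 0) (nat_lit 5678437986) (nat_lit 152) (nat_lit 18873362691) (nat_lit 76) (nat_lit 41147043269) (nat_lit 15) (nat_lit 5) (nat_lit 17) (nat_lit 5) (nat_lit 16) (nat_lit 5) (nat_lit 385) (nat_lit 283) (nat_lit 112))))) (XT.nd (nat_lit 234) (nat_lit 0) (nat_lit 0) (XT.nd (nat_lit 78) (nat_lit 152) (nat_lit 0) (XT.lf (nat_lit 0) (nat_lit 11576646624) (nat_lit 152) (nat_lit 4978281776) (nat_lit 76) (nat_lit 50850553518) (nat_lit 15) (nat_lit 5) (nat_lit 17) (nat_lit 5) (nat_lit 16) (nat_lit 5) (nat_lit 386) (nat_lit 283) (nat_lit 111)) (XT.nd (nat_lit 78) (nat_lit 0) (nat_lit 0) (XT.lf (nat_lit 0) (nat_lit 9514095495) (nat_lit 152) (nat_lit 8226057904) (nat_lit 228) (nat_lit 51420518188) (nat_lit 13) (nat_lit 5) (nat_lit 15) (nat_lit 5) (nat_lit 16) (nat_lit 5) (nat_lit 387) (nat_lit 283) (nat_lit 110)) (XT.lf (nat_lit 0) (nat_lit 24139641374) (nat_lit 228) (nat_lit 46432836744) (nat_lit 76) (nat_lit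 394509573) (nat_lit 13) (nat_lit 5) (nat_lit 16) (nat_lit 5) (nat_lit 14) (nat_lit 4) (nat_lit 388) (nat_lit 283) (nat_lit 109)))) (XT.nd (nat_lit 32448) (nat_lit 0) (nat_lit 12616) (XT.lf (nat_lit 0) (nat_lit 30809567112) (nat_lit 228) (nat_lit 32909212894) (nat_lit 76) (nat_lit 9106362615) (nat_lit 13) (nat_lit 5) (nat_lit 16) (nat_lit 5) (nat_lit 14) (nat_lit 4) (nat_lit 389) (nat_lit 283) (nat_lit 108)) (XT.nd (nat_lit 78) (nat_lit 0) (nat_lit 0) (XT.lf (nat_lit 0) (nat_lit 1958333051) (nat_lit 988) (nat_lit 1265016382) (nat_lit 988) (nat_lit 1265016382) (nat_lit 179) (nat_lit 3) (nat_lit 192) (nat_lit 3) (nat_lit 192) (nat_lit 5) (nat_lit 284) (nat_lit 284) (nat_lit 212)) (XT.lf (nat_lit 76) (nat_lit 1271027587) (nat_lit 0) (nat_lit 3531700421) (nat_lit 988) (nat_lit 4281648464) (nat_lit 180) (nat_lit 5) (nat_lit 179) (nat_lit 3) (nat_lit 192) (nat_lit 5) (nat_lit 285) (nat_lit 284) (nat_lit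 211))))))) (XT.nd (nat_lit 858) (nat_lit 3040) (nat_lit 0) (XT.nd (nat_lit 390) (nat_lit 836) (nat_lit 0) (XT.nd (nat_lit 156) (nat_lit 0) (nat_lit 76) (XT.nd (nat_lit 78) (nat_lit 0) (nat_lit 76) (XT.lf (nat_lit 76) (nat_lit 5221230792) (nat_lit 0) (nat_lit 487717478) (nat_lit 988) (nat_lit 3486580438) (nat_lit 180) (nat_lit 5) (nat_lit 179) (nat_lit 3) (nat_lit 192) (nat_lit 5) (nat_lit 286) (nat_lit 284) (nat_lit 210)) (XT.lf (nat_lit 0) (nat_lit 6636906733) (nat_lit 912) (nat_lit 62945964) (nat_lit 988) (nat_lit 2610409123) (nat_lit 180) (nat_lit 5) (nat_lit 192) (nat_lit 5) (nat_lit 193) (nat_lit 5) (nat_lit 287) (nat_lit 284) (nat_lit 209))) (XT.nd (nat_lit 78) (nat_lit 0) (nat_lit 0) (XT.lf (nat_lit 76) (nat_lit 4022498134) (nat_lit 0) (nat_lit 3583702761) (nat_lit 988) (nat_lit 1821911568) (nat_lit 181) (nat_lit 5) (nat_lit 180) (nat_lit 5) (nat_lit 193) (nat_lit 5) (nat_lit 288) (nat_lit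 284) (nat_lit 208)) (XT.nd (nat_lit 78) (nat_lit 0) (nat_lit 76) (XT.lf (nat_lit 76) (nat_lit 8215048749) (nat_lit 0) (nat_lit 360874875) (nat_lit 988) (nat_lit 974512610) (nat_lit 181) (nat_lit 5) (nat_lit 180) (nat_lit 5) (nat_lit 193) (nat_lit 5) (nat_lit 289) (nat_lit 284) (nat_lit 207)) (XT.lf (nat_lit 76) (nat_lit 2867149140) (nat_lit 0) (nat_lit 6735274040) (nat_lit 988) (nat_lit 73251811) (nat_lit 182) (nat_lit 5) (nat_lit 181) (nat_lit 5) (nat_lit 194) (nat_lit 5) (nat_lit 290) (nat_lit 284) (nat_lit 206))))) (XT.nd (nat_lit 234) (nat_lit 0) (nat_lit 76) (XT.nd (nat_lit 78) (nat_lit 0) (nat_lit 0) (XT.lf (nat_lit 0) (nat_lit 827551227) (nat_lit 988) (nat_lit 2610820429) (nat_lit 1064) (nat_lit 6366448467) (nat_lit 168) (nat_lit 5) (nat_lit 181) (nat_lit 5) (nat_lit 182) (nat_lit 5) (nat_lit 291) (nat_lit 284) (nat_lit 205)) (XT.nd (nat_lit 78) (nat_lit 0) (nat_lit 76) (XT.lf (nat_lit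 76) (nat_lit 1728574716) (nat_lit 0) (nat_lit 14761191) (nat_lit 1064) (nat_lit 8194868443) (nat_lit 169) (nat_lit 5) (nat_lit 168) (nat_lit 5) (nat_lit 182) (nat_lit 5) (nat_lit 292) (nat_lit 284) (nat_lit 204)) (XT.lf (nat_lit 0) (nat_lit 2720507092) (nat_lit 988) (nat_lit 3875177543) (nat_lit 1064) (nat_lit 3478955450) (nat_lit 169) (nat_lit 5) (nat_lit 182) (nat_lit 5) (nat_lit 183) (nat_lit 5) (nat_lit 293) (nat_lit 284) (nat_lit 203)))) (XT.nd (nat_lit 78) (nat_lit 0) (nat_lit 76) (XT.lf (nat_lit 76) (nat_lit 583031163) (nat_lit 0) (nat_lit 3124016275) (nat_lit 1064) (nat_lit 6508785240) (nat_lit 170) (nat_lit 5) (nat_lit 169) (nat_lit 5) (nat_lit 183) (nat_lit 5) (nat_lit 294) (nat_lit 284) (nat_lit 202)) (XT.nd (nat_lit 78) (nat_lit 0) (nat_lit 0) (XT.lf (nat_lit 0) (nat_lit 4742006127) (nat_lit 988) (nat_lit 5128621979) (nat_lit 1064) (nat_lit 490131786) (nat_lit 170) (nat_lit 5) (nat_lit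 183) (nat_lit 5) (nat_lit 184) (nat_lit 5) (nat_lit 295) (nat_lit 284) (nat_lit 201)) (XT.lf (nat_lit 0) (nat_lit 5814633745) (nat_lit 988) (nat_lit 537944908) (nat_lit 1064) (nat_lit 4157319316) (nat_lit 170) (nat_lit 5) (nat_lit 183) (nat_lit 5) (nat_lit 184) (nat_lit 5) (nat_lit 296) (nat_lit 284) (nat_lit 200)))))) (XT.nd (nat_lit 468) (nat_lit 2280) (nat_lit 0) (XT.nd (nat_lit 234) (nat_lit 912) (nat_lit 0) (XT.nd (nat_lit 78) (nat_lit 0) (nat_lit 76) (XT.lf (nat_lit 76) (nat_lit 4256327196) (nat_lit 0) (nat_lit 2680424810) (nat_lit 1064) (nat_lit 3726298688) (nat_lit 171) (nat_lit 5) (nat_lit 170) (nat_lit 5) (nat_lit 184) (nat_lit 5) (nat_lit 297) (nat_lit 284) (nat_lit 199)) (XT.nd (nat_lit 78) (nat_lit 0) (nat_lit 0) (XT.lf (nat_lit 0) (nat_lit 8085591477) (nat_lit 988) (nat_lit 1643647974) (nat_lit 1064) (nat_lit 1091824933) (nat_lit 171) (nat_lit 5) (nat_lit 184) (nat_lit 5) (nat_lit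 185) (nat_lit 5) (nat_lit 298) (nat_lit 284) (nat_lit 198)) (XT.lf (nat_lit 76) (nat_lit 3282532178) (nat_lit 0) (nat_lit 6022106632) (nat_lit 1064) (nat_lit 1678163819) (nat_lit 172) (nat_lit 5) (nat_lit 171) (nat_lit 5) (nat_lit 185) (nat_lit 5) (nat_lit 299) (nat_lit 284) (nat_lit 197)))) (XT.nd (nat_lit 78) (nat_lit 988) (nat_lit 0) (XT.lf (nat_lit 76) (nat_lit 8373057739) (nat_lit 0) (nat_lit 2181933828) (nat_lit 1064) (nat_lit 594614211) (nat_lit 172) (nat_lit 5) (nat_lit 171) (nat_lit 5) (nat_lit 185) (nat_lit 5) (nat_lit 300) (nat_lit 284) (nat_lit 196)) (XT.nd (nat_lit 78) (nat_lit 0) (nat_lit 0) (XT.lf (nat_lit 0) (nat_lit 529419246) (nat_lit 1064) (nat_lit 9020657678) (nat_lit 76) (nat_lit 1770692784) (nat_lit 158) (nat_lit 5) (nat_lit 172) (nat_lit 5) (nat_lit 159) (nat_lit 5) (nat_lit 301) (nat_lit 284) (nat_lit 195)) (XT.lf (nat_lit 0) (nat_lit 1704154252) (nat_lit 1064) (nat_lit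 3955672996) (nat_lit 76) (nat_lit 5836246867) (nat_lit 158) (nat_lit 5) (nat_lit 172) (nat_lit 5) (nat_lit 159) (nat_lit 5) (nat_lit 302) (nat_lit 284) (nat_lit 194))))) (XT.nd (nat_lit 234) (nat_lit 532) (nat_lit 0) (XT.nd (nat_lit 78) (nat_lit 684) (nat_lit 0) (XT.lf (nat_lit 0) (nat_lit 1268870178) (nat_lit 1064) (nat_lit 1637082660) (nat_lit 1140) (nat_lit 8770978842) (nat_lit 144) (nat_lit 5) (nat_lit 158) (nat_lit 5) (nat_lit 159) (nat_lit 5) (nat_lit 303) (nat_lit 284) (nat_lit 193)) (XT.nd (nat_lit 78) (nat_lit 684) (nat_lit 0) (XT.lf (nat_lit 0) (nat_lit 4188320989) (nat_lit 1140) (nat_lit 5172924789) (nat_lit 76) (nat_lit 2500680978) (nat_lit 144) (nat_lit 5) (nat_lit 159) (nat_lit 5) (nat_lit 145) (nat_lit 5) (nat_lit 304) (nat_lit 284) (nat_lit 192)) (XT.lf (nat_lit 0) (nat_lit 189614418) (nat_lit 684) (nat_lit 5318240360) (nat_lit 760) (nat_lit 6544701945) (nat_lit 135) (nat_lit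 5) (nat_lit 144) (nat_lit 5) (nat_lit 145) (nat_lit 5) (nat_lit 305) (nat_lit 284) (nat_lit 191)))) (XT.nd (nat_lit 78) (nat_lit 532) (nat_lit 0) (XT.lf (nat_lit 0) (nat_lit 5802094831) (nat_lit 684) (nat_lit 1098179351) (nat_lit 760) (nat_lit 5347676960) (nat_lit 135) (nat_lit 5) (nat_lit 144) (nat_lit 5) (nat_lit 145) (nat_lit 5) (nat_lit 306) (nat_lit 284) (nat_lit 190)) (XT.nd (nat_lit 78) (nat_lit 532) (nat_lit 0) (XT.lf (nat_lit 0) (nat_lit 8347325648) (nat_lit 760) (nat_lit 914577705) (nat_lit 76) (nat_lit 3186961499) (nat_lit 135) (nat_lit 5) (nat_lit 145) (nat_lit 5) (nat_lit 136) (nat_lit 5) (nat_lit 307) (nat_lit 284) (nat_lit 189)) (XT.lf (nat_lit 0) (nat_lit 4849807728) (nat_lit 532) (nat_lit 5027641339) (nat_lit 608) (nat_lit 2777209077) (nat_lit 128) (nat_lit 5) (nat_lit 135) (nat_lit 5) (nat_lit 136) (nat_lit 5) (nat_lit 308) (nat_lit 284) (nat_lit 188))))))))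
noncomputable def xc176 : XT := (XT.nd (nat_lit 1716) (nat_lit 2584) (nat_lit 0) (XT.nd (nat_lit 858) (nat_lit 1900) (nat_lit 0) (XT.nd (nat_lit 390) (nat_lit 1444) (nat_lit 0) (XT.nd (nat_lit 156) (nat_lit 456) (nat_lit 0) (XT.nd (nat_lit 78) (nat_lit 608) (nat_lit 0) (XT.lf (nat_lit 0) (nat_lit 10789439688) (nat_lit 532) (nat_lit 655801385) (nat_lit 608) (nat_lit 1421671976) (nat_lit 128) (nat_lit 5) (nat_lit 135) (nat_lit 5) (nat_lit 136) (nat_lit 5) (nat_lit 309) (nat_lit 284) (nat_lit 187)) (XT.lf (nat_lit 0) (nat_lit 32526510) (nat_lit 608) (nat_lit 9240958724) (nat_lit 76) (nat_lit 3810371185) (nat_lit 120) (nat_lit 5) (nat_lit 128) (nat_lit 5) (nat_lit 121) (nat_lit 5) (nat_lit 310) (nat_lit 284) (nat_lit 186))) (XT.nd (nat_lit 78) (nat_lit 456) (nat_lit 0) (XT.lf (nat_lit 0) (nat_lit 1512638323) (nat_lit 608) (nat_lit 3360712014) (nat_lit 76) (nat_lit 8433246928) (nat_lit 120) (nat_lit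 5) (nat_lit 128) (nat_lit 5) (nat_lit 121) (nat_lit 5) (nat_lit 311) (nat_lit 284) (nat_lit 185)) (XT.nd (nat_lit 78) (nat_lit 0) (nat_lit 0) (XT.lf (nat_lit 0) (nat_lit 2733037998) (nat_lit 456) (nat_lit 314059331) (nat_lit 532) (nat_lit 10488660906) (nat_lit 114) (nat_lit 5) (nat_lit 120) (nat_lit 5) (nat_lit 121) (nat_lit 5) (nat_lit 312) (nat_lit 284) (nat_lit 184)) (XT.lf (nat_lit 0) (nat_lit 4687977849) (nat_lit 532) (nat_lit 4751333732) (nat_lit 76) (nat_lit 4330705983) (nat_lit 114) (nat_lit 5) (nat_lit 121) (nat_lit 5) (nat_lit 115) (nat_lit 5) (nat_lit 313) (nat_lit 284) (nat_lit 183))))) (XT.nd (nat_lit 234) (nat_lit 532) (nat_lit 0) (XT.nd (nat_lit 78) (nat_lit 456) (nat_lit 0) (XT.lf (nat_lit 0) (nat_lit 1491481238) (nat_lit 456) (nat_lit 4888508878) (nat_lit 532) (nat_lit 7631291533) (nat_lit 108) (nat_lit 5) (nat_lit 114) (nat_lit 5) (nat_lit 115) (nat_lit 5) (nat_lit 314) (nat_lit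 284) (nat_lit 182)) (XT.nd (nat_lit 78) (nat_lit 456) (nat_lit 0) (XT.lf (nat_lit 0) (nat_lit 8003028460) (nat_lit 456) (nat_lit 152471588) (nat_lit 532) (nat_lit 6103334633) (nat_lit 108) (nat_lit 5) (nat_lit 114) (nat_lit 5) (nat_lit 115) (nat_lit 5) (nat_lit 315) (nat_lit 284) (nat_lit 181)) (XT.lf (nat_lit 0) (nat_lit 137408491) (nat_lit 456) (nat_lit 9878808920) (nat_lit 532) (nat_lit 4496670804) (nat_lit 102) (nat_lit 5) (nat_lit 108) (nat_lit 5) (nat_lit 109) (nat_lit 5) (nat_lit 316) (nat_lit 284) (nat_lit 180)))) (XT.nd (nat_lit 78) (nat_lit 532) (nat_lit 0) (XT.lf (nat_lit 0) (nat_lit 6833319466) (nat_lit 456) (nat_lit 5149577831) (nat_lit 532) (nat_lit 2790193068) (nat_lit 102) (nat_lit 5) (nat_lit 108) (nat_lit 5) (nat_lit 109) (nat_lit 5) (nat_lit 317) (nat_lit 284) (nat_lit 179)) (XT.nd (nat_lit 78) (nat_lit 532) (nat_lit 0) (XT.lf (nat_lit 0) (nat_lit 13714769509) (nat_lit 456)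 (nat_lit 279705943) (nat_lit 532) (nat_lit 1047076522) (nat_lit 102) (nat_lit 5) (nat_lit 108) (nat_lit 5) (nat_lit 109) (nat_lit 5) (nat_lit 318) (nat_lit 284) (nat_lit 178)) (XT.lf (nat_lit 0) (nat_lit 819542460) (nat_lit 532) (nat_lit 9791890822) (nat_lit 76) (nat_lit 4703872584) (nat_lit 95) (nat_lit 5) (nat_lit 102) (nat_lit 5) (nat_lit 96) (nat_lit 5) (nat_lit 319) (nat_lit 284) (nat_lit 177)))))) (XT.nd (nat_lit 390) (nat_lit 1140) (nat_lit 0) (XT.nd (nat_lit 156) (nat_lit 380) (nat_lit 0) (XT.nd (nat_lit 78) (nat_lit 380) (nat_lit 0) (XT.lf (nat_lit 0) (nat_lit 2723803902) (nat_lit 532) (nat_lit 3019291940) (nat_lit 76) (nat_lit 9853812605) (nat_lit 95) (nat_lit 5) (nat_lit 102) (nat_lit 5) (nat_lit 96) (nat_lit 5) (nat_lit 320) (nat_lit 284) (nat_lit 176)) (XT.lf (nat_lit 0) (nat_lit 4019909759) (nat_lit 380) (nat_lit 690710863) (nat_lit 456) (nat_lit 11175602608) (nat_lit 90) (nat_lit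 5) (nat_lit 95) (nat_lit 5) (nat_lit 96) (nat_lit 5) (nat_lit 321) (nat_lit 284) (nat_lit 175))) (XT.nd (nat_lit 78) (nat_lit 380) (nat_lit 0) (XT.lf (nat_lit 0) (nat_lit 6818226016) (nat_lit 456) (nat_lit 4910076621) (nat_lit 76) (nat_lit 4454105457) (nat_lit 90) (nat_lit 5) (nat_lit 96) (nat_lit 5) (nat_lit 91) (nat_lit 5) (nat_lit 322) (nat_lit 284) (nat_lit 174)) (XT.nd (nat_lit 78) (nat_lit 0) (nat_lit 0) (XT.lf (nat_lit 0) (nat_lit 2277630159) (nat_lit 380) (nat_lit 6727549771) (nat_lit 456) (nat_lit 7481840364) (nat_lit 85) (nat_lit 5) (nat_lit 90) (nat_lit 5) (nat_lit 91) (nat_lit 5) (nat_lit 323) (nat_lit 284) (nat_lit 173)) (XT.lf (nat_lit 0) (nat_lit 9766942004) (nat_lit 380) (nat_lit 1527996523) (nat_lit 456) (nat_lit 5504741111) (nat_lit 85) (nat_lit 5) (nat_lit 90) (nat_lit 5) (nat_lit 91) (nat_lit 5) (nat_lit 324) (nat_lit 284) (nat_lit 172))))) (XT.nd (nat_lit 234) (nat_lit 684)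 (nat_lit 0) (XT.nd (nat_lit 78) (nat_lit 76) (nat_lit 0) (XT.lf (nat_lit 0) (nat_lit 313934038) (nat_lit 380) (nat_lit 13367219549) (nat_lit 456) (nat_lit 3439756207) (nat_lit 80) (nat_lit 5) (nat_lit 85) (nat_lit 5) (nat_lit 86) (nat_lit 5) (nat_lit 325) (nat_lit 284) (nat_lit 171)) (XT.nd (nat_lit 78) (nat_lit 76) (nat_lit 0) (XT.lf (nat_lit 0) (nat_lit 7995269892) (nat_lit 380) (nat_lit 8217847493) (nat_lit 456) (nat_lit 1236457846) (nat_lit 80) (nat_lit 5) (nat_lit 85) (nat_lit 5) (nat_lit 86) (nat_lit 5) (nat_lit 326) (nat_lit 284) (nat_lit 170)) (XT.lf (nat_lit 0) (nat_lit 1001156976) (nat_lit 456) (nat_lit 1905286307) (nat_lit 76) (nat_lit 14881730166) (nat_lit 79) (nat_lit 5) (nat_lit 85) (nat_lit 5) (nat_lit 80) (nat_lit 5) (nat_lit 327) (nat_lit 284) (nat_lit 169)))) (XT.nd (nat_lit 78) (nat_lit 304) (nat_lit 0) (XT.lf (nat_lit 0) (nat_lit 3352369190) (nat_lit 456) (nat_lit 12200132542)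 (nat_lit 76) (nat_lit 2581942274) (nat_lit 74) (nat_lit 5) (nat_lit 80) (nat_lit 5) (nat_lit 75) (nat_lit 5) (nat_lit 328) (nat_lit 284) (nat_lit 168)) (XT.nd (nat_lit 78) (nat_lit 304) (nat_lit 0) (XT.lf (nat_lit 0) (nat_lit 5811208126) (nat_lit 456) (nat_lit 4485416347) (nat_lit 76) (nat_lit 8193386148) (nat_lit 74) (nat_lit 5) (nat_lit 80) (nat_lit 5) (nat_lit 75) (nat_lit 5) (nat_lit 329) (nat_lit 284) (nat_lit 167)) (XT.lf (nat_lit 0) (nat_lit 3515677514) (nat_lit 304) (nat_lit 4851136882) (nat_lit 380) (nat_lit 10488759825) (nat_lit 70) (nat_lit 5) (nat_lit 74) (nat_lit 5) (nat_lit 75) (nat_lit 5) (nat_lit 330) (nat_lit 284) (nat_lit 166))))))) (XT.nd (nat_lit 858) (nat_lit 1368) (nat_lit 0) (XT.nd (nat_lit 390) (nat_lit 532) (nat_lit 0) (XT.nd (nat_lit 156) (nat_lit 380) (nat_lit 0) (XT.nd (nat_lit 78) (nat_lit 304) (nat_lit 0) (XT.lf (nat_lit 0) (nat_lit 11041478309) (nat_lit 380) (nat_lit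 7403570121) (nat_lit 76) (nat_lit 785804084) (nat_lit 70) (nat_lit 5) (nat_lit 75) (nat_lit 5) (nat_lit 71) (nat_lit 5) (nat_lit 331) (nat_lit 284) (nat_lit 165)) (XT.lf (nat_lit 0) (nat_lit 723493399) (nat_lit 304) (nat_lit 13117547726) (nat_lit 380) (nat_lit 5775027160) (nat_lit 66) (nat_lit 5) (nat_lit 70) (nat_lit 5) (nat_lit 71) (nat_lit 5) (nat_lit 332) (nat_lit 284) (nat_lit 164))) (XT.nd (nat_lit 78) (nat_lit 380) (nat_lit 0) (XT.lf (nat_lit 0) (nat_lit 9232826750) (nat_lit 304) (nat_lit 7556371740) (nat_lit 380) (nat_lit 3221722161) (nat_lit 66) (nat_lit 5) (nat_lit 70) (nat_lit 5) (nat_lit 71) (nat_lit 5) (nat_lit 333) (nat_lit 284) (nat_lit 163)) (XT.nd (nat_lit 78) (nat_lit 380) (nat_lit 0) (XT.lf (nat_lit 0) (nat_lit 17984519709) (nat_lit 304) (nat_lit 1831422732) (nat_lit 380) (nat_lit 601989706) (nat_lit 66) (nat_lit 5) (nat_lit 70) (nat_lit 5) (nat_lit 71) (nat_lit 5) (nat_lit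 334) (nat_lit 284) (nat_lit 162)) (XT.lf (nat_lit 0) (nat_lit 2145673106) (nat_lit 380) (nat_lit 14624219088) (nat_lit 76) (nat_lit 4063966685) (nat_lit 61) (nat_lit 5) (nat_lit 66) (nat_lit 5) (nat_lit 62) (nat_lit 5) (nat_lit 335) (nat_lit 284) (nat_lit 161))))) (XT.nd (nat_lit 234) (nat_lit 228) (nat_lit 0) (XT.nd (nat_lit 78) (nat_lit 304) (nat_lit 0) (XT.lf (nat_lit 0) (nat_lit 4997063334) (nat_lit 380) (nat_lit 6136897201) (nat_lit 76) (nat_lit 10127138467) (nat_lit 61) (nat_lit 5) (nat_lit 66) (nat_lit 5) (nat_lit 62) (nat_lit 5) (nat_lit 336) (nat_lit 284) (nat_lit 160)) (XT.nd (nat_lit 78) (nat_lit 0) (nat_lit 0) (XT.lf (nat_lit 0) (nat_lit 2644115669) (nat_lit 304) (nat_lit 5306022710) (nat_lit 380) (nat_lit 13750549485) (nat_lit 57) (nat_lit 5) (nat_lit 61) (nat_lit 5) (nat_lit 62) (nat_lit 5) (nat_lit 337) (nat_lit 284) (nat_lit 159)) (XT.lf (nat_lit 0) (nat_lit 11051933118) (nat_lit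 380) (nat_lit 10357216790) (nat_lit 76) (nat_lit 742526027) (nat_lit 57) (nat_lit 5) (nat_lit 62) (nat_lit 5) (nat_lit 58) (nat_lit 5) (nat_lit 338) (nat_lit 284) (nat_lit 158)))) (XT.nd (nat_lit 78) (nat_lit 228) (nat_lit 0) (XT.lf (nat_lit 0) (nat_lit 14290428834) (nat_lit 380) (nat_lit 1461706505) (nat_lit 76) (nat_lit 6862763817) (nat_lit 57) (nat_lit 5) (nat_lit 62) (nat_lit 5) (nat_lit 58) (nat_lit 5) (nat_lit 339) (nat_lit 284) (nat_lit 157)) (XT.nd (nat_lit 78) (nat_lit 0) (nat_lit 0) (XT.lf (nat_lit 0) (nat_lit 7841757098) (nat_lit 228) (nat_lit 9851073212) (nat_lit 304) (nat_lit 5397200722) (nat_lit 54) (nat_lit 5) (nat_lit 57) (nat_lit 5) (nat_lit 58) (nat_lit 5) (nat_lit 340) (nat_lit 284) (nat_lit 156)) (XT.lf (nat_lit 0) (nat_lit 17442472233) (nat_lit 228) (nat_lit 3761100835) (nat_lit 304) (nat_lit 2375669783) (nat_lit 54) (nat_lit 5) (nat_lit 57) (nat_lit 5) (nat_lit 58) (nat_lit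 5) (nat_lit 341) (nat_lit 284) (nat_lit 155)))))) (XT.nd (nat_lit 468) (nat_lit 532) (nat_lit 0) (XT.nd (nat_lit 234) (nat_lit 456) (nat_lit 0) (XT.nd (nat_lit 78) (nat_lit 0) (nat_lit 0) (XT.lf (nat_lit 0) (nat_lit 769951095) (nat_lit 380) (nat_lit 20813109337) (nat_lit 76) (nat_lit 2498436979) (nat_lit 49) (nat_lit 5) (nat_lit 54) (nat_lit 5) (nat_lit 50) (nat_lit 5) (nat_lit 342) (nat_lit 284) (nat_lit 154)) (XT.nd (nat_lit 78) (nat_lit 0) (nat_lit 0) (XT.lf (nat_lit 0) (nat_lit 4053774663) (nat_lit 380) (nat_lit 11588598710) (nat_lit 76) (nat_lit 8953005979) (nat_lit 49) (nat_lit 5) (nat_lit 54) (nat_lit 5) (nat_lit 50) (nat_lit 5) (nat_lit 343) (nat_lit 284) (nat_lit 153)) (XT.lf (nat_lit 0) (nat_lit 7428114048) (nat_lit 380) (nat_lit 2098773960) (nat_lit 76) (nat_lit 15598042207) (nat_lit 49) (nat_lit 5) (nat_lit 54) (nat_lit 5) (nat_lit 50) (nat_lit 5) (nat_lit 344) (nat_lit 284) (nat_lit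 152)))) (XT.nd (nat_lit 78) (nat_lit 228) (nat_lit 0) (XT.lf (nat_lit 0) (nat_lit 7817198697) (nat_lit 228) (nat_lit 3153862700) (nat_lit 304) (nat_lit 14697297004) (nat_lit 46) (nat_lit 5) (nat_lit 49) (nat_lit 5) (nat_lit 50) (nat_lit 5) (nat_lit 345) (nat_lit 284) (nat_lit 151)) (XT.nd (nat_lit 78) (nat_lit 228) (nat_lit 0) (XT.lf (nat_lit 0) (nat_lit 14666805589) (nat_lit 304) (nat_lit 8197961434) (nat_lit 76) (nat_lit 3361938935) (nat_lit 46) (nat_lit 5) (nat_lit 50) (nat_lit 5) (nat_lit 47) (nat_lit 5) (nat_lit 346) (nat_lit 284) (nat_lit 150)) (XT.lf (nat_lit 0) (nat_lit 1736631333) (nat_lit 228) (nat_lit 16777256990) (nat_lit 304) (nat_lit 8286713067) (nat_lit 43) (nat_lit 5) (nat_lit 46) (nat_lit 5) (nat_lit 47) (nat_lit 5) (nat_lit 347) (nat_lit 284) (nat_lit 149))))) (XT.nd (nat_lit 234) (nat_lit 228) (nat_lit 0) (XT.nd (nat_lit 78) (nat_lit 304) (nat_lit 0) (XT.lf (nat_lit 0) (nat_lit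 12126555538) (nat_lit 228) (nat_lit 10425271330) (nat_lit 304) (nat_lit 4837634621) (nat_lit 43) (nat_lit 5) (nat_lit 46) (nat_lit 5) (nat_lit 47) (nat_lit 5) (nat_lit 348) (nat_lit 284) (nat_lit 148)) (XT.nd (nat_lit 78) (nat_lit 304) (nat_lit 0) (XT.lf (nat_lit 0) (nat_lit 22817734247) (nat_lit 228) (nat_lit 3886043099) (nat_lit 304) (nat_lit 1292434608) (nat_lit 43) (nat_lit 5) (nat_lit 46) (nat_lit 5) (nat_lit 47) (nat_lit 5) (nat_lit 349) (nat_lit 284) (nat_lit 147)) (XT.lf (nat_lit 0) (nat_lit 2384914476) (nat_lit 304) (nat_lit 23368747032) (nat_lit 76) (nat_lit 2864678427) (nat_lit 39) (nat_lit 5) (nat_lit 43) (nat_lit 5) (nat_lit 40) (nat_lit 5) (nat_lit 350) (nat_lit 284) (nat_lit 146)))) (XT.nd (nat_lit 78) (nat_lit 228) (nat_lit 0) (XT.lf (nat_lit 0) (nat_lit 6230970040) (nat_lit 304) (nat_lit 13223065966) (nat_lit 76) (nat_lit 9802190840) (nat_lit 39) (nat_lit 5) (nat_lit 43) (nat_lit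 5) (nat_lit 40) (nat_lit 5) (nat_lit 351) (nat_lit 284) (nat_lit 145)) (XT.nd (nat_lit 78) (nat_lit 228) (nat_lit 0) (XT.lf (nat_lit 0) (nat_lit 10185685690) (nat_lit 304) (nat_lit 2783084888) (nat_lit 76) (nat_lit 16944691011) (nat_lit 39) (nat_lit 5) (nat_lit 43) (nat_lit 5) (nat_lit 40) (nat_lit 5) (nat_lit 352) (nat_lit 284) (nat_lit 144)) (XT.lf (nat_lit 0) (nat_lit 8118744461) (nat_lit 228) (nat_lit 6211814879) (nat_lit 304) (nat_lit 16257717837) (nat_lit 36) (nat_lit 5) (nat_lit 39) (nat_lit 5) (nat_lit 40) (nat_lit 5) (nat_lit 353) (nat_lit 284) (nat_lit 143))))))))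
noncomputable def xc177 : XT := (XT.nd (nat_lit 1716) (nat_lit 456) (nat_lit 0) (XT.nd (nat_lit 858) (nat_lit 684) (nat_lit 0) (XT.nd (nat_lit 390) (nat_lit 380) (nat_lit 0) (XT.nd (nat_lit 156) (nat_lit 228) (nat_lit 0) (XT.nd (nat_lit 78) (nat_lit 0) (nat_lit 0) (XT.lf (nat_lit 0) (nat_lit 18628889881) (nat_lit 304) (nat_lit 11895133837) (nat_lit 76) (nat_lit 758449221) (nat_lit 36) (nat_lit 5) (nat_lit 40) (nat_lit 5) (nat_lit 37) (nat_lit 5) (nat_lit 354) (nat_lit 284) (nat_lit 142)) (XT.lf (nat_lit 0) (nat_lit 23111401550) (nat_lit 304) (nat_lit 1074571040) (nat_lit 76) (nat_lit 7809873811) (nat_lit 36) (nat_lit 5) (nat_lit 40) (nat_lit 5) (nat_lit 37) (nat_lit 5) (nat_lit 355) (nat_lit 284) (nat_lit 141))) (XT.nd (nat_lit 78) (nat_lit 76) (nat_lit 0) (XT.lf (nat_lit 0) (nat_lit 10261562341) (nat_lit 152) (nat_lit 17559377415) (nat_lit 228) (nat_lit 4906913285) (nat_lit 34) (nat_lit 5)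 (nat_lit 36) (nat_lit 5) (nat_lit 37) (nat_lit 5) (nat_lit 356) (nat_lit 284) (nat_lit 140)) (XT.nd (nat_lit 78) (nat_lit 76) (nat_lit 0) (XT.lf (nat_lit 0) (nat_lit 21950612079) (nat_lit 152) (nat_lit 10726002826) (nat_lit 228) (nat_lit 805067710) (nat_lit 34) (nat_lit 5) (nat_lit 36) (nat_lit 5) (nat_lit 37) (nat_lit 5) (nat_lit 357) (nat_lit 284) (nat_lit 139)) (XT.lf (nat_lit 0) (nat_lit 3347208927) (nat_lit 228) (nat_lit 309719803) (nat_lit 76) (nat_lit 30600396661) (nat_lit 33) (nat_lit 5) (nat_lit 36) (nat_lit 5) (nat_lit 34) (nat_lit 5) (nat_lit 358) (nat_lit 284) (nat_lit 138))))) (XT.nd (nat_lit 234) (nat_lit 152) (nat_lit 0) (XT.nd (nat_lit 78) (nat_lit 0) (nat_lit 0) (XT.lf (nat_lit 0) (nat_lit 7748244042) (nat_lit 304) (nat_lit 23633811165) (nat_lit 76) (nat_lit 3669739535) (nat_lit 30) (nat_lit 5) (nat_lit 34) (nat_lit 5) (nat_lit 31) (nat_lit 5) (nat_lit 359) (nat_lit 284) (nat_lit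 137)) (XT.nd (nat_lit 78) (nat_lit 0) (nat_lit 0) (XT.lf (nat_lit 0) (nat_lit 12315009955) (nat_lit 304) (nat_lit 12411225152) (nat_lit 76) (nat_lit 11142859415) (nat_lit 30) (nat_lit 5) (nat_lit 34) (nat_lit 5) (nat_lit 31) (nat_lit 5) (nat_lit 360) (nat_lit 284) (nat_lit 136)) (XT.lf (nat_lit 0) (nat_lit 17013277876) (nat_lit 304) (nat_lit 860553438) (nat_lit 76) (nat_lit 18837254137) (nat_lit 30) (nat_lit 5) (nat_lit 34) (nat_lit 5) (nat_lit 31) (nat_lit 5) (nat_lit 361) (nat_lit 284) (nat_lit 135)))) (XT.nd (nat_lit 78) (nat_lit 0) (nat_lit 0) (XT.lf (nat_lit 0) (nat_lit 11247781527) (nat_lit 152) (nat_lit 10707492115) (nat_lit 228) (nat_lit 15619985987) (nat_lit 28) (nat_lit 5) (nat_lit 30) (nat_lit 5) (nat_lit 31) (nat_lit 5) (nat_lit 362) (nat_lit 284) (nat_lit 134)) (XT.nd (nat_lit 78) (nat_lit 0) (nat_lit 0) (XT.lf (nat_lit 0) (nat_lit 23728747195) (nat_lit 152) (nat_lit 3320207401)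 (nat_lit 228) (nat_lit 11416308398) (nat_lit 28) (nat_lit 5) (nat_lit 30) (nat_lit 5) (nat_lit 31) (nat_lit 5) (nat_lit 363) (nat_lit 284) (nat_lit 133)) (XT.lf (nat_lit 0) (nat_lit 32331532339) (nat_lit 228) (nat_lit 2847201370) (nat_lit 76) (nat_lit 4202156679) (nat_lit 28) (nat_lit 5) (nat_lit 31) (nat_lit 5) (nat_lit 29) (nat_lit 5) (nat_lit 364) (nat_lit 284) (nat_lit 132)))))) (XT.nd (nat_lit 390) (nat_lit 304) (nat_lit 0) (XT.nd (nat_lit 156) (nat_lit 152) (nat_lit 0) (XT.nd (nat_lit 78) (nat_lit 76) (nat_lit 0) (XT.lf (nat_lit 0) (nat_lit 9544248042) (nat_lit 152) (nat_lit 28347968341) (nat_lit 228) (nat_lit 2428187682) (nat_lit 26) (nat_lit 5) (nat_lit 28) (nat_lit 5) (nat_lit 29) (nat_lit 5) (nat_lit 365) (nat_lit 284) (nat_lit 131)) (XT.lf (nat_lit 0) (nat_lit 2310181093) (nat_lit 228) (nat_lit 18952073591) (nat_lit 76) (nat_lit 20024460204) (nat_lit 25) (nat_lit 5) (nat_lit 28) (nat_lit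 5) (nat_lit 26) (nat_lit 5) (nat_lit 366) (nat_lit 284) (nat_lit 130))) (XT.nd (nat_lit 78) (nat_lit 152) (nat_lit 0) (XT.lf (nat_lit 0) (nat_lit 7137067389) (nat_lit 228) (nat_lit 6805019994) (nat_lit 76) (nat_lit 28339357083) (nat_lit 25) (nat_lit 5) (nat_lit 28) (nat_lit 5) (nat_lit 26) (nat_lit 5) (nat_lit 367) (nat_lit 284) (nat_lit 129)) (XT.nd (nat_lit 78) (nat_lit 0) (nat_lit 0) (XT.lf (nat_lit 0) (nat_lit 5812380398) (nat_lit 152) (nat_lit 6347563318) (nat_lit 228) (nat_lit 31144542337) (nat_lit 23) (nat_lit 5) (nat_lit 25) (nat_lit 5) (nat_lit 26) (nat_lit 5) (nat_lit 368) (nat_lit 284) (nat_lit 128)) (XT.lf (nat_lit 0) (nat_lit 17412430507) (nat_lit 228) (nat_lit 25430744605) (nat_lit 76) (nat_lit 1512681512) (nat_lit 23) (nat_lit 5) (nat_lit 26) (nat_lit 5) (nat_lit 24) (nat_lit 5) (nat_lit 369) (nat_lit 284) (nat_lit 127))))) (XT.nd (nat_lit 234) (nat_lit 152) (nat_lit 0) (XT.nd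 (nat_lit 78) (nat_lit 152) (nat_lit 0) (XT.lf (nat_lit 0) (nat_lit 22880824304) (nat_lit 228) (nat_lit 13077699848) (nat_lit 76) (nat_lit 9478499491) (nat_lit 23) (nat_lit 5) (nat_lit 26) (nat_lit 5) (nat_lit 24) (nat_lit 5) (nat_lit 370) (nat_lit 284) (nat_lit 126)) (XT.nd (nat_lit 78) (nat_lit 152) (nat_lit 0) (XT.lf (nat_lit 0) (nat_lit 28508886653) (nat_lit 228) (nat_lit 361160800) (nat_lit 76) (nat_lit 17680714865) (nat_lit 23) (nat_lit 5) (nat_lit 26) (nat_lit 5) (nat_lit 24) (nat_lit 5) (nat_lit 371) (nat_lit 284) (nat_lit 125)) (XT.lf (nat_lit 0) (nat_lit 12983335720) (nat_lit 152) (nat_lit 21443003324) (nat_lit 228) (nat_lit 13267962662) (nat_lit 21) (nat_lit 5) (nat_lit 23) (nat_lit 5) (nat_lit 24) (nat_lit 5) (nat_lit 372) (nat_lit 284) (nat_lit 124)))) (XT.nd (nat_lit 78) (nat_lit 152) (nat_lit 0) (XT.lf (nat_lit 0) (nat_lit 26728747791) (nat_lit 152) (nat_lit 13792017004) (nat_lit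 228) (nat_lit 8351403841) (nat_lit 21) (nat_lit 5) (nat_lit 23) (nat_lit 5) (nat_lit 24) (nat_lit 5) (nat_lit 373) (nat_lit 284) (nat_lit 123)) (XT.nd (nat_lit 78) (nat_lit 152) (nat_lit 0) (XT.lf (nat_lit 0) (nat_lit 40879898156) (nat_lit 152) (nat_lit 5914050182) (nat_lit 228) (nat_lit 3291550194) (nat_lit 21) (nat_lit 5) (nat_lit 23) (nat_lit 5) (nat_lit 24) (nat_lit 5) (nat_lit 374) (nat_lit 284) (nat_lit 122)) (XT.lf (nat_lit 0) (nat_lit 1940488175) (nat_lit 152) (nat_lit 47178412333) (nat_lit 76) (nat_lit 2214042829) (nat_lit 19) (nat_lit 5) (nat_lit 21) (nat_lit 5) (nat_lit 20) (nat_lit 5) (nat_lit 375) (nat_lit 284) (nat_lit 121))))))) (XT.nd (nat_lit 858) (nat_lit 152) (nat_lit 0) (XT.nd (nat_lit 390) (nat_lit 152) (nat_lit 0) (XT.nd (nat_lit 156) (nat_lit 152) (nat_lit 0) (XT.nd (nat_lit 78) (nat_lit 0) (nat_lit 0) (XT.lf (nat_lit 0) (nat_lit 7411795099) (nat_lit 152) (nat_lit 34609465453)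 (nat_lit 76) (nat_lit 10591123628) (nat_lit 19) (nat_lit 5) (nat_lit 21) (nat_lit 5) (nat_lit 20) (nat_lit 5) (nat_lit 376) (nat_lit 284) (nat_lit 120)) (XT.lf (nat_lit 0) (nat_lit 13043387304) (nat_lit 152) (nat_lit 21669809287) (nat_lit 76) (nat_lit 19217131461) (nat_lit 19) (nat_lit 5) (nat_lit 21) (nat_lit 5) (nat_lit 20) (nat_lit 5) (nat_lit 377) (nat_lit 284) (nat_lit 119))) (XT.nd (nat_lit 78) (nat_lit 152) (nat_lit 0) (XT.lf (nat_lit 0) (nat_lit 18840185597) (nat_lit 152) (nat_lit 8348137339) (nat_lit 76) (nat_lit 28099603618) (nat_lit 19) (nat_lit 5) (nat_lit 21) (nat_lit 5) (nat_lit 20) (nat_lit 5) (nat_lit 378) (nat_lit 284) (nat_lit 118)) (XT.nd (nat_lit 78) (nat_lit 0) (nat_lit 0) (XT.lf (nat_lit 0) (nat_lit 5474008305) (nat_lit 152) (nat_lit 19385866355) (nat_lit 228) (nat_lit 31824912692) (nat_lit 17) (nat_lit 5) (nat_lit 19) (nat_lit 5) (nat_lit 20) (nat_lit 5) (nat_lit 379)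 (nat_lit 284) (nat_lit 117)) (XT.lf (nat_lit 0) (nat_lit 19876011635) (nat_lit 152) (nat_lit 11264858635) (nat_lit 228) (nat_lit 26980266058) (nat_lit 17) (nat_lit 5) (nat_lit 19) (nat_lit 5) (nat_lit 20) (nat_lit 5) (nat_lit 380) (nat_lit 284) (nat_lit 116))))) (XT.nd (nat_lit 234) (nat_lit 76) (nat_lit 0) (XT.nd (nat_lit 78) (nat_lit 76) (nat_lit 0) (XT.lf (nat_lit 0) (nat_lit 34704312623) (nat_lit 152) (nat_lit 2902503569) (nat_lit 228) (nat_lit 21993867688) (nat_lit 17) (nat_lit 5) (nat_lit 19) (nat_lit 5) (nat_lit 20) (nat_lit 5) (nat_lit 381) (nat_lit 284) (nat_lit 115)) (XT.nd (nat_lit 78) (nat_lit 76) (nat_lit 0) (XT.lf (nat_lit 0) (nat_lit 44318235931) (nat_lit 228) (nat_lit 11207728428) (nat_lit 76) (nat_lit 5597112246) (nat_lit 17) (nat_lit 5) (nat_lit 20) (nat_lit 5) (nat_lit 18) (nat_lit 4) (nat_lit 382) (nat_lit 284) (nat_lit 114)) (XT.lf (nat_lit 0) (nat_lit 2914189490) (nat_lit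 76) (nat_lit 48370258902) (nat_lit 152) (nat_lit 11405092722) (nat_lit 16) (nat_lit 5) (nat_lit 17) (nat_lit 5) (nat_lit 18) (nat_lit 4) (nat_lit 383) (nat_lit 284) (nat_lit 113)))) (XT.nd (nat_lit 78) (nat_lit 76) (nat_lit 0) (XT.lf (nat_lit 0) (nat_lit 17684053571) (nat_lit 76) (nat_lit 40885512895) (nat_lit 152) (nat_lit 5730138918) (nat_lit 16) (nat_lit 5) (nat_lit 17) (nat_lit 5) (nat_lit 18) (nat_lit 4) (nat_lit 384) (nat_lit 284) (nat_lit 112)) (XT.nd (nat_lit 78) (nat_lit 0) (nat_lit 0) (XT.lf (nat_lit 0) (nat_lit 109621665) (nat_lit 152) (nat_lit 33067633722) (nat_lit 76) (nat_lit 32780985117) (nat_lit 15) (nat_lit 5) (nat_lit 17) (nat_lit 5) (nat_lit 16) (nat_lit 5) (nat_lit 385) (nat_lit 284) (nat_lit 111)) (XT.lf (nat_lit 0) (nat_lit 6006301521) (nat_lit 152) (nat_lit 19175119478) (nat_lit 76) (nat_lit 42483504875) (nat_lit 15) (nat_lit 5) (nat_lit 17) (nat_lit 5) (nat_lit 16) (nat_lit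 5) (nat_lit 386) (nat_lit 284) (nat_lit 110)))))) (XT.nd (nat_lit 32916) (nat_lit 0) (nat_lit 11704) (XT.nd (nat_lit 32682) (nat_lit 0) (nat_lit 12616) (XT.nd (nat_lit 78) (nat_lit 152) (nat_lit 0) (XT.lf (nat_lit 0) (nat_lit 12076868737) (nat_lit 152) (nat_lit 4870888391) (nat_lit 76) (nat_lit 52475148093) (nat_lit 15) (nat_lit 5) (nat_lit 17) (nat_lit 5) (nat_lit 16) (nat_lit 5) (nat_lit 387) (nat_lit 284) (nat_lit 109)) (XT.nd (nat_lit 78) (nat_lit 0) (nat_lit 0) (XT.lf (nat_lit 0) (nat_lit 10053743122) (nat_lit 152) (nat_lit 8369527298) (nat_lit 228) (nat_lit 52807544940) (nat_lit 13) (nat_lit 5) (nat_lit 15) (nat_lit 5) (nat_lit 16) (nat_lit 5) (nat_lit 388) (nat_lit 284) (nat_lit 108)) (XT.lf (nat_lit 0) (nat_lit 25011311703) (nat_lit 228) (nat_lit 47575425695) (nat_lit 76) (nat_lit 504690828) (nat_lit 13) (nat_lit 5) (nat_lit 16) (nat_lit 5) (nat_lit 14) (nat_lit 4) (nat_lit 389) (nat_lit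 284) (nat_lit 107)))) (XT.nd (nat_lit 78) (nat_lit 0) (nat_lit 0) (XT.lf (nat_lit 0) (nat_lit 2824341880) (nat_lit 988) (nat_lit 886145694) (nat_lit 988) (nat_lit 886145694) (nat_lit 179) (nat_lit 3) (nat_lit 192) (nat_lit 3) (nat_lit 192) (nat_lit 5) (nat_lit 285) (nat_lit 285) (nat_lit 210)) (XT.nd (nat_lit 78) (nat_lit 0) (nat_lit 0) (XT.lf (nat_lit 76) (nat_lit 2134627809) (nat_lit 0) (nat_lit 4387609846) (nat_lit 988) (nat_lit 2783201929) (nat_lit 180) (nat_lit 5) (nat_lit 179) (nat_lit 3) (nat_lit 192) (nat_lit 5) (nat_lit 286) (nat_lit 285) (nat_lit 209)) (XT.lf (nat_lit 76) (nat_lit 6179294312) (nat_lit 0) (nat_lit 1230463965) (nat_lit 988) (nat_lit 2011667182) (nat_lit 180) (nat_lit 5) (nat_lit 179) (nat_lit 3) (nat_lit 192) (nat_lit 5) (nat_lit 287) (nat_lit 285) (nat_lit 208))))) (XT.nd (nat_lit 234) (nat_lit 0) (nat_lit 76) (XT.nd (nat_lit 78) (nat_lit 988) (nat_lit 0) (XT.lf (nat_lit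 76) (nat_lit 783854482) (nat_lit 0) (nat_lit 7537890917) (nat_lit 988) (nat_lit 1219288387) (nat_lit 181) (nat_lit 5) (nat_lit 180) (nat_lit 5) (nat_lit 193) (nat_lit 5) (nat_lit 288) (nat_lit 285) (nat_lit 207)) (XT.nd (nat_lit 78) (nat_lit 988) (nat_lit 0) (XT.lf (nat_lit 76) (nat_lit 4968395561) (nat_lit 0) (nat_lit 4309066211) (nat_lit 988) (nat_lit 386353329) (nat_lit 181) (nat_lit 5) (nat_lit 180) (nat_lit 5) (nat_lit 193) (nat_lit 5) (nat_lit 289) (nat_lit 285) (nat_lit 206)) (XT.lf (nat_lit 0) (nat_lit 434417498) (nat_lit 988) (nat_lit 532753524) (nat_lit 1064) (nat_lit 8823882824) (nat_lit 167) (nat_lit 5) (nat_lit 180) (nat_lit 5) (nat_lit 181) (nat_lit 5) (nat_lit 290) (nat_lit 285) (nat_lit 205)))) (XT.nd (nat_lit 78) (nat_lit 0) (nat_lit 0) (XT.lf (nat_lit 0) (nat_lit 1305827048) (nat_lit 988) (nat_lit 6136712877) (nat_lit 1064) (nat_lit 2478511036) (nat_lit 168) (nat_lit 5) (nat_lit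 181) (nat_lit 5) (nat_lit 182) (nat_lit 5) (nat_lit 291) (nat_lit 285) (nat_lit 204)) (XT.nd (nat_lit 78) (nat_lit 0) (nat_lit 0) (XT.lf (nat_lit 0) (nat_lit 2191993420) (nat_lit 988) (nat_lit 1839296999) (nat_lit 1064) (nat_lit 6024066505) (nat_lit 168) (nat_lit 5) (nat_lit 181) (nat_lit 5) (nat_lit 182) (nat_lit 5) (nat_lit 292) (nat_lit 285) (nat_lit 203)) (XT.lf (nat_lit 76) (nat_lit 2621948157) (nat_lit 0) (nat_lit 482374719) (nat_lit 1064) (nat_lit 7089447256) (nat_lit 169) (nat_lit 5) (nat_lit 168) (nat_lit 5) (nat_lit 182) (nat_lit 5) (nat_lit 293) (nat_lit 285) (nat_lit 202))))))))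
noncomputable def xc178 : XT := (XT.nd (nat_lit 1716) (nat_lit 3876) (nat_lit 0) (XT.nd (nat_lit 858) (nat_lit 2736) (nat_lit 0) (XT.nd (nat_lit 390) (nat_lit 1900) (nat_lit 0) (XT.nd (nat_lit 156) (nat_lit 0) (nat_lit 76) (XT.nd (nat_lit 78) (nat_lit 0) (nat_lit 0) (XT.lf (nat_lit 0) (nat_lit 4068332170) (nat_lit 988) (nat_lit 3128726774) (nat_lit 1064) (nat_lit 3138610996) (nat_lit 169) (nat_lit 5) (nat_lit 182) (nat_lit 5) (nat_lit 183) (nat_lit 5) (nat_lit 294) (nat_lit 285) (nat_lit 201)) (XT.lf (nat_lit 76) (nat_lit 1454770291) (nat_lit 0) (nat_lit 3601030094) (nat_lit 1064) (nat_lit 5426251854) (nat_lit 170) (nat_lit 5) (nat_lit 169) (nat_lit 5) (nat_lit 183) (nat_lit 5) (nat_lit 295) (nat_lit 285) (nat_lit 200))) (XT.nd (nat_lit 78) (nat_lit 0) (nat_lit 0) (XT.lf (nat_lit 0) (nat_lit 6082185800) (nat_lit 988) (nat_lit 4410453393) (nat_lit 1064) (nat_lit 139967878) (nat_lit 170) (nat_lit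 5) (nat_lit 183) (nat_lit 5) (nat_lit 184) (nat_lit 5) (nat_lit 296) (nat_lit 285) (nat_lit 199)) (XT.nd (nat_lit 78) (nat_lit 0) (nat_lit 0) (XT.lf (nat_lit 76) (nat_lit 298367359) (nat_lit 0) (nat_lit 6856602117) (nat_lit 1064) (nat_lit 3632298983) (nat_lit 171) (nat_lit 5) (nat_lit 170) (nat_lit 5) (nat_lit 184) (nat_lit 5) (nat_lit 297) (nat_lit 285) (nat_lit 198)) (XT.lf (nat_lit 76) (nat_lit 5222345127) (nat_lit 0) (nat_lit 3059721971) (nat_lit 1064) (nat_lit 2663895103) (nat_lit 171) (nat_lit 5) (nat_lit 170) (nat_lit 5) (nat_lit 184) (nat_lit 5) (nat_lit 298) (nat_lit 285) (nat_lit 197))))) (XT.nd (nat_lit 234) (nat_lit 988) (nat_lit 0) (XT.nd (nat_lit 78) (nat_lit 1064) (nat_lit 0) (XT.lf (nat_lit 0) (nat_lit 9429459680) (nat_lit 988) (nat_lit 840354317) (nat_lit 1064) (nat_lit 840063074) (nat_lit 171) (nat_lit 5) (nat_lit 184) (nat_lit 5) (nat_lit 185) (nat_lit 5) (nat_lit 299) (nat_lit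 285) (nat_lit 196)) (XT.nd (nat_lit 78) (nat_lit 1064) (nat_lit 0) (XT.lf (nat_lit 76) (nat_lit 4225252386) (nat_lit 0) (nat_lit 6435864726) (nat_lit 1064) (nat_lit 616150168) (nat_lit 172) (nat_lit 5) (nat_lit 171) (nat_lit 5) (nat_lit 185) (nat_lit 5) (nat_lit 300) (nat_lit 285) (nat_lit 195)) (XT.lf (nat_lit 0) (nat_lit 458384386) (nat_lit 1064) (nat_lit 2010684397) (nat_lit 1140) (nat_lit 8980890906) (nat_lit 157) (nat_lit 5) (nat_lit 171) (nat_lit 5) (nat_lit 172) (nat_lit 5) (nat_lit 301) (nat_lit 285) (nat_lit 194)))) (XT.nd (nat_lit 78) (nat_lit 1064) (nat_lit 0) (XT.lf (nat_lit 0) (nat_lit 1579440172) (nat_lit 1064) (nat_lit 8420786874) (nat_lit 76) (nat_lit 1626671402) (nat_lit 158) (nat_lit 5) (nat_lit 172) (nat_lit 5) (nat_lit 159) (nat_lit 5) (nat_lit 302) (nat_lit 285) (nat_lit 193)) (XT.nd (nat_lit 78) (nat_lit 1064) (nat_lit 0) (XT.lf (nat_lit 0) (nat_lit 2759296694) (nat_lit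 1064) (nat_lit 3229206746) (nat_lit 76) (nat_lit 5819934113) (nat_lit 158) (nat_lit 5) (nat_lit 172) (nat_lit 5) (nat_lit 159) (nat_lit 5) (nat_lit 303) (nat_lit 285) (nat_lit 192)) (XT.lf (nat_lit 0) (nat_lit 2143787073) (nat_lit 1064) (nat_lit 1832163249) (nat_lit 1140) (nat_lit 8019476342) (nat_lit 144) (nat_lit 5) (nat_lit 158) (nat_lit 5) (nat_lit 159) (nat_lit 5) (nat_lit 304) (nat_lit 285) (nat_lit 191)))))) (XT.nd (nat_lit 390) (nat_lit 1520) (nat_lit 0) (XT.nd (nat_lit 156) (nat_lit 532) (nat_lit 0) (XT.nd (nat_lit 78) (nat_lit 684) (nat_lit 0) (XT.lf (nat_lit 0) (nat_lit 5266801457) (nat_lit 1140) (nat_lit 4483387396) (nat_lit 76) (nat_lit 2436750198) (nat_lit 144) (nat_lit 5) (nat_lit 159) (nat_lit 5) (nat_lit 145) (nat_lit 5) (nat_lit 305) (nat_lit 285) (nat_lit 190)) (XT.lf (nat_lit 0) (nat_lit 1031746369) (nat_lit 684) (nat_lit 5574462944) (nat_lit 760) (nat_lit 5777735806) (nat_lit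 135) (nat_lit 5) (nat_lit 144) (nat_lit 5) (nat_lit 145) (nat_lit 5) (nat_lit 306) (nat_lit 285) (nat_lit 189))) (XT.nd (nat_lit 78) (nat_lit 532) (nat_lit 0) (XT.lf (nat_lit 0) (nat_lit 6788238761) (nat_lit 684) (nat_lit 1224984317) (nat_lit 760) (nat_lit 4572857563) (nat_lit 135) (nat_lit 5) (nat_lit 144) (nat_lit 5) (nat_lit 145) (nat_lit 5) (nat_lit 307) (nat_lit 285) (nat_lit 188)) (XT.nd (nat_lit 78) (nat_lit 532) (nat_lit 0) (XT.lf (nat_lit 0) (nat_lit 9476423510) (nat_lit 760) (nat_lit 124255467) (nat_lit 76) (nat_lit 3193222726) (nat_lit 135) (nat_lit 5) (nat_lit 145) (nat_lit 5) (nat_lit 136) (nat_lit 5) (nat_lit 308) (nat_lit 285) (nat_lit 187)) (XT.lf (nat_lit 0) (nat_lit 5805044278) (nat_lit 532) (nat_lit 5229597525) (nat_lit 608) (nat_lit 1971821509) (nat_lit 128) (nat_lit 5) (nat_lit 135) (nat_lit 5) (nat_lit 136) (nat_lit 5) (nat_lit 309) (nat_lit 285) (nat_lit 186))))) (XT.nd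 (nat_lit 234) (nat_lit 912) (nat_lit 0) (XT.nd (nat_lit 78) (nat_lit 608) (nat_lit 0) (XT.lf (nat_lit 0) (nat_lit 11899280470) (nat_lit 532) (nat_lit 725113238) (nat_lit 608) (nat_lit 601502872) (nat_lit 128) (nat_lit 5) (nat_lit 135) (nat_lit 5) (nat_lit 136) (nat_lit 5) (nat_lit 310) (nat_lit 285) (nat_lit 185)) (XT.nd (nat_lit 78) (nat_lit 0) (nat_lit 0) (XT.lf (nat_lit 0) (nat_lit 862198134) (nat_lit 608) (nat_lit 8694175198) (nat_lit 76) (nat_lit 3893299844) (nat_lit 120) (nat_lit 5) (nat_lit 128) (nat_lit 5) (nat_lit 121) (nat_lit 5) (nat_lit 311) (nat_lit 285) (nat_lit 184)) (XT.lf (nat_lit 0) (nat_lit 2362576530) (nat_lit 608) (nat_lit 2661521444) (nat_lit 76) (nat_lit 8655775912) (nat_lit 120) (nat_lit 5) (nat_lit 128) (nat_lit 5) (nat_lit 121) (nat_lit 5) (nat_lit 312) (nat_lit 285) (nat_lit 183)))) (XT.nd (nat_lit 78) (nat_lit 456) (nat_lit 0) (XT.lf (nat_lit 0) (nat_lit 3607197814)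 (nat_lit 456) (nat_lit 320052544) (nat_lit 532) (nat_lit 9989185873) (nat_lit 114) (nat_lit 5) (nat_lit 120) (nat_lit 5) (nat_lit 121) (nat_lit 5) (nat_lit 313) (nat_lit 285) (nat_lit 182)) (XT.nd (nat_lit 78) (nat_lit 456) (nat_lit 0) (XT.lf (nat_lit 0) (nat_lit 5594416278) (nat_lit 532) (nat_lit 4100154841) (nat_lit 76) (nat_lit 4463890914) (nat_lit 114) (nat_lit 5) (nat_lit 121) (nat_lit 5) (nat_lit 115) (nat_lit 5) (nat_lit 314) (nat_lit 285) (nat_lit 181)) (XT.lf (nat_lit 0) (nat_lit 2322163020) (nat_lit 456) (nat_lit 5000275975) (nat_lit 532) (nat_lit 7085016535) (nat_lit 108) (nat_lit 5) (nat_lit 114) (nat_lit 5) (nat_lit 115) (nat_lit 5) (nat_lit 315) (nat_lit 285) (nat_lit 180))))))) (XT.nd (nat_lit 858) (nat_lit 1748) (nat_lit 0) (XT.nd (nat_lit 390) (nat_lit 1140) (nat_lit 0) (XT.nd (nat_lit 156) (nat_lit 532) (nat_lit 0) (XT.nd (nat_lit 78) (nat_lit 456) (nat_lit 0) (XT.lf (nat_lit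 0) (nat_lit 9006165279) (nat_lit 456) (nat_lit 123173727) (nat_lit 532) (nat_lit 5533799969) (nat_lit 108) (nat_lit 5) (nat_lit 114) (nat_lit 5) (nat_lit 115) (nat_lit 5) (nat_lit 316) (nat_lit 285) (nat_lit 179)) (XT.lf (nat_lit 0) (nat_lit 920004201) (nat_lit 456) (nat_lit 10112434891) (nat_lit 532) (nat_lit 3892824368) (nat_lit 102) (nat_lit 5) (nat_lit 108) (nat_lit 5) (nat_lit 109) (nat_lit 5) (nat_lit 317) (nat_lit 285) (nat_lit 178))) (XT.nd (nat_lit 78) (nat_lit 532) (nat_lit 0) (XT.lf (nat_lit 0) (nat_lit 7794118521) (nat_lit 456) (nat_lit 5243154199) (nat_lit 532) (nat_lit 2156669189) (nat_lit 102) (nat_lit 5) (nat_lit 108) (nat_lit 5) (nat_lit 109) (nat_lit 5) (nat_lit 318) (nat_lit 285) (nat_lit 177)) (XT.nd (nat_lit 78) (nat_lit 532) (nat_lit 0) (XT.lf (nat_lit 0) (nat_lit 14859998489) (nat_lit 456) (nat_lit 228960260) (nat_lit 532) (nat_lit 382149332) (nat_lit 102) (nat_lit 5)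 (nat_lit 108) (nat_lit 5) (nat_lit 109) (nat_lit 5) (nat_lit 319) (nat_lit 285) (nat_lit 176)) (XT.lf (nat_lit 0) (nat_lit 1514808168) (nat_lit 532) (nat_lit 9323425192) (nat_lit 76) (nat_lit 4915043610) (nat_lit 95) (nat_lit 5) (nat_lit 102) (nat_lit 5) (nat_lit 96) (nat_lit 5) (nat_lit 320) (nat_lit 285) (nat_lit 175))))) (XT.nd (nat_lit 234) (nat_lit 760) (nat_lit 0) (XT.nd (nat_lit 78) (nat_lit 380) (nat_lit 0) (XT.lf (nat_lit 0) (nat_lit 3456663101) (nat_lit 532) (nat_lit 2369848995) (nat_lit 76) (nat_lit 10217441399) (nat_lit 95) (nat_lit 5) (nat_lit 102) (nat_lit 5) (nat_lit 96) (nat_lit 5) (nat_lit 321) (nat_lit 285) (nat_lit 174)) (XT.nd (nat_lit 78) (nat_lit 0) (nat_lit 0) (XT.lf (nat_lit 0) (nat_lit 4873273641) (nat_lit 380) (nat_lit 617889092) (nat_lit 456) (nat_lit 10851181311) (nat_lit 90) (nat_lit 5) (nat_lit 95) (nat_lit 5) (nat_lit 96) (nat_lit 5) (nat_lit 322) (nat_lit 285)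 (nat_lit 173)) (XT.lf (nat_lit 0) (nat_lit 7644251132) (nat_lit 456) (nat_lit 4326958260) (nat_lit 76) (nat_lit 4676774965) (nat_lit 90) (nat_lit 5) (nat_lit 96) (nat_lit 5) (nat_lit 91) (nat_lit 5) (nat_lit 323) (nat_lit 285) (nat_lit 172)))) (XT.nd (nat_lit 78) (nat_lit 380) (nat_lit 0) (XT.lf (nat_lit 0) (nat_lit 3069218736) (nat_lit 380) (nat_lit 6816446030) (nat_lit 456) (nat_lit 7076441078) (nat_lit 85) (nat_lit 5) (nat_lit 90) (nat_lit 5) (nat_lit 91) (nat_lit 5) (nat_lit 324) (nat_lit 285) (nat_lit 171)) (XT.nd (nat_lit 78) (nat_lit 380) (nat_lit 0) (XT.lf (nat_lit 0) (nat_lit 10762144120) (nat_lit 380) (nat_lit 1464195416) (nat_lit 456) (nat_lit 5058374124) (nat_lit 85) (nat_lit 5) (nat_lit 90) (nat_lit 5) (nat_lit 91) (nat_lit 5) (nat_lit 325) (nat_lit 285) (nat_lit 170)) (XT.lf (nat_lit 0) (nat_lit 1036388578) (nat_lit 380) (nat_lit 13638371031) (nat_lit 456) (nat_lit 2941136917)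 (nat_lit 80) (nat_lit 5) (nat_lit 85) (nat_lit 5) (nat_lit 86) (nat_lit 5) (nat_lit 326) (nat_lit 285) (nat_lit 169)))))) (XT.nd (nat_lit 468) (nat_lit 988) (nat_lit 0) (XT.nd (nat_lit 234) (nat_lit 304) (nat_lit 0) (XT.nd (nat_lit 78) (nat_lit 456) (nat_lit 0) (XT.lf (nat_lit 0) (nat_lit 8927396455) (nat_lit 380) (nat_lit 8338300292) (nat_lit 456) (nat_lit 689268110) (nat_lit 80) (nat_lit 5) (nat_lit 85) (nat_lit 5) (nat_lit 86) (nat_lit 5) (nat_lit 327) (nat_lit 285) (nat_lit 168)) (XT.nd (nat_lit 78) (nat_lit 380) (nat_lit 0) (XT.lf (nat_lit 0) (nat_lit 1587387799) (nat_lit 456) (nat_lit 1278221977) (nat_lit 76) (nat_lit 15438474773) (nat_lit 79) (nat_lit 5) (nat_lit 85) (nat_lit 5) (nat_lit 80) (nat_lit 5) (nat_lit 328) (nat_lit 285) (nat_lit 167)) (XT.lf (nat_lit 0) (nat_lit 4000708488) (nat_lit 456) (nat_lit 11872468019) (nat_lit 76) (nat_lit 2787850082) (nat_lit 74) (nat_lit 5) (nat_lit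 80) (nat_lit 5) (nat_lit 75) (nat_lit 5) (nat_lit 329) (nat_lit 285) (nat_lit 166)))) (XT.nd (nat_lit 78) (nat_lit 304) (nat_lit 0) (XT.lf (nat_lit 0) (nat_lit 6517358178) (nat_lit 456) (nat_lit 3946514275) (nat_lit 76) (nat_lit 8563896024) (nat_lit 74) (nat_lit 5) (nat_lit 80) (nat_lit 5) (nat_lit 75) (nat_lit 5) (nat_lit 330) (nat_lit 285) (nat_lit 165)) (XT.nd (nat_lit 78) (nat_lit 0) (nat_lit 0) (XT.lf (nat_lit 0) (nat_lit 4288009808) (nat_lit 304) (nat_lit 4852543391) (nat_lit 380) (nat_lit 10264046948) (nat_lit 70) (nat_lit 5) (nat_lit 74) (nat_lit 5) (nat_lit 75) (nat_lit 5) (nat_lit 331) (nat_lit 285) (nat_lit 164)) (XT.lf (nat_lit 0) (nat_lit 11881576846) (nat_lit 380) (nat_lit 6963426907) (nat_lit 76) (nat_lit 946577380) (nat_lit 70) (nat_lit 5) (nat_lit 75) (nat_lit 5) (nat_lit 71) (nat_lit 5) (nat_lit 332) (nat_lit 285) (nat_lit 163))))) (XT.nd (nat_lit 234) (nat_lit 684) (nat_lit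 0) (XT.nd (nat_lit 78) (nat_lit 0) (nat_lit 0) (XT.lf (nat_lit 0) (nat_lit 1400955868) (nat_lit 304) (nat_lit 13355653227) (nat_lit 380) (nat_lit 5432026933) (nat_lit 66) (nat_lit 5) (nat_lit 70) (nat_lit 5) (nat_lit 71) (nat_lit 5) (nat_lit 333) (nat_lit 285) (nat_lit 162)) (XT.nd (nat_lit 78) (nat_lit 0) (nat_lit 0) (XT.lf (nat_lit 0) (nat_lit 10146469482) (nat_lit 304) (nat_lit 7632168784) (nat_lit 380) (nat_lit 2817159222) (nat_lit 66) (nat_lit 5) (nat_lit 70) (nat_lit 5) (nat_lit 71) (nat_lit 5) (nat_lit 334) (nat_lit 285) (nat_lit 161)) (XT.lf (nat_lit 0) (nat_lit 19142169795) (nat_lit 304) (nat_lit 1739866280) (nat_lit 380) (nat_lit 133433276) (nat_lit 66) (nat_lit 5) (nat_lit 70) (nat_lit 5) (nat_lit 71) (nat_lit 5) (nat_lit 335) (nat_lit 285) (nat_lit 160)))) (XT.nd (nat_lit 78) (nat_lit 304) (nat_lit 0) (XT.lf (nat_lit 0) (nat_lit 2680720187) (nat_lit 380) (nat_lit 14427261085) (nat_lit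 76) (nat_lit 4335969694) (nat_lit 61) (nat_lit 5) (nat_lit 66) (nat_lit 5) (nat_lit 62) (nat_lit 5) (nat_lit 336) (nat_lit 285) (nat_lit 159)) (XT.nd (nat_lit 78) (nat_lit 304) (nat_lit 0) (XT.lf (nat_lit 0) (nat_lit 5603943086) (nat_lit 380) (nat_lit 5703834626) (nat_lit 76) (nat_lit 10576665250) (nat_lit 61) (nat_lit 5) (nat_lit 66) (nat_lit 5) (nat_lit 62) (nat_lit 5) (nat_lit 337) (nat_lit 285) (nat_lit 158)) (XT.lf (nat_lit 0) (nat_lit 3334557949) (nat_lit 304) (nat_lit 5303617138) (nat_lit 380) (nat_lit 13699290179) (nat_lit 57) (nat_lit 5) (nat_lit 61) (nat_lit 5) (nat_lit 62) (nat_lit 5) (nat_lit 338) (nat_lit 285) (nat_lit 157))))))))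
noncomputable def xc179 : XT := (XT.nd (nat_lit 1716) (nat_lit 988) (nat_lit 0) (XT.nd (nat_lit 858) (nat_lit 988) (nat_lit 0) (XT.nd (nat_lit 390) (nat_lit 456) (nat_lit 0) (XT.nd (nat_lit 156) (nat_lit 608) (nat_lit 0) (XT.nd (nat_lit 78) (nat_lit 0) (nat_lit 0) (XT.lf (nat_lit 0) (nat_lit 11821438513) (nat_lit 380) (nat_lit 10062293704) (nat_lit 76) (nat_lit 918620374) (nat_lit 57) (nat_lit 5) (nat_lit 62) (nat_lit 5) (nat_lit 58) (nat_lit 5) (nat_lit 339) (nat_lit 285) (nat_lit 156)) (XT.lf (nat_lit 0) (nat_lit 15144333351) (nat_lit 380) (nat_lit 917558098) (nat_lit 76) (nat_lit 7217985145) (nat_lit 57) (nat_lit 5) (nat_lit 62) (nat_lit 5) (nat_lit 58) (nat_lit 5) (nat_lit 340) (nat_lit 285) (nat_lit 155))) (XT.nd (nat_lit 78) (nat_lit 380) (nat_lit 0) (XT.lf (nat_lit 0) (nat_lit 8659244710) (nat_lit 228) (nat_lit 9982774736) (nat_lit 304) (nat_lit 5127467393) (nat_lit 54) (nat_lit 5) (nat_lit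 57) (nat_lit 5) (nat_lit 58) (nat_lit 5) (nat_lit 341) (nat_lit 285) (nat_lit 154)) (XT.nd (nat_lit 78) (nat_lit 380) (nat_lit 0) (XT.lf (nat_lit 0) (nat_lit 18531023001) (nat_lit 228) (nat_lit 3714874954) (nat_lit 304) (nat_lit 2027862837) (nat_lit 54) (nat_lit 5) (nat_lit 57) (nat_lit 5) (nat_lit 58) (nat_lit 5) (nat_lit 342) (nat_lit 285) (nat_lit 153)) (XT.lf (nat_lit 0) (nat_lit 1199022857) (nat_lit 380) (nat_lit 20857834799) (nat_lit 76) (nat_lit 2734271289) (nat_lit 49) (nat_lit 5) (nat_lit 54) (nat_lit 5) (nat_lit 50) (nat_lit 5) (nat_lit 343) (nat_lit 285) (nat_lit 152))))) (XT.nd (nat_lit 234) (nat_lit 228) (nat_lit 0) (XT.nd (nat_lit 78) (nat_lit 228) (nat_lit 0) (XT.lf (nat_lit 0) (nat_lit 4569536669) (nat_lit 380) (nat_lit 11373472383) (nat_lit 76) (nat_lit 9377791499) (nat_lit 49) (nat_lit 5) (nat_lit 54) (nat_lit 5) (nat_lit 50) (nat_lit 5) (nat_lit 344) (nat_lit 285) (nat_lit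 151)) (XT.nd (nat_lit 78) (nat_lit 228) (nat_lit 0) (XT.lf (nat_lit 0) (nat_lit 8033626175) (nat_lit 380) (nat_lit 1615344665) (nat_lit 76) (nat_lit 16217629435) (nat_lit 49) (nat_lit 5) (nat_lit 54) (nat_lit 5) (nat_lit 50) (nat_lit 5) (nat_lit 345) (nat_lit 285) (nat_lit 150)) (XT.lf (nat_lit 0) (nat_lit 8592750382) (nat_lit 228) (nat_lit 3084166638) (nat_lit 304) (nat_lit 14749610045) (nat_lit 46) (nat_lit 5) (nat_lit 49) (nat_lit 5) (nat_lit 50) (nat_lit 5) (nat_lit 346) (nat_lit 285) (nat_lit 149)))) (XT.nd (nat_lit 78) (nat_lit 228) (nat_lit 0) (XT.lf (nat_lit 0) (nat_lit 15474094464) (nat_lit 304) (nat_lit 7908620331) (nat_lit 76) (nat_lit 3619210331) (nat_lit 46) (nat_lit 5) (nat_lit 50) (nat_lit 5) (nat_lit 47) (nat_lit 5) (nat_lit 347) (nat_lit 285) (nat_lit 148)) (XT.nd (nat_lit 78) (nat_lit 0) (nat_lit 0) (XT.lf (nat_lit 0) (nat_lit 2318762377) (nat_lit 228) (nat_lit 17112224683)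 (nat_lit 304) (nat_lit 8162234852) (nat_lit 43) (nat_lit 5) (nat_lit 46) (nat_lit 5) (nat_lit 47) (nat_lit 5) (nat_lit 348) (nat_lit 285) (nat_lit 147)) (XT.lf (nat_lit 0) (nat_lit 13004946480) (nat_lit 228) (nat_lit 10574582851) (nat_lit 304) (nat_lit 4620550448) (nat_lit 43) (nat_lit 5) (nat_lit 46) (nat_lit 5) (nat_lit 47) (nat_lit 5) (nat_lit 349) (nat_lit 285) (nat_lit 146)))))) (XT.nd (nat_lit 390) (nat_lit 456) (nat_lit 0) (XT.nd (nat_lit 156) (nat_lit 228) (nat_lit 0) (XT.nd (nat_lit 78) (nat_lit 304) (nat_lit 0) (XT.lf (nat_lit 0) (nat_lit 24001872368) (nat_lit 228) (nat_lit 3843938355) (nat_lit 304) (nat_lit 979544334) (nat_lit 43) (nat_lit 5) (nat_lit 46) (nat_lit 5) (nat_lit 47) (nat_lit 5) (nat_lit 350) (nat_lit 285) (nat_lit 145)) (XT.lf (nat_lit 0) (nat_lit 2797607003) (nat_lit 304) (nat_lit 23558698441) (nat_lit 76) (nat_lit 3109864283) (nat_lit 39) (nat_lit 5) (nat_lit 43) (nat_lit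 5) (nat_lit 40) (nat_lit 5) (nat_lit 351) (nat_lit 285) (nat_lit 144))) (XT.nd (nat_lit 78) (nat_lit 228) (nat_lit 0) (XT.lf (nat_lit 0) (nat_lit 6749107969) (nat_lit 304) (nat_lit 13123533671) (nat_lit 76) (nat_lit 10250863849) (nat_lit 39) (nat_lit 5) (nat_lit 43) (nat_lit 5) (nat_lit 40) (nat_lit 5) (nat_lit 352) (nat_lit 285) (nat_lit 143)) (XT.nd (nat_lit 78) (nat_lit 228) (nat_lit 0) (XT.lf (nat_lit 0) (nat_lit 10812818230) (nat_lit 304) (nat_lit 2384806295) (nat_lit 76) (nat_lit 17603135901) (nat_lit 39) (nat_lit 5) (nat_lit 43) (nat_lit 5) (nat_lit 40) (nat_lit 5) (nat_lit 353) (nat_lit 285) (nat_lit 142)) (XT.lf (nat_lit 0) (nat_lit 8839354689) (nat_lit 228) (nat_lit 6237903194) (nat_lit 304) (nat_lit 16418719348) (nat_lit 36) (nat_lit 5) (nat_lit 39) (nat_lit 5) (nat_lit 40) (nat_lit 5) (nat_lit 354) (nat_lit 285) (nat_lit 141))))) (XT.nd (nat_lit 234) (nat_lit 304) (nat_lit 0) (XT.nd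 (nat_lit 78) (nat_lit 152) (nat_lit 0) (XT.lf (nat_lit 0) (nat_lit 19496807391) (nat_lit 304) (nat_lit 11780671757) (nat_lit 76) (nat_lit 933764602) (nat_lit 36) (nat_lit 5) (nat_lit 40) (nat_lit 5) (nat_lit 37) (nat_lit 5) (nat_lit 355) (nat_lit 285) (nat_lit 140)) (XT.nd (nat_lit 78) (nat_lit 152) (nat_lit 0) (XT.lf (nat_lit 0) (nat_lit 24104792930) (nat_lit 304) (nat_lit 649219729) (nat_lit 76) (nat_lit 8192288379) (nat_lit 36) (nat_lit 5) (nat_lit 40) (nat_lit 5) (nat_lit 37) (nat_lit 5) (nat_lit 356) (nat_lit 285) (nat_lit 139)) (XT.lf (nat_lit 0) (nat_lit 11022511492) (nat_lit 152) (nat_lit 17928721985) (nat_lit 228) (nat_lit 4749178126) (nat_lit 34) (nat_lit 5) (nat_lit 36) (nat_lit 5) (nat_lit 37) (nat_lit 5) (nat_lit 357) (nat_lit 285) (nat_lit 138)))) (XT.nd (nat_lit 78) (nat_lit 304) (nat_lit 0) (XT.lf (nat_lit 0) (nat_lit 23049035568) (nat_lit 152) (nat_lit 10894931696) (nat_lit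 228) (nat_lit 533159006) (nat_lit 34) (nat_lit 5) (nat_lit 36) (nat_lit 5) (nat_lit 37) (nat_lit 5) (nat_lit 358) (nat_lit 285) (nat_lit 137)) (XT.nd (nat_lit 78) (nat_lit 0) (nat_lit 0) (XT.lf (nat_lit 0) (nat_lit 116332488) (nat_lit 228) (nat_lit 3614239630) (nat_lit 304) (nat_lit 31545612107) (nat_lit 30) (nat_lit 5) (nat_lit 33) (nat_lit 5) (nat_lit 34) (nat_lit 5) (nat_lit 359) (nat_lit 285) (nat_lit 136)) (XT.lf (nat_lit 0) (nat_lit 8259885912) (nat_lit 304) (nat_lit 23906755894) (nat_lit 76) (nat_lit 3927969272) (nat_lit 30) (nat_lit 5) (nat_lit 34) (nat_lit 5) (nat_lit 31) (nat_lit 5) (nat_lit 360) (nat_lit 285) (nat_lit 135))))))) (XT.nd (nat_lit 858) (nat_lit 456) (nat_lit 0) (XT.nd (nat_lit 390) (nat_lit 380) (nat_lit 0) (XT.nd (nat_lit 156) (nat_lit 152) (nat_lit 0) (XT.nd (nat_lit 78) (nat_lit 0) (nat_lit 0) (XT.lf (nat_lit 0) (nat_lit 12955522922) (nat_lit 304) (nat_lit 12360193357)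 (nat_lit 76) (nat_lit 11620968062) (nat_lit 30) (nat_lit 5) (nat_lit 34) (nat_lit 5) (nat_lit 31) (nat_lit 5) (nat_lit 361) (nat_lit 285) (nat_lit 134)) (XT.lf (nat_lit 0) (nat_lit 17786843851) (nat_lit 304) (nat_lit 475332614) (nat_lit 76) (nat_lit 19542005610) (nat_lit 30) (nat_lit 5) (nat_lit 34) (nat_lit 5) (nat_lit 31) (nat_lit 5) (nat_lit 362) (nat_lit 285) (nat_lit 133))) (XT.nd (nat_lit 78) (nat_lit 0) (nat_lit 0) (XT.lf (nat_lit 0) (nat_lit 11992222621) (nat_lit 152) (nat_lit 10881124200) (nat_lit 228) (nat_lit 15821057169) (nat_lit 28) (nat_lit 5) (nat_lit 30) (nat_lit 5) (nat_lit 31) (nat_lit 5) (nat_lit 363) (nat_lit 285) (nat_lit 132)) (XT.nd (nat_lit 78) (nat_lit 0) (nat_lit 0) (XT.lf (nat_lit 0) (nat_lit 24835762667) (nat_lit 152) (nat_lit 3276519760) (nat_lit 228) (nat_lit 11499061342) (nat_lit 28) (nat_lit 5) (nat_lit 30) (nat_lit 5) (nat_lit 31) (nat_lit 5) (nat_lit 364) (nat_lit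 285) (nat_lit 131)) (XT.lf (nat_lit 0) (nat_lit 33547339106) (nat_lit 228) (nat_lit 2542663292) (nat_lit 76) (nat_lit 4464626897) (nat_lit 28) (nat_lit 5) (nat_lit 31) (nat_lit 5) (nat_lit 29) (nat_lit 5) (nat_lit 365) (nat_lit 285) (nat_lit 130))))) (XT.nd (nat_lit 234) (nat_lit 152) (nat_lit 0) (XT.nd (nat_lit 78) (nat_lit 76) (nat_lit 0) (XT.lf (nat_lit 0) (nat_lit 10216706523) (nat_lit 152) (nat_lit 29054687884) (nat_lit 228) (nat_lit 2251046543) (nat_lit 26) (nat_lit 5) (nat_lit 28) (nat_lit 5) (nat_lit 29) (nat_lit 5) (nat_lit 366) (nat_lit 285) (nat_lit 129)) (XT.nd (nat_lit 78) (nat_lit 0) (nat_lit 0) (XT.lf (nat_lit 0) (nat_lit 2617456067) (nat_lit 228) (nat_lit 19140729728) (nat_lit 76) (nat_lit 20759705947) (nat_lit 25) (nat_lit 5) (nat_lit 28) (nat_lit 5) (nat_lit 26) (nat_lit 5) (nat_lit 367) (nat_lit 285) (nat_lit 128)) (XT.lf (nat_lit 0) (nat_lit 7582217801) (nat_lit 228) (nat_lit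 6640329748) (nat_lit 76) (nat_lit 29320131909) (nat_lit 25) (nat_lit 5) (nat_lit 28) (nat_lit 5) (nat_lit 26) (nat_lit 5) (nat_lit 368) (nat_lit 285) (nat_lit 127)))) (XT.nd (nat_lit 78) (nat_lit 0) (nat_lit 0) (XT.lf (nat_lit 0) (nat_lit 6351976568) (nat_lit 152) (nat_lit 6400585340) (nat_lit 228) (nat_lit 31843955014) (nat_lit 23) (nat_lit 5) (nat_lit 25) (nat_lit 5) (nat_lit 26) (nat_lit 5) (nat_lit 369) (nat_lit 285) (nat_lit 126)) (XT.nd (nat_lit 78) (nat_lit 0) (nat_lit 0) (XT.lf (nat_lit 0) (nat_lit 18157270121) (nat_lit 228) (nat_lit 25833465340) (nat_lit 76) (nat_lit 1688861583) (nat_lit 23) (nat_lit 5) (nat_lit 26) (nat_lit 5) (nat_lit 24) (nat_lit 5) (nat_lit 370) (nat_lit 285) (nat_lit 125)) (XT.lf (nat_lit 0) (nat_lit 23783236119) (nat_lit 228) (nat_lit 13120320549) (nat_lit 76) (nat_lit 9889844404) (nat_lit 23) (nat_lit 5) (nat_lit 26) (nat_lit 5) (nat_lit 24) (nat_lit 5) (nat_lit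 371) (nat_lit 285) (nat_lit 124)))))) (XT.nd (nat_lit 468) (nat_lit 152) (nat_lit 0) (XT.nd (nat_lit 234) (nat_lit 152) (nat_lit 0) (XT.nd (nat_lit 78) (nat_lit 152) (nat_lit 0) (XT.lf (nat_lit 0) (nat_lit 29573849453) (nat_lit 228) (nat_lit 32471067) (nat_lit 76) (nat_lit 18334427503) (nat_lit 23) (nat_lit 5) (nat_lit 26) (nat_lit 5) (nat_lit 24) (nat_lit 5) (nat_lit 372) (nat_lit 285) (nat_lit 123)) (XT.nd (nat_lit 78) (nat_lit 0) (nat_lit 0) (XT.lf (nat_lit 0) (nat_lit 13709031678) (nat_lit 152) (nat_lit 21956917802) (nat_lit 228) (nat_lit 13452737563) (nat_lit 21) (nat_lit 5) (nat_lit 23) (nat_lit 5) (nat_lit 24) (nat_lit 5) (nat_lit 373) (nat_lit 285) (nat_lit 122)) (XT.lf (nat_lit 0) (nat_lit 27857013997) (nat_lit 152) (nat_lit 14080170115) (nat_lit 228) (nat_lit 8394893549) (nat_lit 21) (nat_lit 5) (nat_lit 23) (nat_lit 5) (nat_lit 24) (nat_lit 5) (nat_lit 374) (nat_lit 285) (nat_lit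 121)))) (XT.nd (nat_lit 78) (nat_lit 152) (nat_lit 0) (XT.lf (nat_lit 0) (nat_lit 42423191967) (nat_lit 152) (nat_lit 5969522757) (nat_lit 228) (nat_lit 3189274946) (nat_lit 21) (nat_lit 5) (nat_lit 23) (nat_lit 5) (nat_lit 24) (nat_lit 5) (nat_lit 375) (nat_lit 285) (nat_lit 120)) (XT.nd (nat_lit 78) (nat_lit 0) (nat_lit 0) (XT.lf (nat_lit 0) (nat_lit 2194303862) (nat_lit 152) (nat_lit 48271015865) (nat_lit 76) (nat_lit 2401531436) (nat_lit 19) (nat_lit 5) (nat_lit 21) (nat_lit 5) (nat_lit 20) (nat_lit 5) (nat_lit 376) (nat_lit 285) (nat_lit 119)) (XT.lf (nat_lit 0) (nat_lit 7824052876) (nat_lit 152) (nat_lit 35334401030) (nat_lit 76) (nat_lit 11026398426) (nat_lit 19) (nat_lit 5) (nat_lit 21) (nat_lit 5) (nat_lit 20) (nat_lit 5) (nat_lit 377) (nat_lit 285) (nat_lit 118))))) (XT.nd (nat_lit 234) (nat_lit 0) (nat_lit 0) (XT.nd (nat_lit 78) (nat_lit 152) (nat_lit 0) (XT.lf (nat_lit 0) (nat_lit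 13619061664) (nat_lit 152) (nat_lit 22015681831) (nat_lit 76) (nat_lit 19907762968) (nat_lit 19) (nat_lit 5) (nat_lit 21) (nat_lit 5) (nat_lit 20) (nat_lit 5) (nat_lit 378) (nat_lit 285) (nat_lit 117)) (XT.nd (nat_lit 78) (nat_lit 152) (nat_lit 0) (XT.lf (nat_lit 0) (nat_lit 19584393827) (nat_lit 152) (nat_lit 8303220552) (nat_lit 76) (nat_lit 29053385476) (nat_lit 19) (nat_lit 5) (nat_lit 21) (nat_lit 5) (nat_lit 20) (nat_lit 5) (nat_lit 379) (nat_lit 285) (nat_lit 116)) (XT.lf (nat_lit 0) (nat_lit 5930693766) (nat_lit 152) (nat_lit 19851577480) (nat_lit 228) (nat_lit 32597572963) (nat_lit 17) (nat_lit 5) (nat_lit 19) (nat_lit 5) (nat_lit 20) (nat_lit 5) (nat_lit 380) (nat_lit 285) (nat_lit 115)))) (XT.nd (nat_lit 78) (nat_lit 0) (nat_lit 0) (XT.lf (nat_lit 0) (nat_lit 20756238792) (nat_lit 152) (nat_lit 11490314234) (nat_lit 228) (nat_lit 27612890438) (nat_lit 17) (nat_lit 5) (nat_lit 19)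 (nat_lit 5) (nat_lit 20) (nat_lit 5) (nat_lit 381) (nat_lit 285) (nat_lit 114)) (XT.nd (nat_lit 78) (nat_lit 0) (nat_lit 0) (XT.lf (nat_lit 0) (nat_lit 36021118514) (nat_lit 152) (nat_lit 2880364928) (nat_lit 228) (nat_lit 22482049154) (nat_lit 17) (nat_lit 5) (nat_lit 19) (nat_lit 5) (nat_lit 20) (nat_lit 5) (nat_lit 382) (nat_lit 285) (nat_lit 113)) (XT.lf (nat_lit 0) (nat_lit 45810416595) (nat_lit 228) (nat_lit 11272311268) (nat_lit 76) (nat_lit 5868989297) (nat_lit 17) (nat_lit 5) (nat_lit 20) (nat_lit 5) (nat_lit 18) (nat_lit 4) (nat_lit 383) (nat_lit 285) (nat_lit 112))))))))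
noncomputable def xc180 : XT := (XT.nd (nat_lit 34320) (nat_lit 0) (nat_lit 5320) (XT.nd (nat_lit 33462) (nat_lit 0) (nat_lit 10792) (XT.nd (nat_lit 32994) (nat_lit 0) (nat_lit 11552) (XT.nd (nat_lit 156) (nat_lit 76) (nat_lit 0) (XT.nd (nat_lit 78) (nat_lit 0) (nat_lit 0) (XT.lf (nat_lit 0) (nat_lit 3270600963) (nat_lit 76) (nat_lit 49712863223) (nat_lit 152) (nat_lit 11581780987) (nat_lit 16) (nat_lit 5) (nat_lit 17) (nat_lit 5) (nat_lit 18) (nat_lit 4) (nat_lit 384) (nat_lit 285) (nat_lit 111)) (XT.lf (nat_lit 0) (nat_lit 18475726428) (nat_lit 76) (nat_lit 42006735130) (nat_lit 152) (nat_lit 5741397924) (nat_lit 16) (nat_lit 5) (nat_lit 17) (nat_lit 5) (nat_lit 18) (nat_lit 4) (nat_lit 385) (nat_lit 285) (nat_lit 110))) (XT.nd (nat_lit 78) (nat_lit 0) (nat_lit 0) (XT.lf (nat_lit 0) (nat_lit 265833030) (nat_lit 152) (nat_lit 33802920895) (nat_lit 76) (nat_lit 33863492640) (nat_lit 15) (nat_lit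 5) (nat_lit 17) (nat_lit 5) (nat_lit 16) (nat_lit 5) (nat_lit 386) (nat_lit 285) (nat_lit 109)) (XT.nd (nat_lit 78) (nat_lit 0) (nat_lit 0) (XT.lf (nat_lit 0) (nat_lit 6334959221) (nat_lit 152) (nat_lit 19501109142) (nat_lit 76) (nat_lit 43854202225) (nat_lit 15) (nat_lit 5) (nat_lit 17) (nat_lit 5) (nat_lit 16) (nat_lit 5) (nat_lit 387) (nat_lit 285) (nat_lit 108)) (XT.lf (nat_lit 0) (nat_lit 12583319124) (nat_lit 152) (nat_lit 4775011236) (nat_lit 76) (nat_lit 54142793024) (nat_lit 15) (nat_lit 5) (nat_lit 17) (nat_lit 5) (nat_lit 16) (nat_lit 5) (nat_lit 388) (nat_lit 285) (nat_lit 107))))) (XT.nd (nat_lit 234) (nat_lit 912) (nat_lit 0) (XT.nd (nat_lit 78) (nat_lit 0) (nat_lit 0) (XT.lf (nat_lit 0) (nat_lit 3669991015) (nat_lit 988) (nat_lit 519836127) (nat_lit 988) (nat_lit 519836127) (nat_lit 179) (nat_lit 3) (nat_lit 192) (nat_lit 3) (nat_lit 192) (nat_lit 5) (nat_lit 286) (nat_lit 286)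 (nat_lit 208)) (XT.nd (nat_lit 78) (nat_lit 0) (nat_lit 0) (XT.lf (nat_lit 76) (nat_lit 2976750716) (nat_lit 0) (nat_lit 5226145873) (nat_lit 988) (nat_lit 1333192482) (nat_lit 180) (nat_lit 5) (nat_lit 179) (nat_lit 3) (nat_lit 192) (nat_lit 5) (nat_lit 287) (nat_lit 286) (nat_lit 207)) (XT.lf (nat_lit 76) (nat_lit 7120094572) (nat_lit 0) (nat_lit 1953696070) (nat_lit 988) (nat_lit 583176902) (nat_lit 180) (nat_lit 5) (nat_lit 179) (nat_lit 3) (nat_lit 192) (nat_lit 5) (nat_lit 288) (nat_lit 286) (nat_lit 206)))) (XT.nd (nat_lit 78) (nat_lit 0) (nat_lit 0) (XT.lf (nat_lit 0) (nat_lit 187218199) (nat_lit 988) (nat_lit 8174775575) (nat_lit 1064) (nat_lit 1419448257) (nat_lit 167) (nat_lit 5) (nat_lit 180) (nat_lit 5) (nat_lit 181) (nat_lit 5) (nat_lit 289) (nat_lit 286) (nat_lit 205)) (XT.nd (nat_lit 78) (nat_lit 0) (nat_lit 0) (XT.lf (nat_lit 0) (nat_lit 987082311) (nat_lit 988) (nat_lit 4023673403)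 (nat_lit 1064) (nat_lit 4898248857) (nat_lit 167) (nat_lit 5) (nat_lit 180) (nat_lit 5) (nat_lit 181) (nat_lit 5) (nat_lit 290) (nat_lit 286) (nat_lit 204)) (XT.lf (nat_lit 76) (nat_lit 241197137) (nat_lit 0) (nat_lit 1545717946) (nat_lit 1064) (nat_lit 8254267093) (nat_lit 168) (nat_lit 5) (nat_lit 167) (nat_lit 5) (nat_lit 181) (nat_lit 5) (nat_lit 291) (nat_lit 286) (nat_lit 203)))))) (XT.nd (nat_lit 390) (nat_lit 836) (nat_lit 0) (XT.nd (nat_lit 156) (nat_lit 0) (nat_lit 0) (XT.nd (nat_lit 78) (nat_lit 0) (nat_lit 0) (XT.lf (nat_lit 0) (nat_lit 2645599583) (nat_lit 988) (nat_lit 5495719076) (nat_lit 1064) (nat_lit 2035026157) (nat_lit 168) (nat_lit 5) (nat_lit 181) (nat_lit 5) (nat_lit 182) (nat_lit 5) (nat_lit 292) (nat_lit 286) (nat_lit 202)) (XT.lf (nat_lit 0) (nat_lit 3520469459) (nat_lit 988) (nat_lit 1093412621) (nat_lit 1064) (nat_lit 5702031015) (nat_lit 168) (nat_lit 5) (nat_lit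 181) (nat_lit 5) (nat_lit 182) (nat_lit 5) (nat_lit 293) (nat_lit 286) (nat_lit 201))) (XT.nd (nat_lit 78) (nat_lit 0) (nat_lit 76) (XT.lf (nat_lit 76) (nat_lit 3493816328) (nat_lit 0) (nat_lit 937199145) (nat_lit 1064) (nat_lit 6028431700) (nat_lit 169) (nat_lit 5) (nat_lit 168) (nat_lit 5) (nat_lit 182) (nat_lit 5) (nat_lit 294) (nat_lit 286) (nat_lit 200)) (XT.nd (nat_lit 78) (nat_lit 0) (nat_lit 0) (XT.lf (nat_lit 0) (nat_lit 5383906375) (nat_lit 988) (nat_lit 2409405341) (nat_lit 1064) (nat_lit 2813584562) (nat_lit 169) (nat_lit 5) (nat_lit 182) (nat_lit 5) (nat_lit 183) (nat_lit 5) (nat_lit 295) (nat_lit 286) (nat_lit 199)) (XT.lf (nat_lit 76) (nat_lit 2303624251) (nat_lit 0) (nat_lit 4070351722) (nat_lit 1064) (nat_lit 4384593238) (nat_lit 170) (nat_lit 5) (nat_lit 169) (nat_lit 5) (nat_lit 183) (nat_lit 5) (nat_lit 296) (nat_lit 286) (nat_lit 198))))) (XT.nd (nat_lit 234) (nat_lit 912)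 (nat_lit 0) (XT.nd (nat_lit 78) (nat_lit 0) (nat_lit 76) (XT.lf (nat_lit 76) (nat_lit 7192032200) (nat_lit 0) (nat_lit 203731575) (nat_lit 1064) (nat_lit 3519024497) (nat_lit 170) (nat_lit 5) (nat_lit 169) (nat_lit 5) (nat_lit 183) (nat_lit 5) (nat_lit 297) (nat_lit 286) (nat_lit 197)) (XT.nd (nat_lit 78) (nat_lit 0) (nat_lit 0) (XT.lf (nat_lit 76) (nat_lit 1121229172) (nat_lit 0) (nat_lit 7352479226) (nat_lit 1064) (nat_lit 2601275190) (nat_lit 171) (nat_lit 5) (nat_lit 170) (nat_lit 5) (nat_lit 184) (nat_lit 5) (nat_lit 298) (nat_lit 286) (nat_lit 196)) (XT.lf (nat_lit 76) (nat_lit 6169220133) (nat_lit 0) (nat_lit 3433240858) (nat_lit 1064) (nat_lit 1637022865) (nat_lit 171) (nat_lit 5) (nat_lit 170) (nat_lit 5) (nat_lit 184) (nat_lit 5) (nat_lit 299) (nat_lit 286) (nat_lit 195)))) (XT.nd (nat_lit 78) (nat_lit 1064) (nat_lit 0) (XT.lf (nat_lit 0) (nat_lit 10750424777) (nat_lit 988) (nat_lit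 61904756) (nat_lit 1064) (nat_lit 597080777) (nat_lit 171) (nat_lit 5) (nat_lit 184) (nat_lit 5) (nat_lit 185) (nat_lit 5) (nat_lit 300) (nat_lit 286) (nat_lit 194)) (XT.nd (nat_lit 78) (nat_lit 0) (nat_lit 0) (XT.lf (nat_lit 0) (nat_lit 405793866) (nat_lit 1064) (nat_lit 6438763374) (nat_lit 1140) (nat_lit 4737899538) (nat_lit 157) (nat_lit 5) (nat_lit 171) (nat_lit 5) (nat_lit 172) (nat_lit 5) (nat_lit 301) (nat_lit 286) (nat_lit 193)) (XT.lf (nat_lit 0) (nat_lit 1470237405) (nat_lit 1064) (nat_lit 1276139423) (nat_lit 1140) (nat_lit 9014740355) (nat_lit 157) (nat_lit 5) (nat_lit 171) (nat_lit 5) (nat_lit 172) (nat_lit 5) (nat_lit 302) (nat_lit 286) (nat_lit 192))))))) (XT.nd (nat_lit 858) (nat_lit 2660) (nat_lit 0) (XT.nd (nat_lit 390) (nat_lit 1140) (nat_lit 0) (XT.nd (nat_lit 156) (nat_lit 1748) (nat_lit 0) (XT.nd (nat_lit 78) (nat_lit 0) (nat_lit 0) (XT.lf (nat_lit 0) (nat_lit 2601597954)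 (nat_lit 1064) (nat_lit 7852889665) (nat_lit 76) (nat_lit 1489646147) (nat_lit 158) (nat_lit 5) (nat_lit 172) (nat_lit 5) (nat_lit 159) (nat_lit 5) (nat_lit 303) (nat_lit 286) (nat_lit 191)) (XT.lf (nat_lit 0) (nat_lit 3788458679) (nat_lit 1064) (nat_lit 2529460796) (nat_lit 76) (nat_lit 5814119129) (nat_lit 158) (nat_lit 5) (nat_lit 172) (nat_lit 5) (nat_lit 159) (nat_lit 5) (nat_lit 304) (nat_lit 286) (nat_lit 190))) (XT.nd (nat_lit 78) (nat_lit 684) (nat_lit 0) (XT.lf (nat_lit 0) (nat_lit 2996912815) (nat_lit 1064) (nat_lit 2024717089) (nat_lit 1140) (nat_lit 7303672787) (nat_lit 144) (nat_lit 5) (nat_lit 158) (nat_lit 5) (nat_lit 159) (nat_lit 5) (nat_lit 305) (nat_lit 286) (nat_lit 189)) (XT.nd (nat_lit 78) (nat_lit 684) (nat_lit 0) (XT.lf (nat_lit 0) (nat_lit 6322939952) (nat_lit 1140) (nat_lit 3821654560) (nat_lit 76) (nat_lit 2378877862) (nat_lit 144) (nat_lit 5) (nat_lit 159) (nat_lit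 5) (nat_lit 145) (nat_lit 5) (nat_lit 306) (nat_lit 286) (nat_lit 188)) (XT.lf (nat_lit 0) (nat_lit 1851126998) (nat_lit 684) (nat_lit 5832822644) (nat_lit 760) (nat_lit 5043058456) (nat_lit 135) (nat_lit 5) (nat_lit 144) (nat_lit 5) (nat_lit 145) (nat_lit 5) (nat_lit 307) (nat_lit 286) (nat_lit 187))))) (XT.nd (nat_lit 234) (nat_lit 608) (nat_lit 0) (XT.nd (nat_lit 78) (nat_lit 532) (nat_lit 0) (XT.lf (nat_lit 0) (nat_lit 7757350232) (nat_lit 684) (nat_lit 1350205508) (nat_lit 760) (nat_lit 3828480742) (nat_lit 135) (nat_lit 5) (nat_lit 144) (nat_lit 5) (nat_lit 145) (nat_lit 5) (nat_lit 308) (nat_lit 286) (nat_lit 186)) (XT.nd (nat_lit 78) (nat_lit 0) (nat_lit 0) (XT.lf (nat_lit 0) (nat_lit 655627344) (nat_lit 532) (nat_lit 9939629536) (nat_lit 608) (nat_lit 2555475654) (nat_lit 128) (nat_lit 5) (nat_lit 135) (nat_lit 5) (nat_lit 136) (nat_lit 5) (nat_lit 309) (nat_lit 286) (nat_lit 185))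 (XT.lf (nat_lit 0) (nat_lit 6742455404) (nat_lit 532) (nat_lit 5434677501) (nat_lit 608) (nat_lit 1193287549) (nat_lit 128) (nat_lit 5) (nat_lit 135) (nat_lit 5) (nat_lit 136) (nat_lit 5) (nat_lit 310) (nat_lit 286) (nat_lit 184)))) (XT.nd (nat_lit 78) (nat_lit 532) (nat_lit 0) (XT.lf (nat_lit 0) (nat_lit 189961345) (nat_lit 608) (nat_lit 601775451) (nat_lit 76) (nat_lit 12805408231) (nat_lit 127) (nat_lit 5) (nat_lit 135) (nat_lit 5) (nat_lit 128) (nat_lit 5) (nat_lit 311) (nat_lit 286) (nat_lit 183)) (XT.nd (nat_lit 78) (nat_lit 0) (nat_lit 0) (XT.lf (nat_lit 0) (nat_lit 1669189377) (nat_lit 608) (nat_lit 8178289842) (nat_lit 76) (nat_lit 3980517845) (nat_lit 120) (nat_lit 5) (nat_lit 128) (nat_lit 5) (nat_lit 121) (nat_lit 5) (nat_lit 312) (nat_lit 286) (nat_lit 182)) (XT.lf (nat_lit 0) (nat_lit 3191827902) (nat_lit 608) (nat_lit 1987279115) (nat_lit 76) (nat_lit 8886729777) (nat_lit 120)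 (nat_lit 5) (nat_lit 128) (nat_lit 5) (nat_lit 121) (nat_lit 5) (nat_lit 313) (nat_lit 286) (nat_lit 181)))))) (XT.nd (nat_lit 468) (nat_lit 1292) (nat_lit 0) (XT.nd (nat_lit 234) (nat_lit 456) (nat_lit 0) (XT.nd (nat_lit 78) (nat_lit 456) (nat_lit 0) (XT.lf (nat_lit 0) (nat_lit 4462108702) (nat_lit 456) (nat_lit 326422367) (nat_lit 532) (nat_lit 9521461261) (nat_lit 114) (nat_lit 5) (nat_lit 120) (nat_lit 5) (nat_lit 121) (nat_lit 5) (nat_lit 314) (nat_lit 286) (nat_lit 180)) (XT.nd (nat_lit 78) (nat_lit 456) (nat_lit 0) (XT.lf (nat_lit 0) (nat_lit 6484087858) (nat_lit 532) (nat_lit 3475003296) (nat_lit 76) (nat_lit 4600884040) (nat_lit 114) (nat_lit 5) (nat_lit 121) (nat_lit 5) (nat_lit 115) (nat_lit 5) (nat_lit 315) (nat_lit 286) (nat_lit 179)) (XT.lf (nat_lit 0) (nat_lit 3132649237) (nat_lit 456) (nat_lit 5117398809) (nat_lit 532) (nat_lit 6566853728) (nat_lit 108) (nat_lit 5) (nat_lit 114)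 (nat_lit 5) (nat_lit 115) (nat_lit 5) (nat_lit 316) (nat_lit 286) (nat_lit 178)))) (XT.nd (nat_lit 78) (nat_lit 456) (nat_lit 0) (XT.lf (nat_lit 0) (nat_lit 9995594244) (nat_lit 456) (nat_lit 94941322) (nat_lit 532) (nat_lit 4990383576) (nat_lit 108) (nat_lit 5) (nat_lit 114) (nat_lit 5) (nat_lit 115) (nat_lit 5) (nat_lit 317) (nat_lit 286) (nat_lit 177)) (XT.nd (nat_lit 78) (nat_lit 0) (nat_lit 0) (XT.lf (nat_lit 0) (nat_lit 1681390221) (nat_lit 456) (nat_lit 10356671076) (nat_lit 532) (nat_lit 3313269614) (nat_lit 102) (nat_lit 5) (nat_lit 108) (nat_lit 5) (nat_lit 109) (nat_lit 5) (nat_lit 318) (nat_lit 286) (nat_lit 176)) (XT.lf (nat_lit 0) (nat_lit 8740355567) (nat_lit 456) (nat_lit 5343034396) (nat_lit 532) (nat_lit 1545311512) (nat_lit 102) (nat_lit 5) (nat_lit 108) (nat_lit 5) (nat_lit 109) (nat_lit 5) (nat_lit 319) (nat_lit 286) (nat_lit 175))))) (XT.nd (nat_lit 234) (nat_lit 760) (nat_lit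 0) (XT.nd (nat_lit 78) (nat_lit 0) (nat_lit 0) (XT.lf (nat_lit 0) (nat_lit 81735241) (nat_lit 456) (nat_lit 176676130) (nat_lit 532) (nat_lit 15656285277) (nat_lit 95) (nat_lit 5) (nat_lit 101) (nat_lit 5) (nat_lit 102) (nat_lit 5) (nat_lit 320) (nat_lit 286) (nat_lit 174)) (XT.nd (nat_lit 78) (nat_lit 0) (nat_lit 0) (XT.lf (nat_lit 0) (nat_lit 2192432105) (nat_lit 532) (nat_lit 8884660274) (nat_lit 76) (nat_lit 5128528331) (nat_lit 95) (nat_lit 5) (nat_lit 102) (nat_lit 5) (nat_lit 96) (nat_lit 5) (nat_lit 321) (nat_lit 286) (nat_lit 173)) (XT.lf (nat_lit 0) (nat_lit 4174129685) (nat_lit 532) (nat_lit 1743403034) (nat_lit 76) (nat_lit 10588074750) (nat_lit 95) (nat_lit 5) (nat_lit 102) (nat_lit 5) (nat_lit 96) (nat_lit 5) (nat_lit 322) (nat_lit 286) (nat_lit 172)))) (XT.nd (nat_lit 78) (nat_lit 380) (nat_lit 0) (XT.lf (nat_lit 0) (nat_lit 5710174640) (nat_lit 380) (nat_lit 548252424) (nat_lit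 456) (nat_lit 10554896243) (nat_lit 90) (nat_lit 5) (nat_lit 95) (nat_lit 5) (nat_lit 96) (nat_lit 5) (nat_lit 323) (nat_lit 286) (nat_lit 171)) (XT.nd (nat_lit 78) (nat_lit 380) (nat_lit 0) (XT.lf (nat_lit 0) (nat_lit 8459381602) (nat_lit 456) (nat_lit 3768275483) (nat_lit 76) (nat_lit 4901012933) (nat_lit 90) (nat_lit 5) (nat_lit 96) (nat_lit 5) (nat_lit 91) (nat_lit 5) (nat_lit 324) (nat_lit 286) (nat_lit 170)) (XT.lf (nat_lit 0) (nat_lit 3843036906) (nat_lit 380) (nat_lit 6914491835) (nat_lit 456) (nat_lit 6695036039) (nat_lit 85) (nat_lit 5) (nat_lit 90) (nat_lit 5) (nat_lit 91) (nat_lit 5) (nat_lit 325) (nat_lit 286) (nat_lit 169))))))))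
noncomputable def xc181 : XT := (XT.nd (nat_lit 1716) (nat_lit 1748) (nat_lit 0) (XT.nd (nat_lit 858) (nat_lit 1444) (nat_lit 0) (XT.nd (nat_lit 390) (nat_lit 684) (nat_lit 0) (XT.nd (nat_lit 156) (nat_lit 456) (nat_lit 0) (XT.nd (nat_lit 78) (nat_lit 380) (nat_lit 0) (XT.lf (nat_lit 0) (nat_lit 11746893501) (nat_lit 380) (nat_lit 1404774117) (nat_lit 456) (nat_lit 4633719258) (nat_lit 85) (nat_lit 5) (nat_lit 90) (nat_lit 5) (nat_lit 91) (nat_lit 5) (nat_lit 326) (nat_lit 286) (nat_lit 168)) (XT.lf (nat_lit 0) (nat_lit 1739585542) (nat_lit 380) (nat_lit 13925111846) (nat_lit 456) (nat_lit 2462105518) (nat_lit 80) (nat_lit 5) (nat_lit 85) (nat_lit 5) (nat_lit 86) (nat_lit 5) (nat_lit 327) (nat_lit 286) (nat_lit 167))) (XT.nd (nat_lit 78) (nat_lit 456) (nat_lit 0) (XT.lf (nat_lit 0) (nat_lit 9847747772) (nat_lit 380) (nat_lit 8469604333) (nat_lit 456) (nat_lit 159202943) (nat_lit 80) (nat_lit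 5) (nat_lit 85) (nat_lit 5) (nat_lit 86) (nat_lit 5) (nat_lit 328) (nat_lit 286) (nat_lit 166)) (XT.nd (nat_lit 78) (nat_lit 380) (nat_lit 0) (XT.lf (nat_lit 0) (nat_lit 2159277614) (nat_lit 456) (nat_lit 671622911) (nat_lit 76) (nat_lit 16005590467) (nat_lit 79) (nat_lit 5) (nat_lit 85) (nat_lit 5) (nat_lit 80) (nat_lit 5) (nat_lit 329) (nat_lit 286) (nat_lit 165)) (XT.lf (nat_lit 0) (nat_lit 4637053829) (nat_lit 456) (nat_lit 11574792969) (nat_lit 76) (nat_lit 2992561596) (nat_lit 74) (nat_lit 5) (nat_lit 80) (nat_lit 5) (nat_lit 75) (nat_lit 5) (nat_lit 330) (nat_lit 286) (nat_lit 164))))) (XT.nd (nat_lit 234) (nat_lit 380) (nat_lit 0) (XT.nd (nat_lit 78) (nat_lit 304) (nat_lit 0) (XT.lf (nat_lit 0) (nat_lit 7214164444) (nat_lit 456) (nat_lit 3430104761) (nat_lit 76) (nat_lit 8938362430) (nat_lit 74) (nat_lit 5) (nat_lit 80) (nat_lit 5) (nat_lit 75) (nat_lit 5) (nat_lit 331) (nat_lit 286)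 (nat_lit 163)) (XT.nd (nat_lit 78) (nat_lit 0) (nat_lit 0) (XT.lf (nat_lit 0) (nat_lit 5045231466) (nat_lit 304) (nat_lit 4862265609) (nat_lit 380) (nat_lit 10063555054) (nat_lit 70) (nat_lit 5) (nat_lit 74) (nat_lit 5) (nat_lit 75) (nat_lit 5) (nat_lit 332) (nat_lit 286) (nat_lit 162)) (XT.lf (nat_lit 0) (nat_lit 12717668028) (nat_lit 380) (nat_lit 6548095274) (nat_lit 76) (nat_lit 1104298081) (nat_lit 70) (nat_lit 5) (nat_lit 75) (nat_lit 5) (nat_lit 71) (nat_lit 5) (nat_lit 333) (nat_lit 286) (nat_lit 161)))) (XT.nd (nat_lit 78) (nat_lit 76) (nat_lit 0) (XT.lf (nat_lit 0) (nat_lit 2061099039) (nat_lit 304) (nat_lit 13609823690) (nat_lit 380) (nat_lit 5108371620) (nat_lit 66) (nat_lit 5) (nat_lit 70) (nat_lit 5) (nat_lit 71) (nat_lit 5) (nat_lit 334) (nat_lit 286) (nat_lit 160)) (XT.nd (nat_lit 78) (nat_lit 76) (nat_lit 0) (XT.lf (nat_lit 0) (nat_lit 11050974727) (nat_lit 304) (nat_lit 7718901679)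 (nat_lit 380) (nat_lit 2429231163) (nat_lit 66) (nat_lit 5) (nat_lit 70) (nat_lit 5) (nat_lit 71) (nat_lit 5) (nat_lit 335) (nat_lit 286) (nat_lit 159)) (XT.lf (nat_lit 0) (nat_lit 314977421) (nat_lit 380) (nat_lit 1335814708) (nat_lit 76) (nat_lit 19980909008) (nat_lit 65) (nat_lit 5) (nat_lit 70) (nat_lit 5) (nat_lit 66) (nat_lit 5) (nat_lit 336) (nat_lit 286) (nat_lit 158)))))) (XT.nd (nat_lit 390) (nat_lit 836) (nat_lit 0) (XT.nd (nat_lit 156) (nat_lit 304) (nat_lit 0) (XT.nd (nat_lit 78) (nat_lit 0) (nat_lit 0) (XT.lf (nat_lit 0) (nat_lit 3204799902) (nat_lit 380) (nat_lit 14260885237) (nat_lit 76) (nat_lit 4607517356) (nat_lit 61) (nat_lit 5) (nat_lit 66) (nat_lit 5) (nat_lit 62) (nat_lit 5) (nat_lit 337) (nat_lit 286) (nat_lit 157)) (XT.lf (nat_lit 0) (nat_lit 6202797407) (nat_lit 380) (nat_lit 5293208228) (nat_lit 76) (nat_lit 11031313335) (nat_lit 61) (nat_lit 5) (nat_lit 66) (nat_lit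 5) (nat_lit 62) (nat_lit 5) (nat_lit 338) (nat_lit 286) (nat_lit 156))) (XT.nd (nat_lit 78) (nat_lit 0) (nat_lit 0) (XT.lf (nat_lit 0) (nat_lit 4010632778) (nat_lit 304) (nat_lit 5310415112) (nat_lit 380) (nat_lit 13673115722) (nat_lit 57) (nat_lit 5) (nat_lit 61) (nat_lit 5) (nat_lit 62) (nat_lit 5) (nat_lit 339) (nat_lit 286) (nat_lit 155)) (XT.nd (nat_lit 78) (nat_lit 0) (nat_lit 0) (XT.lf (nat_lit 0) (nat_lit 12588889097) (nat_lit 380) (nat_lit 9793289116) (nat_lit 76) (nat_lit 1091167737) (nat_lit 57) (nat_lit 5) (nat_lit 62) (nat_lit 5) (nat_lit 58) (nat_lit 5) (nat_lit 340) (nat_lit 286) (nat_lit 154)) (XT.lf (nat_lit 0) (nat_lit 15999447262) (nat_lit 380) (nat_lit 390838822) (nat_lit 76) (nat_lit 7575290478) (nat_lit 57) (nat_lit 5) (nat_lit 62) (nat_lit 5) (nat_lit 58) (nat_lit 5) (nat_lit 341) (nat_lit 286) (nat_lit 153))))) (XT.nd (nat_lit 234) (nat_lit 228) (nat_lit 0) (XT.nd (nat_lit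 78) (nat_lit 380) (nat_lit 0) (XT.lf (nat_lit 0) (nat_lit 9467834286) (nat_lit 228) (nat_lit 10127831856) (nat_lit 304) (nat_lit 4874420503) (nat_lit 54) (nat_lit 5) (nat_lit 57) (nat_lit 5) (nat_lit 58) (nat_lit 5) (nat_lit 342) (nat_lit 286) (nat_lit 152)) (XT.nd (nat_lit 78) (nat_lit 380) (nat_lit 0) (XT.lf (nat_lit 0) (nat_lit 19619781103) (nat_lit 228) (nat_lit 3676392929) (nat_lit 304) (nat_lit 1693678420) (nat_lit 54) (nat_lit 5) (nat_lit 57) (nat_lit 5) (nat_lit 58) (nat_lit 5) (nat_lit 343) (nat_lit 286) (nat_lit 151)) (XT.lf (nat_lit 0) (nat_lit 1617662248) (nat_lit 380) (nat_lit 20937177330) (nat_lit 76) (nat_lit 2967945389) (nat_lit 49) (nat_lit 5) (nat_lit 54) (nat_lit 5) (nat_lit 50) (nat_lit 5) (nat_lit 344) (nat_lit 286) (nat_lit 150)))) (XT.nd (nat_lit 78) (nat_lit 228) (nat_lit 0) (XT.lf (nat_lit 0) (nat_lit 5078145784) (nat_lit 380) (nat_lit 11184198386) (nat_lit 76) (nat_lit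 9806354333) (nat_lit 49) (nat_lit 5) (nat_lit 54) (nat_lit 5) (nat_lit 50) (nat_lit 5) (nat_lit 345) (nat_lit 286) (nat_lit 149)) (XT.nd (nat_lit 78) (nat_lit 228) (nat_lit 0) (XT.lf (nat_lit 0) (nat_lit 8635336916) (nat_lit 380) (nat_lit 1148777657) (nat_lit 76) (nat_lit 16847099181) (nat_lit 49) (nat_lit 5) (nat_lit 54) (nat_lit 5) (nat_lit 50) (nat_lit 5) (nat_lit 346) (nat_lit 286) (nat_lit 148)) (XT.lf (nat_lit 0) (nat_lit 9360510954) (nat_lit 228) (nat_lit 3021811872) (nat_lit 304) (nat_lit 14825800044) (nat_lit 46) (nat_lit 5) (nat_lit 49) (nat_lit 5) (nat_lit 50) (nat_lit 5) (nat_lit 347) (nat_lit 286) (nat_lit 147))))))) (XT.nd (nat_lit 858) (nat_lit 836) (nat_lit 0) (XT.nd (nat_lit 390) (nat_lit 380) (nat_lit 0) (XT.nd (nat_lit 156) (nat_lit 304) (nat_lit 0) (XT.nd (nat_lit 78) (nat_lit 228) (nat_lit 0) (XT.lf (nat_lit 0) (nat_lit 16284518360) (nat_lit 304) (nat_lit 7641326253) (nat_lit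 76) (nat_lit 3875221110) (nat_lit 46) (nat_lit 5) (nat_lit 50) (nat_lit 5) (nat_lit 47) (nat_lit 5) (nat_lit 348) (nat_lit 286) (nat_lit 146)) (XT.lf (nat_lit 0) (nat_lit 2887931341) (nat_lit 228) (nat_lit 17466905386) (nat_lit 304) (nat_lit 8055438585) (nat_lit 43) (nat_lit 5) (nat_lit 46) (nat_lit 5) (nat_lit 47) (nat_lit 5) (nat_lit 349) (nat_lit 286) (nat_lit 145))) (XT.nd (nat_lit 78) (nat_lit 304) (nat_lit 0) (XT.lf (nat_lit 0) (nat_lit 13880149333) (nat_lit 228) (nat_lit 10737756223) (nat_lit 304) (nat_lit 4417746270) (nat_lit 43) (nat_lit 5) (nat_lit 46) (nat_lit 5) (nat_lit 47) (nat_lit 5) (nat_lit 350) (nat_lit 286) (nat_lit 144)) (XT.nd (nat_lit 78) (nat_lit 304) (nat_lit 0) (XT.lf (nat_lit 0) (nat_lit 25192855198) (nat_lit 228) (nat_lit 3809679697) (nat_lit 304) (nat_lit 677454265) (nat_lit 43) (nat_lit 5) (nat_lit 46) (nat_lit 5) (nat_lit 47) (nat_lit 5) (nat_lit 351) (nat_lit 286)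 (nat_lit 143)) (XT.lf (nat_lit 0) (nat_lit 3203097181) (nat_lit 304) (nat_lit 23783688254) (nat_lit 76) (nat_lit 3353264370) (nat_lit 39) (nat_lit 5) (nat_lit 43) (nat_lit 5) (nat_lit 40) (nat_lit 5) (nat_lit 352) (nat_lit 286) (nat_lit 142))))) (XT.nd (nat_lit 234) (nat_lit 152) (nat_lit 0) (XT.nd (nat_lit 78) (nat_lit 228) (nat_lit 0) (XT.lf (nat_lit 0) (nat_lit 7263777294) (nat_lit 304) (nat_lit 13049500711) (nat_lit 76) (nat_lit 10704121958) (nat_lit 39) (nat_lit 5) (nat_lit 43) (nat_lit 5) (nat_lit 40) (nat_lit 5) (nat_lit 353) (nat_lit 286) (nat_lit 141)) (XT.nd (nat_lit 78) (nat_lit 228) (nat_lit 0) (XT.lf (nat_lit 0) (nat_lit 11440305773) (nat_lit 304) (nat_lit 2002234978) (nat_lit 76) (nat_lit 18272717544) (nat_lit 39) (nat_lit 5) (nat_lit 43) (nat_lit 5) (nat_lit 40) (nat_lit 5) (nat_lit 354) (nat_lit 286) (nat_lit 140)) (XT.lf (nat_lit 0) (nat_lit 9554198722) (nat_lit 228) (nat_lit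 6273974091) (nat_lit 304) (nat_lit 16603306545) (nat_lit 36) (nat_lit 5) (nat_lit 39) (nat_lit 5) (nat_lit 40) (nat_lit 5) (nat_lit 355) (nat_lit 286) (nat_lit 139)))) (XT.nd (nat_lit 78) (nat_lit 152) (nat_lit 0) (XT.lf (nat_lit 0) (nat_lit 20373021646) (nat_lit 304) (nat_lit 11689831286) (nat_lit 76) (nat_lit 1105581767) (nat_lit 36) (nat_lit 5) (nat_lit 40) (nat_lit 5) (nat_lit 37) (nat_lit 5) (nat_lit 356) (nat_lit 286) (nat_lit 138)) (XT.nd (nat_lit 78) (nat_lit 152) (nat_lit 0) (XT.lf (nat_lit 0) (nat_lit 25110761993) (nat_lit 304) (nat_lit 237375327) (nat_lit 76) (nat_lit 8577672785) (nat_lit 36) (nat_lit 5) (nat_lit 40) (nat_lit 5) (nat_lit 37) (nat_lit 5) (nat_lit 357) (nat_lit 286) (nat_lit 137)) (XT.lf (nat_lit 0) (nat_lit 11780279193) (nat_lit 152) (nat_lit 18318184406) (nat_lit 228) (nat_lit 4604215862) (nat_lit 34) (nat_lit 5) (nat_lit 36) (nat_lit 5) (nat_lit 37) (nat_lit 5) (nat_lit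 358) (nat_lit 286) (nat_lit 136)))))) (XT.nd (nat_lit 468) (nat_lit 380) (nat_lit 0) (XT.nd (nat_lit 234) (nat_lit 152) (nat_lit 0) (XT.nd (nat_lit 78) (nat_lit 304) (nat_lit 0) (XT.lf (nat_lit 0) (nat_lit 24155159409) (nat_lit 152) (nat_lit 11077702716) (nat_lit 228) (nat_lit 270088138) (nat_lit 34) (nat_lit 5) (nat_lit 36) (nat_lit 5) (nat_lit 37) (nat_lit 5) (nat_lit 359) (nat_lit 286) (nat_lit 135)) (XT.nd (nat_lit 78) (nat_lit 0) (nat_lit 0) (XT.lf (nat_lit 0) (nat_lit 536160325) (nat_lit 228) (nat_lit 3575981597) (nat_lit 304) (nat_lit 32213887114) (nat_lit 30) (nat_lit 5) (nat_lit 33) (nat_lit 5) (nat_lit 34) (nat_lit 5) (nat_lit 360) (nat_lit 286) (nat_lit 134)) (XT.lf (nat_lit 0) (nat_lit 8770850128) (nat_lit 304) (nat_lit 24212921145) (nat_lit 76) (nat_lit 4185442199) (nat_lit 30) (nat_lit 5) (nat_lit 34) (nat_lit 5) (nat_lit 31) (nat_lit 5) (nat_lit 361) (nat_lit 286) (nat_lit 133))))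 (XT.nd (nat_lit 78) (nat_lit 152) (nat_lit 0) (XT.lf (nat_lit 0) (nat_lit 13599691172) (nat_lit 304) (nat_lit 12331933696) (nat_lit 76) (nat_lit 12105163948) (nat_lit 30) (nat_lit 5) (nat_lit 34) (nat_lit 5) (nat_lit 31) (nat_lit 5) (nat_lit 362) (nat_lit 286) (nat_lit 132)) (XT.nd (nat_lit 78) (nat_lit 152) (nat_lit 0) (XT.lf (nat_lit 0) (nat_lit 18568509907) (nat_lit 304) (nat_lit 102150396) (nat_lit 76) (nat_lit 20259884073) (nat_lit 30) (nat_lit 5) (nat_lit 34) (nat_lit 5) (nat_lit 31) (nat_lit 5) (nat_lit 363) (nat_lit 286) (nat_lit 131)) (XT.lf (nat_lit 0) (nat_lit 12735633043) (nat_lit 152) (nat_lit 11068437671) (nat_lit 228) (nat_lit 16043517712) (nat_lit 28) (nat_lit 5) (nat_lit 30) (nat_lit 5) (nat_lit 31) (nat_lit 5) (nat_lit 364) (nat_lit 286) (nat_lit 130))))) (XT.nd (nat_lit 234) (nat_lit 228) (nat_lit 0) (XT.nd (nat_lit 78) (nat_lit 152) (nat_lit 0) (XT.lf (nat_lit 0) (nat_lit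 25953305201) (nat_lit 152) (nat_lit 3239747144) (nat_lit 228) (nat_lit 11599206800) (nat_lit 28) (nat_lit 5) (nat_lit 30) (nat_lit 5) (nat_lit 31) (nat_lit 5) (nat_lit 365) (nat_lit 286) (nat_lit 129)) (XT.nd (nat_lit 78) (nat_lit 152) (nat_lit 0) (XT.lf (nat_lit 0) (nat_lit 34785506662) (nat_lit 228) (nat_lit 2251374034) (nat_lit 76) (nat_lit 4727140987) (nat_lit 28) (nat_lit 5) (nat_lit 31) (nat_lit 5) (nat_lit 29) (nat_lit 5) (nat_lit 366) (nat_lit 286) (nat_lit 128)) (XT.lf (nat_lit 0) (nat_lit 10887173257) (nat_lit 152) (nat_lit 29790859100) (nat_lit 228) (nat_lit 2082941432) (nat_lit 26) (nat_lit 5) (nat_lit 28) (nat_lit 5) (nat_lit 29) (nat_lit 5) (nat_lit 367) (nat_lit 286) (nat_lit 127)))) (XT.nd (nat_lit 78) (nat_lit 152) (nat_lit 0) (XT.lf (nat_lit 0) (nat_lit 2920288866) (nat_lit 228) (nat_lit 19356853712) (nat_lit 76) (nat_lit 21509287527) (nat_lit 25) (nat_lit 5) (nat_lit 28) (nat_lit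 5) (nat_lit 26) (nat_lit 5) (nat_lit 368) (nat_lit 286) (nat_lit 126)) (XT.nd (nat_lit 78) (nat_lit 152) (nat_lit 0) (XT.lf (nat_lit 0) (nat_lit 8027460176) (nat_lit 228) (nat_lit 6491871769) (nat_lit 76) (nat_lit 30322833343) (nat_lit 25) (nat_lit 5) (nat_lit 28) (nat_lit 5) (nat_lit 26) (nat_lit 5) (nat_lit 369) (nat_lit 286) (nat_lit 125)) (XT.lf (nat_lit 0) (nat_lit 6886795229) (nat_lit 152) (nat_lit 6463085624) (nat_lit 228) (nat_lit 32577835647) (nat_lit 23) (nat_lit 5) (nat_lit 25) (nat_lit 5) (nat_lit 26) (nat_lit 5) (nat_lit 370) (nat_lit 286) (nat_lit 124))))))))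
noncomputable def xc182 : XT := (XT.nd (nat_lit 34398) (nat_lit 0) (nat_lit 7980) (XT.nd (nat_lit 858) (nat_lit 152) (nat_lit 0) (XT.nd (nat_lit 390) (nat_lit 304) (nat_lit 0) (XT.nd (nat_lit 156) (nat_lit 152) (nat_lit 0) (XT.nd (nat_lit 78) (nat_lit 0) (nat_lit 0) (XT.lf (nat_lit 0) (nat_lit 18911684425) (nat_lit 228) (nat_lit 26268944742) (nat_lit 76) (nat_lit 1862818622) (nat_lit 23) (nat_lit 5) (nat_lit 26) (nat_lit 5) (nat_lit 24) (nat_lit 5) (nat_lit 371) (nat_lit 286) (nat_lit 123)) (XT.lf (nat_lit 0) (nat_lit 24700321747) (nat_lit 228) (nat_lit 13184294673) (nat_lit 76) (nat_lit 10306239922) (nat_lit 23) (nat_lit 5) (nat_lit 26) (nat_lit 5) (nat_lit 24) (nat_lit 5) (nat_lit 372) (nat_lit 286) (nat_lit 122))) (XT.nd (nat_lit 78) (nat_lit 0) (nat_lit 0) (XT.lf (nat_lit 0) (nat_lit 292292948) (nat_lit 152) (nat_lit 30369240467) (nat_lit 228) (nat_lit 18711190851) (nat_lit 21) (nat_lit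 5) (nat_lit 23) (nat_lit 5) (nat_lit 24) (nat_lit 5) (nat_lit 373) (nat_lit 286) (nat_lit 121)) (XT.nd (nat_lit 78) (nat_lit 0) (nat_lit 0) (XT.lf (nat_lit 0) (nat_lit 14437199494) (nat_lit 152) (nat_lit 22493676405) (nat_lit 228) (nat_lit 13655297936) (nat_lit 21) (nat_lit 5) (nat_lit 23) (nat_lit 5) (nat_lit 24) (nat_lit 5) (nat_lit 374) (nat_lit 286) (nat_lit 120)) (XT.lf (nat_lit 0) (nat_lit 29000391277) (nat_lit 152) (nat_lit 14384178198) (nat_lit 228) (nat_lit 8451573604) (nat_lit 21) (nat_lit 5) (nat_lit 23) (nat_lit 5) (nat_lit 24) (nat_lit 5) (nat_lit 375) (nat_lit 286) (nat_lit 119))))) (XT.nd (nat_lit 234) (nat_lit 152) (nat_lit 0) (XT.nd (nat_lit 78) (nat_lit 152) (nat_lit 0) (XT.lf (nat_lit 0) (nat_lit 43994593416) (nat_lit 152) (nat_lit 6033659876) (nat_lit 228) (nat_lit 3095470911) (nat_lit 21) (nat_lit 5) (nat_lit 23) (nat_lit 5) (nat_lit 24) (nat_lit 5) (nat_lit 376) (nat_lit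 286) (nat_lit 118)) (XT.nd (nat_lit 78) (nat_lit 0) (nat_lit 0) (XT.lf (nat_lit 0) (nat_lit 2444505720) (nat_lit 152) (nat_lit 49414924607) (nat_lit 76) (nat_lit 2587694941) (nat_lit 19) (nat_lit 5) (nat_lit 21) (nat_lit 5) (nat_lit 20) (nat_lit 5) (nat_lit 377) (nat_lit 286) (nat_lit 117)) (XT.lf (nat_lit 0) (nat_lit 8237777124) (nat_lit 152) (nat_lit 36099072154) (nat_lit 76) (nat_lit 11467984129) (nat_lit 19) (nat_lit 5) (nat_lit 21) (nat_lit 5) (nat_lit 20) (nat_lit 5) (nat_lit 378) (nat_lit 286) (nat_lit 116)))) (XT.nd (nat_lit 78) (nat_lit 152) (nat_lit 0) (XT.lf (nat_lit 0) (nat_lit 14201422506) (nat_lit 152) (nat_lit 22389394124) (nat_lit 76) (nat_lit 20612562604) (nat_lit 19) (nat_lit 5) (nat_lit 21) (nat_lit 5) (nat_lit 20) (nat_lit 5) (nat_lit 379) (nat_lit 286) (nat_lit 115)) (XT.nd (nat_lit 78) (nat_lit 152) (nat_lit 0) (XT.lf (nat_lit 0) (nat_lit 20340652819) (nat_lit 152) (nat_lit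 8273911186) (nat_lit 76) (nat_lit 30029420776) (nat_lit 19) (nat_lit 5) (nat_lit 21) (nat_lit 5) (nat_lit 20) (nat_lit 5) (nat_lit 380) (nat_lit 286) (nat_lit 114)) (XT.lf (nat_lit 0) (nat_lit 6384291091) (nat_lit 152) (nat_lit 20337911057) (nat_lit 228) (nat_lit 33403865587) (nat_lit 17) (nat_lit 5) (nat_lit 19) (nat_lit 5) (nat_lit 20) (nat_lit 5) (nat_lit 381) (nat_lit 286) (nat_lit 113)))))) (XT.nd (nat_lit 390) (nat_lit 76) (nat_lit 0) (XT.nd (nat_lit 156) (nat_lit 76) (nat_lit 0) (XT.nd (nat_lit 78) (nat_lit 0) (nat_lit 0) (XT.lf (nat_lit 0) (nat_lit 21646573055) (nat_lit 152) (nat_lit 11728990895) (nat_lit 228) (nat_lit 28274641652) (nat_lit 17) (nat_lit 5) (nat_lit 19) (nat_lit 5) (nat_lit 20) (nat_lit 5) (nat_lit 382) (nat_lit 286) (nat_lit 112)) (XT.lf (nat_lit 0) (nat_lit 37361603622) (nat_lit 152) (nat_lit 2863831444) (nat_lit 228) (nat_lit 22994728590) (nat_lit 17) (nat_lit 5) (nat_lit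 19) (nat_lit 5) (nat_lit 20) (nat_lit 5) (nat_lit 383) (nat_lit 286) (nat_lit 111))) (XT.nd (nat_lit 78) (nat_lit 76) (nat_lit 0) (XT.lf (nat_lit 0) (nat_lit 47338026846) (nat_lit 228) (nat_lit 11354425357) (nat_lit 76) (nat_lit 6143054720) (nat_lit 17) (nat_lit 5) (nat_lit 20) (nat_lit 5) (nat_lit 18) (nat_lit 4) (nat_lit 384) (nat_lit 286) (nat_lit 110)) (XT.nd (nat_lit 78) (nat_lit 0) (nat_lit 0) (XT.lf (nat_lit 0) (nat_lit 3622263895) (nat_lit 76) (nat_lit 51101974215) (nat_lit 152) (nat_lit 11773268241) (nat_lit 16) (nat_lit 5) (nat_lit 17) (nat_lit 5) (nat_lit 18) (nat_lit 4) (nat_lit 385) (nat_lit 286) (nat_lit 109)) (XT.lf (nat_lit 0) (nat_lit 19276158321) (nat_lit 76) (nat_lit 43167641160) (nat_lit 152) (nat_lit 5762216390) (nat_lit 16) (nat_lit 5) (nat_lit 17) (nat_lit 5) (nat_lit 18) (nat_lit 4) (nat_lit 386) (nat_lit 286) (nat_lit 108))))) (XT.nd (nat_lit 32916) (nat_lit 0) (nat_lit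 11476) (XT.nd (nat_lit 78) (nat_lit 0) (nat_lit 0) (XT.lf (nat_lit 0) (nat_lit 417952345) (nat_lit 152) (nat_lit 34575004716) (nat_lit 76) (nat_lit 34972787908) (nat_lit 15) (nat_lit 5) (nat_lit 17) (nat_lit 5) (nat_lit 16) (nat_lit 5) (nat_lit 387) (nat_lit 286) (nat_lit 107)) (XT.nd (nat_lit 32760) (nat_lit 0) (nat_lit 12464) (XT.lf (nat_lit 0) (nat_lit 6664953945) (nat_lit 152) (nat_lit 19851187264) (nat_lit 76) (nat_lit 45260498669) (nat_lit 15) (nat_lit 5) (nat_lit 17) (nat_lit 5) (nat_lit 16) (nat_lit 5) (nat_lit 388) (nat_lit 286) (nat_lit 106)) (XT.lf (nat_lit 0) (nat_lit 4497329767) (nat_lit 988) (nat_lit 165090992) (nat_lit 988) (nat_lit 165090992) (nat_lit 179) (nat_lit 3) (nat_lit 192) (nat_lit 3) (nat_lit 192) (nat_lit 5) (nat_lit 287) (nat_lit 287) (nat_lit 206)))) (XT.nd (nat_lit 78) (nat_lit 0) (nat_lit 0) (XT.lf (nat_lit 0) (nat_lit 70877163) (nat_lit 988) (nat_lit 5977665701)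 (nat_lit 1064) (nat_lit 3727879219) (nat_lit 166) (nat_lit 5) (nat_lit 179) (nat_lit 3) (nat_lit 180) (nat_lit 5) (nat_lit 288) (nat_lit 287) (nat_lit 205)) (XT.nd (nat_lit 78) (nat_lit 0) (nat_lit 76) (XT.lf (nat_lit 0) (nat_lit 787038943) (nat_lit 988) (nat_lit 1864241173) (nat_lit 1064) (nat_lit 7250768065) (nat_lit 166) (nat_lit 5) (nat_lit 179) (nat_lit 3) (nat_lit 180) (nat_lit 5) (nat_lit 289) (nat_lit 287) (nat_lit 204)) (XT.lf (nat_lit 0) (nat_lit 1529981271) (nat_lit 988) (nat_lit 7634792199) (nat_lit 1064) (nat_lit 866578093) (nat_lit 167) (nat_lit 5) (nat_lit 180) (nat_lit 5) (nat_lit 181) (nat_lit 5) (nat_lit 290) (nat_lit 287) (nat_lit 203))))))) (XT.nd (nat_lit 858) (nat_lit 2812) (nat_lit 0) (XT.nd (nat_lit 390) (nat_lit 760) (nat_lit 0) (XT.nd (nat_lit 156) (nat_lit 0) (nat_lit 76) (XT.nd (nat_lit 78) (nat_lit 0) (nat_lit 0) (XT.lf (nat_lit 0) (nat_lit 2314895291) (nat_lit 988)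 (nat_lit 3382027641) (nat_lit 1064) (nat_lit 4467086020) (nat_lit 167) (nat_lit 5) (nat_lit 180) (nat_lit 5) (nat_lit 181) (nat_lit 5) (nat_lit 291) (nat_lit 287) (nat_lit 202)) (XT.lf (nat_lit 76) (nat_lit 1003314938) (nat_lit 0) (nat_lit 2104852829) (nat_lit 1064) (nat_lit 7192997467) (nat_lit 168) (nat_lit 5) (nat_lit 167) (nat_lit 5) (nat_lit 181) (nat_lit 5) (nat_lit 292) (nat_lit 287) (nat_lit 201))) (XT.nd (nat_lit 78) (nat_lit 0) (nat_lit 0) (XT.lf (nat_lit 0) (nat_lit 3950905665) (nat_lit 988) (nat_lit 4882859300) (nat_lit 1064) (nat_lit 1607962879) (nat_lit 168) (nat_lit 5) (nat_lit 181) (nat_lit 5) (nat_lit 182) (nat_lit 5) (nat_lit 293) (nat_lit 287) (nat_lit 200)) (XT.nd (nat_lit 78) (nat_lit 0) (nat_lit 0) (XT.lf (nat_lit 0) (nat_lit 4816314702) (nat_lit 988) (nat_lit 371136020) (nat_lit 1064) (nat_lit 5399194796) (nat_lit 168) (nat_lit 5) (nat_lit 181) (nat_lit 5) (nat_lit 182)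 (nat_lit 5) (nat_lit 294) (nat_lit 287) (nat_lit 199)) (XT.lf (nat_lit 76) (nat_lit 4346307062) (nat_lit 0) (nat_lit 1380390229) (nat_lit 1064) (nat_lit 5008701210) (nat_lit 169) (nat_lit 5) (nat_lit 168) (nat_lit 5) (nat_lit 182) (nat_lit 5) (nat_lit 295) (nat_lit 287) (nat_lit 198))))) (XT.nd (nat_lit 234) (nat_lit 912) (nat_lit 0) (XT.nd (nat_lit 78) (nat_lit 0) (nat_lit 0) (XT.lf (nat_lit 0) (nat_lit 6670434632) (nat_lit 988) (nat_lit 1715184309) (nat_lit 1064) (nat_lit 2502870255) (nat_lit 169) (nat_lit 5) (nat_lit 182) (nat_lit 5) (nat_lit 183) (nat_lit 5) (nat_lit 296) (nat_lit 287) (nat_lit 197)) (XT.nd (nat_lit 78) (nat_lit 0) (nat_lit 0) (XT.lf (nat_lit 76) (nat_lit 3131721433) (nat_lit 0) (nat_lit 4533013434) (nat_lit 1064) (nat_lit 3380825001) (nat_lit 170) (nat_lit 5) (nat_lit 169) (nat_lit 5) (nat_lit 183) (nat_lit 5) (nat_lit 297) (nat_lit 287) (nat_lit 196)) (XT.lf (nat_lit 76)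 (nat_lit 8144675161) (nat_lit 0) (nat_lit 540475716) (nat_lit 1064) (nat_lit 2522356364) (nat_lit 170) (nat_lit 5) (nat_lit 169) (nat_lit 5) (nat_lit 183) (nat_lit 5) (nat_lit 298) (nat_lit 287) (nat_lit 195)))) (XT.nd (nat_lit 78) (nat_lit 988) (nat_lit 0) (XT.lf (nat_lit 76) (nat_lit 1922055030) (nat_lit 0) (nat_lit 7846575184) (nat_lit 1064) (nat_lit 1604760930) (nat_lit 171) (nat_lit 5) (nat_lit 170) (nat_lit 5) (nat_lit 184) (nat_lit 5) (nat_lit 299) (nat_lit 287) (nat_lit 194)) (XT.nd (nat_lit 78) (nat_lit 988) (nat_lit 0) (XT.lf (nat_lit 76) (nat_lit 7099140410) (nat_lit 0) (nat_lit 3801793017) (nat_lit 1064) (nat_lit 642878682) (nat_lit 171) (nat_lit 5) (nat_lit 170) (nat_lit 5) (nat_lit 184) (nat_lit 5) (nat_lit 300) (nat_lit 287) (nat_lit 193)) (XT.lf (nat_lit 0) (nat_lit 331960038) (nat_lit 1064) (nat_lit 11015345955) (nat_lit 1140) (nat_lit 372260007) (nat_lit 157) (nat_lit 5) (nat_lit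 171) (nat_lit 5) (nat_lit 172) (nat_lit 5) (nat_lit 301) (nat_lit 287) (nat_lit 192)))))) (XT.nd (nat_lit 468) (nat_lit 1824) (nat_lit 0) (XT.nd (nat_lit 234) (nat_lit 988) (nat_lit 0) (XT.nd (nat_lit 78) (nat_lit 0) (nat_lit 0) (XT.lf (nat_lit 0) (nat_lit 1386998252) (nat_lit 1064) (nat_lit 5860212192) (nat_lit 1140) (nat_lit 4651320720) (nat_lit 157) (nat_lit 5) (nat_lit 171) (nat_lit 5) (nat_lit 172) (nat_lit 5) (nat_lit 302) (nat_lit 287) (nat_lit 191)) (XT.nd (nat_lit 78) (nat_lit 0) (nat_lit 76) (XT.lf (nat_lit 0) (nat_lit 2455150906) (nat_lit 1064) (nat_lit 565186631) (nat_lit 1140) (nat_lit 9063128387) (nat_lit 157) (nat_lit 5) (nat_lit 171) (nat_lit 5) (nat_lit 172) (nat_lit 5) (nat_lit 303) (nat_lit 287) (nat_lit 190)) (XT.lf (nat_lit 0) (nat_lit 3598464421) (nat_lit 1064) (nat_lit 7315056790) (nat_lit 76) (nat_lit 1359177271) (nat_lit 158) (nat_lit 5) (nat_lit 172) (nat_lit 5) (nat_lit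 159) (nat_lit 5) (nat_lit 304) (nat_lit 287) (nat_lit 189)))) (XT.nd (nat_lit 78) (nat_lit 1064) (nat_lit 0) (XT.lf (nat_lit 0) (nat_lit 4794169263) (nat_lit 1064) (nat_lit 1854451839) (nat_lit 76) (nat_lit 5818486139) (nat_lit 158) (nat_lit 5) (nat_lit 172) (nat_lit 5) (nat_lit 159) (nat_lit 5) (nat_lit 305) (nat_lit 287) (nat_lit 188)) (XT.nd (nat_lit 78) (nat_lit 0) (nat_lit 0) (XT.lf (nat_lit 0) (nat_lit 3830351287) (nat_lit 1064) (nat_lit 2215149377) (nat_lit 1140) (nat_lit 6621295700) (nat_lit 144) (nat_lit 5) (nat_lit 158) (nat_lit 5) (nat_lit 159) (nat_lit 5) (nat_lit 306) (nat_lit 287) (nat_lit 187)) (XT.lf (nat_lit 0) (nat_lit 7359206009) (nat_lit 1140) (nat_lit 3185776854) (nat_lit 76) (nat_lit 2326787848) (nat_lit 144) (nat_lit 5) (nat_lit 159) (nat_lit 5) (nat_lit 145) (nat_lit 5) (nat_lit 307) (nat_lit 287) (nat_lit 186))))) (XT.nd (nat_lit 234) (nat_lit 608) (nat_lit 0) (XT.nd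 (nat_lit 78) (nat_lit 532) (nat_lit 0) (XT.lf (nat_lit 0) (nat_lit 2649830039) (nat_lit 684) (nat_lit 6093702140) (nat_lit 760) (nat_lit 4338464241) (nat_lit 135) (nat_lit 5) (nat_lit 144) (nat_lit 5) (nat_lit 145) (nat_lit 5) (nat_lit 308) (nat_lit 287) (nat_lit 185)) (XT.nd (nat_lit 78) (nat_lit 532) (nat_lit 0) (XT.lf (nat_lit 0) (nat_lit 8711594265) (nat_lit 684) (nat_lit 1474104700) (nat_lit 760) (nat_lit 3112377913) (nat_lit 135) (nat_lit 5) (nat_lit 144) (nat_lit 5) (nat_lit 145) (nat_lit 5) (nat_lit 309) (nat_lit 287) (nat_lit 184)) (XT.lf (nat_lit 0) (nat_lit 1416325094) (nat_lit 532) (nat_lit 10284606821) (nat_lit 608) (nat_lit 1818850016) (nat_lit 128) (nat_lit 5) (nat_lit 135) (nat_lit 5) (nat_lit 136) (nat_lit 5) (nat_lit 310) (nat_lit 287) (nat_lit 183)))) (XT.nd (nat_lit 78) (nat_lit 608) (nat_lit 0) (XT.lf (nat_lit 0) (nat_lit 7664174629) (nat_lit 532) (nat_lit 5643143456) (nat_lit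 608) (nat_lit 439484323) (nat_lit 128) (nat_lit 5) (nat_lit 135) (nat_lit 5) (nat_lit 136) (nat_lit 5) (nat_lit 311) (nat_lit 287) (nat_lit 182)) (XT.nd (nat_lit 78) (nat_lit 0) (nat_lit 0) (XT.lf (nat_lit 0) (nat_lit 97200133) (nat_lit 532) (nat_lit 851038939) (nat_lit 608) (nat_lit 13032560853) (nat_lit 120) (nat_lit 5) (nat_lit 127) (nat_lit 5) (nat_lit 128) (nat_lit 5) (nat_lit 312) (nat_lit 287) (nat_lit 181)) (XT.lf (nat_lit 0) (nat_lit 2455550569) (nat_lit 608) (nat_lit 7691514292) (nat_lit 76) (nat_lit 4072050456) (nat_lit 120) (nat_lit 5) (nat_lit 128) (nat_lit 5) (nat_lit 121) (nat_lit 5) (nat_lit 313) (nat_lit 287) (nat_lit 180))))))))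
noncomputable def xc183 : XT := (XT.nd (nat_lit 1794) (nat_lit 2432) (nat_lit 0) (XT.nd (nat_lit 858) (nat_lit 1824) (nat_lit 0) (XT.nd (nat_lit 390) (nat_lit 1368) (nat_lit 0) (XT.nd (nat_lit 156) (nat_lit 456) (nat_lit 0) (XT.nd (nat_lit 78) (nat_lit 456) (nat_lit 0) (XT.lf (nat_lit 0) (nat_lit 4002423041) (nat_lit 608) (nat_lit 1336097251) (nat_lit 76) (nat_lit 9126260871) (nat_lit 120) (nat_lit 5) (nat_lit 128) (nat_lit 5) (nat_lit 121) (nat_lit 5) (nat_lit 314) (nat_lit 287) (nat_lit 179)) (XT.lf (nat_lit 0) (nat_lit 5299803571) (nat_lit 456) (nat_lit 333168800) (nat_lit 532) (nat_lit 9083756821) (nat_lit 114) (nat_lit 5) (nat_lit 120) (nat_lit 5) (nat_lit 121) (nat_lit 5) (nat_lit 315) (nat_lit 287) (nat_lit 178))) (XT.nd (nat_lit 78) (nat_lit 456) (nat_lit 0) (XT.lf (nat_lit 0) (nat_lit 7359013070) (nat_lit 532) (nat_lit 2874044430) (nat_lit 76) (nat_lit 4741810362) (nat_lit 114) (nat_lit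 5) (nat_lit 121) (nat_lit 5) (nat_lit 115) (nat_lit 5) (nat_lit 316) (nat_lit 287) (nat_lit 177)) (XT.nd (nat_lit 78) (nat_lit 0) (nat_lit 0) (XT.lf (nat_lit 0) (nat_lit 3924923866) (nat_lit 456) (nat_lit 5239923087) (nat_lit 532) (nat_lit 6075091968) (nat_lit 108) (nat_lit 5) (nat_lit 114) (nat_lit 5) (nat_lit 115) (nat_lit 5) (nat_lit 317) (nat_lit 287) (nat_lit 176)) (XT.lf (nat_lit 0) (nat_lit 10973418529) (nat_lit 456) (nat_lit 67694720) (nat_lit 532) (nat_lit 4471388898) (nat_lit 108) (nat_lit 5) (nat_lit 114) (nat_lit 5) (nat_lit 115) (nat_lit 5) (nat_lit 318) (nat_lit 287) (nat_lit 175))))) (XT.nd (nat_lit 234) (nat_lit 380) (nat_lit 0) (XT.nd (nat_lit 78) (nat_lit 532) (nat_lit 0) (XT.lf (nat_lit 0) (nat_lit 2423495510) (nat_lit 456) (nat_lit 10611629045) (nat_lit 532) (nat_lit 2756300952) (nat_lit 102) (nat_lit 5) (nat_lit 108) (nat_lit 5) (nat_lit 109) (nat_lit 5) (nat_lit 319) (nat_lit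 287) (nat_lit 174)) (XT.nd (nat_lit 78) (nat_lit 532) (nat_lit 0) (XT.lf (nat_lit 0) (nat_lit 9674084275) (nat_lit 456) (nat_lit 5449206822) (nat_lit 532) (nat_lit 954421585) (nat_lit 102) (nat_lit 5) (nat_lit 108) (nat_lit 5) (nat_lit 109) (nat_lit 5) (nat_lit 320) (nat_lit 287) (nat_lit 173)) (XT.lf (nat_lit 0) (nat_lit 762711485) (nat_lit 456) (nat_lit 116590387) (nat_lit 532) (nat_lit 15493189901) (nat_lit 95) (nat_lit 5) (nat_lit 101) (nat_lit 5) (nat_lit 102) (nat_lit 5) (nat_lit 321) (nat_lit 287) (nat_lit 172)))) (XT.nd (nat_lit 78) (nat_lit 380) (nat_lit 0) (XT.lf (nat_lit 0) (nat_lit 2854095059) (nat_lit 532) (nat_lit 8473975392) (nat_lit 76) (nat_lit 5344627006) (nat_lit 95) (nat_lit 5) (nat_lit 102) (nat_lit 5) (nat_lit 96) (nat_lit 5) (nat_lit 322) (nat_lit 287) (nat_lit 171)) (XT.nd (nat_lit 78) (nat_lit 380) (nat_lit 0) (XT.lf (nat_lit 0) (nat_lit 4877887547) (nat_lit 532) (nat_lit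 1138205426) (nat_lit 76) (nat_lit 10966146920) (nat_lit 95) (nat_lit 5) (nat_lit 102) (nat_lit 5) (nat_lit 96) (nat_lit 5) (nat_lit 323) (nat_lit 287) (nat_lit 170)) (XT.lf (nat_lit 0) (nat_lit 6532533502) (nat_lit 380) (nat_lit 481588167) (nat_lit 456) (nat_lit 10285417665) (nat_lit 90) (nat_lit 5) (nat_lit 95) (nat_lit 5) (nat_lit 96) (nat_lit 5) (nat_lit 324) (nat_lit 287) (nat_lit 169)))))) (XT.nd (nat_lit 468) (nat_lit 988) (nat_lit 0) (XT.nd (nat_lit 234) (nat_lit 456) (nat_lit 0) (XT.nd (nat_lit 78) (nat_lit 380) (nat_lit 0) (XT.lf (nat_lit 0) (nat_lit 9265338502) (nat_lit 456) (nat_lit 3232354452) (nat_lit 76) (nat_lit 5127159845) (nat_lit 90) (nat_lit 5) (nat_lit 96) (nat_lit 5) (nat_lit 91) (nat_lit 5) (nat_lit 325) (nat_lit 287) (nat_lit 168)) (XT.nd (nat_lit 78) (nat_lit 0) (nat_lit 0) (XT.lf (nat_lit 0) (nat_lit 4600934865) (nat_lit 380) (nat_lit 7021589541) (nat_lit 456) (nat_lit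 6336269557) (nat_lit 85) (nat_lit 5) (nat_lit 90) (nat_lit 5) (nat_lit 91) (nat_lit 5) (nat_lit 326) (nat_lit 287) (nat_lit 167)) (XT.lf (nat_lit 0) (nat_lit 12723190453) (nat_lit 380) (nat_lit 1349502729) (nat_lit 456) (nat_lit 4229412814) (nat_lit 85) (nat_lit 5) (nat_lit 90) (nat_lit 5) (nat_lit 91) (nat_lit 5) (nat_lit 327) (nat_lit 287) (nat_lit 166)))) (XT.nd (nat_lit 78) (nat_lit 76) (nat_lit 0) (XT.lf (nat_lit 0) (nat_lit 2425296820) (nat_lit 380) (nat_lit 14227481738) (nat_lit 456) (nat_lit 2001266538) (nat_lit 80) (nat_lit 5) (nat_lit 85) (nat_lit 5) (nat_lit 86) (nat_lit 5) (nat_lit 328) (nat_lit 287) (nat_lit 165)) (XT.nd (nat_lit 78) (nat_lit 0) (nat_lit 0) (XT.lf (nat_lit 0) (nat_lit 348219023) (nat_lit 456) (nat_lit 8259934330) (nat_lit 76) (nat_lit 10406516417) (nat_lit 79) (nat_lit 5) (nat_lit 85) (nat_lit 5) (nat_lit 80) (nat_lit 5) (nat_lit 329) (nat_lit 287) (nat_lit 164))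 (XT.lf (nat_lit 0) (nat_lit 2718228985) (nat_lit 456) (nat_lit 83848396) (nat_lit 76) (nat_lit 16583751819) (nat_lit 79) (nat_lit 5) (nat_lit 85) (nat_lit 5) (nat_lit 80) (nat_lit 5) (nat_lit 330) (nat_lit 287) (nat_lit 163))))) (XT.nd (nat_lit 234) (nat_lit 304) (nat_lit 0) (XT.nd (nat_lit 78) (nat_lit 304) (nat_lit 0) (XT.lf (nat_lit 0) (nat_lit 5262850415) (nat_lit 456) (nat_lit 11305721281) (nat_lit 76) (nat_lit 3196464197) (nat_lit 74) (nat_lit 5) (nat_lit 80) (nat_lit 5) (nat_lit 75) (nat_lit 5) (nat_lit 331) (nat_lit 287) (nat_lit 162)) (XT.nd (nat_lit 78) (nat_lit 304) (nat_lit 0) (XT.lf (nat_lit 0) (nat_lit 7903099059) (nat_lit 456) (nat_lit 2934643363) (nat_lit 76) (nat_lit 9317315005) (nat_lit 74) (nat_lit 5) (nat_lit 80) (nat_lit 5) (nat_lit 75) (nat_lit 5) (nat_lit 332) (nat_lit 287) (nat_lit 161)) (XT.lf (nat_lit 0) (nat_lit 5789086633) (nat_lit 304) (nat_lit 4880078073) (nat_lit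 380) (nat_lit 9886233407) (nat_lit 70) (nat_lit 5) (nat_lit 74) (nat_lit 5) (nat_lit 75) (nat_lit 5) (nat_lit 333) (nat_lit 287) (nat_lit 160)))) (XT.nd (nat_lit 78) (nat_lit 304) (nat_lit 0) (XT.lf (nat_lit 0) (nat_lit 13551308425) (nat_lit 380) (nat_lit 6156137302) (nat_lit 76) (nat_lit 1259326713) (nat_lit 70) (nat_lit 5) (nat_lit 75) (nat_lit 5) (nat_lit 71) (nat_lit 5) (nat_lit 334) (nat_lit 287) (nat_lit 159)) (XT.nd (nat_lit 78) (nat_lit 0) (nat_lit 0) (XT.lf (nat_lit 0) (nat_lit 2705564205) (nat_lit 304) (nat_lit 13880028916) (nat_lit 380) (nat_lit 4802940404) (nat_lit 66) (nat_lit 5) (nat_lit 70) (nat_lit 5) (nat_lit 71) (nat_lit 5) (nat_lit 335) (nat_lit 287) (nat_lit 158)) (XT.lf (nat_lit 0) (nat_lit 11948166293) (nat_lit 304) (nat_lit 7816401268) (nat_lit 380) (nat_lit 2056785413) (nat_lit 66) (nat_lit 5) (nat_lit 70) (nat_lit 5) (nat_lit 71) (nat_lit 5) (nat_lit 336) (nat_lit 287)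 (nat_lit 157))))))) (XT.nd (nat_lit 858) (nat_lit 1140) (nat_lit 0) (XT.nd (nat_lit 390) (nat_lit 608) (nat_lit 0) (XT.nd (nat_lit 156) (nat_lit 304) (nat_lit 0) (XT.nd (nat_lit 78) (nat_lit 304) (nat_lit 0) (XT.lf (nat_lit 0) (nat_lit 748342117) (nat_lit 380) (nat_lit 817530479) (nat_lit 76) (nat_lit 20701326913) (nat_lit 65) (nat_lit 5) (nat_lit 70) (nat_lit 5) (nat_lit 66) (nat_lit 5) (nat_lit 337) (nat_lit 287) (nat_lit 156)) (XT.lf (nat_lit 0) (nat_lit 3719134218) (nat_lit 380) (nat_lit 14123914282) (nat_lit 76) (nat_lit 4879090574) (nat_lit 61) (nat_lit 5) (nat_lit 66) (nat_lit 5) (nat_lit 62) (nat_lit 5) (nat_lit 338) (nat_lit 287) (nat_lit 155))) (XT.nd (nat_lit 78) (nat_lit 304) (nat_lit 0) (XT.lf (nat_lit 0) (nat_lit 6794891348) (nat_lit 380) (nat_lit 4903657375) (nat_lit 76) (nat_lit 11491716519) (nat_lit 61) (nat_lit 5) (nat_lit 66) (nat_lit 5) (nat_lit 62) (nat_lit 5) (nat_lit 339)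 (nat_lit 287) (nat_lit 154)) (XT.nd (nat_lit 78) (nat_lit 0) (nat_lit 0) (XT.lf (nat_lit 0) (nat_lit 4673922908) (nat_lit 304) (nat_lit 5326160272) (nat_lit 380) (nat_lit 13671250411) (nat_lit 57) (nat_lit 5) (nat_lit 61) (nat_lit 5) (nat_lit 62) (nat_lit 5) (nat_lit 340) (nat_lit 287) (nat_lit 153)) (XT.lf (nat_lit 0) (nat_lit 13355666363) (nat_lit 380) (nat_lit 9548984858) (nat_lit 76) (nat_lit 1260568572) (nat_lit 57) (nat_lit 5) (nat_lit 62) (nat_lit 5) (nat_lit 58) (nat_lit 5) (nat_lit 341) (nat_lit 287) (nat_lit 152))))) (XT.nd (nat_lit 234) (nat_lit 380) (nat_lit 0) (XT.nd (nat_lit 78) (nat_lit 0) (nat_lit 0) (XT.lf (nat_lit 0) (nat_lit 122251611) (nat_lit 228) (nat_lit 16736131501) (nat_lit 304) (nat_lit 7814157984) (nat_lit 54) (nat_lit 5) (nat_lit 57) (nat_lit 5) (nat_lit 58) (nat_lit 5) (nat_lit 342) (nat_lit 287) (nat_lit 151)) (XT.nd (nat_lit 78) (nat_lit 0) (nat_lit 0) (XT.lf (nat_lit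 0) (nat_lit 10269177481) (nat_lit 228) (nat_lit 10286105380) (nat_lit 304) (nat_lit 4637138261) (nat_lit 54) (nat_lit 5) (nat_lit 57) (nat_lit 5) (nat_lit 58) (nat_lit 5) (nat_lit 343) (nat_lit 287) (nat_lit 150)) (XT.lf (nat_lit 0) (nat_lit 20710615475) (nat_lit 228) (nat_lit 3645362939) (nat_lit 304) (nat_lit 1372144251) (nat_lit 54) (nat_lit 5) (nat_lit 57) (nat_lit 5) (nat_lit 58) (nat_lit 5) (nat_lit 344) (nat_lit 287) (nat_lit 149)))) (XT.nd (nat_lit 78) (nat_lit 0) (nat_lit 0) (XT.lf (nat_lit 0) (nat_lit 2026894072) (nat_lit 380) (nat_lit 21050265302) (nat_lit 76) (nat_lit 3199924614) (nat_lit 49) (nat_lit 5) (nat_lit 54) (nat_lit 5) (nat_lit 50) (nat_lit 5) (nat_lit 345) (nat_lit 287) (nat_lit 148)) (XT.nd (nat_lit 78) (nat_lit 0) (nat_lit 0) (XT.lf (nat_lit 0) (nat_lit 5580686232) (nat_lit 380) (nat_lit 11019697786) (nat_lit 76) (nat_lit 10239322500) (nat_lit 49) (nat_lit 5) (nat_lit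 54) (nat_lit 5) (nat_lit 50) (nat_lit 5) (nat_lit 346) (nat_lit 287) (nat_lit 147)) (XT.lf (nat_lit 0) (nat_lit 9234393212) (nat_lit 380) (nat_lit 697778315) (nat_lit 76) (nat_lit 17487247629) (nat_lit 49) (nat_lit 5) (nat_lit 54) (nat_lit 5) (nat_lit 50) (nat_lit 5) (nat_lit 347) (nat_lit 287) (nat_lit 146)))))) (XT.nd (nat_lit 468) (nat_lit 380) (nat_lit 0) (XT.nd (nat_lit 234) (nat_lit 304) (nat_lit 0) (XT.nd (nat_lit 78) (nat_lit 228) (nat_lit 0) (XT.lf (nat_lit 0) (nat_lit 10122029516) (nat_lit 228) (nat_lit 2966477195) (nat_lit 304) (nat_lit 14925302764) (nat_lit 46) (nat_lit 5) (nat_lit 49) (nat_lit 5) (nat_lit 50) (nat_lit 5) (nat_lit 348) (nat_lit 287) (nat_lit 145)) (XT.nd (nat_lit 78) (nat_lit 228) (nat_lit 0) (XT.lf (nat_lit 0) (nat_lit 17099381616) (nat_lit 304) (nat_lit 7394976741) (nat_lit 76) (nat_lit 4130448871) (nat_lit 46) (nat_lit 5) (nat_lit 50) (nat_lit 5) (nat_lit 47)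 (nat_lit 5) (nat_lit 349) (nat_lit 287) (nat_lit 144)) (XT.lf (nat_lit 0) (nat_lit 3445495941) (nat_lit 228) (nat_lit 17841335738) (nat_lit 304) (nat_lit 7965625343) (nat_lit 43) (nat_lit 5) (nat_lit 46) (nat_lit 5) (nat_lit 47) (nat_lit 5) (nat_lit 350) (nat_lit 287) (nat_lit 143)))) (XT.nd (nat_lit 78) (nat_lit 304) (nat_lit 0) (XT.lf (nat_lit 0) (nat_lit 14753764162) (nat_lit 228) (nat_lit 10914668706) (nat_lit 304) (nat_lit 4228456911) (nat_lit 43) (nat_lit 5) (nat_lit 46) (nat_lit 5) (nat_lit 47) (nat_lit 5) (nat_lit 351) (nat_lit 287) (nat_lit 142)) (XT.nd (nat_lit 78) (nat_lit 304) (nat_lit 0) (XT.lf (nat_lit 0) (nat_lit 26392534396) (nat_lit 228) (nat_lit 3782979599) (nat_lit 304) (nat_lit 385329594) (nat_lit 43) (nat_lit 5) (nat_lit 46) (nat_lit 5) (nat_lit 47) (nat_lit 5) (nat_lit 352) (nat_lit 287) (nat_lit 141)) (XT.lf (nat_lit 0) (nat_lit 3602293093) (nat_lit 304) (nat_lit 24043083396)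 (nat_lit 76) (nat_lit 3595349868) (nat_lit 39) (nat_lit 5) (nat_lit 43) (nat_lit 5) (nat_lit 40) (nat_lit 5) (nat_lit 353) (nat_lit 287) (nat_lit 140))))) (XT.nd (nat_lit 234) (nat_lit 152) (nat_lit 0) (XT.nd (nat_lit 78) (nat_lit 228) (nat_lit 0) (XT.lf (nat_lit 0) (nat_lit 7775965367) (nat_lit 304) (nat_lit 13000096892) (nat_lit 76) (nat_lit 11162612186) (nat_lit 39) (nat_lit 5) (nat_lit 43) (nat_lit 5) (nat_lit 40) (nat_lit 5) (nat_lit 354) (nat_lit 287) (nat_lit 139)) (XT.nd (nat_lit 78) (nat_lit 228) (nat_lit 0) (XT.lf (nat_lit 0) (nat_lit 12069218590) (nat_lit 304) (nat_lit 1634254610) (nat_lit 76) (nat_lit 18954264672) (nat_lit 39) (nat_lit 5) (nat_lit 43) (nat_lit 5) (nat_lit 40) (nat_lit 5) (nat_lit 355) (nat_lit 287) (nat_lit 138)) (XT.lf (nat_lit 0) (nat_lit 10264675558) (nat_lit 228) (nat_lit 6319798932) (nat_lit 304) (nat_lit 16811110347) (nat_lit 36) (nat_lit 5) (nat_lit 39) (nat_lit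 5) (nat_lit 40) (nat_lit 5) (nat_lit 356) (nat_lit 287) (nat_lit 137)))) (XT.nd (nat_lit 78) (nat_lit 152) (nat_lit 0) (XT.lf (nat_lit 0) (nat_lit 21258799941) (nat_lit 304) (nat_lit 11621767978) (nat_lit 76) (nat_lit 1274298496) (nat_lit 36) (nat_lit 5) (nat_lit 40) (nat_lit 5) (nat_lit 37) (nat_lit 5) (nat_lit 357) (nat_lit 287) (nat_lit 136)) (XT.nd (nat_lit 78) (nat_lit 0) (nat_lit 0) (XT.lf (nat_lit 0) (nat_lit 165290224) (nat_lit 152) (nat_lit 25966973446) (nat_lit 228) (nat_lit 8802902853) (nat_lit 34) (nat_lit 5) (nat_lit 36) (nat_lit 5) (nat_lit 37) (nat_lit 5) (nat_lit 358) (nat_lit 287) (nat_lit 135)) (XT.lf (nat_lit 0) (nat_lit 12536263077) (nat_lit 152) (nat_lit 18727849424) (nat_lit 228) (nat_lit 4471404825) (nat_lit 34) (nat_lit 5) (nat_lit 36) (nat_lit 5) (nat_lit 37) (nat_lit 5) (nat_lit 359) (nat_lit 287) (nat_lit 134))))))))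
noncomputable def xc184 : XT := (XT.nd (nat_lit 1716) (nat_lit 304) (nat_lit 0) (XT.nd (nat_lit 858) (nat_lit 456) (nat_lit 0) (XT.nd (nat_lit 390) (nat_lit 228) (nat_lit 0) (XT.nd (nat_lit 156) (nat_lit 152) (nat_lit 0) (XT.nd (nat_lit 78) (nat_lit 304) (nat_lit 0) (XT.lf (nat_lit 0) (nat_lit 25270664199) (nat_lit 152) (nat_lit 11274227473) (nat_lit 228) (nat_lit 15144653) (nat_lit 34) (nat_lit 5) (nat_lit 36) (nat_lit 5) (nat_lit 37) (nat_lit 5) (nat_lit 360) (nat_lit 287) (nat_lit 133)) (XT.lf (nat_lit 0) (nat_lit 944683500) (nat_lit 228) (nat_lit 3544996155) (nat_lit 304) (nat_lit 32918174069) (nat_lit 30) (nat_lit 5) (nat_lit 33) (nat_lit 5) (nat_lit 34) (nat_lit 5) (nat_lit 361) (nat_lit 287) (nat_lit 132))) (XT.nd (nat_lit 78) (nat_lit 152) (nat_lit 0) (XT.lf (nat_lit 0) (nat_lit 9282036373) (nat_lit 304) (nat_lit 24551866583) (nat_lit 76) (nat_lit 4442623760) (nat_lit 30) (nat_lit 5)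 (nat_lit 34) (nat_lit 5) (nat_lit 31) (nat_lit 5) (nat_lit 362) (nat_lit 287) (nat_lit 131)) (XT.nd (nat_lit 78) (nat_lit 152) (nat_lit 0) (XT.lf (nat_lit 0) (nat_lit 14248517578) (nat_lit 304) (nat_lit 12325734234) (nat_lit 76) (nat_lit 12596103618) (nat_lit 30) (nat_lit 5) (nat_lit 34) (nat_lit 5) (nat_lit 31) (nat_lit 5) (nat_lit 363) (nat_lit 287) (nat_lit 130)) (XT.lf (nat_lit 0) (nat_lit 265160762) (nat_lit 152) (nat_lit 19096774369) (nat_lit 228) (nat_lit 20729131587) (nat_lit 28) (nat_lit 5) (nat_lit 30) (nat_lit 5) (nat_lit 31) (nat_lit 5) (nat_lit 364) (nat_lit 287) (nat_lit 129))))) (XT.nd (nat_lit 234) (nat_lit 228) (nat_lit 0) (XT.nd (nat_lit 78) (nat_lit 0) (nat_lit 0) (XT.lf (nat_lit 0) (nat_lit 13479323058) (nat_lit 152) (nat_lit 11269356618) (nat_lit 228) (nat_lit 16287127727) (nat_lit 28) (nat_lit 5) (nat_lit 30) (nat_lit 5) (nat_lit 31) (nat_lit 5) (nat_lit 365) (nat_lit 287)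 (nat_lit 128)) (XT.nd (nat_lit 78) (nat_lit 0) (nat_lit 0) (XT.lf (nat_lit 0) (nat_lit 27082992729) (nat_lit 152) (nat_lit 3209624817) (nat_lit 228) (nat_lit 11716410659) (nat_lit 28) (nat_lit 5) (nat_lit 30) (nat_lit 5) (nat_lit 31) (nat_lit 5) (nat_lit 366) (nat_lit 287) (nat_lit 127)) (XT.lf (nat_lit 0) (nat_lit 36047515996) (nat_lit 228) (nat_lit 1972446071) (nat_lit 76) (nat_lit 4990149752) (nat_lit 28) (nat_lit 5) (nat_lit 31) (nat_lit 5) (nat_lit 29) (nat_lit 5) (nat_lit 367) (nat_lit 287) (nat_lit 126)))) (XT.nd (nat_lit 78) (nat_lit 76) (nat_lit 0) (XT.lf (nat_lit 0) (nat_lit 11556860882) (nat_lit 152) (nat_lit 30556891951) (nat_lit 228) (nat_lit 1923319668) (nat_lit 26) (nat_lit 5) (nat_lit 28) (nat_lit 5) (nat_lit 29) (nat_lit 5) (nat_lit 368) (nat_lit 287) (nat_lit 125)) (XT.nd (nat_lit 78) (nat_lit 0) (nat_lit 0) (XT.lf (nat_lit 0) (nat_lit 3219330387) (nat_lit 228) (nat_lit 19600017700)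 (nat_lit 76) (nat_lit 22274078267) (nat_lit 25) (nat_lit 5) (nat_lit 28) (nat_lit 5) (nat_lit 26) (nat_lit 5) (nat_lit 369) (nat_lit 287) (nat_lit 124)) (XT.lf (nat_lit 0) (nat_lit 8473558598) (nat_lit 228) (nat_lit 6358917609) (nat_lit 76) (nat_lit 31348549522) (nat_lit 25) (nat_lit 5) (nat_lit 28) (nat_lit 5) (nat_lit 26) (nat_lit 5) (nat_lit 370) (nat_lit 287) (nat_lit 123)))))) (XT.nd (nat_lit 390) (nat_lit 152) (nat_lit 0) (XT.nd (nat_lit 156) (nat_lit 152) (nat_lit 0) (XT.nd (nat_lit 78) (nat_lit 0) (nat_lit 0) (XT.lf (nat_lit 0) (nat_lit 7417896553) (nat_lit 152) (nat_lit 6534895738) (nat_lit 228) (nat_lit 33346444146) (nat_lit 23) (nat_lit 5) (nat_lit 25) (nat_lit 5) (nat_lit 26) (nat_lit 5) (nat_lit 371) (nat_lit 287) (nat_lit 122)) (XT.lf (nat_lit 0) (nat_lit 19676693739) (nat_lit 228) (nat_lit 26736978626) (nat_lit 76) (nat_lit 2034916954) (nat_lit 23) (nat_lit 5) (nat_lit 26) (nat_lit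 5) (nat_lit 24) (nat_lit 5) (nat_lit 372) (nat_lit 287) (nat_lit 121))) (XT.nd (nat_lit 78) (nat_lit 152) (nat_lit 0) (XT.lf (nat_lit 0) (nat_lit 25633233128) (nat_lit 228) (nat_lit 13269110446) (nat_lit 76) (nat_lit 10728256025) (nat_lit 23) (nat_lit 5) (nat_lit 26) (nat_lit 5) (nat_lit 24) (nat_lit 5) (nat_lit 373) (nat_lit 287) (nat_lit 120)) (XT.nd (nat_lit 78) (nat_lit 0) (nat_lit 0) (XT.lf (nat_lit 0) (nat_lit 608728597) (nat_lit 152) (nat_lit 31161920661) (nat_lit 228) (nat_lit 19077359825) (nat_lit 21) (nat_lit 5) (nat_lit 23) (nat_lit 5) (nat_lit 24) (nat_lit 5) (nat_lit 374) (nat_lit 287) (nat_lit 119)) (XT.lf (nat_lit 0) (nat_lit 15169021169) (nat_lit 152) (nat_lit 23053538134) (nat_lit 228) (nat_lit 13875474591) (nat_lit 21) (nat_lit 5) (nat_lit 23) (nat_lit 5) (nat_lit 24) (nat_lit 5) (nat_lit 375) (nat_lit 287) (nat_lit 118))))) (XT.nd (nat_lit 234) (nat_lit 0) (nat_lit 0) (XT.nd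 (nat_lit 78) (nat_lit 152) (nat_lit 0) (XT.lf (nat_lit 0) (nat_lit 30160408540) (nat_lit 152) (nat_lit 14704102997) (nat_lit 228) (nat_lit 8521157431) (nat_lit 21) (nat_lit 5) (nat_lit 23) (nat_lit 5) (nat_lit 24) (nat_lit 5) (nat_lit 376) (nat_lit 287) (nat_lit 117)) (XT.nd (nat_lit 78) (nat_lit 152) (nat_lit 0) (XT.lf (nat_lit 0) (nat_lit 45595989980) (nat_lit 152) (nat_lit 6106319626) (nat_lit 228) (nat_lit 3009729814) (nat_lit 21) (nat_lit 5) (nat_lit 23) (nat_lit 5) (nat_lit 24) (nat_lit 5) (nat_lit 377) (nat_lit 287) (nat_lit 116)) (XT.lf (nat_lit 0) (nat_lit 2691629884) (nat_lit 152) (nat_lit 50610614182) (nat_lit 76) (nat_lit 2772892537) (nat_lit 19) (nat_lit 5) (nat_lit 21) (nat_lit 5) (nat_lit 20) (nat_lit 5) (nat_lit 378) (nat_lit 287) (nat_lit 115)))) (XT.nd (nat_lit 78) (nat_lit 0) (nat_lit 0) (XT.lf (nat_lit 0) (nat_lit 8653637615) (nat_lit 152) (nat_lit 36903638336) (nat_lit 76)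 (nat_lit 11916457388) (nat_lit 19) (nat_lit 5) (nat_lit 21) (nat_lit 5) (nat_lit 20) (nat_lit 5) (nat_lit 379) (nat_lit 287) (nat_lit 114)) (XT.nd (nat_lit 78) (nat_lit 0) (nat_lit 0) (XT.lf (nat_lit 0) (nat_lit 14791277975) (nat_lit 152) (nat_lit 22790778877) (nat_lit 76) (nat_lit 21332331459) (nat_lit 19) (nat_lit 5) (nat_lit 21) (nat_lit 5) (nat_lit 20) (nat_lit 5) (nat_lit 380) (nat_lit 287) (nat_lit 113)) (XT.lf (nat_lit 0) (nat_lit 21109913950) (nat_lit 152) (nat_lit 8259704181) (nat_lit 76) (nat_lit 31028742212) (nat_lit 19) (nat_lit 5) (nat_lit 21) (nat_lit 5) (nat_lit 20) (nat_lit 5) (nat_lit 381) (nat_lit 287) (nat_lit 112))))))) (XT.nd (nat_lit 33618) (nat_lit 0) (nat_lit 10716) (XT.nd (nat_lit 390) (nat_lit 76) (nat_lit 0) (XT.nd (nat_lit 156) (nat_lit 76) (nat_lit 0) (XT.nd (nat_lit 78) (nat_lit 0) (nat_lit 0) (XT.lf (nat_lit 0) (nat_lit 6835671377) (nat_lit 152) (nat_lit 20845103956)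 (nat_lit 228) (nat_lit 34244199516) (nat_lit 17) (nat_lit 5) (nat_lit 19) (nat_lit 5) (nat_lit 20) (nat_lit 5) (nat_lit 382) (nat_lit 287) (nat_lit 111)) (XT.lf (nat_lit 0) (nat_lit 22548253307) (nat_lit 152) (nat_lit 11980914572) (nat_lit 228) (nat_lit 28965810961) (nat_lit 17) (nat_lit 5) (nat_lit 19) (nat_lit 5) (nat_lit 20) (nat_lit 5) (nat_lit 383) (nat_lit 287) (nat_lit 110))) (XT.nd (nat_lit 78) (nat_lit 76) (nat_lit 0) (XT.lf (nat_lit 0) (nat_lit 38727386741) (nat_lit 152) (nat_lit 2852711386) (nat_lit 228) (nat_lit 23532075360) (nat_lit 17) (nat_lit 5) (nat_lit 19) (nat_lit 5) (nat_lit 20) (nat_lit 5) (nat_lit 384) (nat_lit 287) (nat_lit 109)) (XT.nd (nat_lit 78) (nat_lit 76) (nat_lit 0) (XT.lf (nat_lit 0) (nat_lit 48902665486) (nat_lit 228) (nat_lit 11453701488) (nat_lit 76) (nat_lit 6419716748) (nat_lit 17) (nat_lit 5) (nat_lit 20) (nat_lit 5) (nat_lit 18) (nat_lit 4) (nat_lit 385)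 (nat_lit 287) (nat_lit 108)) (XT.lf (nat_lit 0) (nat_lit 3969922200) (nat_lit 76) (nat_lit 52538629535) (nat_lit 152) (nat_lit 11979453209) (nat_lit 16) (nat_lit 5) (nat_lit 17) (nat_lit 5) (nat_lit 18) (nat_lit 4) (nat_lit 386) (nat_lit 287) (nat_lit 107))))) (XT.nd (nat_lit 32994) (nat_lit 0) (nat_lit 11476) (XT.nd (nat_lit 78) (nat_lit 76) (nat_lit 0) (XT.lf (nat_lit 0) (nat_lit 20086472574) (nat_lit 76) (nat_lit 44369074369) (nat_lit 152) (nat_lit 5792351737) (nat_lit 16) (nat_lit 5) (nat_lit 17) (nat_lit 5) (nat_lit 18) (nat_lit 4) (nat_lit 387) (nat_lit 287) (nat_lit 106)) (XT.nd (nat_lit 32838) (nat_lit 0) (nat_lit 11476) (XT.lf (nat_lit 0) (nat_lit 566360766) (nat_lit 152) (nat_lit 35384143059) (nat_lit 76) (nat_lit 36110001038) (nat_lit 15) (nat_lit 5) (nat_lit 17) (nat_lit 5) (nat_lit 16) (nat_lit 5) (nat_lit 388) (nat_lit 287) (nat_lit 105)) (XT.lf (nat_lit 0) (nat_lit 177282183)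 (nat_lit 0) (nat_lit 177282183) (nat_lit 988) (nat_lit 4595469390) (nat_lit 166) (nat_lit 5) (nat_lit 166) (nat_lit 3) (nat_lit 179) (nat_lit 3) (nat_lit 288) (nat_lit 288) (nat_lit 204)))) (XT.nd (nat_lit 78) (nat_lit 0) (nat_lit 0) (XT.lf (nat_lit 0) (nat_lit 1408915978) (nat_lit 988) (nat_lit 5435671439) (nat_lit 1064) (nat_lit 3181630620) (nat_lit 166) (nat_lit 5) (nat_lit 179) (nat_lit 3) (nat_lit 180) (nat_lit 5) (nat_lit 289) (nat_lit 288) (nat_lit 203)) (XT.nd (nat_lit 78) (nat_lit 0) (nat_lit 76) (XT.lf (nat_lit 0) (nat_lit 2107652539) (nat_lit 988) (nat_lit 1219853618) (nat_lit 1064) (nat_lit 6829373655) (nat_lit 166) (nat_lit 5) (nat_lit 179) (nat_lit 3) (nat_lit 180) (nat_lit 5) (nat_lit 290) (nat_lit 288) (nat_lit 202)) (XT.lf (nat_lit 0) (nat_lit 2836269554) (nat_lit 988) (nat_lit 7123684543) (nat_lit 1064) (nat_lit 331303297) (nat_lit 167) (nat_lit 5) (nat_lit 180) (nat_lit 5)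 (nat_lit 181) (nat_lit 5) (nat_lit 291) (nat_lit 288) (nat_lit 201)))))) (XT.nd (nat_lit 468) (nat_lit 836) (nat_lit 0) (XT.nd (nat_lit 234) (nat_lit 0) (nat_lit 76) (XT.nd (nat_lit 78) (nat_lit 0) (nat_lit 0) (XT.lf (nat_lit 0) (nat_lit 3608020640) (nat_lit 988) (nat_lit 2764894856) (nat_lit 1064) (nat_lit 4056174194) (nat_lit 167) (nat_lit 5) (nat_lit 180) (nat_lit 5) (nat_lit 181) (nat_lit 5) (nat_lit 292) (nat_lit 288) (nat_lit 200)) (XT.nd (nat_lit 78) (nat_lit 0) (nat_lit 76) (XT.lf (nat_lit 76) (nat_lit 1744962965) (nat_lit 0) (nat_lit 2651327046) (nat_lit 1064) (nat_lit 6175025832) (nat_lit 168) (nat_lit 5) (nat_lit 167) (nat_lit 5) (nat_lit 181) (nat_lit 5) (nat_lit 293) (nat_lit 288) (nat_lit 199)) (XT.lf (nat_lit 0) (nat_lit 5224997067) (nat_lit 988) (nat_lit 4296258692) (nat_lit 1064) (nat_lit 1196107446) (nat_lit 168) (nat_lit 5) (nat_lit 181) (nat_lit 5) (nat_lit 182) (nat_lit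 5) (nat_lit 294) (nat_lit 288) (nat_lit 198)))) (XT.nd (nat_lit 78) (nat_lit 0) (nat_lit 0) (XT.lf (nat_lit 76) (nat_lit 336021239) (nat_lit 0) (nat_lit 5749919967) (nat_lit 1064) (nat_lit 4781685928) (nat_lit 169) (nat_lit 5) (nat_lit 168) (nat_lit 5) (nat_lit 182) (nat_lit 5) (nat_lit 295) (nat_lit 288) (nat_lit 197)) (XT.nd (nat_lit 78) (nat_lit 0) (nat_lit 76) (XT.lf (nat_lit 76) (nat_lit 5181452842) (nat_lit 0) (nat_lit 1813050037) (nat_lit 1064) (nat_lit 4027297205) (nat_lit 169) (nat_lit 5) (nat_lit 168) (nat_lit 5) (nat_lit 182) (nat_lit 5) (nat_lit 296) (nat_lit 288) (nat_lit 196)) (XT.lf (nat_lit 0) (nat_lit 7930978500) (nat_lit 988) (nat_lit 1044137066) (nat_lit 1064) (nat_lit 2205516128) (nat_lit 169) (nat_lit 5) (nat_lit 182) (nat_lit 5) (nat_lit 183) (nat_lit 5) (nat_lit 297) (nat_lit 288) (nat_lit 195))))) (XT.nd (nat_lit 234) (nat_lit 988) (nat_lit 0) (XT.nd (nat_lit 78) (nat_lit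 0) (nat_lit 0) (XT.lf (nat_lit 76) (nat_lit 3941092489) (nat_lit 0) (nat_lit 4990005967) (nat_lit 1064) (nat_lit 2412114927) (nat_lit 170) (nat_lit 5) (nat_lit 169) (nat_lit 5) (nat_lit 183) (nat_lit 5) (nat_lit 298) (nat_lit 288) (nat_lit 194)) (XT.nd (nat_lit 78) (nat_lit 0) (nat_lit 76) (XT.lf (nat_lit 76) (nat_lit 9083597369) (nat_lit 0) (nat_lit 868342541) (nat_lit 1064) (nat_lit 1559061206) (nat_lit 170) (nat_lit 5) (nat_lit 169) (nat_lit 5) (nat_lit 183) (nat_lit 5) (nat_lit 299) (nat_lit 288) (nat_lit 193)) (XT.lf (nat_lit 76) (nat_lit 2702865877) (nat_lit 0) (nat_lit 8339792762) (nat_lit 1064) (nat_lit 640034953) (nat_lit 171) (nat_lit 5) (nat_lit 170) (nat_lit 5) (nat_lit 184) (nat_lit 5) (nat_lit 300) (nat_lit 288) (nat_lit 192)))) (XT.nd (nat_lit 78) (nat_lit 0) (nat_lit 76) (XT.lf (nat_lit 0) (nat_lit 314934906) (nat_lit 1064) (nat_lit 3848042669) (nat_lit 1140) (nat_lit 7696086089)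 (nat_lit 156) (nat_lit 5) (nat_lit 170) (nat_lit 5) (nat_lit 171) (nat_lit 5) (nat_lit 301) (nat_lit 288) (nat_lit 191)) (XT.nd (nat_lit 78) (nat_lit 0) (nat_lit 0) (XT.lf (nat_lit 0) (nat_lit 1282725218) (nat_lit 1064) (nat_lit 10596569360) (nat_lit 1140) (nat_lit 161373629) (nat_lit 157) (nat_lit 5) (nat_lit 171) (nat_lit 5) (nat_lit 172) (nat_lit 5) (nat_lit 302) (nat_lit 288) (nat_lit 190)) (XT.lf (nat_lit 0) (nat_lit 2342012451) (nat_lit 1064) (nat_lit 5308604020) (nat_lit 1140) (nat_lit 4575273760) (nat_lit 157) (nat_lit 5) (nat_lit 171) (nat_lit 5) (nat_lit 172) (nat_lit 5) (nat_lit 303) (nat_lit 288) (nat_lit 189))))))))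
noncomputable def xc185 : XT := (XT.nd (nat_lit 1716) (nat_lit 3116) (nat_lit 0) (XT.nd (nat_lit 858) (nat_lit 2280) (nat_lit 0) (XT.nd (nat_lit 390) (nat_lit 1824) (nat_lit 0) (XT.nd (nat_lit 156) (nat_lit 988) (nat_lit 0) (XT.nd (nat_lit 78) (nat_lit 0) (nat_lit 76) (XT.lf (nat_lit 76) (nat_lit 126555020) (nat_lit 0) (nat_lit 3290267181) (nat_lit 1140) (nat_lit 9000376383) (nat_lit 158) (nat_lit 5) (nat_lit 157) (nat_lit 5) (nat_lit 172) (nat_lit 5) (nat_lit 304) (nat_lit 288) (nat_lit 188)) (XT.lf (nat_lit 0) (nat_lit 4572492940) (nat_lit 1064) (nat_lit 6805486376) (nat_lit 76) (nat_lit 1234849130) (nat_lit 158) (nat_lit 5) (nat_lit 172) (nat_lit 5) (nat_lit 159) (nat_lit 5) (nat_lit 305) (nat_lit 288) (nat_lit 187))) (XT.nd (nat_lit 78) (nat_lit 1064) (nat_lit 0) (XT.lf (nat_lit 0) (nat_lit 5778843454) (nat_lit 1064) (nat_lit 1202296931) (nat_lit 76) (nat_lit 5832746103) (nat_lit 158) (nat_lit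 5) (nat_lit 172) (nat_lit 5) (nat_lit 159) (nat_lit 5) (nat_lit 306) (nat_lit 288) (nat_lit 186)) (XT.nd (nat_lit 78) (nat_lit 0) (nat_lit 0) (XT.lf (nat_lit 0) (nat_lit 4646111187) (nat_lit 1064) (nat_lit 2403849852) (nat_lit 1140) (nat_lit 5970196357) (nat_lit 144) (nat_lit 5) (nat_lit 158) (nat_lit 5) (nat_lit 159) (nat_lit 5) (nat_lit 307) (nat_lit 288) (nat_lit 185)) (XT.lf (nat_lit 0) (nat_lit 8377963016) (nat_lit 1140) (nat_lit 2573906156) (nat_lit 76) (nat_lit 2280222033) (nat_lit 144) (nat_lit 5) (nat_lit 159) (nat_lit 5) (nat_lit 145) (nat_lit 5) (nat_lit 308) (nat_lit 288) (nat_lit 184))))) (XT.nd (nat_lit 234) (nat_lit 608) (nat_lit 0) (XT.nd (nat_lit 78) (nat_lit 532) (nat_lit 0) (XT.lf (nat_lit 0) (nat_lit 3429833218) (nat_lit 684) (nat_lit 6357477308) (nat_lit 760) (nat_lit 3661863556) (nat_lit 135) (nat_lit 5) (nat_lit 144) (nat_lit 5) (nat_lit 145) (nat_lit 5) (nat_lit 309)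 (nat_lit 288) (nat_lit 183)) (XT.nd (nat_lit 78) (nat_lit 532) (nat_lit 0) (XT.lf (nat_lit 0) (nat_lit 9653047217) (nat_lit 684) (nat_lit 1596933766) (nat_lit 760) (nat_lit 2422492345) (nat_lit 135) (nat_lit 5) (nat_lit 144) (nat_lit 5) (nat_lit 145) (nat_lit 5) (nat_lit 310) (nat_lit 288) (nat_lit 182)) (XT.lf (nat_lit 0) (nat_lit 2157305685) (nat_lit 532) (nat_lit 10637247578) (nat_lit 608) (nat_lit 1106811776) (nat_lit 128) (nat_lit 5) (nat_lit 135) (nat_lit 5) (nat_lit 136) (nat_lit 5) (nat_lit 311) (nat_lit 288) (nat_lit 181)))) (XT.nd (nat_lit 78) (nat_lit 532) (nat_lit 0) (XT.lf (nat_lit 0) (nat_lit 285916327) (nat_lit 608) (nat_lit 5566452250) (nat_lit 76) (nat_lit 8283442791) (nat_lit 127) (nat_lit 5) (nat_lit 135) (nat_lit 5) (nat_lit 128) (nat_lit 5) (nat_lit 312) (nat_lit 288) (nat_lit 180)) (XT.nd (nat_lit 78) (nat_lit 0) (nat_lit 0) (XT.lf (nat_lit 0) (nat_lit 787612277) (nat_lit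 532) (nat_lit 904179669) (nat_lit 608) (nat_lit 12685393279) (nat_lit 120) (nat_lit 5) (nat_lit 127) (nat_lit 5) (nat_lit 128) (nat_lit 5) (nat_lit 313) (nat_lit 288) (nat_lit 179)) (XT.lf (nat_lit 0) (nat_lit 3223236797) (nat_lit 608) (nat_lit 7232162402) (nat_lit 76) (nat_lit 4167929640) (nat_lit 120) (nat_lit 5) (nat_lit 128) (nat_lit 5) (nat_lit 121) (nat_lit 5) (nat_lit 314) (nat_lit 288) (nat_lit 178)))))) (XT.nd (nat_lit 390) (nat_lit 1368) (nat_lit 0) (XT.nd (nat_lit 156) (nat_lit 456) (nat_lit 0) (XT.nd (nat_lit 78) (nat_lit 456) (nat_lit 0) (XT.lf (nat_lit 0) (nat_lit 4796301277) (nat_lit 608) (nat_lit 706182772) (nat_lit 76) (nat_lit 9374531871) (nat_lit 120) (nat_lit 5) (nat_lit 128) (nat_lit 5) (nat_lit 121) (nat_lit 5) (nat_lit 315) (nat_lit 288) (nat_lit 177)) (XT.lf (nat_lit 0) (nat_lit 6122226473) (nat_lit 456) (nat_lit 340292493) (nat_lit 532) (nat_lit 8674444397) (nat_lit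 114) (nat_lit 5) (nat_lit 120) (nat_lit 5) (nat_lit 121) (nat_lit 5) (nat_lit 316) (nat_lit 288) (nat_lit 176))) (XT.nd (nat_lit 78) (nat_lit 456) (nat_lit 0) (XT.lf (nat_lit 0) (nat_lit 8221128146) (nat_lit 532) (nat_lit 2295538678) (nat_lit 76) (nat_lit 4886798013) (nat_lit 114) (nat_lit 5) (nat_lit 121) (nat_lit 5) (nat_lit 115) (nat_lit 5) (nat_lit 317) (nat_lit 288) (nat_lit 175)) (XT.nd (nat_lit 78) (nat_lit 0) (nat_lit 0) (XT.lf (nat_lit 0) (nat_lit 4700881735) (nat_lit 456) (nat_lit 5367902487) (nat_lit 532) (nat_lit 5608115421) (nat_lit 108) (nat_lit 5) (nat_lit 114) (nat_lit 5) (nat_lit 115) (nat_lit 5) (nat_lit 318) (nat_lit 288) (nat_lit 174)) (XT.lf (nat_lit 0) (nat_lit 11941660068) (nat_lit 456) (nat_lit 41358288) (nat_lit 532) (nat_lit 3975210850) (nat_lit 108) (nat_lit 5) (nat_lit 114) (nat_lit 5) (nat_lit 115) (nat_lit 5) (nat_lit 319) (nat_lit 288) (nat_lit 173))))) (XT.nd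 (nat_lit 234) (nat_lit 380) (nat_lit 0) (XT.nd (nat_lit 78) (nat_lit 532) (nat_lit 0) (XT.lf (nat_lit 0) (nat_lit 3148159638) (nat_lit 456) (nat_lit 10877435580) (nat_lit 532) (nat_lit 2220301366) (nat_lit 102) (nat_lit 5) (nat_lit 108) (nat_lit 5) (nat_lit 109) (nat_lit 5) (nat_lit 320) (nat_lit 288) (nat_lit 172)) (XT.nd (nat_lit 78) (nat_lit 532) (nat_lit 0) (XT.lf (nat_lit 0) (nat_lit 10597276961) (nat_lit 456) (nat_lit 5561671051) (nat_lit 532) (nat_lit 382385676) (nat_lit 102) (nat_lit 5) (nat_lit 108) (nat_lit 5) (nat_lit 109) (nat_lit 5) (nat_lit 321) (nat_lit 288) (nat_lit 171)) (XT.lf (nat_lit 0) (nat_lit 1425166952) (nat_lit 456) (nat_lit 58455497) (nat_lit 532) (nat_lit 15361526050) (nat_lit 95) (nat_lit 5) (nat_lit 101) (nat_lit 5) (nat_lit 102) (nat_lit 5) (nat_lit 322) (nat_lit 288) (nat_lit 170)))) (XT.nd (nat_lit 78) (nat_lit 380) (nat_lit 0) (XT.lf (nat_lit 0) (nat_lit 3501401378)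 (nat_lit 532) (nat_lit 8089845432) (nat_lit 76) (nat_lit 5563635649) (nat_lit 95) (nat_lit 5) (nat_lit 102) (nat_lit 5) (nat_lit 96) (nat_lit 5) (nat_lit 323) (nat_lit 288) (nat_lit 169)) (XT.nd (nat_lit 78) (nat_lit 380) (nat_lit 0) (XT.lf (nat_lit 0) (nat_lit 5569547929) (nat_lit 532) (nat_lit 552595062) (nat_lit 76) (nat_lit 11352092330) (nat_lit 95) (nat_lit 5) (nat_lit 102) (nat_lit 5) (nat_lit 96) (nat_lit 5) (nat_lit 324) (nat_lit 288) (nat_lit 168)) (XT.lf (nat_lit 0) (nat_lit 7342189990) (nat_lit 380) (nat_lit 417694941) (nat_lit 456) (nat_lit 10041500729) (nat_lit 90) (nat_lit 5) (nat_lit 95) (nat_lit 5) (nat_lit 96) (nat_lit 5) (nat_lit 325) (nat_lit 288) (nat_lit 167))))))) (XT.nd (nat_lit 858) (nat_lit 1292) (nat_lit 0) (XT.nd (nat_lit 390) (nat_lit 988) (nat_lit 0) (XT.nd (nat_lit 156) (nat_lit 456) (nat_lit 0) (XT.nd (nat_lit 78) (nat_lit 380) (nat_lit 0) (XT.lf (nat_lit 0) (nat_lit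 10063776979) (nat_lit 456) (nat_lit 2717609283) (nat_lit 76) (nat_lit 5355549551) (nat_lit 90) (nat_lit 5) (nat_lit 96) (nat_lit 5) (nat_lit 91) (nat_lit 5) (nat_lit 326) (nat_lit 288) (nat_lit 166)) (XT.lf (nat_lit 0) (nat_lit 5344681500) (nat_lit 380) (nat_lit 7137659935) (nat_lit 456) (nat_lit 5998864419) (nat_lit 85) (nat_lit 5) (nat_lit 90) (nat_lit 5) (nat_lit 91) (nat_lit 5) (nat_lit 327) (nat_lit 288) (nat_lit 165))) (XT.nd (nat_lit 78) (nat_lit 456) (nat_lit 0) (XT.lf (nat_lit 0) (nat_lit 13692962466) (nat_lit 380) (nat_lit 1298165197) (nat_lit 456) (nat_lit 3844165854) (nat_lit 85) (nat_lit 5) (nat_lit 90) (nat_lit 5) (nat_lit 91) (nat_lit 5) (nat_lit 328) (nat_lit 288) (nat_lit 164)) (XT.nd (nat_lit 78) (nat_lit 76) (nat_lit 0) (XT.lf (nat_lit 0) (nat_lit 3095212585) (nat_lit 380) (nat_lit 14545546210) (nat_lit 456) (nat_lit 1557296478) (nat_lit 80) (nat_lit 5) (nat_lit 85) (nat_lit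 5) (nat_lit 86) (nat_lit 5) (nat_lit 329) (nat_lit 288) (nat_lit 163)) (XT.lf (nat_lit 0) (nat_lit 838445247) (nat_lit 456) (nat_lit 7917515659) (nat_lit 76) (nat_lit 10813851364) (nat_lit 79) (nat_lit 5) (nat_lit 85) (nat_lit 5) (nat_lit 80) (nat_lit 5) (nat_lit 330) (nat_lit 288) (nat_lit 162))))) (XT.nd (nat_lit 234) (nat_lit 608) (nat_lit 0) (XT.nd (nat_lit 78) (nat_lit 0) (nat_lit 0) (XT.lf (nat_lit 0) (nat_lit 496347604) (nat_lit 380) (nat_lit 2774004936) (nat_lit 456) (nat_lit 16682056368) (nat_lit 74) (nat_lit 5) (nat_lit 79) (nat_lit 5) (nat_lit 80) (nat_lit 5) (nat_lit 331) (nat_lit 288) (nat_lit 161)) (XT.nd (nat_lit 78) (nat_lit 0) (nat_lit 0) (XT.lf (nat_lit 0) (nat_lit 5879483191) (nat_lit 456) (nat_lit 11063956472) (nat_lit 76) (nat_lit 3399932591) (nat_lit 74) (nat_lit 5) (nat_lit 80) (nat_lit 5) (nat_lit 75) (nat_lit 5) (nat_lit 332) (nat_lit 288) (nat_lit 160)) (XT.lf (nat_lit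 0) (nat_lit 8585577723) (nat_lit 456) (nat_lit 2458666695) (nat_lit 76) (nat_lit 9701275686) (nat_lit 74) (nat_lit 5) (nat_lit 80) (nat_lit 5) (nat_lit 75) (nat_lit 5) (nat_lit 333) (nat_lit 288) (nat_lit 159)))) (XT.nd (nat_lit 78) (nat_lit 304) (nat_lit 0) (XT.lf (nat_lit 0) (nat_lit 6521245632) (nat_lit 304) (nat_lit 4905775822) (nat_lit 380) (nat_lit 9731101775) (nat_lit 70) (nat_lit 5) (nat_lit 74) (nat_lit 5) (nat_lit 75) (nat_lit 5) (nat_lit 334) (nat_lit 288) (nat_lit 158)) (XT.nd (nat_lit 78) (nat_lit 304) (nat_lit 0) (XT.lf (nat_lit 0) (nat_lit 14384005049) (nat_lit 380) (nat_lit 5786197206) (nat_lit 76) (nat_lit 1412008662) (nat_lit 70) (nat_lit 5) (nat_lit 75) (nat_lit 5) (nat_lit 71) (nat_lit 5) (nat_lit 335) (nat_lit 288) (nat_lit 157)) (XT.lf (nat_lit 0) (nat_lit 3335917854) (nat_lit 304) (nat_lit 14166267201) (nat_lit 380) (nat_lit 4514676496) (nat_lit 66) (nat_lit 5) (nat_lit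 70) (nat_lit 5) (nat_lit 71) (nat_lit 5) (nat_lit 336) (nat_lit 288) (nat_lit 156)))))) (XT.nd (nat_lit 468) (nat_lit 608) (nat_lit 0) (XT.nd (nat_lit 234) (nat_lit 304) (nat_lit 0) (XT.nd (nat_lit 78) (nat_lit 380) (nat_lit 0) (XT.lf (nat_lit 0) (nat_lit 12839802275) (nat_lit 304) (nat_lit 7924521867) (nat_lit 380) (nat_lit 1698729635) (nat_lit 66) (nat_lit 5) (nat_lit 70) (nat_lit 5) (nat_lit 71) (nat_lit 5) (nat_lit 337) (nat_lit 288) (nat_lit 155)) (XT.nd (nat_lit 78) (nat_lit 304) (nat_lit 0) (XT.lf (nat_lit 0) (nat_lit 1170373277) (nat_lit 380) (nat_lit 315749795) (nat_lit 76) (nat_lit 21436411999) (nat_lit 65) (nat_lit 5) (nat_lit 70) (nat_lit 5) (nat_lit 66) (nat_lit 5) (nat_lit 338) (nat_lit 288) (nat_lit 154)) (XT.lf (nat_lit 0) (nat_lit 4224892728) (nat_lit 380) (nat_lit 14015255886) (nat_lit 76) (nat_lit 5151156285) (nat_lit 61) (nat_lit 5) (nat_lit 66) (nat_lit 5) (nat_lit 62) (nat_lit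 5) (nat_lit 339) (nat_lit 288) (nat_lit 153)))) (XT.nd (nat_lit 78) (nat_lit 304) (nat_lit 0) (XT.lf (nat_lit 0) (nat_lit 7381441470) (nat_lit 380) (nat_lit 4533897364) (nat_lit 76) (nat_lit 11958500047) (nat_lit 61) (nat_lit 5) (nat_lit 66) (nat_lit 5) (nat_lit 62) (nat_lit 5) (nat_lit 340) (nat_lit 288) (nat_lit 152)) (XT.nd (nat_lit 78) (nat_lit 0) (nat_lit 0) (XT.lf (nat_lit 0) (nat_lit 5325942978) (nat_lit 304) (nat_lit 5350619138) (nat_lit 380) (nat_lit 13692983000) (nat_lit 57) (nat_lit 5) (nat_lit 61) (nat_lit 5) (nat_lit 62) (nat_lit 5) (nat_lit 341) (nat_lit 288) (nat_lit 151)) (XT.lf (nat_lit 0) (nat_lit 14123110407) (nat_lit 380) (nat_lit 9328240783) (nat_lit 76) (nat_lit 1427206257) (nat_lit 57) (nat_lit 5) (nat_lit 62) (nat_lit 5) (nat_lit 58) (nat_lit 5) (nat_lit 342) (nat_lit 288) (nat_lit 150))))) (XT.nd (nat_lit 234) (nat_lit 380) (nat_lit 0) (XT.nd (nat_lit 78) (nat_lit 0)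 (nat_lit 0) (XT.lf (nat_lit 0) (nat_lit 628160098) (nat_lit 228) (nat_lit 17096893668) (nat_lit 304) (nat_lit 7676238202) (nat_lit 54) (nat_lit 5) (nat_lit 57) (nat_lit 5) (nat_lit 58) (nat_lit 5) (nat_lit 343) (nat_lit 288) (nat_lit 149)) (XT.nd (nat_lit 78) (nat_lit 0) (nat_lit 0) (XT.lf (nat_lit 0) (nat_lit 11064865368) (nat_lit 228) (nat_lit 10457482933) (nat_lit 304) (nat_lit 4414752874) (nat_lit 54) (nat_lit 5) (nat_lit 57) (nat_lit 5) (nat_lit 58) (nat_lit 5) (nat_lit 344) (nat_lit 288) (nat_lit 148)) (XT.lf (nat_lit 0) (nat_lit 21805344194) (nat_lit 228) (nat_lit 3621514498) (nat_lit 304) (nat_lit 1062338156) (nat_lit 54) (nat_lit 5) (nat_lit 57) (nat_lit 5) (nat_lit 58) (nat_lit 5) (nat_lit 345) (nat_lit 288) (nat_lit 147)))) (XT.nd (nat_lit 78) (nat_lit 0) (nat_lit 0) (XT.lf (nat_lit 0) (nat_lit 2427697083) (nat_lit 380) (nat_lit 21196310589) (nat_lit 76) (nat_lit 3430657825) (nat_lit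 49) (nat_lit 5) (nat_lit 54) (nat_lit 5) (nat_lit 50) (nat_lit 5) (nat_lit 346) (nat_lit 288) (nat_lit 146)) (XT.nd (nat_lit 78) (nat_lit 0) (nat_lit 0) (XT.lf (nat_lit 0) (nat_lit 6078200206) (nat_lit 380) (nat_lit 10878965738) (nat_lit 76) (nat_lit 10677313313) (nat_lit 49) (nat_lit 5) (nat_lit 54) (nat_lit 5) (nat_lit 50) (nat_lit 5) (nat_lit 347) (nat_lit 288) (nat_lit 145)) (XT.lf (nat_lit 0) (nat_lit 9831904025) (nat_lit 380) (nat_lit 261116537) (nat_lit 76) (nat_lit 18138866164) (nat_lit 49) (nat_lit 5) (nat_lit 54) (nat_lit 5) (nat_lit 50) (nat_lit 5) (nat_lit 348) (nat_lit 288) (nat_lit 144))))))))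
noncomputable def xc186 : XT := (XT.nd (nat_lit 1716) (nat_lit 684) (nat_lit 0) (XT.nd (nat_lit 858) (nat_lit 684) (nat_lit 0) (XT.nd (nat_lit 390) (nat_lit 684) (nat_lit 0) (XT.nd (nat_lit 156) (nat_lit 228) (nat_lit 0) (XT.nd (nat_lit 78) (nat_lit 0) (nat_lit 0) (XT.lf (nat_lit 0) (nat_lit 10878799303) (nat_lit 228) (nat_lit 2917862846) (nat_lit 304) (nat_lit 15047610550) (nat_lit 46) (nat_lit 5) (nat_lit 49) (nat_lit 5) (nat_lit 50) (nat_lit 5) (nat_lit 349) (nat_lit 288) (nat_lit 143)) (XT.lf (nat_lit 0) (nat_lit 17919958224) (nat_lit 304) (nat_lit 7168537515) (nat_lit 76) (nat_lit 4385355953) (nat_lit 46) (nat_lit 5) (nat_lit 50) (nat_lit 5) (nat_lit 47) (nat_lit 5) (nat_lit 350) (nat_lit 288) (nat_lit 142))) (XT.nd (nat_lit 78) (nat_lit 0) (nat_lit 0) (XT.lf (nat_lit 0) (nat_lit 3992754361) (nat_lit 228) (nat_lit 18235585322) (nat_lit 304) (nat_lit 7892145805) (nat_lit 43) (nat_lit 5)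 (nat_lit 46) (nat_lit 5) (nat_lit 47) (nat_lit 5) (nat_lit 351) (nat_lit 288) (nat_lit 141)) (XT.nd (nat_lit 78) (nat_lit 0) (nat_lit 0) (XT.lf (nat_lit 0) (nat_lit 15627341691) (nat_lit 228) (nat_lit 11105224798) (nat_lit 304) (nat_lit 4051962756) (nat_lit 43) (nat_lit 5) (nat_lit 46) (nat_lit 5) (nat_lit 47) (nat_lit 5) (nat_lit 352) (nat_lit 288) (nat_lit 140)) (XT.lf (nat_lit 0) (nat_lit 27602722665) (nat_lit 228) (nat_lit 3763571929) (nat_lit 304) (nat_lit 102376995) (nat_lit 43) (nat_lit 5) (nat_lit 46) (nat_lit 5) (nat_lit 47) (nat_lit 5) (nat_lit 353) (nat_lit 288) (nat_lit 139))))) (XT.nd (nat_lit 234) (nat_lit 380) (nat_lit 0) (XT.nd (nat_lit 78) (nat_lit 0) (nat_lit 0) (XT.lf (nat_lit 0) (nat_lit 3996065530) (nat_lit 304) (nat_lit 24336328480) (nat_lit 76) (nat_lit 3836575966) (nat_lit 39) (nat_lit 5) (nat_lit 43) (nat_lit 5) (nat_lit 40) (nat_lit 5) (nat_lit 354) (nat_lit 288) (nat_lit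 138)) (XT.nd (nat_lit 78) (nat_lit 0) (nat_lit 0) (XT.lf (nat_lit 0) (nat_lit 8286626507) (nat_lit 304) (nat_lit 12974519781) (nat_lit 76) (nat_lit 11626971718) (nat_lit 39) (nat_lit 5) (nat_lit 43) (nat_lit 5) (nat_lit 40) (nat_lit 5) (nat_lit 355) (nat_lit 288) (nat_lit 137)) (XT.lf (nat_lit 0) (nat_lit 12700598235) (nat_lit 304) (nat_lit 1279806503) (nat_lit 76) (nat_lit 19648602483) (nat_lit 39) (nat_lit 5) (nat_lit 43) (nat_lit 5) (nat_lit 40) (nat_lit 5) (nat_lit 356) (nat_lit 288) (nat_lit 136)))) (XT.nd (nat_lit 78) (nat_lit 152) (nat_lit 0) (XT.lf (nat_lit 0) (nat_lit 10972135925) (nat_lit 228) (nat_lit 6375172538) (nat_lit 304) (nat_lit 17041812407) (nat_lit 36) (nat_lit 5) (nat_lit 39) (nat_lit 5) (nat_lit 40) (nat_lit 5) (nat_lit 357) (nat_lit 288) (nat_lit 135)) (XT.nd (nat_lit 78) (nat_lit 152) (nat_lit 0) (XT.lf (nat_lit 0) (nat_lit 22155389130) (nat_lit 304) (nat_lit 11575701207)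 (nat_lit 76) (nat_lit 1440295644) (nat_lit 36) (nat_lit 5) (nat_lit 40) (nat_lit 5) (nat_lit 37) (nat_lit 5) (nat_lit 358) (nat_lit 288) (nat_lit 134)) (XT.lf (nat_lit 0) (nat_lit 561098939) (nat_lit 152) (nat_lit 26610176324) (nat_lit 228) (nat_lit 8803943810) (nat_lit 34) (nat_lit 5) (nat_lit 36) (nat_lit 5) (nat_lit 37) (nat_lit 5) (nat_lit 359) (nat_lit 288) (nat_lit 133)))))) (XT.nd (nat_lit 390) (nat_lit 380) (nat_lit 0) (XT.nd (nat_lit 156) (nat_lit 228) (nat_lit 0) (XT.nd (nat_lit 78) (nat_lit 76) (nat_lit 0) (XT.lf (nat_lit 0) (nat_lit 13291816997) (nat_lit 152) (nat_lit 19157834105) (nat_lit 228) (nat_lit 4350162378) (nat_lit 34) (nat_lit 5) (nat_lit 36) (nat_lit 5) (nat_lit 37) (nat_lit 5) (nat_lit 360) (nat_lit 288) (nat_lit 132)) (XT.lf (nat_lit 0) (nat_lit 227813281) (nat_lit 228) (nat_lit 11254330061) (nat_lit 76) (nat_lit 26167083995) (nat_lit 33) (nat_lit 5) (nat_lit 36) (nat_lit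 5) (nat_lit 34) (nat_lit 5) (nat_lit 361) (nat_lit 288) (nat_lit 131))) (XT.nd (nat_lit 78) (nat_lit 0) (nat_lit 0) (XT.lf (nat_lit 0) (nat_lit 1342934803) (nat_lit 228) (nat_lit 3521018120) (nat_lit 304) (nat_lit 33658636946) (nat_lit 30) (nat_lit 5) (nat_lit 33) (nat_lit 5) (nat_lit 34) (nat_lit 5) (nat_lit 362) (nat_lit 288) (nat_lit 130)) (XT.nd (nat_lit 78) (nat_lit 0) (nat_lit 0) (XT.lf (nat_lit 0) (nat_lit 9794318503) (nat_lit 304) (nat_lit 24923221151) (nat_lit 76) (nat_lit 4699965339) (nat_lit 30) (nat_lit 5) (nat_lit 34) (nat_lit 5) (nat_lit 31) (nat_lit 5) (nat_lit 363) (nat_lit 288) (nat_lit 129)) (XT.lf (nat_lit 0) (nat_lit 14902983823) (nat_lit 304) (nat_lit 12340941767) (nat_lit 76) (nat_lit 13094436112) (nat_lit 30) (nat_lit 5) (nat_lit 34) (nat_lit 5) (nat_lit 31) (nat_lit 5) (nat_lit 364) (nat_lit 288) (nat_lit 128))))) (XT.nd (nat_lit 234) (nat_lit 228) (nat_lit 0) (XT.nd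 (nat_lit 78) (nat_lit 0) (nat_lit 0) (XT.lf (nat_lit 0) (nat_lit 624203957) (nat_lit 152) (nat_lit 19542362859) (nat_lit 228) (nat_lit 21120233189) (nat_lit 28) (nat_lit 5) (nat_lit 30) (nat_lit 5) (nat_lit 31) (nat_lit 5) (nat_lit 365) (nat_lit 288) (nat_lit 127)) (XT.nd (nat_lit 78) (nat_lit 0) (nat_lit 0) (XT.lf (nat_lit 0) (nat_lit 14224565247) (nat_lit 152) (nat_lit 11483830772) (nat_lit 228) (nat_lit 16551690738) (nat_lit 28) (nat_lit 5) (nat_lit 30) (nat_lit 5) (nat_lit 31) (nat_lit 5) (nat_lit 366) (nat_lit 288) (nat_lit 126)) (XT.lf (nat_lit 0) (nat_lit 28226416974) (nat_lit 152) (nat_lit 3185907208) (nat_lit 228) (nat_lit 11850377910) (nat_lit 28) (nat_lit 5) (nat_lit 30) (nat_lit 5) (nat_lit 31) (nat_lit 5) (nat_lit 367) (nat_lit 288) (nat_lit 125)))) (XT.nd (nat_lit 78) (nat_lit 228) (nat_lit 0) (XT.lf (nat_lit 0) (nat_lit 37334846023) (nat_lit 228) (nat_lit 1705039018) (nat_lit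 76) (nat_lit 5254091718) (nat_lit 28) (nat_lit 5) (nat_lit 31) (nat_lit 5) (nat_lit 29) (nat_lit 5) (nat_lit 368) (nat_lit 288) (nat_lit 124)) (XT.nd (nat_lit 78) (nat_lit 76) (nat_lit 0) (XT.lf (nat_lit 0) (nat_lit 12226945375) (nat_lit 152) (nat_lit 31353235884) (nat_lit 228) (nat_lit 1771659274) (nat_lit 26) (nat_lit 5) (nat_lit 28) (nat_lit 5) (nat_lit 29) (nat_lit 5) (nat_lit 369) (nat_lit 288) (nat_lit 123)) (XT.lf (nat_lit 0) (nat_lit 3515206044) (nat_lit 228) (nat_lit 19869852879) (nat_lit 76) (nat_lit 23054952245) (nat_lit 25) (nat_lit 5) (nat_lit 28) (nat_lit 5) (nat_lit 26) (nat_lit 5) (nat_lit 370) (nat_lit 288) (nat_lit 122))))))) (XT.nd (nat_lit 858) (nat_lit 228) (nat_lit 0) (XT.nd (nat_lit 390) (nat_lit 152) (nat_lit 0) (XT.nd (nat_lit 156) (nat_lit 152) (nat_lit 0) (XT.nd (nat_lit 78) (nat_lit 152) (nat_lit 0) (XT.lf (nat_lit 0) (nat_lit 8921256371) (nat_lit 228) (nat_lit 6240786736)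 (nat_lit 76) (nat_lit 32398376522) (nat_lit 25) (nat_lit 5) (nat_lit 28) (nat_lit 5) (nat_lit 26) (nat_lit 5) (nat_lit 371) (nat_lit 288) (nat_lit 121)) (XT.lf (nat_lit 0) (nat_lit 7946303435) (nat_lit 152) (nat_lit 6615868188) (nat_lit 228) (nat_lit 34150092660) (nat_lit 23) (nat_lit 5) (nat_lit 25) (nat_lit 5) (nat_lit 26) (nat_lit 5) (nat_lit 372) (nat_lit 288) (nat_lit 120))) (XT.nd (nat_lit 78) (nat_lit 152) (nat_lit 0) (XT.lf (nat_lit 0) (nat_lit 20453306909) (nat_lit 228) (nat_lit 27237424812) (nat_lit 76) (nat_lit 2205507089) (nat_lit 23) (nat_lit 5) (nat_lit 26) (nat_lit 5) (nat_lit 24) (nat_lit 5) (nat_lit 373) (nat_lit 288) (nat_lit 119)) (XT.nd (nat_lit 78) (nat_lit 152) (nat_lit 0) (XT.lf (nat_lit 0) (nat_lit 26583115906) (nat_lit 228) (nat_lit 13374306893) (nat_lit 76) (nat_lit 11156455771) (nat_lit 23) (nat_lit 5) (nat_lit 26) (nat_lit 5) (nat_lit 24) (nat_lit 5) (nat_lit 374)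 (nat_lit 288) (nat_lit 118)) (XT.lf (nat_lit 0) (nat_lit 916995979) (nat_lit 152) (nat_lit 31985177734) (nat_lit 228) (nat_lit 19465717238) (nat_lit 21) (nat_lit 5) (nat_lit 23) (nat_lit 5) (nat_lit 24) (nat_lit 5) (nat_lit 375) (nat_lit 288) (nat_lit 117))))) (XT.nd (nat_lit 234) (nat_lit 152) (nat_lit 0) (XT.nd (nat_lit 78) (nat_lit 0) (nat_lit 0) (XT.lf (nat_lit 0) (nat_lit 15905650565) (nat_lit 152) (nat_lit 23636794232) (nat_lit 228) (nat_lit 14113133604) (nat_lit 21) (nat_lit 5) (nat_lit 23) (nat_lit 5) (nat_lit 24) (nat_lit 5) (nat_lit 376) (nat_lit 288) (nat_lit 116)) (XT.nd (nat_lit 78) (nat_lit 0) (nat_lit 0) (XT.lf (nat_lit 0) (nat_lit 31338578817) (nat_lit 152) (nat_lit 15040031868) (nat_lit 228) (nat_lit 8603389023) (nat_lit 21) (nat_lit 5) (nat_lit 23) (nat_lit 5) (nat_lit 24) (nat_lit 5) (nat_lit 377) (nat_lit 288) (nat_lit 115)) (XT.lf (nat_lit 0) (nat_lit 47229265816) (nat_lit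 152) (nat_lit 6187378905) (nat_lit 228) (nat_lit 2931669154) (nat_lit 21) (nat_lit 5) (nat_lit 23) (nat_lit 5) (nat_lit 24) (nat_lit 5) (nat_lit 378) (nat_lit 288) (nat_lit 114)))) (XT.nd (nat_lit 78) (nat_lit 0) (nat_lit 0) (XT.lf (nat_lit 0) (nat_lit 2936191573) (nat_lit 152) (nat_lit 51858635537) (nat_lit 76) (nat_lit 2957471290) (nat_lit 19) (nat_lit 5) (nat_lit 21) (nat_lit 5) (nat_lit 20) (nat_lit 5) (nat_lit 379) (nat_lit 288) (nat_lit 113)) (XT.nd (nat_lit 78) (nat_lit 0) (nat_lit 0) (XT.lf (nat_lit 0) (nat_lit 9072288290) (nat_lit 152) (nat_lit 37748323145) (nat_lit 76) (nat_lit 12372389922) (nat_lit 19) (nat_lit 5) (nat_lit 21) (nat_lit 5) (nat_lit 20) (nat_lit 5) (nat_lit 380) (nat_lit 288) (nat_lit 112)) (XT.lf (nat_lit 0) (nat_lit 15389425582) (nat_lit 152) (nat_lit 23219721330) (nat_lit 76) (nat_lit 22067873065) (nat_lit 19) (nat_lit 5) (nat_lit 21) (nat_lit 5) (nat_lit 20) (nat_lit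 5) (nat_lit 381) (nat_lit 288) (nat_lit 111)))))) (XT.nd (nat_lit 33384) (nat_lit 0) (nat_lit 11400) (XT.nd (nat_lit 234) (nat_lit 76) (nat_lit 0) (XT.nd (nat_lit 78) (nat_lit 152) (nat_lit 0) (XT.lf (nat_lit 0) (nat_lit 21893123280) (nat_lit 152) (nat_lit 8260135196) (nat_lit 76) (nat_lit 32052392500) (nat_lit 19) (nat_lit 5) (nat_lit 21) (nat_lit 5) (nat_lit 20) (nat_lit 5) (nat_lit 382) (nat_lit 288) (nat_lit 110)) (XT.nd (nat_lit 78) (nat_lit 0) (nat_lit 0) (XT.lf (nat_lit 0) (nat_lit 7285676529) (nat_lit 152) (nat_lit 21373422074) (nat_lit 228) (nat_lit 35119030414) (nat_lit 17) (nat_lit 5) (nat_lit 19) (nat_lit 5) (nat_lit 20) (nat_lit 5) (nat_lit 383) (nat_lit 288) (nat_lit 109)) (XT.lf (nat_lit 0) (nat_lit 23462501888) (nat_lit 152) (nat_lit 12246133270) (nat_lit 228) (nat_lit 29686731806) (nat_lit 17) (nat_lit 5) (nat_lit 19) (nat_lit 5) (nat_lit 20) (nat_lit 5) (nat_lit 384) (nat_lit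 288) (nat_lit 108)))) (XT.nd (nat_lit 78) (nat_lit 76) (nat_lit 0) (XT.lf (nat_lit 0) (nat_lit 40120083083) (nat_lit 152) (nat_lit 2846827933) (nat_lit 228) (nat_lit 24094296374) (nat_lit 17) (nat_lit 5) (nat_lit 19) (nat_lit 5) (nat_lit 20) (nat_lit 5) (nat_lit 385) (nat_lit 288) (nat_lit 107)) (XT.nd (nat_lit 78) (nat_lit 76) (nat_lit 0) (XT.lf (nat_lit 0) (nat_lit 50505948518) (nat_lit 228) (nat_lit 11569810761) (nat_lit 76) (nat_lit 6699376199) (nat_lit 17) (nat_lit 5) (nat_lit 20) (nat_lit 5) (nat_lit 18) (nat_lit 4) (nat_lit 386) (nat_lit 288) (nat_lit 106)) (XT.lf (nat_lit 0) (nat_lit 4314291229) (nat_lit 76) (nat_lit 54023918493) (nat_lit 152) (nat_lit 12200262878) (nat_lit 16) (nat_lit 5) (nat_lit 17) (nat_lit 5) (nat_lit 18) (nat_lit 4) (nat_lit 387) (nat_lit 288) (nat_lit 105))))) (XT.nd (nat_lit 234) (nat_lit 0) (nat_lit 0) (XT.nd (nat_lit 78) (nat_lit 0) (nat_lit 0) (XT.lf (nat_lit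 0) (nat_lit 508417230) (nat_lit 0) (nat_lit 508417230) (nat_lit 988) (nat_lit 4060491444) (nat_lit 166) (nat_lit 5) (nat_lit 166) (nat_lit 3) (nat_lit 179) (nat_lit 3) (nat_lit 289) (nat_lit 289) (nat_lit 202)) (XT.nd (nat_lit 78) (nat_lit 0) (nat_lit 0) (XT.lf (nat_lit 0) (nat_lit 2710409115) (nat_lit 988) (nat_lit 4918824310) (nat_lit 1064) (nat_lit 2656771333) (nat_lit 166) (nat_lit 5) (nat_lit 179) (nat_lit 3) (nat_lit 180) (nat_lit 5) (nat_lit 290) (nat_lit 289) (nat_lit 201)) (XT.lf (nat_lit 0) (nat_lit 3393431297) (nat_lit 988) (nat_lit 596335370) (nat_lit 1064) (nat_lit 6432013888) (nat_lit 166) (nat_lit 5) (nat_lit 179) (nat_lit 3) (nat_lit 180) (nat_lit 5) (nat_lit 291) (nat_lit 289) (nat_lit 200)))) (XT.nd (nat_lit 78) (nat_lit 0) (nat_lit 76) (XT.lf (nat_lit 76) (nat_lit 3919688068) (nat_lit 0) (nat_lit 191548220) (nat_lit 1064) (nat_lit 6450024434) (nat_lit 167) (nat_lit 5) (nat_lit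 166) (nat_lit 5) (nat_lit 180) (nat_lit 5) (nat_lit 292) (nat_lit 289) (nat_lit 199)) (XT.nd (nat_lit 78) (nat_lit 0) (nat_lit 0) (XT.lf (nat_lit 0) (nat_lit 4869695598) (nat_lit 988) (nat_lit 2170498302) (nat_lit 1064) (nat_lit 3664215904) (nat_lit 167) (nat_lit 5) (nat_lit 180) (nat_lit 5) (nat_lit 181) (nat_lit 5) (nat_lit 293) (nat_lit 289) (nat_lit 198)) (XT.lf (nat_lit 76) (nat_lit 2468014633) (nat_lit 0) (nat_lit 3186450448) (nat_lit 1064) (nat_lit 5197338008) (nat_lit 168) (nat_lit 5) (nat_lit 167) (nat_lit 5) (nat_lit 181) (nat_lit 5) (nat_lit 294) (nat_lit 289) (nat_lit 197))))))))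
noncomputable def xc187 : XT := (XT.nd (nat_lit 1716) (nat_lit 4484) (nat_lit 0) (XT.nd (nat_lit 858) (nat_lit 2736) (nat_lit 0) (XT.nd (nat_lit 390) (nat_lit 912) (nat_lit 0) (XT.nd (nat_lit 156) (nat_lit 0) (nat_lit 0) (XT.nd (nat_lit 78) (nat_lit 0) (nat_lit 0) (XT.lf (nat_lit 0) (nat_lit 6470977097) (nat_lit 988) (nat_lit 3734142223) (nat_lit 1064) (nat_lit 798307646) (nat_lit 168) (nat_lit 5) (nat_lit 181) (nat_lit 5) (nat_lit 182) (nat_lit 5) (nat_lit 295) (nat_lit 289) (nat_lit 196)) (XT.lf (nat_lit 76) (nat_lit 1030331555) (nat_lit 0) (nat_lit 6302270091) (nat_lit 1064) (nat_lit 3826432583) (nat_lit 169) (nat_lit 5) (nat_lit 168) (nat_lit 5) (nat_lit 182) (nat_lit 5) (nat_lit 296) (nat_lit 289) (nat_lit 195))) (XT.nd (nat_lit 78) (nat_lit 0) (nat_lit 76) (XT.lf (nat_lit 76) (nat_lit 6001197086) (nat_lit 0) (nat_lit 2236230397) (nat_lit 1064) (nat_lit 3081413283) (nat_lit 169) (nat_lit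 5) (nat_lit 168) (nat_lit 5) (nat_lit 182) (nat_lit 5) (nat_lit 297) (nat_lit 289) (nat_lit 194)) (XT.nd (nat_lit 78) (nat_lit 0) (nat_lit 0) (XT.lf (nat_lit 0) (nat_lit 9168465615) (nat_lit 988) (nat_lit 394433019) (nat_lit 1064) (nat_lit 1920620971) (nat_lit 169) (nat_lit 5) (nat_lit 182) (nat_lit 5) (nat_lit 183) (nat_lit 5) (nat_lit 298) (nat_lit 289) (nat_lit 193)) (XT.lf (nat_lit 76) (nat_lit 4733676675) (nat_lit 0) (nat_lit 5442281441) (nat_lit 1064) (nat_lit 1475773668) (nat_lit 170) (nat_lit 5) (nat_lit 169) (nat_lit 5) (nat_lit 183) (nat_lit 5) (nat_lit 299) (nat_lit 289) (nat_lit 192))))) (XT.nd (nat_lit 234) (nat_lit 0) (nat_lit 0) (XT.nd (nat_lit 78) (nat_lit 988) (nat_lit 0) (XT.lf (nat_lit 76) (nat_lit 10010815399) (nat_lit 0) (nat_lit 1188155240) (nat_lit 1064) (nat_lit 626508085) (nat_lit 170) (nat_lit 5) (nat_lit 169) (nat_lit 5) (nat_lit 183) (nat_lit 5) (nat_lit 300) (nat_lit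 289) (nat_lit 191)) (XT.nd (nat_lit 78) (nat_lit 0) (nat_lit 0) (XT.lf (nat_lit 0) (nat_lit 289723915) (nat_lit 1064) (nat_lit 8540357368) (nat_lit 1140) (nat_lit 3172939768) (nat_lit 156) (nat_lit 5) (nat_lit 170) (nat_lit 5) (nat_lit 171) (nat_lit 5) (nat_lit 301) (nat_lit 289) (nat_lit 190)) (XT.lf (nat_lit 0) (nat_lit 1233213875) (nat_lit 1064) (nat_lit 3281417736) (nat_lit 1140) (nat_lit 7670744295) (nat_lit 156) (nat_lit 5) (nat_lit 170) (nat_lit 5) (nat_lit 171) (nat_lit 5) (nat_lit 302) (nat_lit 289) (nat_lit 189)))) (XT.nd (nat_lit 78) (nat_lit 0) (nat_lit 76) (XT.lf (nat_lit 76) (nat_lit 2164479546) (nat_lit 0) (nat_lit 43950148) (nat_lit 1140) (nat_lit 10164711062) (nat_lit 157) (nat_lit 5) (nat_lit 156) (nat_lit 5) (nat_lit 171) (nat_lit 5) (nat_lit 303) (nat_lit 289) (nat_lit 188)) (XT.nd (nat_lit 78) (nat_lit 0) (nat_lit 0) (XT.lf (nat_lit 0) (nat_lit 3273243935) (nat_lit 1064)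 (nat_lit 4782204173) (nat_lit 1140) (nat_lit 4509320944) (nat_lit 157) (nat_lit 5) (nat_lit 171) (nat_lit 5) (nat_lit 172) (nat_lit 5) (nat_lit 304) (nat_lit 289) (nat_lit 187)) (XT.lf (nat_lit 76) (nat_lit 809287501) (nat_lit 0) (nat_lit 3552459994) (nat_lit 1140) (nat_lit 8400685929) (nat_lit 158) (nat_lit 5) (nat_lit 157) (nat_lit 5) (nat_lit 172) (nat_lit 5) (nat_lit 305) (nat_lit 289) (nat_lit 186)))))) (XT.nd (nat_lit 390) (nat_lit 1140) (nat_lit 0) (XT.nd (nat_lit 156) (nat_lit 1748) (nat_lit 0) (XT.nd (nat_lit 78) (nat_lit 0) (nat_lit 0) (XT.lf (nat_lit 0) (nat_lit 5526026090) (nat_lit 1064) (nat_lit 6322477702) (nat_lit 76) (nat_lit 1116268758) (nat_lit 158) (nat_lit 5) (nat_lit 172) (nat_lit 5) (nat_lit 159) (nat_lit 5) (nat_lit 306) (nat_lit 289) (nat_lit 185)) (XT.lf (nat_lit 0) (nat_lit 6744789691) (nat_lit 1064) (nat_lit 571207328) (nat_lit 76) (nat_lit 5856635432) (nat_lit 158)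 (nat_lit 5) (nat_lit 172) (nat_lit 5) (nat_lit 159) (nat_lit 5) (nat_lit 307) (nat_lit 289) (nat_lit 184))) (XT.nd (nat_lit 78) (nat_lit 684) (nat_lit 0) (XT.lf (nat_lit 0) (nat_lit 5446112263) (nat_lit 1064) (nat_lit 2591193921) (nat_lit 1140) (nat_lit 5348342484) (nat_lit 144) (nat_lit 5) (nat_lit 158) (nat_lit 5) (nat_lit 159) (nat_lit 5) (nat_lit 308) (nat_lit 289) (nat_lit 183)) (XT.nd (nat_lit 78) (nat_lit 684) (nat_lit 0) (XT.lf (nat_lit 0) (nat_lit 9381475369) (nat_lit 1140) (nat_lit 1984289518) (nat_lit 76) (nat_lit 2238939326) (nat_lit 144) (nat_lit 5) (nat_lit 159) (nat_lit 5) (nat_lit 145) (nat_lit 5) (nat_lit 309) (nat_lit 289) (nat_lit 182)) (XT.lf (nat_lit 0) (nat_lit 4193024452) (nat_lit 684) (nat_lit 6624518059) (nat_lit 760) (nat_lit 3011275865) (nat_lit 135) (nat_lit 5) (nat_lit 144) (nat_lit 5) (nat_lit 145) (nat_lit 5) (nat_lit 310) (nat_lit 289) (nat_lit 181))))) (XT.nd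 (nat_lit 234) (nat_lit 532) (nat_lit 0) (XT.nd (nat_lit 78) (nat_lit 608) (nat_lit 0) (XT.lf (nat_lit 0) (nat_lit 10583702942) (nat_lit 684) (nat_lit 1718935403) (nat_lit 760) (nat_lit 1756872361) (nat_lit 135) (nat_lit 5) (nat_lit 144) (nat_lit 5) (nat_lit 145) (nat_lit 5) (nat_lit 311) (nat_lit 289) (nat_lit 180)) (XT.nd (nat_lit 78) (nat_lit 76) (nat_lit 0) (XT.lf (nat_lit 0) (nat_lit 2880419461) (nat_lit 532) (nat_lit 10997935891) (nat_lit 608) (nat_lit 417418580) (nat_lit 128) (nat_lit 5) (nat_lit 135) (nat_lit 5) (nat_lit 136) (nat_lit 5) (nat_lit 312) (nat_lit 289) (nat_lit 179)) (XT.lf (nat_lit 0) (nat_lit 982355048) (nat_lit 608) (nat_lit 5078998620) (nat_lit 76) (nat_lit 8476356857) (nat_lit 127) (nat_lit 5) (nat_lit 135) (nat_lit 5) (nat_lit 128) (nat_lit 5) (nat_lit 313) (nat_lit 289) (nat_lit 178)))) (XT.nd (nat_lit 78) (nat_lit 0) (nat_lit 0) (XT.lf (nat_lit 0) (nat_lit 1459271694)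 (nat_lit 532) (nat_lit 957329720) (nat_lit 608) (nat_lit 12370183185) (nat_lit 120) (nat_lit 5) (nat_lit 127) (nat_lit 5) (nat_lit 128) (nat_lit 5) (nat_lit 314) (nat_lit 289) (nat_lit 177)) (XT.nd (nat_lit 78) (nat_lit 0) (nat_lit 0) (XT.lf (nat_lit 0) (nat_lit 3974114041) (nat_lit 608) (nat_lit 6798644365) (nat_lit 76) (nat_lit 4268193912) (nat_lit 120) (nat_lit 5) (nat_lit 128) (nat_lit 5) (nat_lit 121) (nat_lit 5) (nat_lit 315) (nat_lit 289) (nat_lit 176)) (XT.lf (nat_lit 0) (nat_lit 5575316664) (nat_lit 608) (nat_lit 95831450) (nat_lit 76) (nat_lit 9631715772) (nat_lit 120) (nat_lit 5) (nat_lit 128) (nat_lit 5) (nat_lit 121) (nat_lit 5) (nat_lit 316) (nat_lit 289) (nat_lit 175))))))) (XT.nd (nat_lit 858) (nat_lit 2204) (nat_lit 0) (XT.nd (nat_lit 390) (nat_lit 912) (nat_lit 0) (XT.nd (nat_lit 156) (nat_lit 912) (nat_lit 0) (XT.nd (nat_lit 78) (nat_lit 0) (nat_lit 0) (XT.lf (nat_lit 0) (nat_lit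 6931238535) (nat_lit 456) (nat_lit 347794725) (nat_lit 532) (nat_lit 8291992153) (nat_lit 114) (nat_lit 5) (nat_lit 120) (nat_lit 5) (nat_lit 121) (nat_lit 5) (nat_lit 317) (nat_lit 289) (nat_lit 174)) (XT.lf (nat_lit 0) (nat_lit 9072290866) (nat_lit 532) (nat_lit 1737835807) (nat_lit 76) (nat_lit 5035978388) (nat_lit 114) (nat_lit 5) (nat_lit 121) (nat_lit 5) (nat_lit 115) (nat_lit 5) (nat_lit 318) (nat_lit 289) (nat_lit 173))) (XT.nd (nat_lit 78) (nat_lit 456) (nat_lit 0) (XT.lf (nat_lit 0) (nat_lit 5462334384) (nat_lit 456) (nat_lit 5501398519) (nat_lit 532) (nat_lit 5164397996) (nat_lit 108) (nat_lit 5) (nat_lit 114) (nat_lit 5) (nat_lit 115) (nat_lit 5) (nat_lit 319) (nat_lit 289) (nat_lit 172)) (XT.nd (nat_lit 78) (nat_lit 456) (nat_lit 0) (XT.lf (nat_lit 0) (nat_lit 12902265402) (nat_lit 456) (nat_lit 15860160) (nat_lit 532) (nat_lit 3500330391) (nat_lit 108) (nat_lit 5) (nat_lit 114)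 (nat_lit 5) (nat_lit 115) (nat_lit 5) (nat_lit 320) (nat_lit 289) (nat_lit 171)) (XT.lf (nat_lit 0) (nat_lit 3857138562) (nat_lit 456) (nat_lit 11154232457) (nat_lit 532) (nat_lit 1703737051) (nat_lit 102) (nat_lit 5) (nat_lit 108) (nat_lit 5) (nat_lit 109) (nat_lit 5) (nat_lit 321) (nat_lit 289) (nat_lit 170))))) (XT.nd (nat_lit 234) (nat_lit 380) (nat_lit 0) (XT.nd (nat_lit 78) (nat_lit 456) (nat_lit 0) (XT.lf (nat_lit 0) (nat_lit 168967689) (nat_lit 532) (nat_lit 5509763570) (nat_lit 76) (nat_lit 11341156419) (nat_lit 101) (nat_lit 5) (nat_lit 108) (nat_lit 5) (nat_lit 102) (nat_lit 5) (nat_lit 322) (nat_lit 289) (nat_lit 169)) (XT.nd (nat_lit 78) (nat_lit 0) (nat_lit 0) (XT.lf (nat_lit 0) (nat_lit 2070781912) (nat_lit 456) (nat_lit 2114524) (nat_lit 532) (nat_lit 15260151501) (nat_lit 95) (nat_lit 5) (nat_lit 101) (nat_lit 5) (nat_lit 102) (nat_lit 5) (nat_lit 323) (nat_lit 289) (nat_lit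 168)) (XT.lf (nat_lit 0) (nat_lit 4135883959) (nat_lit 532) (nat_lit 7730835429) (nat_lit 76) (nat_lit 5785846662) (nat_lit 95) (nat_lit 5) (nat_lit 102) (nat_lit 5) (nat_lit 96) (nat_lit 5) (nat_lit 324) (nat_lit 289) (nat_lit 167)))) (XT.nd (nat_lit 78) (nat_lit 0) (nat_lit 0) (XT.lf (nat_lit 0) (nat_lit 15305722) (nat_lit 380) (nat_lit 6235495713) (nat_lit 456) (nat_lit 11731187713) (nat_lit 90) (nat_lit 5) (nat_lit 95) (nat_lit 5) (nat_lit 96) (nat_lit 5) (nat_lit 325) (nat_lit 289) (nat_lit 166)) (XT.nd (nat_lit 78) (nat_lit 0) (nat_lit 0) (XT.lf (nat_lit 0) (nat_lit 8140908402) (nat_lit 380) (nat_lit 356382004) (nat_lit 456) (nat_lit 9821980866) (nat_lit 90) (nat_lit 5) (nat_lit 95) (nat_lit 5) (nat_lit 96) (nat_lit 5) (nat_lit 326) (nat_lit 289) (nat_lit 165)) (XT.lf (nat_lit 0) (nat_lit 10856291025) (nat_lit 456) (nat_lit 2222536748) (nat_lit 76) (nat_lit 5586510044) (nat_lit 90) (nat_lit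 5) (nat_lit 96) (nat_lit 5) (nat_lit 91) (nat_lit 5) (nat_lit 327) (nat_lit 289) (nat_lit 164)))))) (XT.nd (nat_lit 468) (nat_lit 988) (nat_lit 0) (XT.nd (nat_lit 234) (nat_lit 456) (nat_lit 0) (XT.nd (nat_lit 78) (nat_lit 380) (nat_lit 0) (XT.lf (nat_lit 0) (nat_lit 6075969809) (nat_lit 380) (nat_lit 7262641564) (nat_lit 456) (nat_lit 5681617395) (nat_lit 85) (nat_lit 5) (nat_lit 90) (nat_lit 5) (nat_lit 91) (nat_lit 5) (nat_lit 328) (nat_lit 289) (nat_lit 163)) (XT.nd (nat_lit 78) (nat_lit 380) (nat_lit 0) (XT.lf (nat_lit 0) (nat_lit 14658069655) (nat_lit 380) (nat_lit 1250558533) (nat_lit 456) (nat_lit 3476759804) (nat_lit 85) (nat_lit 5) (nat_lit 90) (nat_lit 5) (nat_lit 91) (nat_lit 5) (nat_lit 329) (nat_lit 289) (nat_lit 162)) (XT.lf (nat_lit 0) (nat_lit 3750946575) (nat_lit 380) (nat_lit 14879395884) (nat_lit 456) (nat_lit 1128939442) (nat_lit 80) (nat_lit 5) (nat_lit 85) (nat_lit 5)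 (nat_lit 86) (nat_lit 5) (nat_lit 330) (nat_lit 289) (nat_lit 161)))) (XT.nd (nat_lit 78) (nat_lit 380) (nat_lit 0) (XT.lf (nat_lit 0) (nat_lit 1315836943) (nat_lit 456) (nat_lit 7598705281) (nat_lit 76) (nat_lit 11227944965) (nat_lit 79) (nat_lit 5) (nat_lit 85) (nat_lit 5) (nat_lit 80) (nat_lit 5) (nat_lit 331) (nat_lit 289) (nat_lit 160)) (XT.nd (nat_lit 78) (nat_lit 0) (nat_lit 0) (XT.lf (nat_lit 0) (nat_lit 1062119607) (nat_lit 380) (nat_lit 2750705268) (nat_lit 456) (nat_lit 16723997973) (nat_lit 74) (nat_lit 5) (nat_lit 79) (nat_lit 5) (nat_lit 80) (nat_lit 5) (nat_lit 332) (nat_lit 289) (nat_lit 159)) (XT.lf (nat_lit 0) (nat_lit 6488280980) (nat_lit 456) (nat_lit 10848286847) (nat_lit 76) (nat_lit 3603329822) (nat_lit 74) (nat_lit 5) (nat_lit 80) (nat_lit 5) (nat_lit 75) (nat_lit 5) (nat_lit 333) (nat_lit 289) (nat_lit 158))))) (XT.nd (nat_lit 234) (nat_lit 684) (nat_lit 0) (XT.nd (nat_lit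 78) (nat_lit 304) (nat_lit 0) (XT.lf (nat_lit 0) (nat_lit 9262963786) (nat_lit 456) (nat_lit 2000787551) (nat_lit 76) (nat_lit 10090759834) (nat_lit 74) (nat_lit 5) (nat_lit 80) (nat_lit 5) (nat_lit 75) (nat_lit 5) (nat_lit 334) (nat_lit 289) (nat_lit 157)) (XT.nd (nat_lit 78) (nat_lit 0) (nat_lit 0) (XT.lf (nat_lit 0) (nat_lit 7243309997) (nat_lit 304) (nat_lit 4939173440) (nat_lit 380) (nat_lit 9597246691) (nat_lit 70) (nat_lit 5) (nat_lit 74) (nat_lit 5) (nat_lit 75) (nat_lit 5) (nat_lit 335) (nat_lit 289) (nat_lit 156)) (XT.lf (nat_lit 0) (nat_lit 15217219396) (nat_lit 380) (nat_lit 5436996606) (nat_lit 76) (nat_lit 1562675217) (nat_lit 70) (nat_lit 5) (nat_lit 75) (nat_lit 5) (nat_lit 71) (nat_lit 5) (nat_lit 336) (nat_lit 289) (nat_lit 155)))) (XT.nd (nat_lit 78) (nat_lit 380) (nat_lit 0) (XT.lf (nat_lit 0) (nat_lit 3953656548) (nat_lit 304) (nat_lit 14468564498) (nat_lit 380) (nat_lit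 4242583450) (nat_lit 66) (nat_lit 5) (nat_lit 70) (nat_lit 5) (nat_lit 71) (nat_lit 5) (nat_lit 337) (nat_lit 289) (nat_lit 154)) (XT.nd (nat_lit 78) (nat_lit 380) (nat_lit 0) (XT.lf (nat_lit 0) (nat_lit 13727579992) (nat_lit 304) (nat_lit 8043140320) (nat_lit 380) (nat_lit 1354028088) (nat_lit 66) (nat_lit 5) (nat_lit 70) (nat_lit 5) (nat_lit 71) (nat_lit 5) (nat_lit 338) (nat_lit 289) (nat_lit 153)) (XT.lf (nat_lit 0) (nat_lit 174272848) (nat_lit 304) (nat_lit 1409530163) (nat_lit 380) (nat_lit 22014405339) (nat_lit 61) (nat_lit 5) (nat_lit 65) (nat_lit 5) (nat_lit 66) (nat_lit 5) (nat_lit 339) (nat_lit 289) (nat_lit 152))))))))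
noncomputable def xc188 : XT := (XT.nd (nat_lit 1716) (nat_lit 1292) (nat_lit 0) (XT.nd (nat_lit 858) (nat_lit 912) (nat_lit 0) (XT.nd (nat_lit 390) (nat_lit 608) (nat_lit 0) (XT.nd (nat_lit 156) (nat_lit 532) (nat_lit 0) (XT.nd (nat_lit 78) (nat_lit 0) (nat_lit 0) (XT.lf (nat_lit 0) (nat_lit 4723196192) (nat_lit 380) (nat_lit 13933898289) (nat_lit 76) (nat_lit 5424168675) (nat_lit 61) (nat_lit 5) (nat_lit 66) (nat_lit 5) (nat_lit 62) (nat_lit 5) (nat_lit 340) (nat_lit 289) (nat_lit 151)) (XT.lf (nat_lit 0) (nat_lit 7963619357) (nat_lit 380) (nat_lit 4182714990) (nat_lit 76) (nat_lit 12432281943) (nat_lit 61) (nat_lit 5) (nat_lit 66) (nat_lit 5) (nat_lit 62) (nat_lit 5) (nat_lit 341) (nat_lit 289) (nat_lit 150))) (XT.nd (nat_lit 78) (nat_lit 228) (nat_lit 0) (XT.lf (nat_lit 0) (nat_lit 5968144099) (nat_lit 304) (nat_lit 5383580032) (nat_lit 380) (nat_lit 13737663599) (nat_lit 57) (nat_lit 5)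 (nat_lit 61) (nat_lit 5) (nat_lit 62) (nat_lit 5) (nat_lit 342) (nat_lit 289) (nat_lit 149)) (XT.nd (nat_lit 78) (nat_lit 228) (nat_lit 0) (XT.lf (nat_lit 0) (nat_lit 14892523442) (nat_lit 380) (nat_lit 9129990522) (nat_lit 76) (nat_lit 1591448241) (nat_lit 57) (nat_lit 5) (nat_lit 62) (nat_lit 5) (nat_lit 58) (nat_lit 5) (nat_lit 343) (nat_lit 289) (nat_lit 148)) (XT.lf (nat_lit 0) (nat_lit 1120415156) (nat_lit 228) (nat_lit 17476591149) (nat_lit 304) (nat_lit 7555554925) (nat_lit 54) (nat_lit 5) (nat_lit 57) (nat_lit 5) (nat_lit 58) (nat_lit 5) (nat_lit 344) (nat_lit 289) (nat_lit 147))))) (XT.nd (nat_lit 234) (nat_lit 228) (nat_lit 0) (XT.nd (nat_lit 78) (nat_lit 380) (nat_lit 0) (XT.lf (nat_lit 0) (nat_lit 11856432935) (nat_lit 228) (nat_lit 10641877974) (nat_lit 304) (nat_lit 4206447477) (nat_lit 54) (nat_lit 5) (nat_lit 57) (nat_lit 5) (nat_lit 58) (nat_lit 5) (nat_lit 345) (nat_lit 289)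 (nat_lit 146)) (XT.nd (nat_lit 78) (nat_lit 380) (nat_lit 0) (XT.lf (nat_lit 0) (nat_lit 22905739089) (nat_lit 228) (nat_lit 3604597364) (nat_lit 304) (nat_lit 763385016) (nat_lit 54) (nat_lit 5) (nat_lit 57) (nat_lit 5) (nat_lit 58) (nat_lit 5) (nat_lit 346) (nat_lit 289) (nat_lit 145)) (XT.lf (nat_lit 0) (nat_lit 2821007011) (nat_lit 380) (nat_lit 21374604779) (nat_lit 76) (nat_lit 3660578665) (nat_lit 49) (nat_lit 5) (nat_lit 54) (nat_lit 5) (nat_lit 50) (nat_lit 5) (nat_lit 347) (nat_lit 289) (nat_lit 144)))) (XT.nd (nat_lit 78) (nat_lit 228) (nat_lit 0) (XT.lf (nat_lit 0) (nat_lit 6571690888) (nat_lit 380) (nat_lit 10761067595) (nat_lit 76) (nat_lit 11120934757) (nat_lit 49) (nat_lit 5) (nat_lit 54) (nat_lit 5) (nat_lit 50) (nat_lit 5) (nat_lit 348) (nat_lit 289) (nat_lit 143)) (XT.nd (nat_lit 78) (nat_lit 0) (nat_lit 0) (XT.lf (nat_lit 0) (nat_lit 165608888) (nat_lit 228) (nat_lit 10264926401)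 (nat_lit 304) (nat_lit 18638725917) (nat_lit 46) (nat_lit 5) (nat_lit 49) (nat_lit 5) (nat_lit 50) (nat_lit 5) (nat_lit 349) (nat_lit 289) (nat_lit 142)) (XT.lf (nat_lit 0) (nat_lit 11632261879) (nat_lit 228) (nat_lit 2875689366) (nat_lit 304) (nat_lit 15192269805) (nat_lit 46) (nat_lit 5) (nat_lit 49) (nat_lit 5) (nat_lit 50) (nat_lit 5) (nat_lit 350) (nat_lit 289) (nat_lit 141)))))) (XT.nd (nat_lit 390) (nat_lit 380) (nat_lit 0) (XT.nd (nat_lit 156) (nat_lit 304) (nat_lit 0) (XT.nd (nat_lit 78) (nat_lit 228) (nat_lit 0) (XT.lf (nat_lit 0) (nat_lit 18747494910) (nat_lit 304) (nat_lit 6961038708) (nat_lit 76) (nat_lit 4640390679) (nat_lit 46) (nat_lit 5) (nat_lit 50) (nat_lit 5) (nat_lit 47) (nat_lit 5) (nat_lit 351) (nat_lit 289) (nat_lit 140)) (XT.lf (nat_lit 0) (nat_lit 4530949230) (nat_lit 228) (nat_lit 18649755824) (nat_lit 304) (nat_lit 7834397692) (nat_lit 43) (nat_lit 5) (nat_lit 46)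 (nat_lit 5) (nat_lit 47) (nat_lit 5) (nat_lit 352) (nat_lit 289) (nat_lit 139))) (XT.nd (nat_lit 78) (nat_lit 304) (nat_lit 0) (XT.lf (nat_lit 0) (nat_lit 16502387415) (nat_lit 228) (nat_lit 11309355272) (nat_lit 304) (nat_lit 3887587185) (nat_lit 43) (nat_lit 5) (nat_lit 46) (nat_lit 5) (nat_lit 47) (nat_lit 5) (nat_lit 353) (nat_lit 289) (nat_lit 138)) (XT.nd (nat_lit 78) (nat_lit 228) (nat_lit 0) (XT.lf (nat_lit 0) (nat_lit 168798539) (nat_lit 304) (nat_lit 3580707791) (nat_lit 76) (nat_lit 28654694935) (nat_lit 42) (nat_lit 5) (nat_lit 46) (nat_lit 5) (nat_lit 43) (nat_lit 5) (nat_lit 354) (nat_lit 289) (nat_lit 137)) (XT.lf (nat_lit 0) (nat_lit 4385250583) (nat_lit 304) (nat_lit 24662942590) (nat_lit 76) (nat_lit 4077383115) (nat_lit 39) (nat_lit 5) (nat_lit 43) (nat_lit 5) (nat_lit 40) (nat_lit 5) (nat_lit 355) (nat_lit 289) (nat_lit 136))))) (XT.nd (nat_lit 234) (nat_lit 152) (nat_lit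 0) (XT.nd (nat_lit 78) (nat_lit 228) (nat_lit 0) (XT.lf (nat_lit 0) (nat_lit 8796684609) (nat_lit 304) (nat_lit 12972031350) (nat_lit 76) (nat_lit 12097829288) (nat_lit 39) (nat_lit 5) (nat_lit 43) (nat_lit 5) (nat_lit 40) (nat_lit 5) (nat_lit 356) (nat_lit 289) (nat_lit 135)) (XT.nd (nat_lit 78) (nat_lit 228) (nat_lit 0) (XT.lf (nat_lit 0) (nat_lit 13335460169) (nat_lit 304) (nat_lit 937886112) (nat_lit 76) (nat_lit 20356554167) (nat_lit 39) (nat_lit 5) (nat_lit 43) (nat_lit 5) (nat_lit 40) (nat_lit 5) (nat_lit 357) (nat_lit 289) (nat_lit 134)) (XT.lf (nat_lit 0) (nat_lit 11677886015) (nat_lit 228) (nat_lit 6439912151) (nat_lit 304) (nat_lit 17295143081) (nat_lit 36) (nat_lit 5) (nat_lit 39) (nat_lit 5) (nat_lit 40) (nat_lit 5) (nat_lit 358) (nat_lit 289) (nat_lit 133)))) (XT.nd (nat_lit 78) (nat_lit 152) (nat_lit 0) (XT.lf (nat_lit 0) (nat_lit 23064018371) (nat_lit 304) (nat_lit 11550910965)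 (nat_lit 76) (nat_lit 1603938289) (nat_lit 36) (nat_lit 5) (nat_lit 40) (nat_lit 5) (nat_lit 37) (nat_lit 5) (nat_lit 359) (nat_lit 289) (nat_lit 132)) (XT.nd (nat_lit 78) (nat_lit 0) (nat_lit 0) (XT.lf (nat_lit 0) (nat_lit 946345525) (nat_lit 152) (nat_lit 27280471128) (nat_lit 228) (nat_lit 8820115919) (nat_lit 34) (nat_lit 5) (nat_lit 36) (nat_lit 5) (nat_lit 37) (nat_lit 5) (nat_lit 360) (nat_lit 289) (nat_lit 131)) (XT.lf (nat_lit 0) (nat_lit 14048254632) (nat_lit 152) (nat_lit 19608287103) (nat_lit 228) (nat_lit 4239942778) (nat_lit 34) (nat_lit 5) (nat_lit 36) (nat_lit 5) (nat_lit 37) (nat_lit 5) (nat_lit 361) (nat_lit 289) (nat_lit 130))))))) (XT.nd (nat_lit 858) (nat_lit 608) (nat_lit 0) (XT.nd (nat_lit 390) (nat_lit 228) (nat_lit 0) (XT.nd (nat_lit 156) (nat_lit 152) (nat_lit 0) (XT.nd (nat_lit 78) (nat_lit 228) (nat_lit 0) (XT.lf (nat_lit 0) (nat_lit 463800174) (nat_lit 228) (nat_lit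 11239831317) (nat_lit 76) (nat_lit 27067895199) (nat_lit 33) (nat_lit 5) (nat_lit 36) (nat_lit 5) (nat_lit 34) (nat_lit 5) (nat_lit 362) (nat_lit 289) (nat_lit 129)) (XT.lf (nat_lit 0) (nat_lit 1731899252) (nat_lit 228) (nat_lit 3503802100) (nat_lit 304) (nat_lit 34435497247) (nat_lit 30) (nat_lit 5) (nat_lit 33) (nat_lit 5) (nat_lit 34) (nat_lit 5) (nat_lit 363) (nat_lit 289) (nat_lit 128))) (XT.nd (nat_lit 78) (nat_lit 152) (nat_lit 0) (XT.lf (nat_lit 0) (nat_lit 10308546813) (nat_lit 304) (nat_lit 25326680412) (nat_lit 76) (nat_lit 4957905450) (nat_lit 30) (nat_lit 5) (nat_lit 34) (nat_lit 5) (nat_lit 31) (nat_lit 5) (nat_lit 364) (nat_lit 289) (nat_lit 127)) (XT.nd (nat_lit 78) (nat_lit 152) (nat_lit 0) (XT.lf (nat_lit 0) (nat_lit 15564052711) (nat_lit 304) (nat_lit 12376958977) (nat_lit 76) (nat_lit 13600804293) (nat_lit 30) (nat_lit 5) (nat_lit 34) (nat_lit 5) (nat_lit 31) (nat_lit 5)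 (nat_lit 365) (nat_lit 289) (nat_lit 126)) (XT.lf (nat_lit 0) (nat_lit 973864539) (nat_lit 152) (nat_lit 20008627390) (nat_lit 228) (nat_lit 21536315115) (nat_lit 28) (nat_lit 5) (nat_lit 30) (nat_lit 5) (nat_lit 31) (nat_lit 5) (nat_lit 366) (nat_lit 289) (nat_lit 125))))) (XT.nd (nat_lit 234) (nat_lit 228) (nat_lit 0) (XT.nd (nat_lit 78) (nat_lit 0) (nat_lit 0) (XT.lf (nat_lit 0) (nat_lit 14972597800) (nat_lit 152) (nat_lit 11711834672) (nat_lit 228) (nat_lit 16837052073) (nat_lit 28) (nat_lit 5) (nat_lit 30) (nat_lit 5) (nat_lit 31) (nat_lit 5) (nat_lit 367) (nat_lit 289) (nat_lit 124)) (XT.nd (nat_lit 78) (nat_lit 0) (nat_lit 0) (XT.lf (nat_lit 0) (nat_lit 29385146955) (nat_lit 152) (nat_lit 3168366926) (nat_lit 228) (nat_lit 12000851007) (nat_lit 28) (nat_lit 5) (nat_lit 30) (nat_lit 5) (nat_lit 31) (nat_lit 5) (nat_lit 368) (nat_lit 289) (nat_lit 123)) (XT.lf (nat_lit 0) (nat_lit 38648976188)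 (nat_lit 228) (nat_lit 1448356806) (nat_lit 76) (nat_lit 5519394245) (nat_lit 28) (nat_lit 5) (nat_lit 31) (nat_lit 5) (nat_lit 29) (nat_lit 5) (nat_lit 369) (nat_lit 289) (nat_lit 122)))) (XT.nd (nat_lit 78) (nat_lit 76) (nat_lit 0) (XT.lf (nat_lit 0) (nat_lit 12898569144) (nat_lit 152) (nat_lit 32180379454) (nat_lit 228) (nat_lit 1627467187) (nat_lit 26) (nat_lit 5) (nat_lit 28) (nat_lit 5) (nat_lit 29) (nat_lit 5) (nat_lit 370) (nat_lit 289) (nat_lit 121)) (XT.nd (nat_lit 78) (nat_lit 0) (nat_lit 0) (XT.lf (nat_lit 0) (nat_lit 3808517578) (nat_lit 228) (nat_lit 20166047105) (nat_lit 76) (nat_lit 23852785777) (nat_lit 25) (nat_lit 5) (nat_lit 28) (nat_lit 5) (nat_lit 26) (nat_lit 5) (nat_lit 371) (nat_lit 289) (nat_lit 120)) (XT.lf (nat_lit 0) (nat_lit 9371277900) (nat_lit 228) (nat_lit 6136843969) (nat_lit 76) (nat_lit 33473420017) (nat_lit 25) (nat_lit 5) (nat_lit 28) (nat_lit 5) (nat_lit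 26) (nat_lit 5) (nat_lit 372) (nat_lit 289) (nat_lit 119)))))) (XT.nd (nat_lit 468) (nat_lit 304) (nat_lit 0) (XT.nd (nat_lit 234) (nat_lit 152) (nat_lit 0) (XT.nd (nat_lit 78) (nat_lit 0) (nat_lit 0) (XT.lf (nat_lit 0) (nat_lit 8473004334) (nat_lit 152) (nat_lit 6705875554) (nat_lit 228) (nat_lit 34989144586) (nat_lit 23) (nat_lit 5) (nat_lit 25) (nat_lit 5) (nat_lit 26) (nat_lit 5) (nat_lit 373) (nat_lit 289) (nat_lit 118)) (XT.nd (nat_lit 78) (nat_lit 0) (nat_lit 0) (XT.lf (nat_lit 0) (nat_lit 21242523383) (nat_lit 228) (nat_lit 27770201085) (nat_lit 76) (nat_lit 2374926734) (nat_lit 23) (nat_lit 5) (nat_lit 26) (nat_lit 5) (nat_lit 24) (nat_lit 5) (nat_lit 374) (nat_lit 289) (nat_lit 117)) (XT.lf (nat_lit 0) (nat_lit 27551111584) (nat_lit 228) (nat_lit 13499471564) (nat_lit 76) (nat_lit 11591396466) (nat_lit 23) (nat_lit 5) (nat_lit 26) (nat_lit 5) (nat_lit 24) (nat_lit 5) (nat_lit 375)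 (nat_lit 289) (nat_lit 116)))) (XT.nd (nat_lit 78) (nat_lit 0) (nat_lit 0) (XT.lf (nat_lit 0) (nat_lit 1217863879) (nat_lit 152) (nat_lit 32839538846) (nat_lit 228) (nat_lit 19876285625) (nat_lit 21) (nat_lit 5) (nat_lit 23) (nat_lit 5) (nat_lit 24) (nat_lit 5) (nat_lit 376) (nat_lit 289) (nat_lit 115)) (XT.nd (nat_lit 78) (nat_lit 0) (nat_lit 0) (XT.lf (nat_lit 0) (nat_lit 16648216219) (nat_lit 152) (nat_lit 24243767749) (nat_lit 228) (nat_lit 14368175058) (nat_lit 21) (nat_lit 5) (nat_lit 23) (nat_lit 5) (nat_lit 24) (nat_lit 5) (nat_lit 377) (nat_lit 289) (nat_lit 114)) (XT.lf (nat_lit 0) (nat_lit 32536402333) (nat_lit 152) (nat_lit 15392077183) (nat_lit 228) (nat_lit 8698041611) (nat_lit 21) (nat_lit 5) (nat_lit 23) (nat_lit 5) (nat_lit 24) (nat_lit 5) (nat_lit 378) (nat_lit 289) (nat_lit 113))))) (XT.nd (nat_lit 234) (nat_lit 152) (nat_lit 0) (XT.nd (nat_lit 78) (nat_lit 152) (nat_lit 0)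 (XT.lf (nat_lit 0) (nat_lit 48896305103) (nat_lit 152) (nat_lit 6276732660) (nat_lit 228) (nat_lit 2860930799) (nat_lit 21) (nat_lit 5) (nat_lit 23) (nat_lit 5) (nat_lit 24) (nat_lit 5) (nat_lit 379) (nat_lit 289) (nat_lit 112)) (XT.nd (nat_lit 78) (nat_lit 0) (nat_lit 0) (XT.lf (nat_lit 0) (nat_lit 3178686589) (nat_lit 152) (nat_lit 53159613690) (nat_lit 76) (nat_lit 3141767091) (nat_lit 19) (nat_lit 5) (nat_lit 21) (nat_lit 5) (nat_lit 20) (nat_lit 5) (nat_lit 380) (nat_lit 289) (nat_lit 111)) (XT.lf (nat_lit 0) (nat_lit 9494368850) (nat_lit 152) (nat_lit 38633412730) (nat_lit 76) (nat_lit 12836349641) (nat_lit 19) (nat_lit 5) (nat_lit 21) (nat_lit 5) (nat_lit 20) (nat_lit 5) (nat_lit 381) (nat_lit 289) (nat_lit 110)))) (XT.nd (nat_lit 78) (nat_lit 152) (nat_lit 0) (XT.lf (nat_lit 0) (nat_lit 15996653895) (nat_lit 152) (nat_lit 23676157523) (nat_lit 76) (nat_lit 22819994714) (nat_lit 19) (nat_lit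 5) (nat_lit 21) (nat_lit 5) (nat_lit 20) (nat_lit 5) (nat_lit 382) (nat_lit 289) (nat_lit 109)) (XT.nd (nat_lit 78) (nat_lit 152) (nat_lit 0) (XT.lf (nat_lit 0) (nat_lit 22691223332) (nat_lit 152) (nat_lit 8274778624) (nat_lit 76) (nat_lit 33101425884) (nat_lit 19) (nat_lit 5) (nat_lit 21) (nat_lit 5) (nat_lit 20) (nat_lit 5) (nat_lit 383) (nat_lit 289) (nat_lit 108)) (XT.lf (nat_lit 0) (nat_lit 7735121564) (nat_lit 152) (nat_lit 21923159941) (nat_lit 228) (nat_lit 36028860080) (nat_lit 17) (nat_lit 5) (nat_lit 19) (nat_lit 5) (nat_lit 20) (nat_lit 5) (nat_lit 384) (nat_lit 289) (nat_lit 107))))))))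
noncomputable def xc189 : XT := (XT.nd (nat_lit 34710) (nat_lit 0) (nat_lit 4788) (XT.nd (nat_lit 33852) (nat_lit 0) (nat_lit 9652) (XT.nd (nat_lit 33384) (nat_lit 0) (nat_lit 11324) (XT.nd (nat_lit 156) (nat_lit 0) (nat_lit 0) (XT.nd (nat_lit 78) (nat_lit 0) (nat_lit 0) (XT.lf (nat_lit 0) (nat_lit 24390527177) (nat_lit 152) (nat_lit 12524716497) (nat_lit 228) (nat_lit 30437779153) (nat_lit 17) (nat_lit 5) (nat_lit 19) (nat_lit 5) (nat_lit 20) (nat_lit 5) (nat_lit 385) (nat_lit 289) (nat_lit 106)) (XT.lf (nat_lit 0) (nat_lit 41541307160) (nat_lit 152) (nat_lit 2846018430) (nat_lit 228) (nat_lit 24681635355) (nat_lit 17) (nat_lit 5) (nat_lit 19) (nat_lit 5) (nat_lit 20) (nat_lit 5) (nat_lit 386) (nat_lit 289) (nat_lit 105))) (XT.nd (nat_lit 33072) (nat_lit 0) (nat_lit 11324) (XT.lf (nat_lit 0) (nat_lit 52149511429) (nat_lit 228) (nat_lit 11702462844) (nat_lit 76) (nat_lit 6982427377) (nat_lit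 17) (nat_lit 5) (nat_lit 20) (nat_lit 5) (nat_lit 18) (nat_lit 4) (nat_lit 387) (nat_lit 289) (nat_lit 104)) (XT.nd (nat_lit 78) (nat_lit 0) (nat_lit 0) (XT.lf (nat_lit 0) (nat_lit 830783123) (nat_lit 0) (nat_lit 830783123) (nat_lit 988) (nat_lit 3548088045) (nat_lit 166) (nat_lit 5) (nat_lit 166) (nat_lit 3) (nat_lit 179) (nat_lit 3) (nat_lit 290) (nat_lit 290) (nat_lit 200)) (XT.lf (nat_lit 0) (nat_lit 3978662342) (nat_lit 988) (nat_lit 4425501801) (nat_lit 1064) (nat_lit 2151774496) (nat_lit 166) (nat_lit 5) (nat_lit 179) (nat_lit 3) (nat_lit 180) (nat_lit 5) (nat_lit 291) (nat_lit 290) (nat_lit 199))))) (XT.nd (nat_lit 234) (nat_lit 0) (nat_lit 76) (XT.nd (nat_lit 78) (nat_lit 0) (nat_lit 0) (XT.lf (nat_lit 76) (nat_lit 8154308) (nat_lit 0) (nat_lit 4639528170) (nat_lit 1064) (nat_lit 6049228500) (nat_lit 167) (nat_lit 5) (nat_lit 166) (nat_lit 5) (nat_lit 180) (nat_lit 5) (nat_lit 292)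 (nat_lit 290) (nat_lit 198)) (XT.nd (nat_lit 78) (nat_lit 0) (nat_lit 76) (XT.lf (nat_lit 76) (nat_lit 4653399128) (nat_lit 0) (nat_lit 705902462) (nat_lit 1064) (nat_lit 5482191469) (nat_lit 167) (nat_lit 5) (nat_lit 166) (nat_lit 5) (nat_lit 180) (nat_lit 5) (nat_lit 293) (nat_lit 290) (nat_lit 197)) (XT.lf (nat_lit 0) (nat_lit 6103008956) (nat_lit 988) (nat_lit 1597152132) (nat_lit 1064) (nat_lit 3289984104) (nat_lit 167) (nat_lit 5) (nat_lit 180) (nat_lit 5) (nat_lit 181) (nat_lit 5) (nat_lit 294) (nat_lit 290) (nat_lit 196)))) (XT.nd (nat_lit 78) (nat_lit 0) (nat_lit 76) (XT.lf (nat_lit 76) (nat_lit 3174256767) (nat_lit 0) (nat_lit 3711475190) (nat_lit 1064) (nat_lit 4257076982) (nat_lit 168) (nat_lit 5) (nat_lit 167) (nat_lit 5) (nat_lit 181) (nat_lit 5) (nat_lit 295) (nat_lit 290) (nat_lit 195)) (XT.nd (nat_lit 78) (nat_lit 0) (nat_lit 0) (XT.lf (nat_lit 0) (nat_lit 7691810263) (nat_lit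 988) (nat_lit 3194828730) (nat_lit 1064) (nat_lit 413469032) (nat_lit 168) (nat_lit 5) (nat_lit 181) (nat_lit 5) (nat_lit 182) (nat_lit 5) (nat_lit 296) (nat_lit 290) (nat_lit 194)) (XT.lf (nat_lit 76) (nat_lit 1706193597) (nat_lit 0) (nat_lit 6849385629) (nat_lit 1064) (nat_lit 2905591738) (nat_lit 169) (nat_lit 5) (nat_lit 168) (nat_lit 5) (nat_lit 182) (nat_lit 5) (nat_lit 297) (nat_lit 290) (nat_lit 193)))))) (XT.nd (nat_lit 390) (nat_lit 836) (nat_lit 0) (XT.nd (nat_lit 156) (nat_lit 988) (nat_lit 0) (XT.nd (nat_lit 78) (nat_lit 0) (nat_lit 76) (XT.lf (nat_lit 76) (nat_lit 6807400082) (nat_lit 0) (nat_lit 2650936179) (nat_lit 1064) (nat_lit 2168385951) (nat_lit 169) (nat_lit 5) (nat_lit 168) (nat_lit 5) (nat_lit 182) (nat_lit 5) (nat_lit 298) (nat_lit 290) (nat_lit 192)) (XT.lf (nat_lit 76) (nat_lit 240358607) (nat_lit 0) (nat_lit 10147650507) (nat_lit 1064) (nat_lit 1409283143) (nat_lit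 170) (nat_lit 5) (nat_lit 169) (nat_lit 5) (nat_lit 183) (nat_lit 5) (nat_lit 299) (nat_lit 290) (nat_lit 191))) (XT.nd (nat_lit 78) (nat_lit 1064) (nat_lit 0) (XT.lf (nat_lit 76) (nat_lit 5511327857) (nat_lit 0) (nat_lit 5890756119) (nat_lit 1064) (nat_lit 569245948) (nat_lit 170) (nat_lit 5) (nat_lit 169) (nat_lit 5) (nat_lit 183) (nat_lit 5) (nat_lit 300) (nat_lit 290) (nat_lit 190)) (XT.nd (nat_lit 78) (nat_lit 0) (nat_lit 76) (XT.lf (nat_lit 0) (nat_lit 272383407) (nat_lit 1064) (nat_lit 1225565208) (nat_lit 1140) (nat_lit 10653132984) (nat_lit 155) (nat_lit 5) (nat_lit 169) (nat_lit 5) (nat_lit 170) (nat_lit 5) (nat_lit 301) (nat_lit 290) (nat_lit 189)) (XT.lf (nat_lit 0) (nat_lit 1180775751) (nat_lit 1064) (nat_lit 8134367882) (nat_lit 1140) (nat_lit 3019366431) (nat_lit 156) (nat_lit 5) (nat_lit 170) (nat_lit 5) (nat_lit 171) (nat_lit 5) (nat_lit 302) (nat_lit 290) (nat_lit 188)))))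 (XT.nd (nat_lit 234) (nat_lit 912) (nat_lit 0) (XT.nd (nat_lit 78) (nat_lit 0) (nat_lit 0) (XT.lf (nat_lit 0) (nat_lit 2126870600) (nat_lit 1064) (nat_lit 2736947446) (nat_lit 1140) (nat_lit 7659350576) (nat_lit 156) (nat_lit 5) (nat_lit 170) (nat_lit 5) (nat_lit 171) (nat_lit 5) (nat_lit 303) (nat_lit 290) (nat_lit 187)) (XT.nd (nat_lit 78) (nat_lit 0) (nat_lit 76) (XT.lf (nat_lit 76) (nat_lit 2866023688) (nat_lit 0) (nat_lit 246487417) (nat_lit 1140) (nat_lit 9604680520) (nat_lit 157) (nat_lit 5) (nat_lit 156) (nat_lit 5) (nat_lit 171) (nat_lit 5) (nat_lit 304) (nat_lit 290) (nat_lit 186)) (XT.lf (nat_lit 0) (nat_lit 4182989100) (nat_lit 1064) (nat_lit 4279371903) (nat_lit 1140) (nat_lit 4453054687) (nat_lit 157) (nat_lit 5) (nat_lit 171) (nat_lit 5) (nat_lit 172) (nat_lit 5) (nat_lit 305) (nat_lit 290) (nat_lit 185)))) (XT.nd (nat_lit 78) (nat_lit 988) (nat_lit 0) (XT.lf (nat_lit 76) (nat_lit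 1473528262) (nat_lit 0) (nat_lit 3813133896) (nat_lit 1140) (nat_lit 7832929199) (nat_lit 158) (nat_lit 5) (nat_lit 157) (nat_lit 5) (nat_lit 172) (nat_lit 5) (nat_lit 306) (nat_lit 290) (nat_lit 184)) (XT.nd (nat_lit 78) (nat_lit 1064) (nat_lit 0) (XT.lf (nat_lit 0) (nat_lit 6461302925) (nat_lit 1064) (nat_lit 5864425324) (nat_lit 76) (nat_lit 1003064536) (nat_lit 158) (nat_lit 5) (nat_lit 172) (nat_lit 5) (nat_lit 159) (nat_lit 5) (nat_lit 307) (nat_lit 290) (nat_lit 183)) (XT.lf (nat_lit 0) (nat_lit 41323708) (nat_lit 1064) (nat_lit 7653290449) (nat_lit 1140) (nat_lit 5848988321) (nat_lit 144) (nat_lit 5) (nat_lit 158) (nat_lit 5) (nat_lit 159) (nat_lit 5) (nat_lit 308) (nat_lit 290) (nat_lit 182))))))) (XT.nd (nat_lit 858) (nat_lit 2584) (nat_lit 0) (XT.nd (nat_lit 390) (nat_lit 988) (nat_lit 0) (XT.nd (nat_lit 156) (nat_lit 1292) (nat_lit 0) (XT.nd (nat_lit 78) (nat_lit 0) (nat_lit 0) (XT.lf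 (nat_lit 0) (nat_lit 6232191211) (nat_lit 1064) (nat_lit 2777543720) (nat_lit 1140) (nat_lit 4753811361) (nat_lit 144) (nat_lit 5) (nat_lit 158) (nat_lit 5) (nat_lit 159) (nat_lit 5) (nat_lit 309) (nat_lit 290) (nat_lit 181)) (XT.lf (nat_lit 0) (nat_lit 10371915259) (nat_lit 1140) (nat_lit 1415263369) (nat_lit 76) (nat_lit 2202714757) (nat_lit 144) (nat_lit 5) (nat_lit 159) (nat_lit 5) (nat_lit 145) (nat_lit 5) (nat_lit 310) (nat_lit 290) (nat_lit 180))) (XT.nd (nat_lit 78) (nat_lit 608) (nat_lit 0) (XT.lf (nat_lit 0) (nat_lit 4941207717) (nat_lit 684) (nat_lit 6895189158) (nat_lit 760) (nat_lit 2384823117) (nat_lit 135) (nat_lit 5) (nat_lit 144) (nat_lit 5) (nat_lit 145) (nat_lit 5) (nat_lit 311) (nat_lit 290) (nat_lit 179)) (XT.nd (nat_lit 78) (nat_lit 608) (nat_lit 0) (XT.lf (nat_lit 0) (nat_lit 11505478624) (nat_lit 684) (nat_lit 1840343811) (nat_lit 760) (nat_lit 1113664916) (nat_lit 135)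 (nat_lit 5) (nat_lit 144) (nat_lit 5) (nat_lit 145) (nat_lit 5) (nat_lit 312) (nat_lit 290) (nat_lit 178)) (XT.lf (nat_lit 0) (nat_lit 246275000) (nat_lit 608) (nat_lit 11118296619) (nat_lit 76) (nat_lit 3338670212) (nat_lit 127) (nat_lit 5) (nat_lit 135) (nat_lit 5) (nat_lit 128) (nat_lit 5) (nat_lit 313) (nat_lit 290) (nat_lit 177))))) (XT.nd (nat_lit 234) (nat_lit 456) (nat_lit 0) (XT.nd (nat_lit 78) (nat_lit 532) (nat_lit 0) (XT.lf (nat_lit 0) (nat_lit 1660200882) (nat_lit 608) (nat_lit 4614489327) (nat_lit 76) (nat_lit 8678249394) (nat_lit 127) (nat_lit 5) (nat_lit 135) (nat_lit 5) (nat_lit 128) (nat_lit 5) (nat_lit 314) (nat_lit 290) (nat_lit 176)) (XT.nd (nat_lit 78) (nat_lit 0) (nat_lit 0) (XT.lf (nat_lit 0) (nat_lit 2113881261) (nat_lit 532) (nat_lit 1010580350) (nat_lit 608) (nat_lit 12085456942) (nat_lit 120) (nat_lit 5) (nat_lit 127) (nat_lit 5) (nat_lit 128) (nat_lit 5) (nat_lit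 315) (nat_lit 290) (nat_lit 175)) (XT.lf (nat_lit 0) (nat_lit 4709964986) (nat_lit 608) (nat_lit 6389461167) (nat_lit 76) (nat_lit 4372888220) (nat_lit 120) (nat_lit 5) (nat_lit 128) (nat_lit 5) (nat_lit 121) (nat_lit 5) (nat_lit 316) (nat_lit 290) (nat_lit 174)))) (XT.nd (nat_lit 78) (nat_lit 0) (nat_lit 0) (XT.lf (nat_lit 0) (nat_lit 506460483) (nat_lit 456) (nat_lit 5839651588) (nat_lit 532) (nat_lit 9396403801) (nat_lit 114) (nat_lit 5) (nat_lit 120) (nat_lit 5) (nat_lit 121) (nat_lit 5) (nat_lit 317) (nat_lit 290) (nat_lit 173)) (XT.nd (nat_lit 78) (nat_lit 0) (nat_lit 0) (XT.lf (nat_lit 0) (nat_lit 7728623582) (nat_lit 456) (nat_lit 355677391) (nat_lit 532) (nat_lit 7934959122) (nat_lit 114) (nat_lit 5) (nat_lit 120) (nat_lit 5) (nat_lit 121) (nat_lit 5) (nat_lit 318) (nat_lit 290) (nat_lit 172)) (XT.lf (nat_lit 0) (nat_lit 9914286038) (nat_lit 532) (nat_lit 1199369475) (nat_lit 76) (nat_lit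 5189486277) (nat_lit 114) (nat_lit 5) (nat_lit 121) (nat_lit 5) (nat_lit 115) (nat_lit 5) (nat_lit 319) (nat_lit 290) (nat_lit 171)))))) (XT.nd (nat_lit 468) (nat_lit 1140) (nat_lit 0) (XT.nd (nat_lit 234) (nat_lit 532) (nat_lit 0) (XT.nd (nat_lit 78) (nat_lit 456) (nat_lit 0) (XT.lf (nat_lit 0) (nat_lit 6211015612) (nat_lit 456) (nat_lit 5640480401) (nat_lit 532) (nat_lit 4742498106) (nat_lit 108) (nat_lit 5) (nat_lit 114) (nat_lit 5) (nat_lit 115) (nat_lit 5) (nat_lit 320) (nat_lit 290) (nat_lit 170)) (XT.nd (nat_lit 78) (nat_lit 456) (nat_lit 0) (XT.lf (nat_lit 0) (nat_lit 13848328478) (nat_lit 532) (nat_lit 3036526655) (nat_lit 76) (nat_lit 8694943) (nat_lit 108) (nat_lit 5) (nat_lit 115) (nat_lit 5) (nat_lit 109) (nat_lit 5) (nat_lit 321) (nat_lit 290) (nat_lit 169)) (XT.lf (nat_lit 0) (nat_lit 4552110080) (nat_lit 456) (nat_lit 11442176246) (nat_lit 532) (nat_lit 1205152342) (nat_lit 102)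 (nat_lit 5) (nat_lit 108) (nat_lit 5) (nat_lit 109) (nat_lit 5) (nat_lit 322) (nat_lit 290) (nat_lit 168)))) (XT.nd (nat_lit 78) (nat_lit 456) (nat_lit 0) (XT.lf (nat_lit 0) (nat_lit 697308813) (nat_lit 532) (nat_lit 5101176882) (nat_lit 76) (nat_lit 11715220785) (nat_lit 101) (nat_lit 5) (nat_lit 108) (nat_lit 5) (nat_lit 102) (nat_lit 5) (nat_lit 323) (nat_lit 290) (nat_lit 167)) (XT.nd (nat_lit 78) (nat_lit 0) (nat_lit 0) (XT.lf (nat_lit 0) (nat_lit 2649082335) (nat_lit 532) (nat_lit 15135933104) (nat_lit 76) (nat_lit 51555746) (nat_lit 95) (nat_lit 5) (nat_lit 102) (nat_lit 5) (nat_lit 96) (nat_lit 5) (nat_lit 324) (nat_lit 290) (nat_lit 166)) (XT.lf (nat_lit 0) (nat_lit 4759008964) (nat_lit 532) (nat_lit 7395595476) (nat_lit 76) (nat_lit 6011549448) (nat_lit 95) (nat_lit 5) (nat_lit 102) (nat_lit 5) (nat_lit 96) (nat_lit 5) (nat_lit 325) (nat_lit 290) (nat_lit 165))))) (XT.nd (nat_lit 234)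 (nat_lit 760) (nat_lit 0) (XT.nd (nat_lit 78) (nat_lit 0) (nat_lit 0) (XT.lf (nat_lit 0) (nat_lit 577369468) (nat_lit 380) (nat_lit 6350867590) (nat_lit 456) (nat_lit 11577526369) (nat_lit 90) (nat_lit 5) (nat_lit 95) (nat_lit 5) (nat_lit 96) (nat_lit 5) (nat_lit 326) (nat_lit 290) (nat_lit 164)) (XT.nd (nat_lit 78) (nat_lit 0) (nat_lit 0) (XT.lf (nat_lit 0) (nat_lit 8930382814) (nat_lit 380) (nat_lit 297468615) (nat_lit 456) (nat_lit 9625769442) (nat_lit 90) (nat_lit 5) (nat_lit 95) (nat_lit 5) (nat_lit 96) (nat_lit 5) (nat_lit 327) (nat_lit 290) (nat_lit 163)) (XT.lf (nat_lit 0) (nat_lit 11644418004) (nat_lit 456) (nat_lit 1745711282) (nat_lit 76) (nat_lit 5820364188) (nat_lit 90) (nat_lit 5) (nat_lit 96) (nat_lit 5) (nat_lit 91) (nat_lit 5) (nat_lit 328) (nat_lit 290) (nat_lit 162)))) (XT.nd (nat_lit 78) (nat_lit 380) (nat_lit 0) (XT.lf (nat_lit 0) (nat_lit 6796422025) (nat_lit 380) (nat_lit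 7396490111) (nat_lit 456) (nat_lit 5383395019) (nat_lit 85) (nat_lit 5) (nat_lit 90) (nat_lit 5) (nat_lit 91) (nat_lit 5) (nat_lit 329) (nat_lit 290) (nat_lit 161)) (XT.nd (nat_lit 78) (nat_lit 380) (nat_lit 0) (XT.lf (nat_lit 0) (nat_lit 15620309921) (nat_lit 380) (nat_lit 1206492086) (nat_lit 456) (nat_lit 3126042309) (nat_lit 85) (nat_lit 5) (nat_lit 90) (nat_lit 5) (nat_lit 91) (nat_lit 5) (nat_lit 330) (nat_lit 290) (nat_lit 160)) (XT.lf (nat_lit 0) (nat_lit 4394041107) (nat_lit 380) (nat_lit 15229145926) (nat_lit 456) (nat_lit 715002996) (nat_lit 80) (nat_lit 5) (nat_lit 85) (nat_lit 5) (nat_lit 86) (nat_lit 5) (nat_lit 331) (nat_lit 290) (nat_lit 159))))))))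
noncomputable def xc190 : XT := (XT.nd (nat_lit 1716) (nat_lit 1520) (nat_lit 0) (XT.nd (nat_lit 858) (nat_lit 1368) (nat_lit 0) (XT.nd (nat_lit 390) (nat_lit 684) (nat_lit 0) (XT.nd (nat_lit 156) (nat_lit 304) (nat_lit 0) (XT.nd (nat_lit 78) (nat_lit 380) (nat_lit 0) (XT.lf (nat_lit 0) (nat_lit 1781590059) (nat_lit 456) (nat_lit 7302266545) (nat_lit 76) (nat_lit 11649313487) (nat_lit 79) (nat_lit 5) (nat_lit 85) (nat_lit 5) (nat_lit 80) (nat_lit 5) (nat_lit 332) (nat_lit 290) (nat_lit 158)) (XT.lf (nat_lit 0) (nat_lit 1613241914) (nat_lit 380) (nat_lit 2732821283) (nat_lit 456) (nat_lit 16793518755) (nat_lit 74) (nat_lit 5) (nat_lit 79) (nat_lit 5) (nat_lit 80) (nat_lit 5) (nat_lit 333) (nat_lit 290) (nat_lit 157))) (XT.nd (nat_lit 78) (nat_lit 304) (nat_lit 0) (XT.lf (nat_lit 0) (nat_lit 7090520411) (nat_lit 456) (nat_lit 10657580943) (nat_lit 76) (nat_lit 3807008238) (nat_lit 74) (nat_lit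 5) (nat_lit 80) (nat_lit 5) (nat_lit 75) (nat_lit 5) (nat_lit 334) (nat_lit 290) (nat_lit 156)) (XT.nd (nat_lit 78) (nat_lit 304) (nat_lit 0) (XT.lf (nat_lit 0) (nat_lit 9936572118) (nat_lit 456) (nat_lit 1559690295) (nat_lit 76) (nat_lit 10486277310) (nat_lit 74) (nat_lit 5) (nat_lit 80) (nat_lit 5) (nat_lit 75) (nat_lit 5) (nat_lit 335) (nat_lit 290) (nat_lit 155)) (XT.lf (nat_lit 0) (nat_lit 7956817230) (nat_lit 304) (nat_lit 4980104175) (nat_lit 380) (nat_lit 9483817936) (nat_lit 70) (nat_lit 5) (nat_lit 74) (nat_lit 5) (nat_lit 75) (nat_lit 5) (nat_lit 336) (nat_lit 290) (nat_lit 154))))) (XT.nd (nat_lit 234) (nat_lit 380) (nat_lit 0) (XT.nd (nat_lit 78) (nat_lit 304) (nat_lit 0) (XT.lf (nat_lit 0) (nat_lit 16052371283) (nat_lit 380) (nat_lit 5107330073) (nat_lit 76) (nat_lit 1711644544) (nat_lit 70) (nat_lit 5) (nat_lit 75) (nat_lit 5) (nat_lit 71) (nat_lit 5) (nat_lit 337) (nat_lit 290)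 (nat_lit 153)) (XT.nd (nat_lit 78) (nat_lit 0) (nat_lit 0) (XT.lf (nat_lit 0) (nat_lit 4560211535) (nat_lit 304) (nat_lit 14786973664) (nat_lit 380) (nat_lit 3985721695) (nat_lit 66) (nat_lit 5) (nat_lit 70) (nat_lit 5) (nat_lit 71) (nat_lit 5) (nat_lit 338) (nat_lit 290) (nat_lit 152)) (XT.lf (nat_lit 0) (nat_lit 14613140684) (nat_lit 304) (nat_lit 8172155142) (nat_lit 380) (nat_lit 1021698193) (nat_lit 66) (nat_lit 5) (nat_lit 70) (nat_lit 5) (nat_lit 71) (nat_lit 5) (nat_lit 339) (nat_lit 290) (nat_lit 151)))) (XT.nd (nat_lit 78) (nat_lit 0) (nat_lit 0) (XT.lf (nat_lit 0) (nat_lit 656424117) (nat_lit 304) (nat_lit 1334499912) (nat_lit 380) (nat_lit 22303826645) (nat_lit 61) (nat_lit 5) (nat_lit 65) (nat_lit 5) (nat_lit 66) (nat_lit 5) (nat_lit 340) (nat_lit 290) (nat_lit 150)) (XT.nd (nat_lit 78) (nat_lit 0) (nat_lit 0) (XT.lf (nat_lit 0) (nat_lit 5215119886) (nat_lit 380) (nat_lit 13878906213)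 (nat_lit 76) (nat_lit 5698570332) (nat_lit 61) (nat_lit 5) (nat_lit 66) (nat_lit 5) (nat_lit 62) (nat_lit 5) (nat_lit 341) (nat_lit 290) (nat_lit 149)) (XT.lf (nat_lit 0) (nat_lit 8542554936) (nat_lit 380) (nat_lit 3848964377) (nat_lit 76) (nat_lit 12913674282) (nat_lit 61) (nat_lit 5) (nat_lit 66) (nat_lit 5) (nat_lit 62) (nat_lit 5) (nat_lit 342) (nat_lit 290) (nat_lit 148)))))) (XT.nd (nat_lit 390) (nat_lit 836) (nat_lit 0) (XT.nd (nat_lit 156) (nat_lit 228) (nat_lit 0) (XT.nd (nat_lit 78) (nat_lit 0) (nat_lit 0) (XT.lf (nat_lit 0) (nat_lit 6601918209) (nat_lit 304) (nat_lit 5424852085) (nat_lit 380) (nat_lit 13804700763) (nat_lit 57) (nat_lit 5) (nat_lit 61) (nat_lit 5) (nat_lit 62) (nat_lit 5) (nat_lit 343) (nat_lit 290) (nat_lit 147)) (XT.lf (nat_lit 0) (nat_lit 15665173141) (nat_lit 380) (nat_lit 8953237504) (nat_lit 76) (nat_lit 1753647147) (nat_lit 57) (nat_lit 5) (nat_lit 62) (nat_lit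 5) (nat_lit 58) (nat_lit 5) (nat_lit 344) (nat_lit 290) (nat_lit 146))) (XT.nd (nat_lit 78) (nat_lit 0) (nat_lit 0) (XT.lf (nat_lit 0) (nat_lit 1600262180) (nat_lit 228) (nat_lit 17875326314) (nat_lit 304) (nat_lit 7451398288) (nat_lit 54) (nat_lit 5) (nat_lit 57) (nat_lit 5) (nat_lit 58) (nat_lit 5) (nat_lit 345) (nat_lit 290) (nat_lit 145)) (XT.nd (nat_lit 78) (nat_lit 0) (nat_lit 0) (XT.lf (nat_lit 0) (nat_lit 12645363369) (nat_lit 228) (nat_lit 10839228907) (nat_lit 304) (nat_lit 4011453246) (nat_lit 54) (nat_lit 5) (nat_lit 57) (nat_lit 5) (nat_lit 58) (nat_lit 5) (nat_lit 346) (nat_lit 290) (nat_lit 144)) (XT.lf (nat_lit 0) (nat_lit 24013530141) (nat_lit 228) (nat_lit 3594380521) (nat_lit 304) (nat_lit 474453892) (nat_lit 54) (nat_lit 5) (nat_lit 57) (nat_lit 5) (nat_lit 58) (nat_lit 5) (nat_lit 347) (nat_lit 290) (nat_lit 143))))) (XT.nd (nat_lit 234) (nat_lit 228) (nat_lit 0) (XT.nd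 (nat_lit 78) (nat_lit 228) (nat_lit 0) (XT.lf (nat_lit 0) (nat_lit 3207719431) (nat_lit 380) (nat_lit 21584515627) (nat_lit 76) (nat_lit 3890106748) (nat_lit 49) (nat_lit 5) (nat_lit 54) (nat_lit 5) (nat_lit 50) (nat_lit 5) (nat_lit 348) (nat_lit 290) (nat_lit 142)) (XT.nd (nat_lit 78) (nat_lit 228) (nat_lit 0) (XT.lf (nat_lit 0) (nat_lit 7062125313) (nat_lit 380) (nat_lit 10665135258) (nat_lit 76) (nat_lit 11570786802) (nat_lit 49) (nat_lit 5) (nat_lit 54) (nat_lit 5) (nat_lit 50) (nat_lit 5) (nat_lit 349) (nat_lit 290) (nat_lit 141)) (XT.lf (nat_lit 0) (nat_lit 585235986) (nat_lit 228) (nat_lit 10446942771) (nat_lit 304) (nat_lit 18900053654) (nat_lit 46) (nat_lit 5) (nat_lit 49) (nat_lit 5) (nat_lit 50) (nat_lit 5) (nat_lit 350) (nat_lit 290) (nat_lit 140)))) (XT.nd (nat_lit 78) (nat_lit 228) (nat_lit 0) (XT.lf (nat_lit 0) (nat_lit 12383811125) (nat_lit 228) (nat_lit 2839696530) (nat_lit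 304) (nat_lit 15358878637) (nat_lit 46) (nat_lit 5) (nat_lit 49) (nat_lit 5) (nat_lit 50) (nat_lit 5) (nat_lit 351) (nat_lit 290) (nat_lit 139)) (XT.nd (nat_lit 78) (nat_lit 228) (nat_lit 0) (XT.lf (nat_lit 0) (nat_lit 19583214073) (nat_lit 304) (nat_lit 6771571319) (nat_lit 76) (nat_lit 4895988530) (nat_lit 46) (nat_lit 5) (nat_lit 50) (nat_lit 5) (nat_lit 47) (nat_lit 5) (nat_lit 352) (nat_lit 290) (nat_lit 138)) (XT.lf (nat_lit 0) (nat_lit 5061271370) (nat_lit 228) (nat_lit 19083980275) (nat_lit 304) (nat_lit 7791823357) (nat_lit 43) (nat_lit 5) (nat_lit 46) (nat_lit 5) (nat_lit 47) (nat_lit 5) (nat_lit 353) (nat_lit 290) (nat_lit 137))))))) (XT.nd (nat_lit 858) (nat_lit 532) (nat_lit 0) (XT.nd (nat_lit 390) (nat_lit 684) (nat_lit 0) (XT.nd (nat_lit 156) (nat_lit 228) (nat_lit 0) (XT.nd (nat_lit 78) (nat_lit 76) (nat_lit 0) (XT.lf (nat_lit 0) (nat_lit 17380365507) (nat_lit 228) (nat_lit 11527016296)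 (nat_lit 304) (nat_lit 3734694154) (nat_lit 43) (nat_lit 5) (nat_lit 46) (nat_lit 5) (nat_lit 47) (nat_lit 5) (nat_lit 354) (nat_lit 290) (nat_lit 136)) (XT.lf (nat_lit 0) (nat_lit 430426891) (nat_lit 304) (nat_lit 3310896516) (nat_lit 76) (nat_lit 29626934443) (nat_lit 42) (nat_lit 5) (nat_lit 46) (nat_lit 5) (nat_lit 43) (nat_lit 5) (nat_lit 355) (nat_lit 290) (nat_lit 135))) (XT.nd (nat_lit 78) (nat_lit 0) (nat_lit 0) (XT.lf (nat_lit 0) (nat_lit 4770652088) (nat_lit 304) (nat_lit 25022516281) (nat_lit 76) (nat_lit 4318198218) (nat_lit 39) (nat_lit 5) (nat_lit 43) (nat_lit 5) (nat_lit 40) (nat_lit 5) (nat_lit 356) (nat_lit 290) (nat_lit 134)) (XT.nd (nat_lit 78) (nat_lit 0) (nat_lit 0) (XT.lf (nat_lit 0) (nat_lit 9307035621) (nat_lit 304) (nat_lit 12991954828) (nat_lit 76) (nat_lit 12575806506) (nat_lit 39) (nat_lit 5) (nat_lit 43) (nat_lit 5) (nat_lit 40) (nat_lit 5) (nat_lit 357) (nat_lit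 290) (nat_lit 133)) (XT.lf (nat_lit 0) (nat_lit 13974796278) (nat_lit 304) (nat_lit 607539722) (nat_lit 76) (nat_lit 21078942383) (nat_lit 39) (nat_lit 5) (nat_lit 43) (nat_lit 5) (nat_lit 40) (nat_lit 5) (nat_lit 358) (nat_lit 290) (nat_lit 132))))) (XT.nd (nat_lit 234) (nat_lit 304) (nat_lit 0) (XT.nd (nat_lit 78) (nat_lit 152) (nat_lit 0) (XT.lf (nat_lit 0) (nat_lit 12383191030) (nat_lit 228) (nat_lit 6513856462) (nat_lit 304) (nat_lit 17570879551) (nat_lit 36) (nat_lit 5) (nat_lit 39) (nat_lit 5) (nat_lit 40) (nat_lit 5) (nat_lit 359) (nat_lit 290) (nat_lit 131)) (XT.nd (nat_lit 78) (nat_lit 152) (nat_lit 0) (XT.lf (nat_lit 0) (nat_lit 23985901752) (nat_lit 304) (nat_lit 11546734855) (nat_lit 76) (nat_lit 1765576823) (nat_lit 36) (nat_lit 5) (nat_lit 40) (nat_lit 5) (nat_lit 37) (nat_lit 5) (nat_lit 360) (nat_lit 290) (nat_lit 130)) (XT.lf (nat_lit 0) (nat_lit 1322001061) (nat_lit 152) (nat_lit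 27978223101) (nat_lit 228) (nat_lit 8851006317) (nat_lit 34) (nat_lit 5) (nat_lit 36) (nat_lit 5) (nat_lit 37) (nat_lit 5) (nat_lit 361) (nat_lit 290) (nat_lit 129)))) (XT.nd (nat_lit 78) (nat_lit 304) (nat_lit 0) (XT.lf (nat_lit 0) (nat_lit 14806852921) (nat_lit 152) (nat_lit 20079387987) (nat_lit 228) (nat_lit 4140235160) (nat_lit 34) (nat_lit 5) (nat_lit 36) (nat_lit 5) (nat_lit 37) (nat_lit 5) (nat_lit 362) (nat_lit 290) (nat_lit 128)) (XT.nd (nat_lit 78) (nat_lit 228) (nat_lit 0) (XT.lf (nat_lit 0) (nat_lit 693712384) (nat_lit 228) (nat_lit 11245111234) (nat_lit 76) (nat_lit 27989083421) (nat_lit 33) (nat_lit 5) (nat_lit 36) (nat_lit 5) (nat_lit 34) (nat_lit 5) (nat_lit 363) (nat_lit 290) (nat_lit 127)) (XT.lf (nat_lit 0) (nat_lit 2112517183) (nat_lit 228) (nat_lit 3493121495) (nat_lit 304) (nat_lit 35249032702) (nat_lit 30) (nat_lit 5) (nat_lit 33) (nat_lit 5) (nat_lit 34) (nat_lit 5)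 (nat_lit 364) (nat_lit 290) (nat_lit 126)))))) (XT.nd (nat_lit 468) (nat_lit 380) (nat_lit 0) (XT.nd (nat_lit 234) (nat_lit 0) (nat_lit 0) (XT.nd (nat_lit 78) (nat_lit 152) (nat_lit 0) (XT.lf (nat_lit 0) (nat_lit 10825550182) (nat_lit 304) (nat_lit 25762004084) (nat_lit 76) (nat_lit 5216870863) (nat_lit 30) (nat_lit 5) (nat_lit 34) (nat_lit 5) (nat_lit 31) (nat_lit 5) (nat_lit 365) (nat_lit 290) (nat_lit 125)) (XT.nd (nat_lit 78) (nat_lit 152) (nat_lit 0) (XT.lf (nat_lit 0) (nat_lit 16232670375) (nat_lit 304) (nat_lit 12433241786) (nat_lit 76) (nat_lit 14115846140) (nat_lit 30) (nat_lit 5) (nat_lit 34) (nat_lit 5) (nat_lit 31) (nat_lit 5) (nat_lit 366) (nat_lit 290) (nat_lit 124)) (XT.lf (nat_lit 0) (nat_lit 1315017946) (nat_lit 152) (nat_lit 20495768714) (nat_lit 228) (nat_lit 21977366329) (nat_lit 28) (nat_lit 5) (nat_lit 30) (nat_lit 5) (nat_lit 31) (nat_lit 5) (nat_lit 367) (nat_lit 290)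 (nat_lit 123)))) (XT.nd (nat_lit 78) (nat_lit 0) (nat_lit 0) (XT.lf (nat_lit 0) (nat_lit 15724627648) (nat_lit 152) (nat_lit 11953366898) (nat_lit 228) (nat_lit 17143097382) (nat_lit 28) (nat_lit 5) (nat_lit 30) (nat_lit 5) (nat_lit 31) (nat_lit 5) (nat_lit 368) (nat_lit 290) (nat_lit 122)) (XT.nd (nat_lit 78) (nat_lit 0) (nat_lit 0) (XT.lf (nat_lit 0) (nat_lit 30560732348) (nat_lit 152) (nat_lit 3156793842) (nat_lit 228) (nat_lit 12167608331) (nat_lit 28) (nat_lit 5) (nat_lit 30) (nat_lit 5) (nat_lit 31) (nat_lit 5) (nat_lit 369) (nat_lit 290) (nat_lit 121)) (XT.lf (nat_lit 0) (nat_lit 39991388997) (nat_lit 228) (nat_lit 1201645023) (nat_lit 76) (nat_lit 5786474589) (nat_lit 28) (nat_lit 5) (nat_lit 31) (nat_lit 5) (nat_lit 29) (nat_lit 5) (nat_lit 370) (nat_lit 290) (nat_lit 120))))) (XT.nd (nat_lit 234) (nat_lit 152) (nat_lit 0) (XT.nd (nat_lit 78) (nat_lit 76) (nat_lit 0) (XT.lf (nat_lit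 0) (nat_lit 13572843975) (nat_lit 152) (nat_lit 33038850026) (nat_lit 228) (nat_lit 1490277568) (nat_lit 26) (nat_lit 5) (nat_lit 28) (nat_lit 5) (nat_lit 29) (nat_lit 5) (nat_lit 371) (nat_lit 290) (nat_lit 119)) (XT.nd (nat_lit 78) (nat_lit 0) (nat_lit 0) (XT.lf (nat_lit 0) (nat_lit 4099844794) (nat_lit 228) (nat_lit 20488342723) (nat_lit 76) (nat_lit 24668458864) (nat_lit 25) (nat_lit 5) (nat_lit 28) (nat_lit 5) (nat_lit 26) (nat_lit 5) (nat_lit 372) (nat_lit 290) (nat_lit 118)) (XT.lf (nat_lit 0) (nat_lit 9824330497) (nat_lit 228) (nat_lit 6046497060) (nat_lit 76) (nat_lit 34574796903) (nat_lit 25) (nat_lit 5) (nat_lit 28) (nat_lit 5) (nat_lit 26) (nat_lit 5) (nat_lit 373) (nat_lit 290) (nat_lit 117)))) (XT.nd (nat_lit 78) (nat_lit 0) (nat_lit 0) (XT.lf (nat_lit 0) (nat_lit 8998955985) (nat_lit 152) (nat_lit 6804809687) (nat_lit 228) (nat_lit 35864013708) (nat_lit 23) (nat_lit 5) (nat_lit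 25) (nat_lit 5) (nat_lit 26) (nat_lit 5) (nat_lit 374) (nat_lit 290) (nat_lit 116)) (XT.nd (nat_lit 78) (nat_lit 0) (nat_lit 0) (XT.lf (nat_lit 0) (nat_lit 22045335201) (nat_lit 228) (nat_lit 28335283297) (nat_lit 76) (nat_lit 2543501741) (nat_lit 23) (nat_lit 5) (nat_lit 26) (nat_lit 5) (nat_lit 24) (nat_lit 5) (nat_lit 375) (nat_lit 290) (nat_lit 115)) (XT.lf (nat_lit 0) (nat_lit 28538359608) (nat_lit 228) (nat_lit 13644238409) (nat_lit 76) (nat_lit 12033630792) (nat_lit 23) (nat_lit 5) (nat_lit 26) (nat_lit 5) (nat_lit 24) (nat_lit 5) (nat_lit 376) (nat_lit 290) (nat_lit 114))))))))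
noncomputable def xc191 : XT := (XT.nd (nat_lit 34944) (nat_lit 0) (nat_lit 5928) (XT.nd (nat_lit 34008) (nat_lit 0) (nat_lit 10488) (XT.nd (nat_lit 390) (nat_lit 152) (nat_lit 0) (XT.nd (nat_lit 156) (nat_lit 152) (nat_lit 0) (XT.nd (nat_lit 78) (nat_lit 0) (nat_lit 0) (XT.lf (nat_lit 0) (nat_lit 1512065947) (nat_lit 152) (nat_lit 33725569371) (nat_lit 228) (nat_lit 20309125112) (nat_lit 21) (nat_lit 5) (nat_lit 23) (nat_lit 5) (nat_lit 24) (nat_lit 5) (nat_lit 377) (nat_lit 290) (nat_lit 113)) (XT.lf (nat_lit 0) (nat_lit 17397824018) (nat_lit 152) (nat_lit 24874813169) (nat_lit 228) (nat_lit 14640531881) (nat_lit 21) (nat_lit 5) (nat_lit 23) (nat_lit 5) (nat_lit 24) (nat_lit 5) (nat_lit 378) (nat_lit 290) (nat_lit 112))) (XT.nd (nat_lit 78) (nat_lit 152) (nat_lit 0) (XT.lf (nat_lit 0) (nat_lit 33755369464) (nat_lit 152) (nat_lit 15760375797) (nat_lit 228) (nat_lit 8804916424) (nat_lit 21)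 (nat_lit 5) (nat_lit 23) (nat_lit 5) (nat_lit 24) (nat_lit 5) (nat_lit 379) (nat_lit 290) (nat_lit 111)) (XT.nd (nat_lit 78) (nat_lit 152) (nat_lit 0) (XT.lf (nat_lit 0) (nat_lit 50598995286) (nat_lit 152) (nat_lit 6374293182) (nat_lit 228) (nat_lit 2797179659) (nat_lit 21) (nat_lit 5) (nat_lit 23) (nat_lit 5) (nat_lit 24) (nat_lit 5) (nat_lit 380) (nat_lit 290) (nat_lit 110)) (XT.lf (nat_lit 0) (nat_lit 3419592731) (nat_lit 152) (nat_lit 54514246654) (nat_lit 76) (nat_lit 3326105561) (nat_lit 19) (nat_lit 5) (nat_lit 21) (nat_lit 5) (nat_lit 20) (nat_lit 5) (nat_lit 381) (nat_lit 290) (nat_lit 109))))) (XT.nd (nat_lit 234) (nat_lit 152) (nat_lit 0) (XT.nd (nat_lit 78) (nat_lit 0) (nat_lit 0) (XT.lf (nat_lit 0) (nat_lit 9920506269) (nat_lit 152) (nat_lit 39559254484) (nat_lit 76) (nat_lit 13308901740) (nat_lit 19) (nat_lit 5) (nat_lit 21) (nat_lit 5) (nat_lit 20) (nat_lit 5) (nat_lit 382) (nat_lit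 290) (nat_lit 108)) (XT.nd (nat_lit 78) (nat_lit 0) (nat_lit 0) (XT.lf (nat_lit 0) (nat_lit 16613744147) (nat_lit 152) (nat_lit 24160072708) (nat_lit 76) (nat_lit 23589508740) (nat_lit 19) (nat_lit 5) (nat_lit 21) (nat_lit 5) (nat_lit 20) (nat_lit 5) (nat_lit 383) (nat_lit 290) (nat_lit 107)) (XT.lf (nat_lit 0) (nat_lit 23505154824) (nat_lit 152) (nat_lit 8303245729) (nat_lit 76) (nat_lit 34176909616) (nat_lit 19) (nat_lit 5) (nat_lit 21) (nat_lit 5) (nat_lit 20) (nat_lit 5) (nat_lit 384) (nat_lit 290) (nat_lit 106)))) (XT.nd (nat_lit 78) (nat_lit 0) (nat_lit 0) (XT.lf (nat_lit 0) (nat_lit 8184796796) (nat_lit 152) (nat_lit 22494640398) (nat_lit 228) (nat_lit 36974235972) (nat_lit 17) (nat_lit 5) (nat_lit 19) (nat_lit 5) (nat_lit 20) (nat_lit 5) (nat_lit 385) (nat_lit 290) (nat_lit 105)) (XT.nd (nat_lit 33228) (nat_lit 0) (nat_lit 11324) (XT.lf (nat_lit 0) (nat_lit 25333526084) (nat_lit 152)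 (nat_lit 12816754748) (nat_lit 228) (nat_lit 31219368925) (nat_lit 17) (nat_lit 5) (nat_lit 19) (nat_lit 5) (nat_lit 20) (nat_lit 5) (nat_lit 386) (nat_lit 290) (nat_lit 104)) (XT.lf (nat_lit 0) (nat_lit 1145190429) (nat_lit 0) (nat_lit 1145190429) (nat_lit 988) (nat_lit 3056719259) (nat_lit 166) (nat_lit 5) (nat_lit 166) (nat_lit 3) (nat_lit 179) (nat_lit 3) (nat_lit 291) (nat_lit 291) (nat_lit 198)))))) (XT.nd (nat_lit 468) (nat_lit 836) (nat_lit 0) (XT.nd (nat_lit 234) (nat_lit 0) (nat_lit 76) (XT.nd (nat_lit 78) (nat_lit 0) (nat_lit 0) (XT.lf (nat_lit 0) (nat_lit 5216827899) (nat_lit 988) (nat_lit 3954169165) (nat_lit 1064) (nat_lit 1665191924) (nat_lit 166) (nat_lit 5) (nat_lit 179) (nat_lit 3) (nat_lit 180) (nat_lit 5) (nat_lit 292) (nat_lit 291) (nat_lit 197)) (XT.nd (nat_lit 78) (nat_lit 0) (nat_lit 0) (XT.lf (nat_lit 76) (nat_lit 606574100) (nat_lit 0) (nat_lit 5272507992) (nat_lit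 1064) (nat_lit 5103196910) (nat_lit 167) (nat_lit 5) (nat_lit 166) (nat_lit 5) (nat_lit 180) (nat_lit 5) (nat_lit 293) (nat_lit 291) (nat_lit 196)) (XT.lf (nat_lit 76) (nat_lit 5373753688) (nat_lit 0) (nat_lit 1206491163) (nat_lit 1064) (nat_lit 4551988820) (nat_lit 167) (nat_lit 5) (nat_lit 166) (nat_lit 5) (nat_lit 180) (nat_lit 5) (nat_lit 294) (nat_lit 291) (nat_lit 195)))) (XT.nd (nat_lit 78) (nat_lit 0) (nat_lit 0) (XT.lf (nat_lit 0) (nat_lit 7310910696) (nat_lit 988) (nat_lit 1043255858) (nat_lit 1064) (nat_lit 2932318015) (nat_lit 167) (nat_lit 5) (nat_lit 180) (nat_lit 5) (nat_lit 181) (nat_lit 5) (nat_lit 295) (nat_lit 291) (nat_lit 194)) (XT.nd (nat_lit 78) (nat_lit 0) (nat_lit 76) (XT.lf (nat_lit 76) (nat_lit 3865395202) (nat_lit 0) (nat_lit 4227599565) (nat_lit 1064) (nat_lit 3351533408) (nat_lit 168) (nat_lit 5) (nat_lit 167) (nat_lit 5) (nat_lit 181) (nat_lit 5) (nat_lit 296)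 (nat_lit 291) (nat_lit 193)) (XT.lf (nat_lit 0) (nat_lit 8890331423) (nat_lit 988) (nat_lit 2676725283) (nat_lit 1064) (nat_lit 40551354) (nat_lit 168) (nat_lit 5) (nat_lit 181) (nat_lit 5) (nat_lit 182) (nat_lit 5) (nat_lit 297) (nat_lit 291) (nat_lit 192))))) (XT.nd (nat_lit 234) (nat_lit 988) (nat_lit 0) (XT.nd (nat_lit 78) (nat_lit 0) (nat_lit 0) (XT.lf (nat_lit 76) (nat_lit 2365308612) (nat_lit 0) (nat_lit 7392361247) (nat_lit 1064) (nat_lit 2016575285) (nat_lit 169) (nat_lit 5) (nat_lit 168) (nat_lit 5) (nat_lit 182) (nat_lit 5) (nat_lit 298) (nat_lit 291) (nat_lit 191)) (XT.nd (nat_lit 78) (nat_lit 0) (nat_lit 76) (XT.lf (nat_lit 76) (nat_lit 7601844616) (nat_lit 0) (nat_lit 3058128389) (nat_lit 1064) (nat_lit 1285685874) (nat_lit 169) (nat_lit 5) (nat_lit 168) (nat_lit 5) (nat_lit 182) (nat_lit 5) (nat_lit 299) (nat_lit 291) (nat_lit 190)) (XT.lf (nat_lit 76) (nat_lit 864696435) (nat_lit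 0) (nat_lit 10728979279) (nat_lit 1064) (nat_lit 528453938) (nat_lit 170) (nat_lit 5) (nat_lit 169) (nat_lit 5) (nat_lit 183) (nat_lit 5) (nat_lit 300) (nat_lit 291) (nat_lit 189)))) (XT.nd (nat_lit 78) (nat_lit 0) (nat_lit 0) (XT.lf (nat_lit 0) (nat_lit 303850518) (nat_lit 1064) (nat_lit 6029394220) (nat_lit 1140) (nat_lit 5968901374) (nat_lit 155) (nat_lit 5) (nat_lit 169) (nat_lit 5) (nat_lit 170) (nat_lit 5) (nat_lit 301) (nat_lit 291) (nat_lit 188)) (XT.nd (nat_lit 78) (nat_lit 0) (nat_lit 76) (XT.lf (nat_lit 0) (nat_lit 1133693323) (nat_lit 1064) (nat_lit 661582833) (nat_lit 1140) (nat_lit 10692674986) (nat_lit 155) (nat_lit 5) (nat_lit 169) (nat_lit 5) (nat_lit 170) (nat_lit 5) (nat_lit 302) (nat_lit 291) (nat_lit 187)) (XT.lf (nat_lit 0) (nat_lit 2047908061) (nat_lit 1064) (nat_lit 7754211712) (nat_lit 1140) (nat_lit 2875465824) (nat_lit 156) (nat_lit 5) (nat_lit 170) (nat_lit 5) (nat_lit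 171) (nat_lit 5) (nat_lit 303) (nat_lit 291) (nat_lit 186))))))) (XT.nd (nat_lit 858) (nat_lit 2432) (nat_lit 0) (XT.nd (nat_lit 390) (nat_lit 2204) (nat_lit 0) (XT.nd (nat_lit 156) (nat_lit 0) (nat_lit 76) (XT.nd (nat_lit 78) (nat_lit 0) (nat_lit 0) (XT.lf (nat_lit 0) (nat_lit 2998161220) (nat_lit 1064) (nat_lit 2213048873) (nat_lit 1140) (nat_lit 7661479053) (nat_lit 156) (nat_lit 5) (nat_lit 170) (nat_lit 5) (nat_lit 171) (nat_lit 5) (nat_lit 304) (nat_lit 291) (nat_lit 185)) (XT.lf (nat_lit 76) (nat_lit 3552070150) (nat_lit 0) (nat_lit 443550023) (nat_lit 1140) (nat_lit 9077501985) (nat_lit 157) (nat_lit 5) (nat_lit 156) (nat_lit 5) (nat_lit 171) (nat_lit 5) (nat_lit 305) (nat_lit 291) (nat_lit 184))) (XT.nd (nat_lit 78) (nat_lit 0) (nat_lit 0) (XT.lf (nat_lit 0) (nat_lit 5073440453) (nat_lit 1064) (nat_lit 3798554836) (nat_lit 1140) (nat_lit 4406095960) (nat_lit 157) (nat_lit 5) (nat_lit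 171) (nat_lit 5) (nat_lit 172) (nat_lit 5) (nat_lit 306) (nat_lit 291) (nat_lit 183)) (XT.nd (nat_lit 78) (nat_lit 0) (nat_lit 76) (XT.lf (nat_lit 76) (nat_lit 2120959802) (nat_lit 0) (nat_lit 4072782038) (nat_lit 1140) (nat_lit 7295198338) (nat_lit 158) (nat_lit 5) (nat_lit 157) (nat_lit 5) (nat_lit 172) (nat_lit 5) (nat_lit 307) (nat_lit 291) (nat_lit 182)) (XT.lf (nat_lit 0) (nat_lit 7380465844) (nat_lit 1064) (nat_lit 5429813537) (nat_lit 76) (nat_lit 894884924) (nat_lit 158) (nat_lit 5) (nat_lit 172) (nat_lit 5) (nat_lit 159) (nat_lit 5) (nat_lit 308) (nat_lit 291) (nat_lit 181))))) (XT.nd (nat_lit 234) (nat_lit 1292) (nat_lit 0) (XT.nd (nat_lit 78) (nat_lit 0) (nat_lit 0) (XT.lf (nat_lit 0) (nat_lit 647122234) (nat_lit 1064) (nat_lit 7988339630) (nat_lit 1140) (nat_lit 5291466324) (nat_lit 144) (nat_lit 5) (nat_lit 158) (nat_lit 5) (nat_lit 159) (nat_lit 5) (nat_lit 309) (nat_lit 291)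 (nat_lit 180)) (XT.nd (nat_lit 78) (nat_lit 0) (nat_lit 0) (XT.lf (nat_lit 0) (nat_lit 7006107253) (nat_lit 1064) (nat_lit 2963249127) (nat_lit 1140) (nat_lit 4184783326) (nat_lit 144) (nat_lit 5) (nat_lit 158) (nat_lit 5) (nat_lit 159) (nat_lit 5) (nat_lit 310) (nat_lit 291) (nat_lit 179)) (XT.lf (nat_lit 0) (nat_lit 11351369097) (nat_lit 1140) (nat_lit 865248055) (nat_lit 76) (nat_lit 2171338617) (nat_lit 144) (nat_lit 5) (nat_lit 159) (nat_lit 5) (nat_lit 145) (nat_lit 5) (nat_lit 311) (nat_lit 291) (nat_lit 178)))) (XT.nd (nat_lit 78) (nat_lit 608) (nat_lit 0) (XT.lf (nat_lit 0) (nat_lit 5676108603) (nat_lit 684) (nat_lit 7169850994) (nat_lit 760) (nat_lit 1780723524) (nat_lit 135) (nat_lit 5) (nat_lit 144) (nat_lit 5) (nat_lit 145) (nat_lit 5) (nat_lit 312) (nat_lit 291) (nat_lit 177)) (XT.nd (nat_lit 78) (nat_lit 608) (nat_lit 0) (XT.lf (nat_lit 0) (nat_lit 12420220317) (nat_lit 684) (nat_lit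 1961385351) (nat_lit 760) (nat_lit 491109536) (nat_lit 135) (nat_lit 5) (nat_lit 144) (nat_lit 5) (nat_lit 145) (nat_lit 5) (nat_lit 313) (nat_lit 291) (nat_lit 176)) (XT.lf (nat_lit 0) (nat_lit 883153719) (nat_lit 608) (nat_lit 10852933623) (nat_lit 76) (nat_lit 3387958310) (nat_lit 127) (nat_lit 5) (nat_lit 135) (nat_lit 5) (nat_lit 128) (nat_lit 5) (nat_lit 314) (nat_lit 291) (nat_lit 175)))))) (XT.nd (nat_lit 468) (nat_lit 1444) (nat_lit 0) (XT.nd (nat_lit 234) (nat_lit 456) (nat_lit 0) (XT.nd (nat_lit 78) (nat_lit 532) (nat_lit 0) (XT.lf (nat_lit 0) (nat_lit 2321162704) (nat_lit 608) (nat_lit 4171456148) (nat_lit 76) (nat_lit 8889206577) (nat_lit 127) (nat_lit 5) (nat_lit 135) (nat_lit 5) (nat_lit 128) (nat_lit 5) (nat_lit 315) (nat_lit 291) (nat_lit 174)) (XT.nd (nat_lit 78) (nat_lit 0) (nat_lit 0) (XT.lf (nat_lit 0) (nat_lit 2753064892) (nat_lit 532) (nat_lit 1064020334) (nat_lit 608)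 (nat_lit 11829836336) (nat_lit 120) (nat_lit 5) (nat_lit 127) (nat_lit 5) (nat_lit 128) (nat_lit 5) (nat_lit 316) (nat_lit 291) (nat_lit 173)) (XT.lf (nat_lit 0) (nat_lit 5432494517) (nat_lit 608) (nat_lit 6003199362) (nat_lit 76) (nat_lit 4482063828) (nat_lit 120) (nat_lit 5) (nat_lit 128) (nat_lit 5) (nat_lit 121) (nat_lit 5) (nat_lit 317) (nat_lit 291) (nat_lit 172)))) (XT.nd (nat_lit 78) (nat_lit 0) (nat_lit 0) (XT.lf (nat_lit 0) (nat_lit 1093933804) (nat_lit 456) (nat_lit 6012364266) (nat_lit 532) (nat_lit 9090147570) (nat_lit 114) (nat_lit 5) (nat_lit 120) (nat_lit 5) (nat_lit 121) (nat_lit 5) (nat_lit 318) (nat_lit 291) (nat_lit 171)) (XT.nd (nat_lit 78) (nat_lit 0) (nat_lit 0) (XT.lf (nat_lit 0) (nat_lit 8516093460) (nat_lit 456) (nat_lit 363942984) (nat_lit 532) (nat_lit 7601990085) (nat_lit 114) (nat_lit 5) (nat_lit 120) (nat_lit 5) (nat_lit 121) (nat_lit 5) (nat_lit 319) (nat_lit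 291) (nat_lit 170)) (XT.lf (nat_lit 0) (nat_lit 10748830695) (nat_lit 532) (nat_lit 678652091) (nat_lit 76) (nat_lit 5347459995) (nat_lit 114) (nat_lit 5) (nat_lit 121) (nat_lit 5) (nat_lit 115) (nat_lit 5) (nat_lit 320) (nat_lit 291) (nat_lit 169))))) (XT.nd (nat_lit 234) (nat_lit 532) (nat_lit 0) (XT.nd (nat_lit 78) (nat_lit 456) (nat_lit 0) (XT.lf (nat_lit 0) (nat_lit 6948586721) (nat_lit 456) (nat_lit 5785224953) (nat_lit 532) (nat_lit 4341053727) (nat_lit 108) (nat_lit 5) (nat_lit 114) (nat_lit 5) (nat_lit 115) (nat_lit 5) (nat_lit 321) (nat_lit 291) (nat_lit 168)) (XT.nd (nat_lit 78) (nat_lit 456) (nat_lit 0) (XT.lf (nat_lit 0) (nat_lit 14775434644) (nat_lit 532) (nat_lit 2576210839) (nat_lit 76) (nat_lit 32249350) (nat_lit 108) (nat_lit 5) (nat_lit 115) (nat_lit 5) (nat_lit 109) (nat_lit 5) (nat_lit 322) (nat_lit 291) (nat_lit 167)) (XT.lf (nat_lit 0) (nat_lit 5234679001) (nat_lit 456)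 (nat_lit 11741438155) (nat_lit 532) (nat_lit 723164939) (nat_lit 102) (nat_lit 5) (nat_lit 108) (nat_lit 5) (nat_lit 109) (nat_lit 5) (nat_lit 323) (nat_lit 291) (nat_lit 166)))) (XT.nd (nat_lit 78) (nat_lit 456) (nat_lit 0) (XT.lf (nat_lit 0) (nat_lit 1211462211) (nat_lit 532) (nat_lit 4713275631) (nat_lit 76) (nat_lit 12098565119) (nat_lit 101) (nat_lit 5) (nat_lit 108) (nat_lit 5) (nat_lit 102) (nat_lit 5) (nat_lit 324) (nat_lit 291) (nat_lit 165)) (XT.nd (nat_lit 78) (nat_lit 0) (nat_lit 0) (XT.lf (nat_lit 0) (nat_lit 3213067898) (nat_lit 532) (nat_lit 15039365451) (nat_lit 76) (nat_lit 103711531) (nat_lit 95) (nat_lit 5) (nat_lit 102) (nat_lit 5) (nat_lit 96) (nat_lit 5) (nat_lit 325) (nat_lit 291) (nat_lit 164)) (XT.lf (nat_lit 0) (nat_lit 5372180294) (nat_lit 532) (nat_lit 7082855916) (nat_lit 76) (nat_lit 6241030992) (nat_lit 95) (nat_lit 5) (nat_lit 102) (nat_lit 5) (nat_lit 96) (nat_lit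 5) (nat_lit 326) (nat_lit 291) (nat_lit 163))))))))
noncomputable def xc192 : XT := (XT.nd (nat_lit 1716) (nat_lit 1976) (nat_lit 0) (XT.nd (nat_lit 858) (nat_lit 1216) (nat_lit 0) (XT.nd (nat_lit 390) (nat_lit 1140) (nat_lit 0) (XT.nd (nat_lit 156) (nat_lit 380) (nat_lit 0) (XT.nd (nat_lit 78) (nat_lit 0) (nat_lit 0) (XT.lf (nat_lit 0) (nat_lit 1124056727) (nat_lit 380) (nat_lit 6473816094) (nat_lit 456) (nat_lit 11448278519) (nat_lit 90) (nat_lit 5) (nat_lit 95) (nat_lit 5) (nat_lit 96) (nat_lit 5) (nat_lit 327) (nat_lit 291) (nat_lit 162)) (XT.lf (nat_lit 0) (nat_lit 9712242041) (nat_lit 380) (nat_lit 240783427) (nat_lit 456) (nat_lit 9451849670) (nat_lit 90) (nat_lit 5) (nat_lit 95) (nat_lit 5) (nat_lit 96) (nat_lit 5) (nat_lit 328) (nat_lit 291) (nat_lit 161))) (XT.nd (nat_lit 78) (nat_lit 380) (nat_lit 0) (XT.lf (nat_lit 0) (nat_lit 12429642945) (nat_lit 456) (nat_lit 1285780266) (nat_lit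 76) (nat_lit 6057430428) (nat_lit 90) (nat_lit 5) (nat_lit 96) (nat_lit 5) (nat_lit 91) (nat_lit 5) (nat_lit 329) (nat_lit 291) (nat_lit 160)) (XT.nd (nat_lit 78) (nat_lit 0) (nat_lit 0) (XT.lf (nat_lit 0) (nat_lit 7507594468) (nat_lit 380) (nat_lit 7539177821) (nat_lit 456) (nat_lit 5103129598) (nat_lit 85) (nat_lit 5) (nat_lit 90) (nat_lit 5) (nat_lit 91) (nat_lit 5) (nat_lit 330) (nat_lit 291) (nat_lit 159)) (XT.lf (nat_lit 0) (nat_lit 16581423862) (nat_lit 380) (nat_lit 1165786854) (nat_lit 456) (nat_lit 2790923315) (nat_lit 85) (nat_lit 5) (nat_lit 90) (nat_lit 5) (nat_lit 91) (nat_lit 5) (nat_lit 331) (nat_lit 291) (nat_lit 158))))) (XT.nd (nat_lit 234) (nat_lit 304) (nat_lit 0) (XT.nd (nat_lit 78) (nat_lit 456) (nat_lit 0) (XT.lf (nat_lit 0) (nat_lit 5025971809) (nat_lit 380) (nat_lit 15594935533) (nat_lit 456) (nat_lit 314354274) (nat_lit 80) (nat_lit 5) (nat_lit 85) (nat_lit 5) (nat_lit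 86) (nat_lit 5) (nat_lit 332) (nat_lit 291) (nat_lit 157)) (XT.nd (nat_lit 78) (nat_lit 380) (nat_lit 0) (XT.lf (nat_lit 0) (nat_lit 2236845667) (nat_lit 456) (nat_lit 7027037346) (nat_lit 76) (nat_lit 12078470687) (nat_lit 79) (nat_lit 5) (nat_lit 85) (nat_lit 5) (nat_lit 80) (nat_lit 5) (nat_lit 333) (nat_lit 291) (nat_lit 156)) (XT.lf (nat_lit 0) (nat_lit 2151090316) (nat_lit 380) (nat_lit 2720164444) (nat_lit 456) (nat_lit 16889935160) (nat_lit 74) (nat_lit 5) (nat_lit 79) (nat_lit 5) (nat_lit 80) (nat_lit 5) (nat_lit 334) (nat_lit 291) (nat_lit 155)))) (XT.nd (nat_lit 78) (nat_lit 304) (nat_lit 0) (XT.lf (nat_lit 0) (nat_lit 7687429634) (nat_lit 456) (nat_lit 10490783242) (nat_lit 76) (nat_lit 4011310408) (nat_lit 74) (nat_lit 5) (nat_lit 80) (nat_lit 5) (nat_lit 75) (nat_lit 5) (nat_lit 335) (nat_lit 291) (nat_lit 154)) (XT.nd (nat_lit 78) (nat_lit 304) (nat_lit 0) (XT.lf (nat_lit 0) (nat_lit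 10607672787) (nat_lit 456) (nat_lit 1134126510) (nat_lit 76) (nat_lit 10888333515) (nat_lit 74) (nat_lit 5) (nat_lit 80) (nat_lit 5) (nat_lit 75) (nat_lit 5) (nat_lit 336) (nat_lit 291) (nat_lit 153)) (XT.lf (nat_lit 0) (nat_lit 8663245315) (nat_lit 304) (nat_lit 5028419103) (nat_lit 380) (nat_lit 9390025230) (nat_lit 70) (nat_lit 5) (nat_lit 74) (nat_lit 5) (nat_lit 75) (nat_lit 5) (nat_lit 337) (nat_lit 291) (nat_lit 152)))))) (XT.nd (nat_lit 390) (nat_lit 532) (nat_lit 0) (XT.nd (nat_lit 156) (nat_lit 380) (nat_lit 0) (XT.nd (nat_lit 78) (nat_lit 304) (nat_lit 0) (XT.lf (nat_lit 0) (nat_lit 16890842511) (nat_lit 380) (nat_lit 4796060926) (nat_lit 76) (nat_lit 1859222620) (nat_lit 70) (nat_lit 5) (nat_lit 75) (nat_lit 5) (nat_lit 71) (nat_lit 5) (nat_lit 338) (nat_lit 291) (nat_lit 151)) (XT.lf (nat_lit 0) (nat_lit 5156953115) (nat_lit 304) (nat_lit 15121573760) (nat_lit 380) (nat_lit 3743205251)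 (nat_lit 66) (nat_lit 5) (nat_lit 70) (nat_lit 5) (nat_lit 71) (nat_lit 5) (nat_lit 339) (nat_lit 291) (nat_lit 150))) (XT.nd (nat_lit 78) (nat_lit 380) (nat_lit 0) (XT.lf (nat_lit 0) (nat_lit 15498073967) (nat_lit 304) (nat_lit 8311485705) (nat_lit 380) (nat_lit 700807300) (nat_lit 66) (nat_lit 5) (nat_lit 70) (nat_lit 5) (nat_lit 71) (nat_lit 5) (nat_lit 340) (nat_lit 291) (nat_lit 149)) (XT.nd (nat_lit 78) (nat_lit 0) (nat_lit 0) (XT.lf (nat_lit 0) (nat_lit 1125662588) (nat_lit 304) (nat_lit 1263953181) (nat_lit 380) (nat_lit 22623228131) (nat_lit 61) (nat_lit 5) (nat_lit 65) (nat_lit 5) (nat_lit 66) (nat_lit 5) (nat_lit 341) (nat_lit 291) (nat_lit 148)) (XT.lf (nat_lit 0) (nat_lit 5701696782) (nat_lit 380) (nat_lit 13849417027) (nat_lit 76) (nat_lit 5974793345) (nat_lit 61) (nat_lit 5) (nat_lit 66) (nat_lit 5) (nat_lit 62) (nat_lit 5) (nat_lit 342) (nat_lit 291) (nat_lit 147))))) (XT.nd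 (nat_lit 234) (nat_lit 228) (nat_lit 0) (XT.nd (nat_lit 78) (nat_lit 304) (nat_lit 0) (XT.lf (nat_lit 0) (nat_lit 9119339642) (nat_lit 380) (nat_lit 3531563044) (nat_lit 76) (nat_lit 13403284417) (nat_lit 61) (nat_lit 5) (nat_lit 66) (nat_lit 5) (nat_lit 62) (nat_lit 5) (nat_lit 343) (nat_lit 291) (nat_lit 146)) (XT.nd (nat_lit 78) (nat_lit 0) (nat_lit 0) (XT.lf (nat_lit 0) (nat_lit 7228602193) (nat_lit 304) (nat_lit 5474264301) (nat_lit 380) (nat_lit 13893558778) (nat_lit 57) (nat_lit 5) (nat_lit 61) (nat_lit 5) (nat_lit 62) (nat_lit 5) (nat_lit 344) (nat_lit 291) (nat_lit 145)) (XT.lf (nat_lit 0) (nat_lit 16442295831) (nat_lit 380) (nat_lit 8797051207) (nat_lit 76) (nat_lit 1914141809) (nat_lit 57) (nat_lit 5) (nat_lit 62) (nat_lit 5) (nat_lit 58) (nat_lit 5) (nat_lit 345) (nat_lit 291) (nat_lit 144)))) (XT.nd (nat_lit 78) (nat_lit 0) (nat_lit 0) (XT.lf (nat_lit 0) (nat_lit 2068888924) (nat_lit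 228) (nat_lit 18293231340) (nat_lit 304) (nat_lit 7363107562) (nat_lit 54) (nat_lit 5) (nat_lit 57) (nat_lit 5) (nat_lit 58) (nat_lit 5) (nat_lit 346) (nat_lit 291) (nat_lit 143)) (XT.nd (nat_lit 78) (nat_lit 0) (nat_lit 0) (XT.lf (nat_lit 0) (nat_lit 13433092114) (nat_lit 228) (nat_lit 11049498236) (nat_lit 304) (nat_lit 3829046674) (nat_lit 54) (nat_lit 5) (nat_lit 57) (nat_lit 5) (nat_lit 58) (nat_lit 5) (nat_lit 347) (nat_lit 291) (nat_lit 142)) (XT.lf (nat_lit 0) (nat_lit 25130409680) (nat_lit 228) (nat_lit 3590651221) (nat_lit 304) (nat_lit 194755305) (nat_lit 54) (nat_lit 5) (nat_lit 57) (nat_lit 5) (nat_lit 58) (nat_lit 5) (nat_lit 348) (nat_lit 291) (nat_lit 141))))))) (XT.nd (nat_lit 858) (nat_lit 836) (nat_lit 0) (XT.nd (nat_lit 390) (nat_lit 532) (nat_lit 0) (XT.nd (nat_lit 156) (nat_lit 228) (nat_lit 0) (XT.nd (nat_lit 78) (nat_lit 0) (nat_lit 0) (XT.lf (nat_lit 0) (nat_lit 3588692470)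 (nat_lit 380) (nat_lit 21825483751) (nat_lit 76) (nat_lit 4119648788) (nat_lit 49) (nat_lit 5) (nat_lit 54) (nat_lit 5) (nat_lit 50) (nat_lit 5) (nat_lit 349) (nat_lit 291) (nat_lit 140)) (XT.lf (nat_lit 0) (nat_lit 7550437087) (nat_lit 380) (nat_lit 10590363739) (nat_lit 76) (nat_lit 12027462675) (nat_lit 49) (nat_lit 5) (nat_lit 54) (nat_lit 5) (nat_lit 50) (nat_lit 5) (nat_lit 350) (nat_lit 291) (nat_lit 139))) (XT.nd (nat_lit 78) (nat_lit 0) (nat_lit 0) (XT.lf (nat_lit 0) (nat_lit 993648784) (nat_lit 228) (nat_lit 10641648610) (nat_lit 304) (nat_lit 19186318116) (nat_lit 46) (nat_lit 5) (nat_lit 49) (nat_lit 5) (nat_lit 50) (nat_lit 5) (nat_lit 351) (nat_lit 291) (nat_lit 138)) (XT.nd (nat_lit 78) (nat_lit 0) (nat_lit 0) (XT.lf (nat_lit 0) (nat_lit 13134797030) (nat_lit 228) (nat_lit 2809642335) (nat_lit 304) (nat_lit 15547084659) (nat_lit 46) (nat_lit 5) (nat_lit 49) (nat_lit 5) (nat_lit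 50) (nat_lit 5) (nat_lit 352) (nat_lit 291) (nat_lit 137)) (XT.lf (nat_lit 0) (nat_lit 20428316599) (nat_lit 304) (nat_lit 6599283873) (nat_lit 76) (nat_lit 5152573277) (nat_lit 46) (nat_lit 5) (nat_lit 50) (nat_lit 5) (nat_lit 47) (nat_lit 5) (nat_lit 353) (nat_lit 291) (nat_lit 136))))) (XT.nd (nat_lit 234) (nat_lit 228) (nat_lit 0) (XT.nd (nat_lit 78) (nat_lit 76) (nat_lit 0) (XT.lf (nat_lit 0) (nat_lit 5584863364) (nat_lit 228) (nat_lit 19538422369) (nat_lit 304) (nat_lit 7763907527) (nat_lit 43) (nat_lit 5) (nat_lit 46) (nat_lit 5) (nat_lit 47) (nat_lit 5) (nat_lit 354) (nat_lit 291) (nat_lit 135)) (XT.nd (nat_lit 78) (nat_lit 76) (nat_lit 0) (XT.lf (nat_lit 0) (nat_lit 18262702543) (nat_lit 228) (nat_lit 11758188616) (nat_lit 304) (nat_lit 3592685919) (nat_lit 43) (nat_lit 5) (nat_lit 46) (nat_lit 5) (nat_lit 47) (nat_lit 5) (nat_lit 355) (nat_lit 291) (nat_lit 134)) (XT.lf (nat_lit 0)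 (nat_lit 685176248) (nat_lit 304) (nat_lit 3054645593) (nat_lit 76) (nat_lit 30621877513) (nat_lit 42) (nat_lit 5) (nat_lit 46) (nat_lit 5) (nat_lit 43) (nat_lit 5) (nat_lit 356) (nat_lit 291) (nat_lit 133)))) (XT.nd (nat_lit 78) (nat_lit 0) (nat_lit 0) (XT.lf (nat_lit 0) (nat_lit 5153043954) (nat_lit 304) (nat_lit 25414708796) (nat_lit 76) (nat_lit 4559435756) (nat_lit 39) (nat_lit 5) (nat_lit 43) (nat_lit 5) (nat_lit 40) (nat_lit 5) (nat_lit 357) (nat_lit 291) (nat_lit 132)) (XT.nd (nat_lit 78) (nat_lit 0) (nat_lit 0) (XT.lf (nat_lit 0) (nat_lit 9818549898) (nat_lit 304) (nat_lit 13033671751) (nat_lit 76) (nat_lit 13061519139) (nat_lit 39) (nat_lit 5) (nat_lit 43) (nat_lit 5) (nat_lit 40) (nat_lit 5) (nat_lit 358) (nat_lit 291) (nat_lit 131)) (XT.lf (nat_lit 0) (nat_lit 14619577262) (nat_lit 304) (nat_lit 287861329) (nat_lit 76) (nat_lit 21816590692) (nat_lit 39) (nat_lit 5) (nat_lit 43) (nat_lit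 5) (nat_lit 40) (nat_lit 5) (nat_lit 359) (nat_lit 291) (nat_lit 130)))))) (XT.nd (nat_lit 468) (nat_lit 152) (nat_lit 0) (XT.nd (nat_lit 234) (nat_lit 304) (nat_lit 0) (XT.nd (nat_lit 78) (nat_lit 152) (nat_lit 0) (XT.lf (nat_lit 0) (nat_lit 13089278556) (nat_lit 228) (nat_lit 6596864716) (nat_lit 304) (nat_lit 17868844073) (nat_lit 36) (nat_lit 5) (nat_lit 39) (nat_lit 5) (nat_lit 40) (nat_lit 5) (nat_lit 360) (nat_lit 291) (nat_lit 129)) (XT.nd (nat_lit 78) (nat_lit 152) (nat_lit 0) (XT.lf (nat_lit 0) (nat_lit 24922240827) (nat_lit 304) (nat_lit 11562565274) (nat_lit 76) (nat_lit 1925547978) (nat_lit 36) (nat_lit 5) (nat_lit 40) (nat_lit 5) (nat_lit 37) (nat_lit 5) (nat_lit 361) (nat_lit 291) (nat_lit 128)) (XT.lf (nat_lit 0) (nat_lit 1688991821) (nat_lit 152) (nat_lit 28703834134) (nat_lit 228) (nat_lit 8896239515) (nat_lit 34) (nat_lit 5) (nat_lit 36) (nat_lit 5) (nat_lit 37) (nat_lit 5)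 (nat_lit 362) (nat_lit 291) (nat_lit 127)))) (XT.nd (nat_lit 78) (nat_lit 304) (nat_lit 0) (XT.lf (nat_lit 0) (nat_lit 15568855332) (nat_lit 152) (nat_lit 20571346656) (nat_lit 228) (nat_lit 4050561640) (nat_lit 34) (nat_lit 5) (nat_lit 36) (nat_lit 5) (nat_lit 37) (nat_lit 5) (nat_lit 363) (nat_lit 291) (nat_lit 126)) (XT.nd (nat_lit 78) (nat_lit 228) (nat_lit 0) (XT.lf (nat_lit 0) (nat_lit 918122779) (nat_lit 228) (nat_lit 11269602830) (nat_lit 76) (nat_lit 28931641554) (nat_lit 33) (nat_lit 5) (nat_lit 36) (nat_lit 5) (nat_lit 34) (nat_lit 5) (nat_lit 364) (nat_lit 291) (nat_lit 125)) (XT.lf (nat_lit 0) (nat_lit 2485687168) (nat_lit 228) (nat_lit 3488767559) (nat_lit 304) (nat_lit 36099576109) (nat_lit 30) (nat_lit 5) (nat_lit 33) (nat_lit 5) (nat_lit 34) (nat_lit 5) (nat_lit 365) (nat_lit 291) (nat_lit 124))))) (XT.nd (nat_lit 234) (nat_lit 0) (nat_lit 0) (XT.nd (nat_lit 78) (nat_lit 152)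 (nat_lit 0) (XT.lf (nat_lit 0) (nat_lit 11346138126) (nat_lit 304) (nat_lit 26229013759) (nat_lit 76) (nat_lit 5477277687) (nat_lit 30) (nat_lit 5) (nat_lit 34) (nat_lit 5) (nat_lit 31) (nat_lit 5) (nat_lit 366) (nat_lit 291) (nat_lit 123)) (XT.nd (nat_lit 78) (nat_lit 152) (nat_lit 0) (XT.lf (nat_lit 0) (nat_lit 16909768388) (nat_lit 304) (nat_lit 12509296857) (nat_lit 76) (nat_lit 14640195987) (nat_lit 30) (nat_lit 5) (nat_lit 34) (nat_lit 5) (nat_lit 31) (nat_lit 5) (nat_lit 367) (nat_lit 291) (nat_lit 122)) (XT.lf (nat_lit 0) (nat_lit 1648499469) (nat_lit 152) (nat_lit 21004017684) (nat_lit 228) (nat_lit 22443419112) (nat_lit 28) (nat_lit 5) (nat_lit 30) (nat_lit 5) (nat_lit 31) (nat_lit 5) (nat_lit 368) (nat_lit 291) (nat_lit 121)))) (XT.nd (nat_lit 78) (nat_lit 0) (nat_lit 0) (XT.lf (nat_lit 0) (nat_lit 16481833452) (nat_lit 152) (nat_lit 12208449370) (nat_lit 228) (nat_lit 17469751268)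 (nat_lit 28) (nat_lit 5) (nat_lit 30) (nat_lit 5) (nat_lit 31) (nat_lit 5) (nat_lit 369) (nat_lit 291) (nat_lit 120)) (XT.nd (nat_lit 78) (nat_lit 0) (nat_lit 0) (XT.lf (nat_lit 0) (nat_lit 31754706721) (nat_lit 152) (nat_lit 3150994225) (nat_lit 228) (nat_lit 12350462760) (nat_lit 28) (nat_lit 5) (nat_lit 30) (nat_lit 5) (nat_lit 31) (nat_lit 5) (nat_lit 370) (nat_lit 291) (nat_lit 119)) (XT.lf (nat_lit 0) (nat_lit 41363572483) (nat_lit 228) (nat_lit 964188400) (nat_lit 76) (nat_lit 6055740912) (nat_lit 28) (nat_lit 5) (nat_lit 31) (nat_lit 5) (nat_lit 29) (nat_lit 5) (nat_lit 371) (nat_lit 291) (nat_lit 118))))))))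
noncomputable def xc193 : XT := (XT.nd (nat_lit 34944) (nat_lit 0) (nat_lit 7372) (XT.nd (nat_lit 858) (nat_lit 152) (nat_lit 0) (XT.nd (nat_lit 390) (nat_lit 304) (nat_lit 0) (XT.nd (nat_lit 156) (nat_lit 152) (nat_lit 0) (XT.nd (nat_lit 78) (nat_lit 76) (nat_lit 0) (XT.lf (nat_lit 0) (nat_lit 14250853837) (nat_lit 152) (nat_lit 33929213556) (nat_lit 228) (nat_lit 1359650204) (nat_lit 26) (nat_lit 5) (nat_lit 28) (nat_lit 5) (nat_lit 29) (nat_lit 5) (nat_lit 372) (nat_lit 291) (nat_lit 117)) (XT.lf (nat_lit 0) (nat_lit 4389747186) (nat_lit 228) (nat_lit 20836534530) (nat_lit 76) (nat_lit 25502856596) (nat_lit 25) (nat_lit 5) (nat_lit 28) (nat_lit 5) (nat_lit 26) (nat_lit 5) (nat_lit 373) (nat_lit 291) (nat_lit 116))) (XT.nd (nat_lit 78) (nat_lit 152) (nat_lit 0) (XT.lf (nat_lit 0) (nat_lit 10281106090) (nat_lit 228) (nat_lit 5969194424) (nat_lit 76) (nat_lit 35703636893) (nat_lit 25) (nat_lit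 5) (nat_lit 28) (nat_lit 5) (nat_lit 26) (nat_lit 5) (nat_lit 374) (nat_lit 291) (nat_lit 115)) (XT.nd (nat_lit 78) (nat_lit 0) (nat_lit 0) (XT.lf (nat_lit 0) (nat_lit 9525085961) (nat_lit 152) (nat_lit 6912580961) (nat_lit 228) (nat_lit 36775163438) (nat_lit 23) (nat_lit 5) (nat_lit 25) (nat_lit 5) (nat_lit 26) (nat_lit 5) (nat_lit 375) (nat_lit 291) (nat_lit 114)) (XT.lf (nat_lit 0) (nat_lit 22862728924) (nat_lit 228) (nat_lit 28932703638) (nat_lit 76) (nat_lit 2711547019) (nat_lit 23) (nat_lit 5) (nat_lit 26) (nat_lit 5) (nat_lit 24) (nat_lit 5) (nat_lit 376) (nat_lit 291) (nat_lit 113))))) (XT.nd (nat_lit 234) (nat_lit 152) (nat_lit 0) (XT.nd (nat_lit 78) (nat_lit 152) (nat_lit 0) (XT.lf (nat_lit 0) (nat_lit 29545999393) (nat_lit 228) (nat_lit 13808285797) (nat_lit 76) (nat_lit 12483707896) (nat_lit 23) (nat_lit 5) (nat_lit 26) (nat_lit 5) (nat_lit 24) (nat_lit 5) (nat_lit 377) (nat_lit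 291) (nat_lit 112)) (XT.nd (nat_lit 78) (nat_lit 0) (nat_lit 0) (XT.lf (nat_lit 0) (nat_lit 1800302987) (nat_lit 152) (nat_lit 34643872751) (nat_lit 228) (nat_lit 20764332429) (nat_lit 21) (nat_lit 5) (nat_lit 23) (nat_lit 5) (nat_lit 24) (nat_lit 5) (nat_lit 378) (nat_lit 291) (nat_lit 111)) (XT.lf (nat_lit 0) (nat_lit 18155559769) (nat_lit 152) (nat_lit 25530316107) (nat_lit 228) (nat_lit 14930168773) (nat_lit 21) (nat_lit 5) (nat_lit 23) (nat_lit 5) (nat_lit 24) (nat_lit 5) (nat_lit 379) (nat_lit 291) (nat_lit 110)))) (XT.nd (nat_lit 78) (nat_lit 152) (nat_lit 0) (XT.lf (nat_lit 0) (nat_lit 34996963587) (nat_lit 152) (nat_lit 16145088569) (nat_lit 228) (nat_lit 8923841524) (nat_lit 21) (nat_lit 5) (nat_lit 23) (nat_lit 5) (nat_lit 24) (nat_lit 5) (nat_lit 380) (nat_lit 291) (nat_lit 109)) (XT.nd (nat_lit 78) (nat_lit 152) (nat_lit 0) (XT.lf (nat_lit 0) (nat_lit 52339230230) (nat_lit 152)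 (nat_lit 6479989451) (nat_lit 228) (nat_lit 2740102435) (nat_lit 21) (nat_lit 5) (nat_lit 23) (nat_lit 5) (nat_lit 24) (nat_lit 5) (nat_lit 381) (nat_lit 291) (nat_lit 108)) (XT.lf (nat_lit 0) (nat_lit 3659371148) (nat_lit 152) (nat_lit 55923304513) (nat_lit 76) (nat_lit 3510802912) (nat_lit 19) (nat_lit 5) (nat_lit 21) (nat_lit 5) (nat_lit 20) (nat_lit 5) (nat_lit 382) (nat_lit 291) (nat_lit 107)))))) (XT.nd (nat_lit 33618) (nat_lit 0) (nat_lit 11324) (XT.nd (nat_lit 156) (nat_lit 152) (nat_lit 0) (XT.nd (nat_lit 78) (nat_lit 0) (nat_lit 0) (XT.lf (nat_lit 0) (nat_lit 10351316249) (nat_lit 152) (nat_lit 40526255865) (nat_lit 76) (nat_lit 13790609747) (nat_lit 19) (nat_lit 5) (nat_lit 21) (nat_lit 5) (nat_lit 20) (nat_lit 5) (nat_lit 383) (nat_lit 291) (nat_lit 106)) (XT.lf (nat_lit 0) (nat_lit 17241471803) (nat_lit 152) (nat_lit 24671499885) (nat_lit 76) (nat_lit 24377233764) (nat_lit 19) (nat_lit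 5) (nat_lit 21) (nat_lit 5) (nat_lit 20) (nat_lit 5) (nat_lit 384) (nat_lit 291) (nat_lit 105))) (XT.nd (nat_lit 78) (nat_lit 152) (nat_lit 0) (XT.lf (nat_lit 0) (nat_lit 24335858334) (nat_lit 152) (nat_lit 8345182904) (nat_lit 76) (nat_lit 35279925411) (nat_lit 19) (nat_lit 5) (nat_lit 21) (nat_lit 5) (nat_lit 20) (nat_lit 5) (nat_lit 385) (nat_lit 291) (nat_lit 104)) (XT.nd (nat_lit 33306) (nat_lit 0) (nat_lit 11324) (XT.lf (nat_lit 0) (nat_lit 8635469915) (nat_lit 152) (nat_lit 23088214325) (nat_lit 228) (nat_lit 37955750816) (nat_lit 17) (nat_lit 5) (nat_lit 19) (nat_lit 5) (nat_lit 20) (nat_lit 5) (nat_lit 386) (nat_lit 291) (nat_lit 103)) (XT.lf (nat_lit 0) (nat_lit 1452412399) (nat_lit 0) (nat_lit 1452412399) (nat_lit 988) (nat_lit 2584926232) (nat_lit 166) (nat_lit 5) (nat_lit 166) (nat_lit 3) (nat_lit 179) (nat_lit 3) (nat_lit 292) (nat_lit 292) (nat_lit 196))))) (XT.nd (nat_lit 234)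 (nat_lit 0) (nat_lit 76) (XT.nd (nat_lit 78) (nat_lit 0) (nat_lit 0) (XT.lf (nat_lit 0) (nat_lit 6427914400) (nat_lit 988) (nat_lit 3503374229) (nat_lit 1064) (nat_lit 1195649325) (nat_lit 166) (nat_lit 5) (nat_lit 179) (nat_lit 3) (nat_lit 180) (nat_lit 5) (nat_lit 293) (nat_lit 292) (nat_lit 195)) (XT.nd (nat_lit 78) (nat_lit 0) (nat_lit 0) (XT.lf (nat_lit 76) (nat_lit 1188608785) (nat_lit 0) (nat_lit 5896131413) (nat_lit 1064) (nat_lit 4193507970) (nat_lit 167) (nat_lit 5) (nat_lit 166) (nat_lit 5) (nat_lit 180) (nat_lit 5) (nat_lit 294) (nat_lit 292) (nat_lit 194)) (XT.lf (nat_lit 76) (nat_lit 6082381310) (nat_lit 0) (nat_lit 1694577337) (nat_lit 1064) (nat_lit 3656718536) (nat_lit 167) (nat_lit 5) (nat_lit 166) (nat_lit 5) (nat_lit 180) (nat_lit 5) (nat_lit 295) (nat_lit 292) (nat_lit 193)))) (XT.nd (nat_lit 78) (nat_lit 0) (nat_lit 0) (XT.lf (nat_lit 0) (nat_lit 8496221117) (nat_lit 988)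 (nat_lit 507289099) (nat_lit 1064) (nat_lit 2590119198) (nat_lit 167) (nat_lit 5) (nat_lit 180) (nat_lit 5) (nat_lit 181) (nat_lit 5) (nat_lit 296) (nat_lit 292) (nat_lit 192)) (XT.nd (nat_lit 78) (nat_lit 0) (nat_lit 0) (XT.lf (nat_lit 76) (nat_lit 4543060077) (nat_lit 0) (nat_lit 4735971637) (nat_lit 1064) (nat_lit 2478136642) (nat_lit 168) (nat_lit 5) (nat_lit 167) (nat_lit 5) (nat_lit 181) (nat_lit 5) (nat_lit 297) (nat_lit 292) (nat_lit 191)) (XT.lf (nat_lit 76) (nat_lit 9744573771) (nat_lit 0) (nat_lit 327831992) (nat_lit 1064) (nat_lit 1853641207) (nat_lit 168) (nat_lit 5) (nat_lit 167) (nat_lit 5) (nat_lit 181) (nat_lit 5) (nat_lit 298) (nat_lit 292) (nat_lit 190))))))) (XT.nd (nat_lit 858) (nat_lit 3116) (nat_lit 0) (XT.nd (nat_lit 390) (nat_lit 0) (nat_lit 76) (XT.nd (nat_lit 156) (nat_lit 988) (nat_lit 0) (XT.nd (nat_lit 78) (nat_lit 0) (nat_lit 0) (XT.lf (nat_lit 76) (nat_lit 3009299454)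 (nat_lit 0) (nat_lit 7932252593) (nat_lit 1064) (nat_lit 1156925305) (nat_lit 169) (nat_lit 5) (nat_lit 168) (nat_lit 5) (nat_lit 182) (nat_lit 5) (nat_lit 299) (nat_lit 292) (nat_lit 189)) (XT.lf (nat_lit 76) (nat_lit 8386241297) (nat_lit 0) (nat_lit 3458727104) (nat_lit 1064) (nat_lit 430909617) (nat_lit 169) (nat_lit 5) (nat_lit 168) (nat_lit 5) (nat_lit 182) (nat_lit 5) (nat_lit 300) (nat_lit 292) (nat_lit 188))) (XT.nd (nat_lit 78) (nat_lit 0) (nat_lit 0) (XT.lf (nat_lit 0) (nat_lit 319452258) (nat_lit 1064) (nat_lit 10989174665) (nat_lit 1140) (nat_lit 1149660680) (nat_lit 155) (nat_lit 5) (nat_lit 169) (nat_lit 5) (nat_lit 170) (nat_lit 5) (nat_lit 301) (nat_lit 292) (nat_lit 187)) (XT.nd (nat_lit 78) (nat_lit 0) (nat_lit 0) (XT.lf (nat_lit 0) (nat_lit 1141255756) (nat_lit 1064) (nat_lit 5627024268) (nat_lit 1140) (nat_lit 5876073282) (nat_lit 155) (nat_lit 5) (nat_lit 169) (nat_lit 5)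 (nat_lit 170) (nat_lit 5) (nat_lit 302) (nat_lit 292) (nat_lit 186)) (XT.lf (nat_lit 0) (nat_lit 1971868902) (nat_lit 1064) (nat_lit 115166455) (nat_lit 1140) (nat_lit 10749479378) (nat_lit 155) (nat_lit 5) (nat_lit 169) (nat_lit 5) (nat_lit 170) (nat_lit 5) (nat_lit 303) (nat_lit 292) (nat_lit 185))))) (XT.nd (nat_lit 234) (nat_lit 0) (nat_lit 76) (XT.nd (nat_lit 78) (nat_lit 0) (nat_lit 0) (XT.lf (nat_lit 0) (nat_lit 2893310839) (nat_lit 1064) (nat_lit 7398481757) (nat_lit 1140) (nat_lit 2740708401) (nat_lit 156) (nat_lit 5) (nat_lit 170) (nat_lit 5) (nat_lit 171) (nat_lit 5) (nat_lit 304) (nat_lit 292) (nat_lit 184)) (XT.nd (nat_lit 78) (nat_lit 0) (nat_lit 0) (XT.lf (nat_lit 0) (nat_lit 3849237646) (nat_lit 1064) (nat_lit 1708220623) (nat_lit 1140) (nat_lit 7676739544) (nat_lit 156) (nat_lit 5) (nat_lit 170) (nat_lit 5) (nat_lit 171) (nat_lit 5) (nat_lit 305) (nat_lit 292) (nat_lit 183))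 (XT.lf (nat_lit 76) (nat_lit 4224251777) (nat_lit 0) (nat_lit 635636790) (nat_lit 1140) (nat_lit 8581310738) (nat_lit 157) (nat_lit 5) (nat_lit 156) (nat_lit 5) (nat_lit 171) (nat_lit 5) (nat_lit 306) (nat_lit 292) (nat_lit 182)))) (XT.nd (nat_lit 78) (nat_lit 0) (nat_lit 0) (XT.lf (nat_lit 0) (nat_lit 5946693417) (nat_lit 1064) (nat_lit 3338283728) (nat_lit 1140) (nat_lit 4368092801) (nat_lit 157) (nat_lit 5) (nat_lit 171) (nat_lit 5) (nat_lit 172) (nat_lit 5) (nat_lit 307) (nat_lit 292) (nat_lit 181)) (XT.nd (nat_lit 78) (nat_lit 0) (nat_lit 76) (XT.lf (nat_lit 76) (nat_lit 2753186666) (nat_lit 0) (nat_lit 4331881444) (nat_lit 1140) (nat_lit 6785692768) (nat_lit 158) (nat_lit 5) (nat_lit 157) (nat_lit 5) (nat_lit 172) (nat_lit 5) (nat_lit 308) (nat_lit 292) (nat_lit 180)) (XT.lf (nat_lit 0) (nat_lit 8285567095) (nat_lit 1064) (nat_lit 5017211152) (nat_lit 76) (nat_lit 791397276) (nat_lit 158)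 (nat_lit 5) (nat_lit 172) (nat_lit 5) (nat_lit 159) (nat_lit 5) (nat_lit 309) (nat_lit 292) (nat_lit 179)))))) (XT.nd (nat_lit 468) (nat_lit 988) (nat_lit 0) (XT.nd (nat_lit 234) (nat_lit 1292) (nat_lit 0) (XT.nd (nat_lit 78) (nat_lit 0) (nat_lit 0) (XT.lf (nat_lit 0) (nat_lit 1236390568) (nat_lit 1064) (nat_lit 8327386999) (nat_lit 1140) (nat_lit 4759295385) (nat_lit 144) (nat_lit 5) (nat_lit 158) (nat_lit 5) (nat_lit 159) (nat_lit 5) (nat_lit 310) (nat_lit 292) (nat_lit 178)) (XT.nd (nat_lit 78) (nat_lit 0) (nat_lit 0) (XT.lf (nat_lit 0) (nat_lit 7769547428) (nat_lit 1064) (nat_lit 3148648717) (nat_lit 1140) (nat_lit 3639535633) (nat_lit 144) (nat_lit 5) (nat_lit 158) (nat_lit 5) (nat_lit 159) (nat_lit 5) (nat_lit 311) (nat_lit 292) (nat_lit 177)) (XT.lf (nat_lit 0) (nat_lit 12321843603) (nat_lit 1140) (nat_lit 332742668) (nat_lit 76) (nat_lit 2144615656) (nat_lit 144) (nat_lit 5) (nat_lit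 159) (nat_lit 5) (nat_lit 145) (nat_lit 5) (nat_lit 312) (nat_lit 292) (nat_lit 176)))) (XT.nd (nat_lit 78) (nat_lit 608) (nat_lit 0) (XT.lf (nat_lit 0) (nat_lit 6399379564) (nat_lit 684) (nat_lit 7448860335) (nat_lit 760) (nat_lit 1197285688) (nat_lit 135) (nat_lit 5) (nat_lit 144) (nat_lit 5) (nat_lit 145) (nat_lit 5) (nat_lit 313) (nat_lit 292) (nat_lit 175)) (XT.nd (nat_lit 78) (nat_lit 532) (nat_lit 0) (XT.lf (nat_lit 0) (nat_lit 110272766) (nat_lit 760) (nat_lit 1970892849) (nat_lit 76) (nat_lit 13218321886) (nat_lit 134) (nat_lit 5) (nat_lit 144) (nat_lit 5) (nat_lit 135) (nat_lit 5) (nat_lit 314) (nat_lit 292) (nat_lit 174)) (XT.lf (nat_lit 0) (nat_lit 1503003471) (nat_lit 608) (nat_lit 10613989730) (nat_lit 76) (nat_lit 3441645312) (nat_lit 127) (nat_lit 5) (nat_lit 135) (nat_lit 5) (nat_lit 128) (nat_lit 5) (nat_lit 315) (nat_lit 292) (nat_lit 173))))) (XT.nd (nat_lit 234) (nat_lit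 456) (nat_lit 0) (XT.nd (nat_lit 78) (nat_lit 532) (nat_lit 0) (XT.lf (nat_lit 0) (nat_lit 2966870537) (nat_lit 608) (nat_lit 3748510607) (nat_lit 76) (nat_lit 9109327680) (nat_lit 127) (nat_lit 5) (nat_lit 135) (nat_lit 5) (nat_lit 128) (nat_lit 5) (nat_lit 316) (nat_lit 292) (nat_lit 172)) (XT.nd (nat_lit 78) (nat_lit 0) (nat_lit 0) (XT.lf (nat_lit 0) (nat_lit 3378372640) (nat_lit 532) (nat_lit 1117736187) (nat_lit 608) (nat_lit 11602033420) (nat_lit 120) (nat_lit 5) (nat_lit 127) (nat_lit 5) (nat_lit 128) (nat_lit 5) (nat_lit 317) (nat_lit 292) (nat_lit 171)) (XT.lf (nat_lit 0) (nat_lit 6143334921) (nat_lit 608) (nat_lit 5638526147) (nat_lit 76) (nat_lit 4595778229) (nat_lit 120) (nat_lit 5) (nat_lit 128) (nat_lit 5) (nat_lit 121) (nat_lit 5) (nat_lit 318) (nat_lit 292) (nat_lit 170)))) (XT.nd (nat_lit 78) (nat_lit 0) (nat_lit 0) (XT.lf (nat_lit 0) (nat_lit 1666180139) (nat_lit 456) (nat_lit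 6190400506) (nat_lit 532) (nat_lit 8808465773) (nat_lit 114) (nat_lit 5) (nat_lit 120) (nat_lit 5) (nat_lit 121) (nat_lit 5) (nat_lit 319) (nat_lit 292) (nat_lit 169)) (XT.nd (nat_lit 78) (nat_lit 0) (nat_lit 0) (XT.lf (nat_lit 0) (nat_lit 9295293081) (nat_lit 456) (nat_lit 372594587) (nat_lit 532) (nat_lit 7291810735) (nat_lit 114) (nat_lit 5) (nat_lit 120) (nat_lit 5) (nat_lit 121) (nat_lit 5) (nat_lit 320) (nat_lit 292) (nat_lit 168)) (XT.lf (nat_lit 0) (nat_lit 11577579032) (nat_lit 532) (nat_lit 174269954) (nat_lit 76) (nat_lit 5510041518) (nat_lit 114) (nat_lit 5) (nat_lit 121) (nat_lit 5) (nat_lit 115) (nat_lit 5) (nat_lit 321) (nat_lit 292) (nat_lit 167))))))))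
noncomputable def xc194 : XT := (XT.nd (nat_lit 1716) (nat_lit 2356) (nat_lit 0) (XT.nd (nat_lit 858) (nat_lit 1824) (nat_lit 0) (XT.nd (nat_lit 390) (nat_lit 760) (nat_lit 0) (XT.nd (nat_lit 156) (nat_lit 988) (nat_lit 0) (XT.nd (nat_lit 78) (nat_lit 0) (nat_lit 0) (XT.lf (nat_lit 0) (nat_lit 7676641495) (nat_lit 456) (nat_lit 5935716512) (nat_lit 532) (nat_lit 3958777729) (nat_lit 108) (nat_lit 5) (nat_lit 114) (nat_lit 5) (nat_lit 115) (nat_lit 5) (nat_lit 322) (nat_lit 292) (nat_lit 166)) (XT.lf (nat_lit 0) (nat_lit 15700982828) (nat_lit 532) (nat_lit 2133738832) (nat_lit 76) (nat_lit 55173242) (nat_lit 108) (nat_lit 5) (nat_lit 115) (nat_lit 5) (nat_lit 109) (nat_lit 5) (nat_lit 323) (nat_lit 292) (nat_lit 165))) (XT.nd (nat_lit 78) (nat_lit 532) (nat_lit 0) (XT.lf (nat_lit 0) (nat_lit 5906382033) (nat_lit 456) (nat_lit 12052203895) (nat_lit 532) (nat_lit 256461382) (nat_lit 102) (nat_lit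 5) (nat_lit 108) (nat_lit 5) (nat_lit 109) (nat_lit 5) (nat_lit 324) (nat_lit 292) (nat_lit 164)) (XT.nd (nat_lit 78) (nat_lit 456) (nat_lit 0) (XT.lf (nat_lit 0) (nat_lit 1712726554) (nat_lit 532) (nat_lit 4344789313) (nat_lit 76) (nat_lit 12491579299) (nat_lit 101) (nat_lit 5) (nat_lit 108) (nat_lit 5) (nat_lit 102) (nat_lit 5) (nat_lit 325) (nat_lit 292) (nat_lit 163)) (XT.lf (nat_lit 0) (nat_lit 3766159995) (nat_lit 532) (nat_lit 14971510080) (nat_lit 76) (nat_lit 154526820) (nat_lit 95) (nat_lit 5) (nat_lit 102) (nat_lit 5) (nat_lit 96) (nat_lit 5) (nat_lit 326) (nat_lit 292) (nat_lit 162))))) (XT.nd (nat_lit 234) (nat_lit 380) (nat_lit 0) (XT.nd (nat_lit 78) (nat_lit 380) (nat_lit 0) (XT.lf (nat_lit 0) (nat_lit 5976743819) (nat_lit 532) (nat_lit 6791422822) (nat_lit 76) (nat_lit 6474576429) (nat_lit 95) (nat_lit 5) (nat_lit 102) (nat_lit 5) (nat_lit 96) (nat_lit 5) (nat_lit 327) (nat_lit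 292) (nat_lit 161)) (XT.nd (nat_lit 78) (nat_lit 0) (nat_lit 0) (XT.lf (nat_lit 0) (nat_lit 1656756820) (nat_lit 380) (nat_lit 6604332279) (nat_lit 456) (nat_lit 11342510511) (nat_lit 90) (nat_lit 5) (nat_lit 95) (nat_lit 5) (nat_lit 96) (nat_lit 5) (nat_lit 328) (nat_lit 292) (nat_lit 160)) (XT.lf (nat_lit 0) (nat_lit 10488054342) (nat_lit 380) (nat_lit 186163923) (nat_lit 456) (nat_lit 9299272768) (nat_lit 90) (nat_lit 5) (nat_lit 95) (nat_lit 5) (nat_lit 96) (nat_lit 5) (nat_lit 329) (nat_lit 292) (nat_lit 159)))) (XT.nd (nat_lit 78) (nat_lit 380) (nat_lit 0) (XT.lf (nat_lit 0) (nat_lit 13213402626) (nat_lit 456) (nat_lit 841459571) (nat_lit 76) (nat_lit 6298023464) (nat_lit 90) (nat_lit 5) (nat_lit 96) (nat_lit 5) (nat_lit 91) (nat_lit 5) (nat_lit 330) (nat_lit 292) (nat_lit 158)) (XT.nd (nat_lit 78) (nat_lit 0) (nat_lit 0) (XT.lf (nat_lit 0) (nat_lit 8210982150) (nat_lit 380) (nat_lit 7690692968)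 (nat_lit 456) (nat_lit 4839815463) (nat_lit 85) (nat_lit 5) (nat_lit 90) (nat_lit 5) (nat_lit 91) (nat_lit 5) (nat_lit 331) (nat_lit 292) (nat_lit 157)) (XT.lf (nat_lit 0) (nat_lit 17543099439) (nat_lit 380) (nat_lit 1128274841) (nat_lit 456) (nat_lit 2470371380) (nat_lit 85) (nat_lit 5) (nat_lit 90) (nat_lit 5) (nat_lit 91) (nat_lit 5) (nat_lit 332) (nat_lit 292) (nat_lit 156)))))) (XT.nd (nat_lit 390) (nat_lit 988) (nat_lit 0) (XT.nd (nat_lit 156) (nat_lit 380) (nat_lit 0) (XT.nd (nat_lit 78) (nat_lit 0) (nat_lit 0) (XT.lf (nat_lit 0) (nat_lit 72638070) (nat_lit 456) (nat_lit 15903555893) (nat_lit 76) (nat_lit 5574780530) (nat_lit 79) (nat_lit 5) (nat_lit 85) (nat_lit 5) (nat_lit 80) (nat_lit 5) (nat_lit 333) (nat_lit 292) (nat_lit 155)) (XT.lf (nat_lit 0) (nat_lit 2682693526) (nat_lit 456) (nat_lit 6771925953) (nat_lit 76) (nat_lit 12515928771) (nat_lit 79) (nat_lit 5) (nat_lit 85) (nat_lit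 5) (nat_lit 80) (nat_lit 5) (nat_lit 334) (nat_lit 292) (nat_lit 154))) (XT.nd (nat_lit 78) (nat_lit 0) (nat_lit 0) (XT.lf (nat_lit 0) (nat_lit 2676977671) (nat_lit 380) (nat_lit 2712560709) (nat_lit 456) (nat_lit 17012629861) (nat_lit 74) (nat_lit 5) (nat_lit 79) (nat_lit 5) (nat_lit 80) (nat_lit 5) (nat_lit 335) (nat_lit 292) (nat_lit 153)) (XT.nd (nat_lit 78) (nat_lit 0) (nat_lit 0) (XT.lf (nat_lit 0) (nat_lit 8280191849) (nat_lit 456) (nat_lit 10346910143) (nat_lit 76) (nat_lit 4216569999) (nat_lit 74) (nat_lit 5) (nat_lit 80) (nat_lit 5) (nat_lit 75) (nat_lit 5) (nat_lit 336) (nat_lit 292) (nat_lit 152)) (XT.lf (nat_lit 0) (nat_lit 11277494549) (nat_lit 456) (nat_lit 722910891) (nat_lit 76) (nat_lit 11297430393) (nat_lit 74) (nat_lit 5) (nat_lit 80) (nat_lit 5) (nat_lit 75) (nat_lit 5) (nat_lit 337) (nat_lit 292) (nat_lit 151))))) (XT.nd (nat_lit 234) (nat_lit 380) (nat_lit 0) (XT.nd (nat_lit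 78) (nat_lit 304) (nat_lit 0) (XT.lf (nat_lit 0) (nat_lit 9364016996) (nat_lit 304) (nat_lit 5083986355) (nat_lit 380) (nat_lit 9315135126) (nat_lit 70) (nat_lit 5) (nat_lit 74) (nat_lit 5) (nat_lit 75) (nat_lit 5) (nat_lit 338) (nat_lit 292) (nat_lit 150)) (XT.nd (nat_lit 78) (nat_lit 304) (nat_lit 0) (XT.lf (nat_lit 0) (nat_lit 17733980351) (nat_lit 380) (nat_lit 4502117277) (nat_lit 76) (nat_lit 2005704115) (nat_lit 70) (nat_lit 5) (nat_lit 75) (nat_lit 5) (nat_lit 71) (nat_lit 5) (nat_lit 339) (nat_lit 292) (nat_lit 149)) (XT.lf (nat_lit 0) (nat_lit 5745194779) (nat_lit 304) (nat_lit 15472469428) (nat_lit 380) (nat_lit 3514198652) (nat_lit 66) (nat_lit 5) (nat_lit 70) (nat_lit 5) (nat_lit 71) (nat_lit 5) (nat_lit 340) (nat_lit 292) (nat_lit 148)))) (XT.nd (nat_lit 78) (nat_lit 380) (nat_lit 0) (XT.lf (nat_lit 0) (nat_lit 16383922079) (nat_lit 304) (nat_lit 8461071495) (nat_lit 380) (nat_lit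 390469619) (nat_lit 66) (nat_lit 5) (nat_lit 70) (nat_lit 5) (nat_lit 71) (nat_lit 5) (nat_lit 341) (nat_lit 292) (nat_lit 147)) (XT.nd (nat_lit 78) (nat_lit 0) (nat_lit 0) (XT.lf (nat_lit 0) (nat_lit 1583172448) (nat_lit 304) (nat_lit 1197637892) (nat_lit 380) (nat_lit 22972286636) (nat_lit 61) (nat_lit 5) (nat_lit 65) (nat_lit 5) (nat_lit 66) (nat_lit 5) (nat_lit 342) (nat_lit 292) (nat_lit 146)) (XT.lf (nat_lit 0) (nat_lit 6183920556) (nat_lit 380) (nat_lit 13844637146) (nat_lit 76) (nat_lit 6253260355) (nat_lit 61) (nat_lit 5) (nat_lit 66) (nat_lit 5) (nat_lit 62) (nat_lit 5) (nat_lit 343) (nat_lit 292) (nat_lit 145))))))) (XT.nd (nat_lit 858) (nat_lit 1216) (nat_lit 0) (XT.nd (nat_lit 390) (nat_lit 608) (nat_lit 0) (XT.nd (nat_lit 156) (nat_lit 228) (nat_lit 0) (XT.nd (nat_lit 78) (nat_lit 304) (nat_lit 0) (XT.lf (nat_lit 0) (nat_lit 9695029415) (nat_lit 380) (nat_lit 3229488196) (nat_lit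 76) (nat_lit 13901716162) (nat_lit 61) (nat_lit 5) (nat_lit 66) (nat_lit 5) (nat_lit 62) (nat_lit 5) (nat_lit 344) (nat_lit 292) (nat_lit 144)) (XT.lf (nat_lit 0) (nat_lit 7849481786) (nat_lit 304) (nat_lit 5531664681) (nat_lit 380) (nat_lit 14003755108) (nat_lit 57) (nat_lit 5) (nat_lit 61) (nat_lit 5) (nat_lit 62) (nat_lit 5) (nat_lit 345) (nat_lit 292) (nat_lit 143))) (XT.nd (nat_lit 78) (nat_lit 228) (nat_lit 0) (XT.lf (nat_lit 0) (nat_lit 17225099531) (nat_lit 380) (nat_lit 8660563626) (nat_lit 76) (nat_lit 2073258256) (nat_lit 57) (nat_lit 5) (nat_lit 62) (nat_lit 5) (nat_lit 58) (nat_lit 5) (nat_lit 346) (nat_lit 292) (nat_lit 142)) (XT.nd (nat_lit 78) (nat_lit 0) (nat_lit 0) (XT.lf (nat_lit 0) (nat_lit 2527429227) (nat_lit 228) (nat_lit 18730467564) (nat_lit 304) (nat_lit 7290068586) (nat_lit 54) (nat_lit 5) (nat_lit 57) (nat_lit 5) (nat_lit 58) (nat_lit 5) (nat_lit 347) (nat_lit 292)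 (nat_lit 141)) (XT.lf (nat_lit 0) (nat_lit 14221010737) (nat_lit 228) (nat_lit 11272671809) (nat_lit 304) (nat_lit 3658547003) (nat_lit 54) (nat_lit 5) (nat_lit 57) (nat_lit 5) (nat_lit 58) (nat_lit 5) (nat_lit 348) (nat_lit 292) (nat_lit 140))))) (XT.nd (nat_lit 234) (nat_lit 228) (nat_lit 0) (XT.nd (nat_lit 78) (nat_lit 304) (nat_lit 0) (XT.lf (nat_lit 0) (nat_lit 74969292) (nat_lit 304) (nat_lit 3517487748) (nat_lit 76) (nat_lit 26182310062) (nat_lit 53) (nat_lit 5) (nat_lit 57) (nat_lit 5) (nat_lit 54) (nat_lit 5) (nat_lit 349) (nat_lit 292) (nat_lit 139)) (XT.nd (nat_lit 78) (nat_lit 0) (nat_lit 0) (XT.lf (nat_lit 0) (nat_lit 3964749374) (nat_lit 380) (nat_lit 22097019548) (nat_lit 76) (nat_lit 4349599678) (nat_lit 49) (nat_lit 5) (nat_lit 54) (nat_lit 5) (nat_lit 50) (nat_lit 5) (nat_lit 350) (nat_lit 292) (nat_lit 138)) (XT.lf (nat_lit 0) (nat_lit 8037528968) (nat_lit 380) (nat_lit 10536007937)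 (nat_lit 76) (nat_lit 12491550076) (nat_lit 49) (nat_lit 5) (nat_lit 54) (nat_lit 5) (nat_lit 50) (nat_lit 5) (nat_lit 351) (nat_lit 292) (nat_lit 137)))) (XT.nd (nat_lit 78) (nat_lit 0) (nat_lit 0) (XT.lf (nat_lit 0) (nat_lit 1391877249) (nat_lit 228) (nat_lit 10849009631) (nat_lit 304) (nat_lit 19497285972) (nat_lit 46) (nat_lit 5) (nat_lit 49) (nat_lit 5) (nat_lit 50) (nat_lit 5) (nat_lit 352) (nat_lit 292) (nat_lit 136)) (XT.nd (nat_lit 78) (nat_lit 0) (nat_lit 0) (XT.lf (nat_lit 0) (nat_lit 13886529292) (nat_lit 228) (nat_lit 2785302054) (nat_lit 304) (nat_lit 15756582939) (nat_lit 46) (nat_lit 5) (nat_lit 49) (nat_lit 5) (nat_lit 50) (nat_lit 5) (nat_lit 353) (nat_lit 292) (nat_lit 135)) (XT.lf (nat_lit 0) (nat_lit 21283984557) (nat_lit 304) (nat_lit 6443379286) (nat_lit 76) (nat_lit 5410558046) (nat_lit 46) (nat_lit 5) (nat_lit 50) (nat_lit 5) (nat_lit 47) (nat_lit 5) (nat_lit 354) (nat_lit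 292) (nat_lit 134)))))) (XT.nd (nat_lit 468) (nat_lit 456) (nat_lit 0) (XT.nd (nat_lit 234) (nat_lit 456) (nat_lit 0) (XT.nd (nat_lit 78) (nat_lit 76) (nat_lit 0) (XT.lf (nat_lit 0) (nat_lit 6102822927) (nat_lit 228) (nat_lit 20013275847) (nat_lit 304) (nat_lit 7750175181) (nat_lit 43) (nat_lit 5) (nat_lit 46) (nat_lit 5) (nat_lit 47) (nat_lit 5) (nat_lit 355) (nat_lit 292) (nat_lit 133)) (XT.nd (nat_lit 78) (nat_lit 76) (nat_lit 0) (XT.lf (nat_lit 0) (nat_lit 19150791058) (nat_lit 228) (nat_lit 12002876805) (nat_lit 304) (nat_lit 3461000893) (nat_lit 43) (nat_lit 5) (nat_lit 46) (nat_lit 5) (nat_lit 47) (nat_lit 5) (nat_lit 356) (nat_lit 292) (nat_lit 132)) (XT.lf (nat_lit 0) (nat_lit 933685678) (nat_lit 304) (nat_lit 2811118763) (nat_lit 76) (nat_lit 31640576289) (nat_lit 42) (nat_lit 5) (nat_lit 46) (nat_lit 5) (nat_lit 43) (nat_lit 5) (nat_lit 357) (nat_lit 292) (nat_lit 131)))) (XT.nd (nat_lit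 78) (nat_lit 228) (nat_lit 0) (XT.lf (nat_lit 0) (nat_lit 5533172368) (nat_lit 304) (nat_lit 25839245475) (nat_lit 76) (nat_lit 4801498866) (nat_lit 39) (nat_lit 5) (nat_lit 43) (nat_lit 5) (nat_lit 40) (nat_lit 5) (nat_lit 358) (nat_lit 292) (nat_lit 130)) (XT.nd (nat_lit 78) (nat_lit 228) (nat_lit 0) (XT.lf (nat_lit 0) (nat_lit 10332074448) (nat_lit 304) (nat_lit 13096619201) (nat_lit 76) (nat_lit 13555578342) (nat_lit 39) (nat_lit 5) (nat_lit 43) (nat_lit 5) (nat_lit 40) (nat_lit 5) (nat_lit 359) (nat_lit 292) (nat_lit 129)) (XT.lf (nat_lit 0) (nat_lit 22448357) (nat_lit 228) (nat_lit 15248522353) (nat_lit 304) (nat_lit 22548092375) (nat_lit 36) (nat_lit 5) (nat_lit 39) (nat_lit 5) (nat_lit 40) (nat_lit 5) (nat_lit 360) (nat_lit 292) (nat_lit 128))))) (XT.nd (nat_lit 234) (nat_lit 304) (nat_lit 0) (XT.nd (nat_lit 78) (nat_lit 152) (nat_lit 0) (XT.lf (nat_lit 0) (nat_lit 13797341769) (nat_lit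 228) (nat_lit 6688815865) (nat_lit 304) (nat_lit 18188902359) (nat_lit 36) (nat_lit 5) (nat_lit 39) (nat_lit 5) (nat_lit 40) (nat_lit 5) (nat_lit 361) (nat_lit 292) (nat_lit 127)) (XT.nd (nat_lit 78) (nat_lit 152) (nat_lit 0) (XT.lf (nat_lit 0) (nat_lit 25874227048) (nat_lit 304) (nat_lit 11597846769) (nat_lit 76) (nat_lit 2084175808) (nat_lit 36) (nat_lit 5) (nat_lit 40) (nat_lit 5) (nat_lit 37) (nat_lit 5) (nat_lit 362) (nat_lit 292) (nat_lit 126)) (XT.lf (nat_lit 0) (nat_lit 2048202181) (nat_lit 152) (nat_lit 29457742391) (nat_lit 228) (nat_lit 8955475657) (nat_lit 34) (nat_lit 5) (nat_lit 36) (nat_lit 5) (nat_lit 37) (nat_lit 5) (nat_lit 363) (nat_lit 292) (nat_lit 125)))) (XT.nd (nat_lit 78) (nat_lit 304) (nat_lit 0) (XT.lf (nat_lit 0) (nat_lit 16335474978) (nat_lit 152) (nat_lit 21084402816) (nat_lit 228) (nat_lit 3970475534) (nat_lit 34) (nat_lit 5) (nat_lit 36) (nat_lit 5) (nat_lit 37)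 (nat_lit 5) (nat_lit 364) (nat_lit 292) (nat_lit 124)) (XT.nd (nat_lit 78) (nat_lit 228) (nat_lit 0) (XT.lf (nat_lit 0) (nat_lit 1137578069) (nat_lit 228) (nat_lit 11312788717) (nat_lit 76) (nat_lit 29896570376) (nat_lit 33) (nat_lit 5) (nat_lit 36) (nat_lit 5) (nat_lit 34) (nat_lit 5) (nat_lit 365) (nat_lit 292) (nat_lit 123)) (XT.lf (nat_lit 0) (nat_lit 2852268783) (nat_lit 228) (nat_lit 3490548522) (nat_lit 304) (nat_lit 36987514308) (nat_lit 30) (nat_lit 5) (nat_lit 33) (nat_lit 5) (nat_lit 34) (nat_lit 5) (nat_lit 366) (nat_lit 292) (nat_lit 122))))))))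
noncomputable def xc195 : XT := (XT.nd (nat_lit 35100) (nat_lit 0) (nat_lit 7676) (XT.nd (nat_lit 858) (nat_lit 304) (nat_lit 0) (XT.nd (nat_lit 390) (nat_lit 380) (nat_lit 0) (XT.nd (nat_lit 156) (nat_lit 152) (nat_lit 0) (XT.nd (nat_lit 78) (nat_lit 0) (nat_lit 0) (XT.lf (nat_lit 0) (nat_lit 11871102758) (nat_lit 304) (nat_lit 26727590791) (nat_lit 76) (nat_lit 5739532390) (nat_lit 30) (nat_lit 5) (nat_lit 34) (nat_lit 5) (nat_lit 31) (nat_lit 5) (nat_lit 367) (nat_lit 292) (nat_lit 121)) (XT.lf (nat_lit 0) (nat_lit 17596265796) (nat_lit 304) (nat_lit 12604679276) (nat_lit 76) (nat_lit 15174485724) (nat_lit 30) (nat_lit 5) (nat_lit 34) (nat_lit 5) (nat_lit 31) (nat_lit 5) (nat_lit 368) (nat_lit 292) (nat_lit 120))) (XT.nd (nat_lit 78) (nat_lit 0) (nat_lit 0) (XT.lf (nat_lit 0) (nat_lit 1975106856) (nat_lit 152) (nat_lit 21533634782) (nat_lit 228) (nat_lit 22934547865) (nat_lit 28) (nat_lit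 5) (nat_lit 30) (nat_lit 5) (nat_lit 31) (nat_lit 5) (nat_lit 369) (nat_lit 292) (nat_lit 119)) (XT.nd (nat_lit 78) (nat_lit 0) (nat_lit 0) (XT.lf (nat_lit 0) (nat_lit 17245368459) (nat_lit 152) (nat_lit 12477126703) (nat_lit 228) (nat_lit 17816976019) (nat_lit 28) (nat_lit 5) (nat_lit 30) (nat_lit 5) (nat_lit 31) (nat_lit 5) (nat_lit 370) (nat_lit 292) (nat_lit 118)) (XT.lf (nat_lit 0) (nat_lit 32968590644) (nat_lit 152) (nat_lit 3150789928) (nat_lit 228) (nat_lit 12549260345) (nat_lit 28) (nat_lit 5) (nat_lit 30) (nat_lit 5) (nat_lit 31) (nat_lit 5) (nat_lit 371) (nat_lit 292) (nat_lit 117))))) (XT.nd (nat_lit 234) (nat_lit 152) (nat_lit 0) (XT.nd (nat_lit 78) (nat_lit 228) (nat_lit 0) (XT.lf (nat_lit 0) (nat_lit 42767022609) (nat_lit 228) (nat_lit 735308441) (nat_lit 76) (nat_lit 6327593256) (nat_lit 28) (nat_lit 5) (nat_lit 31) (nat_lit 5) (nat_lit 29) (nat_lit 5) (nat_lit 372) (nat_lit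 292) (nat_lit 116)) (XT.nd (nat_lit 78) (nat_lit 76) (nat_lit 0) (XT.lf (nat_lit 0) (nat_lit 14933657557) (nat_lit 152) (nat_lit 34852074436) (nat_lit 228) (nat_lit 1235169006) (nat_lit 26) (nat_lit 5) (nat_lit 28) (nat_lit 5) (nat_lit 29) (nat_lit 5) (nat_lit 373) (nat_lit 292) (nat_lit 115)) (XT.lf (nat_lit 0) (nat_lit 4678765503) (nat_lit 228) (nat_lit 21210467899) (nat_lit 76) (nat_lit 26356870531) (nat_lit 25) (nat_lit 5) (nat_lit 28) (nat_lit 5) (nat_lit 26) (nat_lit 5) (nat_lit 374) (nat_lit 292) (nat_lit 114)))) (XT.nd (nat_lit 78) (nat_lit 152) (nat_lit 0) (XT.lf (nat_lit 0) (nat_lit 10742282866) (nat_lit 228) (nat_lit 5904423007) (nat_lit 76) (nat_lit 36861084094) (nat_lit 25) (nat_lit 5) (nat_lit 28) (nat_lit 5) (nat_lit 26) (nat_lit 5) (nat_lit 375) (nat_lit 292) (nat_lit 113)) (XT.nd (nat_lit 78) (nat_lit 0) (nat_lit 0) (XT.lf (nat_lit 0) (nat_lit 10052295131) (nat_lit 152) (nat_lit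 7029117578) (nat_lit 228) (nat_lit 37723106171) (nat_lit 23) (nat_lit 5) (nat_lit 25) (nat_lit 5) (nat_lit 26) (nat_lit 5) (nat_lit 376) (nat_lit 292) (nat_lit 112)) (XT.lf (nat_lit 0) (nat_lit 23695687487) (nat_lit 228) (nat_lit 29562549054) (nat_lit 76) (nat_lit 2879367391) (nat_lit 23) (nat_lit 5) (nat_lit 26) (nat_lit 5) (nat_lit 24) (nat_lit 5) (nat_lit 377) (nat_lit 292) (nat_lit 111)))))) (XT.nd (nat_lit 390) (nat_lit 152) (nat_lit 0) (XT.nd (nat_lit 156) (nat_lit 0) (nat_lit 0) (XT.nd (nat_lit 78) (nat_lit 152) (nat_lit 0) (XT.lf (nat_lit 0) (nat_lit 30575172283) (nat_lit 228) (nat_lit 13991334668) (nat_lit 76) (nat_lit 12942174435) (nat_lit 23) (nat_lit 5) (nat_lit 26) (nat_lit 5) (nat_lit 24) (nat_lit 5) (nat_lit 378) (nat_lit 292) (nat_lit 110)) (XT.lf (nat_lit 0) (nat_lit 2083245115) (nat_lit 152) (nat_lit 35595090431) (nat_lit 228) (nat_lit 21242040010) (nat_lit 21) (nat_lit 5)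 (nat_lit 23) (nat_lit 5) (nat_lit 24) (nat_lit 5) (nat_lit 379) (nat_lit 292) (nat_lit 109))) (XT.nd (nat_lit 78) (nat_lit 0) (nat_lit 0) (XT.lf (nat_lit 0) (nat_lit 18922491648) (nat_lit 152) (nat_lit 26210693064) (nat_lit 228) (nat_lit 15237081223) (nat_lit 21) (nat_lit 5) (nat_lit 23) (nat_lit 5) (nat_lit 24) (nat_lit 5) (nat_lit 380) (nat_lit 292) (nat_lit 108)) (XT.nd (nat_lit 78) (nat_lit 0) (nat_lit 0) (XT.lf (nat_lit 0) (nat_lit 36262663840) (nat_lit 152) (nat_lit 16546399938) (nat_lit 228) (nat_lit 9054670737) (nat_lit 21) (nat_lit 5) (nat_lit 23) (nat_lit 5) (nat_lit 24) (nat_lit 5) (nat_lit 381) (nat_lit 292) (nat_lit 107)) (XT.lf (nat_lit 0) (nat_lit 54118913298) (nat_lit 152) (nat_lit 6593766525) (nat_lit 228) (nat_lit 2689406447) (nat_lit 21) (nat_lit 5) (nat_lit 23) (nat_lit 5) (nat_lit 24) (nat_lit 5) (nat_lit 382) (nat_lit 292) (nat_lit 106))))) (XT.nd (nat_lit 33618) (nat_lit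 0) (nat_lit 11172) (XT.nd (nat_lit 78) (nat_lit 0) (nat_lit 0) (XT.lf (nat_lit 0) (nat_lit 3898467614) (nat_lit 152) (nat_lit 57387628644) (nat_lit 76) (nat_lit 3696166762) (nat_lit 19) (nat_lit 5) (nat_lit 21) (nat_lit 5) (nat_lit 20) (nat_lit 5) (nat_lit 383) (nat_lit 292) (nat_lit 105)) (XT.nd (nat_lit 78) (nat_lit 0) (nat_lit 0) (XT.lf (nat_lit 0) (nat_lit 10787404602) (nat_lit 152) (nat_lit 41534883343) (nat_lit 76) (nat_lit 14282036547) (nat_lit 19) (nat_lit 5) (nat_lit 21) (nat_lit 5) (nat_lit 20) (nat_lit 5) (nat_lit 384) (nat_lit 292) (nat_lit 104)) (XT.lf (nat_lit 0) (nat_lit 17880608059) (nat_lit 152) (nat_lit 25210518476) (nat_lit 76) (nat_lit 25183995930) (nat_lit 19) (nat_lit 5) (nat_lit 21) (nat_lit 5) (nat_lit 20) (nat_lit 5) (nat_lit 385) (nat_lit 292) (nat_lit 103)))) (XT.nd (nat_lit 78) (nat_lit 0) (nat_lit 0) (XT.lf (nat_lit 0) (nat_lit 1753187389) (nat_lit 0) (nat_lit 1753187389)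 (nat_lit 988) (nat_lit 2131326309) (nat_lit 166) (nat_lit 5) (nat_lit 166) (nat_lit 3) (nat_lit 179) (nat_lit 3) (nat_lit 293) (nat_lit 293) (nat_lit 194)) (XT.nd (nat_lit 78) (nat_lit 0) (nat_lit 0) (XT.lf (nat_lit 0) (nat_lit 7614796194) (nat_lit 988) (nat_lit 3071742483) (nat_lit 1064) (nat_lit 741841779) (nat_lit 166) (nat_lit 5) (nat_lit 179) (nat_lit 3) (nat_lit 180) (nat_lit 5) (nat_lit 294) (nat_lit 293) (nat_lit 193)) (XT.lf (nat_lit 76) (nat_lit 1755737933) (nat_lit 0) (nat_lit 6511744908) (nat_lit 1064) (nat_lit 3317536560) (nat_lit 167) (nat_lit 5) (nat_lit 166) (nat_lit 5) (nat_lit 180) (nat_lit 5) (nat_lit 295) (nat_lit 293) (nat_lit 192))))))) (XT.nd (nat_lit 858) (nat_lit 2584) (nat_lit 0) (XT.nd (nat_lit 390) (nat_lit 912) (nat_lit 0) (XT.nd (nat_lit 156) (nat_lit 0) (nat_lit 76) (XT.nd (nat_lit 78) (nat_lit 0) (nat_lit 76) (XT.lf (nat_lit 76) (nat_lit 6780843900) (nat_lit 0)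 (nat_lit 2171365679) (nat_lit 1064) (nat_lit 2793821403) (nat_lit 167) (nat_lit 5) (nat_lit 166) (nat_lit 5) (nat_lit 180) (nat_lit 5) (nat_lit 296) (nat_lit 293) (nat_lit 191)) (XT.lf (nat_lit 76) (nat_lit 12436034) (nat_lit 0) (nat_lit 9649322977) (nat_lit 1064) (nat_lit 2250031347) (nat_lit 168) (nat_lit 5) (nat_lit 167) (nat_lit 5) (nat_lit 181) (nat_lit 5) (nat_lit 297) (nat_lit 293) (nat_lit 190))) (XT.nd (nat_lit 78) (nat_lit 0) (nat_lit 0) (XT.lf (nat_lit 76) (nat_lit 5208810846) (nat_lit 0) (nat_lit 5237692680) (nat_lit 1064) (nat_lit 1634446273) (nat_lit 168) (nat_lit 5) (nat_lit 167) (nat_lit 5) (nat_lit 181) (nat_lit 5) (nat_lit 298) (nat_lit 293) (nat_lit 189)) (XT.nd (nat_lit 78) (nat_lit 0) (nat_lit 76) (XT.lf (nat_lit 76) (nat_lit 10550948816) (nat_lit 0) (nat_lit 686833839) (nat_lit 1064) (nat_lit 1017954843) (nat_lit 168) (nat_lit 5) (nat_lit 167) (nat_lit 5) (nat_lit 181)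 (nat_lit 5) (nat_lit 299) (nat_lit 293) (nat_lit 188)) (XT.lf (nat_lit 76) (nat_lit 3639715664) (nat_lit 0) (nat_lit 8470079262) (nat_lit 1064) (nat_lit 324306042) (nat_lit 169) (nat_lit 5) (nat_lit 168) (nat_lit 5) (nat_lit 182) (nat_lit 5) (nat_lit 300) (nat_lit 293) (nat_lit 187))))) (XT.nd (nat_lit 234) (nat_lit 0) (nat_lit 76) (XT.nd (nat_lit 78) (nat_lit 0) (nat_lit 76) (XT.lf (nat_lit 0) (nat_lit 390457298) (nat_lit 1064) (nat_lit 3459214096) (nat_lit 1140) (nat_lit 8767833459) (nat_lit 154) (nat_lit 5) (nat_lit 168) (nat_lit 5) (nat_lit 169) (nat_lit 5) (nat_lit 301) (nat_lit 293) (nat_lit 186)) (XT.nd (nat_lit 78) (nat_lit 0) (nat_lit 0) (XT.lf (nat_lit 0) (nat_lit 1133200604) (nat_lit 1064) (nat_lit 10752586043) (nat_lit 1140) (nat_lit 920174642) (nat_lit 155) (nat_lit 5) (nat_lit 169) (nat_lit 5) (nat_lit 170) (nat_lit 5) (nat_lit 302) (nat_lit 293) (nat_lit 185)) (XT.lf (nat_lit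 0) (nat_lit 1956235932) (nat_lit 1064) (nat_lit 5246064256) (nat_lit 1140) (nat_lit 5796068240) (nat_lit 155) (nat_lit 5) (nat_lit 169) (nat_lit 5) (nat_lit 170) (nat_lit 5) (nat_lit 303) (nat_lit 293) (nat_lit 184)))) (XT.nd (nat_lit 78) (nat_lit 0) (nat_lit 76) (XT.lf (nat_lit 76) (nat_lit 423398582) (nat_lit 0) (nat_lit 2369698783) (nat_lit 1140) (nat_lit 10403812579) (nat_lit 156) (nat_lit 5) (nat_lit 155) (nat_lit 5) (nat_lit 170) (nat_lit 5) (nat_lit 304) (nat_lit 293) (nat_lit 183)) (XT.nd (nat_lit 78) (nat_lit 0) (nat_lit 0) (XT.lf (nat_lit 0) (nat_lit 3719072872) (nat_lit 1064) (nat_lit 7065853961) (nat_lit 1140) (nat_lit 2614595787) (nat_lit 156) (nat_lit 5) (nat_lit 170) (nat_lit 5) (nat_lit 171) (nat_lit 5) (nat_lit 305) (nat_lit 293) (nat_lit 182)) (XT.lf (nat_lit 0) (nat_lit 4682154297) (nat_lit 1064) (nat_lit 1221037875) (nat_lit 1140) (nat_lit 7704775842) (nat_lit 156) (nat_lit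 5) (nat_lit 170) (nat_lit 5) (nat_lit 171) (nat_lit 5) (nat_lit 306) (nat_lit 293) (nat_lit 181)))))) (XT.nd (nat_lit 468) (nat_lit 1824) (nat_lit 0) (XT.nd (nat_lit 234) (nat_lit 912) (nat_lit 0) (XT.nd (nat_lit 78) (nat_lit 0) (nat_lit 76) (XT.lf (nat_lit 76) (nat_lit 4884129978) (nat_lit 0) (nat_lit 823223441) (nat_lit 1140) (nat_lit 8114349734) (nat_lit 157) (nat_lit 5) (nat_lit 156) (nat_lit 5) (nat_lit 171) (nat_lit 5) (nat_lit 307) (nat_lit 293) (nat_lit 180)) (XT.nd (nat_lit 78) (nat_lit 0) (nat_lit 0) (XT.lf (nat_lit 0) (nat_lit 6804752765) (nat_lit 1064) (nat_lit 2897167509) (nat_lit 1140) (nat_lit 4338718922) (nat_lit 157) (nat_lit 5) (nat_lit 171) (nat_lit 5) (nat_lit 172) (nat_lit 5) (nat_lit 308) (nat_lit 293) (nat_lit 179)) (XT.lf (nat_lit 76) (nat_lit 3371740480) (nat_lit 0) (nat_lit 4590894296) (nat_lit 1140) (nat_lit 6302712962) (nat_lit 158) (nat_lit 5) (nat_lit 157) (nat_lit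 5) (nat_lit 172) (nat_lit 5) (nat_lit 309) (nat_lit 293) (nat_lit 178)))) (XT.nd (nat_lit 78) (nat_lit 1064) (nat_lit 0) (XT.lf (nat_lit 0) (nat_lit 9178574937) (nat_lit 1064) (nat_lit 4625266565) (nat_lit 76) (nat_lit 692286715) (nat_lit 158) (nat_lit 5) (nat_lit 172) (nat_lit 5) (nat_lit 159) (nat_lit 5) (nat_lit 310) (nat_lit 293) (nat_lit 177)) (XT.nd (nat_lit 78) (nat_lit 0) (nat_lit 0) (XT.lf (nat_lit 0) (nat_lit 1810624962) (nat_lit 1064) (nat_lit 8670899984) (nat_lit 1140) (nat_lit 4250820661) (nat_lit 144) (nat_lit 5) (nat_lit 158) (nat_lit 5) (nat_lit 159) (nat_lit 5) (nat_lit 311) (nat_lit 293) (nat_lit 176)) (XT.lf (nat_lit 0) (nat_lit 8524131596) (nat_lit 1064) (nat_lit 3334070678) (nat_lit 1140) (nat_lit 3116436668) (nat_lit 144) (nat_lit 5) (nat_lit 158) (nat_lit 5) (nat_lit 159) (nat_lit 5) (nat_lit 312) (nat_lit 293) (nat_lit 175))))) (XT.nd (nat_lit 234) (nat_lit 1064) (nat_lit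 0) (XT.nd (nat_lit 78) (nat_lit 76) (nat_lit 0) (XT.lf (nat_lit 0) (nat_lit 187335418) (nat_lit 684) (nat_lit 13099736953) (nat_lit 760) (nat_lit 1936829691) (nat_lit 135) (nat_lit 5) (nat_lit 144) (nat_lit 5) (nat_lit 145) (nat_lit 5) (nat_lit 313) (nat_lit 293) (nat_lit 174)) (XT.nd (nat_lit 78) (nat_lit 76) (nat_lit 0) (XT.lf (nat_lit 0) (nat_lit 7112604898) (nat_lit 684) (nat_lit 7732571041) (nat_lit 760) (nat_lit 632903061) (nat_lit 135) (nat_lit 5) (nat_lit 144) (nat_lit 5) (nat_lit 145) (nat_lit 5) (nat_lit 314) (nat_lit 293) (nat_lit 173)) (XT.lf (nat_lit 0) (nat_lit 685024793) (nat_lit 760) (nat_lit 1511295519) (nat_lit 76) (nat_lit 13543719320) (nat_lit 134) (nat_lit 5) (nat_lit 144) (nat_lit 5) (nat_lit 135) (nat_lit 5) (nat_lit 315) (nat_lit 293) (nat_lit 172)))) (XT.nd (nat_lit 78) (nat_lit 532) (nat_lit 0) (XT.lf (nat_lit 0) (nat_lit 2107387704) (nat_lit 608) (nat_lit 10400283961)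 (nat_lit 76) (nat_lit 3499695551) (nat_lit 127) (nat_lit 5) (nat_lit 135) (nat_lit 5) (nat_lit 128) (nat_lit 5) (nat_lit 316) (nat_lit 293) (nat_lit 171)) (XT.nd (nat_lit 78) (nat_lit 532) (nat_lit 0) (XT.lf (nat_lit 0) (nat_lit 3598880661) (nat_lit 608) (nat_lit 3344339264) (nat_lit 76) (nat_lit 9338724869) (nat_lit 127) (nat_lit 5) (nat_lit 135) (nat_lit 5) (nat_lit 128) (nat_lit 5) (nat_lit 317) (nat_lit 293) (nat_lit 170)) (XT.lf (nat_lit 0) (nat_lit 3991285514) (nat_lit 532) (nat_lit 1171812380) (nat_lit 608) (nat_lit 11400845667) (nat_lit 120) (nat_lit 5) (nat_lit 127) (nat_lit 5) (nat_lit 128) (nat_lit 5) (nat_lit 318) (nat_lit 293) (nat_lit 169))))))))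
noncomputable def xc196 : XT := (XT.nd (nat_lit 1716) (nat_lit 2584) (nat_lit 0) (XT.nd (nat_lit 858) (nat_lit 1520) (nat_lit 0) (XT.nd (nat_lit 390) (nat_lit 1368) (nat_lit 0) (XT.nd (nat_lit 156) (nat_lit 456) (nat_lit 0) (XT.nd (nat_lit 78) (nat_lit 456) (nat_lit 0) (XT.lf (nat_lit 0) (nat_lit 6844050812) (nat_lit 608) (nat_lit 5294184716) (nat_lit 76) (nat_lit 4714095054) (nat_lit 120) (nat_lit 5) (nat_lit 128) (nat_lit 5) (nat_lit 121) (nat_lit 5) (nat_lit 319) (nat_lit 293) (nat_lit 168)) (XT.lf (nat_lit 0) (nat_lit 2224628472) (nat_lit 456) (nat_lit 6373911854) (nat_lit 532) (nat_lit 8550157560) (nat_lit 114) (nat_lit 5) (nat_lit 120) (nat_lit 5) (nat_lit 121) (nat_lit 5) (nat_lit 320) (nat_lit 293) (nat_lit 167))) (XT.nd (nat_lit 78) (nat_lit 456) (nat_lit 0) (XT.lf (nat_lit 0) (nat_lit 10067805202) (nat_lit 456) (nat_lit 381635855) (nat_lit 532) (nat_lit 7003223129) (nat_lit 114) (nat_lit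 5) (nat_lit 120) (nat_lit 5) (nat_lit 121) (nat_lit 5) (nat_lit 321) (nat_lit 293) (nat_lit 166)) (XT.nd (nat_lit 78) (nat_lit 0) (nat_lit 0) (XT.lf (nat_lit 0) (nat_lit 321392858) (nat_lit 456) (nat_lit 12083823647) (nat_lit 532) (nat_lit 5359073192) (nat_lit 108) (nat_lit 5) (nat_lit 114) (nat_lit 5) (nat_lit 115) (nat_lit 5) (nat_lit 322) (nat_lit 293) (nat_lit 165)) (XT.lf (nat_lit 0) (nat_lit 8396710910) (nat_lit 456) (nat_lit 6092046854) (nat_lit 532) (nat_lit 3594453485) (nat_lit 108) (nat_lit 5) (nat_lit 114) (nat_lit 5) (nat_lit 115) (nat_lit 5) (nat_lit 323) (nat_lit 293) (nat_lit 164))))) (XT.nd (nat_lit 234) (nat_lit 836) (nat_lit 0) (XT.nd (nat_lit 78) (nat_lit 532) (nat_lit 0) (XT.lf (nat_lit 0) (nat_lit 16626612318) (nat_lit 532) (nat_lit 1707828919) (nat_lit 76) (nat_lit 77524464) (nat_lit 108) (nat_lit 5) (nat_lit 115) (nat_lit 5) (nat_lit 109) (nat_lit 5) (nat_lit 324) (nat_lit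 293) (nat_lit 163)) (XT.nd (nat_lit 78) (nat_lit 0) (nat_lit 0) (XT.lf (nat_lit 0) (nat_lit 192378499) (nat_lit 532) (nat_lit 12180352434) (nat_lit 76) (nat_lit 6374371270) (nat_lit 101) (nat_lit 5) (nat_lit 108) (nat_lit 5) (nat_lit 102) (nat_lit 5) (nat_lit 325) (nat_lit 293) (nat_lit 162)) (XT.lf (nat_lit 0) (nat_lit 2202340490) (nat_lit 532) (nat_lit 3994517866) (nat_lit 76) (nat_lit 12894658496) (nat_lit 101) (nat_lit 5) (nat_lit 108) (nat_lit 5) (nat_lit 102) (nat_lit 5) (nat_lit 326) (nat_lit 293) (nat_lit 161)))) (XT.nd (nat_lit 78) (nat_lit 380) (nat_lit 0) (XT.lf (nat_lit 0) (nat_lit 4309628403) (nat_lit 532) (nat_lit 14931413857) (nat_lit 76) (nat_lit 204128165) (nat_lit 95) (nat_lit 5) (nat_lit 102) (nat_lit 5) (nat_lit 96) (nat_lit 5) (nat_lit 327) (nat_lit 293) (nat_lit 160)) (XT.nd (nat_lit 78) (nat_lit 380) (nat_lit 0) (XT.lf (nat_lit 0) (nat_lit 6573991384) (nat_lit 532) (nat_lit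 6520173735) (nat_lit 76) (nat_lit 6712469587) (nat_lit 95) (nat_lit 5) (nat_lit 102) (nat_lit 5) (nat_lit 96) (nat_lit 5) (nat_lit 328) (nat_lit 293) (nat_lit 159)) (XT.lf (nat_lit 0) (nat_lit 2176794514) (nat_lit 380) (nat_lit 6742420493) (nat_lit 456) (nat_lit 11259356319) (nat_lit 90) (nat_lit 5) (nat_lit 95) (nat_lit 5) (nat_lit 96) (nat_lit 5) (nat_lit 329) (nat_lit 293) (nat_lit 158)))))) (XT.nd (nat_lit 390) (nat_lit 684) (nat_lit 0) (XT.nd (nat_lit 156) (nat_lit 836) (nat_lit 0) (XT.nd (nat_lit 78) (nat_lit 0) (nat_lit 0) (XT.lf (nat_lit 0) (nat_lit 11259331884) (nat_lit 380) (nat_lit 133455875) (nat_lit 456) (nat_lit 9167154342) (nat_lit 90) (nat_lit 5) (nat_lit 95) (nat_lit 5) (nat_lit 96) (nat_lit 5) (nat_lit 330) (nat_lit 293) (nat_lit 157)) (XT.lf (nat_lit 0) (nat_lit 13997089457) (nat_lit 456) (nat_lit 411529351) (nat_lit 76) (nat_lit 6542454906) (nat_lit 90) (nat_lit 5) (nat_lit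 96) (nat_lit 5) (nat_lit 91) (nat_lit 5) (nat_lit 331) (nat_lit 293) (nat_lit 156))) (XT.nd (nat_lit 78) (nat_lit 456) (nat_lit 0) (XT.lf (nat_lit 0) (nat_lit 8908023130) (nat_lit 380) (nat_lit 7851039369) (nat_lit 456) (nat_lit 4592505428) (nat_lit 85) (nat_lit 5) (nat_lit 90) (nat_lit 5) (nat_lit 91) (nat_lit 5) (nat_lit 332) (nat_lit 293) (nat_lit 155)) (XT.nd (nat_lit 78) (nat_lit 456) (nat_lit 0) (XT.lf (nat_lit 0) (nat_lit 18506976419) (nat_lit 380) (nat_lit 1093798438) (nat_lit 456) (nat_lit 2163410193) (nat_lit 85) (nat_lit 5) (nat_lit 90) (nat_lit 5) (nat_lit 91) (nat_lit 5) (nat_lit 333) (nat_lit 293) (nat_lit 154)) (XT.lf (nat_lit 0) (nat_lit 442528366) (nat_lit 456) (nat_lit 15928310615) (nat_lit 76) (nat_lit 5814940416) (nat_lit 79) (nat_lit 5) (nat_lit 85) (nat_lit 5) (nat_lit 80) (nat_lit 5) (nat_lit 334) (nat_lit 293) (nat_lit 153))))) (XT.nd (nat_lit 234) (nat_lit 304) (nat_lit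 0) (XT.nd (nat_lit 78) (nat_lit 380) (nat_lit 0) (XT.lf (nat_lit 0) (nat_lit 3120175452) (nat_lit 456) (nat_lit 6535907076) (nat_lit 76) (nat_lit 12962199323) (nat_lit 79) (nat_lit 5) (nat_lit 85) (nat_lit 5) (nat_lit 80) (nat_lit 5) (nat_lit 335) (nat_lit 293) (nat_lit 152)) (XT.nd (nat_lit 78) (nat_lit 0) (nat_lit 0) (XT.lf (nat_lit 0) (nat_lit 3192158004) (nat_lit 380) (nat_lit 2709849803) (nat_lit 456) (nat_lit 17161048767) (nat_lit 74) (nat_lit 5) (nat_lit 79) (nat_lit 5) (nat_lit 80) (nat_lit 5) (nat_lit 336) (nat_lit 293) (nat_lit 151)) (XT.lf (nat_lit 0) (nat_lit 8869948651) (nat_lit 456) (nat_lit 10225046171) (nat_lit 76) (nat_lit 4423112606) (nat_lit 74) (nat_lit 5) (nat_lit 80) (nat_lit 5) (nat_lit 75) (nat_lit 5) (nat_lit 337) (nat_lit 293) (nat_lit 150)))) (XT.nd (nat_lit 78) (nat_lit 304) (nat_lit 0) (XT.lf (nat_lit 0) (nat_lit 11947228169) (nat_lit 456) (nat_lit 324917367) (nat_lit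 76) (nat_lit 11714067389) (nat_lit 74) (nat_lit 5) (nat_lit 80) (nat_lit 5) (nat_lit 75) (nat_lit 5) (nat_lit 338) (nat_lit 293) (nat_lit 149)) (XT.nd (nat_lit 78) (nat_lit 0) (nat_lit 0) (XT.lf (nat_lit 0) (nat_lit 10060503838) (nat_lit 304) (nat_lit 5146690392) (nat_lit 380) (nat_lit 9258468093) (nat_lit 70) (nat_lit 5) (nat_lit 74) (nat_lit 5) (nat_lit 75) (nat_lit 5) (nat_lit 339) (nat_lit 293) (nat_lit 148)) (XT.lf (nat_lit 0) (nat_lit 18583100868) (nat_lit 380) (nat_lit 4224488292) (nat_lit 76) (nat_lit 2151373228) (nat_lit 70) (nat_lit 5) (nat_lit 75) (nat_lit 5) (nat_lit 71) (nat_lit 5) (nat_lit 340) (nat_lit 293) (nat_lit 147))))))) (XT.nd (nat_lit 858) (nat_lit 988) (nat_lit 0) (XT.nd (nat_lit 390) (nat_lit 912) (nat_lit 0) (XT.nd (nat_lit 156) (nat_lit 380) (nat_lit 0) (XT.nd (nat_lit 78) (nat_lit 0) (nat_lit 0) (XT.lf (nat_lit 0) (nat_lit 6326197121) (nat_lit 304) (nat_lit 15839790324)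 (nat_lit 380) (nat_lit 3297914030) (nat_lit 66) (nat_lit 5) (nat_lit 70) (nat_lit 5) (nat_lit 71) (nat_lit 5) (nat_lit 341) (nat_lit 293) (nat_lit 146)) (XT.lf (nat_lit 0) (nat_lit 17272183915) (nat_lit 304) (nat_lit 8620871420) (nat_lit 380) (nat_lit 89843337) (nat_lit 66) (nat_lit 5) (nat_lit 70) (nat_lit 5) (nat_lit 71) (nat_lit 5) (nat_lit 342) (nat_lit 293) (nat_lit 145))) (XT.nd (nat_lit 78) (nat_lit 0) (nat_lit 0) (XT.lf (nat_lit 0) (nat_lit 2030083195) (nat_lit 304) (nat_lit 1135316596) (nat_lit 380) (nat_lit 23350739485) (nat_lit 61) (nat_lit 5) (nat_lit 65) (nat_lit 5) (nat_lit 66) (nat_lit 5) (nat_lit 343) (nat_lit 293) (nat_lit 144)) (XT.nd (nat_lit 78) (nat_lit 0) (nat_lit 0) (XT.lf (nat_lit 0) (nat_lit 6662748449) (nat_lit 380) (nat_lit 13863838649) (nat_lit 76) (nat_lit 6534385558) (nat_lit 61) (nat_lit 5) (nat_lit 66) (nat_lit 5) (nat_lit 62) (nat_lit 5) (nat_lit 344) (nat_lit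 293) (nat_lit 143)) (XT.lf (nat_lit 0) (nat_lit 10270647555) (nat_lit 380) (nat_lit 2941773219) (nat_lit 76) (nat_lit 14409570940) (nat_lit 61) (nat_lit 5) (nat_lit 66) (nat_lit 5) (nat_lit 62) (nat_lit 5) (nat_lit 345) (nat_lit 293) (nat_lit 142))))) (XT.nd (nat_lit 234) (nat_lit 380) (nat_lit 0) (XT.nd (nat_lit 78) (nat_lit 228) (nat_lit 0) (XT.lf (nat_lit 0) (nat_lit 8465795277) (nat_lit 304) (nat_lit 5596919411) (nat_lit 380) (nat_lit 14134858022) (nat_lit 57) (nat_lit 5) (nat_lit 61) (nat_lit 5) (nat_lit 62) (nat_lit 5) (nat_lit 346) (nat_lit 293) (nat_lit 141)) (XT.nd (nat_lit 78) (nat_lit 228) (nat_lit 0) (XT.lf (nat_lit 0) (nat_lit 18014766858) (nat_lit 380) (nat_lit 8542965966) (nat_lit 76) (nat_lit 2231310649) (nat_lit 57) (nat_lit 5) (nat_lit 62) (nat_lit 5) (nat_lit 58) (nat_lit 5) (nat_lit 347) (nat_lit 293) (nat_lit 140)) (XT.lf (nat_lit 0) (nat_lit 2976966530) (nat_lit 228) (nat_lit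 19187224916) (nat_lit 304) (nat_lit 7231711351) (nat_lit 54) (nat_lit 5) (nat_lit 57) (nat_lit 5) (nat_lit 58) (nat_lit 5) (nat_lit 348) (nat_lit 293) (nat_lit 139)))) (XT.nd (nat_lit 78) (nat_lit 380) (nat_lit 0) (XT.lf (nat_lit 0) (nat_lit 15010470599) (nat_lit 228) (nat_lit 11508758104) (nat_lit 304) (nat_lit 3499313808) (nat_lit 54) (nat_lit 5) (nat_lit 57) (nat_lit 5) (nat_lit 58) (nat_lit 5) (nat_lit 349) (nat_lit 293) (nat_lit 138)) (XT.nd (nat_lit 78) (nat_lit 304) (nat_lit 0) (XT.lf (nat_lit 0) (nat_lit 333277252) (nat_lit 304) (nat_lit 3265247554) (nat_lit 76) (nat_lit 27061396478) (nat_lit 53) (nat_lit 5) (nat_lit 57) (nat_lit 5) (nat_lit 54) (nat_lit 5) (nat_lit 350) (nat_lit 293) (nat_lit 137)) (XT.lf (nat_lit 0) (nat_lit 4336680950) (nat_lit 380) (nat_lit 22398700315) (nat_lit 76) (nat_lit 4580343513) (nat_lit 49) (nat_lit 5) (nat_lit 54) (nat_lit 5) (nat_lit 50) (nat_lit 5) (nat_lit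 351) (nat_lit 293) (nat_lit 136)))))) (XT.nd (nat_lit 468) (nat_lit 532) (nat_lit 0) (XT.nd (nat_lit 234) (nat_lit 228) (nat_lit 0) (XT.nd (nat_lit 78) (nat_lit 228) (nat_lit 0) (XT.lf (nat_lit 0) (nat_lit 8524275317) (nat_lit 380) (nat_lit 10501379612) (nat_lit 76) (nat_lit 12963632351) (nat_lit 49) (nat_lit 5) (nat_lit 54) (nat_lit 5) (nat_lit 50) (nat_lit 5) (nat_lit 352) (nat_lit 293) (nat_lit 135)) (XT.nd (nat_lit 78) (nat_lit 0) (nat_lit 0) (XT.lf (nat_lit 0) (nat_lit 1780903810) (nat_lit 228) (nat_lit 11069014336) (nat_lit 304) (nat_lit 19832773232) (nat_lit 46) (nat_lit 5) (nat_lit 49) (nat_lit 5) (nat_lit 50) (nat_lit 5) (nat_lit 353) (nat_lit 293) (nat_lit 134)) (XT.lf (nat_lit 0) (nat_lit 14640280747) (nat_lit 228) (nat_lit 2766467345) (nat_lit 304) (nat_lit 15987114097) (nat_lit 46) (nat_lit 5) (nat_lit 49) (nat_lit 5) (nat_lit 50) (nat_lit 5) (nat_lit 354) (nat_lit 293) (nat_lit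 133)))) (XT.nd (nat_lit 78) (nat_lit 228) (nat_lit 0) (XT.lf (nat_lit 0) (nat_lit 22151383780) (nat_lit 304) (nat_lit 6303111899) (nat_lit 76) (nat_lit 5670346340) (nat_lit 46) (nat_lit 5) (nat_lit 50) (nat_lit 5) (nat_lit 47) (nat_lit 5) (nat_lit 355) (nat_lit 293) (nat_lit 132)) (XT.nd (nat_lit 78) (nat_lit 0) (nat_lit 0) (XT.lf (nat_lit 0) (nat_lit 6616206098) (nat_lit 228) (nat_lit 20508763957) (nat_lit 304) (nat_lit 7750189559) (nat_lit 43) (nat_lit 5) (nat_lit 46) (nat_lit 5) (nat_lit 47) (nat_lit 5) (nat_lit 356) (nat_lit 293) (nat_lit 131)) (XT.lf (nat_lit 0) (nat_lit 20045992929) (nat_lit 228) (nat_lit 12261108580) (nat_lit 304) (nat_lit 3339111622) (nat_lit 43) (nat_lit 5) (nat_lit 46) (nat_lit 5) (nat_lit 47) (nat_lit 5) (nat_lit 357) (nat_lit 293) (nat_lit 130))))) (XT.nd (nat_lit 234) (nat_lit 228) (nat_lit 0) (XT.nd (nat_lit 78) (nat_lit 228) (nat_lit 0) (XT.lf (nat_lit 0) (nat_lit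 1176564891) (nat_lit 304) (nat_lit 2579526039) (nat_lit 76) (nat_lit 32684093183) (nat_lit 42) (nat_lit 5) (nat_lit 46) (nat_lit 5) (nat_lit 43) (nat_lit 5) (nat_lit 358) (nat_lit 293) (nat_lit 129)) (XT.nd (nat_lit 78) (nat_lit 0) (nat_lit 0) (XT.lf (nat_lit 0) (nat_lit 5911757882) (nat_lit 304) (nat_lit 26295915361) (nat_lit 76) (nat_lit 5044780364) (nat_lit 39) (nat_lit 5) (nat_lit 43) (nat_lit 5) (nat_lit 40) (nat_lit 5) (nat_lit 359) (nat_lit 293) (nat_lit 128)) (XT.lf (nat_lit 0) (nat_lit 10848435073) (nat_lit 304) (nat_lit 13180287215) (nat_lit 76) (nat_lit 14058591840) (nat_lit 39) (nat_lit 5) (nat_lit 43) (nat_lit 5) (nat_lit 40) (nat_lit 5) (nat_lit 360) (nat_lit 293) (nat_lit 127)))) (XT.nd (nat_lit 78) (nat_lit 0) (nat_lit 0) (XT.lf (nat_lit 0) (nat_lit 329320698) (nat_lit 228) (nat_lit 15603109292) (nat_lit 304) (nat_lit 23014819577) (nat_lit 36) (nat_lit 5) (nat_lit 39) (nat_lit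 5) (nat_lit 40) (nat_lit 5) (nat_lit 361) (nat_lit 293) (nat_lit 126)) (XT.nd (nat_lit 78) (nat_lit 0) (nat_lit 0) (XT.lf (nat_lit 0) (nat_lit 14508542497) (nat_lit 228) (nat_lit 6789607787) (nat_lit 304) (nat_lit 18530962081) (nat_lit 36) (nat_lit 5) (nat_lit 39) (nat_lit 5) (nat_lit 40) (nat_lit 5) (nat_lit 362) (nat_lit 293) (nat_lit 125)) (XT.lf (nat_lit 0) (nat_lit 26843044110) (nat_lit 304) (nat_lit 11652073564) (nat_lit 76) (nat_lit 2241772618) (nat_lit 36) (nat_lit 5) (nat_lit 40) (nat_lit 5) (nat_lit 37) (nat_lit 5) (nat_lit 363) (nat_lit 293) (nat_lit 124))))))))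
noncomputable def xc197 : XT := (XT.nd (nat_lit 35178) (nat_lit 0) (nat_lit 8740) (XT.nd (nat_lit 858) (nat_lit 532) (nat_lit 0) (XT.nd (nat_lit 390) (nat_lit 304) (nat_lit 0) (XT.nd (nat_lit 156) (nat_lit 304) (nat_lit 0) (XT.nd (nat_lit 78) (nat_lit 0) (nat_lit 0) (XT.lf (nat_lit 0) (nat_lit 2400477359) (nat_lit 152) (nat_lit 30240422003) (nat_lit 228) (nat_lit 9028408903) (nat_lit 34) (nat_lit 5) (nat_lit 36) (nat_lit 5) (nat_lit 37) (nat_lit 5) (nat_lit 364) (nat_lit 293) (nat_lit 123)) (XT.lf (nat_lit 0) (nat_lit 17107897589) (nat_lit 152) (nat_lit 21618825522) (nat_lit 228) (nat_lit 3899559680) (nat_lit 34) (nat_lit 5) (nat_lit 36) (nat_lit 5) (nat_lit 37) (nat_lit 5) (nat_lit 365) (nat_lit 293) (nat_lit 122))) (XT.nd (nat_lit 78) (nat_lit 228) (nat_lit 0) (XT.lf (nat_lit 0) (nat_lit 1352600507) (nat_lit 228) (nat_lit 11374198773) (nat_lit 76) (nat_lit 30884880038) (nat_lit 33) (nat_lit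 5) (nat_lit 36) (nat_lit 5) (nat_lit 34) (nat_lit 5) (nat_lit 366) (nat_lit 293) (nat_lit 121)) (XT.nd (nat_lit 78) (nat_lit 0) (nat_lit 0) (XT.lf (nat_lit 0) (nat_lit 3213085220) (nat_lit 228) (nat_lit 3498288766) (nat_lit 304) (nat_lit 37913287268) (nat_lit 30) (nat_lit 5) (nat_lit 33) (nat_lit 5) (nat_lit 34) (nat_lit 5) (nat_lit 367) (nat_lit 293) (nat_lit 120)) (XT.lf (nat_lit 0) (nat_lit 12401220653) (nat_lit 304) (nat_lit 27257674353) (nat_lit 76) (nat_lit 6004032785) (nat_lit 30) (nat_lit 5) (nat_lit 34) (nat_lit 5) (nat_lit 31) (nat_lit 5) (nat_lit 368) (nat_lit 293) (nat_lit 119))))) (XT.nd (nat_lit 234) (nat_lit 152) (nat_lit 0) (XT.nd (nat_lit 78) (nat_lit 152) (nat_lit 0) (XT.lf (nat_lit 0) (nat_lit 18293071064) (nat_lit 304) (nat_lit 12718990372) (nat_lit 76) (nat_lit 15719345950) (nat_lit 30) (nat_lit 5) (nat_lit 34) (nat_lit 5) (nat_lit 31) (nat_lit 5) (nat_lit 369) (nat_lit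 293) (nat_lit 118)) (XT.nd (nat_lit 78) (nat_lit 0) (nat_lit 0) (XT.lf (nat_lit 0) (nat_lit 2295602783) (nat_lit 152) (nat_lit 22084909701) (nat_lit 228) (nat_lit 23450868003) (nat_lit 28) (nat_lit 5) (nat_lit 30) (nat_lit 5) (nat_lit 31) (nat_lit 5) (nat_lit 370) (nat_lit 293) (nat_lit 117)) (XT.lf (nat_lit 0) (nat_lit 18016363223) (nat_lit 152) (nat_lit 12759465626) (nat_lit 228) (nat_lit 18184770448) (nat_lit 28) (nat_lit 5) (nat_lit 30) (nat_lit 5) (nat_lit 31) (nat_lit 5) (nat_lit 371) (nat_lit 293) (nat_lit 116)))) (XT.nd (nat_lit 78) (nat_lit 152) (nat_lit 0) (XT.lf (nat_lit 0) (nat_lit 34203894684) (nat_lit 152) (nat_lit 3156017628) (nat_lit 228) (nat_lit 12763879075) (nat_lit 28) (nat_lit 5) (nat_lit 30) (nat_lit 5) (nat_lit 31) (nat_lit 5) (nat_lit 372) (nat_lit 293) (nat_lit 115)) (XT.nd (nat_lit 78) (nat_lit 152) (nat_lit 0) (XT.lf (nat_lit 0) (nat_lit 44203245608) (nat_lit 228)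 (nat_lit 514361179) (nat_lit 76) (nat_lit 6602424463) (nat_lit 28) (nat_lit 5) (nat_lit 31) (nat_lit 5) (nat_lit 29) (nat_lit 5) (nat_lit 373) (nat_lit 293) (nat_lit 114)) (XT.lf (nat_lit 0) (nat_lit 15622291382) (nat_lit 152) (nat_lit 35808075423) (nat_lit 228) (nat_lit 1116440585) (nat_lit 26) (nat_lit 5) (nat_lit 28) (nat_lit 5) (nat_lit 29) (nat_lit 5) (nat_lit 374) (nat_lit 293) (nat_lit 113)))))) (XT.nd (nat_lit 390) (nat_lit 304) (nat_lit 0) (XT.nd (nat_lit 156) (nat_lit 152) (nat_lit 0) (XT.nd (nat_lit 78) (nat_lit 0) (nat_lit 0) (XT.lf (nat_lit 0) (nat_lit 4967423219) (nat_lit 228) (nat_lit 21610037033) (nat_lit 76) (nat_lit 27231400039) (nat_lit 25) (nat_lit 5) (nat_lit 28) (nat_lit 5) (nat_lit 26) (nat_lit 5) (nat_lit 375) (nat_lit 293) (nat_lit 112)) (XT.lf (nat_lit 0) (nat_lit 11208526838) (nat_lit 228) (nat_lit 5851706277) (nat_lit 76) (nat_lit 38048298551) (nat_lit 25) (nat_lit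 5) (nat_lit 28) (nat_lit 5) (nat_lit 26) (nat_lit 5) (nat_lit 376) (nat_lit 293) (nat_lit 111))) (XT.nd (nat_lit 78) (nat_lit 0) (nat_lit 0) (XT.lf (nat_lit 0) (nat_lit 10581459980) (nat_lit 152) (nat_lit 7154364928) (nat_lit 228) (nat_lit 38708402739) (nat_lit 23) (nat_lit 5) (nat_lit 25) (nat_lit 5) (nat_lit 26) (nat_lit 5) (nat_lit 377) (nat_lit 293) (nat_lit 110)) (XT.nd (nat_lit 78) (nat_lit 0) (nat_lit 0) (XT.lf (nat_lit 0) (nat_lit 24545192004) (nat_lit 228) (nat_lit 30224959795) (nat_lit 76) (nat_lit 3047258415) (nat_lit 23) (nat_lit 5) (nat_lit 26) (nat_lit 5) (nat_lit 24) (nat_lit 5) (nat_lit 378) (nat_lit 293) (nat_lit 109)) (XT.lf (nat_lit 0) (nat_lit 31627023463) (nat_lit 228) (nat_lit 14193146815) (nat_lit 76) (nat_lit 13409575592) (nat_lit 23) (nat_lit 5) (nat_lit 26) (nat_lit 5) (nat_lit 24) (nat_lit 5) (nat_lit 379) (nat_lit 293) (nat_lit 108))))) (XT.nd (nat_lit 234) (nat_lit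 152) (nat_lit 0) (XT.nd (nat_lit 78) (nat_lit 0) (nat_lit 0) (XT.lf (nat_lit 0) (nat_lit 2361533814) (nat_lit 152) (nat_lit 36579901856) (nat_lit 228) (nat_lit 21742415177) (nat_lit 21) (nat_lit 5) (nat_lit 23) (nat_lit 5) (nat_lit 24) (nat_lit 5) (nat_lit 380) (nat_lit 293) (nat_lit 107)) (XT.nd (nat_lit 78) (nat_lit 0) (nat_lit 0) (XT.lf (nat_lit 0) (nat_lit 19699672558) (nat_lit 152) (nat_lit 26916391246) (nat_lit 228) (nat_lit 15561294598) (nat_lit 21) (nat_lit 5) (nat_lit 23) (nat_lit 5) (nat_lit 24) (nat_lit 5) (nat_lit 381) (nat_lit 293) (nat_lit 106)) (XT.lf (nat_lit 0) (nat_lit 37553947795) (nat_lit 152) (nat_lit 16964517557) (nat_lit 228) (nat_lit 9197282645) (nat_lit 21) (nat_lit 5) (nat_lit 23) (nat_lit 5) (nat_lit 24) (nat_lit 5) (nat_lit 382) (nat_lit 293) (nat_lit 105)))) (XT.nd (nat_lit 78) (nat_lit 152) (nat_lit 0) (XT.lf (nat_lit 0) (nat_lit 55939960348) (nat_lit 152) (nat_lit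 6715584979) (nat_lit 228) (nat_lit 2644818530) (nat_lit 21) (nat_lit 5) (nat_lit 23) (nat_lit 5) (nat_lit 24) (nat_lit 5) (nat_lit 383) (nat_lit 293) (nat_lit 104)) (XT.nd (nat_lit 78) (nat_lit 0) (nat_lit 0) (XT.lf (nat_lit 0) (nat_lit 4137313745) (nat_lit 152) (nat_lit 58908131098) (nat_lit 76) (nat_lit 3882496917) (nat_lit 19) (nat_lit 5) (nat_lit 21) (nat_lit 5) (nat_lit 20) (nat_lit 5) (nat_lit 384) (nat_lit 293) (nat_lit 103)) (XT.lf (nat_lit 0) (nat_lit 11229368587) (nat_lit 152) (nat_lit 42585661489) (nat_lit 76) (nat_lit 14783745364) (nat_lit 19) (nat_lit 5) (nat_lit 21) (nat_lit 5) (nat_lit 20) (nat_lit 5) (nat_lit 385) (nat_lit 293) (nat_lit 102))))))) (XT.nd (nat_lit 858) (nat_lit 1520) (nat_lit 0) (XT.nd (nat_lit 390) (nat_lit 912) (nat_lit 0) (XT.nd (nat_lit 156) (nat_lit 0) (nat_lit 0) (XT.nd (nat_lit 78) (nat_lit 0) (nat_lit 0) (XT.lf (nat_lit 0) (nat_lit 2048221146) (nat_lit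 0) (nat_lit 2048221146) (nat_lit 988) (nat_lit 1694608440) (nat_lit 166) (nat_lit 5) (nat_lit 166) (nat_lit 3) (nat_lit 179) (nat_lit 3) (nat_lit 294) (nat_lit 294) (nat_lit 192)) (XT.lf (nat_lit 0) (nat_lit 8780222230) (nat_lit 988) (nat_lit 2657972453) (nat_lit 1064) (nat_lit 302529472) (nat_lit 166) (nat_lit 5) (nat_lit 179) (nat_lit 3) (nat_lit 180) (nat_lit 5) (nat_lit 295) (nat_lit 294) (nat_lit 191))) (XT.nd (nat_lit 78) (nat_lit 0) (nat_lit 0) (XT.lf (nat_lit 76) (nat_lit 2309372353) (nat_lit 0) (nat_lit 7120641936) (nat_lit 1064) (nat_lit 2472792085) (nat_lit 167) (nat_lit 5) (nat_lit 166) (nat_lit 5) (nat_lit 180) (nat_lit 5) (nat_lit 296) (nat_lit 294) (nat_lit 190)) (XT.nd (nat_lit 78) (nat_lit 0) (nat_lit 76) (XT.lf (nat_lit 76) (nat_lit 7470640364) (nat_lit 0) (nat_lit 2638006340) (nat_lit 1064) (nat_lit 1960868499) (nat_lit 167) (nat_lit 5) (nat_lit 166) (nat_lit 5) (nat_lit 180)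 (nat_lit 5) (nat_lit 297) (nat_lit 294) (nat_lit 189)) (XT.lf (nat_lit 76) (nat_lit 526846947) (nat_lit 0) (nat_lit 10287969554) (nat_lit 1064) (nat_lit 1426236686) (nat_lit 168) (nat_lit 5) (nat_lit 167) (nat_lit 5) (nat_lit 181) (nat_lit 5) (nat_lit 298) (nat_lit 294) (nat_lit 188))))) (XT.nd (nat_lit 234) (nat_lit 0) (nat_lit 0) (XT.nd (nat_lit 78) (nat_lit 988) (nat_lit 0) (XT.lf (nat_lit 76) (nat_lit 5864141028) (nat_lit 0) (nat_lit 5733820438) (nat_lit 1064) (nat_lit 818144126) (nat_lit 168) (nat_lit 5) (nat_lit 167) (nat_lit 5) (nat_lit 181) (nat_lit 5) (nat_lit 299) (nat_lit 294) (nat_lit 187)) (XT.nd (nat_lit 78) (nat_lit 988) (nat_lit 0) (XT.lf (nat_lit 76) (nat_lit 11352007239) (nat_lit 0) (nat_lit 1036562133) (nat_lit 1064) (nat_lit 208361901) (nat_lit 168) (nat_lit 5) (nat_lit 167) (nat_lit 5) (nat_lit 181) (nat_lit 5) (nat_lit 300) (nat_lit 294) (nat_lit 186)) (XT.lf (nat_lit 0)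 (nat_lit 474068781) (nat_lit 1064) (nat_lit 8527971645) (nat_lit 1140) (nat_lit 3779182327) (nat_lit 154) (nat_lit 5) (nat_lit 168) (nat_lit 5) (nat_lit 169) (nat_lit 5) (nat_lit 301) (nat_lit 294) (nat_lit 185)))) (XT.nd (nat_lit 78) (nat_lit 0) (nat_lit 76) (XT.lf (nat_lit 0) (nat_lit 1180409633) (nat_lit 1064) (nat_lit 3051306765) (nat_lit 1140) (nat_lit 8739073240) (nat_lit 154) (nat_lit 5) (nat_lit 168) (nat_lit 5) (nat_lit 169) (nat_lit 5) (nat_lit 302) (nat_lit 294) (nat_lit 184)) (XT.nd (nat_lit 78) (nat_lit 0) (nat_lit 0) (XT.lf (nat_lit 0) (nat_lit 1925199053) (nat_lit 1064) (nat_lit 10541405623) (nat_lit 1140) (nat_lit 698957318) (nat_lit 155) (nat_lit 5) (nat_lit 169) (nat_lit 5) (nat_lit 170) (nat_lit 5) (nat_lit 303) (nat_lit 294) (nat_lit 183)) (XT.lf (nat_lit 0) (nat_lit 2750847700) (nat_lit 1064) (nat_lit 4885234532) (nat_lit 1140) (nat_lit 5728374982) (nat_lit 155) (nat_lit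 5) (nat_lit 169) (nat_lit 5) (nat_lit 170) (nat_lit 5) (nat_lit 304) (nat_lit 294) (nat_lit 182)))))) (XT.nd (nat_lit 468) (nat_lit 1596) (nat_lit 0) (XT.nd (nat_lit 234) (nat_lit 0) (nat_lit 76) (XT.nd (nat_lit 78) (nat_lit 0) (nat_lit 76) (XT.lf (nat_lit 76) (nat_lit 949231684) (nat_lit 0) (nat_lit 2647081123) (nat_lit 1140) (nat_lit 9973189212) (nat_lit 156) (nat_lit 5) (nat_lit 155) (nat_lit 5) (nat_lit 170) (nat_lit 5) (nat_lit 305) (nat_lit 294) (nat_lit 181)) (XT.nd (nat_lit 78) (nat_lit 0) (nat_lit 0) (XT.lf (nat_lit 0) (nat_lit 4527188283) (nat_lit 1064) (nat_lit 6755082622) (nat_lit 1140) (nat_lit 2496659012) (nat_lit 156) (nat_lit 5) (nat_lit 170) (nat_lit 5) (nat_lit 171) (nat_lit 5) (nat_lit 306) (nat_lit 294) (nat_lit 180)) (XT.lf (nat_lit 0) (nat_lit 5498874484) (nat_lit 1064) (nat_lit 750147692) (nat_lit 1140) (nat_lit 7745264118) (nat_lit 156) (nat_lit 5) (nat_lit 170) (nat_lit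 5) (nat_lit 171) (nat_lit 5) (nat_lit 307) (nat_lit 294) (nat_lit 179)))) (XT.nd (nat_lit 78) (nat_lit 0) (nat_lit 76) (XT.lf (nat_lit 76) (nat_lit 5533199497) (nat_lit 0) (nat_lit 1006764095) (nat_lit 1140) (nat_lit 7674963441) (nat_lit 157) (nat_lit 5) (nat_lit 156) (nat_lit 5) (nat_lit 171) (nat_lit 5) (nat_lit 308) (nat_lit 294) (nat_lit 178)) (XT.nd (nat_lit 78) (nat_lit 0) (nat_lit 0) (XT.lf (nat_lit 0) (nat_lit 7649538712) (nat_lit 1064) (nat_lit 2473888613) (nat_lit 1140) (nat_lit 4317672399) (nat_lit 157) (nat_lit 5) (nat_lit 171) (nat_lit 5) (nat_lit 172) (nat_lit 5) (nat_lit 309) (nat_lit 294) (nat_lit 177)) (XT.lf (nat_lit 76) (nat_lit 3978084715) (nat_lit 0) (nat_lit 4850269169) (nat_lit 1140) (nat_lit 5844654574) (nat_lit 158) (nat_lit 5) (nat_lit 157) (nat_lit 5) (nat_lit 172) (nat_lit 5) (nat_lit 310) (nat_lit 294) (nat_lit 176))))) (XT.nd (nat_lit 234) (nat_lit 760) (nat_lit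 0) (XT.nd (nat_lit 78) (nat_lit 1064) (nat_lit 0) (XT.lf (nat_lit 0) (nat_lit 10061379475) (nat_lit 1064) (nat_lit 4252703116) (nat_lit 76) (nat_lit 597255072) (nat_lit 158) (nat_lit 5) (nat_lit 172) (nat_lit 5) (nat_lit 159) (nat_lit 5) (nat_lit 311) (nat_lit 294) (nat_lit 175)) (XT.nd (nat_lit 78) (nat_lit 0) (nat_lit 0) (XT.lf (nat_lit 0) (nat_lit 2371252201) (nat_lit 1064) (nat_lit 9019340090) (nat_lit 1140) (nat_lit 3764476316) (nat_lit 144) (nat_lit 5) (nat_lit 158) (nat_lit 5) (nat_lit 159) (nat_lit 5) (nat_lit 312) (nat_lit 294) (nat_lit 174)) (XT.lf (nat_lit 0) (nat_lit 9271417185) (nat_lit 1064) (nat_lit 3519833679) (nat_lit 1140) (nat_lit 2613940482) (nat_lit 144) (nat_lit 5) (nat_lit 158) (nat_lit 5) (nat_lit 159) (nat_lit 5) (nat_lit 313) (nat_lit 294) (nat_lit 173)))) (XT.nd (nat_lit 78) (nat_lit 76) (nat_lit 0) (XT.lf (nat_lit 0) (nat_lit 699017564) (nat_lit 684) (nat_lit 13551219252)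 (nat_lit 760) (nat_lit 1412117884) (nat_lit 135) (nat_lit 5) (nat_lit 144) (nat_lit 5) (nat_lit 145) (nat_lit 5) (nat_lit 314) (nat_lit 294) (nat_lit 172)) (XT.nd (nat_lit 78) (nat_lit 76) (nat_lit 0) (XT.lf (nat_lit 0) (nat_lit 7817305456) (nat_lit 684) (nat_lit 8021334765) (nat_lit 760) (nat_lit 86048699) (nat_lit 135) (nat_lit 5) (nat_lit 144) (nat_lit 5) (nat_lit 145) (nat_lit 5) (nat_lit 315) (nat_lit 294) (nat_lit 171)) (XT.lf (nat_lit 0) (nat_lit 1244216167) (nat_lit 760) (nat_lit 1067687155) (nat_lit 76) (nat_lit 13882963106) (nat_lit 134) (nat_lit 5) (nat_lit 144) (nat_lit 5) (nat_lit 135) (nat_lit 5) (nat_lit 316) (nat_lit 294) (nat_lit 170))))))))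
noncomputable def xc198 : XT := (XT.nd (nat_lit 1716) (nat_lit 2660) (nat_lit 0) (XT.nd (nat_lit 858) (nat_lit 2052) (nat_lit 0) (XT.nd (nat_lit 390) (nat_lit 988) (nat_lit 0) (XT.nd (nat_lit 156) (nat_lit 988) (nat_lit 0) (XT.nd (nat_lit 78) (nat_lit 0) (nat_lit 0) (XT.lf (nat_lit 0) (nat_lit 2697797692) (nat_lit 608) (nat_lit 10210713196) (nat_lit 76) (nat_lit 3562081911) (nat_lit 127) (nat_lit 5) (nat_lit 135) (nat_lit 5) (nat_lit 128) (nat_lit 5) (nat_lit 317) (nat_lit 294) (nat_lit 169)) (XT.lf (nat_lit 0) (nat_lit 4218680438) (nat_lit 608) (nat_lit 2957699264) (nat_lit 76) (nat_lit 9577523017) (nat_lit 127) (nat_lit 5) (nat_lit 135) (nat_lit 5) (nat_lit 128) (nat_lit 5) (nat_lit 318) (nat_lit 294) (nat_lit 168))) (XT.nd (nat_lit 78) (nat_lit 456) (nat_lit 0) (XT.lf (nat_lit 0) (nat_lit 4593220039) (nat_lit 532) (nat_lit 1226331543) (nat_lit 608) (nat_lit 11225151406) (nat_lit 120) (nat_lit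 5) (nat_lit 127) (nat_lit 5) (nat_lit 128) (nat_lit 5) (nat_lit 319) (nat_lit 294) (nat_lit 167)) (XT.nd (nat_lit 78) (nat_lit 456) (nat_lit 0) (XT.lf (nat_lit 0) (nat_lit 7536143798) (nat_lit 608) (nat_lit 4968989883) (nat_lit 76) (nat_lit 4837084008) (nat_lit 120) (nat_lit 5) (nat_lit 128) (nat_lit 5) (nat_lit 121) (nat_lit 5) (nat_lit 320) (nat_lit 294) (nat_lit 166)) (XT.lf (nat_lit 0) (nat_lit 2770642403) (nat_lit 456) (nat_lit 6563054870) (nat_lit 532) (nat_lit 8314097307) (nat_lit 114) (nat_lit 5) (nat_lit 120) (nat_lit 5) (nat_lit 121) (nat_lit 5) (nat_lit 321) (nat_lit 294) (nat_lit 165))))) (XT.nd (nat_lit 234) (nat_lit 532) (nat_lit 0) (XT.nd (nat_lit 78) (nat_lit 456) (nat_lit 0) (XT.lf (nat_lit 0) (nat_lit 10835154967) (nat_lit 456) (nat_lit 391071009) (nat_lit 532) (nat_lit 6735101396) (nat_lit 114) (nat_lit 5) (nat_lit 120) (nat_lit 5) (nat_lit 121) (nat_lit 5) (nat_lit 322) (nat_lit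 294) (nat_lit 164)) (XT.nd (nat_lit 78) (nat_lit 0) (nat_lit 0) (XT.lf (nat_lit 0) (nat_lit 806539662) (nat_lit 456) (nat_lit 12425230440) (nat_lit 532) (nat_lit 5050828324) (nat_lit 108) (nat_lit 5) (nat_lit 114) (nat_lit 5) (nat_lit 115) (nat_lit 5) (nat_lit 323) (nat_lit 294) (nat_lit 163)) (XT.lf (nat_lit 0) (nat_lit 9110267595) (nat_lit 456) (nat_lit 6254315137) (nat_lit 532) (nat_lit 3246930716) (nat_lit 108) (nat_lit 5) (nat_lit 114) (nat_lit 5) (nat_lit 115) (nat_lit 5) (nat_lit 324) (nat_lit 294) (nat_lit 162)))) (XT.nd (nat_lit 78) (nat_lit 532) (nat_lit 0) (XT.lf (nat_lit 0) (nat_lit 17553914793) (nat_lit 532) (nat_lit 1297265240) (nat_lit 76) (nat_lit 99358186) (nat_lit 108) (nat_lit 5) (nat_lit 115) (nat_lit 5) (nat_lit 109) (nat_lit 5) (nat_lit 325) (nat_lit 294) (nat_lit 161)) (XT.nd (nat_lit 78) (nat_lit 0) (nat_lit 0) (XT.lf (nat_lit 0) (nat_lit 623617951) (nat_lit 532) (nat_lit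 12079146380) (nat_lit 76) (nat_lit 6593109027) (nat_lit 101) (nat_lit 5) (nat_lit 108) (nat_lit 5) (nat_lit 102) (nat_lit 5) (nat_lit 326) (nat_lit 294) (nat_lit 160)) (XT.lf (nat_lit 0) (nat_lit 2681486526) (nat_lit 532) (nat_lit 3661327551) (nat_lit 76) (nat_lit 13308203707) (nat_lit 101) (nat_lit 5) (nat_lit 108) (nat_lit 5) (nat_lit 102) (nat_lit 5) (nat_lit 327) (nat_lit 294) (nat_lit 159)))))) (XT.nd (nat_lit 390) (nat_lit 836) (nat_lit 0) (XT.nd (nat_lit 156) (nat_lit 760) (nat_lit 0) (XT.nd (nat_lit 78) (nat_lit 0) (nat_lit 0) (XT.lf (nat_lit 0) (nat_lit 4844689343) (nat_lit 532) (nat_lit 14918199213) (nat_lit 76) (nat_lit 252636346) (nat_lit 95) (nat_lit 5) (nat_lit 102) (nat_lit 5) (nat_lit 96) (nat_lit 5) (nat_lit 328) (nat_lit 294) (nat_lit 158)) (XT.lf (nat_lit 0) (nat_lit 7165164609) (nat_lit 532) (nat_lit 6268053646) (nat_lit 76) (nat_lit 6954993515) (nat_lit 95) (nat_lit 5) (nat_lit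 102) (nat_lit 5) (nat_lit 96) (nat_lit 5) (nat_lit 329) (nat_lit 294) (nat_lit 157))) (XT.nd (nat_lit 78) (nat_lit 380) (nat_lit 0) (XT.lf (nat_lit 0) (nat_lit 2685434187) (nat_lit 380) (nat_lit 6888097996) (nat_lit 456) (nat_lit 11198014087) (nat_lit 90) (nat_lit 5) (nat_lit 95) (nat_lit 5) (nat_lit 96) (nat_lit 5) (nat_lit 330) (nat_lit 294) (nat_lit 156)) (XT.nd (nat_lit 78) (nat_lit 380) (nat_lit 0) (XT.lf (nat_lit 0) (nat_lit 12027534984) (nat_lit 380) (nat_lit 82512841) (nat_lit 456) (nat_lit 9054670990) (nat_lit 90) (nat_lit 5) (nat_lit 95) (nat_lit 5) (nat_lit 96) (nat_lit 5) (nat_lit 331) (nat_lit 294) (nat_lit 155)) (XT.lf (nat_lit 0) (nat_lit 5272815) (nat_lit 380) (nat_lit 14776833034) (nat_lit 456) (nat_lit 6785811765) (nat_lit 85) (nat_lit 5) (nat_lit 90) (nat_lit 5) (nat_lit 91) (nat_lit 5) (nat_lit 332) (nat_lit 294) (nat_lit 154))))) (XT.nd (nat_lit 234) (nat_lit 380) (nat_lit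 0) (XT.nd (nat_lit 78) (nat_lit 456) (nat_lit 0) (XT.lf (nat_lit 0) (nat_lit 9600102656) (nat_lit 380) (nat_lit 8020235940) (nat_lit 456) (nat_lit 4360307456) (nat_lit 85) (nat_lit 5) (nat_lit 90) (nat_lit 5) (nat_lit 91) (nat_lit 5) (nat_lit 333) (nat_lit 294) (nat_lit 153)) (XT.nd (nat_lit 78) (nat_lit 456) (nat_lit 0) (XT.lf (nat_lit 0) (nat_lit 19474650596) (nat_lit 380) (nat_lit 1062209857) (nat_lit 456) (nat_lit 1869115280) (nat_lit 85) (nat_lit 5) (nat_lit 90) (nat_lit 5) (nat_lit 91) (nat_lit 5) (nat_lit 334) (nat_lit 294) (nat_lit 152)) (XT.lf (nat_lit 0) (nat_lit 802407247) (nat_lit 456) (nat_lit 15979774831) (nat_lit 76) (nat_lit 6058119395) (nat_lit 79) (nat_lit 5) (nat_lit 85) (nat_lit 5) (nat_lit 80) (nat_lit 5) (nat_lit 335) (nat_lit 294) (nat_lit 151)))) (XT.nd (nat_lit 78) (nat_lit 380) (nat_lit 0) (XT.lf (nat_lit 0) (nat_lit 3550288512) (nat_lit 456) (nat_lit 6318018169) (nat_lit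 76) (nat_lit 13417794202) (nat_lit 79) (nat_lit 5) (nat_lit 85) (nat_lit 5) (nat_lit 80) (nat_lit 5) (nat_lit 336) (nat_lit 294) (nat_lit 150)) (XT.nd (nat_lit 78) (nat_lit 0) (nat_lit 0) (XT.lf (nat_lit 0) (nat_lit 3697830372) (nat_lit 380) (nat_lit 2711884550) (nat_lit 456) (nat_lit 17334698224) (nat_lit 74) (nat_lit 5) (nat_lit 79) (nat_lit 5) (nat_lit 80) (nat_lit 5) (nat_lit 337) (nat_lit 294) (nat_lit 149)) (XT.lf (nat_lit 0) (nat_lit 9457803211) (nat_lit 456) (nat_lit 10124340420) (nat_lit 76) (nat_lit 4631256551) (nat_lit 74) (nat_lit 5) (nat_lit 80) (nat_lit 5) (nat_lit 75) (nat_lit 5) (nat_lit 338) (nat_lit 294) (nat_lit 148))))))) (XT.nd (nat_lit 858) (nat_lit 1140) (nat_lit 0) (XT.nd (nat_lit 390) (nat_lit 836) (nat_lit 0) (XT.nd (nat_lit 156) (nat_lit 380) (nat_lit 0) (XT.nd (nat_lit 78) (nat_lit 0) (nat_lit 0) (XT.lf (nat_lit 0) (nat_lit 62137081) (nat_lit 304) (nat_lit 12556489796)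 (nat_lit 380) (nat_lit 12077202607) (nat_lit 70) (nat_lit 5) (nat_lit 74) (nat_lit 5) (nat_lit 75) (nat_lit 5) (nat_lit 339) (nat_lit 294) (nat_lit 147)) (XT.lf (nat_lit 0) (nat_lit 10754030078) (nat_lit 304) (nat_lit 5216431330) (nat_lit 380) (nat_lit 9219395774) (nat_lit 70) (nat_lit 5) (nat_lit 74) (nat_lit 5) (nat_lit 75) (nat_lit 5) (nat_lit 340) (nat_lit 294) (nat_lit 146))) (XT.nd (nat_lit 78) (nat_lit 380) (nat_lit 0) (XT.lf (nat_lit 0) (nat_lit 19439492101) (nat_lit 380) (nat_lit 3962220675) (nat_lit 76) (nat_lit 2296504480) (nat_lit 70) (nat_lit 5) (nat_lit 75) (nat_lit 5) (nat_lit 71) (nat_lit 5) (nat_lit 341) (nat_lit 294) (nat_lit 145)) (XT.nd (nat_lit 78) (nat_lit 76) (nat_lit 0) (XT.lf (nat_lit 0) (nat_lit 6901171552) (nat_lit 304) (nat_lit 16223690617) (nat_lit 380) (nat_lit 3093608372) (nat_lit 66) (nat_lit 5) (nat_lit 70) (nat_lit 5) (nat_lit 71) (nat_lit 5) (nat_lit 342) (nat_lit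 294) (nat_lit 144)) (XT.lf (nat_lit 0) (nat_lit 197932866) (nat_lit 380) (nat_lit 8590931578) (nat_lit 76) (nat_lit 17964387267) (nat_lit 65) (nat_lit 5) (nat_lit 70) (nat_lit 5) (nat_lit 66) (nat_lit 5) (nat_lit 343) (nat_lit 294) (nat_lit 143))))) (XT.nd (nat_lit 234) (nat_lit 532) (nat_lit 0) (XT.nd (nat_lit 78) (nat_lit 0) (nat_lit 0) (XT.lf (nat_lit 0) (nat_lit 2467473177) (nat_lit 304) (nat_lit 1076765637) (nat_lit 380) (nat_lit 23758382275) (nat_lit 61) (nat_lit 5) (nat_lit 65) (nat_lit 5) (nat_lit 66) (nat_lit 5) (nat_lit 344) (nat_lit 294) (nat_lit 142)) (XT.nd (nat_lit 78) (nat_lit 0) (nat_lit 0) (XT.lf (nat_lit 0) (nat_lit 7139103968) (nat_lit 380) (nat_lit 13906356117) (nat_lit 76) (nat_lit 6818575661) (nat_lit 61) (nat_lit 5) (nat_lit 66) (nat_lit 5) (nat_lit 62) (nat_lit 5) (nat_lit 345) (nat_lit 294) (nat_lit 141)) (XT.lf (nat_lit 0) (nat_lit 10847187434) (nat_lit 380) (nat_lit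 2667504384) (nat_lit 76) (nat_lit 14927448881) (nat_lit 61) (nat_lit 5) (nat_lit 66) (nat_lit 5) (nat_lit 62) (nat_lit 5) (nat_lit 346) (nat_lit 294) (nat_lit 140)))) (XT.nd (nat_lit 78) (nat_lit 228) (nat_lit 0) (XT.lf (nat_lit 0) (nat_lit 9078737029) (nat_lit 304) (nat_lit 5669912100) (nat_lit 380) (nat_lit 14286484364) (nat_lit 57) (nat_lit 5) (nat_lit 61) (nat_lit 5) (nat_lit 62) (nat_lit 5) (nat_lit 347) (nat_lit 294) (nat_lit 139)) (XT.nd (nat_lit 78) (nat_lit 228) (nat_lit 0) (XT.lf (nat_lit 0) (nat_lit 18812457806) (nat_lit 380) (nat_lit 8443505516) (nat_lit 76) (nat_lit 2388602165) (nat_lit 57) (nat_lit 5) (nat_lit 62) (nat_lit 5) (nat_lit 58) (nat_lit 5) (nat_lit 348) (nat_lit 294) (nat_lit 138)) (XT.lf (nat_lit 0) (nat_lit 3418537216) (nat_lit 228) (nat_lit 19663721412) (nat_lit 304) (nat_lit 7187507735) (nat_lit 54) (nat_lit 5) (nat_lit 57) (nat_lit 5) (nat_lit 58) (nat_lit 5) (nat_lit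 349) (nat_lit 294) (nat_lit 137)))))) (XT.nd (nat_lit 468) (nat_lit 532) (nat_lit 0) (XT.nd (nat_lit 234) (nat_lit 228) (nat_lit 0) (XT.nd (nat_lit 78) (nat_lit 380) (nat_lit 0) (XT.lf (nat_lit 0) (nat_lit 15802786357) (nat_lit 228) (nat_lit 11757787593) (nat_lit 304) (nat_lit 3350744722) (nat_lit 54) (nat_lit 5) (nat_lit 57) (nat_lit 5) (nat_lit 58) (nat_lit 5) (nat_lit 350) (nat_lit 294) (nat_lit 136)) (XT.nd (nat_lit 78) (nat_lit 304) (nat_lit 0) (XT.lf (nat_lit 0) (nat_lit 584635625) (nat_lit 304) (nat_lit 3025977319) (nat_lit 76) (nat_lit 27961481482) (nat_lit 53) (nat_lit 5) (nat_lit 57) (nat_lit 5) (nat_lit 54) (nat_lit 5) (nat_lit 351) (nat_lit 294) (nat_lit 135)) (XT.lf (nat_lit 0) (nat_lit 4705247865) (nat_lit 380) (nat_lit 22730167574) (nat_lit 76) (nat_lit 4812254569) (nat_lit 49) (nat_lit 5) (nat_lit 54) (nat_lit 5) (nat_lit 50) (nat_lit 5) (nat_lit 352) (nat_lit 294) (nat_lit 134))))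 (XT.nd (nat_lit 78) (nat_lit 228) (nat_lit 0) (XT.lf (nat_lit 0) (nat_lit 9011524437) (nat_lit 380) (nat_lit 10485844544) (nat_lit 76) (nat_lit 13444289622) (nat_lit 49) (nat_lit 5) (nat_lit 54) (nat_lit 5) (nat_lit 50) (nat_lit 5) (nat_lit 353) (nat_lit 294) (nat_lit 133)) (XT.nd (nat_lit 78) (nat_lit 0) (nat_lit 0) (XT.lf (nat_lit 0) (nat_lit 2161666436) (nat_lit 228) (nat_lit 11301673339) (nat_lit 304) (nat_lit 20192643487) (nat_lit 46) (nat_lit 5) (nat_lit 49) (nat_lit 5) (nat_lit 50) (nat_lit 5) (nat_lit 354) (nat_lit 294) (nat_lit 132)) (XT.lf (nat_lit 0) (nat_lit 15397290636) (nat_lit 228) (nat_lit 2752945417) (nat_lit 304) (nat_lit 16238462528) (nat_lit 46) (nat_lit 5) (nat_lit 49) (nat_lit 5) (nat_lit 50) (nat_lit 5) (nat_lit 355) (nat_lit 294) (nat_lit 131))))) (XT.nd (nat_lit 234) (nat_lit 304) (nat_lit 0) (XT.nd (nat_lit 78) (nat_lit 228) (nat_lit 0) (XT.lf (nat_lit 0) (nat_lit 23031666350)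 (nat_lit 304) (nat_lit 6177784702) (nat_lit 76) (nat_lit 5932333017) (nat_lit 46) (nat_lit 5) (nat_lit 50) (nat_lit 5) (nat_lit 47) (nat_lit 5) (nat_lit 356) (nat_lit 294) (nat_lit 130)) (XT.nd (nat_lit 78) (nat_lit 0) (nat_lit 0) (XT.lf (nat_lit 0) (nat_lit 7126030281) (nat_lit 228) (nat_lit 21025138984) (nat_lit 304) (nat_lit 7763550296) (nat_lit 43) (nat_lit 5) (nat_lit 46) (nat_lit 5) (nat_lit 47) (nat_lit 5) (nat_lit 357) (nat_lit 294) (nat_lit 129)) (XT.lf (nat_lit 0) (nat_lit 20949642620) (nat_lit 228) (nat_lit 12532934175) (nat_lit 304) (nat_lit 3226522883) (nat_lit 43) (nat_lit 5) (nat_lit 46) (nat_lit 5) (nat_lit 47) (nat_lit 5) (nat_lit 358) (nat_lit 294) (nat_lit 128)))) (XT.nd (nat_lit 78) (nat_lit 228) (nat_lit 0) (XT.lf (nat_lit 0) (nat_lit 1414396141) (nat_lit 304) (nat_lit 2359120995) (nat_lit 76) (nat_lit 33753502401) (nat_lit 42) (nat_lit 5) (nat_lit 46) (nat_lit 5) (nat_lit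 43) (nat_lit 5) (nat_lit 359) (nat_lit 294) (nat_lit 127)) (XT.nd (nat_lit 78) (nat_lit 0) (nat_lit 0) (XT.lf (nat_lit 0) (nat_lit 6289497407) (nat_lit 304) (nat_lit 26784568975) (nat_lit 76) (nat_lit 5289663725) (nat_lit 39) (nat_lit 5) (nat_lit 43) (nat_lit 5) (nat_lit 40) (nat_lit 5) (nat_lit 360) (nat_lit 294) (nat_lit 126)) (XT.lf (nat_lit 0) (nat_lit 11368438405) (nat_lit 304) (nat_lit 13284216368) (nat_lit 76) (nat_lit 14571165080) (nat_lit 39) (nat_lit 5) (nat_lit 43) (nat_lit 5) (nat_lit 40) (nat_lit 5) (nat_lit 361) (nat_lit 294) (nat_lit 125))))))))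
noncomputable def xc199 : XT := (XT.nd (nat_lit 1716) (nat_lit 152) (nat_lit 0) (XT.nd (nat_lit 858) (nat_lit 532) (nat_lit 0) (XT.nd (nat_lit 390) (nat_lit 456) (nat_lit 0) (XT.nd (nat_lit 156) (nat_lit 152) (nat_lit 0) (XT.nd (nat_lit 78) (nat_lit 0) (nat_lit 0) (XT.lf (nat_lit 0) (nat_lit 627822140) (nat_lit 228) (nat_lit 15974238926) (nat_lit 304) (nat_lit 23507587127) (nat_lit 36) (nat_lit 5) (nat_lit 39) (nat_lit 5) (nat_lit 40) (nat_lit 5) (nat_lit 362) (nat_lit 294) (nat_lit 124)) (XT.lf (nat_lit 0) (nat_lit 15224014132) (nat_lit 228) (nat_lit 6899156559) (nat_lit 304) (nat_lit 18894971489) (nat_lit 36) (nat_lit 5) (nat_lit 39) (nat_lit 5) (nat_lit 40) (nat_lit 5) (nat_lit 363) (nat_lit 294) (nat_lit 123))) (XT.nd (nat_lit 78) (nat_lit 152) (nat_lit 0) (XT.lf (nat_lit 0) (nat_lit 27829870215) (nat_lit 304) (nat_lit 11724787238) (nat_lit 76) (nat_lit 2398639836) (nat_lit 36) (nat_lit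 5) (nat_lit 40) (nat_lit 5) (nat_lit 37) (nat_lit 5) (nat_lit 364) (nat_lit 294) (nat_lit 122)) (XT.nd (nat_lit 78) (nat_lit 0) (nat_lit 0) (XT.lf (nat_lit 0) (nat_lit 2746626012) (nat_lit 152) (nat_lit 31052382839) (nat_lit 228) (nat_lit 9114765907) (nat_lit 34) (nat_lit 5) (nat_lit 36) (nat_lit 5) (nat_lit 37) (nat_lit 5) (nat_lit 365) (nat_lit 294) (nat_lit 121)) (XT.lf (nat_lit 0) (nat_lit 17887284354) (nat_lit 152) (nat_lit 22174912788) (nat_lit 228) (nat_lit 3837424856) (nat_lit 34) (nat_lit 5) (nat_lit 36) (nat_lit 5) (nat_lit 37) (nat_lit 5) (nat_lit 366) (nat_lit 294) (nat_lit 120))))) (XT.nd (nat_lit 234) (nat_lit 152) (nat_lit 0) (XT.nd (nat_lit 78) (nat_lit 228) (nat_lit 0) (XT.lf (nat_lit 0) (nat_lit 1563689499) (nat_lit 228) (nat_lit 11453407953) (nat_lit 76) (nat_lit 31897591535) (nat_lit 33) (nat_lit 5) (nat_lit 36) (nat_lit 5) (nat_lit 34) (nat_lit 5) (nat_lit 367) (nat_lit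 294) (nat_lit 119)) (XT.nd (nat_lit 78) (nat_lit 0) (nat_lit 0) (XT.lf (nat_lit 0) (nat_lit 3568925768) (nat_lit 228) (nat_lit 3511828049) (nat_lit 304) (nat_lit 38877387301) (nat_lit 30) (nat_lit 5) (nat_lit 33) (nat_lit 5) (nat_lit 34) (nat_lit 5) (nat_lit 368) (nat_lit 294) (nat_lit 118)) (XT.lf (nat_lit 0) (nat_lit 12937254645) (nat_lit 304) (nat_lit 27819259649) (nat_lit 76) (nat_lit 6271168967) (nat_lit 30) (nat_lit 5) (nat_lit 34) (nat_lit 5) (nat_lit 31) (nat_lit 5) (nat_lit 369) (nat_lit 294) (nat_lit 117)))) (XT.nd (nat_lit 78) (nat_lit 152) (nat_lit 0) (XT.lf (nat_lit 0) (nat_lit 19001083946) (nat_lit 304) (nat_lit 12851875680) (nat_lit 76) (nat_lit 16275407103) (nat_lit 30) (nat_lit 5) (nat_lit 34) (nat_lit 5) (nat_lit 31) (nat_lit 5) (nat_lit 370) (nat_lit 294) (nat_lit 116)) (XT.nd (nat_lit 78) (nat_lit 0) (nat_lit 0) (XT.lf (nat_lit 0) (nat_lit 2610717187) (nat_lit 152) (nat_lit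 22658160995) (nat_lit 228) (nat_lit 23992534963) (nat_lit 28) (nat_lit 5) (nat_lit 30) (nat_lit 5) (nat_lit 31) (nat_lit 5) (nat_lit 371) (nat_lit 294) (nat_lit 115)) (XT.lf (nat_lit 0) (nat_lit 18795928217) (nat_lit 152) (nat_lit 13055554452) (nat_lit 228) (nat_lit 18573168823) (nat_lit 28) (nat_lit 5) (nat_lit 30) (nat_lit 5) (nat_lit 31) (nat_lit 5) (nat_lit 372) (nat_lit 294) (nat_lit 114)))))) (XT.nd (nat_lit 390) (nat_lit 304) (nat_lit 0) (XT.nd (nat_lit 156) (nat_lit 228) (nat_lit 0) (XT.nd (nat_lit 78) (nat_lit 0) (nat_lit 0) (XT.lf (nat_lit 0) (nat_lit 35462122299) (nat_lit 152) (nat_lit 3166528114) (nat_lit 228) (nat_lit 12994227740) (nat_lit 28) (nat_lit 5) (nat_lit 30) (nat_lit 5) (nat_lit 31) (nat_lit 5) (nat_lit 373) (nat_lit 294) (nat_lit 113)) (XT.lf (nat_lit 0) (nat_lit 45673760283) (nat_lit 228) (nat_lit 300735068) (nat_lit 76) (nat_lit 6880621062) (nat_lit 28) (nat_lit 5)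 (nat_lit 31) (nat_lit 5) (nat_lit 29) (nat_lit 5) (nat_lit 374) (nat_lit 294) (nat_lit 112))) (XT.nd (nat_lit 78) (nat_lit 76) (nat_lit 0) (XT.lf (nat_lit 0) (nat_lit 16317771414) (nat_lit 152) (nat_lit 36797897622) (nat_lit 228) (nat_lit 1003092922) (nat_lit 26) (nat_lit 5) (nat_lit 28) (nat_lit 5) (nat_lit 29) (nat_lit 5) (nat_lit 375) (nat_lit 294) (nat_lit 111)) (XT.nd (nat_lit 78) (nat_lit 0) (nat_lit 0) (XT.lf (nat_lit 0) (nat_lit 5256227941) (nat_lit 228) (nat_lit 22035183366) (nat_lit 76) (nat_lit 28127353626) (nat_lit 25) (nat_lit 5) (nat_lit 28) (nat_lit 5) (nat_lit 26) (nat_lit 5) (nat_lit 376) (nat_lit 294) (nat_lit 110)) (XT.lf (nat_lit 0) (nat_lit 11680493348) (nat_lit 228) (nat_lit 5810602341) (nat_lit 76) (nat_lit 39266457785) (nat_lit 25) (nat_lit 5) (nat_lit 28) (nat_lit 5) (nat_lit 26) (nat_lit 5) (nat_lit 377) (nat_lit 294) (nat_lit 109))))) (XT.nd (nat_lit 234) (nat_lit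 152) (nat_lit 0) (XT.nd (nat_lit 78) (nat_lit 0) (nat_lit 0) (XT.lf (nat_lit 0) (nat_lit 11113434833) (nat_lit 152) (nat_lit 7288284992) (nat_lit 228) (nat_lit 39731661970) (nat_lit 23) (nat_lit 5) (nat_lit 25) (nat_lit 5) (nat_lit 26) (nat_lit 5) (nat_lit 378) (nat_lit 294) (nat_lit 108)) (XT.nd (nat_lit 78) (nat_lit 0) (nat_lit 0) (XT.lf (nat_lit 0) (nat_lit 25412223503) (nat_lit 228) (nat_lit 30920128109) (nat_lit 76) (nat_lit 3215507162) (nat_lit 23) (nat_lit 5) (nat_lit 26) (nat_lit 5) (nat_lit 24) (nat_lit 5) (nat_lit 379) (nat_lit 294) (nat_lit 107)) (XT.lf (nat_lit 0) (nat_lit 32702703817) (nat_lit 228) (nat_lit 14413523278) (nat_lit 76) (nat_lit 13886456059) (nat_lit 23) (nat_lit 5) (nat_lit 26) (nat_lit 5) (nat_lit 24) (nat_lit 5) (nat_lit 380) (nat_lit 294) (nat_lit 106)))) (XT.nd (nat_lit 78) (nat_lit 0) (nat_lit 0) (XT.lf (nat_lit 0) (nat_lit 2635783869) (nat_lit 152) (nat_lit 37599024533)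 (nat_lit 228) (nat_lit 22265659418) (nat_lit 21) (nat_lit 5) (nat_lit 23) (nat_lit 5) (nat_lit 24) (nat_lit 5) (nat_lit 381) (nat_lit 294) (nat_lit 105)) (XT.nd (nat_lit 78) (nat_lit 0) (nat_lit 0) (XT.lf (nat_lit 0) (nat_lit 20488142385) (nat_lit 152) (nat_lit 27647888441) (nat_lit 228) (nat_lit 15902863325) (nat_lit 21) (nat_lit 5) (nat_lit 23) (nat_lit 5) (nat_lit 24) (nat_lit 5) (nat_lit 382) (nat_lit 294) (nat_lit 104)) (XT.lf (nat_lit 0) (nat_lit 38872294045) (nat_lit 152) (nat_lit 17399671975) (nat_lit 228) (nat_lit 9351579657) (nat_lit 21) (nat_lit 5) (nat_lit 23) (nat_lit 5) (nat_lit 24) (nat_lit 5) (nat_lit 383) (nat_lit 294) (nat_lit 103))))))) (XT.nd (nat_lit 34398) (nat_lit 0) (nat_lit 8816) (XT.nd (nat_lit 33930) (nat_lit 0) (nat_lit 10184) (XT.nd (nat_lit 33696) (nat_lit 0) (nat_lit 11172) (XT.nd (nat_lit 78) (nat_lit 152) (nat_lit 0) (XT.lf (nat_lit 0) (nat_lit 57804302669) (nat_lit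 152) (nat_lit 6845420383) (nat_lit 228) (nat_lit 2606083991) (nat_lit 21) (nat_lit 5) (nat_lit 23) (nat_lit 5) (nat_lit 24) (nat_lit 5) (nat_lit 384) (nat_lit 294) (nat_lit 102)) (XT.lf (nat_lit 0) (nat_lit 4376328155) (nat_lit 152) (nat_lit 60485794104) (nat_lit 76) (nat_lit 4070086117) (nat_lit 19) (nat_lit 5) (nat_lit 21) (nat_lit 5) (nat_lit 20) (nat_lit 5) (nat_lit 385) (nat_lit 294) (nat_lit 101))) (XT.nd (nat_lit 78) (nat_lit 0) (nat_lit 0) (XT.lf (nat_lit 0) (nat_lit 2338188974) (nat_lit 0) (nat_lit 2338188974) (nat_lit 988) (nat_lit 1273528832) (nat_lit 166) (nat_lit 5) (nat_lit 166) (nat_lit 3) (nat_lit 179) (nat_lit 3) (nat_lit 295) (nat_lit 295) (nat_lit 190)) (XT.nd (nat_lit 78) (nat_lit 0) (nat_lit 0) (XT.lf (nat_lit 0) (nat_lit 9802111331) (nat_lit 0) (nat_lit 125923560) (nat_lit 988) (nat_lit 2136118226) (nat_lit 166) (nat_lit 5) (nat_lit 166) (nat_lit 3) (nat_lit 179) (nat_lit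 3) (nat_lit 296) (nat_lit 295) (nat_lit 189)) (XT.lf (nat_lit 76) (nat_lit 2850858521) (nat_lit 0) (nat_lit 7724066719) (nat_lit 1064) (nat_lit 1656910269) (nat_lit 167) (nat_lit 5) (nat_lit 166) (nat_lit 5) (nat_lit 180) (nat_lit 5) (nat_lit 297) (nat_lit 295) (nat_lit 188))))) (XT.nd (nat_lit 234) (nat_lit 988) (nat_lit 0) (XT.nd (nat_lit 78) (nat_lit 0) (nat_lit 76) (XT.lf (nat_lit 76) (nat_lit 8153211029) (nat_lit 0) (nat_lit 3095598496) (nat_lit 1064) (nat_lit 1155553216) (nat_lit 167) (nat_lit 5) (nat_lit 166) (nat_lit 5) (nat_lit 180) (nat_lit 5) (nat_lit 298) (nat_lit 295) (nat_lit 187)) (XT.nd (nat_lit 78) (nat_lit 0) (nat_lit 0) (XT.lf (nat_lit 76) (nat_lit 1027182313) (nat_lit 0) (nat_lit 10925731919) (nat_lit 1064) (nat_lit 628892200) (nat_lit 168) (nat_lit 5) (nat_lit 167) (nat_lit 5) (nat_lit 181) (nat_lit 5) (nat_lit 299) (nat_lit 295) (nat_lit 186)) (XT.lf (nat_lit 76) (nat_lit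 6510482694) (nat_lit 0) (nat_lit 6225372215) (nat_lit 1064) (nat_lit 27026714) (nat_lit 168) (nat_lit 5) (nat_lit 167) (nat_lit 5) (nat_lit 181) (nat_lit 5) (nat_lit 300) (nat_lit 295) (nat_lit 185)))) (XT.nd (nat_lit 78) (nat_lit 0) (nat_lit 76) (XT.lf (nat_lit 0) (nat_lit 566026796) (nat_lit 1064) (nat_lit 806146697) (nat_lit 1140) (nat_lit 11577540855) (nat_lit 153) (nat_lit 5) (nat_lit 167) (nat_lit 5) (nat_lit 168) (nat_lit 5) (nat_lit 301) (nat_lit 295) (nat_lit 184)) (XT.nd (nat_lit 78) (nat_lit 0) (nat_lit 0) (XT.lf (nat_lit 0) (nat_lit 1243862317) (nat_lit 1064) (nat_lit 8287030451) (nat_lit 1140) (nat_lit 3609261464) (nat_lit 154) (nat_lit 5) (nat_lit 168) (nat_lit 5) (nat_lit 169) (nat_lit 5) (nat_lit 302) (nat_lit 295) (nat_lit 183)) (XT.lf (nat_lit 0) (nat_lit 1949386458) (nat_lit 1064) (nat_lit 2660534954) (nat_lit 1140) (nat_lit 8726200454) (nat_lit 154) (nat_lit 5) (nat_lit 168)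 (nat_lit 5) (nat_lit 169) (nat_lit 5) (nat_lit 303) (nat_lit 295) (nat_lit 182)))))) (XT.nd (nat_lit 468) (nat_lit 1520) (nat_lit 0) (XT.nd (nat_lit 234) (nat_lit 0) (nat_lit 76) (XT.nd (nat_lit 78) (nat_lit 0) (nat_lit 0) (XT.lf (nat_lit 0) (nat_lit 2697445015) (nat_lit 1064) (nat_lit 10354529685) (nat_lit 1140) (nat_lit 485386907) (nat_lit 155) (nat_lit 5) (nat_lit 169) (nat_lit 5) (nat_lit 170) (nat_lit 5) (nat_lit 304) (nat_lit 295) (nat_lit 181)) (XT.nd (nat_lit 78) (nat_lit 0) (nat_lit 0) (XT.lf (nat_lit 0) (nat_lit 3527052734) (nat_lit 1064) (nat_lit 4543327386) (nat_lit 1140) (nat_lit 5672518338) (nat_lit 155) (nat_lit 5) (nat_lit 169) (nat_lit 5) (nat_lit 170) (nat_lit 5) (nat_lit 305) (nat_lit 295) (nat_lit 180)) (XT.lf (nat_lit 76) (nat_lit 1461383952) (nat_lit 0) (nat_lit 2920942964) (nat_lit 1140) (nat_lit 9572283329) (nat_lit 156) (nat_lit 5) (nat_lit 155) (nat_lit 5) (nat_lit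 170) (nat_lit 5) (nat_lit 306) (nat_lit 295) (nat_lit 179)))) (XT.nd (nat_lit 78) (nat_lit 0) (nat_lit 0) (XT.lf (nat_lit 0) (nat_lit 5319562726) (nat_lit 1064) (nat_lit 6464995956) (nat_lit 1140) (nat_lit 2386456841) (nat_lit 156) (nat_lit 5) (nat_lit 170) (nat_lit 5) (nat_lit 171) (nat_lit 5) (nat_lit 307) (nat_lit 295) (nat_lit 178)) (XT.nd (nat_lit 78) (nat_lit 0) (nat_lit 0) (XT.lf (nat_lit 0) (nat_lit 6301276441) (nat_lit 1064) (nat_lit 294264604) (nat_lit 1140) (nat_lit 7797911419) (nat_lit 156) (nat_lit 5) (nat_lit 170) (nat_lit 5) (nat_lit 171) (nat_lit 5) (nat_lit 308) (nat_lit 295) (nat_lit 177)) (XT.lf (nat_lit 76) (nat_lit 6172892927) (nat_lit 0) (nat_lit 1186692676) (nat_lit 1140) (nat_lit 7261592037) (nat_lit 157) (nat_lit 5) (nat_lit 156) (nat_lit 5) (nat_lit 171) (nat_lit 5) (nat_lit 309) (nat_lit 295) (nat_lit 176))))) (XT.nd (nat_lit 234) (nat_lit 1672) (nat_lit 0) (XT.nd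 (nat_lit 78) (nat_lit 0) (nat_lit 0) (XT.lf (nat_lit 0) (nat_lit 8482892688) (nat_lit 1064) (nat_lit 2067198568) (nat_lit 1140) (nat_lit 4304674443) (nat_lit 157) (nat_lit 5) (nat_lit 171) (nat_lit 5) (nat_lit 172) (nat_lit 5) (nat_lit 310) (nat_lit 295) (nat_lit 175)) (XT.nd (nat_lit 78) (nat_lit 0) (nat_lit 76) (XT.lf (nat_lit 76) (nat_lit 4573619188) (nat_lit 0) (nat_lit 5110442192) (nat_lit 1140) (nat_lit 5410002905) (nat_lit 158) (nat_lit 5) (nat_lit 157) (nat_lit 5) (nat_lit 172) (nat_lit 5) (nat_lit 311) (nat_lit 295) (nat_lit 174)) (XT.lf (nat_lit 0) (nat_lit 10935798189) (nat_lit 1064) (nat_lit 3898314707) (nat_lit 76) (nat_lit 506019888) (nat_lit 158) (nat_lit 5) (nat_lit 172) (nat_lit 5) (nat_lit 159) (nat_lit 5) (nat_lit 312) (nat_lit 295) (nat_lit 173)))) (XT.nd (nat_lit 78) (nat_lit 684) (nat_lit 0) (XT.lf (nat_lit 0) (nat_lit 2919634079) (nat_lit 1064) (nat_lit 9373163866) (nat_lit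 1140) (nat_lit 3298780230) (nat_lit 144) (nat_lit 5) (nat_lit 158) (nat_lit 5) (nat_lit 159) (nat_lit 5) (nat_lit 313) (nat_lit 295) (nat_lit 172)) (XT.nd (nat_lit 78) (nat_lit 684) (nat_lit 0) (XT.lf (nat_lit 0) (nat_lit 10012903692) (nat_lit 1064) (nat_lit 3706247693) (nat_lit 1140) (nat_lit 2130581633) (nat_lit 144) (nat_lit 5) (nat_lit 158) (nat_lit 5) (nat_lit 159) (nat_lit 5) (nat_lit 314) (nat_lit 295) (nat_lit 171)) (XT.lf (nat_lit 0) (nat_lit 1197000142) (nat_lit 684) (nat_lit 14012888444) (nat_lit 760) (nat_lit 905120786) (nat_lit 135) (nat_lit 5) (nat_lit 144) (nat_lit 5) (nat_lit 145) (nat_lit 5) (nat_lit 315) (nat_lit 295) (nat_lit 170))))))))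
noncomputable def xc200 : XT := (XT.nd (nat_lit 1716) (nat_lit 2812) (nat_lit 0) (XT.nd (nat_lit 858) (nat_lit 2204) (nat_lit 0) (XT.nd (nat_lit 390) (nat_lit 912) (nat_lit 0) (XT.nd (nat_lit 156) (nat_lit 1064) (nat_lit 0) (XT.nd (nat_lit 78) (nat_lit 0) (nat_lit 0) (XT.lf (nat_lit 0) (nat_lit 436051400) (nat_lit 760) (nat_lit 7875046953) (nat_lit 76) (nat_lit 8074488451) (nat_lit 134) (nat_lit 5) (nat_lit 144) (nat_lit 5) (nat_lit 135) (nat_lit 5) (nat_lit 316) (nat_lit 295) (nat_lit 169)) (XT.lf (nat_lit 0) (nat_lit 1789263106) (nat_lit 760) (nat_lit 638838111) (nat_lit 76) (nat_lit 14236234171) (nat_lit 134) (nat_lit 5) (nat_lit 144) (nat_lit 5) (nat_lit 135) (nat_lit 5) (nat_lit 317) (nat_lit 295) (nat_lit 168))) (XT.nd (nat_lit 78) (nat_lit 532) (nat_lit 0) (XT.lf (nat_lit 0) (nat_lit 3275657212) (nat_lit 608) (nat_lit 10044248012) (nat_lit 76) (nat_lit 3628785535) (nat_lit 127) (nat_lit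 5) (nat_lit 135) (nat_lit 5) (nat_lit 128) (nat_lit 5) (nat_lit 318) (nat_lit 295) (nat_lit 167)) (XT.nd (nat_lit 78) (nat_lit 532) (nat_lit 0) (XT.lf (nat_lit 0) (nat_lit 4827692879) (nat_lit 608) (nat_lit 2587414144) (nat_lit 76) (nat_lit 9825859549) (nat_lit 127) (nat_lit 5) (nat_lit 135) (nat_lit 5) (nat_lit 128) (nat_lit 5) (nat_lit 319) (nat_lit 295) (nat_lit 166)) (XT.lf (nat_lit 0) (nat_lit 5185532580) (nat_lit 532) (nat_lit 1281374662) (nat_lit 608) (nat_lit 11073905542) (nat_lit 120) (nat_lit 5) (nat_lit 127) (nat_lit 5) (nat_lit 128) (nat_lit 5) (nat_lit 320) (nat_lit 295) (nat_lit 165))))) (XT.nd (nat_lit 234) (nat_lit 456) (nat_lit 0) (XT.nd (nat_lit 78) (nat_lit 456) (nat_lit 0) (XT.lf (nat_lit 0) (nat_lit 8221056900) (nat_lit 608) (nat_lit 4661823955) (nat_lit 76) (nat_lit 4964820812) (nat_lit 120) (nat_lit 5) (nat_lit 128) (nat_lit 5) (nat_lit 121) (nat_lit 5) (nat_lit 321) (nat_lit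 295) (nat_lit 164)) (XT.nd (nat_lit 78) (nat_lit 0) (nat_lit 0) (XT.lf (nat_lit 0) (nat_lit 3305524402) (nat_lit 456) (nat_lit 6757991253) (nat_lit 532) (nat_lit 8099230492) (nat_lit 114) (nat_lit 5) (nat_lit 120) (nat_lit 5) (nat_lit 121) (nat_lit 5) (nat_lit 322) (nat_lit 295) (nat_lit 163)) (XT.lf (nat_lit 0) (nat_lit 11598814205) (nat_lit 456) (nat_lit 400904824) (nat_lit 532) (nat_lit 6486387705) (nat_lit 114) (nat_lit 5) (nat_lit 120) (nat_lit 5) (nat_lit 121) (nat_lit 5) (nat_lit 323) (nat_lit 295) (nat_lit 162)))) (XT.nd (nat_lit 78) (nat_lit 0) (nat_lit 0) (XT.lf (nat_lit 0) (nat_lit 1278944938) (nat_lit 456) (nat_lit 12778091118) (nat_lit 532) (nat_lit 4760259608) (nat_lit 108) (nat_lit 5) (nat_lit 114) (nat_lit 5) (nat_lit 115) (nat_lit 5) (nat_lit 324) (nat_lit 295) (nat_lit 161)) (XT.nd (nat_lit 78) (nat_lit 0) (nat_lit 0) (XT.lf (nat_lit 0) (nat_lit 9818730075) (nat_lit 456) (nat_lit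 6422627858) (nat_lit 532) (nat_lit 2915121584) (nat_lit 108) (nat_lit 5) (nat_lit 114) (nat_lit 5) (nat_lit 115) (nat_lit 5) (nat_lit 325) (nat_lit 295) (nat_lit 160)) (XT.lf (nat_lit 0) (nat_lit 18484438454) (nat_lit 532) (nat_lit 900893776) (nat_lit 76) (nat_lit 120727082) (nat_lit 108) (nat_lit 5) (nat_lit 115) (nat_lit 5) (nat_lit 109) (nat_lit 5) (nat_lit 326) (nat_lit 295) (nat_lit 159)))))) (XT.nd (nat_lit 390) (nat_lit 836) (nat_lit 0) (XT.nd (nat_lit 156) (nat_lit 836) (nat_lit 0) (XT.nd (nat_lit 78) (nat_lit 0) (nat_lit 0) (XT.lf (nat_lit 0) (nat_lit 1043370976) (nat_lit 532) (nat_lit 12001689848) (nat_lit 76) (nat_lit 6816829925) (nat_lit 101) (nat_lit 5) (nat_lit 108) (nat_lit 5) (nat_lit 102) (nat_lit 5) (nat_lit 327) (nat_lit 295) (nat_lit 158)) (XT.lf (nat_lit 0) (nat_lit 3151294702) (nat_lit 532) (nat_lit 3344147063) (nat_lit 76) (nat_lit 13732622272) (nat_lit 101) (nat_lit 5)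 (nat_lit 108) (nat_lit 5) (nat_lit 102) (nat_lit 5) (nat_lit 328) (nat_lit 295) (nat_lit 157))) (XT.nd (nat_lit 78) (nat_lit 380) (nat_lit 0) (XT.lf (nat_lit 0) (nat_lit 5372509133) (nat_lit 532) (nat_lit 14931060431) (nat_lit 76) (nat_lit 300166737) (nat_lit 95) (nat_lit 5) (nat_lit 102) (nat_lit 5) (nat_lit 96) (nat_lit 5) (nat_lit 329) (nat_lit 295) (nat_lit 156)) (XT.nd (nat_lit 78) (nat_lit 380) (nat_lit 0) (XT.lf (nat_lit 0) (nat_lit 7751458489) (nat_lit 532) (nat_lit 6034071218) (nat_lit 76) (nat_lit 7202430991) (nat_lit 95) (nat_lit 5) (nat_lit 102) (nat_lit 5) (nat_lit 96) (nat_lit 5) (nat_lit 330) (nat_lit 295) (nat_lit 155)) (XT.lf (nat_lit 0) (nat_lit 3183883760) (nat_lit 380) (nat_lit 7041394615) (nat_lit 456) (nat_lit 11157742877) (nat_lit 90) (nat_lit 5) (nat_lit 95) (nat_lit 5) (nat_lit 96) (nat_lit 5) (nat_lit 331) (nat_lit 295) (nat_lit 154))))) (XT.nd (nat_lit 234) (nat_lit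 456) (nat_lit 0) (XT.nd (nat_lit 78) (nat_lit 380) (nat_lit 0) (XT.lf (nat_lit 0) (nat_lit 12794076128) (nat_lit 380) (nat_lit 33195681) (nat_lit 456) (nat_lit 8961057107) (nat_lit 90) (nat_lit 5) (nat_lit 95) (nat_lit 5) (nat_lit 96) (nat_lit 5) (nat_lit 332) (nat_lit 295) (nat_lit 153)) (XT.nd (nat_lit 78) (nat_lit 0) (nat_lit 0) (XT.lf (nat_lit 0) (nat_lit 417895885) (nat_lit 380) (nat_lit 15155735491) (nat_lit 456) (nat_lit 6630188900) (nat_lit 85) (nat_lit 5) (nat_lit 90) (nat_lit 5) (nat_lit 91) (nat_lit 5) (nat_lit 333) (nat_lit 295) (nat_lit 152)) (XT.lf (nat_lit 0) (nat_lit 10288557080) (nat_lit 380) (nat_lit 8198316286) (nat_lit 456) (nat_lit 4142381516) (nat_lit 85) (nat_lit 5) (nat_lit 90) (nat_lit 5) (nat_lit 91) (nat_lit 5) (nat_lit 334) (nat_lit 295) (nat_lit 151)))) (XT.nd (nat_lit 78) (nat_lit 456) (nat_lit 0) (XT.lf (nat_lit 0) (nat_lit 20447677828) (nat_lit 380) (nat_lit 1033370587)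 (nat_lit 456) (nat_lit 1586610910) (nat_lit 85) (nat_lit 5) (nat_lit 90) (nat_lit 5) (nat_lit 91) (nat_lit 5) (nat_lit 335) (nat_lit 295) (nat_lit 150)) (XT.nd (nat_lit 78) (nat_lit 0) (nat_lit 0) (XT.lf (nat_lit 0) (nat_lit 1153186062) (nat_lit 456) (nat_lit 16057259222) (nat_lit 76) (nat_lit 6304648315) (nat_lit 79) (nat_lit 5) (nat_lit 85) (nat_lit 5) (nat_lit 80) (nat_lit 5) (nat_lit 336) (nat_lit 295) (nat_lit 149)) (XT.lf (nat_lit 0) (nat_lit 3973988039) (nat_lit 456) (nat_lit 6117355944) (nat_lit 76) (nat_lit 13883226415) (nat_lit 79) (nat_lit 5) (nat_lit 85) (nat_lit 5) (nat_lit 80) (nat_lit 5) (nat_lit 337) (nat_lit 295) (nat_lit 148))))))) (XT.nd (nat_lit 858) (nat_lit 1140) (nat_lit 0) (XT.nd (nat_lit 390) (nat_lit 988) (nat_lit 0) (XT.nd (nat_lit 156) (nat_lit 304) (nat_lit 0) (XT.nd (nat_lit 78) (nat_lit 0) (nat_lit 0) (XT.lf (nat_lit 0) (nat_lit 4195142536) (nat_lit 380) (nat_lit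 2718530231) (nat_lit 456) (nat_lit 17533142407) (nat_lit 74) (nat_lit 5) (nat_lit 79) (nat_lit 5) (nat_lit 80) (nat_lit 5) (nat_lit 338) (nat_lit 295) (nat_lit 147)) (XT.lf (nat_lit 0) (nat_lit 10044823292) (nat_lit 456) (nat_lit 10044003203) (nat_lit 76) (nat_lit 4841313644) (nat_lit 74) (nat_lit 5) (nat_lit 80) (nat_lit 5) (nat_lit 75) (nat_lit 5) (nat_lit 339) (nat_lit 295) (nat_lit 146))) (XT.nd (nat_lit 78) (nat_lit 0) (nat_lit 0) (XT.lf (nat_lit 0) (nat_lit 444303257) (nat_lit 304) (nat_lit 12850990535) (nat_lit 380) (nat_lit 12131920276) (nat_lit 70) (nat_lit 5) (nat_lit 74) (nat_lit 5) (nat_lit 75) (nat_lit 5) (nat_lit 340) (nat_lit 295) (nat_lit 145)) (XT.nd (nat_lit 78) (nat_lit 0) (nat_lit 0) (XT.lf (nat_lit 0) (nat_lit 11445876284) (nat_lit 304) (nat_lit 5293124313) (nat_lit 380) (nat_lit 9197338415) (nat_lit 70) (nat_lit 5) (nat_lit 74) (nat_lit 5) (nat_lit 75) (nat_lit 5) (nat_lit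 341) (nat_lit 295) (nat_lit 144)) (XT.lf (nat_lit 0) (nat_lit 20304417090) (nat_lit 380) (nat_lit 3714415351) (nat_lit 76) (nat_lit 2441363470) (nat_lit 70) (nat_lit 5) (nat_lit 75) (nat_lit 5) (nat_lit 71) (nat_lit 5) (nat_lit 342) (nat_lit 295) (nat_lit 143))))) (XT.nd (nat_lit 234) (nat_lit 304) (nat_lit 0) (XT.nd (nat_lit 78) (nat_lit 380) (nat_lit 0) (XT.lf (nat_lit 0) (nat_lit 7471283820) (nat_lit 304) (nat_lit 16624348535) (nat_lit 380) (nat_lit 2900580938) (nat_lit 66) (nat_lit 5) (nat_lit 70) (nat_lit 5) (nat_lit 71) (nat_lit 5) (nat_lit 343) (nat_lit 295) (nat_lit 142)) (XT.nd (nat_lit 78) (nat_lit 304) (nat_lit 0) (XT.lf (nat_lit 0) (nat_lit 475965999) (nat_lit 380) (nat_lit 8490270341) (nat_lit 76) (nat_lit 18580978170) (nat_lit 65) (nat_lit 5) (nat_lit 70) (nat_lit 5) (nat_lit 66) (nat_lit 5) (nat_lit 344) (nat_lit 295) (nat_lit 141)) (XT.lf (nat_lit 0) (nat_lit 2896372937) (nat_lit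 304) (nat_lit 1021774369) (nat_lit 380) (nat_lit 24195066824) (nat_lit 61) (nat_lit 5) (nat_lit 65) (nat_lit 5) (nat_lit 66) (nat_lit 5) (nat_lit 345) (nat_lit 295) (nat_lit 140)))) (XT.nd (nat_lit 78) (nat_lit 304) (nat_lit 0) (XT.lf (nat_lit 0) (nat_lit 7613879468) (nat_lit 380) (nat_lit 13971583663) (nat_lit 76) (nat_lit 7106230807) (nat_lit 61) (nat_lit 5) (nat_lit 66) (nat_lit 5) (nat_lit 62) (nat_lit 5) (nat_lit 346) (nat_lit 295) (nat_lit 139)) (XT.nd (nat_lit 78) (nat_lit 304) (nat_lit 0) (XT.lf (nat_lit 0) (nat_lit 11425615078) (nat_lit 380) (nat_lit 2405817733) (nat_lit 76) (nat_lit 15455949897) (nat_lit 61) (nat_lit 5) (nat_lit 66) (nat_lit 5) (nat_lit 62) (nat_lit 5) (nat_lit 347) (nat_lit 295) (nat_lit 138)) (XT.lf (nat_lit 0) (nat_lit 9689460808) (nat_lit 304) (nat_lit 5750543073) (nat_lit 380) (nat_lit 14458297485) (nat_lit 57) (nat_lit 5) (nat_lit 61) (nat_lit 5) (nat_lit 62)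 (nat_lit 5) (nat_lit 348) (nat_lit 295) (nat_lit 137)))))) (XT.nd (nat_lit 468) (nat_lit 532) (nat_lit 0) (XT.nd (nat_lit 234) (nat_lit 380) (nat_lit 0) (XT.nd (nat_lit 78) (nat_lit 228) (nat_lit 0) (XT.lf (nat_lit 0) (nat_lit 19619312397) (nat_lit 380) (nat_lit 8361482725) (nat_lit 76) (nat_lit 2545425840) (nat_lit 57) (nat_lit 5) (nat_lit 62) (nat_lit 5) (nat_lit 58) (nat_lit 5) (nat_lit 349) (nat_lit 295) (nat_lit 136)) (XT.nd (nat_lit 78) (nat_lit 0) (nat_lit 0) (XT.lf (nat_lit 0) (nat_lit 3853133760) (nat_lit 228) (nat_lit 20160202711) (nat_lit 304) (nat_lit 7156969375) (nat_lit 54) (nat_lit 5) (nat_lit 57) (nat_lit 5) (nat_lit 58) (nat_lit 5) (nat_lit 350) (nat_lit 295) (nat_lit 135)) (XT.lf (nat_lit 0) (nat_lit 16599239295) (nat_lit 228) (nat_lit 12019812150) (nat_lit 304) (nat_lit 3212273284) (nat_lit 54) (nat_lit 5) (nat_lit 57) (nat_lit 5) (nat_lit 58) (nat_lit 5) (nat_lit 351) (nat_lit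 295) (nat_lit 134)))) (XT.nd (nat_lit 78) (nat_lit 304) (nat_lit 0) (XT.lf (nat_lit 0) (nat_lit 829679693) (nat_lit 304) (nat_lit 2798887225) (nat_lit 76) (nat_lit 28883503521) (nat_lit 53) (nat_lit 5) (nat_lit 57) (nat_lit 5) (nat_lit 54) (nat_lit 5) (nat_lit 352) (nat_lit 295) (nat_lit 133)) (XT.nd (nat_lit 78) (nat_lit 0) (nat_lit 0) (XT.lf (nat_lit 0) (nat_lit 5071182835) (nat_lit 380) (nat_lit 23091124585) (nat_lit 76) (nat_lit 5045698226) (nat_lit 49) (nat_lit 5) (nat_lit 54) (nat_lit 5) (nat_lit 50) (nat_lit 5) (nat_lit 353) (nat_lit 295) (nat_lit 132)) (XT.lf (nat_lit 0) (nat_lit 9500100786) (nat_lit 380) (nat_lit 10488819865) (nat_lit 76) (nat_lit 13934099884) (nat_lit 49) (nat_lit 5) (nat_lit 54) (nat_lit 5) (nat_lit 50) (nat_lit 5) (nat_lit 354) (nat_lit 295) (nat_lit 131))))) (XT.nd (nat_lit 234) (nat_lit 304) (nat_lit 0) (XT.nd (nat_lit 78) (nat_lit 0) (nat_lit 0) (XT.lf (nat_lit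 0) (nat_lit 2535061542) (nat_lit 228) (nat_lit 11547018734) (nat_lit 304) (nat_lit 20576806295) (nat_lit 46) (nat_lit 5) (nat_lit 49) (nat_lit 5) (nat_lit 50) (nat_lit 5) (nat_lit 355) (nat_lit 295) (nat_lit 130)) (XT.nd (nat_lit 78) (nat_lit 0) (nat_lit 0) (XT.lf (nat_lit 0) (nat_lit 16158767718) (nat_lit 228) (nat_lit 2744558240) (nat_lit 304) (nat_lit 16510454757) (nat_lit 46) (nat_lit 5) (nat_lit 49) (nat_lit 5) (nat_lit 50) (nat_lit 5) (nat_lit 356) (nat_lit 295) (nat_lit 129)) (XT.lf (nat_lit 0) (nat_lit 23925972978) (nat_lit 304) (nat_lit 6066746715) (nat_lit 76) (nat_lit 6196905220) (nat_lit 46) (nat_lit 5) (nat_lit 50) (nat_lit 5) (nat_lit 47) (nat_lit 5) (nat_lit 357) (nat_lit 295) (nat_lit 128)))) (XT.nd (nat_lit 78) (nat_lit 76) (nat_lit 0) (XT.lf (nat_lit 0) (nat_lit 7633277114) (nat_lit 228) (nat_lit 21562681831) (nat_lit 304) (nat_lit 7789891671) (nat_lit 43) (nat_lit 5) (nat_lit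 46) (nat_lit 5) (nat_lit 47) (nat_lit 5) (nat_lit 358) (nat_lit 295) (nat_lit 127)) (XT.nd (nat_lit 78) (nat_lit 76) (nat_lit 0) (XT.lf (nat_lit 0) (nat_lit 21863050272) (nat_lit 228) (nat_lit 12818425771) (nat_lit 304) (nat_lit 3122769897) (nat_lit 43) (nat_lit 5) (nat_lit 46) (nat_lit 5) (nat_lit 47) (nat_lit 5) (nat_lit 359) (nat_lit 295) (nat_lit 126)) (XT.lf (nat_lit 0) (nat_lit 1647736032) (nat_lit 304) (nat_lit 2149198211) (nat_lit 76) (nat_lit 34849891450) (nat_lit 42) (nat_lit 5) (nat_lit 46) (nat_lit 5) (nat_lit 43) (nat_lit 5) (nat_lit 360) (nat_lit 295) (nat_lit 125))))))))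
noncomputable def xc201 : XT := (XT.nd (nat_lit 1716) (nat_lit 0) (nat_lit 0) (XT.nd (nat_lit 858) (nat_lit 684) (nat_lit 0) (XT.nd (nat_lit 390) (nat_lit 456) (nat_lit 0) (XT.nd (nat_lit 156) (nat_lit 228) (nat_lit 0) (XT.nd (nat_lit 78) (nat_lit 0) (nat_lit 0) (XT.lf (nat_lit 0) (nat_lit 6667066095) (nat_lit 304) (nat_lit 27305116275) (nat_lit 76) (nat_lit 5536524010) (nat_lit 39) (nat_lit 5) (nat_lit 43) (nat_lit 5) (nat_lit 40) (nat_lit 5) (nat_lit 361) (nat_lit 295) (nat_lit 124)) (XT.lf (nat_lit 0) (nat_lit 11892873854) (nat_lit 304) (nat_lit 13407995510) (nat_lit 76) (nat_lit 15093902338) (nat_lit 39) (nat_lit 5) (nat_lit 43) (nat_lit 5) (nat_lit 40) (nat_lit 5) (nat_lit 362) (nat_lit 295) (nat_lit 123))) (XT.nd (nat_lit 78) (nat_lit 0) (nat_lit 0) (XT.lf (nat_lit 0) (nat_lit 918710551) (nat_lit 228) (nat_lit 16362068559) (nat_lit 304) (nat_lit 24026485173) (nat_lit 36) (nat_lit 5) (nat_lit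 39) (nat_lit 5) (nat_lit 40) (nat_lit 5) (nat_lit 363) (nat_lit 295) (nat_lit 122)) (XT.nd (nat_lit 78) (nat_lit 0) (nat_lit 0) (XT.lf (nat_lit 0) (nat_lit 15944864409) (nat_lit 228) (nat_lit 7017395785) (nat_lit 304) (nat_lit 19280918141) (nat_lit 36) (nat_lit 5) (nat_lit 39) (nat_lit 5) (nat_lit 40) (nat_lit 5) (nat_lit 364) (nat_lit 295) (nat_lit 121)) (XT.lf (nat_lit 0) (nat_lit 28835880264) (nat_lit 304) (nat_lit 11815574560) (nat_lit 76) (nat_lit 2555068859) (nat_lit 36) (nat_lit 5) (nat_lit 40) (nat_lit 5) (nat_lit 37) (nat_lit 5) (nat_lit 365) (nat_lit 295) (nat_lit 120))))) (XT.nd (nat_lit 234) (nat_lit 228) (nat_lit 0) (XT.nd (nat_lit 78) (nat_lit 76) (nat_lit 0) (XT.lf (nat_lit 0) (nat_lit 3087422692) (nat_lit 152) (nat_lit 31894170344) (nat_lit 228) (nat_lit 9214304405) (nat_lit 34) (nat_lit 5) (nat_lit 36) (nat_lit 5) (nat_lit 37) (nat_lit 5) (nat_lit 366) (nat_lit 295) (nat_lit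 119)) (XT.nd (nat_lit 78) (nat_lit 76) (nat_lit 0) (XT.lf (nat_lit 0) (nat_lit 18674774632) (nat_lit 152) (nat_lit 22752991260) (nat_lit 228) (nat_lit 3783708301) (nat_lit 34) (nat_lit 5) (nat_lit 36) (nat_lit 5) (nat_lit 37) (nat_lit 5) (nat_lit 367) (nat_lit 295) (nat_lit 118)) (XT.lf (nat_lit 0) (nat_lit 1771323133) (nat_lit 228) (nat_lit 11550034243) (nat_lit 76) (nat_lit 32935738148) (nat_lit 33) (nat_lit 5) (nat_lit 36) (nat_lit 5) (nat_lit 34) (nat_lit 5) (nat_lit 368) (nat_lit 295) (nat_lit 117)))) (XT.nd (nat_lit 78) (nat_lit 0) (nat_lit 0) (XT.lf (nat_lit 0) (nat_lit 3920548156) (nat_lit 228) (nat_lit 3531020782) (nat_lit 304) (nat_lit 39880358382) (nat_lit 30) (nat_lit 5) (nat_lit 33) (nat_lit 5) (nat_lit 34) (nat_lit 5) (nat_lit 369) (nat_lit 295) (nat_lit 116)) (XT.nd (nat_lit 78) (nat_lit 0) (nat_lit 0) (XT.lf (nat_lit 0) (nat_lit 13479955536) (nat_lit 304) (nat_lit 28412396271)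 (nat_lit 76) (nat_lit 6541324206) (nat_lit 30) (nat_lit 5) (nat_lit 34) (nat_lit 5) (nat_lit 31) (nat_lit 5) (nat_lit 370) (nat_lit 295) (nat_lit 115)) (XT.lf (nat_lit 0) (nat_lit 19721197291) (nat_lit 304) (nat_lit 13003023050) (nat_lit 76) (nat_lit 16843300549) (nat_lit 30) (nat_lit 5) (nat_lit 34) (nat_lit 5) (nat_lit 31) (nat_lit 5) (nat_lit 371) (nat_lit 295) (nat_lit 114)))))) (XT.nd (nat_lit 390) (nat_lit 380) (nat_lit 0) (XT.nd (nat_lit 156) (nat_lit 152) (nat_lit 0) (XT.nd (nat_lit 78) (nat_lit 0) (nat_lit 0) (XT.lf (nat_lit 0) (nat_lit 2921149477) (nat_lit 152) (nat_lit 23253735782) (nat_lit 228) (nat_lit 24559743305) (nat_lit 28) (nat_lit 5) (nat_lit 30) (nat_lit 5) (nat_lit 31) (nat_lit 5) (nat_lit 372) (nat_lit 295) (nat_lit 113)) (XT.lf (nat_lit 0) (nat_lit 19585156330) (nat_lit 152) (nat_lit 13365502597) (nat_lit 228) (nat_lit 18982239900) (nat_lit 28) (nat_lit 5) (nat_lit 30)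 (nat_lit 5) (nat_lit 31) (nat_lit 5) (nat_lit 373) (nat_lit 295) (nat_lit 112))) (XT.nd (nat_lit 78) (nat_lit 152) (nat_lit 0) (XT.lf (nat_lit 0) (nat_lit 36744772634) (nat_lit 152) (nat_lit 3182185620) (nat_lit 228) (nat_lit 13240244876) (nat_lit 28) (nat_lit 5) (nat_lit 30) (nat_lit 5) (nat_lit 31) (nat_lit 5) (nat_lit 374) (nat_lit 295) (nat_lit 111)) (XT.nd (nat_lit 78) (nat_lit 152) (nat_lit 0) (XT.lf (nat_lit 0) (nat_lit 47180100254) (nat_lit 228) (nat_lit 93848979) (nat_lit 76) (nat_lit 7162564122) (nat_lit 28) (nat_lit 5) (nat_lit 31) (nat_lit 5) (nat_lit 29) (nat_lit 5) (nat_lit 375) (nat_lit 295) (nat_lit 110)) (XT.lf (nat_lit 0) (nat_lit 17021095951) (nat_lit 152) (nat_lit 37822260544) (nat_lit 228) (nat_lit 894774097) (nat_lit 26) (nat_lit 5) (nat_lit 28) (nat_lit 5) (nat_lit 29) (nat_lit 5) (nat_lit 376) (nat_lit 295) (nat_lit 109))))) (XT.nd (nat_lit 234) (nat_lit 152) (nat_lit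 0) (XT.nd (nat_lit 78) (nat_lit 152) (nat_lit 0) (XT.lf (nat_lit 0) (nat_lit 5545672744) (nat_lit 228) (nat_lit 22485894087) (nat_lit 76) (nat_lit 29045650233) (nat_lit 25) (nat_lit 5) (nat_lit 28) (nat_lit 5) (nat_lit 26) (nat_lit 5) (nat_lit 377) (nat_lit 295) (nat_lit 108)) (XT.nd (nat_lit 78) (nat_lit 152) (nat_lit 0) (XT.lf (nat_lit 0) (nat_lit 12158828503) (nat_lit 228) (nat_lit 5780702179) (nat_lit 76) (nat_lit 40516758313) (nat_lit 25) (nat_lit 5) (nat_lit 28) (nat_lit 5) (nat_lit 26) (nat_lit 5) (nat_lit 378) (nat_lit 295) (nat_lit 107)) (XT.lf (nat_lit 0) (nat_lit 11649053971) (nat_lit 152) (nat_lit 7430855792) (nat_lit 228) (nat_lit 40793540331) (nat_lit 23) (nat_lit 5) (nat_lit 25) (nat_lit 5) (nat_lit 26) (nat_lit 5) (nat_lit 379) (nat_lit 295) (nat_lit 106)))) (XT.nd (nat_lit 78) (nat_lit 152) (nat_lit 0) (XT.lf (nat_lit 0) (nat_lit 26297764626) (nat_lit 228) (nat_lit 31648297058)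 (nat_lit 76) (nat_lit 3384392958) (nat_lit 23) (nat_lit 5) (nat_lit 26) (nat_lit 5) (nat_lit 24) (nat_lit 5) (nat_lit 380) (nat_lit 295) (nat_lit 105)) (XT.nd (nat_lit 78) (nat_lit 152) (nat_lit 0) (XT.lf (nat_lit 0) (nat_lit 33803371745) (nat_lit 228) (nat_lit 14652302865) (nat_lit 76) (nat_lit 14373360984) (nat_lit 23) (nat_lit 5) (nat_lit 26) (nat_lit 5) (nat_lit 24) (nat_lit 5) (nat_lit 381) (nat_lit 295) (nat_lit 104)) (XT.lf (nat_lit 0) (nat_lit 2906585200) (nat_lit 152) (nat_lit 38653214160) (nat_lit 228) (nat_lit 22812007733) (nat_lit 21) (nat_lit 5) (nat_lit 23) (nat_lit 5) (nat_lit 24) (nat_lit 5) (nat_lit 382) (nat_lit 295) (nat_lit 103))))))) (XT.nd (nat_lit 34554) (nat_lit 0) (nat_lit 8664) (XT.nd (nat_lit 34086) (nat_lit 0) (nat_lit 10032) (XT.nd (nat_lit 33852) (nat_lit 0) (nat_lit 11020) (XT.nd (nat_lit 78) (nat_lit 0) (nat_lit 0) (XT.lf (nat_lit 0) (nat_lit 21288930167) (nat_lit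 152) (nat_lit 28405692950) (nat_lit 228) (nat_lit 16261870131) (nat_lit 21) (nat_lit 5) (nat_lit 23) (nat_lit 5) (nat_lit 24) (nat_lit 5) (nat_lit 383) (nat_lit 295) (nat_lit 102)) (XT.lf (nat_lit 0) (nat_lit 40219184721) (nat_lit 152) (nat_lit 17852116363) (nat_lit 228) (nat_lit 9517487149) (nat_lit 21) (nat_lit 5) (nat_lit 23) (nat_lit 5) (nat_lit 24) (nat_lit 5) (nat_lit 384) (nat_lit 295) (nat_lit 101))) (XT.nd (nat_lit 78) (nat_lit 0) (nat_lit 0) (XT.lf (nat_lit 0) (nat_lit 2623737787) (nat_lit 0) (nat_lit 2623737787) (nat_lit 988) (nat_lit 866906852) (nat_lit 166) (nat_lit 5) (nat_lit 166) (nat_lit 3) (nat_lit 179) (nat_lit 3) (nat_lit 296) (nat_lit 296) (nat_lit 188)) (XT.nd (nat_lit 78) (nat_lit 0) (nat_lit 0) (XT.lf (nat_lit 0) (nat_lit 10514433201) (nat_lit 0) (nat_lit 547959798) (nat_lit 988) (nat_lit 1336458384) (nat_lit 166) (nat_lit 5) (nat_lit 166) (nat_lit 3) (nat_lit 179) (nat_lit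 3) (nat_lit 297) (nat_lit 296) (nat_lit 187)) (XT.lf (nat_lit 76) (nat_lit 3381482776) (nat_lit 0) (nat_lit 8323217814) (nat_lit 1064) (nat_lit 867645404) (nat_lit 167) (nat_lit 5) (nat_lit 166) (nat_lit 5) (nat_lit 180) (nat_lit 5) (nat_lit 298) (nat_lit 296) (nat_lit 186))))) (XT.nd (nat_lit 234) (nat_lit 0) (nat_lit 0) (XT.nd (nat_lit 78) (nat_lit 988) (nat_lit 0) (XT.lf (nat_lit 76) (nat_lit 8829941825) (nat_lit 0) (nat_lit 3545193725) (nat_lit 1064) (nat_lit 375683723) (nat_lit 167) (nat_lit 5) (nat_lit 166) (nat_lit 5) (nat_lit 180) (nat_lit 5) (nat_lit 299) (nat_lit 296) (nat_lit 185)) (XT.nd (nat_lit 78) (nat_lit 0) (nat_lit 0) (XT.lf (nat_lit 0) (nat_lit 141332830) (nat_lit 1064) (nat_lit 11420974118) (nat_lit 1140) (nat_lit 1371953724) (nat_lit 153) (nat_lit 5) (nat_lit 167) (nat_lit 5) (nat_lit 168) (nat_lit 5) (nat_lit 300) (nat_lit 296) (nat_lit 184)) (XT.lf (nat_lit 0) (nat_lit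 726542282) (nat_lit 1064) (nat_lit 5979448871) (nat_lit 1140) (nat_lit 6415331790) (nat_lit 153) (nat_lit 5) (nat_lit 167) (nat_lit 5) (nat_lit 168) (nat_lit 5) (nat_lit 301) (nat_lit 296) (nat_lit 183)))) (XT.nd (nat_lit 78) (nat_lit 0) (nat_lit 76) (XT.lf (nat_lit 0) (nat_lit 1314887783) (nat_lit 1064) (nat_lit 383482131) (nat_lit 1140) (nat_lit 11616094935) (nat_lit 153) (nat_lit 5) (nat_lit 167) (nat_lit 5) (nat_lit 168) (nat_lit 5) (nat_lit 302) (nat_lit 296) (nat_lit 182)) (XT.nd (nat_lit 78) (nat_lit 0) (nat_lit 0) (XT.lf (nat_lit 0) (nat_lit 1993376765) (nat_lit 1064) (nat_lit 8067378244) (nat_lit 1140) (nat_lit 3450505344) (nat_lit 154) (nat_lit 5) (nat_lit 168) (nat_lit 5) (nat_lit 169) (nat_lit 5) (nat_lit 303) (nat_lit 296) (nat_lit 181)) (XT.lf (nat_lit 0) (nat_lit 2699322983) (nat_lit 1064) (nat_lit 2285726615) (nat_lit 1140) (nat_lit 8728730192) (nat_lit 154) (nat_lit 5) (nat_lit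 168) (nat_lit 5) (nat_lit 169) (nat_lit 5) (nat_lit 304) (nat_lit 296) (nat_lit 180)))))) (XT.nd (nat_lit 468) (nat_lit 1520) (nat_lit 0) (XT.nd (nat_lit 234) (nat_lit 0) (nat_lit 76) (XT.nd (nat_lit 78) (nat_lit 0) (nat_lit 0) (XT.lf (nat_lit 0) (nat_lit 3451843707) (nat_lit 1064) (nat_lit 10190928505) (nat_lit 1140) (nat_lit 278872889) (nat_lit 155) (nat_lit 5) (nat_lit 169) (nat_lit 5) (nat_lit 170) (nat_lit 5) (nat_lit 305) (nat_lit 296) (nat_lit 179)) (XT.nd (nat_lit 78) (nat_lit 0) (nat_lit 0) (XT.lf (nat_lit 0) (nat_lit 4286723871) (nat_lit 1064) (nat_lit 4219202868) (nat_lit 1140) (nat_lit 5628057359) (nat_lit 155) (nat_lit 5) (nat_lit 169) (nat_lit 5) (nat_lit 170) (nat_lit 5) (nat_lit 306) (nat_lit 296) (nat_lit 178)) (XT.lf (nat_lit 76) (nat_lit 1961135846) (nat_lit 0) (nat_lit 3191858469) (nat_lit 1140) (nat_lit 9199538963) (nat_lit 156) (nat_lit 5) (nat_lit 155) (nat_lit 5) (nat_lit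 170) (nat_lit 5) (nat_lit 307) (nat_lit 296) (nat_lit 177)))) (XT.nd (nat_lit 78) (nat_lit 0) (nat_lit 0) (XT.lf (nat_lit 0) (nat_lit 6098019242) (nat_lit 1064) (nat_lit 6194491933) (nat_lit 1140) (nat_lit 2283574215) (nat_lit 156) (nat_lit 5) (nat_lit 170) (nat_lit 5) (nat_lit 171) (nat_lit 5) (nat_lit 308) (nat_lit 296) (nat_lit 176)) (XT.nd (nat_lit 78) (nat_lit 0) (nat_lit 0) (XT.lf (nat_lit 76) (nat_lit 150775753) (nat_lit 0) (nat_lit 6941832635) (nat_lit 1140) (nat_lit 7713127860) (nat_lit 157) (nat_lit 5) (nat_lit 156) (nat_lit 5) (nat_lit 171) (nat_lit 5) (nat_lit 309) (nat_lit 296) (nat_lit 175)) (XT.lf (nat_lit 76) (nat_lit 6804584989) (nat_lit 0) (nat_lit 1363424249) (nat_lit 1140) (nat_lit 6872765928) (nat_lit 157) (nat_lit 5) (nat_lit 156) (nat_lit 5) (nat_lit 171) (nat_lit 5) (nat_lit 310) (nat_lit 296) (nat_lit 174))))) (XT.nd (nat_lit 234) (nat_lit 1672) (nat_lit 0) (XT.nd (nat_lit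 78) (nat_lit 0) (nat_lit 0) (XT.lf (nat_lit 0) (nat_lit 9306582800) (nat_lit 1064) (nat_lit 1675913834) (nat_lit 1140) (nat_lit 4299468247) (nat_lit 157) (nat_lit 5) (nat_lit 171) (nat_lit 5) (nat_lit 172) (nat_lit 5) (nat_lit 311) (nat_lit 296) (nat_lit 173)) (XT.nd (nat_lit 78) (nat_lit 0) (nat_lit 76) (XT.lf (nat_lit 76) (nat_lit 5159684330) (nat_lit 0) (nat_lit 5371838169) (nat_lit 1140) (nat_lit 4997327682) (nat_lit 158) (nat_lit 5) (nat_lit 157) (nat_lit 5) (nat_lit 172) (nat_lit 5) (nat_lit 312) (nat_lit 296) (nat_lit 172)) (XT.lf (nat_lit 0) (nat_lit 11803581184) (nat_lit 1064) (nat_lit 3560961666) (nat_lit 76) (nat_lit 418313467) (nat_lit 158) (nat_lit 5) (nat_lit 172) (nat_lit 5) (nat_lit 159) (nat_lit 5) (nat_lit 313) (nat_lit 296) (nat_lit 171)))) (XT.nd (nat_lit 78) (nat_lit 684) (nat_lit 0) (XT.lf (nat_lit 0) (nat_lit 3457071637) (nat_lit 1064) (nat_lit 9732823833) (nat_lit 1140)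 (nat_lit 2852329013) (nat_lit 144) (nat_lit 5) (nat_lit 158) (nat_lit 5) (nat_lit 159) (nat_lit 5) (nat_lit 314) (nat_lit 296) (nat_lit 170)) (XT.nd (nat_lit 78) (nat_lit 684) (nat_lit 0) (XT.lf (nat_lit 0) (nat_lit 10750036954) (nat_lit 1064) (nat_lit 3893614785) (nat_lit 1140) (nat_lit 1664970320) (nat_lit 144) (nat_lit 5) (nat_lit 158) (nat_lit 5) (nat_lit 159) (nat_lit 5) (nat_lit 315) (nat_lit 296) (nat_lit 169)) (XT.lf (nat_lit 0) (nat_lit 1682539753) (nat_lit 684) (nat_lit 14485242874) (nat_lit 760) (nat_lit 414449323) (nat_lit 135) (nat_lit 5) (nat_lit 144) (nat_lit 5) (nat_lit 145) (nat_lit 5) (nat_lit 316) (nat_lit 296) (nat_lit 168))))))))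
noncomputable def xc202 : XT := (XT.nd (nat_lit 1716) (nat_lit 2812) (nat_lit 0) (XT.nd (nat_lit 858) (nat_lit 2204) (nat_lit 0) (XT.nd (nat_lit 390) (nat_lit 912) (nat_lit 0) (XT.nd (nat_lit 156) (nat_lit 1064) (nat_lit 0) (XT.nd (nat_lit 78) (nat_lit 0) (nat_lit 0) (XT.lf (nat_lit 0) (nat_lit 942065422) (nat_lit 760) (nat_lit 7663842383) (nat_lit 76) (nat_lit 8255346572) (nat_lit 134) (nat_lit 5) (nat_lit 144) (nat_lit 5) (nat_lit 135) (nat_lit 5) (nat_lit 317) (nat_lit 296) (nat_lit 167)) (XT.lf (nat_lit 0) (nat_lit 2321516222) (nat_lit 760) (nat_lit 223579974) (nat_lit 76) (nat_lit 14603732331) (nat_lit 134) (nat_lit 5) (nat_lit 144) (nat_lit 5) (nat_lit 135) (nat_lit 5) (nat_lit 318) (nat_lit 296) (nat_lit 166))) (XT.nd (nat_lit 78) (nat_lit 532) (nat_lit 0) (XT.lf (nat_lit 0) (nat_lit 3842326956) (nat_lit 608) (nat_lit 9899928756) (nat_lit 76) (nat_lit 3699795550) (nat_lit 127) (nat_lit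 5) (nat_lit 135) (nat_lit 5) (nat_lit 128) (nat_lit 5) (nat_lit 319) (nat_lit 296) (nat_lit 165)) (XT.nd (nat_lit 78) (nat_lit 532) (nat_lit 0) (XT.lf (nat_lit 0) (nat_lit 5427280974) (nat_lit 608) (nat_lit 2232369873) (nat_lit 76) (nat_lit 10083884314) (nat_lit 127) (nat_lit 5) (nat_lit 135) (nat_lit 5) (nat_lit 128) (nat_lit 5) (nat_lit 320) (nat_lit 296) (nat_lit 164)) (XT.lf (nat_lit 0) (nat_lit 5769523423) (nat_lit 532) (nat_lit 1337021268) (nat_lit 608) (nat_lit 10946135522) (nat_lit 120) (nat_lit 5) (nat_lit 127) (nat_lit 5) (nat_lit 128) (nat_lit 5) (nat_lit 321) (nat_lit 296) (nat_lit 163))))) (XT.nd (nat_lit 234) (nat_lit 456) (nat_lit 0) (XT.nd (nat_lit 78) (nat_lit 456) (nat_lit 0) (XT.lf (nat_lit 0) (nat_lit 8900178746) (nat_lit 608) (nat_lit 4371632840) (nat_lit 76) (nat_lit 5097387157) (nat_lit 120) (nat_lit 5) (nat_lit 128) (nat_lit 5) (nat_lit 121) (nat_lit 5) (nat_lit 322)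 (nat_lit 296) (nat_lit 162)) (XT.nd (nat_lit 78) (nat_lit 0) (nat_lit 0) (XT.lf (nat_lit 0) (nat_lit 3830519832) (nat_lit 456) (nat_lit 6958887966) (nat_lit 532) (nat_lit 7904569802) (nat_lit 114) (nat_lit 5) (nat_lit 120) (nat_lit 5) (nat_lit 121) (nat_lit 5) (nat_lit 323) (nat_lit 296) (nat_lit 161)) (XT.lf (nat_lit 0) (nat_lit 12360205523) (nat_lit 456) (nat_lit 411142626) (nat_lit 532) (nat_lit 6256088458) (nat_lit 114) (nat_lit 5) (nat_lit 120) (nat_lit 5) (nat_lit 121) (nat_lit 5) (nat_lit 324) (nat_lit 296) (nat_lit 160)))) (XT.nd (nat_lit 78) (nat_lit 0) (nat_lit 0) (XT.lf (nat_lit 0) (nat_lit 1739793337) (nat_lit 456) (nat_lit 13142679742) (nat_lit 532) (nat_lit 4486351809) (nat_lit 108) (nat_lit 5) (nat_lit 114) (nat_lit 5) (nat_lit 115) (nat_lit 5) (nat_lit 325) (nat_lit 296) (nat_lit 159)) (XT.nd (nat_lit 78) (nat_lit 0) (nat_lit 0) (XT.lf (nat_lit 0) (nat_lit 10523466784) (nat_lit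 456) (nat_lit 6597098820) (nat_lit 532) (nat_lit 2597996991) (nat_lit 108) (nat_lit 5) (nat_lit 114) (nat_lit 5) (nat_lit 115) (nat_lit 5) (nat_lit 326) (nat_lit 296) (nat_lit 158)) (XT.lf (nat_lit 0) (nat_lit 19419691955) (nat_lit 532) (nat_lit 517618562) (nat_lit 76) (nat_lit 141681489) (nat_lit 108) (nat_lit 5) (nat_lit 115) (nat_lit 5) (nat_lit 109) (nat_lit 5) (nat_lit 327) (nat_lit 296) (nat_lit 157)))))) (XT.nd (nat_lit 390) (nat_lit 836) (nat_lit 0) (XT.nd (nat_lit 156) (nat_lit 836) (nat_lit 0) (XT.nd (nat_lit 78) (nat_lit 0) (nat_lit 0) (XT.lf (nat_lit 0) (nat_lit 1452694999) (nat_lit 532) (nat_lit 11947157714) (nat_lit 76) (nat_lit 7045774099) (nat_lit 101) (nat_lit 5) (nat_lit 108) (nat_lit 5) (nat_lit 102) (nat_lit 5) (nat_lit 328) (nat_lit 296) (nat_lit 156)) (XT.lf (nat_lit 0) (nat_lit 3612846060) (nat_lit 532) (nat_lit 3041963873) (nat_lit 76) (nat_lit 14168328392) (nat_lit 101)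 (nat_lit 5) (nat_lit 108) (nat_lit 5) (nat_lit 102) (nat_lit 5) (nat_lit 329) (nat_lit 296) (nat_lit 155))) (XT.nd (nat_lit 78) (nat_lit 380) (nat_lit 0) (XT.lf (nat_lit 0) (nat_lit 5894207651) (nat_lit 532) (nat_lit 14969260169) (nat_lit 76) (nat_lit 346829672) (nat_lit 95) (nat_lit 5) (nat_lit 102) (nat_lit 5) (nat_lit 96) (nat_lit 5) (nat_lit 330) (nat_lit 296) (nat_lit 154)) (XT.nd (nat_lit 78) (nat_lit 380) (nat_lit 0) (XT.lf (nat_lit 0) (nat_lit 8334024811) (nat_lit 532) (nat_lit 5817295223) (nat_lit 76) (nat_lit 7455065020) (nat_lit 95) (nat_lit 5) (nat_lit 102) (nat_lit 5) (nat_lit 96) (nat_lit 5) (nat_lit 331) (nat_lit 296) (nat_lit 153)) (XT.lf (nat_lit 0) (nat_lit 3673298422) (nat_lit 380) (nat_lit 7202352429) (nat_lit 456) (nat_lit 11137859617) (nat_lit 90) (nat_lit 5) (nat_lit 95) (nat_lit 5) (nat_lit 96) (nat_lit 5) (nat_lit 332) (nat_lit 296) (nat_lit 152))))) (XT.nd (nat_lit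 234) (nat_lit 456) (nat_lit 0) (XT.nd (nat_lit 78) (nat_lit 380) (nat_lit 0) (XT.lf (nat_lit 0) (nat_lit 13545836522) (nat_lit 456) (nat_lit 8871114606) (nat_lit 76) (nat_lit 14342446) (nat_lit 90) (nat_lit 5) (nat_lit 96) (nat_lit 5) (nat_lit 91) (nat_lit 5) (nat_lit 333) (nat_lit 296) (nat_lit 151)) (XT.nd (nat_lit 78) (nat_lit 0) (nat_lit 0) (XT.lf (nat_lit 0) (nat_lit 819220475) (nat_lit 380) (nat_lit 15549701990) (nat_lit 456) (nat_lit 6490516738) (nat_lit 85) (nat_lit 5) (nat_lit 90) (nat_lit 5) (nat_lit 91) (nat_lit 5) (nat_lit 334) (nat_lit 296) (nat_lit 150)) (XT.lf (nat_lit 0) (nat_lit 10974677592) (nat_lit 380) (nat_lit 8385328333) (nat_lit 456) (nat_lit 3937936623) (nat_lit 85) (nat_lit 5) (nat_lit 90) (nat_lit 5) (nat_lit 91) (nat_lit 5) (nat_lit 335) (nat_lit 296) (nat_lit 149)))) (XT.nd (nat_lit 78) (nat_lit 456) (nat_lit 0) (XT.lf (nat_lit 0) (nat_lit 21427577870) (nat_lit 380)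 (nat_lit 1007150888) (nat_lit 456) (nat_lit 1315067161) (nat_lit 85) (nat_lit 5) (nat_lit 90) (nat_lit 5) (nat_lit 91) (nat_lit 5) (nat_lit 336) (nat_lit 296) (nat_lit 148)) (XT.nd (nat_lit 78) (nat_lit 0) (nat_lit 0) (XT.lf (nat_lit 0) (nat_lit 1495733946) (nat_lit 456) (nat_lit 16160139358) (nat_lit 76) (nat_lit 6554854160) (nat_lit 79) (nat_lit 5) (nat_lit 85) (nat_lit 5) (nat_lit 80) (nat_lit 5) (nat_lit 337) (nat_lit 296) (nat_lit 147)) (XT.lf (nat_lit 0) (nat_lit 4392190498) (nat_lit 456) (nat_lit 5933073087) (nat_lit 76) (nat_lit 14359010970) (nat_lit 79) (nat_lit 5) (nat_lit 85) (nat_lit 5) (nat_lit 80) (nat_lit 5) (nat_lit 338) (nat_lit 296) (nat_lit 146))))))) (XT.nd (nat_lit 858) (nat_lit 1140) (nat_lit 0) (XT.nd (nat_lit 390) (nat_lit 988) (nat_lit 0) (XT.nd (nat_lit 156) (nat_lit 304) (nat_lit 0) (XT.nd (nat_lit 78) (nat_lit 0) (nat_lit 0) (XT.lf (nat_lit 0) (nat_lit 4685194430)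 (nat_lit 380) (nat_lit 2729663991) (nat_lit 456) (nat_lit 17756000886) (nat_lit 74) (nat_lit 5) (nat_lit 79) (nat_lit 5) (nat_lit 80) (nat_lit 5) (nat_lit 339) (nat_lit 296) (nat_lit 145)) (XT.lf (nat_lit 0) (nat_lit 10632044118) (nat_lit 456) (nat_lit 9983302911) (nat_lit 76) (nat_lit 5053589905) (nat_lit 74) (nat_lit 5) (nat_lit 80) (nat_lit 5) (nat_lit 75) (nat_lit 5) (nat_lit 340) (nat_lit 296) (nat_lit 144))) (XT.nd (nat_lit 78) (nat_lit 0) (nat_lit 0) (XT.lf (nat_lit 0) (nat_lit 816103523) (nat_lit 304) (nat_lit 13159044565) (nat_lit 380) (nat_lit 12205936882) (nat_lit 70) (nat_lit 5) (nat_lit 74) (nat_lit 5) (nat_lit 75) (nat_lit 5) (nat_lit 341) (nat_lit 296) (nat_lit 143)) (XT.nd (nat_lit 78) (nat_lit 0) (nat_lit 0) (XT.lf (nat_lit 0) (nat_lit 12137282833) (nat_lit 304) (nat_lit 5376698930) (nat_lit 380) (nat_lit 9191762449) (nat_lit 70) (nat_lit 5) (nat_lit 74) (nat_lit 5) (nat_lit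 75) (nat_lit 5) (nat_lit 342) (nat_lit 296) (nat_lit 142)) (XT.lf (nat_lit 0) (nat_lit 21179116788) (nat_lit 380) (nat_lit 3480224337) (nat_lit 76) (nat_lit 2586207594) (nat_lit 70) (nat_lit 5) (nat_lit 75) (nat_lit 5) (nat_lit 71) (nat_lit 5) (nat_lit 343) (nat_lit 296) (nat_lit 141))))) (XT.nd (nat_lit 234) (nat_lit 304) (nat_lit 0) (XT.nd (nat_lit 78) (nat_lit 380) (nat_lit 0) (XT.lf (nat_lit 0) (nat_lit 8037657344) (nat_lit 304) (nat_lit 17041965972) (nat_lit 380) (nat_lit 2718170819) (nat_lit 66) (nat_lit 5) (nat_lit 70) (nat_lit 5) (nat_lit 71) (nat_lit 5) (nat_lit 344) (nat_lit 296) (nat_lit 140)) (XT.nd (nat_lit 78) (nat_lit 304) (nat_lit 0) (XT.lf (nat_lit 0) (nat_lit 746720751) (nat_lit 380) (nat_lit 8407162273) (nat_lit 76) (nat_lit 19211608840) (nat_lit 65) (nat_lit 5) (nat_lit 70) (nat_lit 5) (nat_lit 66) (nat_lit 5) (nat_lit 345) (nat_lit 296) (nat_lit 139)) (XT.lf (nat_lit 0)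 (nat_lit 3317768380) (nat_lit 304) (nat_lit 970144409) (nat_lit 380) (nat_lit 24660699280) (nat_lit 61) (nat_lit 5) (nat_lit 65) (nat_lit 5) (nat_lit 66) (nat_lit 5) (nat_lit 346) (nat_lit 296) (nat_lit 138)))) (XT.nd (nat_lit 78) (nat_lit 304) (nat_lit 0) (XT.lf (nat_lit 0) (nat_lit 8087938590) (nat_lit 380) (nat_lit 14058972160) (nat_lit 76) (nat_lit 7397745450) (nat_lit 61) (nat_lit 5) (nat_lit 66) (nat_lit 5) (nat_lit 62) (nat_lit 5) (nat_lit 347) (nat_lit 296) (nat_lit 137)) (XT.nd (nat_lit 78) (nat_lit 304) (nat_lit 0) (XT.lf (nat_lit 0) (nat_lit 12006871625) (nat_lit 380) (nat_lit 2155896135) (nat_lit 76) (nat_lit 15995674722) (nat_lit 61) (nat_lit 5) (nat_lit 66) (nat_lit 5) (nat_lit 62) (nat_lit 5) (nat_lit 348) (nat_lit 296) (nat_lit 136)) (XT.lf (nat_lit 0) (nat_lit 10299082956) (nat_lit 304) (nat_lit 5838728711) (nat_lit 380) (nat_lit 14650005302) (nat_lit 57) (nat_lit 5) (nat_lit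 61) (nat_lit 5) (nat_lit 62) (nat_lit 5) (nat_lit 349) (nat_lit 296) (nat_lit 135)))))) (XT.nd (nat_lit 468) (nat_lit 532) (nat_lit 0) (XT.nd (nat_lit 234) (nat_lit 380) (nat_lit 0) (XT.nd (nat_lit 78) (nat_lit 228) (nat_lit 0) (XT.lf (nat_lit 0) (nat_lit 20436453234) (nat_lit 380) (nat_lit 8296248447) (nat_lit 76) (nat_lit 2702065371) (nat_lit 57) (nat_lit 5) (nat_lit 62) (nat_lit 5) (nat_lit 58) (nat_lit 5) (nat_lit 350) (nat_lit 296) (nat_lit 134)) (XT.nd (nat_lit 78) (nat_lit 0) (nat_lit 0) (XT.lf (nat_lit 0) (nat_lit 4281707721) (nat_lit 228) (nat_lit 20676941733) (nat_lit 304) (nat_lit 7139645660) (nat_lit 54) (nat_lit 5) (nat_lit 57) (nat_lit 5) (nat_lit 58) (nat_lit 5) (nat_lit 351) (nat_lit 296) (nat_lit 133)) (XT.lf (nat_lit 0) (nat_lit 17401080502) (nat_lit 228) (nat_lit 12294904514) (nat_lit 304) (nat_lit 3083366924) (nat_lit 54) (nat_lit 5) (nat_lit 57) (nat_lit 5) (nat_lit 58)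 (nat_lit 5) (nat_lit 352) (nat_lit 296) (nat_lit 132)))) (XT.nd (nat_lit 78) (nat_lit 304) (nat_lit 0) (XT.lf (nat_lit 0) (nat_lit 1069015367) (nat_lit 304) (nat_lit 2583231432) (nat_lit 76) (nat_lit 29828411486) (nat_lit 53) (nat_lit 5) (nat_lit 57) (nat_lit 5) (nat_lit 54) (nat_lit 5) (nat_lit 353) (nat_lit 296) (nat_lit 131)) (XT.nd (nat_lit 78) (nat_lit 0) (nat_lit 0) (XT.lf (nat_lit 0) (nat_lit 5435192704) (nat_lit 380) (nat_lit 23481334035) (nat_lit 76) (nat_lit 5281031865) (nat_lit 49) (nat_lit 5) (nat_lit 54) (nat_lit 5) (nat_lit 50) (nat_lit 5) (nat_lit 354) (nat_lit 296) (nat_lit 130)) (XT.lf (nat_lit 0) (nat_lit 9990807095) (nat_lit 380) (nat_lit 10509771561) (nat_lit 76) (nat_lit 14433640057) (nat_lit 49) (nat_lit 5) (nat_lit 54) (nat_lit 5) (nat_lit 50) (nat_lit 5) (nat_lit 355) (nat_lit 296) (nat_lit 129))))) (XT.nd (nat_lit 234) (nat_lit 304) (nat_lit 0) (XT.nd (nat_lit 78) (nat_lit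 0) (nat_lit 0) (XT.lf (nat_lit 0) (nat_lit 2901946750) (nat_lit 228) (nat_lit 11805103530) (nat_lit 304) (nat_lit 20985215680) (nat_lit 46) (nat_lit 5) (nat_lit 49) (nat_lit 5) (nat_lit 50) (nat_lit 5) (nat_lit 356) (nat_lit 296) (nat_lit 128)) (XT.nd (nat_lit 78) (nat_lit 0) (nat_lit 0) (XT.lf (nat_lit 0) (nat_lit 16925893237) (nat_lit 228) (nat_lit 2741141817) (nat_lit 304) (nat_lit 16802957911) (nat_lit 46) (nat_lit 5) (nat_lit 49) (nat_lit 5) (nat_lit 50) (nat_lit 5) (nat_lit 357) (nat_lit 296) (nat_lit 127)) (XT.lf (nat_lit 0) (nat_lit 24835435301) (nat_lit 304) (nat_lit 5969390526) (nat_lit 76) (nat_lit 6464443267) (nat_lit 46) (nat_lit 5) (nat_lit 50) (nat_lit 5) (nat_lit 47) (nat_lit 5) (nat_lit 358) (nat_lit 296) (nat_lit 126)))) (XT.nd (nat_lit 78) (nat_lit 76) (nat_lit 0) (XT.lf (nat_lit 0) (nat_lit 8138895208) (nat_lit 228) (nat_lit 22121701675) (nat_lit 304) (nat_lit 7828880972)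 (nat_lit 43) (nat_lit 5) (nat_lit 46) (nat_lit 5) (nat_lit 47) (nat_lit 5) (nat_lit 359) (nat_lit 296) (nat_lit 125)) (XT.nd (nat_lit 78) (nat_lit 76) (nat_lit 0) (XT.lf (nat_lit 0) (nat_lit 22787504674) (nat_lit 228) (nat_lit 13117676980) (nat_lit 304) (nat_lit 3027416635) (nat_lit 43) (nat_lit 5) (nat_lit 46) (nat_lit 5) (nat_lit 47) (nat_lit 5) (nat_lit 360) (nat_lit 296) (nat_lit 124)) (XT.lf (nat_lit 0) (nat_lit 1877117218) (nat_lit 304) (nat_lit 1949090867) (nat_lit 76) (nat_lit 35974362628) (nat_lit 42) (nat_lit 5) (nat_lit 46) (nat_lit 5) (nat_lit 43) (nat_lit 5) (nat_lit 361) (nat_lit 296) (nat_lit 123))))))))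
noncomputable def xc203 : XT := (XT.nd (nat_lit 1716) (nat_lit 0) (nat_lit 0) (XT.nd (nat_lit 858) (nat_lit 684) (nat_lit 0) (XT.nd (nat_lit 390) (nat_lit 456) (nat_lit 0) (XT.nd (nat_lit 156) (nat_lit 228) (nat_lit 0) (XT.nd (nat_lit 78) (nat_lit 0) (nat_lit 0) (XT.lf (nat_lit 0) (nat_lit 7045119144) (nat_lit 304) (nat_lit 27857524764) (nat_lit 76) (nat_lit 5785728764) (nat_lit 39) (nat_lit 5) (nat_lit 43) (nat_lit 5) (nat_lit 40) (nat_lit 5) (nat_lit 362) (nat_lit 296) (nat_lit 122)) (XT.lf (nat_lit 0) (nat_lit 12422515473) (nat_lit 304) (nat_lit 13551259648) (nat_lit 76) (nat_lit 15627407790) (nat_lit 39) (nat_lit 5) (nat_lit 43) (nat_lit 5) (nat_lit 40) (nat_lit 5) (nat_lit 363) (nat_lit 296) (nat_lit 121))) (XT.nd (nat_lit 78) (nat_lit 0) (nat_lit 0) (XT.lf (nat_lit 0) (nat_lit 1202708618) (nat_lit 228) (nat_lit 16766779673) (nat_lit 304) (nat_lit 24571646241) (nat_lit 36) (nat_lit 5) (nat_lit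 39) (nat_lit 5) (nat_lit 40) (nat_lit 5) (nat_lit 364) (nat_lit 296) (nat_lit 120)) (XT.nd (nat_lit 78) (nat_lit 0) (nat_lit 0) (XT.lf (nat_lit 0) (nat_lit 16672178059) (nat_lit 228) (nat_lit 7144275967) (nat_lit 304) (nat_lit 19688827736) (nat_lit 36) (nat_lit 5) (nat_lit 39) (nat_lit 5) (nat_lit 40) (nat_lit 5) (nat_lit 365) (nat_lit 296) (nat_lit 119)) (XT.lf (nat_lit 0) (nat_lit 29862247974) (nat_lit 304) (nat_lit 11924065461) (nat_lit 76) (nat_lit 2711341838) (nat_lit 36) (nat_lit 5) (nat_lit 40) (nat_lit 5) (nat_lit 37) (nat_lit 5) (nat_lit 366) (nat_lit 296) (nat_lit 118))))) (XT.nd (nat_lit 234) (nat_lit 228) (nat_lit 0) (XT.nd (nat_lit 78) (nat_lit 76) (nat_lit 0) (XT.lf (nat_lit 0) (nat_lit 3423610176) (nat_lit 152) (nat_lit 32766365443) (nat_lit 228) (nat_lit 9326811886) (nat_lit 34) (nat_lit 5) (nat_lit 36) (nat_lit 5) (nat_lit 37) (nat_lit 5) (nat_lit 367) (nat_lit 296) (nat_lit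 117)) (XT.nd (nat_lit 78) (nat_lit 76) (nat_lit 0) (XT.lf (nat_lit 0) (nat_lit 19471488553) (nat_lit 152) (nat_lit 23353415937) (nat_lit 228) (nat_lit 3738072316) (nat_lit 34) (nat_lit 5) (nat_lit 36) (nat_lit 5) (nat_lit 37) (nat_lit 5) (nat_lit 368) (nat_lit 296) (nat_lit 116)) (XT.lf (nat_lit 0) (nat_lit 1975959622) (nat_lit 228) (nat_lit 11663736753) (nat_lit 76) (nat_lit 34000366864) (nat_lit 33) (nat_lit 5) (nat_lit 36) (nat_lit 5) (nat_lit 34) (nat_lit 5) (nat_lit 369) (nat_lit 296) (nat_lit 115)))) (XT.nd (nat_lit 78) (nat_lit 0) (nat_lit 0) (XT.lf (nat_lit 0) (nat_lit 4268680781) (nat_lit 228) (nat_lit 3555735355) (nat_lit 304) (nat_lit 40922795586) (nat_lit 30) (nat_lit 5) (nat_lit 33) (nat_lit 5) (nat_lit 34) (nat_lit 5) (nat_lit 370) (nat_lit 296) (nat_lit 114)) (XT.nd (nat_lit 78) (nat_lit 0) (nat_lit 0) (XT.lf (nat_lit 0) (nat_lit 14030063744) (nat_lit 304) (nat_lit 29037186702)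 (nat_lit 76) (nat_lit 6814875809) (nat_lit 30) (nat_lit 5) (nat_lit 34) (nat_lit 5) (nat_lit 31) (nat_lit 5) (nat_lit 371) (nat_lit 296) (nat_lit 113)) (XT.lf (nat_lit 0) (nat_lit 20454298784) (nat_lit 304) (nat_lit 13172160870) (nat_lit 76) (nat_lit 17423659640) (nat_lit 30) (nat_lit 5) (nat_lit 34) (nat_lit 5) (nat_lit 31) (nat_lit 5) (nat_lit 372) (nat_lit 296) (nat_lit 112)))))) (XT.nd (nat_lit 390) (nat_lit 380) (nat_lit 0) (XT.nd (nat_lit 156) (nat_lit 152) (nat_lit 0) (XT.nd (nat_lit 78) (nat_lit 0) (nat_lit 0) (XT.lf (nat_lit 0) (nat_lit 3227570628) (nat_lit 152) (nat_lit 23872009518) (nat_lit 228) (nat_lit 25152725908) (nat_lit 28) (nat_lit 5) (nat_lit 30) (nat_lit 5) (nat_lit 31) (nat_lit 5) (nat_lit 373) (nat_lit 296) (nat_lit 111)) (XT.lf (nat_lit 0) (nat_lit 20385125259) (nat_lit 152) (nat_lit 13689440163) (nat_lit 228) (nat_lit 19412086033) (nat_lit 28) (nat_lit 5) (nat_lit 30)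 (nat_lit 5) (nat_lit 31) (nat_lit 5) (nat_lit 374) (nat_lit 296) (nat_lit 110))) (XT.nd (nat_lit 78) (nat_lit 152) (nat_lit 0) (XT.lf (nat_lit 0) (nat_lit 38053343230) (nat_lit 152) (nat_lit 3202867197) (nat_lit 228) (nat_lit 13501897791) (nat_lit 28) (nat_lit 5) (nat_lit 30) (nat_lit 5) (nat_lit 31) (nat_lit 5) (nat_lit 375) (nat_lit 296) (nat_lit 109)) (XT.nd (nat_lit 78) (nat_lit 0) (nat_lit 0) (XT.lf (nat_lit 0) (nat_lit 108976199) (nat_lit 152) (nat_lit 48615887514) (nat_lit 228) (nat_lit 7340701409) (nat_lit 26) (nat_lit 5) (nat_lit 28) (nat_lit 5) (nat_lit 29) (nat_lit 5) (nat_lit 376) (nat_lit 296) (nat_lit 108)) (XT.lf (nat_lit 0) (nat_lit 17733247723) (nat_lit 152) (nat_lit 38881922226) (nat_lit 228) (nat_lit 791151099) (nat_lit 26) (nat_lit 5) (nat_lit 28) (nat_lit 5) (nat_lit 29) (nat_lit 5) (nat_lit 377) (nat_lit 296) (nat_lit 107))))) (XT.nd (nat_lit 234) (nat_lit 152) (nat_lit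 0) (XT.nd (nat_lit 78) (nat_lit 152) (nat_lit 0) (XT.lf (nat_lit 0) (nat_lit 5836237446) (nat_lit 228) (nat_lit 22962200781) (nat_lit 76) (nat_lit 29987220512) (nat_lit 25) (nat_lit 5) (nat_lit 28) (nat_lit 5) (nat_lit 26) (nat_lit 5) (nat_lit 378) (nat_lit 296) (nat_lit 106)) (XT.nd (nat_lit 78) (nat_lit 152) (nat_lit 0) (XT.lf (nat_lit 0) (nat_lit 12644170561) (nat_lit 228) (nat_lit 5761627973) (nat_lit 76) (nat_lit 41800417151) (nat_lit 25) (nat_lit 5) (nat_lit 28) (nat_lit 5) (nat_lit 26) (nat_lit 5) (nat_lit 379) (nat_lit 296) (nat_lit 105)) (XT.lf (nat_lit 0) (nat_lit 12189133653) (nat_lit 152) (nat_lit 7582070890) (nat_lit 228) (nat_lit 41894741680) (nat_lit 23) (nat_lit 5) (nat_lit 25) (nat_lit 5) (nat_lit 26) (nat_lit 5) (nat_lit 380) (nat_lit 296) (nat_lit 104)))) (XT.nd (nat_lit 78) (nat_lit 152) (nat_lit 0) (XT.lf (nat_lit 0) (nat_lit 27202801266) (nat_lit 228) (nat_lit 32409759454)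 (nat_lit 76) (nat_lit 3554188090) (nat_lit 23) (nat_lit 5) (nat_lit 26) (nat_lit 5) (nat_lit 24) (nat_lit 5) (nat_lit 381) (nat_lit 296) (nat_lit 103)) (XT.nd (nat_lit 78) (nat_lit 152) (nat_lit 0) (XT.lf (nat_lit 0) (nat_lit 34930194938) (nat_lit 228) (nat_lit 14909360771) (nat_lit 76) (nat_lit 14870836905) (nat_lit 23) (nat_lit 5) (nat_lit 26) (nat_lit 5) (nat_lit 24) (nat_lit 5) (nat_lit 382) (nat_lit 296) (nat_lit 102)) (XT.lf (nat_lit 0) (nat_lit 3174504611) (nat_lit 152) (nat_lit 39743264814) (nat_lit 228) (nat_lit 23381728068) (nat_lit 21) (nat_lit 5) (nat_lit 23) (nat_lit 5) (nat_lit 24) (nat_lit 5) (nat_lit 383) (nat_lit 296) (nat_lit 101))))))) (XT.nd (nat_lit 34632) (nat_lit 0) (nat_lit 8588) (XT.nd (nat_lit 34164) (nat_lit 0) (nat_lit 10032) (XT.nd (nat_lit 33930) (nat_lit 0) (nat_lit 9956) (XT.nd (nat_lit 33852) (nat_lit 0) (nat_lit 11020) (XT.lf (nat_lit 0) (nat_lit 22103056184)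 (nat_lit 152) (nat_lit 29190343572) (nat_lit 228) (nat_lit 16638425363) (nat_lit 21) (nat_lit 5) (nat_lit 23) (nat_lit 5) (nat_lit 24) (nat_lit 5) (nat_lit 384) (nat_lit 296) (nat_lit 100)) (XT.lf (nat_lit 0) (nat_lit 2905488042) (nat_lit 0) (nat_lit 2905488042) (nat_lit 988) (nat_lit 473621151) (nat_lit 166) (nat_lit 5) (nat_lit 166) (nat_lit 3) (nat_lit 179) (nat_lit 3) (nat_lit 297) (nat_lit 297) (nat_lit 186))) (XT.nd (nat_lit 78) (nat_lit 1064) (nat_lit 0) (XT.lf (nat_lit 0) (nat_lit 11224114977) (nat_lit 0) (nat_lit 958647371) (nat_lit 988) (nat_lit 562391151) (nat_lit 166) (nat_lit 5) (nat_lit 166) (nat_lit 3) (nat_lit 179) (nat_lit 3) (nat_lit 298) (nat_lit 297) (nat_lit 185)) (XT.nd (nat_lit 78) (nat_lit 1064) (nat_lit 0) (XT.lf (nat_lit 76) (nat_lit 3902475284) (nat_lit 0) (nat_lit 8919251508) (nat_lit 1064) (nat_lit 102863028) (nat_lit 167) (nat_lit 5) (nat_lit 166) (nat_lit 5) (nat_lit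 180) (nat_lit 5) (nat_lit 299) (nat_lit 297) (nat_lit 184)) (XT.lf (nat_lit 0) (nat_lit 373392900) (nat_lit 1064) (nat_lit 3610635770) (nat_lit 1140) (nat_lit 9125004822) (nat_lit 152) (nat_lit 5) (nat_lit 166) (nat_lit 5) (nat_lit 167) (nat_lit 5) (nat_lit 300) (nat_lit 297) (nat_lit 183))))) (XT.nd (nat_lit 234) (nat_lit 0) (nat_lit 76) (XT.nd (nat_lit 78) (nat_lit 0) (nat_lit 0) (XT.lf (nat_lit 0) (nat_lit 877452998) (nat_lit 1064) (nat_lit 11316754375) (nat_lit 1140) (nat_lit 1104340189) (nat_lit 153) (nat_lit 5) (nat_lit 167) (nat_lit 5) (nat_lit 168) (nat_lit 5) (nat_lit 301) (nat_lit 297) (nat_lit 182)) (XT.nd (nat_lit 78) (nat_lit 0) (nat_lit 0) (XT.lf (nat_lit 0) (nat_lit 1458901835) (nat_lit 1064) (nat_lit 5724998388) (nat_lit 1140) (nat_lit 6308012961) (nat_lit 153) (nat_lit 5) (nat_lit 167) (nat_lit 5) (nat_lit 168) (nat_lit 5) (nat_lit 302) (nat_lit 297) (nat_lit 181)) (XT.lf (nat_lit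 76) (nat_lit 26733071) (nat_lit 0) (nat_lit 2017725585) (nat_lit 1140) (nat_lit 11647054323) (nat_lit 154) (nat_lit 5) (nat_lit 153) (nat_lit 5) (nat_lit 168) (nat_lit 5) (nat_lit 303) (nat_lit 297) (nat_lit 180)))) (XT.nd (nat_lit 78) (nat_lit 0) (nat_lit 0) (XT.lf (nat_lit 0) (nat_lit 2724493535) (nat_lit 1064) (nat_lit 7868016690) (nat_lit 1140) (nat_lit 3302315382) (nat_lit 154) (nat_lit 5) (nat_lit 168) (nat_lit 5) (nat_lit 169) (nat_lit 5) (nat_lit 304) (nat_lit 297) (nat_lit 179)) (XT.nd (nat_lit 78) (nat_lit 0) (nat_lit 76) (XT.lf (nat_lit 0) (nat_lit 3432065261) (nat_lit 1064) (nat_lit 1925771324) (nat_lit 1140) (nat_lit 8746218192) (nat_lit 154) (nat_lit 5) (nat_lit 168) (nat_lit 5) (nat_lit 169) (nat_lit 5) (nat_lit 305) (nat_lit 297) (nat_lit 178)) (XT.lf (nat_lit 0) (nat_lit 4190214121) (nat_lit 1064) (nat_lit 10049642438) (nat_lit 1140) (nat_lit 78854096) (nat_lit 155) (nat_lit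 5) (nat_lit 169) (nat_lit 5) (nat_lit 170) (nat_lit 5) (nat_lit 306) (nat_lit 297) (nat_lit 177)))))) (XT.nd (nat_lit 468) (nat_lit 1596) (nat_lit 0) (XT.nd (nat_lit 234) (nat_lit 0) (nat_lit 76) (XT.nd (nat_lit 78) (nat_lit 0) (nat_lit 0) (XT.lf (nat_lit 0) (nat_lit 5031650929) (nat_lit 1064) (nat_lit 3911784855) (nat_lit 1140) (nat_lit 5594583565) (nat_lit 155) (nat_lit 5) (nat_lit 169) (nat_lit 5) (nat_lit 170) (nat_lit 5) (nat_lit 307) (nat_lit 297) (nat_lit 176)) (XT.nd (nat_lit 78) (nat_lit 0) (nat_lit 76) (XT.lf (nat_lit 76) (nat_lit 2449709177) (nat_lit 0) (nat_lit 3460380003) (nat_lit 1140) (nat_lit 8853493964) (nat_lit 156) (nat_lit 5) (nat_lit 155) (nat_lit 5) (nat_lit 170) (nat_lit 5) (nat_lit 308) (nat_lit 297) (nat_lit 175)) (XT.lf (nat_lit 0) (nat_lit 6864303804) (nat_lit 1064) (nat_lit 5942534343) (nat_lit 1140) (nat_lit 2187620764) (nat_lit 156) (nat_lit 5) (nat_lit 170) (nat_lit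 5) (nat_lit 171) (nat_lit 5) (nat_lit 309) (nat_lit 297) (nat_lit 174)))) (XT.nd (nat_lit 78) (nat_lit 0) (nat_lit 0) (XT.lf (nat_lit 76) (nat_lit 588799292) (nat_lit 0) (nat_lit 7287107801) (nat_lit 1140) (nat_lit 7355517939) (nat_lit 157) (nat_lit 5) (nat_lit 156) (nat_lit 5) (nat_lit 171) (nat_lit 5) (nat_lit 310) (nat_lit 297) (nat_lit 173)) (XT.nd (nat_lit 78) (nat_lit 0) (nat_lit 76) (XT.lf (nat_lit 76) (nat_lit 7429596583) (nat_lit 0) (nat_lit 1537356285) (nat_lit 1140) (nat_lit 6507100599) (nat_lit 157) (nat_lit 5) (nat_lit 156) (nat_lit 5) (nat_lit 171) (nat_lit 5) (nat_lit 311) (nat_lit 297) (nat_lit 172)) (XT.lf (nat_lit 0) (nat_lit 10122309016) (nat_lit 1064) (nat_lit 1298911872) (nat_lit 1140) (nat_lit 4301817899) (nat_lit 157) (nat_lit 5) (nat_lit 171) (nat_lit 5) (nat_lit 172) (nat_lit 5) (nat_lit 312) (nat_lit 297) (nat_lit 171))))) (XT.nd (nat_lit 234) (nat_lit 760) (nat_lit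 0) (XT.nd (nat_lit 78) (nat_lit 988) (nat_lit 0) (XT.lf (nat_lit 76) (nat_lit 5737565224) (nat_lit 0) (nat_lit 5634871635) (nat_lit 1140) (nat_lit 4605278138) (nat_lit 158) (nat_lit 5) (nat_lit 157) (nat_lit 5) (nat_lit 172) (nat_lit 5) (nat_lit 313) (nat_lit 297) (nat_lit 170)) (XT.nd (nat_lit 78) (nat_lit 1064) (nat_lit 0) (XT.lf (nat_lit 0) (nat_lit 12666416161) (nat_lit 1064) (nat_lit 3239566856) (nat_lit 76) (nat_lit 333881989) (nat_lit 158) (nat_lit 5) (nat_lit 172) (nat_lit 5) (nat_lit 159) (nat_lit 5) (nat_lit 314) (nat_lit 297) (nat_lit 169)) (XT.lf (nat_lit 0) (nat_lit 3984809175) (nat_lit 1064) (nat_lit 10098769385) (nat_lit 1140) (nat_lit 2423793289) (nat_lit 144) (nat_lit 5) (nat_lit 158) (nat_lit 5) (nat_lit 159) (nat_lit 5) (nat_lit 315) (nat_lit 297) (nat_lit 168)))) (XT.nd (nat_lit 78) (nat_lit 760) (nat_lit 0) (XT.lf (nat_lit 0) (nat_lit 11484213198) (nat_lit 1064) (nat_lit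 4082229866) (nat_lit 1140) (nat_lit 1215787785) (nat_lit 144) (nat_lit 5) (nat_lit 158) (nat_lit 5) (nat_lit 159) (nat_lit 5) (nat_lit 316) (nat_lit 297) (nat_lit 167)) (XT.nd (nat_lit 78) (nat_lit 0) (nat_lit 0) (XT.lf (nat_lit 0) (nat_lit 60022440) (nat_lit 760) (nat_lit 14908156225) (nat_lit 76) (nat_lit 2096206425) (nat_lit 134) (nat_lit 5) (nat_lit 144) (nat_lit 5) (nat_lit 135) (nat_lit 5) (nat_lit 317) (nat_lit 297) (nat_lit 166)) (XT.lf (nat_lit 0) (nat_lit 1434963523) (nat_lit 760) (nat_lit 7471987479) (nat_lit 76) (nat_lit 8445153702) (nat_lit 134) (nat_lit 5) (nat_lit 144) (nat_lit 5) (nat_lit 135) (nat_lit 5) (nat_lit 318) (nat_lit 297) (nat_lit 165))))))))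
noncomputable def xc204 : XT := (XT.nd (nat_lit 1716) (nat_lit 2660) (nat_lit 0) (XT.nd (nat_lit 858) (nat_lit 2052) (nat_lit 0) (XT.nd (nat_lit 390) (nat_lit 1444) (nat_lit 0) (XT.nd (nat_lit 156) (nat_lit 532) (nat_lit 0) (XT.nd (nat_lit 78) (nat_lit 0) (nat_lit 0) (XT.lf (nat_lit 0) (nat_lit 182764629) (nat_lit 532) (nat_lit 2661256972) (nat_lit 608) (nat_lit 14804668295) (nat_lit 127) (nat_lit 5) (nat_lit 134) (nat_lit 5) (nat_lit 135) (nat_lit 5) (nat_lit 319) (nat_lit 297) (nat_lit 164)) (XT.lf (nat_lit 0) (nat_lit 4399108714) (nat_lit 608) (nat_lit 9776861866) (nat_lit 76) (nat_lit 3775108813) (nat_lit 127) (nat_lit 5) (nat_lit 135) (nat_lit 5) (nat_lit 128) (nat_lit 5) (nat_lit 320) (nat_lit 297) (nat_lit 163))) (XT.nd (nat_lit 78) (nat_lit 532) (nat_lit 0) (XT.lf (nat_lit 0) (nat_lit 6018751781) (nat_lit 608) (nat_lit 1891511112) (nat_lit 76) (nat_lit 10351759481) (nat_lit 127) (nat_lit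 5) (nat_lit 135) (nat_lit 5) (nat_lit 128) (nat_lit 5) (nat_lit 321) (nat_lit 297) (nat_lit 162)) (XT.nd (nat_lit 78) (nat_lit 0) (nat_lit 0) (XT.lf (nat_lit 0) (nat_lit 6346440651) (nat_lit 532) (nat_lit 1393349614) (nat_lit 608) (nat_lit 10840937547) (nat_lit 120) (nat_lit 5) (nat_lit 127) (nat_lit 5) (nat_lit 128) (nat_lit 5) (nat_lit 322) (nat_lit 297) (nat_lit 161)) (XT.lf (nat_lit 0) (nat_lit 9574847544) (nat_lit 608) (nat_lit 4097422381) (nat_lit 76) (nat_lit 5234870673) (nat_lit 120) (nat_lit 5) (nat_lit 128) (nat_lit 5) (nat_lit 121) (nat_lit 5) (nat_lit 323) (nat_lit 297) (nat_lit 160))))) (XT.nd (nat_lit 234) (nat_lit 532) (nat_lit 0) (XT.nd (nat_lit 78) (nat_lit 456) (nat_lit 0) (XT.lf (nat_lit 0) (nat_lit 4346820758) (nat_lit 456) (nat_lit 7165917379) (nat_lit 532) (nat_lit 7729191480) (nat_lit 114) (nat_lit 5) (nat_lit 120) (nat_lit 5) (nat_lit 121) (nat_lit 5) (nat_lit 324) (nat_lit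 297) (nat_lit 159)) (XT.nd (nat_lit 78) (nat_lit 456) (nat_lit 0) (XT.lf (nat_lit 0) (nat_lit 13120706185) (nat_lit 456) (nat_lit 421790277) (nat_lit 532) (nat_lit 6043270708) (nat_lit 114) (nat_lit 5) (nat_lit 120) (nat_lit 5) (nat_lit 121) (nat_lit 5) (nat_lit 325) (nat_lit 297) (nat_lit 158)) (XT.lf (nat_lit 0) (nat_lit 2190215104) (nat_lit 456) (nat_lit 13519282587) (nat_lit 532) (nat_lit 4228147956) (nat_lit 108) (nat_lit 5) (nat_lit 114) (nat_lit 5) (nat_lit 115) (nat_lit 5) (nat_lit 326) (nat_lit 297) (nat_lit 157)))) (XT.nd (nat_lit 78) (nat_lit 532) (nat_lit 0) (XT.lf (nat_lit 0) (nat_lit 11225799882) (nat_lit 456) (nat_lit 6777849117) (nat_lit 532) (nat_lit 2294583108) (nat_lit 108) (nat_lit 5) (nat_lit 114) (nat_lit 5) (nat_lit 115) (nat_lit 5) (nat_lit 327) (nat_lit 297) (nat_lit 156)) (XT.nd (nat_lit 78) (nat_lit 532) (nat_lit 0) (XT.lf (nat_lit 0) (nat_lit 20361148155) (nat_lit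 532) (nat_lit 146398107) (nat_lit 76) (nat_lit 162269567) (nat_lit 108) (nat_lit 5) (nat_lit 115) (nat_lit 5) (nat_lit 109) (nat_lit 5) (nat_lit 328) (nat_lit 297) (nat_lit 155)) (XT.lf (nat_lit 0) (nat_lit 1852598681) (nat_lit 532) (nat_lit 11914788366) (nat_lit 76) (nat_lit 7280183683) (nat_lit 101) (nat_lit 5) (nat_lit 108) (nat_lit 5) (nat_lit 102) (nat_lit 5) (nat_lit 329) (nat_lit 297) (nat_lit 154)))))) (XT.nd (nat_lit 390) (nat_lit 1216) (nat_lit 0) (XT.nd (nat_lit 156) (nat_lit 380) (nat_lit 0) (XT.nd (nat_lit 78) (nat_lit 456) (nat_lit 0) (XT.lf (nat_lit 0) (nat_lit 4067175940) (nat_lit 532) (nat_lit 2753820771) (nat_lit 76) (nat_lit 14615743643) (nat_lit 101) (nat_lit 5) (nat_lit 108) (nat_lit 5) (nat_lit 102) (nat_lit 5) (nat_lit 330) (nat_lit 297) (nat_lit 153)) (XT.lf (nat_lit 0) (nat_lit 6410861616) (nat_lit 532) (nat_lit 15032126196) (nat_lit 76) (nat_lit 392730775) (nat_lit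 95) (nat_lit 5) (nat_lit 102) (nat_lit 5) (nat_lit 96) (nat_lit 5) (nat_lit 331) (nat_lit 297) (nat_lit 152))) (XT.nd (nat_lit 78) (nat_lit 380) (nat_lit 0) (XT.lf (nat_lit 0) (nat_lit 8913975395) (nat_lit 532) (nat_lit 5616851189) (nat_lit 76) (nat_lit 7713179314) (nat_lit 95) (nat_lit 5) (nat_lit 102) (nat_lit 5) (nat_lit 96) (nat_lit 5) (nat_lit 332) (nat_lit 297) (nat_lit 151)) (XT.nd (nat_lit 78) (nat_lit 0) (nat_lit 0) (XT.lf (nat_lit 0) (nat_lit 4154784159) (nat_lit 380) (nat_lit 7371025486) (nat_lit 456) (nat_lit 11137736243) (nat_lit 90) (nat_lit 5) (nat_lit 95) (nat_lit 5) (nat_lit 96) (nat_lit 5) (nat_lit 333) (nat_lit 297) (nat_lit 150)) (XT.lf (nat_lit 0) (nat_lit 14267109563) (nat_lit 456) (nat_lit 8767149923) (nat_lit 76) (nat_lit 59891767) (nat_lit 90) (nat_lit 5) (nat_lit 96) (nat_lit 5) (nat_lit 91) (nat_lit 5) (nat_lit 334) (nat_lit 297) (nat_lit 149))))) (XT.nd (nat_lit 234)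 (nat_lit 836) (nat_lit 0) (XT.nd (nat_lit 78) (nat_lit 0) (nat_lit 0) (XT.lf (nat_lit 0) (nat_lit 1210266797) (nat_lit 380) (nat_lit 15958972233) (nat_lit 456) (nat_lit 6366090164) (nat_lit 85) (nat_lit 5) (nat_lit 90) (nat_lit 5) (nat_lit 91) (nat_lit 5) (nat_lit 335) (nat_lit 297) (nat_lit 148)) (XT.nd (nat_lit 78) (nat_lit 0) (nat_lit 0) (XT.lf (nat_lit 0) (nat_lit 11659713753) (nat_lit 380) (nat_lit 8581333991) (nat_lit 456) (nat_lit 3746228046) (nat_lit 85) (nat_lit 5) (nat_lit 90) (nat_lit 5) (nat_lit 91) (nat_lit 5) (nat_lit 336) (nat_lit 297) (nat_lit 147)) (XT.lf (nat_lit 0) (nat_lit 22415838054) (nat_lit 380) (nat_lit 983429306) (nat_lit 456) (nat_lit 1053697160) (nat_lit 85) (nat_lit 5) (nat_lit 90) (nat_lit 5) (nat_lit 91) (nat_lit 5) (nat_lit 337) (nat_lit 297) (nat_lit 146)))) (XT.nd (nat_lit 78) (nat_lit 380) (nat_lit 0) (XT.lf (nat_lit 0) (nat_lit 1830880545) (nat_lit 456) (nat_lit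 16287852728) (nat_lit 76) (nat_lit 6809060719) (nat_lit 79) (nat_lit 5) (nat_lit 85) (nat_lit 5) (nat_lit 80) (nat_lit 5) (nat_lit 338) (nat_lit 297) (nat_lit 145)) (XT.nd (nat_lit 78) (nat_lit 380) (nat_lit 0) (XT.lf (nat_lit 0) (nat_lit 4805776194) (nat_lit 456) (nat_lit 5764375172) (nat_lit 76) (nat_lit 14845665702) (nat_lit 79) (nat_lit 5) (nat_lit 85) (nat_lit 5) (nat_lit 80) (nat_lit 5) (nat_lit 339) (nat_lit 297) (nat_lit 144)) (XT.lf (nat_lit 0) (nat_lit 5169041448) (nat_lit 380) (nat_lit 2745174283) (nat_lit 456) (nat_lit 18002946354) (nat_lit 74) (nat_lit 5) (nat_lit 79) (nat_lit 5) (nat_lit 80) (nat_lit 5) (nat_lit 340) (nat_lit 297) (nat_lit 143))))))) (XT.nd (nat_lit 858) (nat_lit 1368) (nat_lit 0) (XT.nd (nat_lit 390) (nat_lit 684) (nat_lit 0) (XT.nd (nat_lit 156) (nat_lit 304) (nat_lit 0) (XT.nd (nat_lit 78) (nat_lit 304) (nat_lit 0) (XT.lf (nat_lit 0) (nat_lit 11220471110) (nat_lit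 456) (nat_lit 9941563062) (nat_lit 76) (nat_lit 5268386265) (nat_lit 74) (nat_lit 5) (nat_lit 80) (nat_lit 5) (nat_lit 75) (nat_lit 5) (nat_lit 341) (nat_lit 297) (nat_lit 142)) (XT.lf (nat_lit 0) (nat_lit 1178480085) (nat_lit 304) (nat_lit 13480787638) (nat_lit 380) (nat_lit 12298817786) (nat_lit 70) (nat_lit 5) (nat_lit 74) (nat_lit 5) (nat_lit 75) (nat_lit 5) (nat_lit 342) (nat_lit 297) (nat_lit 141))) (XT.nd (nat_lit 78) (nat_lit 304) (nat_lit 0) (XT.lf (nat_lit 0) (nat_lit 12829453218) (nat_lit 304) (nat_lit 5467098671) (nat_lit 380) (nat_lit 9202178232) (nat_lit 70) (nat_lit 5) (nat_lit 74) (nat_lit 5) (nat_lit 75) (nat_lit 5) (nat_lit 343) (nat_lit 297) (nat_lit 140)) (XT.nd (nat_lit 78) (nat_lit 304) (nat_lit 0) (XT.lf (nat_lit 0) (nat_lit 22064812834) (nat_lit 380) (nat_lit 3258847794) (nat_lit 76) (nat_lit 2731286724) (nat_lit 70) (nat_lit 5) (nat_lit 75) (nat_lit 5) (nat_lit 71) (nat_lit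 5) (nat_lit 344) (nat_lit 297) (nat_lit 139)) (XT.lf (nat_lit 0) (nat_lit 8601376384) (nat_lit 304) (nat_lit 17476768152) (nat_lit 380) (nat_lit 2545754639) (nat_lit 66) (nat_lit 5) (nat_lit 70) (nat_lit 5) (nat_lit 71) (nat_lit 5) (nat_lit 345) (nat_lit 297) (nat_lit 138))))) (XT.nd (nat_lit 234) (nat_lit 304) (nat_lit 0) (XT.nd (nat_lit 78) (nat_lit 304) (nat_lit 0) (XT.lf (nat_lit 0) (nat_lit 1010875388) (nat_lit 380) (nat_lit 8340952994) (nat_lit 76) (nat_lit 19856956373) (nat_lit 65) (nat_lit 5) (nat_lit 70) (nat_lit 5) (nat_lit 66) (nat_lit 5) (nat_lit 346) (nat_lit 297) (nat_lit 137)) (XT.nd (nat_lit 78) (nat_lit 0) (nat_lit 0) (XT.lf (nat_lit 0) (nat_lit 3732603774) (nat_lit 304) (nat_lit 921688942) (nat_lit 380) (nat_lit 25155238376) (nat_lit 61) (nat_lit 5) (nat_lit 65) (nat_lit 5) (nat_lit 66) (nat_lit 5) (nat_lit 347) (nat_lit 297) (nat_lit 136)) (XT.lf (nat_lit 0) (nat_lit 8562118588)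 (nat_lit 380) (nat_lit 14168026637) (nat_lit 76) (nat_lit 7693509200) (nat_lit 61) (nat_lit 5) (nat_lit 66) (nat_lit 5) (nat_lit 62) (nat_lit 5) (nat_lit 348) (nat_lit 297) (nat_lit 135)))) (XT.nd (nat_lit 78) (nat_lit 304) (nat_lit 0) (XT.lf (nat_lit 0) (nat_lit 12591875677) (nat_lit 380) (nat_lit 1916966526) (nat_lit 76) (nat_lit 16547225922) (nat_lit 61) (nat_lit 5) (nat_lit 66) (nat_lit 5) (nat_lit 62) (nat_lit 5) (nat_lit 349) (nat_lit 297) (nat_lit 134)) (XT.nd (nat_lit 78) (nat_lit 0) (nat_lit 0) (XT.lf (nat_lit 0) (nat_lit 10908685404) (nat_lit 304) (nat_lit 5934400844) (nat_lit 380) (nat_lit 14861358504) (nat_lit 57) (nat_lit 5) (nat_lit 61) (nat_lit 5) (nat_lit 62) (nat_lit 5) (nat_lit 350) (nat_lit 297) (nat_lit 133)) (XT.lf (nat_lit 0) (nat_lit 21264987932) (nat_lit 380) (nat_lit 8247201354) (nat_lit 76) (nat_lit 2858795875) (nat_lit 57) (nat_lit 5) (nat_lit 62) (nat_lit 5) (nat_lit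 58) (nat_lit 5) (nat_lit 351) (nat_lit 297) (nat_lit 132)))))) (XT.nd (nat_lit 468) (nat_lit 532) (nat_lit 0) (XT.nd (nat_lit 234) (nat_lit 532) (nat_lit 0) (XT.nd (nat_lit 78) (nat_lit 76) (nat_lit 0) (XT.lf (nat_lit 0) (nat_lit 4705172572) (nat_lit 228) (nat_lit 21214238335) (nat_lit 304) (nat_lit 7135121866) (nat_lit 54) (nat_lit 5) (nat_lit 57) (nat_lit 5) (nat_lit 58) (nat_lit 5) (nat_lit 352) (nat_lit 297) (nat_lit 131)) (XT.nd (nat_lit 78) (nat_lit 76) (nat_lit 0) (XT.lf (nat_lit 0) (nat_lit 18209533906) (nat_lit 228) (nat_lit 12583157815) (nat_lit 304) (nat_lit 2963525054) (nat_lit 54) (nat_lit 5) (nat_lit 57) (nat_lit 5) (nat_lit 58) (nat_lit 5) (nat_lit 353) (nat_lit 297) (nat_lit 130)) (XT.lf (nat_lit 0) (nat_lit 1303221074) (nat_lit 304) (nat_lit 2378305517) (nat_lit 76) (nat_lit 30797166046) (nat_lit 53) (nat_lit 5) (nat_lit 57) (nat_lit 5) (nat_lit 54) (nat_lit 5) (nat_lit 354)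 (nat_lit 297) (nat_lit 129)))) (XT.nd (nat_lit 78) (nat_lit 228) (nat_lit 0) (XT.lf (nat_lit 0) (nat_lit 5797960413) (nat_lit 380) (nat_lit 23900615901) (nat_lit 76) (nat_lit 5518605711) (nat_lit 49) (nat_lit 5) (nat_lit 54) (nat_lit 5) (nat_lit 50) (nat_lit 5) (nat_lit 355) (nat_lit 297) (nat_lit 128)) (XT.nd (nat_lit 78) (nat_lit 228) (nat_lit 0) (XT.lf (nat_lit 0) (nat_lit 10484426383) (nat_lit 380) (nat_lit 10548212129) (nat_lit 76) (nat_lit 14943487016) (nat_lit 49) (nat_lit 5) (nat_lit 54) (nat_lit 5) (nat_lit 50) (nat_lit 5) (nat_lit 356) (nat_lit 297) (nat_lit 127)) (XT.lf (nat_lit 0) (nat_lit 3263143490) (nat_lit 228) (nat_lit 12076001130) (nat_lit 304) (nat_lit 21417868763) (nat_lit 46) (nat_lit 5) (nat_lit 49) (nat_lit 5) (nat_lit 50) (nat_lit 5) (nat_lit 357) (nat_lit 297) (nat_lit 126))))) (XT.nd (nat_lit 234) (nat_lit 304) (nat_lit 0) (XT.nd (nat_lit 78) (nat_lit 228) (nat_lit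 0) (XT.lf (nat_lit 0) (nat_lit 17699823759) (nat_lit 228) (nat_lit 2742545483) (nat_lit 304) (nat_lit 17115878311) (nat_lit 46) (nat_lit 5) (nat_lit 49) (nat_lit 5) (nat_lit 50) (nat_lit 5) (nat_lit 358) (nat_lit 297) (nat_lit 125)) (XT.nd (nat_lit 78) (nat_lit 228) (nat_lit 0) (XT.lf (nat_lit 0) (nat_lit 25761178098) (nat_lit 304) (nat_lit 5885149978) (nat_lit 76) (nat_lit 6735321509) (nat_lit 46) (nat_lit 5) (nat_lit 50) (nat_lit 5) (nat_lit 47) (nat_lit 5) (nat_lit 359) (nat_lit 297) (nat_lit 124)) (XT.lf (nat_lit 0) (nat_lit 8643802737) (nat_lit 228) (nat_lit 22702535672) (nat_lit 304) (nat_lit 7880216956) (nat_lit 43) (nat_lit 5) (nat_lit 46) (nat_lit 5) (nat_lit 47) (nat_lit 5) (nat_lit 360) (nat_lit 297) (nat_lit 123)))) (XT.nd (nat_lit 78) (nat_lit 304) (nat_lit 0) (XT.lf (nat_lit 0) (nat_lit 23724276098) (nat_lit 228) (nat_lit 13430802384) (nat_lit 304) (nat_lit 2940054235) (nat_lit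 43) (nat_lit 5) (nat_lit 46) (nat_lit 5) (nat_lit 47) (nat_lit 5) (nat_lit 361) (nat_lit 297) (nat_lit 122)) (XT.nd (nat_lit 78) (nat_lit 228) (nat_lit 0) (XT.lf (nat_lit 0) (nat_lit 2103050025) (nat_lit 304) (nat_lit 1758168465) (nat_lit 76) (nat_lit 37128034486) (nat_lit 42) (nat_lit 5) (nat_lit 46) (nat_lit 5) (nat_lit 43) (nat_lit 5) (nat_lit 362) (nat_lit 297) (nat_lit 121)) (XT.lf (nat_lit 0) (nat_lit 7424293498) (nat_lit 304) (nat_lit 28441817762) (nat_lit 76) (nat_lit 6037638862) (nat_lit 39) (nat_lit 5) (nat_lit 43) (nat_lit 5) (nat_lit 40) (nat_lit 5) (nat_lit 363) (nat_lit 297) (nat_lit 120))))))))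
noncomputable def xc205 : XT := (XT.nd (nat_lit 35646) (nat_lit 0) (nat_lit 7904) (XT.nd (nat_lit 858) (nat_lit 380) (nat_lit 0) (XT.nd (nat_lit 390) (nat_lit 456) (nat_lit 0) (XT.nd (nat_lit 156) (nat_lit 152) (nat_lit 0) (XT.nd (nat_lit 78) (nat_lit 228) (nat_lit 0) (XT.lf (nat_lit 0) (nat_lit 12958123734) (nat_lit 304) (nat_lit 13713687977) (nat_lit 76) (nat_lit 16172286563) (nat_lit 39) (nat_lit 5) (nat_lit 43) (nat_lit 5) (nat_lit 40) (nat_lit 5) (nat_lit 364) (nat_lit 297) (nat_lit 119)) (XT.lf (nat_lit 0) (nat_lit 1480506107) (nat_lit 228) (nat_lit 17188577537) (nat_lit 304) (nat_lit 25143244221) (nat_lit 36) (nat_lit 5) (nat_lit 39) (nat_lit 5) (nat_lit 40) (nat_lit 5) (nat_lit 365) (nat_lit 297) (nat_lit 118))) (XT.nd (nat_lit 78) (nat_lit 152) (nat_lit 0) (XT.lf (nat_lit 0) (nat_lit 17407019353) (nat_lit 228) (nat_lit 7279763929) (nat_lit 304) (nat_lit 20118763047) (nat_lit 36) (nat_lit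 5) (nat_lit 39) (nat_lit 5) (nat_lit 40) (nat_lit 5) (nat_lit 366) (nat_lit 297) (nat_lit 117)) (XT.nd (nat_lit 78) (nat_lit 152) (nat_lit 0) (XT.lf (nat_lit 0) (nat_lit 30910147935) (nat_lit 304) (nat_lit 12049931137) (nat_lit 76) (nat_lit 2867732441) (nat_lit 36) (nat_lit 5) (nat_lit 40) (nat_lit 5) (nat_lit 37) (nat_lit 5) (nat_lit 367) (nat_lit 297) (nat_lit 116)) (XT.lf (nat_lit 0) (nat_lit 3755901668) (nat_lit 152) (nat_lit 33669584503) (nat_lit 228) (nat_lit 9452104364) (nat_lit 34) (nat_lit 5) (nat_lit 36) (nat_lit 5) (nat_lit 37) (nat_lit 5) (nat_lit 368) (nat_lit 297) (nat_lit 115))))) (XT.nd (nat_lit 234) (nat_lit 152) (nat_lit 0) (XT.nd (nat_lit 78) (nat_lit 304) (nat_lit 0) (XT.lf (nat_lit 0) (nat_lit 20278529508) (nat_lit 152) (nat_lit 23976569966) (nat_lit 228) (nat_lit 3700202953) (nat_lit 34) (nat_lit 5) (nat_lit 36) (nat_lit 5) (nat_lit 37) (nat_lit 5) (nat_lit 369) (nat_lit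 297) (nat_lit 114)) (XT.nd (nat_lit 78) (nat_lit 228) (nat_lit 0) (XT.lf (nat_lit 0) (nat_lit 2178038669) (nat_lit 228) (nat_lit 11794213924) (nat_lit 76) (nat_lit 35092539782) (nat_lit 33) (nat_lit 5) (nat_lit 36) (nat_lit 5) (nat_lit 34) (nat_lit 5) (nat_lit 370) (nat_lit 297) (nat_lit 113)) (XT.lf (nat_lit 0) (nat_lit 4614024812) (nat_lit 228) (nat_lit 3585853498) (nat_lit 304) (nat_lit 42005344616) (nat_lit 30) (nat_lit 5) (nat_lit 33) (nat_lit 5) (nat_lit 34) (nat_lit 5) (nat_lit 371) (nat_lit 297) (nat_lit 112)))) (XT.nd (nat_lit 78) (nat_lit 152) (nat_lit 0) (XT.lf (nat_lit 0) (nat_lit 14588310874) (nat_lit 304) (nat_lit 29693784952) (nat_lit 76) (nat_lit 7092195942) (nat_lit 30) (nat_lit 5) (nat_lit 34) (nat_lit 5) (nat_lit 31) (nat_lit 5) (nat_lit 372) (nat_lit 297) (nat_lit 111)) (XT.nd (nat_lit 78) (nat_lit 152) (nat_lit 0) (XT.lf (nat_lit 0) (nat_lit 21201272619) (nat_lit 304) (nat_lit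 13359056424) (nat_lit 76) (nat_lit 18017120749) (nat_lit 30) (nat_lit 5) (nat_lit 34) (nat_lit 5) (nat_lit 31) (nat_lit 5) (nat_lit 373) (nat_lit 297) (nat_lit 110)) (XT.lf (nat_lit 0) (nat_lit 3530625163) (nat_lit 152) (nat_lit 24513385811) (nat_lit 228) (nat_lit 25771753254) (nat_lit 28) (nat_lit 5) (nat_lit 30) (nat_lit 5) (nat_lit 31) (nat_lit 5) (nat_lit 374) (nat_lit 297) (nat_lit 109)))))) (XT.nd (nat_lit 390) (nat_lit 152) (nat_lit 0) (XT.nd (nat_lit 156) (nat_lit 228) (nat_lit 0) (XT.nd (nat_lit 78) (nat_lit 0) (nat_lit 0) (XT.lf (nat_lit 0) (nat_lit 21196899809) (nat_lit 152) (nat_lit 14027517550) (nat_lit 228) (nat_lit 19862842370) (nat_lit 28) (nat_lit 5) (nat_lit 30) (nat_lit 5) (nat_lit 31) (nat_lit 5) (nat_lit 375) (nat_lit 297) (nat_lit 108)) (XT.lf (nat_lit 0) (nat_lit 39389332646) (nat_lit 152) (nat_lit 3228462127) (nat_lit 228) (nat_lit 13779181672) (nat_lit 28) (nat_lit 5)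 (nat_lit 30) (nat_lit 5) (nat_lit 31) (nat_lit 5) (nat_lit 376) (nat_lit 297) (nat_lit 107))) (XT.nd (nat_lit 78) (nat_lit 76) (nat_lit 0) (XT.lf (nat_lit 0) (nat_lit 307894897) (nat_lit 152) (nat_lit 50001542651) (nat_lit 228) (nat_lit 7434256217) (nat_lit 26) (nat_lit 5) (nat_lit 28) (nat_lit 5) (nat_lit 29) (nat_lit 5) (nat_lit 377) (nat_lit 297) (nat_lit 106)) (XT.nd (nat_lit 78) (nat_lit 76) (nat_lit 0) (XT.lf (nat_lit 0) (nat_lit 18455196040) (nat_lit 152) (nat_lit 39977679419) (nat_lit 228) (nat_lit 691908706) (nat_lit 26) (nat_lit 5) (nat_lit 28) (nat_lit 5) (nat_lit 29) (nat_lit 5) (nat_lit 378) (nat_lit 297) (nat_lit 105)) (XT.lf (nat_lit 0) (nat_lit 6128389815) (nat_lit 228) (nat_lit 23464178192) (nat_lit 76) (nat_lit 30953008087) (nat_lit 25) (nat_lit 5) (nat_lit 28) (nat_lit 5) (nat_lit 26) (nat_lit 5) (nat_lit 379) (nat_lit 297) (nat_lit 104))))) (XT.nd (nat_lit 234) (nat_lit 0)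 (nat_lit 0) (XT.nd (nat_lit 78) (nat_lit 152) (nat_lit 0) (XT.lf (nat_lit 0) (nat_lit 13137151257) (nat_lit 228) (nat_lit 5753031557) (nat_lit 76) (nat_lit 43118673316) (nat_lit 25) (nat_lit 5) (nat_lit 28) (nat_lit 5) (nat_lit 26) (nat_lit 5) (nat_lit 380) (nat_lit 297) (nat_lit 103)) (XT.nd (nat_lit 78) (nat_lit 0) (nat_lit 0) (XT.lf (nat_lit 0) (nat_lit 12734474042) (nat_lit 152) (nat_lit 7741938922) (nat_lit 228) (nat_lit 43036017089) (nat_lit 23) (nat_lit 5) (nat_lit 25) (nat_lit 5) (nat_lit 26) (nat_lit 5) (nat_lit 381) (nat_lit 297) (nat_lit 102)) (XT.lf (nat_lit 0) (nat_lit 28128324179) (nat_lit 228) (nat_lit 33204856917) (nat_lit 76) (nat_lit 3725158481) (nat_lit 23) (nat_lit 5) (nat_lit 26) (nat_lit 5) (nat_lit 24) (nat_lit 5) (nat_lit 382) (nat_lit 297) (nat_lit 101)))) (XT.nd (nat_lit 34008) (nat_lit 0) (nat_lit 9728) (XT.lf (nat_lit 0) (nat_lit 36084352120) (nat_lit 228) (nat_lit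 15184607303) (nat_lit 76) (nat_lit 15379432642) (nat_lit 23) (nat_lit 5) (nat_lit 26) (nat_lit 5) (nat_lit 24) (nat_lit 5) (nat_lit 383) (nat_lit 297) (nat_lit 100)) (XT.nd (nat_lit 78) (nat_lit 1140) (nat_lit 0) (XT.lf (nat_lit 0) (nat_lit 3184035586) (nat_lit 0) (nat_lit 3184035586) (nat_lit 988) (nat_lit 92606007) (nat_lit 166) (nat_lit 5) (nat_lit 166) (nat_lit 3) (nat_lit 179) (nat_lit 3) (nat_lit 298) (nat_lit 298) (nat_lit 184)) (XT.lf (nat_lit 0) (nat_lit 184490209) (nat_lit 1140) (nat_lit 1172670880) (nat_lit 1140) (nat_lit 11746102514) (nat_lit 151) (nat_lit 3) (nat_lit 166) (nat_lit 3) (nat_lit 166) (nat_lit 5) (nat_lit 299) (nat_lit 298) (nat_lit 183))))))) (XT.nd (nat_lit 858) (nat_lit 1900) (nat_lit 0) (XT.nd (nat_lit 390) (nat_lit 0) (nat_lit 152) (XT.nd (nat_lit 156) (nat_lit 0) (nat_lit 76) (XT.nd (nat_lit 78) (nat_lit 0) (nat_lit 0) (XT.lf (nat_lit 0) (nat_lit 626988685) (nat_lit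 1064) (nat_lit 8879965002) (nat_lit 1140) (nat_lit 3781693752) (nat_lit 152) (nat_lit 5) (nat_lit 166) (nat_lit 5) (nat_lit 167) (nat_lit 5) (nat_lit 300) (nat_lit 298) (nat_lit 182)) (XT.lf (nat_lit 0) (nat_lit 1094177367) (nat_lit 1064) (nat_lit 3319154333) (nat_lit 1140) (nat_lit 9065952768) (nat_lit 152) (nat_lit 5) (nat_lit 166) (nat_lit 5) (nat_lit 167) (nat_lit 5) (nat_lit 301) (nat_lit 298) (nat_lit 181))) (XT.nd (nat_lit 78) (nat_lit 0) (nat_lit 0) (XT.lf (nat_lit 0) (nat_lit 1593643855) (nat_lit 1064) (nat_lit 11235058998) (nat_lit 1140) (nat_lit 846423033) (nat_lit 153) (nat_lit 5) (nat_lit 167) (nat_lit 5) (nat_lit 168) (nat_lit 5) (nat_lit 302) (nat_lit 298) (nat_lit 180)) (XT.nd (nat_lit 78) (nat_lit 0) (nat_lit 0) (XT.lf (nat_lit 0) (nat_lit 2172442935) (nat_lit 1064) (nat_lit 5487818234) (nat_lit 1140) (nat_lit 6214683095) (nat_lit 153) (nat_lit 5) (nat_lit 167) (nat_lit 5) (nat_lit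 168) (nat_lit 5) (nat_lit 303) (nat_lit 298) (nat_lit 179)) (XT.lf (nat_lit 76) (nat_lit 432456050) (nat_lit 0) (nat_lit 2327494778) (nat_lit 1140) (nat_lit 11321097262) (nat_lit 154) (nat_lit 5) (nat_lit 153) (nat_lit 5) (nat_lit 168) (nat_lit 5) (nat_lit 304) (nat_lit 298) (nat_lit 178))))) (XT.nd (nat_lit 234) (nat_lit 0) (nat_lit 76) (XT.nd (nat_lit 78) (nat_lit 0) (nat_lit 0) (XT.lf (nat_lit 0) (nat_lit 3439007553) (nat_lit 1064) (nat_lit 7688011474) (nat_lit 1140) (nat_lit 3164128625) (nat_lit 154) (nat_lit 5) (nat_lit 168) (nat_lit 5) (nat_lit 169) (nat_lit 5) (nat_lit 305) (nat_lit 298) (nat_lit 177)) (XT.nd (nat_lit 78) (nat_lit 0) (nat_lit 0) (XT.lf (nat_lit 0) (nat_lit 4149375969) (nat_lit 1064) (nat_lit 1579616583) (nat_lit 1140) (nat_lit 8778258895) (nat_lit 154) (nat_lit 5) (nat_lit 168) (nat_lit 5) (nat_lit 169) (nat_lit 5) (nat_lit 306) (nat_lit 298) (nat_lit 176)) (XT.lf (nat_lit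 76) (nat_lit 4797928227) (nat_lit 0) (nat_lit 117495878) (nat_lit 1140) (nat_lit 9813411781) (nat_lit 155) (nat_lit 5) (nat_lit 154) (nat_lit 5) (nat_lit 169) (nat_lit 5) (nat_lit 307) (nat_lit 298) (nat_lit 175)))) (XT.nd (nat_lit 78) (nat_lit 0) (nat_lit 0) (XT.lf (nat_lit 0) (nat_lit 5763546203) (nat_lit 1064) (nat_lit 3620057338) (nat_lit 1140) (nat_lit 5571719296) (nat_lit 155) (nat_lit 5) (nat_lit 169) (nat_lit 5) (nat_lit 170) (nat_lit 5) (nat_lit 308) (nat_lit 298) (nat_lit 174)) (XT.nd (nat_lit 78) (nat_lit 0) (nat_lit 76) (XT.lf (nat_lit 76) (nat_lit 2928270916) (nat_lit 0) (nat_lit 3727039721) (nat_lit 1140) (nat_lit 8532774748) (nat_lit 156) (nat_lit 5) (nat_lit 155) (nat_lit 5) (nat_lit 170) (nat_lit 5) (nat_lit 309) (nat_lit 298) (nat_lit 173)) (XT.lf (nat_lit 0) (nat_lit 7620090572) (nat_lit 1064) (nat_lit 5708149097) (nat_lit 1140) (nat_lit 2098229426) (nat_lit 156) (nat_lit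 5) (nat_lit 170) (nat_lit 5) (nat_lit 171) (nat_lit 5) (nat_lit 310) (nat_lit 298) (nat_lit 172)))))) (XT.nd (nat_lit 468) (nat_lit 1292) (nat_lit 0) (XT.nd (nat_lit 234) (nat_lit 912) (nat_lit 0) (XT.nd (nat_lit 78) (nat_lit 0) (nat_lit 0) (XT.lf (nat_lit 76) (nat_lit 1015078848) (nat_lit 0) (nat_lit 7634875703) (nat_lit 1140) (nat_lit 7020990946) (nat_lit 157) (nat_lit 5) (nat_lit 156) (nat_lit 5) (nat_lit 171) (nat_lit 5) (nat_lit 311) (nat_lit 298) (nat_lit 171)) (XT.nd (nat_lit 78) (nat_lit 0) (nat_lit 76) (XT.lf (nat_lit 76) (nat_lit 8049198634) (nat_lit 0) (nat_lit 1708869855) (nat_lit 1140) (nat_lit 6163291742) (nat_lit 157) (nat_lit 5) (nat_lit 156) (nat_lit 5) (nat_lit 171) (nat_lit 5) (nat_lit 312) (nat_lit 298) (nat_lit 170)) (XT.lf (nat_lit 0) (nat_lit 10931708074) (nat_lit 1064) (nat_lit 935127435) (nat_lit 1140) (nat_lit 4311507373) (nat_lit 157) (nat_lit 5) (nat_lit 171) (nat_lit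 5) (nat_lit 172) (nat_lit 5) (nat_lit 313) (nat_lit 298) (nat_lit 169)))) (XT.nd (nat_lit 78) (nat_lit 988) (nat_lit 0) (XT.lf (nat_lit 76) (nat_lit 6308495426) (nat_lit 0) (nat_lit 5899947873) (nat_lit 1140) (nat_lit 4232578366) (nat_lit 158) (nat_lit 5) (nat_lit 157) (nat_lit 5) (nat_lit 172) (nat_lit 5) (nat_lit 314) (nat_lit 298) (nat_lit 168)) (XT.nd (nat_lit 78) (nat_lit 1064) (nat_lit 0) (XT.lf (nat_lit 0) (nat_lit 13525933145) (nat_lit 1064) (nat_lit 2933111991) (nat_lit 76) (nat_lit 252484667) (nat_lit 158) (nat_lit 5) (nat_lit 172) (nat_lit 5) (nat_lit 159) (nat_lit 5) (nat_lit 315) (nat_lit 298) (nat_lit 167)) (XT.lf (nat_lit 0) (nat_lit 4504038048) (nat_lit 1064) (nat_lit 10471447648) (nat_lit 1140) (nat_lit 2011913258) (nat_lit 144) (nat_lit 5) (nat_lit 158) (nat_lit 5) (nat_lit 159) (nat_lit 5) (nat_lit 316) (nat_lit 298) (nat_lit 166))))) (XT.nd (nat_lit 234) (nat_lit 532) (nat_lit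 0) (XT.nd (nat_lit 78) (nat_lit 760) (nat_lit 0) (XT.lf (nat_lit 0) (nat_lit 12216782893) (nat_lit 1064) (nat_lit 4272381405) (nat_lit 1140) (nat_lit 781781973) (nat_lit 144) (nat_lit 5) (nat_lit 158) (nat_lit 5) (nat_lit 159) (nat_lit 5) (nat_lit 317) (nat_lit 298) (nat_lit 165)) (XT.nd (nat_lit 78) (nat_lit 0) (nat_lit 0) (XT.lf (nat_lit 0) (nat_lit 512926161) (nat_lit 760) (nat_lit 14945915304) (nat_lit 76) (nat_lit 2102924396) (nat_lit 134) (nat_lit 5) (nat_lit 144) (nat_lit 5) (nat_lit 135) (nat_lit 5) (nat_lit 318) (nat_lit 298) (nat_lit 164)) (XT.lf (nat_lit 0) (nat_lit 1915976553) (nat_lit 760) (nat_lit 7298588262) (nat_lit 76) (nat_lit 8643976059) (nat_lit 134) (nat_lit 5) (nat_lit 144) (nat_lit 5) (nat_lit 135) (nat_lit 5) (nat_lit 319) (nat_lit 298) (nat_lit 163)))) (XT.nd (nat_lit 78) (nat_lit 0) (nat_lit 0) (XT.lf (nat_lit 0) (nat_lit 581908774) (nat_lit 532) (nat_lit 2776425475)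 (nat_lit 608) (nat_lit 14805987314) (nat_lit 127) (nat_lit 5) (nat_lit 134) (nat_lit 5) (nat_lit 135) (nat_lit 5) (nat_lit 320) (nat_lit 298) (nat_lit 162)) (XT.nd (nat_lit 78) (nat_lit 0) (nat_lit 0) (XT.lf (nat_lit 0) (nat_lit 4947249333) (nat_lit 608) (nat_lit 9674216404) (nat_lit 76) (nat_lit 3854729687) (nat_lit 127) (nat_lit 5) (nat_lit 135) (nat_lit 5) (nat_lit 128) (nat_lit 5) (nat_lit 321) (nat_lit 298) (nat_lit 161)) (XT.lf (nat_lit 0) (nat_lit 6603360313) (nat_lit 608) (nat_lit 1563837691) (nat_lit 76) (nat_lit 10629659459) (nat_lit 127) (nat_lit 5) (nat_lit 135) (nat_lit 5) (nat_lit 128) (nat_lit 5) (nat_lit 322) (nat_lit 298) (nat_lit 160))))))))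
noncomputable def xc206 : XT := (XT.nd (nat_lit 1716) (nat_lit 2584) (nat_lit 0) (XT.nd (nat_lit 858) (nat_lit 1900) (nat_lit 0) (XT.nd (nat_lit 390) (nat_lit 988) (nat_lit 0) (XT.nd (nat_lit 156) (nat_lit 912) (nat_lit 0) (XT.nd (nat_lit 78) (nat_lit 0) (nat_lit 0) (XT.lf (nat_lit 0) (nat_lit 6917483814) (nat_lit 532) (nat_lit 1450436848) (nat_lit 608) (nat_lit 10757473016) (nat_lit 120) (nat_lit 5) (nat_lit 127) (nat_lit 5) (nat_lit 128) (nat_lit 5) (nat_lit 323) (nat_lit 298) (nat_lit 159)) (XT.lf (nat_lit 0) (nat_lit 10246354857) (nat_lit 608) (nat_lit 3838254900) (nat_lit 76) (nat_lit 5377364904) (nat_lit 120) (nat_lit 5) (nat_lit 128) (nat_lit 5) (nat_lit 121) (nat_lit 5) (nat_lit 324) (nat_lit 298) (nat_lit 158))) (XT.nd (nat_lit 78) (nat_lit 456) (nat_lit 0) (XT.lf (nat_lit 0) (nat_lit 4855569552) (nat_lit 456) (nat_lit 7379257397) (nat_lit 532) (nat_lit 7572231882) (nat_lit 114) (nat_lit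 5) (nat_lit 120) (nat_lit 5) (nat_lit 121) (nat_lit 5) (nat_lit 325) (nat_lit 298) (nat_lit 157)) (XT.nd (nat_lit 78) (nat_lit 456) (nat_lit 0) (XT.lf (nat_lit 0) (nat_lit 13881651809) (nat_lit 456) (nat_lit 432854176) (nat_lit 532) (nat_lit 5847058787) (nat_lit 114) (nat_lit 5) (nat_lit 120) (nat_lit 5) (nat_lit 121) (nat_lit 5) (nat_lit 326) (nat_lit 298) (nat_lit 156)) (XT.lf (nat_lit 0) (nat_lit 2631289611) (nat_lit 456) (nat_lit 13908198280) (nat_lit 532) (nat_lit 3984745993) (nat_lit 108) (nat_lit 5) (nat_lit 114) (nat_lit 5) (nat_lit 115) (nat_lit 5) (nat_lit 327) (nat_lit 298) (nat_lit 155))))) (XT.nd (nat_lit 234) (nat_lit 456) (nat_lit 0) (XT.nd (nat_lit 78) (nat_lit 532) (nat_lit 0) (XT.lf (nat_lit 0) (nat_lit 11927008882) (nat_lit 456) (nat_lit 6965007130) (nat_lit 532) (nat_lit 2003958075) (nat_lit 108) (nat_lit 5) (nat_lit 114) (nat_lit 5) (nat_lit 115) (nat_lit 5) (nat_lit 328)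 (nat_lit 298) (nat_lit 154)) (XT.nd (nat_lit 78) (nat_lit 0) (nat_lit 0) (XT.lf (nat_lit 0) (nat_lit 32727736) (nat_lit 532) (nat_lit 21061272952) (nat_lit 76) (nat_lit 184953966) (nat_lit 101) (nat_lit 5) (nat_lit 108) (nat_lit 5) (nat_lit 102) (nat_lit 5) (nat_lit 329) (nat_lit 298) (nat_lit 153)) (XT.lf (nat_lit 0) (nat_lit 2244045086) (nat_lit 532) (nat_lit 11903880543) (nat_lit 76) (nat_lit 7520303173) (nat_lit 101) (nat_lit 5) (nat_lit 108) (nat_lit 5) (nat_lit 102) (nat_lit 5) (nat_lit 330) (nat_lit 298) (nat_lit 152)))) (XT.nd (nat_lit 78) (nat_lit 456) (nat_lit 0) (XT.lf (nat_lit 0) (nat_lit 4515277086) (nat_lit 532) (nat_lit 2478812604) (nat_lit 76) (nat_lit 15075297486) (nat_lit 101) (nat_lit 5) (nat_lit 108) (nat_lit 5) (nat_lit 102) (nat_lit 5) (nat_lit 331) (nat_lit 298) (nat_lit 151)) (XT.nd (nat_lit 78) (nat_lit 0) (nat_lit 0) (XT.lf (nat_lit 0) (nat_lit 6923507698) (nat_lit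 532) (nat_lit 15119048340) (nat_lit 76) (nat_lit 437971284) (nat_lit 95) (nat_lit 5) (nat_lit 102) (nat_lit 5) (nat_lit 96) (nat_lit 5) (nat_lit 332) (nat_lit 298) (nat_lit 150)) (XT.lf (nat_lit 0) (nat_lit 9492385175) (nat_lit 532) (nat_lit 5431918238) (nat_lit 76) (nat_lit 7977058757) (nat_lit 95) (nat_lit 5) (nat_lit 102) (nat_lit 5) (nat_lit 96) (nat_lit 5) (nat_lit 333) (nat_lit 298) (nat_lit 149)))))) (XT.nd (nat_lit 390) (nat_lit 1140) (nat_lit 0) (XT.nd (nat_lit 156) (nat_lit 380) (nat_lit 0) (XT.nd (nat_lit 78) (nat_lit 0) (nat_lit 0) (XT.lf (nat_lit 0) (nat_lit 4629401087) (nat_lit 380) (nat_lit 7547479547) (nat_lit 456) (nat_lit 11156797010) (nat_lit 90) (nat_lit 5) (nat_lit 95) (nat_lit 5) (nat_lit 96) (nat_lit 5) (nat_lit 334) (nat_lit 298) (nat_lit 148)) (XT.lf (nat_lit 0) (nat_lit 14991944364) (nat_lit 456) (nat_lit 8681311446) (nat_lit 76) (nat_lit 104217550) (nat_lit 90) (nat_lit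 5) (nat_lit 96) (nat_lit 5) (nat_lit 91) (nat_lit 5) (nat_lit 335) (nat_lit 298) (nat_lit 147))) (XT.nd (nat_lit 78) (nat_lit 0) (nat_lit 0) (XT.lf (nat_lit 0) (nat_lit 1592007648) (nat_lit 380) (nat_lit 16383805291) (nat_lit 456) (nat_lit 6256250853) (nat_lit 85) (nat_lit 5) (nat_lit 90) (nat_lit 5) (nat_lit 91) (nat_lit 5) (nat_lit 336) (nat_lit 298) (nat_lit 146)) (XT.nd (nat_lit 78) (nat_lit 0) (nat_lit 0) (XT.lf (nat_lit 0) (nat_lit 12344876862) (nat_lit 380) (nat_lit 8786408857) (nat_lit 456) (nat_lit 3566554678) (nat_lit 85) (nat_lit 5) (nat_lit 90) (nat_lit 5) (nat_lit 91) (nat_lit 5) (nat_lit 337) (nat_lit 298) (nat_lit 145)) (XT.lf (nat_lit 0) (nat_lit 23413916785) (nat_lit 380) (nat_lit 962092230) (nat_lit 456) (nat_lit 801754474) (nat_lit 85) (nat_lit 5) (nat_lit 90) (nat_lit 5) (nat_lit 91) (nat_lit 5) (nat_lit 338) (nat_lit 298) (nat_lit 144))))) (XT.nd (nat_lit 234) (nat_lit 304)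 (nat_lit 0) (XT.nd (nat_lit 78) (nat_lit 380) (nat_lit 0) (XT.lf (nat_lit 0) (nat_lit 2159418594) (nat_lit 456) (nat_lit 16439895972) (nat_lit 76) (nat_lit 7067589242) (nat_lit 79) (nat_lit 5) (nat_lit 85) (nat_lit 5) (nat_lit 80) (nat_lit 5) (nat_lit 339) (nat_lit 298) (nat_lit 143)) (XT.nd (nat_lit 78) (nat_lit 380) (nat_lit 0) (XT.lf (nat_lit 0) (nat_lit 5215591841) (nat_lit 456) (nat_lit 5610517750) (nat_lit 76) (nat_lit 15343712082) (nat_lit 79) (nat_lit 5) (nat_lit 85) (nat_lit 5) (nat_lit 80) (nat_lit 5) (nat_lit 340) (nat_lit 298) (nat_lit 142)) (XT.lf (nat_lit 0) (nat_lit 5647697558) (nat_lit 380) (nat_lit 2764960346) (nat_lit 456) (nat_lit 18273702519) (nat_lit 74) (nat_lit 5) (nat_lit 79) (nat_lit 5) (nat_lit 80) (nat_lit 5) (nat_lit 341) (nat_lit 298) (nat_lit 141)))) (XT.nd (nat_lit 78) (nat_lit 304) (nat_lit 0) (XT.lf (nat_lit 0) (nat_lit 11811082481) (nat_lit 456) (nat_lit 9918159528)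 (nat_lit 76) (nat_lit 5485999227) (nat_lit 74) (nat_lit 5) (nat_lit 80) (nat_lit 5) (nat_lit 75) (nat_lit 5) (nat_lit 342) (nat_lit 298) (nat_lit 140)) (XT.nd (nat_lit 78) (nat_lit 0) (nat_lit 0) (XT.lf (nat_lit 0) (nat_lit 1532331478) (nat_lit 304) (nat_lit 13816375124) (nat_lit 380) (nat_lit 12410173494) (nat_lit 70) (nat_lit 5) (nat_lit 74) (nat_lit 5) (nat_lit 75) (nat_lit 5) (nat_lit 343) (nat_lit 298) (nat_lit 139)) (XT.lf (nat_lit 0) (nat_lit 13523557194) (nat_lit 304) (nat_lit 5564280424) (nat_lit 380) (nat_lit 9228137924) (nat_lit 70) (nat_lit 5) (nat_lit 74) (nat_lit 5) (nat_lit 75) (nat_lit 5) (nat_lit 344) (nat_lit 298) (nat_lit 138))))))) (XT.nd (nat_lit 858) (nat_lit 1292) (nat_lit 0) (XT.nd (nat_lit 390) (nat_lit 608) (nat_lit 0) (XT.nd (nat_lit 156) (nat_lit 380) (nat_lit 0) (XT.nd (nat_lit 78) (nat_lit 304) (nat_lit 0) (XT.lf (nat_lit 0) (nat_lit 22962710223) (nat_lit 380) (nat_lit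 3049531247) (nat_lit 76) (nat_lit 2876843860) (nat_lit 70) (nat_lit 5) (nat_lit 75) (nat_lit 5) (nat_lit 71) (nat_lit 5) (nat_lit 345) (nat_lit 298) (nat_lit 137)) (XT.lf (nat_lit 0) (nat_lit 9163489048) (nat_lit 304) (nat_lit 17929003330) (nat_lit 380) (nat_lit 2382744392) (nat_lit 66) (nat_lit 5) (nat_lit 70) (nat_lit 5) (nat_lit 71) (nat_lit 5) (nat_lit 346) (nat_lit 298) (nat_lit 136))) (XT.nd (nat_lit 78) (nat_lit 304) (nat_lit 0) (XT.lf (nat_lit 0) (nat_lit 1269077052) (nat_lit 380) (nat_lit 8291036285) (nat_lit 76) (nat_lit 20517703493) (nat_lit 65) (nat_lit 5) (nat_lit 70) (nat_lit 5) (nat_lit 66) (nat_lit 5) (nat_lit 347) (nat_lit 298) (nat_lit 135)) (XT.nd (nat_lit 78) (nat_lit 0) (nat_lit 0) (XT.lf (nat_lit 0) (nat_lit 4141784585) (nat_lit 304) (nat_lit 876232060) (nat_lit 380) (nat_lit 25678693829) (nat_lit 61) (nat_lit 5) (nat_lit 65) (nat_lit 5) (nat_lit 66) (nat_lit 5) (nat_lit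 348) (nat_lit 298) (nat_lit 134)) (XT.lf (nat_lit 0) (nat_lit 9037232537) (nat_lit 380) (nat_lit 14298303850) (nat_lit 76) (nat_lit 7993907639) (nat_lit 61) (nat_lit 5) (nat_lit 66) (nat_lit 5) (nat_lit 62) (nat_lit 5) (nat_lit 349) (nat_lit 298) (nat_lit 133))))) (XT.nd (nat_lit 234) (nat_lit 304) (nat_lit 0) (XT.nd (nat_lit 78) (nat_lit 304) (nat_lit 0) (XT.lf (nat_lit 0) (nat_lit 13181525531) (nat_lit 380) (nat_lit 1688297283) (nat_lit 76) (nat_lit 17111208877) (nat_lit 61) (nat_lit 5) (nat_lit 66) (nat_lit 5) (nat_lit 62) (nat_lit 5) (nat_lit 350) (nat_lit 298) (nat_lit 132)) (XT.nd (nat_lit 78) (nat_lit 0) (nat_lit 0) (XT.lf (nat_lit 0) (nat_lit 11519318536) (nat_lit 304) (nat_lit 6037506176) (nat_lit 380) (nat_lit 15092148870) (nat_lit 57) (nat_lit 5) (nat_lit 61) (nat_lit 5) (nat_lit 62) (nat_lit 5) (nat_lit 351) (nat_lit 298) (nat_lit 131)) (XT.lf (nat_lit 0) (nat_lit 22106011470) (nat_lit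 380) (nat_lit 8213785510) (nat_lit 76) (nat_lit 3015884609) (nat_lit 57) (nat_lit 5) (nat_lit 62) (nat_lit 5) (nat_lit 58) (nat_lit 5) (nat_lit 352) (nat_lit 298) (nat_lit 130)))) (XT.nd (nat_lit 78) (nat_lit 76) (nat_lit 0) (XT.lf (nat_lit 0) (nat_lit 5124406380) (nat_lit 228) (nat_lit 21772419043) (nat_lit 304) (nat_lit 7143017388) (nat_lit 54) (nat_lit 5) (nat_lit 57) (nat_lit 5) (nat_lit 58) (nat_lit 5) (nat_lit 353) (nat_lit 298) (nat_lit 129)) (XT.nd (nat_lit 78) (nat_lit 76) (nat_lit 0) (XT.lf (nat_lit 0) (nat_lit 19025799176) (nat_lit 228) (nat_lit 12884685130) (nat_lit 304) (nat_lit 2852277277) (nat_lit 54) (nat_lit 5) (nat_lit 57) (nat_lit 5) (nat_lit 58) (nat_lit 5) (nat_lit 354) (nat_lit 298) (nat_lit 128)) (XT.lf (nat_lit 0) (nat_lit 1532849562) (nat_lit 304) (nat_lit 2183444053) (nat_lit 76) (nat_lit 31790740953) (nat_lit 53) (nat_lit 5) (nat_lit 57) (nat_lit 5) (nat_lit 54) (nat_lit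 5) (nat_lit 355) (nat_lit 298) (nat_lit 127)))))) (XT.nd (nat_lit 468) (nat_lit 532) (nat_lit 0) (XT.nd (nat_lit 234) (nat_lit 228) (nat_lit 0) (XT.nd (nat_lit 78) (nat_lit 228) (nat_lit 0) (XT.lf (nat_lit 0) (nat_lit 6160146871) (nat_lit 380) (nat_lit 24348845468) (nat_lit 76) (nat_lit 5758763647) (nat_lit 49) (nat_lit 5) (nat_lit 54) (nat_lit 5) (nat_lit 50) (nat_lit 5) (nat_lit 356) (nat_lit 298) (nat_lit 126)) (XT.nd (nat_lit 78) (nat_lit 228) (nat_lit 0) (XT.lf (nat_lit 0) (nat_lit 10981723879) (nat_lit 380) (nat_lit 10603698386) (nat_lit 76) (nat_lit 15464218583) (nat_lit 49) (nat_lit 5) (nat_lit 54) (nat_lit 5) (nat_lit 50) (nat_lit 5) (nat_lit 357) (nat_lit 298) (nat_lit 125)) (XT.lf (nat_lit 0) (nat_lit 3619439469) (nat_lit 228) (nat_lit 12359804865) (nat_lit 304) (nat_lit 21874804499) (nat_lit 46) (nat_lit 5) (nat_lit 49) (nat_lit 5) (nat_lit 50) (nat_lit 5) (nat_lit 358) (nat_lit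 298) (nat_lit 124)))) (XT.nd (nat_lit 78) (nat_lit 228) (nat_lit 0) (XT.lf (nat_lit 0) (nat_lit 18481693885) (nat_lit 228) (nat_lit 2748631266) (nat_lit 304) (nat_lit 17449160168) (nat_lit 46) (nat_lit 5) (nat_lit 49) (nat_lit 5) (nat_lit 50) (nat_lit 5) (nat_lit 359) (nat_lit 298) (nat_lit 123)) (XT.nd (nat_lit 78) (nat_lit 228) (nat_lit 0) (XT.lf (nat_lit 0) (nat_lit 26704321424) (nat_lit 304) (nat_lit 5813497988) (nat_lit 76) (nat_lit 7009909143) (nat_lit 46) (nat_lit 5) (nat_lit 50) (nat_lit 5) (nat_lit 47) (nat_lit 5) (nat_lit 360) (nat_lit 298) (nat_lit 122)) (XT.lf (nat_lit 0) (nat_lit 9148889911) (nat_lit 228) (nat_lit 23305548727) (nat_lit 304) (nat_lit 7943628417) (nat_lit 43) (nat_lit 5) (nat_lit 46) (nat_lit 5) (nat_lit 47) (nat_lit 5) (nat_lit 361) (nat_lit 298) (nat_lit 121))))) (XT.nd (nat_lit 234) (nat_lit 228) (nat_lit 0) (XT.nd (nat_lit 78) (nat_lit 304) (nat_lit 0) (XT.lf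 (nat_lit 0) (nat_lit 24674619034) (nat_lit 228) (nat_lit 13757937120) (nat_lit 304) (nat_lit 2860299506) (nat_lit 43) (nat_lit 5) (nat_lit 46) (nat_lit 5) (nat_lit 47) (nat_lit 5) (nat_lit 362) (nat_lit 298) (nat_lit 120)) (XT.nd (nat_lit 78) (nat_lit 228) (nat_lit 0) (XT.lf (nat_lit 0) (nat_lit 2326023975) (nat_lit 304) (nat_lit 1575834691) (nat_lit 76) (nat_lit 38312043283) (nat_lit 42) (nat_lit 5) (nat_lit 46) (nat_lit 5) (nat_lit 43) (nat_lit 5) (nat_lit 363) (nat_lit 298) (nat_lit 119)) (XT.lf (nat_lit 0) (nat_lit 7805209484) (nat_lit 304) (nat_lit 29058072818) (nat_lit 76) (nat_lit 6292609328) (nat_lit 39) (nat_lit 5) (nat_lit 43) (nat_lit 5) (nat_lit 40) (nat_lit 5) (nat_lit 364) (nat_lit 298) (nat_lit 118)))) (XT.nd (nat_lit 78) (nat_lit 228) (nat_lit 0) (XT.lf (nat_lit 0) (nat_lit 13500447233) (nat_lit 304) (nat_lit 13895002036) (nat_lit 76) (nat_lit 16729145742) (nat_lit 39) (nat_lit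 5) (nat_lit 43) (nat_lit 5) (nat_lit 40) (nat_lit 5) (nat_lit 365) (nat_lit 298) (nat_lit 117)) (XT.nd (nat_lit 78) (nat_lit 0) (nat_lit 0) (XT.lf (nat_lit 0) (nat_lit 1752762021) (nat_lit 228) (nat_lit 17627690867) (nat_lit 304) (nat_lit 25741493469) (nat_lit 36) (nat_lit 5) (nat_lit 39) (nat_lit 5) (nat_lit 40) (nat_lit 5) (nat_lit 366) (nat_lit 298) (nat_lit 116)) (XT.lf (nat_lit 0) (nat_lit 18150434527) (nat_lit 228) (nat_lit 7423842287) (nat_lit 304) (nat_lit 20570822949) (nat_lit 36) (nat_lit 5) (nat_lit 39) (nat_lit 5) (nat_lit 40) (nat_lit 5) (nat_lit 367) (nat_lit 298) (nat_lit 115))))))))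
noncomputable def xc207 : XT := (XT.nd (nat_lit 35802) (nat_lit 0) (nat_lit 6460) (XT.nd (nat_lit 858) (nat_lit 228) (nat_lit 0) (XT.nd (nat_lit 390) (nat_lit 304) (nat_lit 0) (XT.nd (nat_lit 156) (nat_lit 304) (nat_lit 0) (XT.nd (nat_lit 78) (nat_lit 152) (nat_lit 0) (XT.lf (nat_lit 0) (nat_lit 31980757606) (nat_lit 304) (nat_lit 12192882283) (nat_lit 76) (nat_lit 3024506565) (nat_lit 36) (nat_lit 5) (nat_lit 40) (nat_lit 5) (nat_lit 37) (nat_lit 5) (nat_lit 368) (nat_lit 298) (nat_lit 114)) (XT.lf (nat_lit 0) (nat_lit 4084982891) (nat_lit 152) (nat_lit 34604479369) (nat_lit 228) (nat_lit 9590025231) (nat_lit 34) (nat_lit 5) (nat_lit 36) (nat_lit 5) (nat_lit 37) (nat_lit 5) (nat_lit 369) (nat_lit 298) (nat_lit 113))) (XT.nd (nat_lit 78) (nat_lit 304) (nat_lit 0) (XT.lf (nat_lit 0) (nat_lit 21096986532) (nat_lit 152) (nat_lit 24622864473) (nat_lit 228) (nat_lit 3669808786) (nat_lit 34) (nat_lit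 5) (nat_lit 36) (nat_lit 5) (nat_lit 37) (nat_lit 5) (nat_lit 370) (nat_lit 298) (nat_lit 112)) (XT.nd (nat_lit 78) (nat_lit 228) (nat_lit 0) (XT.lf (nat_lit 0) (nat_lit 2377982769) (nat_lit 228) (nat_lit 11941201874) (nat_lit 76) (nat_lit 36213335498) (nat_lit 33) (nat_lit 5) (nat_lit 36) (nat_lit 5) (nat_lit 34) (nat_lit 5) (nat_lit 371) (nat_lit 298) (nat_lit 111)) (XT.lf (nat_lit 0) (nat_lit 4957256197) (nat_lit 228) (nat_lit 3621269694) (nat_lit 304) (nat_lit 43128701451) (nat_lit 30) (nat_lit 5) (nat_lit 33) (nat_lit 5) (nat_lit 34) (nat_lit 5) (nat_lit 372) (nat_lit 298) (nat_lit 110))))) (XT.nd (nat_lit 234) (nat_lit 152) (nat_lit 0) (XT.nd (nat_lit 78) (nat_lit 152) (nat_lit 0) (XT.lf (nat_lit 0) (nat_lit 15155421240) (nat_lit 304) (nat_lit 30382395324) (nat_lit 76) (nat_lit 7373652422) (nat_lit 30) (nat_lit 5) (nat_lit 34) (nat_lit 5) (nat_lit 31) (nat_lit 5) (nat_lit 373) (nat_lit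 298) (nat_lit 109)) (XT.nd (nat_lit 78) (nat_lit 152) (nat_lit 0) (XT.lf (nat_lit 0) (nat_lit 21963001128) (nat_lit 304) (nat_lit 13563514353) (nat_lit 76) (nat_lit 18624324275) (nat_lit 30) (nat_lit 5) (nat_lit 34) (nat_lit 5) (nat_lit 31) (nat_lit 5) (nat_lit 374) (nat_lit 298) (nat_lit 108)) (XT.lf (nat_lit 0) (nat_lit 3830933038) (nat_lit 152) (nat_lit 25178296300) (nat_lit 228) (nat_lit 26417132799) (nat_lit 28) (nat_lit 5) (nat_lit 30) (nat_lit 5) (nat_lit 31) (nat_lit 5) (nat_lit 375) (nat_lit 298) (nat_lit 107)))) (XT.nd (nat_lit 78) (nat_lit 152) (nat_lit 0) (XT.lf (nat_lit 0) (nat_lit 22021534104) (nat_lit 152) (nat_lit 14379905130) (nat_lit 228) (nat_lit 20334676134) (nat_lit 28) (nat_lit 5) (nat_lit 30) (nat_lit 5) (nat_lit 31) (nat_lit 5) (nat_lit 376) (nat_lit 298) (nat_lit 106)) (XT.nd (nat_lit 78) (nat_lit 152) (nat_lit 0) (XT.lf (nat_lit 0) (nat_lit 40754243014) (nat_lit 152)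 (nat_lit 3258871382) (nat_lit 228) (nat_lit 14072118766) (nat_lit 28) (nat_lit 5) (nat_lit 30) (nat_lit 5) (nat_lit 31) (nat_lit 5) (nat_lit 377) (nat_lit 298) (nat_lit 105)) (XT.lf (nat_lit 0) (nat_lit 501550079) (nat_lit 152) (nat_lit 51432947693) (nat_lit 228) (nat_lit 7537888830) (nat_lit 26) (nat_lit 5) (nat_lit 28) (nat_lit 5) (nat_lit 29) (nat_lit 5) (nat_lit 378) (nat_lit 298) (nat_lit 104)))))) (XT.nd (nat_lit 34476) (nat_lit 0) (nat_lit 9728) (XT.nd (nat_lit 234) (nat_lit 152) (nat_lit 0) (XT.nd (nat_lit 78) (nat_lit 76) (nat_lit 0) (XT.lf (nat_lit 0) (nat_lit 19187898848) (nat_lit 152) (nat_lit 41110367823) (nat_lit 228) (nat_lit 596748420) (nat_lit 26) (nat_lit 5) (nat_lit 28) (nat_lit 5) (nat_lit 29) (nat_lit 5) (nat_lit 379) (nat_lit 298) (nat_lit 103)) (XT.nd (nat_lit 78) (nat_lit 0) (nat_lit 0) (XT.lf (nat_lit 0) (nat_lit 6422586731) (nat_lit 228) (nat_lit 23991943096) (nat_lit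 76) (nat_lit 31943970805) (nat_lit 25) (nat_lit 5) (nat_lit 28) (nat_lit 5) (nat_lit 26) (nat_lit 5) (nat_lit 380) (nat_lit 298) (nat_lit 102)) (XT.lf (nat_lit 0) (nat_lit 13638397078) (nat_lit 228) (nat_lit 5754592949) (nat_lit 76) (nat_lit 44472789317) (nat_lit 25) (nat_lit 5) (nat_lit 28) (nat_lit 5) (nat_lit 26) (nat_lit 5) (nat_lit 381) (nat_lit 298) (nat_lit 101)))) (XT.nd (nat_lit 78) (nat_lit 0) (nat_lit 0) (XT.lf (nat_lit 0) (nat_lit 13285861058) (nat_lit 152) (nat_lit 7910483172) (nat_lit 228) (nat_lit 44218164771) (nat_lit 23) (nat_lit 5) (nat_lit 25) (nat_lit 5) (nat_lit 26) (nat_lit 5) (nat_lit 382) (nat_lit 298) (nat_lit 100)) (XT.nd (nat_lit 34086) (nat_lit 0) (nat_lit 9728) (XT.lf (nat_lit 0) (nat_lit 29075330540) (nat_lit 228) (nat_lit 34033979041) (nat_lit 76) (nat_lit 3897564332) (nat_lit 23) (nat_lit 5) (nat_lit 26) (nat_lit 5) (nat_lit 24) (nat_lit 5) (nat_lit 383) (nat_lit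 298) (nat_lit 99)) (XT.lf (nat_lit 0) (nat_lit 271743893) (nat_lit 1140) (nat_lit 3185465421) (nat_lit 1140) (nat_lit 3185465421) (nat_lit 151) (nat_lit 3) (nat_lit 166) (nat_lit 3) (nat_lit 166) (nat_lit 5) (nat_lit 299) (nat_lit 299) (nat_lit 182))))) (XT.nd (nat_lit 234) (nat_lit 0) (nat_lit 152) (XT.nd (nat_lit 78) (nat_lit 0) (nat_lit 76) (XT.lf (nat_lit 0) (nat_lit 899280822) (nat_lit 1140) (nat_lit 841717940) (nat_lit 1140) (nat_lit 11732352523) (nat_lit 151) (nat_lit 3) (nat_lit 166) (nat_lit 3) (nat_lit 166) (nat_lit 5) (nat_lit 300) (nat_lit 299) (nat_lit 181)) (XT.nd (nat_lit 78) (nat_lit 0) (nat_lit 0) (XT.lf (nat_lit 0) (nat_lit 1334713568) (nat_lit 1064) (nat_lit 8758208117) (nat_lit 1140) (nat_lit 3572035634) (nat_lit 152) (nat_lit 5) (nat_lit 166) (nat_lit 5) (nat_lit 167) (nat_lit 5) (nat_lit 301) (nat_lit 299) (nat_lit 180)) (XT.lf (nat_lit 0) (nat_lit 1795852419) (nat_lit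 1064) (nat_lit 3041878638) (nat_lit 1140) (nat_lit 9024233361) (nat_lit 152) (nat_lit 5) (nat_lit 166) (nat_lit 5) (nat_lit 167) (nat_lit 5) (nat_lit 302) (nat_lit 299) (nat_lit 179)))) (XT.nd (nat_lit 78) (nat_lit 0) (nat_lit 0) (XT.lf (nat_lit 0) (nat_lit 2291719234) (nat_lit 1064) (nat_lit 11175091248) (nat_lit 1140) (nat_lit 597475672) (nat_lit 153) (nat_lit 5) (nat_lit 167) (nat_lit 5) (nat_lit 168) (nat_lit 5) (nat_lit 303) (nat_lit 299) (nat_lit 178)) (XT.nd (nat_lit 78) (nat_lit 0) (nat_lit 0) (XT.lf (nat_lit 0) (nat_lit 2868942499) (nat_lit 1064) (nat_lit 5266996937) (nat_lit 1140) (nat_lit 6134774022) (nat_lit 153) (nat_lit 5) (nat_lit 167) (nat_lit 5) (nat_lit 168) (nat_lit 5) (nat_lit 304) (nat_lit 299) (nat_lit 177)) (XT.lf (nat_lit 76) (nat_lit 827106597) (nat_lit 0) (nat_lit 2632249798) (nat_lit 1140) (nat_lit 11024130415) (nat_lit 154) (nat_lit 5) (nat_lit 153) (nat_lit 5) (nat_lit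 168) (nat_lit 5) (nat_lit 305) (nat_lit 299) (nat_lit 176))))))) (XT.nd (nat_lit 858) (nat_lit 3496) (nat_lit 0) (XT.nd (nat_lit 390) (nat_lit 0) (nat_lit 152) (XT.nd (nat_lit 156) (nat_lit 0) (nat_lit 0) (XT.nd (nat_lit 78) (nat_lit 0) (nat_lit 0) (XT.lf (nat_lit 0) (nat_lit 4138632877) (nat_lit 1064) (nat_lit 7526488827) (nat_lit 1140) (nat_lit 3035415743) (nat_lit 154) (nat_lit 5) (nat_lit 168) (nat_lit 5) (nat_lit 169) (nat_lit 5) (nat_lit 306) (nat_lit 299) (nat_lit 175)) (XT.lf (nat_lit 0) (nat_lit 4852939867) (nat_lit 1064) (nat_lit 1246264313) (nat_lit 1140) (nat_lit 8824483612) (nat_lit 154) (nat_lit 5) (nat_lit 168) (nat_lit 5) (nat_lit 169) (nat_lit 5) (nat_lit 307) (nat_lit 299) (nat_lit 174))) (XT.nd (nat_lit 78) (nat_lit 0) (nat_lit 76) (XT.lf (nat_lit 76) (nat_lit 5318874089) (nat_lit 0) (nat_lit 309852905) (nat_lit 1140) (nat_lit 9523631074) (nat_lit 155) (nat_lit 5) (nat_lit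 154) (nat_lit 5) (nat_lit 169) (nat_lit 5) (nat_lit 308) (nat_lit 299) (nat_lit 173)) (XT.nd (nat_lit 78) (nat_lit 0) (nat_lit 0) (XT.lf (nat_lit 0) (nat_lit 6484049673) (nat_lit 1064) (nat_lit 3343060922) (nat_lit 1140) (nat_lit 5559116161) (nat_lit 155) (nat_lit 5) (nat_lit 169) (nat_lit 5) (nat_lit 170) (nat_lit 5) (nat_lit 309) (nat_lit 299) (nat_lit 172)) (XT.lf (nat_lit 76) (nat_lit 3397936805) (nat_lit 0) (nat_lit 3992351070) (nat_lit 1140) (nat_lit 8236091355) (nat_lit 156) (nat_lit 5) (nat_lit 155) (nat_lit 5) (nat_lit 170) (nat_lit 5) (nat_lit 310) (nat_lit 299) (nat_lit 171))))) (XT.nd (nat_lit 234) (nat_lit 0) (nat_lit 76) (XT.nd (nat_lit 78) (nat_lit 0) (nat_lit 0) (XT.lf (nat_lit 0) (nat_lit 8366986864) (nat_lit 1064) (nat_lit 5490420739) (nat_lit 1140) (nat_lit 2015055127) (nat_lit 156) (nat_lit 5) (nat_lit 170) (nat_lit 5) (nat_lit 171) (nat_lit 5) (nat_lit 311) (nat_lit 299)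 (nat_lit 170)) (XT.nd (nat_lit 78) (nat_lit 0) (nat_lit 0) (XT.lf (nat_lit 76) (nat_lit 1430690585) (nat_lit 0) (nat_lit 7985662636) (nat_lit 1140) (nat_lit 6708298465) (nat_lit 157) (nat_lit 5) (nat_lit 156) (nat_lit 5) (nat_lit 171) (nat_lit 5) (nat_lit 312) (nat_lit 299) (nat_lit 169)) (XT.lf (nat_lit 76) (nat_lit 8664615730) (nat_lit 0) (nat_lit 1878330768) (nat_lit 1140) (nat_lit 5840110680) (nat_lit 157) (nat_lit 5) (nat_lit 156) (nat_lit 5) (nat_lit 171) (nat_lit 5) (nat_lit 313) (nat_lit 299) (nat_lit 168)))) (XT.nd (nat_lit 78) (nat_lit 0) (nat_lit 0) (XT.lf (nat_lit 0) (nat_lit 11736358145) (nat_lit 1064) (nat_lit 583549066) (nat_lit 1140) (nat_lit 4328339574) (nat_lit 157) (nat_lit 5) (nat_lit 171) (nat_lit 5) (nat_lit 172) (nat_lit 5) (nat_lit 314) (nat_lit 299) (nat_lit 167)) (XT.nd (nat_lit 78) (nat_lit 0) (nat_lit 76) (XT.lf (nat_lit 76) (nat_lit 6873660597) (nat_lit 0) (nat_lit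 6167463878) (nat_lit 1140) (nat_lit 3878022947) (nat_lit 158) (nat_lit 5) (nat_lit 157) (nat_lit 5) (nat_lit 172) (nat_lit 5) (nat_lit 315) (nat_lit 299) (nat_lit 166)) (XT.lf (nat_lit 0) (nat_lit 14383708971) (nat_lit 1064) (nat_lit 2640634174) (nat_lit 76) (nat_lit 173892949) (nat_lit 158) (nat_lit 5) (nat_lit 172) (nat_lit 5) (nat_lit 159) (nat_lit 5) (nat_lit 316) (nat_lit 299) (nat_lit 165)))))) (XT.nd (nat_lit 468) (nat_lit 1444) (nat_lit 0) (XT.nd (nat_lit 234) (nat_lit 532) (nat_lit 0) (XT.nd (nat_lit 78) (nat_lit 760) (nat_lit 0) (XT.lf (nat_lit 0) (nat_lit 5015900256) (nat_lit 1064) (nat_lit 10851304323) (nat_lit 1140) (nat_lit 1615494495) (nat_lit 144) (nat_lit 5) (nat_lit 158) (nat_lit 5) (nat_lit 159) (nat_lit 5) (nat_lit 317) (nat_lit 299) (nat_lit 164)) (XT.nd (nat_lit 78) (nat_lit 760) (nat_lit 0) (XT.lf (nat_lit 0) (nat_lit 12949054405) (nat_lit 1064) (nat_lit 4464352114) (nat_lit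 1140) (nat_lit 361763430) (nat_lit 144) (nat_lit 5) (nat_lit 158) (nat_lit 5) (nat_lit 159) (nat_lit 5) (nat_lit 318) (nat_lit 299) (nat_lit 163)) (XT.lf (nat_lit 0) (nat_lit 953521833) (nat_lit 760) (nat_lit 15008313306) (nat_lit 76) (nat_lit 2113068193) (nat_lit 134) (nat_lit 5) (nat_lit 144) (nat_lit 5) (nat_lit 135) (nat_lit 5) (nat_lit 319) (nat_lit 299) (nat_lit 162)))) (XT.nd (nat_lit 78) (nat_lit 532) (nat_lit 0) (XT.lf (nat_lit 0) (nat_lit 2386279041) (nat_lit 760) (nat_lit 7142808572) (nat_lit 76) (nat_lit 8851893462) (nat_lit 134) (nat_lit 5) (nat_lit 144) (nat_lit 5) (nat_lit 135) (nat_lit 5) (nat_lit 320) (nat_lit 299) (nat_lit 161)) (XT.nd (nat_lit 78) (nat_lit 0) (nat_lit 0) (XT.lf (nat_lit 0) (nat_lit 970429480) (nat_lit 532) (nat_lit 2893020900) (nat_lit 608) (nat_lit 14832765643) (nat_lit 127) (nat_lit 5) (nat_lit 134) (nat_lit 5) (nat_lit 135) (nat_lit 5) (nat_lit 321) (nat_lit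 299) (nat_lit 160)) (XT.lf (nat_lit 0) (nat_lit 5487944462) (nat_lit 608) (nat_lit 9591220804) (nat_lit 76) (nat_lit 3938669824) (nat_lit 127) (nat_lit 5) (nat_lit 135) (nat_lit 5) (nat_lit 128) (nat_lit 5) (nat_lit 322) (nat_lit 299) (nat_lit 159))))) (XT.nd (nat_lit 234) (nat_lit 912) (nat_lit 0) (XT.nd (nat_lit 78) (nat_lit 532) (nat_lit 0) (XT.lf (nat_lit 0) (nat_lit 7182313208) (nat_lit 608) (nat_lit 1248401275) (nat_lit 76) (nat_lit 10917770841) (nat_lit 127) (nat_lit 5) (nat_lit 135) (nat_lit 5) (nat_lit 128) (nat_lit 5) (nat_lit 323) (nat_lit 299) (nat_lit 158)) (XT.nd (nat_lit 78) (nat_lit 0) (nat_lit 0) (XT.lf (nat_lit 0) (nat_lit 7483807408) (nat_lit 532) (nat_lit 1508359176) (nat_lit 608) (nat_lit 10694965180) (nat_lit 120) (nat_lit 5) (nat_lit 127) (nat_lit 5) (nat_lit 128) (nat_lit 5) (nat_lit 324) (nat_lit 299) (nat_lit 157)) (XT.lf (nat_lit 0) (nat_lit 10915949185) (nat_lit 608)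 (nat_lit 3593245931) (nat_lit 76) (nat_lit 5524969300) (nat_lit 120) (nat_lit 5) (nat_lit 128) (nat_lit 5) (nat_lit 121) (nat_lit 5) (nat_lit 325) (nat_lit 299) (nat_lit 156)))) (XT.nd (nat_lit 78) (nat_lit 456) (nat_lit 0) (XT.lf (nat_lit 0) (nat_lit 5357862307) (nat_lit 456) (nat_lit 7599091616) (nat_lit 532) (nat_lit 7432884234) (nat_lit 114) (nat_lit 5) (nat_lit 120) (nat_lit 5) (nat_lit 121) (nat_lit 5) (nat_lit 326) (nat_lit 299) (nat_lit 155)) (XT.nd (nat_lit 78) (nat_lit 456) (nat_lit 0) (XT.lf (nat_lit 0) (nat_lit 14644339876) (nat_lit 456) (nat_lit 444341255) (nat_lit 532) (nat_lit 5666631130) (nat_lit 114) (nat_lit 5) (nat_lit 120) (nat_lit 5) (nat_lit 121) (nat_lit 5) (nat_lit 327) (nat_lit 299) (nat_lit 154)) (XT.lf (nat_lit 0) (nat_lit 3064048690) (nat_lit 456) (nat_lit 14309737957) (nat_lit 532) (nat_lit 3755295630) (nat_lit 108) (nat_lit 5) (nat_lit 114) (nat_lit 5) (nat_lit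 115) (nat_lit 5) (nat_lit 328) (nat_lit 299) (nat_lit 153))))))))
noncomputable def xc208 : XT := (XT.nd (nat_lit 1716) (nat_lit 2356) (nat_lit 0) (XT.nd (nat_lit 858) (nat_lit 1824) (nat_lit 0) (XT.nd (nat_lit 390) (nat_lit 760) (nat_lit 0) (XT.nd (nat_lit 156) (nat_lit 456) (nat_lit 0) (XT.nd (nat_lit 78) (nat_lit 532) (nat_lit 0) (XT.lf (nat_lit 0) (nat_lit 12628334091) (nat_lit 456) (nat_lit 7158708537) (nat_lit 532) (nat_lit 1725248911) (nat_lit 108) (nat_lit 5) (nat_lit 114) (nat_lit 5) (nat_lit 115) (nat_lit 5) (nat_lit 329) (nat_lit 299) (nat_lit 152)) (XT.lf (nat_lit 0) (nat_lit 359795437) (nat_lit 532) (nat_lit 21335488350) (nat_lit 76) (nat_lit 211584119) (nat_lit 101) (nat_lit 5) (nat_lit 108) (nat_lit 5) (nat_lit 102) (nat_lit 5) (nat_lit 330) (nat_lit 299) (nat_lit 151))) (XT.nd (nat_lit 78) (nat_lit 456) (nat_lit 0) (XT.lf (nat_lit 0) (nat_lit 2627954660) (nat_lit 532) (nat_lit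 11913790367) (nat_lit 76) (nat_lit 7766379776) (nat_lit 101) (nat_lit 5) (nat_lit 108) (nat_lit 5) (nat_lit 102) (nat_lit 5) (nat_lit 331) (nat_lit 299) (nat_lit 150)) (XT.nd (nat_lit 78) (nat_lit 456) (nat_lit 0) (XT.lf (nat_lit 0) (nat_lit 4958102604) (nat_lit 532) (nat_lit 2216083202) (nat_lit 76) (nat_lit 15547427778) (nat_lit 101) (nat_lit 5) (nat_lit 108) (nat_lit 5) (nat_lit 102) (nat_lit 5) (nat_lit 332) (nat_lit 299) (nat_lit 149)) (XT.lf (nat_lit 0) (nat_lit 7433145470) (nat_lit 532) (nat_lit 15229475628) (nat_lit 76) (nat_lit 482648348) (nat_lit 95) (nat_lit 5) (nat_lit 102) (nat_lit 5) (nat_lit 96) (nat_lit 5) (nat_lit 333) (nat_lit 299) (nat_lit 148))))) (XT.nd (nat_lit 234) (nat_lit 380) (nat_lit 0) (XT.nd (nat_lit 78) (nat_lit 380) (nat_lit 0) (XT.lf (nat_lit 0) (nat_lit 10070295120) (nat_lit 532) (nat_lit 5261726113) (nat_lit 76) (nat_lit 8246989865) (nat_lit 95) (nat_lit 5)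 (nat_lit 102) (nat_lit 5) (nat_lit 96) (nat_lit 5) (nat_lit 334) (nat_lit 299) (nat_lit 147)) (XT.nd (nat_lit 78) (nat_lit 0) (nat_lit 0) (XT.lf (nat_lit 0) (nat_lit 5098166619) (nat_lit 380) (nat_lit 7731791855) (nat_lit 456) (nat_lit 11194515983) (nat_lit 90) (nat_lit 5) (nat_lit 95) (nat_lit 5) (nat_lit 96) (nat_lit 5) (nat_lit 335) (nat_lit 299) (nat_lit 146)) (XT.lf (nat_lit 0) (nat_lit 15721485440) (nat_lit 456) (nat_lit 8612923403) (nat_lit 76) (nat_lit 147431766) (nat_lit 90) (nat_lit 5) (nat_lit 96) (nat_lit 5) (nat_lit 91) (nat_lit 5) (nat_lit 336) (nat_lit 299) (nat_lit 145)))) (XT.nd (nat_lit 78) (nat_lit 0) (nat_lit 0) (XT.lf (nat_lit 0) (nat_lit 1965371467) (nat_lit 380) (nat_lit 16824479495) (nat_lit 456) (nat_lit 6160384778) (nat_lit 85) (nat_lit 5) (nat_lit 90) (nat_lit 5) (nat_lit 91) (nat_lit 5) (nat_lit 337) (nat_lit 299) (nat_lit 144)) (XT.nd (nat_lit 78) (nat_lit 0) (nat_lit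 0) (XT.lf (nat_lit 0) (nat_lit 13031343157) (nat_lit 380) (nat_lit 9000641943) (nat_lit 456) (nat_lit 3398256560) (nat_lit 85) (nat_lit 5) (nat_lit 90) (nat_lit 5) (nat_lit 91) (nat_lit 5) (nat_lit 338) (nat_lit 299) (nat_lit 143)) (XT.lf (nat_lit 0) (nat_lit 24423246899) (nat_lit 380) (nat_lit 943033463) (nat_lit 456) (nat_lit 558530643) (nat_lit 85) (nat_lit 5) (nat_lit 90) (nat_lit 5) (nat_lit 91) (nat_lit 5) (nat_lit 339) (nat_lit 299) (nat_lit 142)))))) (XT.nd (nat_lit 390) (nat_lit 684) (nat_lit 0) (XT.nd (nat_lit 156) (nat_lit 684) (nat_lit 0) (XT.nd (nat_lit 78) (nat_lit 0) (nat_lit 0) (XT.lf (nat_lit 0) (nat_lit 2482106357) (nat_lit 456) (nat_lit 16615822291) (nat_lit 76) (nat_lit 7330759064) (nat_lit 79) (nat_lit 5) (nat_lit 85) (nat_lit 5) (nat_lit 80) (nat_lit 5) (nat_lit 340) (nat_lit 299) (nat_lit 141)) (XT.lf (nat_lit 0) (nat_lit 5622452999) (nat_lit 456) (nat_lit 5470803612)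 (nat_lit 76) (nat_lit 15853676012) (nat_lit 79) (nat_lit 5) (nat_lit 85) (nat_lit 5) (nat_lit 80) (nat_lit 5) (nat_lit 341) (nat_lit 299) (nat_lit 140))) (XT.nd (nat_lit 78) (nat_lit 304) (nat_lit 0) (XT.lf (nat_lit 0) (nat_lit 6122138256) (nat_lit 380) (nat_lit 2788931716) (nat_lit 456) (nat_lit 18568042140) (nat_lit 74) (nat_lit 5) (nat_lit 79) (nat_lit 5) (nat_lit 80) (nat_lit 5) (nat_lit 342) (nat_lit 299) (nat_lit 139)) (XT.nd (nat_lit 78) (nat_lit 304) (nat_lit 0) (XT.lf (nat_lit 0) (nat_lit 12404831711) (nat_lit 456) (nat_lit 9912517938) (nat_lit 76) (nat_lit 5706721512) (nat_lit 74) (nat_lit 5) (nat_lit 80) (nat_lit 5) (nat_lit 75) (nat_lit 5) (nat_lit 343) (nat_lit 299) (nat_lit 138)) (XT.lf (nat_lit 0) (nat_lit 1878515383) (nat_lit 304) (nat_lit 14165981710) (nat_lit 380) (nat_lit 12539657674) (nat_lit 70) (nat_lit 5) (nat_lit 74) (nat_lit 5) (nat_lit 75) (nat_lit 5) (nat_lit 344)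 (nat_lit 299) (nat_lit 137))))) (XT.nd (nat_lit 234) (nat_lit 380) (nat_lit 0) (XT.nd (nat_lit 78) (nat_lit 304) (nat_lit 0) (XT.lf (nat_lit 0) (nat_lit 14220733774) (nat_lit 304) (nat_lit 5668214014) (nat_lit 380) (nat_lit 9269233494) (nat_lit 70) (nat_lit 5) (nat_lit 74) (nat_lit 5) (nat_lit 75) (nat_lit 5) (nat_lit 345) (nat_lit 299) (nat_lit 136)) (XT.nd (nat_lit 78) (nat_lit 304) (nat_lit 0) (XT.lf (nat_lit 0) (nat_lit 23873999866) (nat_lit 380) (nat_lit 2851562966) (nat_lit 76) (nat_lit 3023115745) (nat_lit 70) (nat_lit 5) (nat_lit 75) (nat_lit 5) (nat_lit 71) (nat_lit 5) (nat_lit 346) (nat_lit 299) (nat_lit 135)) (XT.lf (nat_lit 0) (nat_lit 9725010152) (nat_lit 304) (nat_lit 18398942554) (nat_lit 380) (nat_lit 2228585394) (nat_lit 66) (nat_lit 5) (nat_lit 70) (nat_lit 5) (nat_lit 71) (nat_lit 5) (nat_lit 347) (nat_lit 299) (nat_lit 134)))) (XT.nd (nat_lit 78) (nat_lit 304) (nat_lit 0)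 (XT.lf (nat_lit 0) (nat_lit 1521943785) (nat_lit 380) (nat_lit 8256851642) (nat_lit 76) (nat_lit 21194539555) (nat_lit 65) (nat_lit 5) (nat_lit 70) (nat_lit 5) (nat_lit 66) (nat_lit 5) (nat_lit 348) (nat_lit 299) (nat_lit 133)) (XT.nd (nat_lit 78) (nat_lit 0) (nat_lit 0) (XT.lf (nat_lit 0) (nat_lit 4546180170) (nat_lit 304) (nat_lit 833608145) (nat_lit 380) (nat_lit 26231124869) (nat_lit 61) (nat_lit 5) (nat_lit 65) (nat_lit 5) (nat_lit 66) (nat_lit 5) (nat_lit 349) (nat_lit 299) (nat_lit 132)) (XT.lf (nat_lit 0) (nat_lit 9514071439) (nat_lit 380) (nat_lit 14449410015) (nat_lit 76) (nat_lit 8299323099) (nat_lit 61) (nat_lit 5) (nat_lit 66) (nat_lit 5) (nat_lit 62) (nat_lit 5) (nat_lit 350) (nat_lit 299) (nat_lit 131))))))) (XT.nd (nat_lit 858) (nat_lit 1216) (nat_lit 0) (XT.nd (nat_lit 390) (nat_lit 608) (nat_lit 0) (XT.nd (nat_lit 156) (nat_lit 228) (nat_lit 0) (XT.nd (nat_lit 78) (nat_lit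 304) (nat_lit 0) (XT.lf (nat_lit 0) (nat_lit 13776701322) (nat_lit 380) (nat_lit 1469195764) (nat_lit 76) (nat_lit 17688232746) (nat_lit 61) (nat_lit 5) (nat_lit 66) (nat_lit 5) (nat_lit 62) (nat_lit 5) (nat_lit 351) (nat_lit 299) (nat_lit 130)) (XT.lf (nat_lit 0) (nat_lit 12132003918) (nat_lit 304) (nat_lit 6148005766) (nat_lit 380) (nat_lit 15342207720) (nat_lit 57) (nat_lit 5) (nat_lit 61) (nat_lit 5) (nat_lit 62) (nat_lit 5) (nat_lit 352) (nat_lit 299) (nat_lit 129))) (XT.nd (nat_lit 78) (nat_lit 228) (nat_lit 0) (XT.lf (nat_lit 0) (nat_lit 22960608443) (nat_lit 380) (nat_lit 8195488090) (nat_lit 76) (nat_lit 3173591667) (nat_lit 57) (nat_lit 5) (nat_lit 62) (nat_lit 5) (nat_lit 58) (nat_lit 5) (nat_lit 353) (nat_lit 299) (nat_lit 128)) (XT.nd (nat_lit 78) (nat_lit 0) (nat_lit 0) (XT.lf (nat_lit 0) (nat_lit 5540254351) (nat_lit 228) (nat_lit 22351836838) (nat_lit 304) (nat_lit 7162984096)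 (nat_lit 54) (nat_lit 5) (nat_lit 57) (nat_lit 5) (nat_lit 58) (nat_lit 5) (nat_lit 354) (nat_lit 299) (nat_lit 127)) (XT.lf (nat_lit 0) (nat_lit 19851054491) (nat_lit 228) (nat_lit 13199619105) (nat_lit 304) (nat_lit 2749181699) (nat_lit 54) (nat_lit 5) (nat_lit 57) (nat_lit 5) (nat_lit 58) (nat_lit 5) (nat_lit 355) (nat_lit 299) (nat_lit 126))))) (XT.nd (nat_lit 234) (nat_lit 228) (nat_lit 0) (XT.nd (nat_lit 78) (nat_lit 304) (nat_lit 0) (XT.lf (nat_lit 0) (nat_lit 1758429597) (nat_lit 304) (nat_lit 1998018324) (nat_lit 76) (nat_lit 32810124342) (nat_lit 53) (nat_lit 5) (nat_lit 57) (nat_lit 5) (nat_lit 54) (nat_lit 5) (nat_lit 356) (nat_lit 299) (nat_lit 125)) (XT.nd (nat_lit 78) (nat_lit 0) (nat_lit 0) (XT.lf (nat_lit 0) (nat_lit 6522392739) (nat_lit 380) (nat_lit 24825951504) (nat_lit 76) (nat_lit 6001843989) (nat_lit 49) (nat_lit 5) (nat_lit 54) (nat_lit 5) (nat_lit 50) (nat_lit 5) (nat_lit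 357) (nat_lit 299) (nat_lit 124)) (XT.lf (nat_lit 0) (nat_lit 11483448859) (nat_lit 380) (nat_lit 10675829408) (nat_lit 76) (nat_lit 15996414493) (nat_lit 49) (nat_lit 5) (nat_lit 54) (nat_lit 5) (nat_lit 50) (nat_lit 5) (nat_lit 358) (nat_lit 299) (nat_lit 123)))) (XT.nd (nat_lit 78) (nat_lit 0) (nat_lit 0) (XT.lf (nat_lit 0) (nat_lit 3971591015) (nat_lit 228) (nat_lit 12656627573) (nat_lit 304) (nat_lit 22356102525) (nat_lit 46) (nat_lit 5) (nat_lit 49) (nat_lit 5) (nat_lit 50) (nat_lit 5) (nat_lit 359) (nat_lit 299) (nat_lit 122)) (XT.nd (nat_lit 78) (nat_lit 0) (nat_lit 0) (XT.lf (nat_lit 0) (nat_lit 19272618839) (nat_lit 228) (nat_lit 2759273274) (nat_lit 304) (nat_lit 17802784382) (nat_lit 46) (nat_lit 5) (nat_lit 49) (nat_lit 5) (nat_lit 50) (nat_lit 5) (nat_lit 360) (nat_lit 299) (nat_lit 121)) (XT.lf (nat_lit 0) (nat_lit 27665982674) (nat_lit 304) (nat_lit 5753944507) (nat_lit 76) (nat_lit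 7288571004) (nat_lit 46) (nat_lit 5) (nat_lit 50) (nat_lit 5) (nat_lit 47) (nat_lit 5) (nat_lit 361) (nat_lit 299) (nat_lit 120)))))) (XT.nd (nat_lit 468) (nat_lit 456) (nat_lit 0) (XT.nd (nat_lit 234) (nat_lit 456) (nat_lit 0) (XT.nd (nat_lit 78) (nat_lit 76) (nat_lit 0) (XT.lf (nat_lit 0) (nat_lit 9655021319) (nat_lit 228) (nat_lit 23931133310) (nat_lit 304) (nat_lit 8018872846) (nat_lit 43) (nat_lit 5) (nat_lit 46) (nat_lit 5) (nat_lit 47) (nat_lit 5) (nat_lit 362) (nat_lit 299) (nat_lit 119)) (XT.nd (nat_lit 78) (nat_lit 76) (nat_lit 0) (XT.lf (nat_lit 0) (nat_lit 25639774800) (nat_lit 228) (nat_lit 14099236516) (nat_lit 304) (nat_lit 2787793517) (nat_lit 43) (nat_lit 5) (nat_lit 46) (nat_lit 5) (nat_lit 47) (nat_lit 5) (nat_lit 363) (nat_lit 299) (nat_lit 118)) (XT.lf (nat_lit 0) (nat_lit 2546509237) (nat_lit 304) (nat_lit 1401525391) (nat_lit 76) (nat_lit 39527544428) (nat_lit 42) (nat_lit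 5) (nat_lit 46) (nat_lit 5) (nat_lit 43) (nat_lit 5) (nat_lit 364) (nat_lit 299) (nat_lit 117)))) (XT.nd (nat_lit 78) (nat_lit 228) (nat_lit 0) (XT.lf (nat_lit 0) (nat_lit 8188472358) (nat_lit 304) (nat_lit 29706420265) (nat_lit 76) (nat_lit 6550990115) (nat_lit 39) (nat_lit 5) (nat_lit 43) (nat_lit 5) (nat_lit 40) (nat_lit 5) (nat_lit 365) (nat_lit 299) (nat_lit 116)) (XT.nd (nat_lit 78) (nat_lit 228) (nat_lit 0) (XT.lf (nat_lit 0) (nat_lit 14050224329) (nat_lit 304) (nat_lit 14094964003) (nat_lit 76) (nat_lit 17298595364) (nat_lit 39) (nat_lit 5) (nat_lit 43) (nat_lit 5) (nat_lit 40) (nat_lit 5) (nat_lit 366) (nat_lit 299) (nat_lit 115)) (XT.lf (nat_lit 0) (nat_lit 2020106623) (nat_lit 228) (nat_lit 18084371534) (nat_lit 304) (nat_lit 26366647992) (nat_lit 36) (nat_lit 5) (nat_lit 39) (nat_lit 5) (nat_lit 40) (nat_lit 5) (nat_lit 367) (nat_lit 299) (nat_lit 114))))) (XT.nd (nat_lit 234) (nat_lit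 304) (nat_lit 0) (XT.nd (nat_lit 78) (nat_lit 152) (nat_lit 0) (XT.lf (nat_lit 0) (nat_lit 18903454107) (nat_lit 228) (nat_lit 7576508956) (nat_lit 304) (nat_lit 21045141540) (nat_lit 36) (nat_lit 5) (nat_lit 39) (nat_lit 5) (nat_lit 40) (nat_lit 5) (nat_lit 368) (nat_lit 299) (nat_lit 113)) (XT.nd (nat_lit 78) (nat_lit 152) (nat_lit 0) (XT.lf (nat_lit 0) (nat_lit 33075259260) (nat_lit 304) (nat_lit 12352667442) (nat_lit 76) (nat_lit 3181923024) (nat_lit 36) (nat_lit 5) (nat_lit 40) (nat_lit 5) (nat_lit 37) (nat_lit 5) (nat_lit 369) (nat_lit 299) (nat_lit 112)) (XT.lf (nat_lit 0) (nat_lit 4411514066) (nat_lit 152) (nat_lit 35571737447) (nat_lit 228) (nat_lit 9740444186) (nat_lit 34) (nat_lit 5) (nat_lit 36) (nat_lit 5) (nat_lit 37) (nat_lit 5) (nat_lit 370) (nat_lit 299) (nat_lit 111)))) (XT.nd (nat_lit 78) (nat_lit 304) (nat_lit 0) (XT.lf (nat_lit 0) (nat_lit 21927936602) (nat_lit 152) (nat_lit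 25292738463) (nat_lit 228) (nat_lit 3646619746) (nat_lit 34) (nat_lit 5) (nat_lit 36) (nat_lit 5) (nat_lit 37) (nat_lit 5) (nat_lit 371) (nat_lit 299) (nat_lit 110)) (XT.nd (nat_lit 78) (nat_lit 228) (nat_lit 0) (XT.lf (nat_lit 0) (nat_lit 2576198433) (nat_lit 228) (nat_lit 12104472836) (nat_lit 76) (nat_lit 37363850487) (nat_lit 33) (nat_lit 5) (nat_lit 36) (nat_lit 5) (nat_lit 34) (nat_lit 5) (nat_lit 372) (nat_lit 299) (nat_lit 109)) (XT.lf (nat_lit 0) (nat_lit 5299027554) (nat_lit 228) (nat_lit 3661890621) (nat_lit 304) (nat_lit 44293612072) (nat_lit 30) (nat_lit 5) (nat_lit 33) (nat_lit 5) (nat_lit 34) (nat_lit 5) (nat_lit 373) (nat_lit 299) (nat_lit 108))))))))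
noncomputable def xc209 : XT := (XT.nd (nat_lit 35880) (nat_lit 0) (nat_lit 5320) (XT.nd (nat_lit 35022) (nat_lit 0) (nat_lit 9652) (XT.nd (nat_lit 390) (nat_lit 228) (nat_lit 0) (XT.nd (nat_lit 156) (nat_lit 152) (nat_lit 0) (XT.nd (nat_lit 78) (nat_lit 0) (nat_lit 0) (XT.lf (nat_lit 0) (nat_lit 15732113324) (nat_lit 304) (nat_lit 31103271296) (nat_lit 76) (nat_lit 7659609474) (nat_lit 30) (nat_lit 5) (nat_lit 34) (nat_lit 5) (nat_lit 31) (nat_lit 5) (nat_lit 374) (nat_lit 299) (nat_lit 107)) (XT.lf (nat_lit 0) (nat_lit 22740366353) (nat_lit 304) (nat_lit 13785375233) (nat_lit 76) (nat_lit 19245915634) (nat_lit 30) (nat_lit 5) (nat_lit 34) (nat_lit 5) (nat_lit 31) (nat_lit 5) (nat_lit 375) (nat_lit 299) (nat_lit 106))) (XT.nd (nat_lit 78) (nat_lit 0) (nat_lit 0) (XT.lf (nat_lit 0) (nat_lit 4129091417) (nat_lit 152) (nat_lit 25867200581) (nat_lit 228) (nat_lit 27089208426) (nat_lit 28) (nat_lit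 5) (nat_lit 30) (nat_lit 5) (nat_lit 31) (nat_lit 5) (nat_lit 376) (nat_lit 299) (nat_lit 105)) (XT.nd (nat_lit 78) (nat_lit 0) (nat_lit 0) (XT.lf (nat_lit 0) (nat_lit 22860073708) (nat_lit 152) (nat_lit 14746792955) (nat_lit 228) (nat_lit 20827785975) (nat_lit 28) (nat_lit 5) (nat_lit 30) (nat_lit 5) (nat_lit 31) (nat_lit 5) (nat_lit 377) (nat_lit 299) (nat_lit 104)) (XT.lf (nat_lit 0) (nat_lit 42149582519) (nat_lit 152) (nat_lit 3294007108) (nat_lit 228) (nat_lit 14380757627) (nat_lit 28) (nat_lit 5) (nat_lit 30) (nat_lit 5) (nat_lit 31) (nat_lit 5) (nat_lit 378) (nat_lit 299) (nat_lit 103))))) (XT.nd (nat_lit 234) (nat_lit 0) (nat_lit 0) (XT.nd (nat_lit 78) (nat_lit 76) (nat_lit 0) (XT.lf (nat_lit 0) (nat_lit 690428549) (nat_lit 152) (nat_lit 52911235174) (nat_lit 228) (nat_lit 7651484187) (nat_lit 26) (nat_lit 5) (nat_lit 28) (nat_lit 5) (nat_lit 29) (nat_lit 5) (nat_lit 379) (nat_lit 299)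 (nat_lit 102)) (XT.nd (nat_lit 78) (nat_lit 76) (nat_lit 0) (XT.lf (nat_lit 0) (nat_lit 19932304714) (nat_lit 152) (nat_lit 42280862402) (nat_lit 228) (nat_lit 505387467) (nat_lit 26) (nat_lit 5) (nat_lit 28) (nat_lit 5) (nat_lit 29) (nat_lit 5) (nat_lit 380) (nat_lit 299) (nat_lit 101)) (XT.lf (nat_lit 0) (nat_lit 6719275288) (nat_lit 228) (nat_lit 24545653277) (nat_lit 76) (nat_lit 32961081970) (nat_lit 25) (nat_lit 5) (nat_lit 28) (nat_lit 5) (nat_lit 26) (nat_lit 5) (nat_lit 381) (nat_lit 299) (nat_lit 100)))) (XT.nd (nat_lit 34242) (nat_lit 0) (nat_lit 9576) (XT.lf (nat_lit 0) (nat_lit 14148530499) (nat_lit 228) (nat_lit 5766018978) (nat_lit 76) (nat_lit 45864052648) (nat_lit 25) (nat_lit 5) (nat_lit 28) (nat_lit 5) (nat_lit 26) (nat_lit 5) (nat_lit 382) (nat_lit 299) (nat_lit 99)) (XT.nd (nat_lit 78) (nat_lit 0) (nat_lit 0) (XT.lf (nat_lit 0) (nat_lit 624195193) (nat_lit 1140) (nat_lit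 3103294886) (nat_lit 1140) (nat_lit 3103294886) (nat_lit 151) (nat_lit 3) (nat_lit 166) (nat_lit 3) (nat_lit 166) (nat_lit 5) (nat_lit 300) (nat_lit 300) (nat_lit 180)) (XT.lf (nat_lit 0) (nat_lit 1594800962) (nat_lit 1140) (nat_lit 521853949) (nat_lit 1140) (nat_lit 11739207569) (nat_lit 151) (nat_lit 3) (nat_lit 166) (nat_lit 3) (nat_lit 166) (nat_lit 5) (nat_lit 301) (nat_lit 300) (nat_lit 179)))))) (XT.nd (nat_lit 390) (nat_lit 0) (nat_lit 152) (XT.nd (nat_lit 156) (nat_lit 0) (nat_lit 76) (XT.nd (nat_lit 78) (nat_lit 0) (nat_lit 0) (XT.lf (nat_lit 0) (nat_lit 2024123646) (nat_lit 1064) (nat_lit 8655080258) (nat_lit 1140) (nat_lit 3374635548) (nat_lit 152) (nat_lit 5) (nat_lit 166) (nat_lit 5) (nat_lit 167) (nat_lit 5) (nat_lit 302) (nat_lit 300) (nat_lit 178)) (XT.lf (nat_lit 0) (nat_lit 2480183011) (nat_lit 1064) (nat_lit 2777917422) (nat_lit 1140) (nat_lit 8999269919) (nat_lit 152) (nat_lit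 5) (nat_lit 166) (nat_lit 5) (nat_lit 167) (nat_lit 5) (nat_lit 303) (nat_lit 300) (nat_lit 177))) (XT.nd (nat_lit 78) (nat_lit 0) (nat_lit 0) (XT.lf (nat_lit 0) (nat_lit 2973408942) (nat_lit 1064) (nat_lit 11136115010) (nat_lit 1140) (nat_lit 356808131) (nat_lit 153) (nat_lit 5) (nat_lit 167) (nat_lit 5) (nat_lit 168) (nat_lit 5) (nat_lit 304) (nat_lit 300) (nat_lit 176)) (XT.nd (nat_lit 78) (nat_lit 0) (nat_lit 0) (XT.lf (nat_lit 0) (nat_lit 3550096338) (nat_lit 1064) (nat_lit 5061677743) (nat_lit 1140) (nat_lit 6067757232) (nat_lit 153) (nat_lit 5) (nat_lit 167) (nat_lit 5) (nat_lit 168) (nat_lit 5) (nat_lit 305) (nat_lit 300) (nat_lit 175)) (XT.lf (nat_lit 76) (nat_lit 1211686847) (nat_lit 0) (nat_lit 2932661516) (nat_lit 1140) (nat_lit 10754797993) (nat_lit 154) (nat_lit 5) (nat_lit 153) (nat_lit 5) (nat_lit 168) (nat_lit 5) (nat_lit 306) (nat_lit 300) (nat_lit 174))))) (XT.nd (nat_lit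 234) (nat_lit 0) (nat_lit 76) (XT.nd (nat_lit 78) (nat_lit 0) (nat_lit 0) (XT.lf (nat_lit 0) (nat_lit 4825007998) (nat_lit 1064) (nat_lit 7382632261) (nat_lit 1140) (nat_lit 2915679138) (nat_lit 154) (nat_lit 5) (nat_lit 168) (nat_lit 5) (nat_lit 169) (nat_lit 5) (nat_lit 307) (nat_lit 300) (nat_lit 173)) (XT.nd (nat_lit 78) (nat_lit 0) (nat_lit 0) (XT.lf (nat_lit 0) (nat_lit 5544368971) (nat_lit 1064) (nat_lit 924767552) (nat_lit 1140) (nat_lit 8884558823) (nat_lit 154) (nat_lit 5) (nat_lit 168) (nat_lit 5) (nat_lit 169) (nat_lit 5) (nat_lit 308) (nat_lit 300) (nat_lit 172)) (XT.lf (nat_lit 76) (nat_lit 5833806525) (nat_lit 0) (nat_lit 497140905) (nat_lit 1140) (nat_lit 9258691443) (nat_lit 155) (nat_lit 5) (nat_lit 154) (nat_lit 5) (nat_lit 169) (nat_lit 5) (nat_lit 309) (nat_lit 300) (nat_lit 171)))) (XT.nd (nat_lit 78) (nat_lit 0) (nat_lit 0) (XT.lf (nat_lit 0) (nat_lit 7194733934) (nat_lit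 1064) (nat_lit 3079889525) (nat_lit 1140) (nat_lit 5556453587) (nat_lit 155) (nat_lit 5) (nat_lit 169) (nat_lit 5) (nat_lit 170) (nat_lit 5) (nat_lit 310) (nat_lit 300) (nat_lit 170)) (XT.nd (nat_lit 78) (nat_lit 0) (nat_lit 76) (XT.lf (nat_lit 76) (nat_lit 3859774770) (nat_lit 0) (nat_lit 4256810223) (nat_lit 1140) (nat_lit 7962232785) (nat_lit 156) (nat_lit 5) (nat_lit 155) (nat_lit 5) (nat_lit 170) (nat_lit 5) (nat_lit 311) (nat_lit 300) (nat_lit 169)) (XT.lf (nat_lit 0) (nat_lit 9106537874) (nat_lit 1064) (nat_lit 5288489162) (nat_lit 1140) (nat_lit 1937773553) (nat_lit 156) (nat_lit 5) (nat_lit 170) (nat_lit 5) (nat_lit 171) (nat_lit 5) (nat_lit 312) (nat_lit 300) (nat_lit 168))))))) (XT.nd (nat_lit 858) (nat_lit 2432) (nat_lit 0) (XT.nd (nat_lit 390) (nat_lit 2204) (nat_lit 0) (XT.nd (nat_lit 156) (nat_lit 0) (nat_lit 76) (XT.nd (nat_lit 78) (nat_lit 0) (nat_lit 0) (XT.lf (nat_lit 76)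 (nat_lit 1836660951) (nat_lit 0) (nat_lit 8339984765) (nat_lit 1140) (nat_lit 6416266046) (nat_lit 157) (nat_lit 5) (nat_lit 156) (nat_lit 5) (nat_lit 171) (nat_lit 5) (nat_lit 313) (nat_lit 300) (nat_lit 167)) (XT.lf (nat_lit 76) (nat_lit 9277029589) (nat_lit 0) (nat_lit 2046090642) (nat_lit 1140) (nat_lit 5536400046) (nat_lit 157) (nat_lit 5) (nat_lit 156) (nat_lit 5) (nat_lit 171) (nat_lit 5) (nat_lit 314) (nat_lit 300) (nat_lit 166))) (XT.nd (nat_lit 78) (nat_lit 0) (nat_lit 0) (XT.lf (nat_lit 0) (nat_lit 12537783256) (nat_lit 1064) (nat_lit 243215786) (nat_lit 1140) (nat_lit 4352135449) (nat_lit 157) (nat_lit 5) (nat_lit 171) (nat_lit 5) (nat_lit 172) (nat_lit 5) (nat_lit 315) (nat_lit 300) (nat_lit 165)) (XT.nd (nat_lit 78) (nat_lit 0) (nat_lit 76) (XT.lf (nat_lit 76) (nat_lit 7434201934) (nat_lit 0) (nat_lit 6437809284) (nat_lit 1140) (nat_lit 3540472817) (nat_lit 158) (nat_lit 5) (nat_lit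 157) (nat_lit 5) (nat_lit 172) (nat_lit 5) (nat_lit 316) (nat_lit 300) (nat_lit 164)) (XT.lf (nat_lit 0) (nat_lit 15241271548) (nat_lit 1064) (nat_lit 2361222625) (nat_lit 76) (nat_lit 97889776) (nat_lit 158) (nat_lit 5) (nat_lit 172) (nat_lit 5) (nat_lit 159) (nat_lit 5) (nat_lit 317) (nat_lit 300) (nat_lit 163))))) (XT.nd (nat_lit 234) (nat_lit 532) (nat_lit 0) (XT.nd (nat_lit 78) (nat_lit 760) (nat_lit 0) (XT.lf (nat_lit 0) (nat_lit 5521491852) (nat_lit 1064) (nat_lit 11238784489) (nat_lit 1140) (nat_lit 1233403988) (nat_lit 144) (nat_lit 5) (nat_lit 158) (nat_lit 5) (nat_lit 159) (nat_lit 5) (nat_lit 318) (nat_lit 300) (nat_lit 162)) (XT.nd (nat_lit 78) (nat_lit 684) (nat_lit 0) (XT.lf (nat_lit 0) (nat_lit 44512671) (nat_lit 1140) (nat_lit 4613457444) (nat_lit 76) (nat_lit 13637335321) (nat_lit 143) (nat_lit 5) (nat_lit 158) (nat_lit 5) (nat_lit 144) (nat_lit 5) (nat_lit 319) (nat_lit 300)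 (nat_lit 161)) (XT.lf (nat_lit 0) (nat_lit 1382926703) (nat_lit 760) (nat_lit 15094740047) (nat_lit 76) (nat_lit 2126555501) (nat_lit 134) (nat_lit 5) (nat_lit 144) (nat_lit 5) (nat_lit 135) (nat_lit 5) (nat_lit 320) (nat_lit 300) (nat_lit 160)))) (XT.nd (nat_lit 78) (nat_lit 532) (nat_lit 0) (XT.lf (nat_lit 0) (nat_lit 2846992864) (nat_lit 760) (nat_lit 7003866947) (nat_lit 76) (nat_lit 9068999064) (nat_lit 134) (nat_lit 5) (nat_lit 144) (nat_lit 5) (nat_lit 135) (nat_lit 5) (nat_lit 321) (nat_lit 300) (nat_lit 159)) (XT.nd (nat_lit 78) (nat_lit 0) (nat_lit 0) (XT.lf (nat_lit 0) (nat_lit 1349305247) (nat_lit 532) (nat_lit 3011202479) (nat_lit 608) (nat_lit 14884307863) (nat_lit 127) (nat_lit 5) (nat_lit 134) (nat_lit 5) (nat_lit 135) (nat_lit 5) (nat_lit 322) (nat_lit 300) (nat_lit 158)) (XT.lf (nat_lit 0) (nat_lit 6022342103) (nat_lit 608) (nat_lit 9527159811) (nat_lit 76) (nat_lit 4026947975)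 (nat_lit 127) (nat_lit 5) (nat_lit 135) (nat_lit 5) (nat_lit 128) (nat_lit 5) (nat_lit 323) (nat_lit 300) (nat_lit 157)))))) (XT.nd (nat_lit 468) (nat_lit 988) (nat_lit 0) (XT.nd (nat_lit 234) (nat_lit 912) (nat_lit 0) (XT.nd (nat_lit 78) (nat_lit 532) (nat_lit 0) (XT.lf (nat_lit 0) (nat_lit 7756772223) (nat_lit 608) (nat_lit 944302229) (nat_lit 76) (nat_lit 11216292371) (nat_lit 127) (nat_lit 5) (nat_lit 135) (nat_lit 5) (nat_lit 128) (nat_lit 5) (nat_lit 324) (nat_lit 300) (nat_lit 156)) (XT.nd (nat_lit 78) (nat_lit 0) (nat_lit 0) (XT.lf (nat_lit 0) (nat_lit 8046524175) (nat_lit 532) (nat_lit 1567192027) (nat_lit 608) (nat_lit 10652696002) (nat_lit 120) (nat_lit 5) (nat_lit 127) (nat_lit 5) (nat_lit 128) (nat_lit 5) (nat_lit 325) (nat_lit 300) (nat_lit 155)) (XT.lf (nat_lit 0) (nat_lit 11584839370) (nat_lit 608) (nat_lit 3361561157) (nat_lit 76) (nat_lit 5677789214) (nat_lit 120) (nat_lit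 5) (nat_lit 128) (nat_lit 5) (nat_lit 121) (nat_lit 5) (nat_lit 326) (nat_lit 300) (nat_lit 154)))) (XT.nd (nat_lit 78) (nat_lit 456) (nat_lit 0) (XT.lf (nat_lit 0) (nat_lit 5854752072) (nat_lit 456) (nat_lit 7825609464) (nat_lit 532) (nat_lit 7310395595) (nat_lit 114) (nat_lit 5) (nat_lit 120) (nat_lit 5) (nat_lit 121) (nat_lit 5) (nat_lit 327) (nat_lit 300) (nat_lit 153)) (XT.nd (nat_lit 78) (nat_lit 456) (nat_lit 0) (XT.lf (nat_lit 0) (nat_lit 15410033078) (nat_lit 456) (nat_lit 456258968) (nat_lit 532) (nat_lit 5501217281) (nat_lit 114) (nat_lit 5) (nat_lit 120) (nat_lit 5) (nat_lit 121) (nat_lit 5) (nat_lit 328) (nat_lit 300) (nat_lit 152)) (XT.lf (nat_lit 0) (nat_lit 3489479804) (nat_lit 456) (nat_lit 14724225428) (nat_lit 532) (nat_lit 3538995366) (nat_lit 108) (nat_lit 5) (nat_lit 114) (nat_lit 5) (nat_lit 115) (nat_lit 5) (nat_lit 329) (nat_lit 300) (nat_lit 151))))) (XT.nd (nat_lit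 234) (nat_lit 456) (nat_lit 0) (XT.nd (nat_lit 78) (nat_lit 532) (nat_lit 0) (XT.lf (nat_lit 0) (nat_lit 13330979894) (nat_lit 456) (nat_lit 7359096329) (nat_lit 532) (nat_lit 1457628580) (nat_lit 108) (nat_lit 5) (nat_lit 114) (nat_lit 5) (nat_lit 115) (nat_lit 5) (nat_lit 330) (nat_lit 300) (nat_lit 150)) (XT.nd (nat_lit 78) (nat_lit 0) (nat_lit 0) (XT.lf (nat_lit 0) (nat_lit 677956505) (nat_lit 532) (nat_lit 21638459221) (nat_lit 76) (nat_lit 237803010) (nat_lit 101) (nat_lit 5) (nat_lit 108) (nat_lit 5) (nat_lit 102) (nat_lit 5) (nat_lit 331) (nat_lit 300) (nat_lit 149)) (XT.lf (nat_lit 0) (nat_lit 3005208062) (nat_lit 532) (nat_lit 11943928564) (nat_lit 76) (nat_lit 8018663759) (nat_lit 101) (nat_lit 5) (nat_lit 108) (nat_lit 5) (nat_lit 102) (nat_lit 5) (nat_lit 332) (nat_lit 300) (nat_lit 148)))) (XT.nd (nat_lit 78) (nat_lit 456) (nat_lit 0) (XT.lf (nat_lit 0) (nat_lit 5396568753) (nat_lit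 532) (nat_lit 1964822481) (nat_lit 76) (nat_lit 16032581281) (nat_lit 101) (nat_lit 5) (nat_lit 108) (nat_lit 5) (nat_lit 102) (nat_lit 5) (nat_lit 333) (nat_lit 300) (nat_lit 147)) (XT.nd (nat_lit 78) (nat_lit 0) (nat_lit 0) (XT.lf (nat_lit 0) (nat_lit 7940740213) (nat_lit 532) (nat_lit 15362913613) (nat_lit 76) (nat_lit 526855319) (nat_lit 95) (nat_lit 5) (nat_lit 102) (nat_lit 5) (nat_lit 96) (nat_lit 5) (nat_lit 334) (nat_lit 300) (nat_lit 146)) (XT.lf (nat_lit 0) (nat_lit 10648715020) (nat_lit 532) (nat_lit 5105552378) (nat_lit 76) (nat_lit 8523261231) (nat_lit 95) (nat_lit 5) (nat_lit 102) (nat_lit 5) (nat_lit 96) (nat_lit 5) (nat_lit 335) (nat_lit 300) (nat_lit 145))))))))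
noncomputable def xc210 : XT := (XT.nd (nat_lit 1716) (nat_lit 2052) (nat_lit 0) (XT.nd (nat_lit 858) (nat_lit 1292) (nat_lit 0) (XT.nd (nat_lit 390) (nat_lit 1140) (nat_lit 0) (XT.nd (nat_lit 156) (nat_lit 380) (nat_lit 0) (XT.nd (nat_lit 78) (nat_lit 0) (nat_lit 0) (XT.lf (nat_lit 0) (nat_lit 5562058454) (nat_lit 380) (nat_lit 7924050937) (nat_lit 456) (nat_lit 11250414676) (nat_lit 90) (nat_lit 5) (nat_lit 95) (nat_lit 5) (nat_lit 96) (nat_lit 5) (nat_lit 336) (nat_lit 300) (nat_lit 144)) (XT.lf (nat_lit 0) (nat_lit 16456852074) (nat_lit 456) (nat_lit 8561359755) (nat_lit 76) (nat_lit 189641211) (nat_lit 90) (nat_lit 5) (nat_lit 96) (nat_lit 5) (nat_lit 91) (nat_lit 5) (nat_lit 337) (nat_lit 300) (nat_lit 143))) (XT.nd (nat_lit 78) (nat_lit 0) (nat_lit 0) (XT.lf (nat_lit 0) (nat_lit 2331245222) (nat_lit 380) (nat_lit 17281292346) (nat_lit 456) (nat_lit 6077919857) (nat_lit 85) (nat_lit 5)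 (nat_lit 90) (nat_lit 5) (nat_lit 91) (nat_lit 5) (nat_lit 338) (nat_lit 300) (nat_lit 142)) (XT.nd (nat_lit 78) (nat_lit 0) (nat_lit 0) (XT.lf (nat_lit 0) (nat_lit 13720256861) (nat_lit 380) (nat_lit 9224135441) (nat_lit 456) (nat_lit 3240712543) (nat_lit 85) (nat_lit 5) (nat_lit 90) (nat_lit 5) (nat_lit 91) (nat_lit 5) (nat_lit 339) (nat_lit 300) (nat_lit 141)) (XT.lf (nat_lit 0) (nat_lit 25445238878) (nat_lit 380) (nat_lit 926153825) (nat_lit 456) (nat_lit 323352861) (nat_lit 85) (nat_lit 5) (nat_lit 90) (nat_lit 5) (nat_lit 91) (nat_lit 5) (nat_lit 340) (nat_lit 300) (nat_lit 140))))) (XT.nd (nat_lit 234) (nat_lit 304) (nat_lit 0) (XT.nd (nat_lit 78) (nat_lit 380) (nat_lit 0) (XT.lf (nat_lit 0) (nat_lit 2799669939) (nat_lit 456) (nat_lit 16815239028) (nat_lit 76) (nat_lit 7598888213) (nat_lit 79) (nat_lit 5) (nat_lit 85) (nat_lit 5) (nat_lit 80) (nat_lit 5) (nat_lit 341) (nat_lit 300) (nat_lit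 139)) (XT.nd (nat_lit 78) (nat_lit 380) (nat_lit 0) (XT.lf (nat_lit 0) (nat_lit 6027146387) (nat_lit 456) (nat_lit 5344580214) (nat_lit 76) (nat_lit 16376088600) (nat_lit 79) (nat_lit 5) (nat_lit 85) (nat_lit 5) (nat_lit 80) (nat_lit 5) (nat_lit 342) (nat_lit 300) (nat_lit 138)) (XT.lf (nat_lit 0) (nat_lit 6593303366) (nat_lit 380) (nat_lit 2817007775) (nat_lit 456) (nat_lit 18885785210) (nat_lit 74) (nat_lit 5) (nat_lit 79) (nat_lit 5) (nat_lit 80) (nat_lit 5) (nat_lit 343) (nat_lit 300) (nat_lit 137)))) (XT.nd (nat_lit 78) (nat_lit 304) (nat_lit 0) (XT.lf (nat_lit 0) (nat_lit 13002649918) (nat_lit 456) (nat_lit 9924111239) (nat_lit 76) (nat_lit 5930842667) (nat_lit 74) (nat_lit 5) (nat_lit 80) (nat_lit 5) (nat_lit 75) (nat_lit 5) (nat_lit 344) (nat_lit 300) (nat_lit 136)) (XT.nd (nat_lit 78) (nat_lit 0) (nat_lit 0) (XT.lf (nat_lit 0) (nat_lit 2217851295) (nat_lit 304) (nat_lit 14529801140)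 (nat_lit 380) (nat_lit 12686965300) (nat_lit 70) (nat_lit 5) (nat_lit 74) (nat_lit 5) (nat_lit 75) (nat_lit 5) (nat_lit 345) (nat_lit 300) (nat_lit 135)) (XT.lf (nat_lit 0) (nat_lit 14922094088) (nat_lit 304) (nat_lit 5778881773) (nat_lit 380) (nat_lit 9325094863) (nat_lit 70) (nat_lit 5) (nat_lit 74) (nat_lit 5) (nat_lit 75) (nat_lit 5) (nat_lit 346) (nat_lit 300) (nat_lit 134)))))) (XT.nd (nat_lit 390) (nat_lit 608) (nat_lit 0) (XT.nd (nat_lit 156) (nat_lit 380) (nat_lit 0) (XT.nd (nat_lit 78) (nat_lit 304) (nat_lit 0) (XT.lf (nat_lit 0) (nat_lit 24799861050) (nat_lit 380) (nat_lit 2664271492) (nat_lit 76) (nat_lit 3170333460) (nat_lit 70) (nat_lit 5) (nat_lit 75) (nat_lit 5) (nat_lit 71) (nat_lit 5) (nat_lit 347) (nat_lit 300) (nat_lit 133)) (XT.lf (nat_lit 0) (nat_lit 10286923933) (nat_lit 304) (nat_lit 18886879465) (nat_lit 380) (nat_lit 2082754362) (nat_lit 66) (nat_lit 5) (nat_lit 70)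 (nat_lit 5) (nat_lit 71) (nat_lit 5) (nat_lit 348) (nat_lit 300) (nat_lit 132))) (XT.nd (nat_lit 78) (nat_lit 304) (nat_lit 0) (XT.lf (nat_lit 0) (nat_lit 1770066442) (nat_lit 380) (nat_lit 8237881981) (nat_lit 76) (nat_lit 21888161542) (nat_lit 65) (nat_lit 5) (nat_lit 70) (nat_lit 5) (nat_lit 66) (nat_lit 5) (nat_lit 349) (nat_lit 300) (nat_lit 131)) (XT.nd (nat_lit 78) (nat_lit 0) (nat_lit 0) (XT.lf (nat_lit 0) (nat_lit 4946626323) (nat_lit 304) (nat_lit 793661279) (nat_lit 380) (nat_lit 26812638900) (nat_lit 61) (nat_lit 5) (nat_lit 65) (nat_lit 5) (nat_lit 66) (nat_lit 5) (nat_lit 350) (nat_lit 300) (nat_lit 130)) (XT.lf (nat_lit 0) (nat_lit 9993406228) (nat_lit 380) (nat_lit 14620998687) (nat_lit 76) (nat_lit 8610135416) (nat_lit 61) (nat_lit 5) (nat_lit 66) (nat_lit 5) (nat_lit 62) (nat_lit 5) (nat_lit 351) (nat_lit 300) (nat_lit 129))))) (XT.nd (nat_lit 234) (nat_lit 304) (nat_lit 0)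 (XT.nd (nat_lit 78) (nat_lit 304) (nat_lit 0) (XT.lf (nat_lit 0) (nat_lit 14378267067) (nat_lit 380) (nat_lit 1259005978) (nat_lit 76) (nat_lit 18278911402) (nat_lit 61) (nat_lit 5) (nat_lit 66) (nat_lit 5) (nat_lit 62) (nat_lit 5) (nat_lit 352) (nat_lit 300) (nat_lit 128)) (XT.nd (nat_lit 78) (nat_lit 0) (nat_lit 0) (XT.lf (nat_lit 0) (nat_lit 12747736893) (nat_lit 304) (nat_lit 6265874542) (nat_lit 380) (nat_lit 15611404467) (nat_lit 57) (nat_lit 5) (nat_lit 61) (nat_lit 5) (nat_lit 62) (nat_lit 5) (nat_lit 353) (nat_lit 300) (nat_lit 127)) (XT.lf (nat_lit 0) (nat_lit 23829855226) (nat_lit 380) (nat_lit 8191837241) (nat_lit 76) (nat_lit 3332170629) (nat_lit 57) (nat_lit 5) (nat_lit 62) (nat_lit 5) (nat_lit 58) (nat_lit 5) (nat_lit 354) (nat_lit 300) (nat_lit 126)))) (XT.nd (nat_lit 78) (nat_lit 76) (nat_lit 0) (XT.lf (nat_lit 0) (nat_lit 5953531243) (nat_lit 228) (nat_lit 22952870993) (nat_lit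 304) (nat_lit 7194704788) (nat_lit 54) (nat_lit 5) (nat_lit 57) (nat_lit 5) (nat_lit 58) (nat_lit 5) (nat_lit 355) (nat_lit 300) (nat_lit 125)) (XT.nd (nat_lit 78) (nat_lit 76) (nat_lit 0) (XT.lf (nat_lit 0) (nat_lit 20686459195) (nat_lit 228) (nat_lit 13528111611) (nat_lit 304) (nat_lit 2653823333) (nat_lit 54) (nat_lit 5) (nat_lit 57) (nat_lit 5) (nat_lit 58) (nat_lit 5) (nat_lit 356) (nat_lit 300) (nat_lit 124)) (XT.lf (nat_lit 0) (nat_lit 1980467571) (nat_lit 304) (nat_lit 1821434177) (nat_lit 76) (nat_lit 33856320014) (nat_lit 53) (nat_lit 5) (nat_lit 57) (nat_lit 5) (nat_lit 54) (nat_lit 5) (nat_lit 357) (nat_lit 300) (nat_lit 123))))))) (XT.nd (nat_lit 858) (nat_lit 760) (nat_lit 0) (XT.nd (nat_lit 390) (nat_lit 760) (nat_lit 0) (XT.nd (nat_lit 156) (nat_lit 228) (nat_lit 0) (XT.nd (nat_lit 78) (nat_lit 0) (nat_lit 0) (XT.lf (nat_lit 0) (nat_lit 6885320116) (nat_lit 380) (nat_lit 25331914583)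 (nat_lit 76) (nat_lit 6248180233) (nat_lit 49) (nat_lit 5) (nat_lit 54) (nat_lit 5) (nat_lit 50) (nat_lit 5) (nat_lit 358) (nat_lit 300) (nat_lit 122)) (XT.lf (nat_lit 0) (nat_lit 11990336398) (nat_lit 380) (nat_lit 10764244614) (nat_lit 76) (nat_lit 16540657340) (nat_lit 49) (nat_lit 5) (nat_lit 54) (nat_lit 5) (nat_lit 50) (nat_lit 5) (nat_lit 359) (nat_lit 300) (nat_lit 121))) (XT.nd (nat_lit 78) (nat_lit 0) (nat_lit 0) (XT.lf (nat_lit 0) (nat_lit 4320325287) (nat_lit 228) (nat_lit 12966601224) (nat_lit 304) (nat_lit 22861882114) (nat_lit 46) (nat_lit 5) (nat_lit 49) (nat_lit 5) (nat_lit 50) (nat_lit 5) (nat_lit 360) (nat_lit 300) (nat_lit 120)) (XT.nd (nat_lit 78) (nat_lit 0) (nat_lit 0) (XT.lf (nat_lit 0) (nat_lit 20073696959) (nat_lit 228) (nat_lit 2774357127) (nat_lit 304) (nat_lit 18176767440) (nat_lit 46) (nat_lit 5) (nat_lit 49) (nat_lit 5) (nat_lit 50) (nat_lit 5) (nat_lit 361) (nat_lit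 300) (nat_lit 119)) (XT.lf (nat_lit 0) (nat_lit 28647278590) (nat_lit 304) (nat_lit 5706034592) (nat_lit 76) (nat_lit 7571668313) (nat_lit 46) (nat_lit 5) (nat_lit 50) (nat_lit 5) (nat_lit 47) (nat_lit 5) (nat_lit 362) (nat_lit 300) (nat_lit 118))))) (XT.nd (nat_lit 234) (nat_lit 456) (nat_lit 0) (XT.nd (nat_lit 78) (nat_lit 76) (nat_lit 0) (XT.lf (nat_lit 0) (nat_lit 10163038168) (nat_lit 228) (nat_lit 24579709332) (nat_lit 304) (nat_lit 8105735173) (nat_lit 43) (nat_lit 5) (nat_lit 46) (nat_lit 5) (nat_lit 47) (nat_lit 5) (nat_lit 363) (nat_lit 300) (nat_lit 117)) (XT.nd (nat_lit 78) (nat_lit 76) (nat_lit 0) (XT.lf (nat_lit 0) (nat_lit 26620974072) (nat_lit 228) (nat_lit 14454875769) (nat_lit 304) (nat_lit 2722200275) (nat_lit 43) (nat_lit 5) (nat_lit 46) (nat_lit 5) (nat_lit 47) (nat_lit 5) (nat_lit 364) (nat_lit 300) (nat_lit 116)) (XT.lf (nat_lit 0) (nat_lit 2764958000) (nat_lit 304) (nat_lit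 1234706659) (nat_lit 76) (nat_lit 40775713908) (nat_lit 42) (nat_lit 5) (nat_lit 46) (nat_lit 5) (nat_lit 43) (nat_lit 5) (nat_lit 365) (nat_lit 300) (nat_lit 115)))) (XT.nd (nat_lit 78) (nat_lit 228) (nat_lit 0) (XT.lf (nat_lit 0) (nat_lit 8574673790) (nat_lit 304) (nat_lit 30387041907) (nat_lit 76) (nat_lit 6813126857) (nat_lit 39) (nat_lit 5) (nat_lit 43) (nat_lit 5) (nat_lit 40) (nat_lit 5) (nat_lit 366) (nat_lit 300) (nat_lit 114)) (XT.nd (nat_lit 78) (nat_lit 228) (nat_lit 0) (XT.lf (nat_lit 0) (nat_lit 14608184711) (nat_lit 304) (nat_lit 14313375092) (nat_lit 76) (nat_lit 17881249379) (nat_lit 39) (nat_lit 5) (nat_lit 43) (nat_lit 5) (nat_lit 40) (nat_lit 5) (nat_lit 367) (nat_lit 300) (nat_lit 113)) (XT.lf (nat_lit 0) (nat_lit 2283143359) (nat_lit 228) (nat_lit 18558894331) (nat_lit 304) (nat_lit 27019000735) (nat_lit 36) (nat_lit 5) (nat_lit 39) (nat_lit 5) (nat_lit 40) (nat_lit 5)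 (nat_lit 368) (nat_lit 300) (nat_lit 112)))))) (XT.nd (nat_lit 468) (nat_lit 304) (nat_lit 0) (XT.nd (nat_lit 234) (nat_lit 304) (nat_lit 0) (XT.nd (nat_lit 78) (nat_lit 152) (nat_lit 0) (XT.lf (nat_lit 0) (nat_lit 19667095146) (nat_lit 228) (nat_lit 7737776700) (nat_lit 304) (nat_lit 21541887343) (nat_lit 36) (nat_lit 5) (nat_lit 39) (nat_lit 5) (nat_lit 40) (nat_lit 5) (nat_lit 369) (nat_lit 300) (nat_lit 111)) (XT.nd (nat_lit 78) (nat_lit 152) (nat_lit 0) (XT.lf (nat_lit 0) (nat_lit 34194841881) (nat_lit 304) (nat_lit 12529071475) (nat_lit 76) (nat_lit 3340234199) (nat_lit 36) (nat_lit 5) (nat_lit 40) (nat_lit 5) (nat_lit 37) (nat_lit 5) (nat_lit 370) (nat_lit 300) (nat_lit 110)) (XT.lf (nat_lit 0) (nat_lit 4736131793) (nat_lit 152) (nat_lit 36572081857) (nat_lit 228) (nat_lit 9903256247) (nat_lit 34) (nat_lit 5) (nat_lit 36) (nat_lit 5) (nat_lit 37) (nat_lit 5) (nat_lit 371) (nat_lit 300)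 (nat_lit 109)))) (XT.nd (nat_lit 78) (nat_lit 304) (nat_lit 0) (XT.lf (nat_lit 0) (nat_lit 22772446841) (nat_lit 152) (nat_lit 25986658760) (nat_lit 228) (nat_lit 3630386042) (nat_lit 34) (nat_lit 5) (nat_lit 36) (nat_lit 5) (nat_lit 37) (nat_lit 5) (nat_lit 372) (nat_lit 300) (nat_lit 108)) (XT.nd (nat_lit 78) (nat_lit 228) (nat_lit 0) (XT.lf (nat_lit 0) (nat_lit 2773077354) (nat_lit 228) (nat_lit 12283833721) (nat_lit 76) (nat_lit 38545200466) (nat_lit 33) (nat_lit 5) (nat_lit 36) (nat_lit 5) (nat_lit 34) (nat_lit 5) (nat_lit 373) (nat_lit 300) (nat_lit 107)) (XT.lf (nat_lit 0) (nat_lit 5639969982) (nat_lit 228) (nat_lit 3707634639) (nat_lit 304) (nat_lit 45500872293) (nat_lit 30) (nat_lit 5) (nat_lit 33) (nat_lit 5) (nat_lit 34) (nat_lit 5) (nat_lit 374) (nat_lit 300) (nat_lit 106))))) (XT.nd (nat_lit 234) (nat_lit 152) (nat_lit 0) (XT.nd (nat_lit 78) (nat_lit 152) (nat_lit 0) (XT.lf (nat_lit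 0) (nat_lit 16319101181) (nat_lit 304) (nat_lit 31856714532) (nat_lit 76) (nat_lit 7950428468) (nat_lit 30) (nat_lit 5) (nat_lit 34) (nat_lit 5) (nat_lit 31) (nat_lit 5) (nat_lit 375) (nat_lit 300) (nat_lit 105)) (XT.nd (nat_lit 78) (nat_lit 152) (nat_lit 0) (XT.lf (nat_lit 0) (nat_lit 23534251574) (nat_lit 304) (nat_lit 14024514253) (nat_lit 76) (nat_lit 19882546219) (nat_lit 30) (nat_lit 5) (nat_lit 34) (nat_lit 5) (nat_lit 31) (nat_lit 5) (nat_lit 376) (nat_lit 300) (nat_lit 104)) (XT.lf (nat_lit 0) (nat_lit 4425676374) (nat_lit 152) (nat_lit 26580586182) (nat_lit 228) (nat_lit 27788359977) (nat_lit 28) (nat_lit 5) (nat_lit 30) (nat_lit 5) (nat_lit 31) (nat_lit 5) (nat_lit 377) (nat_lit 300) (nat_lit 103)))) (XT.nd (nat_lit 78) (nat_lit 152) (nat_lit 0) (XT.lf (nat_lit 0) (nat_lit 23713557681) (nat_lit 152) (nat_lit 15128390514) (nat_lit 228) (nat_lit 21342401396) (nat_lit 28) (nat_lit 5)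 (nat_lit 30) (nat_lit 5) (nat_lit 31) (nat_lit 5) (nat_lit 378) (nat_lit 300) (nat_lit 102)) (XT.nd (nat_lit 78) (nat_lit 152) (nat_lit 0) (XT.lf (nat_lit 0) (nat_lit 43576867821) (nat_lit 152) (nat_lit 3333792147) (nat_lit 228) (nat_lit 14705172435) (nat_lit 28) (nat_lit 5) (nat_lit 30) (nat_lit 5) (nat_lit 31) (nat_lit 5) (nat_lit 379) (nat_lit 300) (nat_lit 101)) (XT.lf (nat_lit 0) (nat_lit 874994707) (nat_lit 152) (nat_lit 54437585379) (nat_lit 228) (nat_lit 7774947736) (nat_lit 26) (nat_lit 5) (nat_lit 28) (nat_lit 5) (nat_lit 29) (nat_lit 5) (nat_lit 380) (nat_lit 300) (nat_lit 100))))))))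
noncomputable def xc211 : XT := (XT.nd (nat_lit 35958) (nat_lit 0) (nat_lit 4104) (XT.nd (nat_lit 35100) (nat_lit 0) (nat_lit 8968) (XT.nd (nat_lit 34632) (nat_lit 0) (nat_lit 9652) (XT.nd (nat_lit 34398) (nat_lit 0) (nat_lit 9576) (XT.nd (nat_lit 78) (nat_lit 76) (nat_lit 0) (XT.lf (nat_lit 0) (nat_lit 20689354732) (nat_lit 152) (nat_lit 43490077739) (nat_lit 228) (nat_lit 417557851) (nat_lit 26) (nat_lit 5) (nat_lit 28) (nat_lit 5) (nat_lit 29) (nat_lit 5) (nat_lit 381) (nat_lit 300) (nat_lit 99)) (XT.lf (nat_lit 0) (nat_lit 7018893846) (nat_lit 228) (nat_lit 25125506604) (nat_lit 76) (nat_lit 34005331566) (nat_lit 25) (nat_lit 5) (nat_lit 28) (nat_lit 5) (nat_lit 26) (nat_lit 5) (nat_lit 382) (nat_lit 300) (nat_lit 98))) (XT.nd (nat_lit 78) (nat_lit 0) (nat_lit 0) (XT.lf (nat_lit 0) (nat_lit 967455863) (nat_lit 1140) (nat_lit 3028861921) (nat_lit 1140) (nat_lit 3028861921) (nat_lit 151) (nat_lit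 3) (nat_lit 166) (nat_lit 3) (nat_lit 166) (nat_lit 5) (nat_lit 301) (nat_lit 301) (nat_lit 178)) (XT.nd (nat_lit 78) (nat_lit 0) (nat_lit 76) (XT.lf (nat_lit 0) (nat_lit 2272809678) (nat_lit 1140) (nat_lit 212205080) (nat_lit 1140) (nat_lit 11766079309) (nat_lit 151) (nat_lit 3) (nat_lit 166) (nat_lit 3) (nat_lit 166) (nat_lit 5) (nat_lit 302) (nat_lit 301) (nat_lit 177)) (XT.lf (nat_lit 0) (nat_lit 2696939608) (nat_lit 1064) (nat_lit 8569861234) (nat_lit 1140) (nat_lit 3188796515) (nat_lit 152) (nat_lit 5) (nat_lit 166) (nat_lit 5) (nat_lit 167) (nat_lit 5) (nat_lit 303) (nat_lit 301) (nat_lit 176))))) (XT.nd (nat_lit 234) (nat_lit 0) (nat_lit 76) (XT.nd (nat_lit 78) (nat_lit 0) (nat_lit 76) (XT.lf (nat_lit 0) (nat_lit 3148852825) (nat_lit 1064) (nat_lit 2526428312) (nat_lit 1140) (nat_lit 8990531415) (nat_lit 152) (nat_lit 5) (nat_lit 166) (nat_lit 5) (nat_lit 167) (nat_lit 5) (nat_lit 304)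 (nat_lit 301) (nat_lit 175)) (XT.nd (nat_lit 78) (nat_lit 0) (nat_lit 0) (XT.lf (nat_lit 0) (nat_lit 3640364186) (nat_lit 1064) (nat_lit 11117451759) (nat_lit 1140) (nat_lit 123764791) (nat_lit 153) (nat_lit 5) (nat_lit 167) (nat_lit 5) (nat_lit 168) (nat_lit 5) (nat_lit 305) (nat_lit 301) (nat_lit 174)) (XT.lf (nat_lit 0) (nat_lit 4217524447) (nat_lit 1064) (nat_lit 4871055550) (nat_lit 1140) (nat_lit 6013141810) (nat_lit 153) (nat_lit 5) (nat_lit 167) (nat_lit 5) (nat_lit 168) (nat_lit 5) (nat_lit 306) (nat_lit 301) (nat_lit 173)))) (XT.nd (nat_lit 78) (nat_lit 0) (nat_lit 76) (XT.lf (nat_lit 76) (nat_lit 1587152404) (nat_lit 0) (nat_lit 3229373781) (nat_lit 1140) (nat_lit 10511831286) (nat_lit 154) (nat_lit 5) (nat_lit 153) (nat_lit 5) (nat_lit 168) (nat_lit 5) (nat_lit 307) (nat_lit 301) (nat_lit 172)) (XT.nd (nat_lit 78) (nat_lit 0) (nat_lit 0) (XT.lf (nat_lit 0) (nat_lit 5499700867) (nat_lit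 1064) (nat_lit 7255679490) (nat_lit 1140) (nat_lit 2804451165) (nat_lit 154) (nat_lit 5) (nat_lit 168) (nat_lit 5) (nat_lit 169) (nat_lit 5) (nat_lit 308) (nat_lit 301) (nat_lit 171)) (XT.lf (nat_lit 0) (nat_lit 6225207446) (nat_lit 1064) (nat_lit 614227338) (nat_lit 1140) (nat_lit 8958184570) (nat_lit 154) (nat_lit 5) (nat_lit 168) (nat_lit 5) (nat_lit 169) (nat_lit 5) (nat_lit 309) (nat_lit 301) (nat_lit 170)))))) (XT.nd (nat_lit 390) (nat_lit 836) (nat_lit 0) (XT.nd (nat_lit 156) (nat_lit 0) (nat_lit 76) (XT.nd (nat_lit 78) (nat_lit 0) (nat_lit 76) (XT.lf (nat_lit 76) (nat_lit 6343787459) (nat_lit 0) (nat_lit 679830053) (nat_lit 1140) (nat_lit 9017413103) (nat_lit 155) (nat_lit 5) (nat_lit 154) (nat_lit 5) (nat_lit 169) (nat_lit 5) (nat_lit 310) (nat_lit 301) (nat_lit 169)) (XT.lf (nat_lit 0) (nat_lit 7897108868) (nat_lit 1064) (nat_lit 2829687261) (nat_lit 1140) (nat_lit 5563437460) (nat_lit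 155) (nat_lit 5) (nat_lit 169) (nat_lit 5) (nat_lit 170) (nat_lit 5) (nat_lit 311) (nat_lit 301) (nat_lit 168))) (XT.nd (nat_lit 78) (nat_lit 0) (nat_lit 76) (XT.lf (nat_lit 76) (nat_lit 4314808149) (nat_lit 0) (nat_lit 4520897432) (nat_lit 1140) (nat_lit 7710062621) (nat_lit 156) (nat_lit 5) (nat_lit 155) (nat_lit 5) (nat_lit 170) (nat_lit 5) (nat_lit 312) (nat_lit 301) (nat_lit 167)) (XT.nd (nat_lit 78) (nat_lit 0) (nat_lit 0) (XT.lf (nat_lit 0) (nat_lit 9840231139) (nat_lit 1064) (nat_lit 5101546515) (nat_lit 1140) (nat_lit 1866079982) (nat_lit 156) (nat_lit 5) (nat_lit 170) (nat_lit 5) (nat_lit 171) (nat_lit 5) (nat_lit 313) (nat_lit 301) (nat_lit 166)) (XT.lf (nat_lit 76) (nat_lit 2233969892) (nat_lit 0) (nat_lit 8698349309) (nat_lit 1140) (nat_lit 6143789023) (nat_lit 157) (nat_lit 5) (nat_lit 156) (nat_lit 5) (nat_lit 171) (nat_lit 5) (nat_lit 314) (nat_lit 301) (nat_lit 165))))) (XT.nd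 (nat_lit 234) (nat_lit 988) (nat_lit 0) (XT.nd (nat_lit 78) (nat_lit 0) (nat_lit 76) (XT.lf (nat_lit 76) (nat_lit 9887582334) (nat_lit 0) (nat_lit 2212487926) (nat_lit 1140) (nat_lit 5251069712) (nat_lit 157) (nat_lit 5) (nat_lit 156) (nat_lit 5) (nat_lit 171) (nat_lit 5) (nat_lit 315) (nat_lit 301) (nat_lit 164)) (XT.nd (nat_lit 78) (nat_lit 0) (nat_lit 0) (XT.lf (nat_lit 76) (nat_lit 88513237) (nat_lit 0) (nat_lit 13249795095) (nat_lit 1140) (nat_lit 4295070757) (nat_lit 158) (nat_lit 5) (nat_lit 157) (nat_lit 5) (nat_lit 172) (nat_lit 5) (nat_lit 316) (nat_lit 301) (nat_lit 163)) (XT.lf (nat_lit 76) (nat_lit 7991219431) (nat_lit 0) (nat_lit 6711367250) (nat_lit 1140) (nat_lit 3218851372) (nat_lit 158) (nat_lit 5) (nat_lit 157) (nat_lit 5) (nat_lit 172) (nat_lit 5) (nat_lit 317) (nat_lit 301) (nat_lit 162)))) (XT.nd (nat_lit 78) (nat_lit 1140) (nat_lit 0) (XT.lf (nat_lit 0) (nat_lit 16100103913)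 (nat_lit 1064) (nat_lit 2094015592) (nat_lit 76) (nat_lit 24268866) (nat_lit 158) (nat_lit 5) (nat_lit 172) (nat_lit 5) (nat_lit 159) (nat_lit 5) (nat_lit 318) (nat_lit 301) (nat_lit 161)) (XT.nd (nat_lit 78) (nat_lit 76) (nat_lit 0) (XT.lf (nat_lit 0) (nat_lit 6021866166) (nat_lit 1064) (nat_lit 11634333391) (nat_lit 1140) (nat_lit 864566405) (nat_lit 144) (nat_lit 5) (nat_lit 158) (nat_lit 5) (nat_lit 159) (nat_lit 5) (nat_lit 319) (nat_lit 301) (nat_lit 160)) (XT.lf (nat_lit 0) (nat_lit 432178448) (nat_lit 1140) (nat_lit 4418314414) (nat_lit 76) (nat_lit 13981203957) (nat_lit 143) (nat_lit 5) (nat_lit 158) (nat_lit 5) (nat_lit 144) (nat_lit 5) (nat_lit 320) (nat_lit 301) (nat_lit 159))))))) (XT.nd (nat_lit 858) (nat_lit 2204) (nat_lit 0) (XT.nd (nat_lit 390) (nat_lit 1444) (nat_lit 0) (XT.nd (nat_lit 156) (nat_lit 532) (nat_lit 0) (XT.nd (nat_lit 78) (nat_lit 0) (nat_lit 0) (XT.lf (nat_lit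 0) (nat_lit 1802206204) (nat_lit 760) (nat_lit 15204644499) (nat_lit 76) (nat_lit 2143312165) (nat_lit 134) (nat_lit 5) (nat_lit 144) (nat_lit 5) (nat_lit 135) (nat_lit 5) (nat_lit 321) (nat_lit 301) (nat_lit 158)) (XT.lf (nat_lit 0) (nat_lit 3299190708) (nat_lit 760) (nat_lit 6881033685) (nat_lit 76) (nat_lit 9295399132) (nat_lit 134) (nat_lit 5) (nat_lit 144) (nat_lit 5) (nat_lit 135) (nat_lit 5) (nat_lit 322) (nat_lit 301) (nat_lit 157))) (XT.nd (nat_lit 78) (nat_lit 0) (nat_lit 0) (XT.lf (nat_lit 0) (nat_lit 1719469467) (nat_lit 532) (nat_lit 3131127537) (nat_lit 608) (nat_lit 14959981459) (nat_lit 127) (nat_lit 5) (nat_lit 134) (nat_lit 5) (nat_lit 135) (nat_lit 5) (nat_lit 323) (nat_lit 301) (nat_lit 156)) (XT.nd (nat_lit 78) (nat_lit 0) (nat_lit 0) (XT.lf (nat_lit 0) (nat_lit 6551545976) (nat_lit 608) (nat_lit 9481371610) (nat_lit 76) (nat_lit 4119589816) (nat_lit 127) (nat_lit 5) (nat_lit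 135) (nat_lit 5) (nat_lit 128) (nat_lit 5) (nat_lit 324) (nat_lit 301) (nat_lit 155)) (XT.lf (nat_lit 0) (nat_lit 8327857535) (nat_lit 608) (nat_lit 650686640) (nat_lit 76) (nat_lit 11525434931) (nat_lit 127) (nat_lit 5) (nat_lit 135) (nat_lit 5) (nat_lit 128) (nat_lit 5) (nat_lit 325) (nat_lit 301) (nat_lit 154))))) (XT.nd (nat_lit 234) (nat_lit 456) (nat_lit 0) (XT.nd (nat_lit 78) (nat_lit 456) (nat_lit 0) (XT.lf (nat_lit 0) (nat_lit 8606708236) (nat_lit 532) (nat_lit 1627010196) (nat_lit 608) (nat_lit 10630003216) (nat_lit 120) (nat_lit 5) (nat_lit 127) (nat_lit 5) (nat_lit 128) (nat_lit 5) (nat_lit 326) (nat_lit 301) (nat_lit 153)) (XT.nd (nat_lit 78) (nat_lit 456) (nat_lit 0) (XT.lf (nat_lit 0) (nat_lit 12254197832) (nat_lit 608) (nat_lit 3142413504) (nat_lit 76) (nat_lit 5835935913) (nat_lit 120) (nat_lit 5) (nat_lit 128) (nat_lit 5) (nat_lit 121) (nat_lit 5) (nat_lit 327) (nat_lit 301)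 (nat_lit 152)) (XT.lf (nat_lit 0) (nat_lit 6347251922) (nat_lit 456) (nat_lit 8059006365) (nat_lit 532) (nat_lit 7204063984) (nat_lit 114) (nat_lit 5) (nat_lit 120) (nat_lit 5) (nat_lit 121) (nat_lit 5) (nat_lit 328) (nat_lit 301) (nat_lit 151)))) (XT.nd (nat_lit 78) (nat_lit 456) (nat_lit 0) (XT.lf (nat_lit 0) (nat_lit 16179962504) (nat_lit 456) (nat_lit 468615297) (nat_lit 532) (nat_lit 5350095082) (nat_lit 114) (nat_lit 5) (nat_lit 120) (nat_lit 5) (nat_lit 121) (nat_lit 5) (nat_lit 329) (nat_lit 301) (nat_lit 150)) (XT.nd (nat_lit 78) (nat_lit 0) (nat_lit 0) (XT.lf (nat_lit 0) (nat_lit 3908529033) (nat_lit 456) (nat_lit 15151997372) (nat_lit 532) (nat_lit 3335089695) (nat_lit 108) (nat_lit 5) (nat_lit 114) (nat_lit 5) (nat_lit 115) (nat_lit 5) (nat_lit 330) (nat_lit 301) (nat_lit 149)) (XT.lf (nat_lit 0) (nat_lit 14036117868) (nat_lit 456) (nat_lit 7566320851) (nat_lit 532) (nat_lit 1200313232)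 (nat_lit 108) (nat_lit 5) (nat_lit 114) (nat_lit 5) (nat_lit 115) (nat_lit 5) (nat_lit 331) (nat_lit 301) (nat_lit 148)))))) (XT.nd (nat_lit 468) (nat_lit 836) (nat_lit 0) (XT.nd (nat_lit 234) (nat_lit 836) (nat_lit 0) (XT.nd (nat_lit 78) (nat_lit 0) (nat_lit 0) (XT.lf (nat_lit 0) (nat_lit 988018271) (nat_lit 532) (nat_lit 21969869780) (nat_lit 76) (nat_lit 263667770) (nat_lit 101) (nat_lit 5) (nat_lit 108) (nat_lit 5) (nat_lit 102) (nat_lit 5) (nat_lit 332) (nat_lit 301) (nat_lit 147)) (XT.nd (nat_lit 78) (nat_lit 0) (nat_lit 0) (XT.lf (nat_lit 0) (nat_lit 3376648839) (nat_lit 532) (nat_lit 11993757860) (nat_lit 76) (nat_lit 8277408788) (nat_lit 101) (nat_lit 5) (nat_lit 108) (nat_lit 5) (nat_lit 102) (nat_lit 5) (nat_lit 333) (nat_lit 301) (nat_lit 146)) (XT.lf (nat_lit 0) (nat_lit 5831557596) (nat_lit 532) (nat_lit 1724263699) (nat_lit 76) (nat_lit 16531214172) (nat_lit 101) (nat_lit 5) (nat_lit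 108) (nat_lit 5) (nat_lit 102) (nat_lit 5) (nat_lit 334) (nat_lit 301) (nat_lit 145)))) (XT.nd (nat_lit 78) (nat_lit 380) (nat_lit 0) (XT.lf (nat_lit 0) (nat_lit 8447225571) (nat_lit 532) (nat_lit 15518921878) (nat_lit 76) (nat_lit 570682017) (nat_lit 95) (nat_lit 5) (nat_lit 102) (nat_lit 5) (nat_lit 96) (nat_lit 5) (nat_lit 335) (nat_lit 301) (nat_lit 144)) (XT.nd (nat_lit 78) (nat_lit 380) (nat_lit 0) (XT.lf (nat_lit 0) (nat_lit 11228626133) (nat_lit 532) (nat_lit 4962719781) (nat_lit 76) (nat_lit 8806163960) (nat_lit 95) (nat_lit 5) (nat_lit 102) (nat_lit 5) (nat_lit 96) (nat_lit 5) (nat_lit 336) (nat_lit 301) (nat_lit 143)) (XT.lf (nat_lit 0) (nat_lit 6022017424) (nat_lit 380) (nat_lit 8124356429) (nat_lit 456) (nat_lit 11324059847) (nat_lit 90) (nat_lit 5) (nat_lit 95) (nat_lit 5) (nat_lit 96) (nat_lit 5) (nat_lit 337) (nat_lit 301) (nat_lit 142))))) (XT.nd (nat_lit 234) (nat_lit 456)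 (nat_lit 0) (XT.nd (nat_lit 78) (nat_lit 380) (nat_lit 0) (XT.lf (nat_lit 0) (nat_lit 17199140981) (nat_lit 456) (nat_lit 8526041673) (nat_lit 76) (nat_lit 230947840) (nat_lit 90) (nat_lit 5) (nat_lit 96) (nat_lit 5) (nat_lit 91) (nat_lit 5) (nat_lit 338) (nat_lit 301) (nat_lit 141)) (XT.nd (nat_lit 78) (nat_lit 0) (nat_lit 0) (XT.lf (nat_lit 0) (nat_lit 2690477150) (nat_lit 380) (nat_lit 17754560475) (nat_lit 456) (nat_lit 6008323750) (nat_lit 85) (nat_lit 5) (nat_lit 90) (nat_lit 5) (nat_lit 91) (nat_lit 5) (nat_lit 339) (nat_lit 301) (nat_lit 140)) (XT.lf (nat_lit 0) (nat_lit 14412733083) (nat_lit 380) (nat_lit 9457004512) (nat_lit 456) (nat_lit 3093338093) (nat_lit 85) (nat_lit 5) (nat_lit 90) (nat_lit 5) (nat_lit 91) (nat_lit 5) (nat_lit 340) (nat_lit 301) (nat_lit 139)))) (XT.nd (nat_lit 78) (nat_lit 456) (nat_lit 0) (XT.lf (nat_lit 0) (nat_lit 26481283924) (nat_lit 380) (nat_lit 911360778)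 (nat_lit 456) (nat_lit 95581769) (nat_lit 85) (nat_lit 5) (nat_lit 90) (nat_lit 5) (nat_lit 91) (nat_lit 5) (nat_lit 341) (nat_lit 301) (nat_lit 138)) (XT.nd (nat_lit 78) (nat_lit 0) (nat_lit 0) (XT.lf (nat_lit 0) (nat_lit 3112805471) (nat_lit 456) (nat_lit 17037805415) (nat_lit 76) (nat_lit 7872293992) (nat_lit 79) (nat_lit 5) (nat_lit 85) (nat_lit 5) (nat_lit 80) (nat_lit 5) (nat_lit 342) (nat_lit 301) (nat_lit 137)) (XT.lf (nat_lit 0) (nat_lit 6430432074) (nat_lit 456) (nat_lit 5231237248) (nat_lit 76) (nat_lit 16911486921) (nat_lit 79) (nat_lit 5) (nat_lit 85) (nat_lit 5) (nat_lit 80) (nat_lit 5) (nat_lit 343) (nat_lit 301) (nat_lit 136))))))))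
noncomputable def xc212 : XT := (XT.nd (nat_lit 1716) (nat_lit 1292) (nat_lit 0) (XT.nd (nat_lit 858) (nat_lit 1064) (nat_lit 0) (XT.nd (nat_lit 390) (nat_lit 988) (nat_lit 0) (XT.nd (nat_lit 156) (nat_lit 304) (nat_lit 0) (XT.nd (nat_lit 78) (nat_lit 0) (nat_lit 0) (XT.lf (nat_lit 0) (nat_lit 7062099699) (nat_lit 380) (nat_lit 2849117317) (nat_lit 456) (nat_lit 19226797267) (nat_lit 74) (nat_lit 5) (nat_lit 79) (nat_lit 5) (nat_lit 80) (nat_lit 5) (nat_lit 344) (nat_lit 301) (nat_lit 135)) (XT.lf (nat_lit 0) (nat_lit 13605448103) (nat_lit 456) (nat_lit 9952457408) (nat_lit 76) (nat_lit 6158649661) (nat_lit 74) (nat_lit 5) (nat_lit 80) (nat_lit 5) (nat_lit 75) (nat_lit 5) (nat_lit 345) (nat_lit 301) (nat_lit 134))) (XT.nd (nat_lit 78) (nat_lit 0) (nat_lit 0) (XT.lf (nat_lit 0) (nat_lit 2551123049) (nat_lit 304) (nat_lit 14908045988) (nat_lit 380) (nat_lit 12851830924) (nat_lit 70) (nat_lit 5)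 (nat_lit 74) (nat_lit 5) (nat_lit 75) (nat_lit 5) (nat_lit 346) (nat_lit 301) (nat_lit 133)) (XT.nd (nat_lit 78) (nat_lit 0) (nat_lit 0) (XT.lf (nat_lit 0) (nat_lit 15628724110) (nat_lit 304) (nat_lit 5896278142) (nat_lit 380) (nat_lit 9395388160) (nat_lit 70) (nat_lit 5) (nat_lit 74) (nat_lit 5) (nat_lit 75) (nat_lit 5) (nat_lit 347) (nat_lit 301) (nat_lit 132)) (XT.lf (nat_lit 0) (nat_lit 25741463808) (nat_lit 380) (nat_lit 2487023313) (nat_lit 76) (nat_lit 3318722984) (nat_lit 70) (nat_lit 5) (nat_lit 75) (nat_lit 5) (nat_lit 71) (nat_lit 5) (nat_lit 348) (nat_lit 301) (nat_lit 131))))) (XT.nd (nat_lit 234) (nat_lit 304) (nat_lit 0) (XT.nd (nat_lit 78) (nat_lit 380) (nat_lit 0) (XT.lf (nat_lit 0) (nat_lit 10850186639) (nat_lit 304) (nat_lit 19393130145) (nat_lit 380) (nat_lit 1944757594) (nat_lit 66) (nat_lit 5) (nat_lit 70) (nat_lit 5) (nat_lit 71) (nat_lit 5) (nat_lit 349) (nat_lit 301)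 (nat_lit 130)) (XT.nd (nat_lit 78) (nat_lit 304) (nat_lit 0) (XT.lf (nat_lit 0) (nat_lit 2014010497) (nat_lit 380) (nat_lit 8233651477) (nat_lit 76) (nat_lit 22599275049) (nat_lit 65) (nat_lit 5) (nat_lit 70) (nat_lit 5) (nat_lit 66) (nat_lit 5) (nat_lit 350) (nat_lit 301) (nat_lit 129)) (XT.lf (nat_lit 0) (nat_lit 5343927693) (nat_lit 304) (nat_lit 756244695) (nat_lit 380) (nat_lit 27423390284) (nat_lit 61) (nat_lit 5) (nat_lit 65) (nat_lit 5) (nat_lit 66) (nat_lit 5) (nat_lit 351) (nat_lit 301) (nat_lit 128)))) (XT.nd (nat_lit 78) (nat_lit 304) (nat_lit 0) (XT.lf (nat_lit 0) (nat_lit 10475989682) (nat_lit 380) (nat_lit 14812768784) (nat_lit 76) (nat_lit 8926722657) (nat_lit 61) (nat_lit 5) (nat_lit 66) (nat_lit 5) (nat_lit 62) (nat_lit 5) (nat_lit 352) (nat_lit 301) (nat_lit 127)) (XT.nd (nat_lit 78) (nat_lit 304) (nat_lit 0) (XT.lf (nat_lit 0) (nat_lit 14987072619) (nat_lit 380) (nat_lit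 1057106388) (nat_lit 76) (nat_lit 18883864355) (nat_lit 61) (nat_lit 5) (nat_lit 66) (nat_lit 5) (nat_lit 62) (nat_lit 5) (nat_lit 353) (nat_lit 301) (nat_lit 126)) (XT.lf (nat_lit 0) (nat_lit 13367489066) (nat_lit 304) (nat_lit 6391100853) (nat_lit 380) (nat_lit 15899645286) (nat_lit 57) (nat_lit 5) (nat_lit 61) (nat_lit 5) (nat_lit 62) (nat_lit 5) (nat_lit 354) (nat_lit 301) (nat_lit 125)))))) (XT.nd (nat_lit 390) (nat_lit 456) (nat_lit 0) (XT.nd (nat_lit 156) (nat_lit 380) (nat_lit 0) (XT.nd (nat_lit 78) (nat_lit 228) (nat_lit 0) (XT.lf (nat_lit 0) (nat_lit 24714822078) (nat_lit 380) (nat_lit 8202400076) (nat_lit 76) (nat_lit 3491869194) (nat_lit 57) (nat_lit 5) (nat_lit 62) (nat_lit 5) (nat_lit 58) (nat_lit 5) (nat_lit 355) (nat_lit 301) (nat_lit 124)) (XT.lf (nat_lit 0) (nat_lit 6365023655) (nat_lit 228) (nat_lit 23575926960) (nat_lit 304) (nat_lit 7237891740) (nat_lit 54) (nat_lit 5) (nat_lit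 57) (nat_lit 5) (nat_lit 58) (nat_lit 5) (nat_lit 356) (nat_lit 301) (nat_lit 123))) (XT.nd (nat_lit 78) (nat_lit 380) (nat_lit 0) (XT.lf (nat_lit 0) (nat_lit 21533156345) (nat_lit 228) (nat_lit 13870333441) (nat_lit 304) (nat_lit 2565812605) (nat_lit 54) (nat_lit 5) (nat_lit 57) (nat_lit 5) (nat_lit 58) (nat_lit 5) (nat_lit 357) (nat_lit 301) (nat_lit 122)) (XT.nd (nat_lit 78) (nat_lit 304) (nat_lit 0) (XT.lf (nat_lit 0) (nat_lit 2199449028) (nat_lit 304) (nat_lit 1653129990) (nat_lit 76) (nat_lit 34930348706) (nat_lit 53) (nat_lit 5) (nat_lit 57) (nat_lit 5) (nat_lit 54) (nat_lit 5) (nat_lit 358) (nat_lit 301) (nat_lit 121)) (XT.lf (nat_lit 0) (nat_lit 7249534159) (nat_lit 380) (nat_lit 25866765540) (nat_lit 76) (nat_lit 6498101769) (nat_lit 49) (nat_lit 5) (nat_lit 54) (nat_lit 5) (nat_lit 50) (nat_lit 5) (nat_lit 359) (nat_lit 301) (nat_lit 120))))) (XT.nd (nat_lit 234) (nat_lit 228) (nat_lit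 0) (XT.nd (nat_lit 78) (nat_lit 228) (nat_lit 0) (XT.lf (nat_lit 0) (nat_lit 12503109053) (nat_lit 380) (nat_lit 10868621971) (nat_lit 76) (nat_lit 17097533495) (nat_lit 49) (nat_lit 5) (nat_lit 54) (nat_lit 5) (nat_lit 50) (nat_lit 5) (nat_lit 360) (nat_lit 301) (nat_lit 119)) (XT.nd (nat_lit 78) (nat_lit 0) (nat_lit 0) (XT.lf (nat_lit 0) (nat_lit 4666342381) (nat_lit 228) (nat_lit 13289876596) (nat_lit 304) (nat_lit 23392301225) (nat_lit 46) (nat_lit 5) (nat_lit 49) (nat_lit 5) (nat_lit 50) (nat_lit 5) (nat_lit 361) (nat_lit 301) (nat_lit 118)) (XT.lf (nat_lit 0) (nat_lit 20886012076) (nat_lit 228) (nat_lit 2793779428) (nat_lit 304) (nat_lit 18571160413) (nat_lit 46) (nat_lit 5) (nat_lit 49) (nat_lit 5) (nat_lit 50) (nat_lit 5) (nat_lit 362) (nat_lit 301) (nat_lit 117)))) (XT.nd (nat_lit 78) (nat_lit 228) (nat_lit 0) (XT.lf (nat_lit 0) (nat_lit 29649327202) (nat_lit 304) (nat_lit 5669346603)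 (nat_lit 76) (nat_lit 7859559411) (nat_lit 46) (nat_lit 5) (nat_lit 50) (nat_lit 5) (nat_lit 47) (nat_lit 5) (nat_lit 363) (nat_lit 301) (nat_lit 116)) (XT.nd (nat_lit 78) (nat_lit 0) (nat_lit 0) (XT.lf (nat_lit 0) (nat_lit 10673760408) (nat_lit 228) (nat_lit 25251724066) (nat_lit 304) (nat_lit 8204026600) (nat_lit 43) (nat_lit 5) (nat_lit 46) (nat_lit 5) (nat_lit 47) (nat_lit 5) (nat_lit 364) (nat_lit 301) (nat_lit 115)) (XT.lf (nat_lit 0) (nat_lit 27619439309) (nat_lit 228) (nat_lit 14825049667) (nat_lit 304) (nat_lit 2663205479) (nat_lit 43) (nat_lit 5) (nat_lit 46) (nat_lit 5) (nat_lit 47) (nat_lit 5) (nat_lit 365) (nat_lit 301) (nat_lit 114))))))) (XT.nd (nat_lit 858) (nat_lit 304) (nat_lit 0) (XT.nd (nat_lit 390) (nat_lit 456) (nat_lit 0) (XT.nd (nat_lit 156) (nat_lit 228) (nat_lit 0) (XT.nd (nat_lit 78) (nat_lit 228) (nat_lit 0) (XT.lf (nat_lit 0) (nat_lit 2981805774) (nat_lit 304) (nat_lit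 1074873042) (nat_lit 76) (nat_lit 42057749722) (nat_lit 42) (nat_lit 5) (nat_lit 46) (nat_lit 5) (nat_lit 43) (nat_lit 5) (nat_lit 366) (nat_lit 301) (nat_lit 113)) (XT.lf (nat_lit 0) (nat_lit 8964393277) (nat_lit 304) (nat_lit 31100169834) (nat_lit 76) (nat_lit 7079361589) (nat_lit 39) (nat_lit 5) (nat_lit 43) (nat_lit 5) (nat_lit 40) (nat_lit 5) (nat_lit 367) (nat_lit 301) (nat_lit 112))) (XT.nd (nat_lit 78) (nat_lit 228) (nat_lit 0) (XT.lf (nat_lit 0) (nat_lit 15175050906) (nat_lit 304) (nat_lit 14550074082) (nat_lit 76) (nat_lit 18477726594) (nat_lit 39) (nat_lit 5) (nat_lit 43) (nat_lit 5) (nat_lit 40) (nat_lit 5) (nat_lit 368) (nat_lit 301) (nat_lit 111)) (XT.nd (nat_lit 78) (nat_lit 0) (nat_lit 0) (XT.lf (nat_lit 0) (nat_lit 2542450685) (nat_lit 228) (nat_lit 19051556768) (nat_lit 304) (nat_lit 27698882948) (nat_lit 36) (nat_lit 5) (nat_lit 39) (nat_lit 5) (nat_lit 40) (nat_lit 5) (nat_lit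 369) (nat_lit 301) (nat_lit 110)) (XT.lf (nat_lit 0) (nat_lit 20442363364) (nat_lit 228) (nat_lit 7907672727) (nat_lit 304) (nat_lit 22061262595) (nat_lit 36) (nat_lit 5) (nat_lit 39) (nat_lit 5) (nat_lit 40) (nat_lit 5) (nat_lit 370) (nat_lit 301) (nat_lit 109))))) (XT.nd (nat_lit 234) (nat_lit 304) (nat_lit 0) (XT.nd (nat_lit 78) (nat_lit 152) (nat_lit 0) (XT.lf (nat_lit 0) (nat_lit 35340703014) (nat_lit 304) (nat_lit 12721914124) (nat_lit 76) (nat_lit 3499686663) (nat_lit 36) (nat_lit 5) (nat_lit 40) (nat_lit 5) (nat_lit 37) (nat_lit 5) (nat_lit 371) (nat_lit 301) (nat_lit 108)) (XT.nd (nat_lit 78) (nat_lit 0) (nat_lit 0) (XT.lf (nat_lit 0) (nat_lit 5059450835) (nat_lit 152) (nat_lit 37606271636) (nat_lit 228) (nat_lit 10078380831) (nat_lit 34) (nat_lit 5) (nat_lit 36) (nat_lit 5) (nat_lit 37) (nat_lit 5) (nat_lit 372) (nat_lit 301) (nat_lit 107)) (XT.lf (nat_lit 0) (nat_lit 23631576642)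 (nat_lit 152) (nat_lit 26705120001) (nat_lit 228) (nat_lit 3620877135) (nat_lit 34) (nat_lit 5) (nat_lit 36) (nat_lit 5) (nat_lit 37) (nat_lit 5) (nat_lit 373) (nat_lit 301) (nat_lit 106)))) (XT.nd (nat_lit 78) (nat_lit 228) (nat_lit 0) (XT.lf (nat_lit 0) (nat_lit 2968997518) (nat_lit 228) (nat_lit 12479124772) (nat_lit 76) (nat_lit 39758521759) (nat_lit 33) (nat_lit 5) (nat_lit 36) (nat_lit 5) (nat_lit 34) (nat_lit 5) (nat_lit 374) (nat_lit 301) (nat_lit 105)) (XT.nd (nat_lit 78) (nat_lit 0) (nat_lit 0) (XT.lf (nat_lit 0) (nat_lit 5980694768) (nat_lit 228) (nat_lit 3758431309) (nat_lit 304) (nat_lit 46751327682) (nat_lit 30) (nat_lit 5) (nat_lit 33) (nat_lit 5) (nat_lit 34) (nat_lit 5) (nat_lit 375) (nat_lit 301) (nat_lit 104)) (XT.lf (nat_lit 0) (nat_lit 16917095800) (nat_lit 304) (nat_lit 32643073990) (nat_lit 76) (nat_lit 8246468619) (nat_lit 30) (nat_lit 5) (nat_lit 34) (nat_lit 5) (nat_lit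 31) (nat_lit 5) (nat_lit 376) (nat_lit 301) (nat_lit 103)))))) (XT.nd (nat_lit 34866) (nat_lit 0) (nat_lit 9500) (XT.nd (nat_lit 234) (nat_lit 152) (nat_lit 0) (XT.nd (nat_lit 78) (nat_lit 152) (nat_lit 0) (XT.lf (nat_lit 0) (nat_lit 24345542794) (nat_lit 304) (nat_lit 14280839994) (nat_lit 76) (nat_lit 20534874350) (nat_lit 30) (nat_lit 5) (nat_lit 34) (nat_lit 5) (nat_lit 31) (nat_lit 5) (nat_lit 377) (nat_lit 301) (nat_lit 102)) (XT.nd (nat_lit 78) (nat_lit 0) (nat_lit 0) (XT.lf (nat_lit 0) (nat_lit 4721244493) (nat_lit 152) (nat_lit 27318968593) (nat_lit 228) (nat_lit 28515002856) (nat_lit 28) (nat_lit 5) (nat_lit 30) (nat_lit 5) (nat_lit 31) (nat_lit 5) (nat_lit 378) (nat_lit 301) (nat_lit 101)) (XT.lf (nat_lit 0) (nat_lit 24583020554) (nat_lit 152) (nat_lit 15524926527) (nat_lit 228) (nat_lit 21878782254) (nat_lit 28) (nat_lit 5) (nat_lit 30) (nat_lit 5) (nat_lit 31) (nat_lit 5) (nat_lit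 379) (nat_lit 301) (nat_lit 100)))) (XT.nd (nat_lit 78) (nat_lit 152) (nat_lit 0) (XT.lf (nat_lit 0) (nat_lit 45037626422) (nat_lit 152) (nat_lit 3378159597) (nat_lit 228) (nat_lit 15045462381) (nat_lit 28) (nat_lit 5) (nat_lit 30) (nat_lit 5) (nat_lit 31) (nat_lit 5) (nat_lit 380) (nat_lit 301) (nat_lit 99)) (XT.nd (nat_lit 34476) (nat_lit 0) (nat_lit 9500) (XT.lf (nat_lit 0) (nat_lit 1055692001) (nat_lit 152) (nat_lit 56013226984) (nat_lit 228) (nat_lit 7908204674) (nat_lit 26) (nat_lit 5) (nat_lit 28) (nat_lit 5) (nat_lit 29) (nat_lit 5) (nat_lit 381) (nat_lit 301) (nat_lit 98)) (XT.lf (nat_lit 0) (nat_lit 1302384726) (nat_lit 1140) (nat_lit 2961812980) (nat_lit 1140) (nat_lit 2961812980) (nat_lit 151) (nat_lit 3) (nat_lit 166) (nat_lit 3) (nat_lit 166) (nat_lit 5) (nat_lit 302) (nat_lit 302) (nat_lit 176))))) (XT.nd (nat_lit 234) (nat_lit 0) (nat_lit 76) (XT.nd (nat_lit 78) (nat_lit 0) (nat_lit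 76) (XT.lf (nat_lit 76) (nat_lit 89812000) (nat_lit 0) (nat_lit 2846035951) (nat_lit 1140) (nat_lit 11723482337) (nat_lit 152) (nat_lit 5) (nat_lit 151) (nat_lit 3) (nat_lit 166) (nat_lit 5) (nat_lit 303) (nat_lit 302) (nat_lit 175)) (XT.nd (nat_lit 78) (nat_lit 0) (nat_lit 0) (XT.lf (nat_lit 0) (nat_lit 3354803449) (nat_lit 1064) (nat_lit 8501882670) (nat_lit 1140) (nat_lit 3013861768) (nat_lit 152) (nat_lit 5) (nat_lit 166) (nat_lit 5) (nat_lit 167) (nat_lit 5) (nat_lit 304) (nat_lit 302) (nat_lit 174)) (XT.lf (nat_lit 0) (nat_lit 3803469529) (nat_lit 1064) (nat_lit 2286614946) (nat_lit 1140) (nat_lit 8997530229) (nat_lit 152) (nat_lit 5) (nat_lit 166) (nat_lit 5) (nat_lit 167) (nat_lit 5) (nat_lit 305) (nat_lit 302) (nat_lit 173)))) (XT.nd (nat_lit 78) (nat_lit 0) (nat_lit 76) (XT.lf (nat_lit 76) (nat_lit 4190852158) (nat_lit 0) (nat_lit 104313267) (nat_lit 1140) (nat_lit 11015167170) (nat_lit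 153) (nat_lit 5) (nat_lit 152) (nat_lit 5) (nat_lit 167) (nat_lit 5) (nat_lit 306) (nat_lit 302) (nat_lit 172)) (XT.nd (nat_lit 78) (nat_lit 0) (nat_lit 0) (XT.lf (nat_lit 0) (nat_lit 4872775996) (nat_lit 1064) (nat_lit 4694374015) (nat_lit 1140) (nat_lit 5970472496) (nat_lit 153) (nat_lit 5) (nat_lit 167) (nat_lit 5) (nat_lit 168) (nat_lit 5) (nat_lit 307) (nat_lit 302) (nat_lit 171)) (XT.lf (nat_lit 76) (nat_lit 1954415343) (nat_lit 0) (nat_lit 3523005320) (nat_lit 1140) (nat_lit 10294043943) (nat_lit 154) (nat_lit 5) (nat_lit 153) (nat_lit 5) (nat_lit 168) (nat_lit 5) (nat_lit 308) (nat_lit 302) (nat_lit 170))))))))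
noncomputable def xc213 : XT := (XT.nd (nat_lit 1716) (nat_lit 4028) (nat_lit 0) (XT.nd (nat_lit 858) (nat_lit 3040) (nat_lit 0) (XT.nd (nat_lit 390) (nat_lit 0) (nat_lit 152) (XT.nd (nat_lit 156) (nat_lit 0) (nat_lit 0) (XT.nd (nat_lit 78) (nat_lit 0) (nat_lit 0) (XT.lf (nat_lit 0) (nat_lit 6164213646) (nat_lit 1064) (nat_lit 7144919544) (nat_lit 1140) (nat_lit 2701292450) (nat_lit 154) (nat_lit 5) (nat_lit 168) (nat_lit 5) (nat_lit 169) (nat_lit 5) (nat_lit 309) (nat_lit 302) (nat_lit 169)) (XT.lf (nat_lit 0) (nat_lit 6896936246) (nat_lit 1064) (nat_lit 313789759) (nat_lit 1140) (nat_lit 9045092971) (nat_lit 154) (nat_lit 5) (nat_lit 168) (nat_lit 5) (nat_lit 169) (nat_lit 5) (nat_lit 310) (nat_lit 302) (nat_lit 168))) (XT.nd (nat_lit 78) (nat_lit 0) (nat_lit 76) (XT.lf (nat_lit 76) (nat_lit 6849839360) (nat_lit 0) (nat_lit 858368908) (nat_lit 1140) (nat_lit 8798691379) (nat_lit 155) (nat_lit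 5) (nat_lit 154) (nat_lit 5) (nat_lit 169) (nat_lit 5) (nat_lit 311) (nat_lit 302) (nat_lit 167)) (XT.nd (nat_lit 78) (nat_lit 0) (nat_lit 0) (XT.lf (nat_lit 0) (nat_lit 8592626071) (nat_lit 1064) (nat_lit 2591645510) (nat_lit 1140) (nat_lit 5579798840) (nat_lit 155) (nat_lit 5) (nat_lit 169) (nat_lit 5) (nat_lit 170) (nat_lit 5) (nat_lit 312) (nat_lit 302) (nat_lit 166)) (XT.lf (nat_lit 76) (nat_lit 4764018759) (nat_lit 0) (nat_lit 4785078320) (nat_lit 1140) (nat_lit 7478514892) (nat_lit 156) (nat_lit 5) (nat_lit 155) (nat_lit 5) (nat_lit 170) (nat_lit 5) (nat_lit 313) (nat_lit 302) (nat_lit 165))))) (XT.nd (nat_lit 234) (nat_lit 0) (nat_lit 76) (XT.nd (nat_lit 78) (nat_lit 0) (nat_lit 0) (XT.lf (nat_lit 0) (nat_lit 10569500783) (nat_lit 1064) (nat_lit 4928834288) (nat_lit 1140) (nat_lit 1799688193) (nat_lit 156) (nat_lit 5) (nat_lit 170) (nat_lit 5) (nat_lit 171) (nat_lit 5) (nat_lit 314)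 (nat_lit 302) (nat_lit 164)) (XT.nd (nat_lit 78) (nat_lit 0) (nat_lit 0) (XT.lf (nat_lit 76) (nat_lit 2623553899) (nat_lit 0) (nat_lit 9061255676) (nat_lit 1140) (nat_lit 5889828583) (nat_lit 157) (nat_lit 5) (nat_lit 156) (nat_lit 5) (nat_lit 171) (nat_lit 5) (nat_lit 315) (nat_lit 302) (nat_lit 163)) (XT.lf (nat_lit 76) (nat_lit 10497379619) (nat_lit 0) (nat_lit 2377848862) (nat_lit 1140) (nat_lit 4983092958) (nat_lit 157) (nat_lit 5) (nat_lit 156) (nat_lit 5) (nat_lit 171) (nat_lit 5) (nat_lit 316) (nat_lit 302) (nat_lit 162)))) (XT.nd (nat_lit 78) (nat_lit 0) (nat_lit 0) (XT.lf (nat_lit 76) (nat_lit 415432168) (nat_lit 0) (nat_lit 13725370198) (nat_lit 1140) (nat_lit 4008548483) (nat_lit 158) (nat_lit 5) (nat_lit 157) (nat_lit 5) (nat_lit 172) (nat_lit 5) (nat_lit 317) (nat_lit 302) (nat_lit 161)) (XT.nd (nat_lit 78) (nat_lit 0) (nat_lit 0) (XT.lf (nat_lit 76) (nat_lit 8545774979) (nat_lit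 0) (nat_lit 6988515306) (nat_lit 1140) (nat_lit 2912140799) (nat_lit 158) (nat_lit 5) (nat_lit 157) (nat_lit 5) (nat_lit 172) (nat_lit 5) (nat_lit 318) (nat_lit 302) (nat_lit 160)) (XT.lf (nat_lit 76) (nat_lit 16914005864) (nat_lit 0) (nat_lit 48104646) (nat_lit 1140) (nat_lit 1790555205) (nat_lit 158) (nat_lit 5) (nat_lit 157) (nat_lit 5) (nat_lit 172) (nat_lit 5) (nat_lit 319) (nat_lit 302) (nat_lit 159)))))) (XT.nd (nat_lit 390) (nat_lit 988) (nat_lit 0) (XT.nd (nat_lit 156) (nat_lit 1216) (nat_lit 0) (XT.nd (nat_lit 78) (nat_lit 76) (nat_lit 0) (XT.lf (nat_lit 0) (nat_lit 6518036863) (nat_lit 1064) (nat_lit 12038397201) (nat_lit 1140) (nat_lit 507960553) (nat_lit 144) (nat_lit 5) (nat_lit 158) (nat_lit 5) (nat_lit 159) (nat_lit 5) (nat_lit 320) (nat_lit 302) (nat_lit 158)) (XT.lf (nat_lit 0) (nat_lit 809297253) (nat_lit 1140) (nat_lit 4236464041) (nat_lit 76) (nat_lit 14339134352) (nat_lit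 143) (nat_lit 5) (nat_lit 158) (nat_lit 5) (nat_lit 144) (nat_lit 5) (nat_lit 321) (nat_lit 302) (nat_lit 157))) (XT.nd (nat_lit 78) (nat_lit 532) (nat_lit 0) (XT.lf (nat_lit 0) (nat_lit 2212377302) (nat_lit 760) (nat_lit 15337532114) (nat_lit 76) (nat_lit 2163271818) (nat_lit 134) (nat_lit 5) (nat_lit 144) (nat_lit 5) (nat_lit 135) (nat_lit 5) (nat_lit 322) (nat_lit 302) (nat_lit 156)) (XT.nd (nat_lit 78) (nat_lit 532) (nat_lit 0) (XT.lf (nat_lit 0) (nat_lit 3743899353) (nat_lit 760) (nat_lit 6773628074) (nat_lit 76) (nat_lit 9531212842) (nat_lit 134) (nat_lit 5) (nat_lit 144) (nat_lit 5) (nat_lit 135) (nat_lit 5) (nat_lit 323) (nat_lit 302) (nat_lit 155)) (XT.lf (nat_lit 0) (nat_lit 2081813343) (nat_lit 532) (nat_lit 3252951818) (nat_lit 608) (nat_lit 15059213893) (nat_lit 127) (nat_lit 5) (nat_lit 134) (nat_lit 5) (nat_lit 135) (nat_lit 5) (nat_lit 324) (nat_lit 302) (nat_lit 154))))) (XT.nd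 (nat_lit 234) (nat_lit 456) (nat_lit 0) (XT.nd (nat_lit 78) (nat_lit 532) (nat_lit 0) (XT.lf (nat_lit 0) (nat_lit 7076618710) (nat_lit 608) (nat_lit 9453245132) (nat_lit 76) (nat_lit 4216627791) (nat_lit 127) (nat_lit 5) (nat_lit 135) (nat_lit 5) (nat_lit 128) (nat_lit 5) (nat_lit 325) (nat_lit 302) (nat_lit 153)) (XT.nd (nat_lit 78) (nat_lit 532) (nat_lit 0) (XT.lf (nat_lit 0) (nat_lit 8896650888) (nat_lit 608) (nat_lit 366743524) (nat_lit 76) (nat_lit 11845421552) (nat_lit 127) (nat_lit 5) (nat_lit 135) (nat_lit 5) (nat_lit 128) (nat_lit 5) (nat_lit 326) (nat_lit 302) (nat_lit 152)) (XT.lf (nat_lit 0) (nat_lit 9165398063) (nat_lit 532) (nat_lit 1687888000) (nat_lit 608) (nat_lit 10626277555) (nat_lit 120) (nat_lit 5) (nat_lit 127) (nat_lit 5) (nat_lit 128) (nat_lit 5) (nat_lit 327) (nat_lit 302) (nat_lit 151)))) (XT.nd (nat_lit 78) (nat_lit 456) (nat_lit 0) (XT.lf (nat_lit 0) (nat_lit 12925163649)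 (nat_lit 608) (nat_lit 2935060414) (nat_lit 76) (nat_lit 5999526595) (nat_lit 120) (nat_lit 5) (nat_lit 128) (nat_lit 5) (nat_lit 121) (nat_lit 5) (nat_lit 328) (nat_lit 302) (nat_lit 150)) (XT.nd (nat_lit 78) (nat_lit 0) (nat_lit 0) (XT.lf (nat_lit 0) (nat_lit 6836337862) (nat_lit 456) (nat_lit 8299483896) (nat_lit 532) (nat_lit 7113235693) (nat_lit 114) (nat_lit 5) (nat_lit 120) (nat_lit 5) (nat_lit 121) (nat_lit 5) (nat_lit 329) (nat_lit 302) (nat_lit 149)) (XT.lf (nat_lit 0) (nat_lit 16955330683) (nat_lit 456) (nat_lit 481418747) (nat_lit 532) (nat_lit 5212588022) (nat_lit 114) (nat_lit 5) (nat_lit 120) (nat_lit 5) (nat_lit 121) (nat_lit 5) (nat_lit 330) (nat_lit 302) (nat_lit 148))))))) (XT.nd (nat_lit 858) (nat_lit 1824) (nat_lit 0) (XT.nd (nat_lit 390) (nat_lit 1216) (nat_lit 0) (XT.nd (nat_lit 156) (nat_lit 532) (nat_lit 0) (XT.nd (nat_lit 78) (nat_lit 0) (nat_lit 0) (XT.lf (nat_lit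 0) (nat_lit 4322103911) (nat_lit 456) (nat_lit 15593403538) (nat_lit 532) (nat_lit 3142866458) (nat_lit 108) (nat_lit 5) (nat_lit 114) (nat_lit 5) (nat_lit 115) (nat_lit 5) (nat_lit 331) (nat_lit 302) (nat_lit 147)) (XT.lf (nat_lit 0) (nat_lit 14744889761) (nat_lit 456) (nat_lit 7780539840) (nat_lit 532) (nat_lit 952559591) (nat_lit 108) (nat_lit 5) (nat_lit 114) (nat_lit 5) (nat_lit 115) (nat_lit 5) (nat_lit 332) (nat_lit 302) (nat_lit 146))) (XT.nd (nat_lit 78) (nat_lit 0) (nat_lit 0) (XT.lf (nat_lit 0) (nat_lit 1290750600) (nat_lit 532) (nat_lit 22329462417) (nat_lit 76) (nat_lit 289233255) (nat_lit 101) (nat_lit 5) (nat_lit 108) (nat_lit 5) (nat_lit 102) (nat_lit 5) (nat_lit 333) (nat_lit 302) (nat_lit 145)) (XT.nd (nat_lit 78) (nat_lit 0) (nat_lit 0) (XT.lf (nat_lit 0) (nat_lit 3743085955) (nat_lit 532) (nat_lit 12062790541) (nat_lit 76) (nat_lit 8542872268) (nat_lit 101) (nat_lit 5) (nat_lit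 108) (nat_lit 5) (nat_lit 102) (nat_lit 5) (nat_lit 334) (nat_lit 302) (nat_lit 144)) (XT.lf (nat_lit 0) (nat_lit 6263919520) (nat_lit 532) (nat_lit 1493680876) (nat_lit 76) (nat_lit 17043792554) (nat_lit 101) (nat_lit 5) (nat_lit 108) (nat_lit 5) (nat_lit 102) (nat_lit 5) (nat_lit 335) (nat_lit 302) (nat_lit 143))))) (XT.nd (nat_lit 234) (nat_lit 380) (nat_lit 0) (XT.nd (nat_lit 78) (nat_lit 380) (nat_lit 0) (XT.lf (nat_lit 0) (nat_lit 8953506089) (nat_lit 532) (nat_lit 15697111701) (nat_lit 76) (nat_lit 614214994) (nat_lit 95) (nat_lit 5) (nat_lit 102) (nat_lit 5) (nat_lit 96) (nat_lit 5) (nat_lit 336) (nat_lit 302) (nat_lit 142)) (XT.nd (nat_lit 78) (nat_lit 380) (nat_lit 0) (XT.lf (nat_lit 0) (nat_lit 11810983704) (nat_lit 532) (nat_lit 4832593769) (nat_lit 76) (nat_lit 9095992098) (nat_lit 95) (nat_lit 5) (nat_lit 102) (nat_lit 5) (nat_lit 96) (nat_lit 5) (nat_lit 337) (nat_lit 302) (nat_lit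 141)) (XT.lf (nat_lit 0) (nat_lit 6478950183) (nat_lit 380) (nat_lit 8332818919) (nat_lit 456) (nat_lit 11415061433) (nat_lit 90) (nat_lit 5) (nat_lit 95) (nat_lit 5) (nat_lit 96) (nat_lit 5) (nat_lit 338) (nat_lit 302) (nat_lit 140)))) (XT.nd (nat_lit 78) (nat_lit 380) (nat_lit 0) (XT.lf (nat_lit 0) (nat_lit 17949428855) (nat_lit 456) (nat_lit 8506435164) (nat_lit 76) (nat_lit 271449084) (nat_lit 90) (nat_lit 5) (nat_lit 96) (nat_lit 5) (nat_lit 91) (nat_lit 5) (nat_lit 339) (nat_lit 302) (nat_lit 139)) (XT.nd (nat_lit 78) (nat_lit 0) (nat_lit 0) (XT.lf (nat_lit 0) (nat_lit 3043879344) (nat_lit 380) (nat_lit 18244619627) (nat_lit 456) (nat_lit 5951101786) (nat_lit 85) (nat_lit 5) (nat_lit 90) (nat_lit 5) (nat_lit 91) (nat_lit 5) (nat_lit 340) (nat_lit 302) (nat_lit 138)) (XT.lf (nat_lit 0) (nat_lit 15109860589) (nat_lit 380) (nat_lit 9699377112) (nat_lit 456) (nat_lit 2955583209) (nat_lit 85)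 (nat_lit 5) (nat_lit 90) (nat_lit 5) (nat_lit 91) (nat_lit 5) (nat_lit 341) (nat_lit 302) (nat_lit 137)))))) (XT.nd (nat_lit 468) (nat_lit 684) (nat_lit 0) (XT.nd (nat_lit 234) (nat_lit 684) (nat_lit 0) (XT.nd (nat_lit 78) (nat_lit 380) (nat_lit 0) (XT.lf (nat_lit 0) (nat_lit 122943785) (nat_lit 456) (nat_lit 774382795) (nat_lit 76) (nat_lit 27408571645) (nat_lit 84) (nat_lit 5) (nat_lit 90) (nat_lit 5) (nat_lit 85) (nat_lit 5) (nat_lit 342) (nat_lit 302) (nat_lit 136)) (XT.nd (nat_lit 78) (nat_lit 0) (nat_lit 0) (XT.lf (nat_lit 0) (nat_lit 3422181185) (nat_lit 456) (nat_lit 17283230478) (nat_lit 76) (nat_lit 8151293553) (nat_lit 79) (nat_lit 5) (nat_lit 85) (nat_lit 5) (nat_lit 80) (nat_lit 5) (nat_lit 343) (nat_lit 302) (nat_lit 135)) (XT.lf (nat_lit 0) (nat_lit 6833045569) (nat_lit 456) (nat_lit 5130204366) (nat_lit 76) (nat_lit 17460414773) (nat_lit 79) (nat_lit 5) (nat_lit 85) (nat_lit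 5) (nat_lit 80) (nat_lit 5) (nat_lit 344) (nat_lit 302) (nat_lit 134)))) (XT.nd (nat_lit 78) (nat_lit 304) (nat_lit 0) (XT.lf (nat_lit 0) (nat_lit 7529403571) (nat_lit 380) (nat_lit 2885198159) (nat_lit 456) (nat_lit 19590987839) (nat_lit 74) (nat_lit 5) (nat_lit 79) (nat_lit 5) (nat_lit 80) (nat_lit 5) (nat_lit 345) (nat_lit 302) (nat_lit 133)) (XT.nd (nat_lit 78) (nat_lit 304) (nat_lit 0) (XT.lf (nat_lit 0) (nat_lit 14214119310) (nat_lit 456) (nat_lit 9997117314) (nat_lit 76) (nat_lit 6390427450) (nat_lit 74) (nat_lit 5) (nat_lit 80) (nat_lit 5) (nat_lit 75) (nat_lit 5) (nat_lit 346) (nat_lit 302) (nat_lit 132)) (XT.lf (nat_lit 0) (nat_lit 2879081206) (nat_lit 304) (nat_lit 15300947480) (nat_lit 380) (nat_lit 13034027066) (nat_lit 70) (nat_lit 5) (nat_lit 74) (nat_lit 5) (nat_lit 75) (nat_lit 5) (nat_lit 347) (nat_lit 302) (nat_lit 131))))) (XT.nd (nat_lit 234) (nat_lit 380) (nat_lit 0) (XT.nd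 (nat_lit 78) (nat_lit 304) (nat_lit 0) (XT.lf (nat_lit 0) (nat_lit 16341687256) (nat_lit 304) (nat_lit 6020409314) (nat_lit 380) (nat_lit 9479814091) (nat_lit 70) (nat_lit 5) (nat_lit 74) (nat_lit 5) (nat_lit 75) (nat_lit 5) (nat_lit 348) (nat_lit 302) (nat_lit 130)) (XT.nd (nat_lit 78) (nat_lit 304) (nat_lit 0) (XT.lf (nat_lit 0) (nat_lit 26699971203) (nat_lit 380) (nat_lit 2319220661) (nat_lit 76) (nat_lit 3468505732) (nat_lit 70) (nat_lit 5) (nat_lit 75) (nat_lit 5) (nat_lit 71) (nat_lit 5) (nat_lit 349) (nat_lit 302) (nat_lit 129)) (XT.lf (nat_lit 0) (nat_lit 11415728988) (nat_lit 304) (nat_lit 19918033010) (nat_lit 380) (nat_lit 1814129261) (nat_lit 66) (nat_lit 5) (nat_lit 70) (nat_lit 5) (nat_lit 71) (nat_lit 5) (nat_lit 350) (nat_lit 302) (nat_lit 128)))) (XT.nd (nat_lit 78) (nat_lit 304) (nat_lit 0) (XT.lf (nat_lit 0) (nat_lit 2254317758) (nat_lit 380) (nat_lit 8243723551) (nat_lit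 76) (nat_lit 23328595236) (nat_lit 65) (nat_lit 5) (nat_lit 70) (nat_lit 5) (nat_lit 66) (nat_lit 5) (nat_lit 351) (nat_lit 302) (nat_lit 127)) (XT.nd (nat_lit 78) (nat_lit 0) (nat_lit 0) (XT.lf (nat_lit 0) (nat_lit 5738860079) (nat_lit 304) (nat_lit 721220261) (nat_lit 380) (nat_lit 28063579237) (nat_lit 61) (nat_lit 5) (nat_lit 65) (nat_lit 5) (nat_lit 66) (nat_lit 5) (nat_lit 352) (nat_lit 302) (nat_lit 126)) (XT.lf (nat_lit 0) (nat_lit 10962558247) (nat_lit 380) (nat_lit 15024462751) (nat_lit 76) (nat_lit 9249461822) (nat_lit 61) (nat_lit 5) (nat_lit 66) (nat_lit 5) (nat_lit 62) (nat_lit 5) (nat_lit 353) (nat_lit 302) (nat_lit 125))))))))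
noncomputable def xc214 : XT := (XT.nd (nat_lit 1716) (nat_lit 380) (nat_lit 0) (XT.nd (nat_lit 858) (nat_lit 988) (nat_lit 0) (XT.nd (nat_lit 390) (nat_lit 608) (nat_lit 0) (XT.nd (nat_lit 156) (nat_lit 228) (nat_lit 0) (XT.nd (nat_lit 78) (nat_lit 304) (nat_lit 0) (XT.lf (nat_lit 0) (nat_lit 15603955550) (nat_lit 380) (nat_lit 862907835) (nat_lit 76) (nat_lit 19503717650) (nat_lit 61) (nat_lit 5) (nat_lit 66) (nat_lit 5) (nat_lit 62) (nat_lit 5) (nat_lit 354) (nat_lit 302) (nat_lit 124)) (XT.lf (nat_lit 0) (nat_lit 13992210662) (nat_lit 304) (nat_lit 6523686055) (nat_lit 380) (nat_lit 16206871882) (nat_lit 57) (nat_lit 5) (nat_lit 61) (nat_lit 5) (nat_lit 62) (nat_lit 5) (nat_lit 355) (nat_lit 302) (nat_lit 123))) (XT.nd (nat_lit 78) (nat_lit 228) (nat_lit 0) (XT.lf (nat_lit 0) (nat_lit 25616575153) (nat_lit 380) (nat_lit 8226780796) (nat_lit 76) (nat_lit 3652929771) (nat_lit 57) (nat_lit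 5) (nat_lit 62) (nat_lit 5) (nat_lit 58) (nat_lit 5) (nat_lit 356) (nat_lit 302) (nat_lit 122)) (XT.nd (nat_lit 78) (nat_lit 0) (nat_lit 0) (XT.lf (nat_lit 0) (nat_lit 6775492204) (nat_lit 228) (nat_lit 24221436305) (nat_lit 304) (nat_lit 7292285358) (nat_lit 54) (nat_lit 5) (nat_lit 57) (nat_lit 5) (nat_lit 58) (nat_lit 5) (nat_lit 357) (nat_lit 302) (nat_lit 121)) (XT.lf (nat_lit 0) (nat_lit 22392275151) (nat_lit 228) (nat_lit 14226474062) (nat_lit 304) (nat_lit 2484783940) (nat_lit 54) (nat_lit 5) (nat_lit 57) (nat_lit 5) (nat_lit 58) (nat_lit 5) (nat_lit 358) (nat_lit 302) (nat_lit 120))))) (XT.nd (nat_lit 234) (nat_lit 228) (nat_lit 0) (XT.nd (nat_lit 78) (nat_lit 304) (nat_lit 0) (XT.lf (nat_lit 0) (nat_lit 2415840105) (nat_lit 304) (nat_lit 1492574761) (nat_lit 76) (nat_lit 36033249355) (nat_lit 53) (nat_lit 5) (nat_lit 57) (nat_lit 5) (nat_lit 54) (nat_lit 5) (nat_lit 359) (nat_lit 302)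 (nat_lit 119)) (XT.nd (nat_lit 78) (nat_lit 0) (nat_lit 0) (XT.lf (nat_lit 0) (nat_lit 7615624614) (nat_lit 380) (nat_lit 26430584058) (nat_lit 76) (nat_lit 6751934565) (nat_lit 49) (nat_lit 5) (nat_lit 54) (nat_lit 5) (nat_lit 50) (nat_lit 5) (nat_lit 360) (nat_lit 302) (nat_lit 118)) (XT.lf (nat_lit 0) (nat_lit 13022478470) (nat_lit 380) (nat_lit 10988676312) (nat_lit 76) (nat_lit 17667634008) (nat_lit 49) (nat_lit 5) (nat_lit 54) (nat_lit 5) (nat_lit 50) (nat_lit 5) (nat_lit 361) (nat_lit 302) (nat_lit 117)))) (XT.nd (nat_lit 78) (nat_lit 0) (nat_lit 0) (XT.lf (nat_lit 0) (nat_lit 5010317321) (nat_lit 228) (nat_lit 13626622979) (nat_lit 304) (nat_lit 23947555650) (nat_lit 46) (nat_lit 5) (nat_lit 49) (nat_lit 5) (nat_lit 50) (nat_lit 5) (nat_lit 362) (nat_lit 302) (nat_lit 116)) (XT.nd (nat_lit 78) (nat_lit 0) (nat_lit 0) (XT.lf (nat_lit 0) (nat_lit 21710635806) (nat_lit 228) (nat_lit 2817447263)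 (nat_lit 304) (nat_lit 18986048029) (nat_lit 46) (nat_lit 5) (nat_lit 49) (nat_lit 5) (nat_lit 50) (nat_lit 5) (nat_lit 363) (nat_lit 302) (nat_lit 115)) (XT.lf (nat_lit 0) (nat_lit 30673249711) (nat_lit 304) (nat_lit 5643490507) (nat_lit 76) (nat_lit 8152600458) (nat_lit 46) (nat_lit 5) (nat_lit 50) (nat_lit 5) (nat_lit 47) (nat_lit 5) (nat_lit 364) (nat_lit 302) (nat_lit 114)))))) (XT.nd (nat_lit 390) (nat_lit 456) (nat_lit 0) (XT.nd (nat_lit 156) (nat_lit 304) (nat_lit 0) (XT.nd (nat_lit 78) (nat_lit 0) (nat_lit 0) (XT.lf (nat_lit 0) (nat_lit 11187988769) (nat_lit 228) (nat_lit 25947652122) (nat_lit 304) (nat_lit 8313583510) (nat_lit 43) (nat_lit 5) (nat_lit 46) (nat_lit 5) (nat_lit 47) (nat_lit 5) (nat_lit 365) (nat_lit 302) (nat_lit 113)) (XT.lf (nat_lit 0) (nat_lit 28636387098) (nat_lit 228) (nat_lit 15209972356) (nat_lit 304) (nat_lit 2610515345) (nat_lit 43) (nat_lit 5) (nat_lit 46)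 (nat_lit 5) (nat_lit 47) (nat_lit 5) (nat_lit 366) (nat_lit 302) (nat_lit 112))) (XT.nd (nat_lit 78) (nat_lit 228) (nat_lit 0) (XT.lf (nat_lit 0) (nat_lit 3197472630) (nat_lit 304) (nat_lit 921545836) (nat_lit 76) (nat_lit 43374873293) (nat_lit 42) (nat_lit 5) (nat_lit 46) (nat_lit 5) (nat_lit 43) (nat_lit 5) (nat_lit 367) (nat_lit 302) (nat_lit 111)) (XT.nd (nat_lit 78) (nat_lit 0) (nat_lit 0) (XT.lf (nat_lit 0) (nat_lit 9358199497) (nat_lit 304) (nat_lit 31846085353) (nat_lit 76) (nat_lit 7350033441) (nat_lit 39) (nat_lit 5) (nat_lit 43) (nat_lit 5) (nat_lit 40) (nat_lit 5) (nat_lit 368) (nat_lit 302) (nat_lit 110)) (XT.lf (nat_lit 0) (nat_lit 15751539735) (nat_lit 304) (nat_lit 14804935940) (nat_lit 76) (nat_lit 19088651600) (nat_lit 39) (nat_lit 5) (nat_lit 43) (nat_lit 5) (nat_lit 40) (nat_lit 5) (nat_lit 369) (nat_lit 302) (nat_lit 109))))) (XT.nd (nat_lit 234) (nat_lit 228) (nat_lit 0)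 (XT.nd (nat_lit 78) (nat_lit 0) (nat_lit 0) (XT.lf (nat_lit 0) (nat_lit 2798583782) (nat_lit 228) (nat_lit 19562678934) (nat_lit 304) (nat_lit 28406663642) (nat_lit 36) (nat_lit 5) (nat_lit 39) (nat_lit 5) (nat_lit 40) (nat_lit 5) (nat_lit 370) (nat_lit 302) (nat_lit 108)) (XT.nd (nat_lit 78) (nat_lit 0) (nat_lit 0) (XT.lf (nat_lit 0) (nat_lit 21230255214) (nat_lit 228) (nat_lit 8086238309) (nat_lit 304) (nat_lit 22603502614) (nat_lit 36) (nat_lit 5) (nat_lit 39) (nat_lit 5) (nat_lit 40) (nat_lit 5) (nat_lit 371) (nat_lit 302) (nat_lit 107)) (XT.lf (nat_lit 0) (nat_lit 36514050579) (nat_lit 304) (nat_lit 12931048695) (nat_lit 76) (nat_lit 3660521770) (nat_lit 36) (nat_lit 5) (nat_lit 40) (nat_lit 5) (nat_lit 37) (nat_lit 5) (nat_lit 372) (nat_lit 302) (nat_lit 106)))) (XT.nd (nat_lit 78) (nat_lit 76) (nat_lit 0) (XT.lf (nat_lit 0) (nat_lit 5382065812) (nat_lit 152) (nat_lit 38675101998) (nat_lit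 228) (nat_lit 10265760908) (nat_lit 34) (nat_lit 5) (nat_lit 36) (nat_lit 5) (nat_lit 37) (nat_lit 5) (nat_lit 373) (nat_lit 302) (nat_lit 105)) (XT.nd (nat_lit 78) (nat_lit 76) (nat_lit 0) (XT.lf (nat_lit 0) (nat_lit 24506379720) (nat_lit 152) (nat_lit 27448644681) (nat_lit 228) (nat_lit 3617880781) (nat_lit 34) (nat_lit 5) (nat_lit 36) (nat_lit 5) (nat_lit 37) (nat_lit 5) (nat_lit 374) (nat_lit 302) (nat_lit 104)) (XT.lf (nat_lit 0) (nat_lit 3164324247) (nat_lit 228) (nat_lit 12690218318) (nat_lit 76) (nat_lit 41004972651) (nat_lit 33) (nat_lit 5) (nat_lit 36) (nat_lit 5) (nat_lit 34) (nat_lit 5) (nat_lit 375) (nat_lit 302) (nat_lit 103))))))) (XT.nd (nat_lit 35334) (nat_lit 0) (nat_lit 9500) (XT.nd (nat_lit 390) (nat_lit 0) (nat_lit 0) (XT.nd (nat_lit 156) (nat_lit 152) (nat_lit 0) (XT.nd (nat_lit 78) (nat_lit 0) (nat_lit 0) (XT.lf (nat_lit 0) (nat_lit 6321795022) (nat_lit 228) (nat_lit 3814220945)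 (nat_lit 304) (nat_lit 48045873563) (nat_lit 30) (nat_lit 5) (nat_lit 33) (nat_lit 5) (nat_lit 34) (nat_lit 5) (nat_lit 376) (nat_lit 302) (nat_lit 102)) (XT.lf (nat_lit 0) (nat_lit 17526806414) (nat_lit 304) (nat_lit 33462745155) (nat_lit 76) (nat_lit 8548087672) (nat_lit 30) (nat_lit 5) (nat_lit 34) (nat_lit 5) (nat_lit 31) (nat_lit 5) (nat_lit 377) (nat_lit 302) (nat_lit 101))) (XT.nd (nat_lit 78) (nat_lit 152) (nat_lit 0) (XT.lf (nat_lit 0) (nat_lit 25175130185) (nat_lit 304) (nat_lit 14554293296) (nat_lit 76) (nat_lit 21203566207) (nat_lit 30) (nat_lit 5) (nat_lit 34) (nat_lit 5) (nat_lit 31) (nat_lit 5) (nat_lit 378) (nat_lit 302) (nat_lit 100)) (XT.nd (nat_lit 78) (nat_lit 0) (nat_lit 0) (XT.lf (nat_lit 0) (nat_lit 5016334393) (nat_lit 152) (nat_lit 28082891338) (nat_lit 228) (nat_lit 29269587714) (nat_lit 28) (nat_lit 5) (nat_lit 30) (nat_lit 5) (nat_lit 31) (nat_lit 5) (nat_lit 379)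 (nat_lit 302) (nat_lit 99)) (XT.lf (nat_lit 0) (nat_lit 25469494244) (nat_lit 152) (nat_lit 15936648775) (nat_lit 228) (nat_lit 22437218316) (nat_lit 28) (nat_lit 5) (nat_lit 30) (nat_lit 5) (nat_lit 31) (nat_lit 5) (nat_lit 380) (nat_lit 302) (nat_lit 98))))) (XT.nd (nat_lit 34710) (nat_lit 0) (nat_lit 9424) (XT.nd (nat_lit 34554) (nat_lit 0) (nat_lit 9348) (XT.lf (nat_lit 0) (nat_lit 46533398975) (nat_lit 152) (nat_lit 3427052398) (nat_lit 228) (nat_lit 15401751102) (nat_lit 28) (nat_lit 5) (nat_lit 30) (nat_lit 5) (nat_lit 31) (nat_lit 5) (nat_lit 381) (nat_lit 302) (nat_lit 97)) (XT.nd (nat_lit 78) (nat_lit 0) (nat_lit 0) (XT.lf (nat_lit 0) (nat_lit 1629801246) (nat_lit 1140) (nat_lit 2901817525) (nat_lit 1140) (nat_lit 2901817525) (nat_lit 151) (nat_lit 3) (nat_lit 166) (nat_lit 3) (nat_lit 166) (nat_lit 5) (nat_lit 303) (nat_lit 303) (nat_lit 174)) (XT.lf (nat_lit 76) (nat_lit 387287424)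 (nat_lit 0) (nat_lit 3199362743) (nat_lit 1140) (nat_lit 11494210536) (nat_lit 152) (nat_lit 5) (nat_lit 151) (nat_lit 3) (nat_lit 166) (nat_lit 5) (nat_lit 304) (nat_lit 303) (nat_lit 173)))) (XT.nd (nat_lit 78) (nat_lit 0) (nat_lit 0) (XT.lf (nat_lit 0) (nat_lit 3999283591) (nat_lit 1064) (nat_lit 8450525350) (nat_lit 1140) (nat_lit 2849212448) (nat_lit 152) (nat_lit 5) (nat_lit 166) (nat_lit 5) (nat_lit 167) (nat_lit 5) (nat_lit 305) (nat_lit 303) (nat_lit 172)) (XT.nd (nat_lit 78) (nat_lit 0) (nat_lit 0) (XT.lf (nat_lit 0) (nat_lit 4445569769) (nat_lit 1064) (nat_lit 2057724268) (nat_lit 1140) (nat_lit 9019820046) (nat_lit 152) (nat_lit 5) (nat_lit 166) (nat_lit 5) (nat_lit 167) (nat_lit 5) (nat_lit 306) (nat_lit 303) (nat_lit 171)) (XT.lf (nat_lit 76) (nat_lit 4611150289) (nat_lit 0) (nat_lit 328319335) (nat_lit 1140) (nat_lit 10813457842) (nat_lit 153) (nat_lit 5) (nat_lit 152) (nat_lit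 5) (nat_lit 167) (nat_lit 5) (nat_lit 307) (nat_lit 303) (nat_lit 170)))))) (XT.nd (nat_lit 468) (nat_lit 0) (nat_lit 152) (XT.nd (nat_lit 234) (nat_lit 0) (nat_lit 76) (XT.nd (nat_lit 78) (nat_lit 0) (nat_lit 0) (XT.lf (nat_lit 0) (nat_lit 5517334068) (nat_lit 1064) (nat_lit 4530922833) (nat_lit 1140) (nat_lit 5939327864) (nat_lit 153) (nat_lit 5) (nat_lit 167) (nat_lit 5) (nat_lit 168) (nat_lit 5) (nat_lit 308) (nat_lit 303) (nat_lit 169)) (XT.nd (nat_lit 78) (nat_lit 0) (nat_lit 76) (XT.lf (nat_lit 76) (nat_lit 2314347045) (nat_lit 0) (nat_lit 3814151531) (nat_lit 1140) (nat_lit 10100327528) (nat_lit 154) (nat_lit 5) (nat_lit 153) (nat_lit 5) (nat_lit 168) (nat_lit 5) (nat_lit 309) (nat_lit 303) (nat_lit 168)) (XT.lf (nat_lit 0) (nat_lit 6819987217) (nat_lit 1064) (nat_lit 7049690044) (nat_lit 1140) (nat_lit 2605790315) (nat_lit 154) (nat_lit 5) (nat_lit 168) (nat_lit 5) (nat_lit 169) (nat_lit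 5) (nat_lit 310) (nat_lit 303) (nat_lit 167)))) (XT.nd (nat_lit 78) (nat_lit 0) (nat_lit 0) (XT.lf (nat_lit 0) (nat_lit 7560977500) (nat_lit 1064) (nat_lit 22643173) (nat_lit 1140) (nat_lit 9145046820) (nat_lit 154) (nat_lit 5) (nat_lit 168) (nat_lit 5) (nat_lit 169) (nat_lit 5) (nat_lit 311) (nat_lit 303) (nat_lit 166)) (XT.nd (nat_lit 78) (nat_lit 0) (nat_lit 76) (XT.lf (nat_lit 76) (nat_lit 7352948150) (nat_lit 0) (nat_lit 1033185819) (nat_lit 1140) (nat_lit 8601492618) (nat_lit 155) (nat_lit 5) (nat_lit 154) (nat_lit 5) (nat_lit 169) (nat_lit 5) (nat_lit 312) (nat_lit 303) (nat_lit 165)) (XT.lf (nat_lit 0) (nat_lit 9282683047) (nat_lit 1064) (nat_lit 2365000146) (nat_lit 1140) (nat_lit 5605292774) (nat_lit 155) (nat_lit 5) (nat_lit 169) (nat_lit 5) (nat_lit 170) (nat_lit 5) (nat_lit 313) (nat_lit 303) (nat_lit 164))))) (XT.nd (nat_lit 234) (nat_lit 0) (nat_lit 76) (XT.nd (nat_lit 78) (nat_lit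 0) (nat_lit 76) (XT.lf (nat_lit 76) (nat_lit 5208349789) (nat_lit 0) (nat_lit 5049805112) (nat_lit 1140) (nat_lit 7266590193) (nat_lit 156) (nat_lit 5) (nat_lit 155) (nat_lit 5) (nat_lit 170) (nat_lit 5) (nat_lit 314) (nat_lit 303) (nat_lit 163)) (XT.nd (nat_lit 78) (nat_lit 0) (nat_lit 0) (XT.lf (nat_lit 0) (nat_lit 11295731541) (nat_lit 1064) (nat_lit 4769640572) (nat_lit 1140) (nat_lit 1738329429) (nat_lit 156) (nat_lit 5) (nat_lit 170) (nat_lit 5) (nat_lit 171) (nat_lit 5) (nat_lit 315) (nat_lit 303) (nat_lit 162)) (XT.lf (nat_lit 76) (nat_lit 3006308881) (nat_lit 0) (nat_lit 9429196548) (nat_lit 1140) (nat_lit 5653408056) (nat_lit 157) (nat_lit 5) (nat_lit 156) (nat_lit 5) (nat_lit 171) (nat_lit 5) (nat_lit 316) (nat_lit 303) (nat_lit 161)))) (XT.nd (nat_lit 78) (nat_lit 0) (nat_lit 76) (XT.lf (nat_lit 76) (nat_lit 11107493595) (nat_lit 0) (nat_lit 2542488408) (nat_lit 1140) (nat_lit 4731502850)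 (nat_lit 157) (nat_lit 5) (nat_lit 156) (nat_lit 5) (nat_lit 171) (nat_lit 5) (nat_lit 317) (nat_lit 303) (nat_lit 160)) (XT.nd (nat_lit 78) (nat_lit 0) (nat_lit 0) (XT.lf (nat_lit 76) (nat_lit 733544614) (nat_lit 0) (nat_lit 14210730370) (nat_lit 1140) (nat_lit 3737274729) (nat_lit 158) (nat_lit 5) (nat_lit 157) (nat_lit 5) (nat_lit 172) (nat_lit 5) (nat_lit 318) (nat_lit 303) (nat_lit 159)) (XT.lf (nat_lit 76) (nat_lit 9098895297) (nat_lit 0) (nat_lit 7269626170) (nat_lit 1140) (nat_lit 2619378608) (nat_lit 158) (nat_lit 5) (nat_lit 157) (nat_lit 5) (nat_lit 172) (nat_lit 5) (nat_lit 319) (nat_lit 303) (nat_lit 158))))))))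
noncomputable def xc215 : XT := (XT.nd (nat_lit 1716) (nat_lit 2964) (nat_lit 0) (XT.nd (nat_lit 858) (nat_lit 2204) (nat_lit 0) (XT.nd (nat_lit 390) (nat_lit 1520) (nat_lit 0) (XT.nd (nat_lit 156) (nat_lit 760) (nat_lit 0) (XT.nd (nat_lit 78) (nat_lit 988) (nat_lit 0) (XT.lf (nat_lit 76) (nat_lit 17709529990) (nat_lit 0) (nat_lit 118921965) (nat_lit 1140) (nat_lit 1475217089) (nat_lit 158) (nat_lit 5) (nat_lit 157) (nat_lit 5) (nat_lit 172) (nat_lit 5) (nat_lit 320) (nat_lit 303) (nat_lit 157)) (XT.lf (nat_lit 0) (nat_lit 7010980846) (nat_lit 1064) (nat_lit 12451423760) (nat_lit 1140) (nat_lit 162616050) (nat_lit 144) (nat_lit 5) (nat_lit 158) (nat_lit 5) (nat_lit 159) (nat_lit 5) (nat_lit 321) (nat_lit 303) (nat_lit 156))) (XT.nd (nat_lit 78) (nat_lit 684) (nat_lit 0) (XT.lf (nat_lit 0) (nat_lit 1176825724) (nat_lit 1140) (nat_lit 4067205991) (nat_lit 76) (nat_lit 14711333338) (nat_lit 143)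 (nat_lit 5) (nat_lit 158) (nat_lit 5) (nat_lit 144) (nat_lit 5) (nat_lit 322) (nat_lit 303) (nat_lit 155)) (XT.nd (nat_lit 78) (nat_lit 0) (nat_lit 0) (XT.lf (nat_lit 0) (nat_lit 2614411653) (nat_lit 760) (nat_lit 15492962329) (nat_lit 76) (nat_lit 2186375541) (nat_lit 134) (nat_lit 5) (nat_lit 144) (nat_lit 5) (nat_lit 135) (nat_lit 5) (nat_lit 323) (nat_lit 303) (nat_lit 154)) (XT.lf (nat_lit 0) (nat_lit 4182102773) (nat_lit 760) (nat_lit 6681015801) (nat_lit 76) (nat_lit 9776572109) (nat_lit 134) (nat_lit 5) (nat_lit 144) (nat_lit 5) (nat_lit 135) (nat_lit 5) (nat_lit 324) (nat_lit 303) (nat_lit 153))))) (XT.nd (nat_lit 234) (nat_lit 988) (nat_lit 0) (XT.nd (nat_lit 78) (nat_lit 0) (nat_lit 0) (XT.lf (nat_lit 0) (nat_lit 2437188651) (nat_lit 532) (nat_lit 3376829801) (nat_lit 608) (nat_lit 15181489876) (nat_lit 127) (nat_lit 5) (nat_lit 134) (nat_lit 5) (nat_lit 135) (nat_lit 5) (nat_lit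 325) (nat_lit 303) (nat_lit 152)) (XT.nd (nat_lit 78) (nat_lit 0) (nat_lit 0) (XT.lf (nat_lit 0) (nat_lit 7598584870) (nat_lit 608) (nat_lit 9442217520) (nat_lit 76) (nat_lit 4318100968) (nat_lit 127) (nat_lit 5) (nat_lit 135) (nat_lit 5) (nat_lit 128) (nat_lit 5) (nat_lit 326) (nat_lit 303) (nat_lit 151)) (XT.lf (nat_lit 0) (nat_lit 9464198568) (nat_lit 608) (nat_lit 91702174) (nat_lit 76) (nat_lit 12176487444) (nat_lit 127) (nat_lit 5) (nat_lit 135) (nat_lit 5) (nat_lit 128) (nat_lit 5) (nat_lit 327) (nat_lit 303) (nat_lit 150)))) (XT.nd (nat_lit 78) (nat_lit 456) (nat_lit 0) (XT.lf (nat_lit 0) (nat_lit 9723599312) (nat_lit 532) (nat_lit 1749899414) (nat_lit 608) (nat_lit 10640960162) (nat_lit 120) (nat_lit 5) (nat_lit 127) (nat_lit 5) (nat_lit 128) (nat_lit 5) (nat_lit 328) (nat_lit 303) (nat_lit 149)) (XT.nd (nat_lit 78) (nat_lit 456) (nat_lit 0) (XT.lf (nat_lit 0) (nat_lit 13598845490)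 (nat_lit 608) (nat_lit 2738801268) (nat_lit 76) (nat_lit 6168684421) (nat_lit 120) (nat_lit 5) (nat_lit 128) (nat_lit 5) (nat_lit 121) (nat_lit 5) (nat_lit 329) (nat_lit 303) (nat_lit 148)) (XT.lf (nat_lit 0) (nat_lit 7322951593) (nat_lit 456) (nat_lit 8547249957) (nat_lit 532) (nat_lit 7037302751) (nat_lit 114) (nat_lit 5) (nat_lit 120) (nat_lit 5) (nat_lit 121) (nat_lit 5) (nat_lit 330) (nat_lit 303) (nat_lit 147)))))) (XT.nd (nat_lit 390) (nat_lit 1216) (nat_lit 0) (XT.nd (nat_lit 156) (nat_lit 532) (nat_lit 0) (XT.nd (nat_lit 78) (nat_lit 456) (nat_lit 0) (XT.lf (nat_lit 0) (nat_lit 17737314482) (nat_lit 456) (nat_lit 494678342) (nat_lit 532) (nat_lit 5088062737) (nat_lit 114) (nat_lit 5) (nat_lit 120) (nat_lit 5) (nat_lit 121) (nat_lit 5) (nat_lit 331) (nat_lit 303) (nat_lit 146)) (XT.lf (nat_lit 0) (nat_lit 4731076113) (nat_lit 456) (nat_lit 16048806968) (nat_lit 532) (nat_lit 2961654357)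 (nat_lit 108) (nat_lit 5) (nat_lit 114) (nat_lit 5) (nat_lit 115) (nat_lit 5) (nat_lit 332) (nat_lit 303) (nat_lit 145))) (XT.nd (nat_lit 78) (nat_lit 532) (nat_lit 0) (XT.lf (nat_lit 0) (nat_lit 15458410321) (nat_lit 456) (nat_lit 8001918486) (nat_lit 532) (nat_lit 713662501) (nat_lit 108) (nat_lit 5) (nat_lit 114) (nat_lit 5) (nat_lit 115) (nat_lit 5) (nat_lit 333) (nat_lit 303) (nat_lit 144)) (XT.nd (nat_lit 78) (nat_lit 0) (nat_lit 0) (XT.lf (nat_lit 0) (nat_lit 1586888313) (nat_lit 532) (nat_lit 22717035556) (nat_lit 76) (nat_lit 314552210) (nat_lit 101) (nat_lit 5) (nat_lit 108) (nat_lit 5) (nat_lit 102) (nat_lit 5) (nat_lit 334) (nat_lit 303) (nat_lit 143)) (XT.lf (nat_lit 0) (nat_lit 4105296200) (nat_lit 532) (nat_lit 12150586166) (nat_lit 76) (nat_lit 8815315676) (nat_lit 101) (nat_lit 5) (nat_lit 108) (nat_lit 5) (nat_lit 102) (nat_lit 5) (nat_lit 335) (nat_lit 303) (nat_lit 142)))))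 (XT.nd (nat_lit 234) (nat_lit 760) (nat_lit 0) (XT.nd (nat_lit 78) (nat_lit 456) (nat_lit 0) (XT.lf (nat_lit 0) (nat_lit 6694475616) (nat_lit 532) (nat_lit 1272386360) (nat_lit 76) (nat_lit 17570792972) (nat_lit 101) (nat_lit 5) (nat_lit 108) (nat_lit 5) (nat_lit 102) (nat_lit 5) (nat_lit 336) (nat_lit 303) (nat_lit 141)) (XT.nd (nat_lit 78) (nat_lit 0) (nat_lit 0) (XT.lf (nat_lit 0) (nat_lit 9460459608) (nat_lit 532) (nat_lit 15897143881) (nat_lit 76) (nat_lit 657537773) (nat_lit 95) (nat_lit 5) (nat_lit 102) (nat_lit 5) (nat_lit 96) (nat_lit 5) (nat_lit 337) (nat_lit 303) (nat_lit 140)) (XT.lf (nat_lit 0) (nat_lit 12396719367) (nat_lit 532) (nat_lit 4714580154) (nat_lit 76) (nat_lit 9393043055) (nat_lit 95) (nat_lit 5) (nat_lit 102) (nat_lit 5) (nat_lit 96) (nat_lit 5) (nat_lit 338) (nat_lit 303) (nat_lit 139)))) (XT.nd (nat_lit 78) (nat_lit 380) (nat_lit 0) (XT.lf (nat_lit 0) (nat_lit 6933731769)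 (nat_lit 380) (nat_lit 8549559823) (nat_lit 456) (nat_lit 11523070624) (nat_lit 90) (nat_lit 5) (nat_lit 95) (nat_lit 5) (nat_lit 96) (nat_lit 5) (nat_lit 339) (nat_lit 303) (nat_lit 138)) (XT.nd (nat_lit 78) (nat_lit 380) (nat_lit 0) (XT.lf (nat_lit 0) (nat_lit 18708774803) (nat_lit 456) (nat_lit 8502048843) (nat_lit 76) (nat_lit 311238149) (nat_lit 90) (nat_lit 5) (nat_lit 96) (nat_lit 5) (nat_lit 91) (nat_lit 5) (nat_lit 340) (nat_lit 303) (nat_lit 137)) (XT.lf (nat_lit 0) (nat_lit 3392230204) (nat_lit 380) (nat_lit 18751824686) (nat_lit 456) (nat_lit 5905795008) (nat_lit 85) (nat_lit 5) (nat_lit 90) (nat_lit 5) (nat_lit 91) (nat_lit 5) (nat_lit 341) (nat_lit 303) (nat_lit 136))))))) (XT.nd (nat_lit 858) (nat_lit 1444) (nat_lit 0) (XT.nd (nat_lit 390) (nat_lit 684) (nat_lit 0) (XT.nd (nat_lit 156) (nat_lit 760) (nat_lit 0) (XT.nd (nat_lit 78) (nat_lit 76) (nat_lit 0) (XT.lf (nat_lit 0) (nat_lit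 15812704446) (nat_lit 380) (nat_lit 9951393833) (nat_lit 456) (nat_lit 2826930481) (nat_lit 85) (nat_lit 5) (nat_lit 90) (nat_lit 5) (nat_lit 91) (nat_lit 5) (nat_lit 342) (nat_lit 303) (nat_lit 135)) (XT.lf (nat_lit 0) (nat_lit 333505423) (nat_lit 456) (nat_lit 550822238) (nat_lit 76) (nat_lit 28264146104) (nat_lit 84) (nat_lit 5) (nat_lit 90) (nat_lit 5) (nat_lit 85) (nat_lit 5) (nat_lit 343) (nat_lit 303) (nat_lit 134))) (XT.nd (nat_lit 78) (nat_lit 380) (nat_lit 0) (XT.lf (nat_lit 0) (nat_lit 3728439371) (nat_lit 456) (nat_lit 17551271082) (nat_lit 76) (nat_lit 8436204441) (nat_lit 79) (nat_lit 5) (nat_lit 85) (nat_lit 5) (nat_lit 80) (nat_lit 5) (nat_lit 344) (nat_lit 303) (nat_lit 133)) (XT.nd (nat_lit 78) (nat_lit 380) (nat_lit 0) (XT.lf (nat_lit 0) (nat_lit 7235699801) (nat_lit 456) (nat_lit 5040949031) (nat_lit 76) (nat_lit 18023423411) (nat_lit 79) (nat_lit 5) (nat_lit 85) (nat_lit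 5) (nat_lit 80) (nat_lit 5) (nat_lit 345) (nat_lit 303) (nat_lit 132)) (XT.lf (nat_lit 0) (nat_lit 7996063209) (nat_lit 380) (nat_lit 2925196768) (nat_lit 456) (nat_lit 19978309003) (nat_lit 74) (nat_lit 5) (nat_lit 79) (nat_lit 5) (nat_lit 80) (nat_lit 5) (nat_lit 346) (nat_lit 303) (nat_lit 131))))) (XT.nd (nat_lit 234) (nat_lit 380) (nat_lit 0) (XT.nd (nat_lit 78) (nat_lit 304) (nat_lit 0) (XT.lf (nat_lit 0) (nat_lit 14829540688) (nat_lit 456) (nat_lit 10057692709) (nat_lit 76) (nat_lit 6626459530) (nat_lit 74) (nat_lit 5) (nat_lit 80) (nat_lit 5) (nat_lit 75) (nat_lit 5) (nat_lit 347) (nat_lit 303) (nat_lit 130)) (XT.nd (nat_lit 78) (nat_lit 0) (nat_lit 0) (XT.lf (nat_lit 0) (nat_lit 3202445314) (nat_lit 304) (nat_lit 15708755349) (nat_lit 380) (nat_lit 13233362719) (nat_lit 70) (nat_lit 5) (nat_lit 74) (nat_lit 5) (nat_lit 75) (nat_lit 5) (nat_lit 348) (nat_lit 303) (nat_lit 129)) (XT.lf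 (nat_lit 0) (nat_lit 17062026876) (nat_lit 304) (nat_lit 6151292899) (nat_lit 380) (nat_lit 9578106418) (nat_lit 70) (nat_lit 5) (nat_lit 74) (nat_lit 5) (nat_lit 75) (nat_lit 5) (nat_lit 349) (nat_lit 303) (nat_lit 128)))) (XT.nd (nat_lit 78) (nat_lit 380) (nat_lit 0) (XT.lf (nat_lit 0) (nat_lit 27676541533) (nat_lit 380) (nat_lit 2160299447) (nat_lit 76) (nat_lit 3619899067) (nat_lit 70) (nat_lit 5) (nat_lit 75) (nat_lit 5) (nat_lit 71) (nat_lit 5) (nat_lit 350) (nat_lit 303) (nat_lit 127)) (XT.nd (nat_lit 78) (nat_lit 76) (nat_lit 0) (XT.lf (nat_lit 0) (nat_lit 11984458516) (nat_lit 304) (nat_lit 20461948740) (nat_lit 380) (nat_lit 1690429790) (nat_lit 66) (nat_lit 5) (nat_lit 70) (nat_lit 5) (nat_lit 71) (nat_lit 5) (nat_lit 351) (nat_lit 303) (nat_lit 126)) (XT.lf (nat_lit 0) (nat_lit 2491507991) (nat_lit 380) (nat_lit 8267698967) (nat_lit 76) (nat_lit 24076847792) (nat_lit 65) (nat_lit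 5) (nat_lit 70) (nat_lit 5) (nat_lit 66) (nat_lit 5) (nat_lit 352) (nat_lit 303) (nat_lit 125)))))) (XT.nd (nat_lit 468) (nat_lit 608) (nat_lit 0) (XT.nd (nat_lit 234) (nat_lit 532) (nat_lit 0) (XT.nd (nat_lit 78) (nat_lit 0) (nat_lit 0) (XT.lf (nat_lit 0) (nat_lit 6132172600) (nat_lit 304) (nat_lit 688457986) (nat_lit 380) (nat_lit 28733450837) (nat_lit 61) (nat_lit 5) (nat_lit 65) (nat_lit 5) (nat_lit 66) (nat_lit 5) (nat_lit 353) (nat_lit 303) (nat_lit 124)) (XT.nd (nat_lit 78) (nat_lit 0) (nat_lit 0) (XT.lf (nat_lit 0) (nat_lit 11453833782) (nat_lit 380) (nat_lit 15255864843) (nat_lit 76) (nat_lit 9578729526) (nat_lit 61) (nat_lit 5) (nat_lit 66) (nat_lit 5) (nat_lit 62) (nat_lit 5) (nat_lit 354) (nat_lit 303) (nat_lit 123)) (XT.lf (nat_lit 0) (nat_lit 16229742942) (nat_lit 380) (nat_lit 675851584) (nat_lit 76) (nat_lit 20139104761) (nat_lit 61) (nat_lit 5) (nat_lit 66) (nat_lit 5) (nat_lit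 62) (nat_lit 5) (nat_lit 355) (nat_lit 303) (nat_lit 122)))) (XT.nd (nat_lit 78) (nat_lit 228) (nat_lit 0) (XT.lf (nat_lit 0) (nat_lit 14622832787) (nat_lit 304) (nat_lit 6663644140) (nat_lit 380) (nat_lit 16533060352) (nat_lit 57) (nat_lit 5) (nat_lit 61) (nat_lit 5) (nat_lit 62) (nat_lit 5) (nat_lit 356) (nat_lit 303) (nat_lit 121)) (XT.nd (nat_lit 78) (nat_lit 228) (nat_lit 0) (XT.lf (nat_lit 0) (nat_lit 26536178461) (nat_lit 380) (nat_lit 8264618924) (nat_lit 76) (nat_lit 3815590057) (nat_lit 57) (nat_lit 5) (nat_lit 62) (nat_lit 5) (nat_lit 58) (nat_lit 5) (nat_lit 357) (nat_lit 303) (nat_lit 120)) (XT.lf (nat_lit 0) (nat_lit 7185673587) (nat_lit 228) (nat_lit 24889856693) (nat_lit 304) (nat_lit 7357652906) (nat_lit 54) (nat_lit 5) (nat_lit 57) (nat_lit 5) (nat_lit 58) (nat_lit 5) (nat_lit 358) (nat_lit 303) (nat_lit 119))))) (XT.nd (nat_lit 234) (nat_lit 228) (nat_lit 0) (XT.nd (nat_lit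 78) (nat_lit 380) (nat_lit 0) (XT.lf (nat_lit 0) (nat_lit 23264933325) (nat_lit 228) (nat_lit 14596741390) (nat_lit 304) (nat_lit 2410394436) (nat_lit 54) (nat_lit 5) (nat_lit 57) (nat_lit 5) (nat_lit 58) (nat_lit 5) (nat_lit 359) (nat_lit 303) (nat_lit 118)) (XT.nd (nat_lit 78) (nat_lit 304) (nat_lit 0) (XT.lf (nat_lit 0) (nat_lit 2630088903) (nat_lit 304) (nat_lit 1339266293) (nat_lit 76) (nat_lit 37166080363) (nat_lit 53) (nat_lit 5) (nat_lit 57) (nat_lit 5) (nat_lit 54) (nat_lit 5) (nat_lit 360) (nat_lit 303) (nat_lit 117)) (XT.lf (nat_lit 0) (nat_lit 7984167281) (nat_lit 380) (nat_lit 27023497387) (nat_lit 76) (nat_lit 7010001832) (nat_lit 49) (nat_lit 5) (nat_lit 54) (nat_lit 5) (nat_lit 50) (nat_lit 5) (nat_lit 361) (nat_lit 303) (nat_lit 116)))) (XT.nd (nat_lit 78) (nat_lit 228) (nat_lit 0) (XT.lf (nat_lit 0) (nat_lit 13549146929) (nat_lit 380) (nat_lit 11124157773) (nat_lit 76) (nat_lit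 18251555485) (nat_lit 49) (nat_lit 5) (nat_lit 54) (nat_lit 5) (nat_lit 50) (nat_lit 5) (nat_lit 362) (nat_lit 303) (nat_lit 115)) (XT.nd (nat_lit 78) (nat_lit 0) (nat_lit 0) (XT.lf (nat_lit 0) (nat_lit 5352901954) (nat_lit 228) (nat_lit 13977027932) (nat_lit 304) (nat_lit 24527878245) (nat_lit 46) (nat_lit 5) (nat_lit 49) (nat_lit 5) (nat_lit 50) (nat_lit 5) (nat_lit 363) (nat_lit 303) (nat_lit 114)) (XT.lf (nat_lit 0) (nat_lit 22548629748) (nat_lit 228) (nat_lit 2845277732) (nat_lit 304) (nat_lit 19421547845) (nat_lit 46) (nat_lit 5) (nat_lit 49) (nat_lit 5) (nat_lit 50) (nat_lit 5) (nat_lit 364) (nat_lit 303) (nat_lit 113))))))))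
noncomputable def xc216 : XT := (XT.nd (nat_lit 36348) (nat_lit 0) (nat_lit 6536) (XT.nd (nat_lit 858) (nat_lit 456) (nat_lit 0) (XT.nd (nat_lit 390) (nat_lit 380) (nat_lit 0) (XT.nd (nat_lit 156) (nat_lit 304) (nat_lit 0) (XT.nd (nat_lit 78) (nat_lit 228) (nat_lit 0) (XT.lf (nat_lit 0) (nat_lit 31720172336) (nat_lit 304) (nat_lit 5628106284) (nat_lit 76) (nat_lit 8451146107) (nat_lit 46) (nat_lit 5) (nat_lit 50) (nat_lit 5) (nat_lit 47) (nat_lit 5) (nat_lit 365) (nat_lit 303) (nat_lit 112)) (XT.lf (nat_lit 0) (nat_lit 11706506694) (nat_lit 228) (nat_lit 26667995472) (nat_lit 304) (nat_lit 8434266453) (nat_lit 43) (nat_lit 5) (nat_lit 46) (nat_lit 5) (nat_lit 47) (nat_lit 5) (nat_lit 366) (nat_lit 303) (nat_lit 111))) (XT.nd (nat_lit 78) (nat_lit 304) (nat_lit 0) (XT.lf (nat_lit 0) (nat_lit 29673030422) (nat_lit 228) (nat_lit 15609877144) (nat_lit 304) (nat_lit 2563855502) (nat_lit 43) (nat_lit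 5) (nat_lit 46) (nat_lit 5) (nat_lit 47) (nat_lit 5) (nat_lit 367) (nat_lit 303) (nat_lit 110)) (XT.nd (nat_lit 78) (nat_lit 228) (nat_lit 0) (XT.lf (nat_lit 0) (nat_lit 3412364366) (nat_lit 304) (nat_lit 774271486) (nat_lit 76) (nat_lit 44728330897) (nat_lit 42) (nat_lit 5) (nat_lit 46) (nat_lit 5) (nat_lit 43) (nat_lit 5) (nat_lit 368) (nat_lit 303) (nat_lit 109)) (XT.lf (nat_lit 0) (nat_lit 9756651600) (nat_lit 304) (nat_lit 32625118045) (nat_lit 76) (nat_lit 7625479306) (nat_lit 39) (nat_lit 5) (nat_lit 43) (nat_lit 5) (nat_lit 40) (nat_lit 5) (nat_lit 369) (nat_lit 303) (nat_lit 108))))) (XT.nd (nat_lit 234) (nat_lit 152) (nat_lit 0) (XT.nd (nat_lit 78) (nat_lit 228) (nat_lit 0) (XT.lf (nat_lit 0) (nat_lit 16338363712) (nat_lit 304) (nat_lit 15077870554) (nat_lit 76) (nat_lit 19714655674) (nat_lit 39) (nat_lit 5) (nat_lit 43) (nat_lit 5) (nat_lit 40) (nat_lit 5) (nat_lit 370) (nat_lit 303)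 (nat_lit 107)) (XT.nd (nat_lit 78) (nat_lit 0) (nat_lit 0) (XT.lf (nat_lit 0) (nat_lit 3052076197) (nat_lit 228) (nat_lit 20092603380) (nat_lit 304) (nat_lit 29142749125) (nat_lit 36) (nat_lit 5) (nat_lit 39) (nat_lit 5) (nat_lit 40) (nat_lit 5) (nat_lit 371) (nat_lit 303) (nat_lit 106)) (XT.lf (nat_lit 0) (nat_lit 22031759861) (nat_lit 228) (nat_lit 8273528447) (nat_lit 304) (nat_lit 23168875240) (nat_lit 36) (nat_lit 5) (nat_lit 39) (nat_lit 5) (nat_lit 40) (nat_lit 5) (nat_lit 372) (nat_lit 303) (nat_lit 105)))) (XT.nd (nat_lit 78) (nat_lit 152) (nat_lit 0) (XT.lf (nat_lit 0) (nat_lit 37716104648) (nat_lit 304) (nat_lit 13156360820) (nat_lit 76) (nat_lit 3822976227) (nat_lit 36) (nat_lit 5) (nat_lit 40) (nat_lit 5) (nat_lit 37) (nat_lit 5) (nat_lit 373) (nat_lit 303) (nat_lit 104)) (XT.nd (nat_lit 78) (nat_lit 0) (nat_lit 0) (XT.lf (nat_lit 0) (nat_lit 5704552815) (nat_lit 152) (nat_lit 39779404650)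 (nat_lit 228) (nat_lit 10465362213) (nat_lit 34) (nat_lit 5) (nat_lit 36) (nat_lit 5) (nat_lit 37) (nat_lit 5) (nat_lit 374) (nat_lit 303) (nat_lit 103)) (XT.lf (nat_lit 0) (nat_lit 25397906091) (nat_lit 152) (nat_lit 28217783237) (nat_lit 228) (nat_lit 3621202134) (nat_lit 34) (nat_lit 5) (nat_lit 36) (nat_lit 5) (nat_lit 37) (nat_lit 5) (nat_lit 375) (nat_lit 303) (nat_lit 102)))))) (XT.nd (nat_lit 35022) (nat_lit 0) (nat_lit 9348) (XT.nd (nat_lit 156) (nat_lit 152) (nat_lit 0) (XT.nd (nat_lit 78) (nat_lit 228) (nat_lit 0) (XT.lf (nat_lit 0) (nat_lit 3359411203) (nat_lit 228) (nat_lit 12917017622) (nat_lit 76) (nat_lit 42285734744) (nat_lit 33) (nat_lit 5) (nat_lit 36) (nat_lit 5) (nat_lit 34) (nat_lit 5) (nat_lit 376) (nat_lit 303) (nat_lit 101)) (XT.lf (nat_lit 0) (nat_lit 6663847223) (nat_lit 228) (nat_lit 3874954196) (nat_lit 304) (nat_lit 49385455116) (nat_lit 30) (nat_lit 5) (nat_lit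 33) (nat_lit 5) (nat_lit 34) (nat_lit 5) (nat_lit 377) (nat_lit 303) (nat_lit 100))) (XT.nd (nat_lit 78) (nat_lit 152) (nat_lit 0) (XT.lf (nat_lit 0) (nat_lit 18148941779) (nat_lit 304) (nat_lit 34316169356) (nat_lit 76) (nat_lit 8855642560) (nat_lit 30) (nat_lit 5) (nat_lit 34) (nat_lit 5) (nat_lit 31) (nat_lit 5) (nat_lit 378) (nat_lit 303) (nat_lit 99)) (XT.nd (nat_lit 78) (nat_lit 152) (nat_lit 0) (XT.lf (nat_lit 0) (nat_lit 26023909501) (nat_lit 304) (nat_lit 14844846217) (nat_lit 76) (nat_lit 21889296745) (nat_lit 30) (nat_lit 5) (nat_lit 34) (nat_lit 5) (nat_lit 31) (nat_lit 5) (nat_lit 379) (nat_lit 303) (nat_lit 98)) (XT.lf (nat_lit 0) (nat_lit 5311468186) (nat_lit 152) (nat_lit 28872926090) (nat_lit 228) (nat_lit 30052600195) (nat_lit 28) (nat_lit 5) (nat_lit 30) (nat_lit 5) (nat_lit 31) (nat_lit 5) (nat_lit 380) (nat_lit 303) (nat_lit 97))))) (XT.nd (nat_lit 234) (nat_lit 0) (nat_lit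 76) (XT.nd (nat_lit 78) (nat_lit 0) (nat_lit 0) (XT.lf (nat_lit 0) (nat_lit 1950488081) (nat_lit 1140) (nat_lit 2848566797) (nat_lit 1140) (nat_lit 2848566797) (nat_lit 151) (nat_lit 3) (nat_lit 166) (nat_lit 3) (nat_lit 166) (nat_lit 5) (nat_lit 304) (nat_lit 304) (nat_lit 172)) (XT.nd (nat_lit 78) (nat_lit 0) (nat_lit 76) (XT.lf (nat_lit 76) (nat_lit 676765471) (nat_lit 0) (nat_lit 3547908160) (nat_lit 1140) (nat_lit 11291410996) (nat_lit 152) (nat_lit 5) (nat_lit 151) (nat_lit 3) (nat_lit 166) (nat_lit 5) (nat_lit 305) (nat_lit 304) (nat_lit 171)) (XT.lf (nat_lit 0) (nat_lit 4631879724) (nat_lit 1064) (nat_lit 8415216715) (nat_lit 1140) (nat_lit 2694265432) (nat_lit 152) (nat_lit 5) (nat_lit 166) (nat_lit 5) (nat_lit 167) (nat_lit 5) (nat_lit 306) (nat_lit 304) (nat_lit 170)))) (XT.nd (nat_lit 78) (nat_lit 0) (nat_lit 0) (XT.lf (nat_lit 0) (nat_lit 5076623877) (nat_lit 1064) (nat_lit 1839043962)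 (nat_lit 1140) (nat_lit 9056993881) (nat_lit 152) (nat_lit 5) (nat_lit 166) (nat_lit 5) (nat_lit 167) (nat_lit 5) (nat_lit 307) (nat_lit 304) (nat_lit 169)) (XT.nd (nat_lit 78) (nat_lit 0) (nat_lit 76) (XT.lf (nat_lit 76) (nat_lit 5027147694) (nat_lit 0) (nat_lit 546366361) (nat_lit 1140) (nat_lit 10636245644) (nat_lit 153) (nat_lit 5) (nat_lit 152) (nat_lit 5) (nat_lit 167) (nat_lit 5) (nat_lit 308) (nat_lit 304) (nat_lit 168)) (XT.lf (nat_lit 0) (nat_lit 6152620129) (nat_lit 1064) (nat_lit 4380035169) (nat_lit 1140) (nat_lit 5919318609) (nat_lit 153) (nat_lit 5) (nat_lit 167) (nat_lit 5) (nat_lit 168) (nat_lit 5) (nat_lit 309) (nat_lit 304) (nat_lit 167))))))) (XT.nd (nat_lit 858) (nat_lit 2964) (nat_lit 0) (XT.nd (nat_lit 390) (nat_lit 0) (nat_lit 152) (XT.nd (nat_lit 156) (nat_lit 0) (nat_lit 76) (XT.nd (nat_lit 78) (nat_lit 0) (nat_lit 76) (XT.lf (nat_lit 76) (nat_lit 2667780890) (nat_lit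 0) (nat_lit 4103386192) (nat_lit 1140) (nat_lit 9929647343) (nat_lit 154) (nat_lit 5) (nat_lit 153) (nat_lit 5) (nat_lit 168) (nat_lit 5) (nat_lit 310) (nat_lit 304) (nat_lit 166)) (XT.lf (nat_lit 0) (nat_lit 7468405442) (nat_lit 1064) (nat_lit 6969374650) (nat_lit 1140) (nat_lit 2517557286) (nat_lit 154) (nat_lit 5) (nat_lit 168) (nat_lit 5) (nat_lit 169) (nat_lit 5) (nat_lit 311) (nat_lit 304) (nat_lit 165))) (XT.nd (nat_lit 78) (nat_lit 0) (nat_lit 0) (XT.lf (nat_lit 76) (nat_lit 265158619) (nat_lit 0) (nat_lit 7956088925) (nat_lit 1140) (nat_lit 8995228532) (nat_lit 155) (nat_lit 5) (nat_lit 154) (nat_lit 5) (nat_lit 169) (nat_lit 5) (nat_lit 312) (nat_lit 304) (nat_lit 164)) (XT.nd (nat_lit 78) (nat_lit 0) (nat_lit 76) (XT.lf (nat_lit 76) (nat_lit 7854065964) (nat_lit 0) (nat_lit 1204690248) (nat_lit 1140) (nat_lit 8424850336) (nat_lit 155) (nat_lit 5) (nat_lit 154) (nat_lit 5) (nat_lit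 169) (nat_lit 5) (nat_lit 313) (nat_lit 304) (nat_lit 163)) (XT.lf (nat_lit 0) (nat_lit 9968627197) (nat_lit 1064) (nat_lit 2149028924) (nat_lit 1140) (nat_lit 5639697169) (nat_lit 155) (nat_lit 5) (nat_lit 169) (nat_lit 5) (nat_lit 170) (nat_lit 5) (nat_lit 314) (nat_lit 304) (nat_lit 162))))) (XT.nd (nat_lit 234) (nat_lit 0) (nat_lit 76) (XT.nd (nat_lit 78) (nat_lit 0) (nat_lit 76) (XT.lf (nat_lit 76) (nat_lit 5648708556) (nat_lit 0) (nat_lit 5315517799) (nat_lit 1140) (nat_lit 7073352018) (nat_lit 156) (nat_lit 5) (nat_lit 155) (nat_lit 5) (nat_lit 170) (nat_lit 5) (nat_lit 315) (nat_lit 304) (nat_lit 161)) (XT.nd (nat_lit 78) (nat_lit 0) (nat_lit 0) (XT.lf (nat_lit 0) (nat_lit 12020262582) (nat_lit 1064) (nat_lit 4623297473) (nat_lit 1140) (nat_lit 1681751430) (nat_lit 156) (nat_lit 5) (nat_lit 170) (nat_lit 5) (nat_lit 171) (nat_lit 5) (nat_lit 316) (nat_lit 304) (nat_lit 160)) (XT.lf (nat_lit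 76) (nat_lit 3383092892) (nat_lit 0) (nat_lit 9802658930) (nat_lit 1140) (nat_lit 5433609426) (nat_lit 157) (nat_lit 5) (nat_lit 156) (nat_lit 5) (nat_lit 171) (nat_lit 5) (nat_lit 317) (nat_lit 304) (nat_lit 159)))) (XT.nd (nat_lit 78) (nat_lit 0) (nat_lit 76) (XT.lf (nat_lit 76) (nat_lit 11718965728) (nat_lit 0) (nat_lit 2706711105) (nat_lit 1140) (nat_lit 4495388837) (nat_lit 157) (nat_lit 5) (nat_lit 156) (nat_lit 5) (nat_lit 171) (nat_lit 5) (nat_lit 318) (nat_lit 304) (nat_lit 158)) (XT.nd (nat_lit 78) (nat_lit 0) (nat_lit 0) (XT.lf (nat_lit 76) (nat_lit 1043654902) (nat_lit 0) (nat_lit 14706426461) (nat_lit 1140) (nat_lit 3480338199) (nat_lit 158) (nat_lit 5) (nat_lit 157) (nat_lit 5) (nat_lit 172) (nat_lit 5) (nat_lit 319) (nat_lit 304) (nat_lit 157)) (XT.lf (nat_lit 76) (nat_lit 9651574729) (nat_lit 0) (nat_lit 7555068527) (nat_lit 1140) (nat_lit 2339654362) (nat_lit 158) (nat_lit 5)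 (nat_lit 157) (nat_lit 5) (nat_lit 172) (nat_lit 5) (nat_lit 320) (nat_lit 304) (nat_lit 156)))))) (XT.nd (nat_lit 468) (nat_lit 988) (nat_lit 0) (XT.nd (nat_lit 234) (nat_lit 1216) (nat_lit 0) (XT.nd (nat_lit 78) (nat_lit 1064) (nat_lit 0) (XT.lf (nat_lit 76) (nat_lit 18512381494) (nat_lit 0) (nat_lit 187881441) (nat_lit 1140) (nat_lit 1171604083) (nat_lit 158) (nat_lit 5) (nat_lit 157) (nat_lit 5) (nat_lit 172) (nat_lit 5) (nat_lit 321) (nat_lit 304) (nat_lit 155)) (XT.nd (nat_lit 78) (nat_lit 0) (nat_lit 0) (XT.lf (nat_lit 0) (nat_lit 169025884) (nat_lit 1140) (nat_lit 12703130585) (nat_lit 76) (nat_lit 7330908292) (nat_lit 143) (nat_lit 5) (nat_lit 158) (nat_lit 5) (nat_lit 144) (nat_lit 5) (nat_lit 322) (nat_lit 304) (nat_lit 154)) (XT.lf (nat_lit 0) (nat_lit 1535676121) (nat_lit 1140) (nat_lit 3909882016) (nat_lit 76) (nat_lit 15098026299) (nat_lit 143) (nat_lit 5) (nat_lit 158) (nat_lit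 5) (nat_lit 144) (nat_lit 5) (nat_lit 323) (nat_lit 304) (nat_lit 153)))) (XT.nd (nat_lit 78) (nat_lit 532) (nat_lit 0) (XT.lf (nat_lit 0) (nat_lit 3009238604) (nat_lit 760) (nat_lit 15670546233) (nat_lit 76) (nat_lit 2212571547) (nat_lit 134) (nat_lit 5) (nat_lit 144) (nat_lit 5) (nat_lit 135) (nat_lit 5) (nat_lit 324) (nat_lit 304) (nat_lit 152)) (XT.nd (nat_lit 78) (nat_lit 532) (nat_lit 0) (XT.lf (nat_lit 0) (nat_lit 4614745081) (nat_lit 760) (nat_lit 6602606503) (nat_lit 76) (nat_lit 10031621447) (nat_lit 134) (nat_lit 5) (nat_lit 144) (nat_lit 5) (nat_lit 135) (nat_lit 5) (nat_lit 325) (nat_lit 304) (nat_lit 151)) (XT.lf (nat_lit 0) (nat_lit 2786410360) (nat_lit 532) (nat_lit 3502915002) (nat_lit 608) (nat_lit 15326348812) (nat_lit 127) (nat_lit 5) (nat_lit 134) (nat_lit 5) (nat_lit 135) (nat_lit 5) (nat_lit 326) (nat_lit 304) (nat_lit 150))))) (XT.nd (nat_lit 234) (nat_lit 456) (nat_lit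 0) (XT.nd (nat_lit 78) (nat_lit 532) (nat_lit 0) (XT.lf (nat_lit 0) (nat_lit 8118433827) (nat_lit 608) (nat_lit 9447771757) (nat_lit 76) (nat_lit 4424054915) (nat_lit 127) (nat_lit 5) (nat_lit 135) (nat_lit 5) (nat_lit 128) (nat_lit 5) (nat_lit 327) (nat_lit 304) (nat_lit 149)) (XT.nd (nat_lit 78) (nat_lit 0) (nat_lit 0) (XT.lf (nat_lit 0) (nat_lit 178656574) (nat_lit 532) (nat_lit 9854575027) (nat_lit 608) (nat_lit 12341940828) (nat_lit 120) (nat_lit 5) (nat_lit 127) (nat_lit 5) (nat_lit 128) (nat_lit 5) (nat_lit 328) (nat_lit 304) (nat_lit 148)) (XT.lf (nat_lit 0) (nat_lit 10282287503) (nat_lit 532) (nat_lit 1813118212) (nat_lit 608) (nat_lit 10673540160) (nat_lit 120) (nat_lit 5) (nat_lit 127) (nat_lit 5) (nat_lit 128) (nat_lit 5) (nat_lit 329) (nat_lit 304) (nat_lit 147)))) (XT.nd (nat_lit 78) (nat_lit 456) (nat_lit 0) (XT.lf (nat_lit 0) (nat_lit 14276324410) (nat_lit 608) (nat_lit 2552974960)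 (nat_lit 76) (nat_lit 6343538551) (nat_lit 120) (nat_lit 5) (nat_lit 128) (nat_lit 5) (nat_lit 121) (nat_lit 5) (nat_lit 330) (nat_lit 304) (nat_lit 146)) (XT.nd (nat_lit 78) (nat_lit 0) (nat_lit 0) (XT.lf (nat_lit 0) (nat_lit 7808003131) (nat_lit 456) (nat_lit 8802518945) (nat_lit 532) (nat_lit 6975700547) (nat_lit 114) (nat_lit 5) (nat_lit 120) (nat_lit 5) (nat_lit 121) (nat_lit 5) (nat_lit 331) (nat_lit 304) (nat_lit 145)) (XT.lf (nat_lit 0) (nat_lit 18527067887) (nat_lit 456) (nat_lit 508403633) (nat_lit 532) (nat_lit 4975926671) (nat_lit 114) (nat_lit 5) (nat_lit 120) (nat_lit 5) (nat_lit 121) (nat_lit 5) (nat_lit 332) (nat_lit 304) (nat_lit 144))))))))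
noncomputable def xc217 : XT := (XT.nd (nat_lit 1716) (nat_lit 2128) (nat_lit 0) (XT.nd (nat_lit 858) (nat_lit 1824) (nat_lit 0) (XT.nd (nat_lit 390) (nat_lit 1216) (nat_lit 0) (XT.nd (nat_lit 156) (nat_lit 532) (nat_lit 0) (XT.nd (nat_lit 78) (nat_lit 0) (nat_lit 0) (XT.lf (nat_lit 0) (nat_lit 5136283996) (nat_lit 456) (nat_lit 16518584235) (nat_lit 532) (nat_lit 2790820611) (nat_lit 108) (nat_lit 5) (nat_lit 114) (nat_lit 5) (nat_lit 115) (nat_lit 5) (nat_lit 333) (nat_lit 304) (nat_lit 143)) (XT.lf (nat_lit 0) (nat_lit 16177770010) (nat_lit 456) (nat_lit 8230629495) (nat_lit 532) (nat_lit 482952593) (nat_lit 108) (nat_lit 5) (nat_lit 114) (nat_lit 5) (nat_lit 115) (nat_lit 5) (nat_lit 334) (nat_lit 304) (nat_lit 142))) (XT.nd (nat_lit 78) (nat_lit 0) (nat_lit 0) (XT.lf (nat_lit 0) (nat_lit 1877133473) (nat_lit 532) (nat_lit 23132441681) (nat_lit 76) (nat_lit 339675417) (nat_lit 101) (nat_lit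 5) (nat_lit 108) (nat_lit 5) (nat_lit 102) (nat_lit 5) (nat_lit 335) (nat_lit 304) (nat_lit 141)) (XT.nd (nat_lit 78) (nat_lit 0) (nat_lit 0) (XT.lf (nat_lit 0) (nat_lit 4464026455) (nat_lit 532) (nat_lit 12256749439) (nat_lit 76) (nat_lit 9095004895) (nat_lit 101) (nat_lit 5) (nat_lit 108) (nat_lit 5) (nat_lit 102) (nat_lit 5) (nat_lit 336) (nat_lit 304) (nat_lit 140)) (XT.lf (nat_lit 0) (nat_lit 7124019951) (nat_lit 532) (nat_lit 1059728521) (nat_lit 76) (nat_lit 18112702924) (nat_lit 101) (nat_lit 5) (nat_lit 108) (nat_lit 5) (nat_lit 102) (nat_lit 5) (nat_lit 337) (nat_lit 304) (nat_lit 139))))) (XT.nd (nat_lit 234) (nat_lit 380) (nat_lit 0) (XT.nd (nat_lit 78) (nat_lit 380) (nat_lit 0) (XT.lf (nat_lit 0) (nat_lit 9968939562) (nat_lit 532) (nat_lit 16118726715) (nat_lit 76) (nat_lit 700731085) (nat_lit 95) (nat_lit 5) (nat_lit 102) (nat_lit 5) (nat_lit 96) (nat_lit 5) (nat_lit 338) (nat_lit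 304) (nat_lit 138)) (XT.nd (nat_lit 78) (nat_lit 380) (nat_lit 0) (XT.lf (nat_lit 0) (nat_lit 12986743440) (nat_lit 532) (nat_lit 4608122915) (nat_lit 76) (nat_lit 9697618016) (nat_lit 95) (nat_lit 5) (nat_lit 102) (nat_lit 5) (nat_lit 96) (nat_lit 5) (nat_lit 339) (nat_lit 304) (nat_lit 137)) (XT.lf (nat_lit 0) (nat_lit 7387208026) (nat_lit 380) (nat_lit 8774711276) (nat_lit 456) (nat_lit 11647778058) (nat_lit 90) (nat_lit 5) (nat_lit 95) (nat_lit 5) (nat_lit 96) (nat_lit 5) (nat_lit 340) (nat_lit 304) (nat_lit 136)))) (XT.nd (nat_lit 78) (nat_lit 380) (nat_lit 0) (XT.lf (nat_lit 0) (nat_lit 19478222685) (nat_lit 456) (nat_lit 8512431851) (nat_lit 76) (nat_lit 350404299) (nat_lit 90) (nat_lit 5) (nat_lit 96) (nat_lit 5) (nat_lit 91) (nat_lit 5) (nat_lit 341) (nat_lit 304) (nat_lit 135)) (XT.nd (nat_lit 78) (nat_lit 0) (nat_lit 0) (XT.lf (nat_lit 0) (nat_lit 3736276760) (nat_lit 380) (nat_lit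 19276549726) (nat_lit 456) (nat_lit 5871978349) (nat_lit 85) (nat_lit 5) (nat_lit 90) (nat_lit 5) (nat_lit 91) (nat_lit 5) (nat_lit 342) (nat_lit 304) (nat_lit 134)) (XT.lf (nat_lit 0) (nat_lit 16522308540) (nat_lit 380) (nat_lit 10213207783) (nat_lit 456) (nat_lit 2706893241) (nat_lit 85) (nat_lit 5) (nat_lit 90) (nat_lit 5) (nat_lit 91) (nat_lit 5) (nat_lit 343) (nat_lit 304) (nat_lit 133)))))) (XT.nd (nat_lit 390) (nat_lit 988) (nat_lit 0) (XT.nd (nat_lit 156) (nat_lit 380) (nat_lit 0) (XT.nd (nat_lit 78) (nat_lit 380) (nat_lit 0) (XT.lf (nat_lit 0) (nat_lit 538508535) (nat_lit 456) (nat_lit 334721737) (nat_lit 76) (nat_lit 29143475247) (nat_lit 84) (nat_lit 5) (nat_lit 90) (nat_lit 5) (nat_lit 85) (nat_lit 5) (nat_lit 344) (nat_lit 304) (nat_lit 132)) (XT.lf (nat_lit 0) (nat_lit 4032198246) (nat_lit 456) (nat_lit 17841730122) (nat_lit 76) (nat_lit 8727345133) (nat_lit 79) (nat_lit 5) (nat_lit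 85) (nat_lit 5) (nat_lit 80) (nat_lit 5) (nat_lit 345) (nat_lit 304) (nat_lit 131))) (XT.nd (nat_lit 78) (nat_lit 380) (nat_lit 0) (XT.lf (nat_lit 0) (nat_lit 7639087003) (nat_lit 456) (nat_lit 4962974499) (nat_lit 76) (nat_lit 18601072287) (nat_lit 79) (nat_lit 5) (nat_lit 85) (nat_lit 5) (nat_lit 80) (nat_lit 5) (nat_lit 346) (nat_lit 304) (nat_lit 130)) (XT.nd (nat_lit 78) (nat_lit 0) (nat_lit 0) (XT.lf (nat_lit 0) (nat_lit 8462901020) (nat_lit 380) (nat_lit 2969067918) (nat_lit 456) (nat_lit 20388754069) (nat_lit 74) (nat_lit 5) (nat_lit 79) (nat_lit 5) (nat_lit 80) (nat_lit 5) (nat_lit 347) (nat_lit 304) (nat_lit 129)) (XT.lf (nat_lit 0) (nat_lit 15452575460) (nat_lit 456) (nat_lit 10133824353) (nat_lit 76) (nat_lit 6867028465) (nat_lit 74) (nat_lit 5) (nat_lit 80) (nat_lit 5) (nat_lit 75) (nat_lit 5) (nat_lit 348) (nat_lit 304) (nat_lit 128))))) (XT.nd (nat_lit 234) (nat_lit 684) (nat_lit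 0) (XT.nd (nat_lit 78) (nat_lit 0) (nat_lit 0) (XT.lf (nat_lit 0) (nat_lit 3521906055) (nat_lit 304) (nat_lit 16131737724) (nat_lit 380) (nat_lit 13449681954) (nat_lit 70) (nat_lit 5) (nat_lit 74) (nat_lit 5) (nat_lit 75) (nat_lit 5) (nat_lit 349) (nat_lit 304) (nat_lit 127)) (XT.nd (nat_lit 78) (nat_lit 0) (nat_lit 0) (XT.lf (nat_lit 0) (nat_lit 17790768635) (nat_lit 304) (nat_lit 6288957622) (nat_lit 380) (nat_lit 9690030536) (nat_lit 70) (nat_lit 5) (nat_lit 74) (nat_lit 5) (nat_lit 75) (nat_lit 5) (nat_lit 350) (nat_lit 304) (nat_lit 126)) (XT.lf (nat_lit 0) (nat_lit 28672330469) (nat_lit 380) (nat_lit 2009727308) (nat_lit 76) (nat_lit 3773116799) (nat_lit 70) (nat_lit 5) (nat_lit 75) (nat_lit 5) (nat_lit 71) (nat_lit 5) (nat_lit 351) (nat_lit 304) (nat_lit 125)))) (XT.nd (nat_lit 78) (nat_lit 380) (nat_lit 0) (XT.lf (nat_lit 0) (nat_lit 12557261815) (nat_lit 304) (nat_lit 21025260251) (nat_lit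 380) (nat_lit 1573244343) (nat_lit 66) (nat_lit 5) (nat_lit 70) (nat_lit 5) (nat_lit 71) (nat_lit 5) (nat_lit 352) (nat_lit 304) (nat_lit 124)) (XT.nd (nat_lit 78) (nat_lit 304) (nat_lit 0) (XT.lf (nat_lit 0) (nat_lit 2726080453) (nat_lit 380) (nat_lit 8305214062) (nat_lit 76) (nat_lit 24844769871) (nat_lit 65) (nat_lit 5) (nat_lit 70) (nat_lit 5) (nat_lit 66) (nat_lit 5) (nat_lit 353) (nat_lit 304) (nat_lit 123)) (XT.lf (nat_lit 0) (nat_lit 6524589771) (nat_lit 304) (nat_lit 657835562) (nat_lit 380) (nat_lit 29433294142) (nat_lit 61) (nat_lit 5) (nat_lit 65) (nat_lit 5) (nat_lit 66) (nat_lit 5) (nat_lit 354) (nat_lit 304) (nat_lit 122))))))) (XT.nd (nat_lit 858) (nat_lit 988) (nat_lit 0) (XT.nd (nat_lit 390) (nat_lit 608) (nat_lit 0) (XT.nd (nat_lit 156) (nat_lit 532) (nat_lit 0) (XT.nd (nat_lit 78) (nat_lit 0) (nat_lit 0) (XT.lf (nat_lit 0) (nat_lit 11950525229) (nat_lit 380) (nat_lit 15506799540)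 (nat_lit 76) (nat_lit 9914902656) (nat_lit 61) (nat_lit 5) (nat_lit 66) (nat_lit 5) (nat_lit 62) (nat_lit 5) (nat_lit 355) (nat_lit 304) (nat_lit 121)) (XT.lf (nat_lit 0) (nat_lit 16865253127) (nat_lit 380) (nat_lit 495407472) (nat_lit 76) (nat_lit 20790667462) (nat_lit 61) (nat_lit 5) (nat_lit 66) (nat_lit 5) (nat_lit 62) (nat_lit 5) (nat_lit 356) (nat_lit 304) (nat_lit 120))) (XT.nd (nat_lit 78) (nat_lit 228) (nat_lit 0) (XT.lf (nat_lit 0) (nat_lit 15260269589) (nat_lit 304) (nat_lit 6811001388) (nat_lit 380) (nat_lit 16878220147) (nat_lit 57) (nat_lit 5) (nat_lit 61) (nat_lit 5) (nat_lit 62) (nat_lit 5) (nat_lit 357) (nat_lit 304) (nat_lit 119)) (XT.nd (nat_lit 78) (nat_lit 228) (nat_lit 0) (XT.lf (nat_lit 0) (nat_lit 27474695763) (nat_lit 380) (nat_lit 8315587658) (nat_lit 76) (nat_lit 3980083579) (nat_lit 57) (nat_lit 5) (nat_lit 62) (nat_lit 5) (nat_lit 58) (nat_lit 5) (nat_lit 358) (nat_lit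 304) (nat_lit 118)) (XT.lf (nat_lit 0) (nat_lit 7596282551) (nat_lit 228) (nat_lit 25581671914) (nat_lit 304) (nat_lit 7433787326) (nat_lit 54) (nat_lit 5) (nat_lit 57) (nat_lit 5) (nat_lit 58) (nat_lit 5) (nat_lit 359) (nat_lit 304) (nat_lit 117))))) (XT.nd (nat_lit 234) (nat_lit 228) (nat_lit 0) (XT.nd (nat_lit 78) (nat_lit 380) (nat_lit 0) (XT.lf (nat_lit 0) (nat_lit 24152239341) (nat_lit 228) (nat_lit 14981361612) (nat_lit 304) (nat_lit 2342322611) (nat_lit 54) (nat_lit 5) (nat_lit 57) (nat_lit 5) (nat_lit 58) (nat_lit 5) (nat_lit 360) (nat_lit 304) (nat_lit 116)) (XT.nd (nat_lit 78) (nat_lit 304) (nat_lit 0) (XT.lf (nat_lit 0) (nat_lit 2842626780) (nat_lit 304) (nat_lit 1192729502) (nat_lit 76) (nat_lit 38329920844) (nat_lit 53) (nat_lit 5) (nat_lit 57) (nat_lit 5) (nat_lit 54) (nat_lit 5) (nat_lit 361) (nat_lit 304) (nat_lit 115)) (XT.lf (nat_lit 0) (nat_lit 8355725411) (nat_lit 380) (nat_lit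 27645679174) (nat_lit 76) (nat_lit 7272624661) (nat_lit 49) (nat_lit 5) (nat_lit 54) (nat_lit 5) (nat_lit 50) (nat_lit 5) (nat_lit 362) (nat_lit 304) (nat_lit 114)))) (XT.nd (nat_lit 78) (nat_lit 228) (nat_lit 0) (XT.lf (nat_lit 0) (nat_lit 14083808824) (nat_lit 380) (nat_lit 11274850337) (nat_lit 76) (nat_lit 18849900959) (nat_lit 49) (nat_lit 5) (nat_lit 54) (nat_lit 5) (nat_lit 50) (nat_lit 5) (nat_lit 363) (nat_lit 304) (nat_lit 113)) (XT.nd (nat_lit 78) (nat_lit 0) (nat_lit 0) (XT.lf (nat_lit 0) (nat_lit 5694726749) (nat_lit 228) (nat_lit 14341297073) (nat_lit 304) (nat_lit 25133538257) (nat_lit 46) (nat_lit 5) (nat_lit 49) (nat_lit 5) (nat_lit 50) (nat_lit 5) (nat_lit 364) (nat_lit 304) (nat_lit 112)) (XT.lf (nat_lit 0) (nat_lit 23401047607) (nat_lit 228) (nat_lit 2877197523) (nat_lit 304) (nat_lit 19877809489) (nat_lit 46) (nat_lit 5) (nat_lit 49) (nat_lit 5) (nat_lit 50) (nat_lit 5)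 (nat_lit 365) (nat_lit 304) (nat_lit 111)))))) (XT.nd (nat_lit 468) (nat_lit 456) (nat_lit 0) (XT.nd (nat_lit 234) (nat_lit 304) (nat_lit 0) (XT.nd (nat_lit 78) (nat_lit 228) (nat_lit 0) (XT.lf (nat_lit 0) (nat_lit 32791228098) (nat_lit 304) (nat_lit 5622862435) (nat_lit 76) (nat_lit 8755550163) (nat_lit 46) (nat_lit 5) (nat_lit 50) (nat_lit 5) (nat_lit 47) (nat_lit 5) (nat_lit 366) (nat_lit 304) (nat_lit 110)) (XT.nd (nat_lit 78) (nat_lit 0) (nat_lit 0) (XT.lf (nat_lit 0) (nat_lit 12230082197) (nat_lit 228) (nat_lit 27413283508) (nat_lit 304) (nat_lit 8565959202) (nat_lit 43) (nat_lit 5) (nat_lit 46) (nat_lit 5) (nat_lit 47) (nat_lit 5) (nat_lit 367) (nat_lit 304) (nat_lit 109)) (XT.lf (nat_lit 0) (nat_lit 30730580851) (nat_lit 228) (nat_lit 16025016344) (nat_lit 304) (nat_lit 2522969958) (nat_lit 43) (nat_lit 5) (nat_lit 46) (nat_lit 5) (nat_lit 47) (nat_lit 5) (nat_lit 368) (nat_lit 304)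 (nat_lit 108)))) (XT.nd (nat_lit 78) (nat_lit 228) (nat_lit 0) (XT.lf (nat_lit 0) (nat_lit 3626873630) (nat_lit 304) (nat_lit 632620071) (nat_lit 76) (nat_lit 46119395081) (nat_lit 42) (nat_lit 5) (nat_lit 46) (nat_lit 5) (nat_lit 43) (nat_lit 5) (nat_lit 369) (nat_lit 304) (nat_lit 107)) (XT.nd (nat_lit 78) (nat_lit 0) (nat_lit 0) (XT.lf (nat_lit 0) (nat_lit 10160300454) (nat_lit 304) (nat_lit 33437644922) (nat_lit 76) (nat_lit 7906034487) (nat_lit 39) (nat_lit 5) (nat_lit 43) (nat_lit 5) (nat_lit 40) (nat_lit 5) (nat_lit 370) (nat_lit 304) (nat_lit 106)) (XT.lf (nat_lit 0) (nat_lit 16936232396) (nat_lit 304) (nat_lit 15368821559) (nat_lit 76) (nat_lit 20356377677) (nat_lit 39) (nat_lit 5) (nat_lit 43) (nat_lit 5) (nat_lit 40) (nat_lit 5) (nat_lit 371) (nat_lit 304) (nat_lit 105))))) (XT.nd (nat_lit 234) (nat_lit 228) (nat_lit 0) (XT.nd (nat_lit 78) (nat_lit 0) (nat_lit 0) (XT.lf (nat_lit 0)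 (nat_lit 3303441387) (nat_lit 228) (nat_lit 20641695062) (nat_lit 304) (nat_lit 29907582616) (nat_lit 36) (nat_lit 5) (nat_lit 39) (nat_lit 5) (nat_lit 40) (nat_lit 5) (nat_lit 372) (nat_lit 304) (nat_lit 104)) (XT.nd (nat_lit 78) (nat_lit 0) (nat_lit 0) (XT.lf (nat_lit 0) (nat_lit 22847861108) (nat_lit 228) (nat_lit 8469611563) (nat_lit 304) (nat_lit 23757680348) (nat_lit 36) (nat_lit 5) (nat_lit 39) (nat_lit 5) (nat_lit 40) (nat_lit 5) (nat_lit 373) (nat_lit 304) (nat_lit 103)) (XT.lf (nat_lit 0) (nat_lit 38948099195) (nat_lit 304) (nat_lit 13397767325) (nat_lit 76) (nat_lit 3987282635) (nat_lit 36) (nat_lit 5) (nat_lit 40) (nat_lit 5) (nat_lit 37) (nat_lit 5) (nat_lit 374) (nat_lit 304) (nat_lit 102)))) (XT.nd (nat_lit 78) (nat_lit 76) (nat_lit 0) (XT.lf (nat_lit 0) (nat_lit 6027470932) (nat_lit 152) (nat_lit 40920048164) (nat_lit 228) (nat_lit 10677172525) (nat_lit 34) (nat_lit 5) (nat_lit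 36) (nat_lit 5) (nat_lit 37) (nat_lit 5) (nat_lit 375) (nat_lit 304) (nat_lit 101)) (XT.nd (nat_lit 78) (nat_lit 76) (nat_lit 0) (XT.lf (nat_lit 0) (nat_lit 26307203985) (nat_lit 152) (nat_lit 29013114185) (nat_lit 228) (nat_lit 3630662904) (nat_lit 34) (nat_lit 5) (nat_lit 36) (nat_lit 5) (nat_lit 37) (nat_lit 5) (nat_lit 376) (nat_lit 304) (nat_lit 100)) (XT.lf (nat_lit 0) (nat_lit 3554601333) (nat_lit 228) (nat_lit 13159455811) (nat_lit 76) (nat_lit 43602014311) (nat_lit 33) (nat_lit 5) (nat_lit 36) (nat_lit 5) (nat_lit 34) (nat_lit 5) (nat_lit 377) (nat_lit 304) (nat_lit 99))))))))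
noncomputable def xc218 : XT := (XT.nd (nat_lit 36426) (nat_lit 0) (nat_lit 3724) (XT.nd (nat_lit 35568) (nat_lit 0) (nat_lit 8588) (XT.nd (nat_lit 35100) (nat_lit 0) (nat_lit 9272) (XT.nd (nat_lit 156) (nat_lit 0) (nat_lit 0) (XT.nd (nat_lit 78) (nat_lit 0) (nat_lit 0) (XT.lf (nat_lit 0) (nat_lit 7007412702) (nat_lit 228) (nat_lit 3940591664) (nat_lit 304) (nat_lit 50771067544) (nat_lit 30) (nat_lit 5) (nat_lit 33) (nat_lit 5) (nat_lit 34) (nat_lit 5) (nat_lit 378) (nat_lit 304) (nat_lit 98)) (XT.lf (nat_lit 0) (nat_lit 18784211401) (nat_lit 304) (nat_lit 35203833197) (nat_lit 76) (nat_lit 9169490043) (nat_lit 30) (nat_lit 5) (nat_lit 34) (nat_lit 5) (nat_lit 31) (nat_lit 5) (nat_lit 379) (nat_lit 304) (nat_lit 97))) (XT.nd (nat_lit 34788) (nat_lit 0) (nat_lit 9196) (XT.lf (nat_lit 0) (nat_lit 26892783455) (nat_lit 304) (nat_lit 15152501080) (nat_lit 76) (nat_lit 22592750604) (nat_lit 30) (nat_lit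 5) (nat_lit 34) (nat_lit 5) (nat_lit 31) (nat_lit 5) (nat_lit 380) (nat_lit 304) (nat_lit 96)) (XT.nd (nat_lit 78) (nat_lit 0) (nat_lit 0) (XT.lf (nat_lit 0) (nat_lit 2265193502) (nat_lit 1140) (nat_lit 2801772642) (nat_lit 1140) (nat_lit 2801772642) (nat_lit 151) (nat_lit 3) (nat_lit 166) (nat_lit 3) (nat_lit 166) (nat_lit 5) (nat_lit 305) (nat_lit 305) (nat_lit 170)) (XT.lf (nat_lit 76) (nat_lit 958977592) (nat_lit 0) (nat_lit 3892411702) (nat_lit 1140) (nat_lit 11113963435) (nat_lit 152) (nat_lit 5) (nat_lit 151) (nat_lit 3) (nat_lit 166) (nat_lit 5) (nat_lit 306) (nat_lit 305) (nat_lit 169))))) (XT.nd (nat_lit 234) (nat_lit 0) (nat_lit 76) (XT.nd (nat_lit 78) (nat_lit 0) (nat_lit 0) (XT.lf (nat_lit 0) (nat_lit 5254027393) (nat_lit 1064) (nat_lit 8395428524) (nat_lit 1140) (nat_lit 2548471293) (nat_lit 152) (nat_lit 5) (nat_lit 166) (nat_lit 5) (nat_lit 167) (nat_lit 5) (nat_lit 307) (nat_lit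 305) (nat_lit 168)) (XT.nd (nat_lit 78) (nat_lit 0) (nat_lit 0) (XT.lf (nat_lit 0) (nat_lit 5698040337) (nat_lit 1064) (nat_lit 1629900045) (nat_lit 1140) (nat_lit 9108682239) (nat_lit 152) (nat_lit 5) (nat_lit 166) (nat_lit 5) (nat_lit 167) (nat_lit 5) (nat_lit 308) (nat_lit 305) (nat_lit 167)) (XT.lf (nat_lit 76) (nat_lit 5439686035) (nat_lit 0) (nat_lit 759003413) (nat_lit 1140) (nat_lit 10482511886) (nat_lit 153) (nat_lit 5) (nat_lit 152) (nat_lit 5) (nat_lit 167) (nat_lit 5) (nat_lit 309) (nat_lit 305) (nat_lit 166)))) (XT.nd (nat_lit 78) (nat_lit 0) (nat_lit 0) (XT.lf (nat_lit 0) (nat_lit 6779998280) (nat_lit 1064) (nat_lit 4241085251) (nat_lit 1140) (nat_lit 5910085941) (nat_lit 153) (nat_lit 5) (nat_lit 167) (nat_lit 5) (nat_lit 168) (nat_lit 5) (nat_lit 310) (nat_lit 305) (nat_lit 165)) (XT.nd (nat_lit 78) (nat_lit 0) (nat_lit 76) (XT.lf (nat_lit 76) (nat_lit 3015514791) (nat_lit 0)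 (nat_lit 4391263077) (nat_lit 1140) (nat_lit 9781038496) (nat_lit 154) (nat_lit 5) (nat_lit 153) (nat_lit 5) (nat_lit 168) (nat_lit 5) (nat_lit 311) (nat_lit 305) (nat_lit 164)) (XT.lf (nat_lit 0) (nat_lit 8110799210) (nat_lit 1064) (nat_lit 6903400658) (nat_lit 1140) (nat_lit 2436229694) (nat_lit 154) (nat_lit 5) (nat_lit 168) (nat_lit 5) (nat_lit 169) (nat_lit 5) (nat_lit 312) (nat_lit 305) (nat_lit 163)))))) (XT.nd (nat_lit 390) (nat_lit 836) (nat_lit 0) (XT.nd (nat_lit 156) (nat_lit 0) (nat_lit 76) (XT.nd (nat_lit 78) (nat_lit 0) (nat_lit 0) (XT.lf (nat_lit 76) (nat_lit 545471989) (nat_lit 0) (nat_lit 8331187957) (nat_lit 1140) (nat_lit 8843059116) (nat_lit 155) (nat_lit 5) (nat_lit 154) (nat_lit 5) (nat_lit 169) (nat_lit 5) (nat_lit 313) (nat_lit 305) (nat_lit 162)) (XT.lf (nat_lit 76) (nat_lit 8354113780) (nat_lit 0) (nat_lit 1373274027) (nat_lit 1140) (nat_lit 8267861601) (nat_lit 155)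 (nat_lit 5) (nat_lit 154) (nat_lit 5) (nat_lit 169) (nat_lit 5) (nat_lit 314) (nat_lit 305) (nat_lit 161))) (XT.nd (nat_lit 78) (nat_lit 0) (nat_lit 0) (XT.lf (nat_lit 0) (nat_lit 10651759589) (nat_lit 1064) (nat_lit 1943049018) (nat_lit 1140) (nat_lit 5682811744) (nat_lit 155) (nat_lit 5) (nat_lit 169) (nat_lit 5) (nat_lit 170) (nat_lit 5) (nat_lit 315) (nat_lit 305) (nat_lit 160)) (XT.nd (nat_lit 78) (nat_lit 0) (nat_lit 76) (XT.lf (nat_lit 76) (nat_lit 6085969109) (nat_lit 0) (nat_lit 5582645255) (nat_lit 1140) (nat_lit 6897923319) (nat_lit 156) (nat_lit 5) (nat_lit 155) (nat_lit 5) (nat_lit 170) (nat_lit 5) (nat_lit 316) (nat_lit 305) (nat_lit 159)) (XT.lf (nat_lit 0) (nat_lit 12744391146) (nat_lit 1064) (nat_lit 4489178680) (nat_lit 1140) (nat_lit 1629717516) (nat_lit 156) (nat_lit 5) (nat_lit 170) (nat_lit 5) (nat_lit 171) (nat_lit 5) (nat_lit 317) (nat_lit 305) (nat_lit 158))))) (XT.nd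 (nat_lit 234) (nat_lit 988) (nat_lit 0) (XT.nd (nat_lit 78) (nat_lit 0) (nat_lit 0) (XT.lf (nat_lit 76) (nat_lit 3754728713) (nat_lit 0) (nat_lit 10182125149) (nat_lit 1140) (nat_lit 5229570041) (nat_lit 157) (nat_lit 5) (nat_lit 156) (nat_lit 5) (nat_lit 171) (nat_lit 5) (nat_lit 318) (nat_lit 305) (nat_lit 157)) (XT.nd (nat_lit 78) (nat_lit 0) (nat_lit 76) (XT.lf (nat_lit 76) (nat_lit 12332809490) (nat_lit 0) (nat_lit 2870811904) (nat_lit 1140) (nat_lit 4273893543) (nat_lit 157) (nat_lit 5) (nat_lit 156) (nat_lit 5) (nat_lit 171) (nat_lit 5) (nat_lit 319) (nat_lit 305) (nat_lit 156)) (XT.lf (nat_lit 76) (nat_lit 1346530154) (nat_lit 0) (nat_lit 15213011072) (nat_lit 1140) (nat_lit 3236878827) (nat_lit 158) (nat_lit 5) (nat_lit 157) (nat_lit 5) (nat_lit 172) (nat_lit 5) (nat_lit 320) (nat_lit 305) (nat_lit 155)))) (XT.nd (nat_lit 78) (nat_lit 1064) (nat_lit 0) (XT.lf (nat_lit 76) (nat_lit 10204777898)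 (nat_lit 0) (nat_lit 7845207785) (nat_lit 1140) (nat_lit 2072106597) (nat_lit 158) (nat_lit 5) (nat_lit 157) (nat_lit 5) (nat_lit 172) (nat_lit 5) (nat_lit 321) (nat_lit 305) (nat_lit 154)) (XT.nd (nat_lit 78) (nat_lit 1064) (nat_lit 0) (XT.lf (nat_lit 76) (nat_lit 19323729567) (nat_lit 0) (nat_lit 255155944) (nat_lit 1140) (nat_lit 878851820) (nat_lit 158) (nat_lit 5) (nat_lit 157) (nat_lit 5) (nat_lit 172) (nat_lit 5) (nat_lit 322) (nat_lit 305) (nat_lit 153)) (XT.lf (nat_lit 0) (nat_lit 488218626) (nat_lit 1140) (nat_lit 12813020468) (nat_lit 76) (nat_lit 7497780163) (nat_lit 143) (nat_lit 5) (nat_lit 158) (nat_lit 5) (nat_lit 144) (nat_lit 5) (nat_lit 323) (nat_lit 305) (nat_lit 152))))))) (XT.nd (nat_lit 858) (nat_lit 2204) (nat_lit 0) (XT.nd (nat_lit 390) (nat_lit 1444) (nat_lit 0) (XT.nd (nat_lit 156) (nat_lit 532) (nat_lit 0) (XT.nd (nat_lit 78) (nat_lit 684) (nat_lit 0) (XT.lf (nat_lit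 0) (nat_lit 1886719188) (nat_lit 1140) (nat_lit 3763873589) (nat_lit 76) (nat_lit 15499457012) (nat_lit 143) (nat_lit 5) (nat_lit 158) (nat_lit 5) (nat_lit 144) (nat_lit 5) (nat_lit 324) (nat_lit 305) (nat_lit 151)) (XT.lf (nat_lit 0) (nat_lit 3397748019) (nat_lit 760) (nat_lit 15869944394) (nat_lit 76) (nat_lit 2241814882) (nat_lit 134) (nat_lit 5) (nat_lit 144) (nat_lit 5) (nat_lit 135) (nat_lit 5) (nat_lit 325) (nat_lit 305) (nat_lit 150))) (XT.nd (nat_lit 78) (nat_lit 532) (nat_lit 0) (XT.lf (nat_lit 0) (nat_lit 5042733314) (nat_lit 760) (nat_lit 6537851468) (nat_lit 76) (nat_lit 10296517846) (nat_lit 134) (nat_lit 5) (nat_lit 144) (nat_lit 5) (nat_lit 135) (nat_lit 5) (nat_lit 326) (nat_lit 305) (nat_lit 149)) (XT.nd (nat_lit 78) (nat_lit 0) (nat_lit 0) (XT.lf (nat_lit 0) (nat_lit 3130259104) (nat_lit 532) (nat_lit 3631360269) (nat_lit 608) (nat_lit 15493382409) (nat_lit 127) (nat_lit 5)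 (nat_lit 134) (nat_lit 5) (nat_lit 135) (nat_lit 5) (nat_lit 327) (nat_lit 305) (nat_lit 148)) (XT.lf (nat_lit 0) (nat_lit 8637122492) (nat_lit 608) (nat_lit 9469434444) (nat_lit 76) (nat_lit 4534541590) (nat_lit 127) (nat_lit 5) (nat_lit 135) (nat_lit 5) (nat_lit 128) (nat_lit 5) (nat_lit 328) (nat_lit 305) (nat_lit 147))))) (XT.nd (nat_lit 234) (nat_lit 912) (nat_lit 0) (XT.nd (nat_lit 78) (nat_lit 0) (nat_lit 0) (XT.lf (nat_lit 0) (nat_lit 443220360) (nat_lit 532) (nat_lit 10160621807) (nat_lit 608) (nat_lit 12433899240) (nat_lit 120) (nat_lit 5) (nat_lit 127) (nat_lit 5) (nat_lit 128) (nat_lit 5) (nat_lit 329) (nat_lit 305) (nat_lit 146)) (XT.nd (nat_lit 78) (nat_lit 0) (nat_lit 0) (XT.lf (nat_lit 0) (nat_lit 10842410584) (nat_lit 532) (nat_lit 1877618097) (nat_lit 608) (nat_lit 10723552372) (nat_lit 120) (nat_lit 5) (nat_lit 127) (nat_lit 5) (nat_lit 128) (nat_lit 5) (nat_lit 330) (nat_lit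 305) (nat_lit 145)) (XT.lf (nat_lit 0) (nat_lit 14958656518) (nat_lit 608) (nat_lit 2376957605) (nat_lit 76) (nat_lit 6524224195) (nat_lit 120) (nat_lit 5) (nat_lit 128) (nat_lit 5) (nat_lit 121) (nat_lit 5) (nat_lit 331) (nat_lit 305) (nat_lit 144)))) (XT.nd (nat_lit 78) (nat_lit 456) (nat_lit 0) (XT.lf (nat_lit 0) (nat_lit 8292373293) (nat_lit 456) (nat_lit 9065511931) (nat_lit 532) (nat_lit 6927905595) (nat_lit 114) (nat_lit 5) (nat_lit 120) (nat_lit 5) (nat_lit 121) (nat_lit 5) (nat_lit 332) (nat_lit 305) (nat_lit 143)) (XT.nd (nat_lit 78) (nat_lit 456) (nat_lit 0) (XT.lf (nat_lit 0) (nat_lit 19325724651) (nat_lit 456) (nat_lit 522604691) (nat_lit 532) (nat_lit 4875625861) (nat_lit 114) (nat_lit 5) (nat_lit 120) (nat_lit 5) (nat_lit 121) (nat_lit 5) (nat_lit 333) (nat_lit 305) (nat_lit 142)) (XT.lf (nat_lit 0) (nat_lit 5538535020) (nat_lit 456) (nat_lit 17003125699) (nat_lit 532) (nat_lit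 2629768741) (nat_lit 108) (nat_lit 5) (nat_lit 114) (nat_lit 5) (nat_lit 115) (nat_lit 5) (nat_lit 334) (nat_lit 305) (nat_lit 141)))))) (XT.nd (nat_lit 468) (nat_lit 1216) (nat_lit 0) (XT.nd (nat_lit 234) (nat_lit 456) (nat_lit 0) (XT.nd (nat_lit 78) (nat_lit 532) (nat_lit 0) (XT.lf (nat_lit 0) (nat_lit 16904037580) (nat_lit 456) (nat_lit 8466853173) (nat_lit 532) (nat_lit 259794094) (nat_lit 108) (nat_lit 5) (nat_lit 114) (nat_lit 5) (nat_lit 115) (nat_lit 5) (nat_lit 335) (nat_lit 305) (nat_lit 140)) (XT.nd (nat_lit 78) (nat_lit 0) (nat_lit 0) (XT.lf (nat_lit 0) (nat_lit 2162157545) (nat_lit 532) (nat_lit 23575585501) (nat_lit 76) (nat_lit 364651843) (nat_lit 101) (nat_lit 5) (nat_lit 108) (nat_lit 5) (nat_lit 102) (nat_lit 5) (nat_lit 336) (nat_lit 305) (nat_lit 139)) (XT.lf (nat_lit 0) (nat_lit 4819995857) (nat_lit 532) (nat_lit 12380928203) (nat_lit 76) (nat_lit 9382210540) (nat_lit 101)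 (nat_lit 5) (nat_lit 108) (nat_lit 5) (nat_lit 102) (nat_lit 5) (nat_lit 337) (nat_lit 305) (nat_lit 138)))) (XT.nd (nat_lit 78) (nat_lit 456) (nat_lit 0) (XT.lf (nat_lit 0) (nat_lit 7553321724) (nat_lit 532) (nat_lit 855089582) (nat_lit 76) (nat_lit 18670021389) (nat_lit 101) (nat_lit 5) (nat_lit 108) (nat_lit 5) (nat_lit 102) (nat_lit 5) (nat_lit 338) (nat_lit 305) (nat_lit 137)) (XT.nd (nat_lit 78) (nat_lit 0) (nat_lit 0) (XT.lf (nat_lit 0) (nat_lit 10479777159) (nat_lit 532) (nat_lit 16361614105) (nat_lit 76) (nat_lit 743873085) (nat_lit 95) (nat_lit 5) (nat_lit 102) (nat_lit 5) (nat_lit 96) (nat_lit 5) (nat_lit 339) (nat_lit 305) (nat_lit 136)) (XT.lf (nat_lit 0) (nat_lit 13581947111) (nat_lit 532) (nat_lit 4512702125) (nat_lit 76) (nat_lit 10010022349) (nat_lit 95) (nat_lit 5) (nat_lit 102) (nat_lit 5) (nat_lit 96) (nat_lit 5) (nat_lit 340) (nat_lit 305) (nat_lit 135))))) (XT.nd (nat_lit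 234) (nat_lit 456) (nat_lit 0) (XT.nd (nat_lit 78) (nat_lit 380) (nat_lit 0) (XT.lf (nat_lit 0) (nat_lit 7840197916) (nat_lit 380) (nat_lit 9008416050) (nat_lit 456) (nat_lit 11788912141) (nat_lit 90) (nat_lit 5) (nat_lit 95) (nat_lit 5) (nat_lit 96) (nat_lit 5) (nat_lit 341) (nat_lit 305) (nat_lit 134)) (XT.nd (nat_lit 78) (nat_lit 380) (nat_lit 0) (XT.lf (nat_lit 0) (nat_lit 20258803354) (nat_lit 456) (nat_lit 8537171893) (nat_lit 76) (nat_lit 389033127) (nat_lit 90) (nat_lit 5) (nat_lit 96) (nat_lit 5) (nat_lit 91) (nat_lit 5) (nat_lit 342) (nat_lit 305) (nat_lit 133)) (XT.lf (nat_lit 0) (nat_lit 4076736869) (nat_lit 380) (nat_lit 19819188096) (nat_lit 456) (nat_lit 5849258909) (nat_lit 85) (nat_lit 5) (nat_lit 90) (nat_lit 5) (nat_lit 91) (nat_lit 5) (nat_lit 343) (nat_lit 305) (nat_lit 132)))) (XT.nd (nat_lit 78) (nat_lit 456) (nat_lit 0) (XT.lf (nat_lit 0) (nat_lit 17239697996) (nat_lit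 380) (nat_lit 10484984481) (nat_lit 456) (nat_lit 2595013833) (nat_lit 85) (nat_lit 5) (nat_lit 90) (nat_lit 5) (nat_lit 91) (nat_lit 5) (nat_lit 344) (nat_lit 305) (nat_lit 131)) (XT.nd (nat_lit 78) (nat_lit 380) (nat_lit 0) (XT.lf (nat_lit 0) (nat_lit 738468061) (nat_lit 456) (nat_lit 125491858) (nat_lit 76) (nat_lit 30047381503) (nat_lit 84) (nat_lit 5) (nat_lit 90) (nat_lit 5) (nat_lit 85) (nat_lit 5) (nat_lit 345) (nat_lit 305) (nat_lit 130)) (XT.lf (nat_lit 0) (nat_lit 4334053715) (nat_lit 456) (nat_lit 18154454838) (nat_lit 76) (nat_lit 9025035559) (nat_lit 79) (nat_lit 5) (nat_lit 85) (nat_lit 5) (nat_lit 80) (nat_lit 5) (nat_lit 346) (nat_lit 305) (nat_lit 129))))))))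
noncomputable def xc219 : XT := (XT.nd (nat_lit 1716) (nat_lit 988) (nat_lit 0) (XT.nd (nat_lit 858) (nat_lit 1368) (nat_lit 0) (XT.nd (nat_lit 390) (nat_lit 684) (nat_lit 0) (XT.nd (nat_lit 156) (nat_lit 304) (nat_lit 0) (XT.nd (nat_lit 78) (nat_lit 380) (nat_lit 0) (XT.lf (nat_lit 0) (nat_lit 8043880508) (nat_lit 456) (nat_lit 4895817920) (nat_lit 76) (nat_lit 19193929768) (nat_lit 79) (nat_lit 5) (nat_lit 85) (nat_lit 5) (nat_lit 80) (nat_lit 5) (nat_lit 347) (nat_lit 305) (nat_lit 128)) (XT.lf (nat_lit 0) (nat_lit 8930715768) (nat_lit 380) (nat_lit 3016774366) (nat_lit 456) (nat_lit 20822356361) (nat_lit 74) (nat_lit 5) (nat_lit 79) (nat_lit 5) (nat_lit 80) (nat_lit 5) (nat_lit 348) (nat_lit 305) (nat_lit 127))) (XT.nd (nat_lit 78) (nat_lit 304) (nat_lit 0) (XT.lf (nat_lit 0) (nat_lit 16084074820) (nat_lit 456) (nat_lit 10225190260) (nat_lit 76) (nat_lit 7112416405) (nat_lit 74) (nat_lit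 5) (nat_lit 80) (nat_lit 5) (nat_lit 75) (nat_lit 5) (nat_lit 349) (nat_lit 305) (nat_lit 126)) (XT.nd (nat_lit 78) (nat_lit 0) (nat_lit 0) (XT.lf (nat_lit 0) (nat_lit 3838127268) (nat_lit 304) (nat_lit 16570181056) (nat_lit 380) (nat_lit 13682862631) (nat_lit 70) (nat_lit 5) (nat_lit 74) (nat_lit 5) (nat_lit 75) (nat_lit 5) (nat_lit 350) (nat_lit 305) (nat_lit 125)) (XT.lf (nat_lit 0) (nat_lit 18528922792) (nat_lit 304) (nat_lit 6433443050) (nat_lit 380) (nat_lit 9815382150) (nat_lit 70) (nat_lit 5) (nat_lit 74) (nat_lit 5) (nat_lit 75) (nat_lit 5) (nat_lit 351) (nat_lit 305) (nat_lit 124))))) (XT.nd (nat_lit 234) (nat_lit 304) (nat_lit 0) (XT.nd (nat_lit 78) (nat_lit 380) (nat_lit 0) (XT.lf (nat_lit 0) (nat_lit 29688493115) (nat_lit 380) (nat_lit 1867001762) (nat_lit 76) (nat_lit 3928369648) (nat_lit 70) (nat_lit 5) (nat_lit 75) (nat_lit 5) (nat_lit 71) (nat_lit 5) (nat_lit 352) (nat_lit 305)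 (nat_lit 123)) (XT.nd (nat_lit 78) (nat_lit 76) (nat_lit 0) (XT.lf (nat_lit 0) (nat_lit 13135006668) (nat_lit 304) (nat_lit 21608372709) (nat_lit 380) (nat_lit 1462181385) (nat_lit 66) (nat_lit 5) (nat_lit 70) (nat_lit 5) (nat_lit 71) (nat_lit 5) (nat_lit 353) (nat_lit 305) (nat_lit 122)) (XT.lf (nat_lit 0) (nat_lit 2958515352) (nat_lit 380) (nat_lit 8355939082) (nat_lit 76) (nat_lit 25633111030) (nat_lit 65) (nat_lit 5) (nat_lit 70) (nat_lit 5) (nat_lit 66) (nat_lit 5) (nat_lit 354) (nat_lit 305) (nat_lit 121)))) (XT.nd (nat_lit 78) (nat_lit 0) (nat_lit 0) (XT.lf (nat_lit 0) (nat_lit 6916813460) (nat_lit 304) (nat_lit 629237926) (nat_lit 380) (nat_lit 30163441407) (nat_lit 61) (nat_lit 5) (nat_lit 65) (nat_lit 5) (nat_lit 66) (nat_lit 5) (nat_lit 355) (nat_lit 305) (nat_lit 120)) (XT.nd (nat_lit 78) (nat_lit 0) (nat_lit 0) (XT.lf (nat_lit 0) (nat_lit 12453330206) (nat_lit 380) (nat_lit 15777130071)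 (nat_lit 76) (nat_lit 10258359015) (nat_lit 61) (nat_lit 5) (nat_lit 66) (nat_lit 5) (nat_lit 62) (nat_lit 5) (nat_lit 356) (nat_lit 305) (nat_lit 119)) (XT.lf (nat_lit 0) (nat_lit 17511297342) (nat_lit 380) (nat_lit 321072167) (nat_lit 76) (nat_lit 21459056689) (nat_lit 61) (nat_lit 5) (nat_lit 66) (nat_lit 5) (nat_lit 62) (nat_lit 5) (nat_lit 357) (nat_lit 305) (nat_lit 118)))))) (XT.nd (nat_lit 390) (nat_lit 760) (nat_lit 0) (XT.nd (nat_lit 156) (nat_lit 304) (nat_lit 0) (XT.nd (nat_lit 78) (nat_lit 0) (nat_lit 0) (XT.lf (nat_lit 0) (nat_lit 15905420329) (nat_lit 304) (nat_lit 6965796059) (nat_lit 380) (nat_lit 17242393111) (nat_lit 57) (nat_lit 5) (nat_lit 61) (nat_lit 5) (nat_lit 62) (nat_lit 5) (nat_lit 358) (nat_lit 305) (nat_lit 117)) (XT.lf (nat_lit 0) (nat_lit 28433192408) (nat_lit 380) (nat_lit 8379392328) (nat_lit 76) (nat_lit 4146640220) (nat_lit 57) (nat_lit 5) (nat_lit 62) (nat_lit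 5) (nat_lit 58) (nat_lit 5) (nat_lit 359) (nat_lit 305) (nat_lit 116))) (XT.nd (nat_lit 78) (nat_lit 76) (nat_lit 0) (XT.lf (nat_lit 0) (nat_lit 8008013762) (nat_lit 228) (nat_lit 26297391955) (nat_lit 304) (nat_lit 7520506132) (nat_lit 54) (nat_lit 5) (nat_lit 57) (nat_lit 5) (nat_lit 58) (nat_lit 5) (nat_lit 360) (nat_lit 305) (nat_lit 115)) (XT.nd (nat_lit 78) (nat_lit 76) (nat_lit 0) (XT.lf (nat_lit 0) (nat_lit 25055294612) (nat_lit 228) (nat_lit 15380579047) (nat_lit 304) (nat_lit 2280267229) (nat_lit 54) (nat_lit 5) (nat_lit 57) (nat_lit 5) (nat_lit 58) (nat_lit 5) (nat_lit 361) (nat_lit 305) (nat_lit 114)) (XT.lf (nat_lit 0) (nat_lit 3053869586) (nat_lit 304) (nat_lit 1052514800) (nat_lit 76) (nat_lit 39525871886) (nat_lit 53) (nat_lit 5) (nat_lit 57) (nat_lit 5) (nat_lit 54) (nat_lit 5) (nat_lit 362) (nat_lit 305) (nat_lit 113))))) (XT.nd (nat_lit 234) (nat_lit 228) (nat_lit 0) (XT.nd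 (nat_lit 78) (nat_lit 228) (nat_lit 0) (XT.lf (nat_lit 0) (nat_lit 8730851044) (nat_lit 380) (nat_lit 28297348415) (nat_lit 76) (nat_lit 7540122634) (nat_lit 49) (nat_lit 5) (nat_lit 54) (nat_lit 5) (nat_lit 50) (nat_lit 5) (nat_lit 363) (nat_lit 305) (nat_lit 112)) (XT.nd (nat_lit 78) (nat_lit 228) (nat_lit 0) (XT.lf (nat_lit 0) (nat_lit 14627152089) (nat_lit 380) (nat_lit 11440570474) (nat_lit 76) (nat_lit 19463280738) (nat_lit 49) (nat_lit 5) (nat_lit 54) (nat_lit 5) (nat_lit 50) (nat_lit 5) (nat_lit 364) (nat_lit 305) (nat_lit 111)) (XT.lf (nat_lit 0) (nat_lit 6036402500) (nat_lit 228) (nat_lit 14719653906) (nat_lit 304) (nat_lit 25764840724) (nat_lit 46) (nat_lit 5) (nat_lit 49) (nat_lit 5) (nat_lit 50) (nat_lit 5) (nat_lit 365) (nat_lit 305) (nat_lit 110)))) (XT.nd (nat_lit 78) (nat_lit 228) (nat_lit 0) (XT.lf (nat_lit 0) (nat_lit 24268937238) (nat_lit 228) (nat_lit 2913142499) (nat_lit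 304) (nat_lit 20355013986) (nat_lit 46) (nat_lit 5) (nat_lit 49) (nat_lit 5) (nat_lit 50) (nat_lit 5) (nat_lit 366) (nat_lit 305) (nat_lit 109)) (XT.nd (nat_lit 78) (nat_lit 228) (nat_lit 0) (XT.lf (nat_lit 0) (nat_lit 33887558580) (nat_lit 304) (nat_lit 5627454579) (nat_lit 76) (nat_lit 9066166213) (nat_lit 46) (nat_lit 5) (nat_lit 50) (nat_lit 5) (nat_lit 47) (nat_lit 5) (nat_lit 367) (nat_lit 305) (nat_lit 108)) (XT.lf (nat_lit 0) (nat_lit 12759469630) (nat_lit 228) (nat_lit 28184073164) (nat_lit 304) (nat_lit 8708567872) (nat_lit 43) (nat_lit 5) (nat_lit 46) (nat_lit 5) (nat_lit 47) (nat_lit 5) (nat_lit 368) (nat_lit 305) (nat_lit 107))))))) (XT.nd (nat_lit 35724) (nat_lit 0) (nat_lit 9196) (XT.nd (nat_lit 390) (nat_lit 456) (nat_lit 0) (XT.nd (nat_lit 156) (nat_lit 456) (nat_lit 0) (XT.nd (nat_lit 78) (nat_lit 76) (nat_lit 0) (XT.lf (nat_lit 0) (nat_lit 31810250672) (nat_lit 228) (nat_lit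 16455661155) (nat_lit 304) (nat_lit 2487620119) (nat_lit 43) (nat_lit 5) (nat_lit 46) (nat_lit 5) (nat_lit 47) (nat_lit 5) (nat_lit 369) (nat_lit 305) (nat_lit 106)) (XT.lf (nat_lit 0) (nat_lit 3841380974) (nat_lit 304) (nat_lit 496183874) (nat_lit 76) (nat_lit 47549366090) (nat_lit 42) (nat_lit 5) (nat_lit 46) (nat_lit 5) (nat_lit 43) (nat_lit 5) (nat_lit 370) (nat_lit 305) (nat_lit 105))) (XT.nd (nat_lit 78) (nat_lit 228) (nat_lit 0) (XT.lf (nat_lit 0) (nat_lit 10569689830) (nat_lit 304) (nat_lit 34284089695) (nat_lit 76) (nat_lit 8192033320) (nat_lit 39) (nat_lit 5) (nat_lit 43) (nat_lit 5) (nat_lit 40) (nat_lit 5) (nat_lit 371) (nat_lit 305) (nat_lit 104)) (XT.nd (nat_lit 78) (nat_lit 228) (nat_lit 0) (XT.lf (nat_lit 0) (nat_lit 17545853700) (nat_lit 304) (nat_lit 15677765260) (nat_lit 76) (nat_lit 21014464927) (nat_lit 39) (nat_lit 5) (nat_lit 43) (nat_lit 5) (nat_lit 40) (nat_lit 5) (nat_lit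 372) (nat_lit 305) (nat_lit 103)) (XT.lf (nat_lit 0) (nat_lit 3553174193) (nat_lit 228) (nat_lit 21210341314) (nat_lit 304) (nat_lit 30701643931) (nat_lit 36) (nat_lit 5) (nat_lit 39) (nat_lit 5) (nat_lit 40) (nat_lit 5) (nat_lit 373) (nat_lit 305) (nat_lit 102))))) (XT.nd (nat_lit 234) (nat_lit 304) (nat_lit 0) (XT.nd (nat_lit 78) (nat_lit 152) (nat_lit 0) (XT.lf (nat_lit 0) (nat_lit 23679539237) (nat_lit 228) (nat_lit 8674569231) (nat_lit 304) (nat_lit 24370249435) (nat_lit 36) (nat_lit 5) (nat_lit 39) (nat_lit 5) (nat_lit 40) (nat_lit 5) (nat_lit 374) (nat_lit 305) (nat_lit 101)) (XT.nd (nat_lit 78) (nat_lit 152) (nat_lit 0) (XT.lf (nat_lit 0) (nat_lit 40211283812) (nat_lit 304) (nat_lit 13655215171) (nat_lit 76) (nat_lit 4153670009) (nat_lit 36) (nat_lit 5) (nat_lit 40) (nat_lit 5) (nat_lit 37) (nat_lit 5) (nat_lit 375) (nat_lit 305) (nat_lit 100)) (XT.lf (nat_lit 0) (nat_lit 6351363712)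 (nat_lit 152) (nat_lit 42097938396) (nat_lit 228) (nat_lit 10901201007) (nat_lit 34) (nat_lit 5) (nat_lit 36) (nat_lit 5) (nat_lit 37) (nat_lit 5) (nat_lit 376) (nat_lit 305) (nat_lit 99)))) (XT.nd (nat_lit 78) (nat_lit 304) (nat_lit 0) (XT.lf (nat_lit 0) (nat_lit 27235321708) (nat_lit 152) (nat_lit 29835244298) (nat_lit 228) (nat_lit 3646100564) (nat_lit 34) (nat_lit 5) (nat_lit 36) (nat_lit 5) (nat_lit 37) (nat_lit 5) (nat_lit 377) (nat_lit 305) (nat_lit 98)) (XT.nd (nat_lit 78) (nat_lit 228) (nat_lit 0) (XT.lf (nat_lit 0) (nat_lit 3750227773) (nat_lit 228) (nat_lit 13417494891) (nat_lit 76) (nat_lit 44955043658) (nat_lit 33) (nat_lit 5) (nat_lit 36) (nat_lit 5) (nat_lit 34) (nat_lit 5) (nat_lit 378) (nat_lit 305) (nat_lit 97)) (XT.lf (nat_lit 0) (nat_lit 7353039044) (nat_lit 228) (nat_lit 4011103544) (nat_lit 304) (nat_lit 52203756339) (nat_lit 30) (nat_lit 5) (nat_lit 33) (nat_lit 5) (nat_lit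 34) (nat_lit 5) (nat_lit 379) (nat_lit 305) (nat_lit 96)))))) (XT.nd (nat_lit 468) (nat_lit 0) (nat_lit 152) (XT.nd (nat_lit 234) (nat_lit 0) (nat_lit 76) (XT.nd (nat_lit 78) (nat_lit 0) (nat_lit 0) (XT.lf (nat_lit 0) (nat_lit 2574633687) (nat_lit 1140) (nat_lit 2761166421) (nat_lit 1140) (nat_lit 2761166421) (nat_lit 151) (nat_lit 3) (nat_lit 166) (nat_lit 3) (nat_lit 166) (nat_lit 5) (nat_lit 306) (nat_lit 306) (nat_lit 168)) (XT.nd (nat_lit 78) (nat_lit 0) (nat_lit 76) (XT.lf (nat_lit 76) (nat_lit 1234621420) (nat_lit 0) (nat_lit 4233584370) (nat_lit 1140) (nat_lit 10960823857) (nat_lit 152) (nat_lit 5) (nat_lit 151) (nat_lit 3) (nat_lit 166) (nat_lit 5) (nat_lit 307) (nat_lit 306) (nat_lit 167)) (XT.lf (nat_lit 0) (nat_lit 5867102335) (nat_lit 1064) (nat_lit 8390674646) (nat_lit 1140) (nat_lit 2411312364) (nat_lit 152) (nat_lit 5) (nat_lit 166) (nat_lit 5) (nat_lit 167) (nat_lit 5) (nat_lit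 308) (nat_lit 306) (nat_lit 166)))) (XT.nd (nat_lit 78) (nat_lit 0) (nat_lit 0) (XT.lf (nat_lit 0) (nat_lit 6311170014) (nat_lit 1064) (nat_lit 1429654587) (nat_lit 1140) (nat_lit 9174551379) (nat_lit 152) (nat_lit 5) (nat_lit 166) (nat_lit 5) (nat_lit 167) (nat_lit 5) (nat_lit 309) (nat_lit 306) (nat_lit 165)) (XT.nd (nat_lit 78) (nat_lit 0) (nat_lit 76) (XT.lf (nat_lit 76) (nat_lit 5849576503) (nat_lit 0) (nat_lit 966754249) (nat_lit 1140) (nat_lit 10351307983) (nat_lit 153) (nat_lit 5) (nat_lit 152) (nat_lit 5) (nat_lit 167) (nat_lit 5) (nat_lit 310) (nat_lit 306) (nat_lit 164)) (XT.lf (nat_lit 0) (nat_lit 7400779271) (nat_lit 1064) (nat_lit 4113486086) (nat_lit 1140) (nat_lit 5911300079) (nat_lit 153) (nat_lit 5) (nat_lit 167) (nat_lit 5) (nat_lit 168) (nat_lit 5) (nat_lit 311) (nat_lit 306) (nat_lit 163))))) (XT.nd (nat_lit 234) (nat_lit 0) (nat_lit 76) (XT.nd (nat_lit 78) (nat_lit 0) (nat_lit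 76) (XT.lf (nat_lit 76) (nat_lit 3358313606) (nat_lit 0) (nat_lit 4678317493) (nat_lit 1140) (nat_lit 9653602211) (nat_lit 154) (nat_lit 5) (nat_lit 153) (nat_lit 5) (nat_lit 168) (nat_lit 5) (nat_lit 312) (nat_lit 306) (nat_lit 162)) (XT.nd (nat_lit 78) (nat_lit 0) (nat_lit 0) (XT.lf (nat_lit 0) (nat_lit 8748450272) (nat_lit 1064) (nat_lit 6851236741) (nat_lit 1140) (nat_lit 2361466353) (nat_lit 154) (nat_lit 5) (nat_lit 168) (nat_lit 5) (nat_lit 169) (nat_lit 5) (nat_lit 313) (nat_lit 306) (nat_lit 161)) (XT.lf (nat_lit 76) (nat_lit 818560262) (nat_lit 0) (nat_lit 8709709101) (nat_lit 1140) (nat_lit 8710550651) (nat_lit 155) (nat_lit 5) (nat_lit 154) (nat_lit 5) (nat_lit 169) (nat_lit 5) (nat_lit 314) (nat_lit 306) (nat_lit 160)))) (XT.nd (nat_lit 78) (nat_lit 0) (nat_lit 76) (XT.lf (nat_lit 76) (nat_lit 8853983905) (nat_lit 0) (nat_lit 1539312545) (nat_lit 1140) (nat_lit 8129683625) (nat_lit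 155) (nat_lit 5) (nat_lit 154) (nat_lit 5) (nat_lit 169) (nat_lit 5) (nat_lit 315) (nat_lit 306) (nat_lit 159)) (XT.nd (nat_lit 78) (nat_lit 0) (nat_lit 0) (XT.lf (nat_lit 0) (nat_lit 11333338560) (nat_lit 1064) (nat_lit 1746414695) (nat_lit 1140) (nat_lit 5734457054) (nat_lit 155) (nat_lit 5) (nat_lit 169) (nat_lit 5) (nat_lit 170) (nat_lit 5) (nat_lit 316) (nat_lit 306) (nat_lit 158)) (XT.lf (nat_lit 76) (nat_lit 6520974703) (nat_lit 0) (nat_lit 5851606300) (nat_lit 1140) (nat_lit 6739483265) (nat_lit 156) (nat_lit 5) (nat_lit 155) (nat_lit 5) (nat_lit 170) (nat_lit 5) (nat_lit 317) (nat_lit 306) (nat_lit 157))))))))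
noncomputable def xc220 : XT := (XT.nd (nat_lit 1716) (nat_lit 3572) (nat_lit 0) (XT.nd (nat_lit 858) (nat_lit 1976) (nat_lit 0) (XT.nd (nat_lit 390) (nat_lit 2204) (nat_lit 0) (XT.nd (nat_lit 156) (nat_lit 0) (nat_lit 0) (XT.nd (nat_lit 78) (nat_lit 0) (nat_lit 0) (XT.lf (nat_lit 0) (nat_lit 13469375991) (nat_lit 1064) (nat_lit 4366697176) (nat_lit 1140) (nat_lit 1582005726) (nat_lit 156) (nat_lit 5) (nat_lit 170) (nat_lit 5) (nat_lit 171) (nat_lit 5) (nat_lit 318) (nat_lit 306) (nat_lit 156)) (XT.lf (nat_lit 76) (nat_lit 4122006293) (nat_lit 0) (nat_lit 10568073823) (nat_lit 1140) (nat_lit 5040479512) (nat_lit 157) (nat_lit 5) (nat_lit 156) (nat_lit 5) (nat_lit 171) (nat_lit 5) (nat_lit 319) (nat_lit 306) (nat_lit 155))) (XT.nd (nat_lit 78) (nat_lit 0) (nat_lit 76) (XT.lf (nat_lit 76) (nat_lit 12950012919) (nat_lit 0) (nat_lit 3035076960) (nat_lit 1140) (nat_lit 4066209737) (nat_lit 157) (nat_lit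 5) (nat_lit 156) (nat_lit 5) (nat_lit 171) (nat_lit 5) (nat_lit 320) (nat_lit 306) (nat_lit 154)) (XT.nd (nat_lit 78) (nat_lit 0) (nat_lit 0) (XT.lf (nat_lit 76) (nat_lit 1642902686) (nat_lit 0) (nat_lit 15731039464) (nat_lit 1140) (nat_lit 3006084807) (nat_lit 158) (nat_lit 5) (nat_lit 157) (nat_lit 5) (nat_lit 172) (nat_lit 5) (nat_lit 321) (nat_lit 306) (nat_lit 153)) (XT.lf (nat_lit 76) (nat_lit 10759442233) (nat_lit 0) (nat_lit 8140406795) (nat_lit 1140) (nat_lit 1815919906) (nat_lit 158) (nat_lit 5) (nat_lit 157) (nat_lit 5) (nat_lit 172) (nat_lit 5) (nat_lit 322) (nat_lit 306) (nat_lit 152))))) (XT.nd (nat_lit 234) (nat_lit 1216) (nat_lit 0) (XT.nd (nat_lit 78) (nat_lit 1064) (nat_lit 0) (XT.lf (nat_lit 76) (nat_lit 20144723976) (nat_lit 0) (nat_lit 320910406) (nat_lit 1140) (nat_lit 596139813) (nat_lit 158) (nat_lit 5) (nat_lit 157) (nat_lit 5) (nat_lit 172) (nat_lit 5) (nat_lit 323)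 (nat_lit 306) (nat_lit 151)) (XT.nd (nat_lit 78) (nat_lit 0) (nat_lit 0) (XT.lf (nat_lit 0) (nat_lit 798955266) (nat_lit 1140) (nat_lit 12941775269) (nat_lit 76) (nat_lit 7672703785) (nat_lit 143) (nat_lit 5) (nat_lit 158) (nat_lit 5) (nat_lit 144) (nat_lit 5) (nat_lit 324) (nat_lit 306) (nat_lit 150)) (XT.lf (nat_lit 0) (nat_lit 2230786861) (nat_lit 1140) (nat_lit 3628599687) (nat_lit 76) (nat_lit 15915887535) (nat_lit 143) (nat_lit 5) (nat_lit 158) (nat_lit 5) (nat_lit 144) (nat_lit 5) (nat_lit 325) (nat_lit 306) (nat_lit 149)))) (XT.nd (nat_lit 78) (nat_lit 532) (nat_lit 0) (XT.lf (nat_lit 0) (nat_lit 3780792965) (nat_lit 760) (nat_lit 16090864833) (nat_lit 76) (nat_lit 2274067150) (nat_lit 134) (nat_lit 5) (nat_lit 144) (nat_lit 5) (nat_lit 135) (nat_lit 5) (nat_lit 326) (nat_lit 306) (nat_lit 148)) (XT.nd (nat_lit 78) (nat_lit 532) (nat_lit 0) (XT.lf (nat_lit 0) (nat_lit 5466940076) (nat_lit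 760) (nat_lit 6486241486) (nat_lit 76) (nat_lit 10571430684) (nat_lit 134) (nat_lit 5) (nat_lit 144) (nat_lit 5) (nat_lit 135) (nat_lit 5) (nat_lit 327) (nat_lit 306) (nat_lit 147)) (XT.lf (nat_lit 0) (nat_lit 3469483526) (nat_lit 532) (nat_lit 3762318059) (nat_lit 608) (nat_lit 15682232456) (nat_lit 127) (nat_lit 5) (nat_lit 134) (nat_lit 5) (nat_lit 135) (nat_lit 5) (nat_lit 328) (nat_lit 306) (nat_lit 146)))))) (XT.nd (nat_lit 390) (nat_lit 988) (nat_lit 0) (XT.nd (nat_lit 156) (nat_lit 456) (nat_lit 0) (XT.nd (nat_lit 78) (nat_lit 532) (nat_lit 0) (XT.lf (nat_lit 0) (nat_lit 9155577906) (nat_lit 608) (nat_lit 9506773706) (nat_lit 76) (nat_lit 4649619244) (nat_lit 127) (nat_lit 5) (nat_lit 135) (nat_lit 5) (nat_lit 128) (nat_lit 5) (nat_lit 329) (nat_lit 306) (nat_lit 145)) (XT.lf (nat_lit 0) (nat_lit 700841685) (nat_lit 532) (nat_lit 10475252442) (nat_lit 608) (nat_lit 12544591952) (nat_lit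 120) (nat_lit 5) (nat_lit 127) (nat_lit 5) (nat_lit 128) (nat_lit 5) (nat_lit 330) (nat_lit 306) (nat_lit 144))) (XT.nd (nat_lit 78) (nat_lit 456) (nat_lit 0) (XT.lf (nat_lit 0) (nat_lit 11404891362) (nat_lit 532) (nat_lit 1943472834) (nat_lit 608) (nat_lit 10790575190) (nat_lit 120) (nat_lit 5) (nat_lit 127) (nat_lit 5) (nat_lit 128) (nat_lit 5) (nat_lit 331) (nat_lit 306) (nat_lit 143)) (XT.nd (nat_lit 78) (nat_lit 456) (nat_lit 0) (XT.lf (nat_lit 0) (nat_lit 15646875518) (nat_lit 608) (nat_lit 2210160382) (nat_lit 76) (nat_lit 6710882664) (nat_lit 120) (nat_lit 5) (nat_lit 128) (nat_lit 5) (nat_lit 121) (nat_lit 5) (nat_lit 332) (nat_lit 306) (nat_lit 142)) (XT.lf (nat_lit 0) (nat_lit 8776916071) (nat_lit 456) (nat_lit 9336456851) (nat_lit 532) (nat_lit 6893433432) (nat_lit 114) (nat_lit 5) (nat_lit 120) (nat_lit 5) (nat_lit 121) (nat_lit 5) (nat_lit 333) (nat_lit 306) (nat_lit 141))))) (XT.nd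 (nat_lit 234) (nat_lit 532) (nat_lit 0) (XT.nd (nat_lit 78) (nat_lit 456) (nat_lit 0) (XT.lf (nat_lit 0) (nat_lit 20134400836) (nat_lit 456) (nat_lit 537292116) (nat_lit 532) (nat_lit 4786642859) (nat_lit 114) (nat_lit 5) (nat_lit 120) (nat_lit 5) (nat_lit 121) (nat_lit 5) (nat_lit 334) (nat_lit 306) (nat_lit 140)) (XT.nd (nat_lit 78) (nat_lit 0) (nat_lit 0) (XT.lf (nat_lit 0) (nat_lit 5938608031) (nat_lit 456) (nat_lit 17502835774) (nat_lit 532) (nat_lit 2477936486) (nat_lit 108) (nat_lit 5) (nat_lit 114) (nat_lit 5) (nat_lit 115) (nat_lit 5) (nat_lit 335) (nat_lit 306) (nat_lit 139)) (XT.lf (nat_lit 0) (nat_lit 17638262552) (nat_lit 456) (nat_lit 8710777510) (nat_lit 532) (nat_lit 43582755) (nat_lit 108) (nat_lit 5) (nat_lit 114) (nat_lit 5) (nat_lit 115) (nat_lit 5) (nat_lit 336) (nat_lit 306) (nat_lit 138)))) (XT.nd (nat_lit 78) (nat_lit 0) (nat_lit 0) (XT.lf (nat_lit 0) (nat_lit 2442603445)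 (nat_lit 532) (nat_lit 24046422271) (nat_lit 76) (nat_lit 389528776) (nat_lit 101) (nat_lit 5) (nat_lit 108) (nat_lit 5) (nat_lit 102) (nat_lit 5) (nat_lit 337) (nat_lit 306) (nat_lit 137)) (XT.nd (nat_lit 78) (nat_lit 0) (nat_lit 0) (XT.lf (nat_lit 0) (nat_lit 5173897843) (nat_lit 532) (nat_lit 12522811589) (nat_lit 76) (nat_lit 9677208290) (nat_lit 101) (nat_lit 5) (nat_lit 108) (nat_lit 5) (nat_lit 102) (nat_lit 5) (nat_lit 338) (nat_lit 306) (nat_lit 136)) (XT.lf (nat_lit 0) (nat_lit 7983127308) (nat_lit 532) (nat_lit 657883570) (nat_lit 76) (nat_lit 19243259346) (nat_lit 101) (nat_lit 5) (nat_lit 108) (nat_lit 5) (nat_lit 102) (nat_lit 5) (nat_lit 339) (nat_lit 306) (nat_lit 135))))))) (XT.nd (nat_lit 858) (nat_lit 1520) (nat_lit 0) (XT.nd (nat_lit 390) (nat_lit 836) (nat_lit 0) (XT.nd (nat_lit 156) (nat_lit 760) (nat_lit 0) (XT.nd (nat_lit 78) (nat_lit 0) (nat_lit 0) (XT.lf (nat_lit 0)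 (nat_lit 10993783453) (nat_lit 532) (nat_lit 16625603812) (nat_lit 76) (nat_lit 787039561) (nat_lit 95) (nat_lit 5) (nat_lit 102) (nat_lit 5) (nat_lit 96) (nat_lit 5) (nat_lit 340) (nat_lit 306) (nat_lit 134)) (XT.lf (nat_lit 0) (nat_lit 14183204534) (nat_lit 532) (nat_lit 4427832009) (nat_lit 76) (nat_lit 10330566014) (nat_lit 95) (nat_lit 5) (nat_lit 102) (nat_lit 5) (nat_lit 96) (nat_lit 5) (nat_lit 341) (nat_lit 306) (nat_lit 133))) (XT.nd (nat_lit 78) (nat_lit 380) (nat_lit 0) (XT.lf (nat_lit 0) (nat_lit 8293495709) (nat_lit 380) (nat_lit 9250827487) (nat_lit 456) (nat_lit 11946237475) (nat_lit 90) (nat_lit 5) (nat_lit 95) (nat_lit 5) (nat_lit 96) (nat_lit 5) (nat_lit 342) (nat_lit 306) (nat_lit 132)) (XT.nd (nat_lit 78) (nat_lit 380) (nat_lit 0) (XT.lf (nat_lit 0) (nat_lit 21051536809) (nat_lit 456) (nat_lit 8575893409) (nat_lit 76) (nat_lit 427206806) (nat_lit 90) (nat_lit 5) (nat_lit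 96) (nat_lit 5) (nat_lit 91) (nat_lit 5) (nat_lit 343) (nat_lit 306) (nat_lit 131)) (XT.lf (nat_lit 0) (nat_lit 4414301305) (nat_lit 380) (nat_lit 20380152539) (nat_lit 456) (nat_lit 5837274342) (nat_lit 85) (nat_lit 5) (nat_lit 90) (nat_lit 5) (nat_lit 91) (nat_lit 5) (nat_lit 344) (nat_lit 306) (nat_lit 130))))) (XT.nd (nat_lit 234) (nat_lit 380) (nat_lit 0) (XT.nd (nat_lit 78) (nat_lit 456) (nat_lit 0) (XT.lf (nat_lit 0) (nat_lit 17965881490) (nat_lit 380) (nat_lit 10766901782) (nat_lit 456) (nat_lit 2490861982) (nat_lit 85) (nat_lit 5) (nat_lit 90) (nat_lit 5) (nat_lit 91) (nat_lit 5) (nat_lit 345) (nat_lit 306) (nat_lit 129)) (XT.nd (nat_lit 78) (nat_lit 0) (nat_lit 0) (XT.lf (nat_lit 0) (nat_lit 78968800) (nat_lit 380) (nat_lit 855665551) (nat_lit 456) (nat_lit 30898495967) (nat_lit 79) (nat_lit 5) (nat_lit 84) (nat_lit 5) (nat_lit 85) (nat_lit 5) (nat_lit 346) (nat_lit 306) (nat_lit 128))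 (XT.lf (nat_lit 0) (nat_lit 4634581050) (nat_lit 456) (nat_lit 18489335266) (nat_lit 76) (nat_lit 9329597608) (nat_lit 79) (nat_lit 5) (nat_lit 85) (nat_lit 5) (nat_lit 80) (nat_lit 5) (nat_lit 347) (nat_lit 306) (nat_lit 127)))) (XT.nd (nat_lit 78) (nat_lit 380) (nat_lit 0) (XT.lf (nat_lit 0) (nat_lit 8450736460) (nat_lit 456) (nat_lit 4839048558) (nat_lit 76) (nat_lit 19802573857) (nat_lit 79) (nat_lit 5) (nat_lit 85) (nat_lit 5) (nat_lit 80) (nat_lit 5) (nat_lit 348) (nat_lit 306) (nat_lit 126)) (XT.nd (nat_lit 78) (nat_lit 0) (nat_lit 0) (XT.lf (nat_lit 0) (nat_lit 9400284631) (nat_lit 380) (nat_lit 3068286561) (nat_lit 456) (nat_lit 21279188113) (nat_lit 74) (nat_lit 5) (nat_lit 79) (nat_lit 5) (nat_lit 80) (nat_lit 5) (nat_lit 349) (nat_lit 306) (nat_lit 125)) (XT.lf (nat_lit 0) (nat_lit 16724879745) (nat_lit 456) (nat_lit 10331504057) (nat_lit 76) (nat_lit 7362905576) (nat_lit 74) (nat_lit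 5) (nat_lit 80) (nat_lit 5) (nat_lit 75) (nat_lit 5) (nat_lit 350) (nat_lit 306) (nat_lit 124)))))) (XT.nd (nat_lit 468) (nat_lit 532) (nat_lit 0) (XT.nd (nat_lit 234) (nat_lit 684) (nat_lit 0) (XT.nd (nat_lit 78) (nat_lit 0) (nat_lit 0) (XT.lf (nat_lit 0) (nat_lit 4151747880) (nat_lit 304) (nat_lit 17024390078) (nat_lit 380) (nat_lit 13932815207) (nat_lit 70) (nat_lit 5) (nat_lit 74) (nat_lit 5) (nat_lit 75) (nat_lit 5) (nat_lit 351) (nat_lit 306) (nat_lit 123)) (XT.nd (nat_lit 78) (nat_lit 0) (nat_lit 0) (XT.lf (nat_lit 0) (nat_lit 19277486393) (nat_lit 304) (nat_lit 6584799343) (nat_lit 380) (nat_lit 9953986038) (nat_lit 70) (nat_lit 5) (nat_lit 74) (nat_lit 5) (nat_lit 75) (nat_lit 5) (nat_lit 352) (nat_lit 306) (nat_lit 122)) (XT.lf (nat_lit 0) (nat_lit 30726186020) (nat_lit 380) (nat_lit 1731648477) (nat_lit 76) (nat_lit 4085865704) (nat_lit 70) (nat_lit 5) (nat_lit 75) (nat_lit 5) (nat_lit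 71) (nat_lit 5) (nat_lit 353) (nat_lit 306) (nat_lit 121)))) (XT.nd (nat_lit 78) (nat_lit 380) (nat_lit 0) (XT.lf (nat_lit 0) (nat_lit 13718544095) (nat_lit 304) (nat_lit 22211713578) (nat_lit 380) (nat_lit 1356871326) (nat_lit 66) (nat_lit 5) (nat_lit 70) (nat_lit 5) (nat_lit 71) (nat_lit 5) (nat_lit 354) (nat_lit 306) (nat_lit 120)) (XT.nd (nat_lit 78) (nat_lit 304) (nat_lit 0) (XT.lf (nat_lit 0) (nat_lit 3189275230) (nat_lit 380) (nat_lit 8419576628) (nat_lit 76) (nat_lit 26442634160) (nat_lit 65) (nat_lit 5) (nat_lit 70) (nat_lit 5) (nat_lit 66) (nat_lit 5) (nat_lit 355) (nat_lit 306) (nat_lit 119)) (XT.lf (nat_lit 0) (nat_lit 7309524759) (nat_lit 304) (nat_lit 602556856) (nat_lit 380) (nat_lit 30924267394) (nat_lit 61) (nat_lit 5) (nat_lit 65) (nat_lit 5) (nat_lit 66) (nat_lit 5) (nat_lit 356) (nat_lit 306) (nat_lit 118))))) (XT.nd (nat_lit 234) (nat_lit 228) (nat_lit 0) (XT.nd (nat_lit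 78) (nat_lit 304) (nat_lit 0) (XT.lf (nat_lit 0) (nat_lit 12962936540) (nat_lit 380) (nat_lit 16066757051) (nat_lit 76) (nat_lit 10609477944) (nat_lit 61) (nat_lit 5) (nat_lit 66) (nat_lit 5) (nat_lit 62) (nat_lit 5) (nat_lit 357) (nat_lit 306) (nat_lit 117)) (XT.nd (nat_lit 78) (nat_lit 304) (nat_lit 0) (XT.lf (nat_lit 0) (nat_lit 18168681338) (nat_lit 380) (nat_lit 152367515) (nat_lit 76) (nat_lit 22144933397) (nat_lit 61) (nat_lit 5) (nat_lit 66) (nat_lit 5) (nat_lit 62) (nat_lit 5) (nat_lit 358) (nat_lit 306) (nat_lit 116)) (XT.lf (nat_lit 0) (nat_lit 16559171356) (nat_lit 304) (nat_lit 7128078102) (nat_lit 380) (nat_lit 17625652611) (nat_lit 57) (nat_lit 5) (nat_lit 61) (nat_lit 5) (nat_lit 62) (nat_lit 5) (nat_lit 359) (nat_lit 306) (nat_lit 115)))) (XT.nd (nat_lit 78) (nat_lit 228) (nat_lit 0) (XT.lf (nat_lit 0) (nat_lit 29412737121) (nat_lit 380) (nat_lit 8455768952) (nat_lit 76) (nat_lit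 4315486720) (nat_lit 57) (nat_lit 5) (nat_lit 62) (nat_lit 5) (nat_lit 58) (nat_lit 5) (nat_lit 360) (nat_lit 306) (nat_lit 114)) (XT.nd (nat_lit 78) (nat_lit 0) (nat_lit 0) (XT.lf (nat_lit 0) (nat_lit 8421543584) (nat_lit 228) (nat_lit 27037553118) (nat_lit 304) (nat_lit 7617650383) (nat_lit 54) (nat_lit 5) (nat_lit 57) (nat_lit 5) (nat_lit 58) (nat_lit 5) (nat_lit 361) (nat_lit 306) (nat_lit 113)) (XT.lf (nat_lit 0) (nat_lit 25975195596) (nat_lit 228) (nat_lit 15794656034) (nat_lit 304) (nat_lit 2223946184) (nat_lit 54) (nat_lit 5) (nat_lit 57) (nat_lit 5) (nat_lit 58) (nat_lit 5) (nat_lit 362) (nat_lit 306) (nat_lit 112))))))))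
noncomputable def xc221 : XT := (XT.nd (nat_lit 36660) (nat_lit 0) (nat_lit 6156) (XT.nd (nat_lit 858) (nat_lit 456) (nat_lit 0) (XT.nd (nat_lit 390) (nat_lit 532) (nat_lit 0) (XT.nd (nat_lit 156) (nat_lit 228) (nat_lit 0) (XT.nd (nat_lit 78) (nat_lit 304) (nat_lit 0) (XT.lf (nat_lit 0) (nat_lit 3264218827) (nat_lit 304) (nat_lit 918196580) (nat_lit 76) (nat_lit 40755057805) (nat_lit 53) (nat_lit 5) (nat_lit 57) (nat_lit 5) (nat_lit 54) (nat_lit 5) (nat_lit 363) (nat_lit 306) (nat_lit 111)) (XT.lf (nat_lit 0) (nat_lit 9110086284) (nat_lit 380) (nat_lit 28978768504) (nat_lit 76) (nat_lit 7812814420) (nat_lit 49) (nat_lit 5) (nat_lit 54) (nat_lit 5) (nat_lit 50) (nat_lit 5) (nat_lit 364) (nat_lit 306) (nat_lit 110))) (XT.nd (nat_lit 78) (nat_lit 228) (nat_lit 0) (XT.lf (nat_lit 0) (nat_lit 15179859573) (nat_lit 380) (nat_lit 11621165877) (nat_lit 76) (nat_lit 20092313245) (nat_lit 49) (nat_lit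 5) (nat_lit 54) (nat_lit 5) (nat_lit 50) (nat_lit 5) (nat_lit 365) (nat_lit 306) (nat_lit 109)) (XT.nd (nat_lit 78) (nat_lit 0) (nat_lit 0) (XT.lf (nat_lit 0) (nat_lit 6378521955) (nat_lit 228) (nat_lit 15112339688) (nat_lit 304) (nat_lit 26422125958) (nat_lit 46) (nat_lit 5) (nat_lit 49) (nat_lit 5) (nat_lit 50) (nat_lit 5) (nat_lit 366) (nat_lit 306) (nat_lit 108)) (XT.lf (nat_lit 0) (nat_lit 25153342618) (nat_lit 228) (nat_lit 2953057322) (nat_lit 304) (nat_lit 20853373155) (nat_lit 46) (nat_lit 5) (nat_lit 49) (nat_lit 5) (nat_lit 50) (nat_lit 5) (nat_lit 367) (nat_lit 306) (nat_lit 107))))) (XT.nd (nat_lit 234) (nat_lit 304) (nat_lit 0) (XT.nd (nat_lit 78) (nat_lit 228) (nat_lit 0) (XT.lf (nat_lit 0) (nat_lit 35010315642) (nat_lit 304) (nat_lit 5641604138) (nat_lit 76) (nat_lit 9383348244) (nat_lit 46) (nat_lit 5) (nat_lit 50) (nat_lit 5) (nat_lit 47) (nat_lit 5) (nat_lit 368) (nat_lit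 306) (nat_lit 106)) (XT.nd (nat_lit 78) (nat_lit 0) (nat_lit 0) (XT.lf (nat_lit 0) (nat_lit 13295411384) (nat_lit 228) (nat_lit 28980949068) (nat_lit 304) (nat_lit 8862020114) (nat_lit 43) (nat_lit 5) (nat_lit 46) (nat_lit 5) (nat_lit 47) (nat_lit 5) (nat_lit 369) (nat_lit 306) (nat_lit 105)) (XT.lf (nat_lit 0) (nat_lit 32913254955) (nat_lit 228) (nat_lit 16902101582) (nat_lit 304) (nat_lit 2457583874) (nat_lit 43) (nat_lit 5) (nat_lit 46) (nat_lit 5) (nat_lit 47) (nat_lit 5) (nat_lit 370) (nat_lit 306) (nat_lit 104)))) (XT.nd (nat_lit 78) (nat_lit 228) (nat_lit 0) (XT.lf (nat_lit 0) (nat_lit 4056255859) (nat_lit 304) (nat_lit 364576037) (nat_lit 76) (nat_lit 49019573302) (nat_lit 42) (nat_lit 5) (nat_lit 46) (nat_lit 5) (nat_lit 43) (nat_lit 5) (nat_lit 371) (nat_lit 306) (nat_lit 103)) (XT.nd (nat_lit 78) (nat_lit 0) (nat_lit 0) (XT.lf (nat_lit 0) (nat_lit 10985357546) (nat_lit 304) (nat_lit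 35164922148) (nat_lit 76) (nat_lit 8483809777) (nat_lit 39) (nat_lit 5) (nat_lit 43) (nat_lit 5) (nat_lit 40) (nat_lit 5) (nat_lit 372) (nat_lit 306) (nat_lit 102)) (XT.lf (nat_lit 0) (nat_lit 18167935157) (nat_lit 304) (nat_lit 16004709637) (nat_lit 76) (nat_lit 21689574076) (nat_lit 39) (nat_lit 5) (nat_lit 43) (nat_lit 5) (nat_lit 40) (nat_lit 5) (nat_lit 373) (nat_lit 306) (nat_lit 101)))))) (XT.nd (nat_lit 390) (nat_lit 76) (nat_lit 0) (XT.nd (nat_lit 156) (nat_lit 152) (nat_lit 0) (XT.nd (nat_lit 78) (nat_lit 0) (nat_lit 0) (XT.lf (nat_lit 0) (nat_lit 3801752230) (nat_lit 228) (nat_lit 21798951866) (nat_lit 304) (nat_lit 31525449245) (nat_lit 36) (nat_lit 5) (nat_lit 39) (nat_lit 5) (nat_lit 40) (nat_lit 5) (nat_lit 374) (nat_lit 306) (nat_lit 100)) (XT.lf (nat_lit 0) (nat_lit 24527772803) (nat_lit 228) (nat_lit 8888495931) (nat_lit 304) (nat_lit 25006945264) (nat_lit 36) (nat_lit 5) (nat_lit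 39) (nat_lit 5) (nat_lit 40) (nat_lit 5) (nat_lit 375) (nat_lit 306) (nat_lit 99))) (XT.nd (nat_lit 78) (nat_lit 152) (nat_lit 0) (XT.lf (nat_lit 0) (nat_lit 41506925410) (nat_lit 304) (nat_lit 13928680493) (nat_lit 76) (nat_lit 4322364279) (nat_lit 36) (nat_lit 5) (nat_lit 40) (nat_lit 5) (nat_lit 37) (nat_lit 5) (nat_lit 376) (nat_lit 306) (nat_lit 98)) (XT.nd (nat_lit 78) (nat_lit 0) (nat_lit 0) (XT.lf (nat_lit 0) (nat_lit 6676760550) (nat_lit 152) (nat_lit 43314018962) (nat_lit 228) (nat_lit 11137477593) (nat_lit 34) (nat_lit 5) (nat_lit 36) (nat_lit 5) (nat_lit 37) (nat_lit 5) (nat_lit 377) (nat_lit 306) (nat_lit 97)) (XT.lf (nat_lit 0) (nat_lit 28183309443) (nat_lit 152) (nat_lit 30684808825) (nat_lit 228) (nat_lit 3667367616) (nat_lit 34) (nat_lit 5) (nat_lit 36) (nat_lit 5) (nat_lit 37) (nat_lit 5) (nat_lit 378) (nat_lit 306) (nat_lit 96))))) (XT.nd (nat_lit 35178) (nat_lit 0) (nat_lit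 9044) (XT.nd (nat_lit 35022) (nat_lit 0) (nat_lit 8968) (XT.lf (nat_lit 0) (nat_lit 3946614708) (nat_lit 228) (nat_lit 13691124842) (nat_lit 76) (nat_lit 46346082485) (nat_lit 33) (nat_lit 5) (nat_lit 36) (nat_lit 5) (nat_lit 34) (nat_lit 5) (nat_lit 379) (nat_lit 306) (nat_lit 95)) (XT.nd (nat_lit 78) (nat_lit 0) (nat_lit 0) (XT.lf (nat_lit 0) (nat_lit 2879494886) (nat_lit 1140) (nat_lit 2726497972) (nat_lit 1140) (nat_lit 2726497972) (nat_lit 151) (nat_lit 3) (nat_lit 166) (nat_lit 3) (nat_lit 166) (nat_lit 5) (nat_lit 307) (nat_lit 307) (nat_lit 166)) (XT.lf (nat_lit 76) (nat_lit 1504362956) (nat_lit 0) (nat_lit 4572110722) (nat_lit 1140) (nat_lit 10831020540) (nat_lit 152) (nat_lit 5) (nat_lit 151) (nat_lit 3) (nat_lit 166) (nat_lit 5) (nat_lit 308) (nat_lit 307) (nat_lit 165)))) (XT.nd (nat_lit 78) (nat_lit 0) (nat_lit 0) (XT.lf (nat_lit 0) (nat_lit 6472424596) (nat_lit 1064) (nat_lit 8400509001)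 (nat_lit 1140) (nat_lit 2282300932) (nat_lit 152) (nat_lit 5) (nat_lit 166) (nat_lit 5) (nat_lit 167) (nat_lit 5) (nat_lit 309) (nat_lit 307) (nat_lit 164)) (XT.nd (nat_lit 78) (nat_lit 0) (nat_lit 0) (XT.lf (nat_lit 0) (nat_lit 6917310154) (nat_lit 1064) (nat_lit 1237703560) (nat_lit 1140) (nat_lit 9254301704) (nat_lit 152) (nat_lit 5) (nat_lit 166) (nat_lit 5) (nat_lit 167) (nat_lit 5) (nat_lit 310) (nat_lit 307) (nat_lit 163)) (XT.lf (nat_lit 76) (nat_lit 6257602102) (nat_lit 0) (nat_lit 1170118960) (nat_lit 1140) (nat_lit 10241751775) (nat_lit 153) (nat_lit 5) (nat_lit 152) (nat_lit 5) (nat_lit 167) (nat_lit 5) (nat_lit 311) (nat_lit 307) (nat_lit 162))))))) (XT.nd (nat_lit 858) (nat_lit 2964) (nat_lit 0) (XT.nd (nat_lit 390) (nat_lit 0) (nat_lit 152) (XT.nd (nat_lit 156) (nat_lit 0) (nat_lit 76) (XT.nd (nat_lit 78) (nat_lit 0) (nat_lit 0) (XT.lf (nat_lit 0) (nat_lit 8016224311) (nat_lit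 1064) (nat_lit 3996687330) (nat_lit 1140) (nat_lit 5922658838) (nat_lit 153) (nat_lit 5) (nat_lit 167) (nat_lit 5) (nat_lit 168) (nat_lit 5) (nat_lit 312) (nat_lit 307) (nat_lit 161)) (XT.lf (nat_lit 76) (nat_lit 3696911418) (nat_lit 0) (nat_lit 4965067737) (nat_lit 1140) (nat_lit 9546502350) (nat_lit 154) (nat_lit 5) (nat_lit 153) (nat_lit 5) (nat_lit 168) (nat_lit 5) (nat_lit 313) (nat_lit 307) (nat_lit 160))) (XT.nd (nat_lit 78) (nat_lit 0) (nat_lit 0) (XT.lf (nat_lit 0) (nat_lit 9382594877) (nat_lit 1064) (nat_lit 6812390833) (nat_lit 1140) (nat_lit 2292947321) (nat_lit 154) (nat_lit 5) (nat_lit 168) (nat_lit 5) (nat_lit 169) (nat_lit 5) (nat_lit 314) (nat_lit 307) (nat_lit 159)) (XT.nd (nat_lit 78) (nat_lit 0) (nat_lit 0) (XT.lf (nat_lit 76) (nat_lit 1085104169) (nat_lit 0) (nat_lit 9092204547) (nat_lit 1140) (nat_lit 8596902294) (nat_lit 155) (nat_lit 5) (nat_lit 154) (nat_lit 5) (nat_lit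 169) (nat_lit 5) (nat_lit 315) (nat_lit 307) (nat_lit 158)) (XT.lf (nat_lit 76) (nat_lit 9354542354) (nat_lit 0) (nat_lit 1703165875) (nat_lit 1140) (nat_lit 8009530564) (nat_lit 155) (nat_lit 5) (nat_lit 154) (nat_lit 5) (nat_lit 169) (nat_lit 5) (nat_lit 316) (nat_lit 307) (nat_lit 157))))) (XT.nd (nat_lit 234) (nat_lit 0) (nat_lit 76) (XT.nd (nat_lit 78) (nat_lit 0) (nat_lit 0) (XT.lf (nat_lit 0) (nat_lit 12014583115) (nat_lit 1064) (nat_lit 1558515125) (nat_lit 1140) (nat_lit 5794473571) (nat_lit 155) (nat_lit 5) (nat_lit 169) (nat_lit 5) (nat_lit 170) (nat_lit 5) (nat_lit 317) (nat_lit 307) (nat_lit 156)) (XT.nd (nat_lit 78) (nat_lit 0) (nat_lit 76) (XT.lf (nat_lit 76) (nat_lit 6954540150) (nat_lit 0) (nat_lit 6122810713) (nat_lit 1140) (nat_lit 6597264187) (nat_lit 156) (nat_lit 5) (nat_lit 155) (nat_lit 5) (nat_lit 170) (nat_lit 5) (nat_lit 318) (nat_lit 307) (nat_lit 155)) (XT.lf (nat_lit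 0) (nat_lit 14196440692) (nat_lit 1064) (nat_lit 4255303083) (nat_lit 1140) (nat_lit 1538408009) (nat_lit 156) (nat_lit 5) (nat_lit 170) (nat_lit 5) (nat_lit 171) (nat_lit 5) (nat_lit 319) (nat_lit 307) (nat_lit 154)))) (XT.nd (nat_lit 78) (nat_lit 0) (nat_lit 0) (XT.lf (nat_lit 76) (nat_lit 4485685068) (nat_lit 0) (nat_lit 10960980793) (nat_lit 1140) (nat_lit 4865576798) (nat_lit 157) (nat_lit 5) (nat_lit 156) (nat_lit 5) (nat_lit 171) (nat_lit 5) (nat_lit 320) (nat_lit 307) (nat_lit 153)) (XT.nd (nat_lit 78) (nat_lit 0) (nat_lit 76) (XT.lf (nat_lit 76) (nat_lit 13571541061) (nat_lit 0) (nat_lit 3199784371) (nat_lit 1140) (nat_lit 3871577486) (nat_lit 157) (nat_lit 5) (nat_lit 156) (nat_lit 5) (nat_lit 171) (nat_lit 5) (nat_lit 321) (nat_lit 307) (nat_lit 152)) (XT.lf (nat_lit 76) (nat_lit 1933472289) (nat_lit 0) (nat_lit 16261070431) (nat_lit 1140) (nat_lit 2787189789) (nat_lit 158) (nat_lit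 5) (nat_lit 157) (nat_lit 5) (nat_lit 172) (nat_lit 5) (nat_lit 322) (nat_lit 307) (nat_lit 151)))))) (XT.nd (nat_lit 468) (nat_lit 1520) (nat_lit 0) (XT.nd (nat_lit 234) (nat_lit 684) (nat_lit 0) (XT.nd (nat_lit 78) (nat_lit 1064) (nat_lit 0) (XT.lf (nat_lit 76) (nat_lit 11316480376) (nat_lit 0) (nat_lit 8441026555) (nat_lit 1140) (nat_lit 1570322201) (nat_lit 158) (nat_lit 5) (nat_lit 157) (nat_lit 5) (nat_lit 172) (nat_lit 5) (nat_lit 323) (nat_lit 307) (nat_lit 150)) (XT.nd (nat_lit 78) (nat_lit 1064) (nat_lit 0) (XT.lf (nat_lit 76) (nat_lit 20976497614) (nat_lit 0) (nat_lit 385302336) (nat_lit 1140) (nat_lit 322688763) (nat_lit 158) (nat_lit 5) (nat_lit 157) (nat_lit 5) (nat_lit 172) (nat_lit 5) (nat_lit 324) (nat_lit 307) (nat_lit 149)) (XT.lf (nat_lit 0) (nat_lit 1102017222) (nat_lit 1140) (nat_lit 13089067256) (nat_lit 76) (nat_lit 7855745882) (nat_lit 143) (nat_lit 5) (nat_lit 158)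 (nat_lit 5) (nat_lit 144) (nat_lit 5) (nat_lit 325) (nat_lit 307) (nat_lit 148)))) (XT.nd (nat_lit 78) (nat_lit 684) (nat_lit 0) (XT.lf (nat_lit 0) (nat_lit 2568674835) (nat_lit 1140) (nat_lit 3503514695) (nat_lit 76) (nat_lit 16347598126) (nat_lit 143) (nat_lit 5) (nat_lit 158) (nat_lit 5) (nat_lit 144) (nat_lit 5) (nat_lit 326) (nat_lit 307) (nat_lit 147)) (XT.nd (nat_lit 78) (nat_lit 0) (nat_lit 0) (XT.lf (nat_lit 0) (nat_lit 4159192252) (nat_lit 760) (nat_lit 16333061141) (nat_lit 76) (nat_lit 2309296254) (nat_lit 134) (nat_lit 5) (nat_lit 144) (nat_lit 5) (nat_lit 135) (nat_lit 5) (nat_lit 327) (nat_lit 307) (nat_lit 146)) (XT.lf (nat_lit 0) (nat_lit 5888206043) (nat_lit 760) (nat_lit 6447304811) (nat_lit 76) (nat_lit 10856541653) (nat_lit 134) (nat_lit 5) (nat_lit 144) (nat_lit 5) (nat_lit 135) (nat_lit 5) (nat_lit 328) (nat_lit 307) (nat_lit 145))))) (XT.nd (nat_lit 234) (nat_lit 456)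 (nat_lit 0) (XT.nd (nat_lit 78) (nat_lit 532) (nat_lit 0) (XT.lf (nat_lit 0) (nat_lit 3804802501) (nat_lit 532) (nat_lit 3895940719) (nat_lit 608) (nat_lit 15892588745) (nat_lit 127) (nat_lit 5) (nat_lit 134) (nat_lit 5) (nat_lit 135) (nat_lit 5) (nat_lit 329) (nat_lit 307) (nat_lit 144)) (XT.nd (nat_lit 78) (nat_lit 532) (nat_lit 0) (XT.lf (nat_lit 0) (nat_lit 9674699704) (nat_lit 608) (nat_lit 9559397249) (nat_lit 76) (nat_lit 4769352336) (nat_lit 127) (nat_lit 5) (nat_lit 135) (nat_lit 5) (nat_lit 128) (nat_lit 5) (nat_lit 330) (nat_lit 307) (nat_lit 143)) (XT.lf (nat_lit 0) (nat_lit 952166412) (nat_lit 532) (nat_lit 10798758747) (nat_lit 608) (nat_lit 12673663932) (nat_lit 120) (nat_lit 5) (nat_lit 127) (nat_lit 5) (nat_lit 128) (nat_lit 5) (nat_lit 331) (nat_lit 307) (nat_lit 142)))) (XT.nd (nat_lit 78) (nat_lit 456) (nat_lit 0) (XT.lf (nat_lit 0) (nat_lit 11970629827) (nat_lit 532) (nat_lit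 2010756371) (nat_lit 608) (nat_lit 10874228583) (nat_lit 120) (nat_lit 5) (nat_lit 127) (nat_lit 5) (nat_lit 128) (nat_lit 5) (nat_lit 332) (nat_lit 307) (nat_lit 141)) (XT.nd (nat_lit 78) (nat_lit 456) (nat_lit 0) (XT.lf (nat_lit 0) (nat_lit 16341995143) (nat_lit 608) (nat_lit 2052027498) (nat_lit 76) (nat_lit 6903661443) (nat_lit 120) (nat_lit 5) (nat_lit 128) (nat_lit 5) (nat_lit 121) (nat_lit 5) (nat_lit 333) (nat_lit 307) (nat_lit 140)) (XT.lf (nat_lit 0) (nat_lit 9262460879) (nat_lit 456) (nat_lit 9615588696) (nat_lit 532) (nat_lit 6871836651) (nat_lit 114) (nat_lit 5) (nat_lit 120) (nat_lit 5) (nat_lit 121) (nat_lit 5) (nat_lit 334) (nat_lit 307) (nat_lit 139))))))))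
noncomputable def xc222 : XT := (XT.nd (nat_lit 1716) (nat_lit 2356) (nat_lit 0) (XT.nd (nat_lit 858) (nat_lit 1520) (nat_lit 0) (XT.nd (nat_lit 390) (nat_lit 1216) (nat_lit 0) (XT.nd (nat_lit 156) (nat_lit 532) (nat_lit 0) (XT.nd (nat_lit 78) (nat_lit 456) (nat_lit 0) (XT.lf (nat_lit 0) (nat_lit 20954197255) (nat_lit 456) (nat_lit 552477034) (nat_lit 532) (nat_lit 4708494782) (nat_lit 114) (nat_lit 5) (nat_lit 120) (nat_lit 5) (nat_lit 121) (nat_lit 5) (nat_lit 335) (nat_lit 307) (nat_lit 138)) (XT.lf (nat_lit 0) (nat_lit 6337255442) (nat_lit 456) (nat_lit 18018133218) (nat_lit 532) (nat_lit 2334793841) (nat_lit 108) (nat_lit 5) (nat_lit 114) (nat_lit 5) (nat_lit 115) (nat_lit 5) (nat_lit 336) (nat_lit 307) (nat_lit 137))) (XT.nd (nat_lit 78) (nat_lit 456) (nat_lit 0) (XT.lf (nat_lit 0) (nat_lit 163011855) (nat_lit 532) (nat_lit 8797940328) (nat_lit 76) (nat_lit 18216819629) (nat_lit 107) (nat_lit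 5) (nat_lit 114) (nat_lit 5) (nat_lit 108) (nat_lit 5) (nat_lit 337) (nat_lit 307) (nat_lit 136)) (XT.nd (nat_lit 78) (nat_lit 0) (nat_lit 0) (XT.lf (nat_lit 0) (nat_lit 2719087480) (nat_lit 532) (nat_lit 24544956240) (nat_lit 76) (nat_lit 414351954) (nat_lit 101) (nat_lit 5) (nat_lit 108) (nat_lit 5) (nat_lit 102) (nat_lit 5) (nat_lit 338) (nat_lit 307) (nat_lit 135)) (XT.lf (nat_lit 0) (nat_lit 5526402092) (nat_lit 532) (nat_lit 12682128267) (nat_lit 76) (nat_lit 9980279214) (nat_lit 101) (nat_lit 5) (nat_lit 108) (nat_lit 5) (nat_lit 102) (nat_lit 5) (nat_lit 339) (nat_lit 307) (nat_lit 134))))) (XT.nd (nat_lit 234) (nat_lit 760) (nat_lit 0) (XT.nd (nat_lit 78) (nat_lit 456) (nat_lit 0) (XT.lf (nat_lit 0) (nat_lit 8414162208) (nat_lit 532) (nat_lit 467554378) (nat_lit 76) (nat_lit 19832940305) (nat_lit 101) (nat_lit 5) (nat_lit 108) (nat_lit 5) (nat_lit 102) (nat_lit 5) (nat_lit 340) (nat_lit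 307) (nat_lit 133)) (XT.nd (nat_lit 78) (nat_lit 0) (nat_lit 0) (XT.lf (nat_lit 0) (nat_lit 11511751334) (nat_lit 532) (nat_lit 16910535829) (nat_lit 76) (nat_lit 830304141) (nat_lit 95) (nat_lit 5) (nat_lit 102) (nat_lit 5) (nat_lit 96) (nat_lit 5) (nat_lit 341) (nat_lit 307) (nat_lit 132)) (XT.lf (nat_lit 0) (nat_lit 14791374823) (nat_lit 532) (nat_lit 4353059107) (nat_lit 76) (nat_lit 10659563958) (nat_lit 95) (nat_lit 5) (nat_lit 102) (nat_lit 5) (nat_lit 96) (nat_lit 5) (nat_lit 342) (nat_lit 307) (nat_lit 131)))) (XT.nd (nat_lit 78) (nat_lit 380) (nat_lit 0) (XT.lf (nat_lit 0) (nat_lit 8747873070) (nat_lit 380) (nat_lit 9502109456) (nat_lit 456) (nat_lit 12119553405) (nat_lit 90) (nat_lit 5) (nat_lit 95) (nat_lit 5) (nat_lit 96) (nat_lit 5) (nat_lit 343) (nat_lit 307) (nat_lit 130)) (XT.nd (nat_lit 78) (nat_lit 380) (nat_lit 0) (XT.lf (nat_lit 0) (nat_lit 21857434270) (nat_lit 456) (nat_lit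 8628255855) (nat_lit 76) (nat_lit 465004333) (nat_lit 90) (nat_lit 5) (nat_lit 96) (nat_lit 5) (nat_lit 91) (nat_lit 5) (nat_lit 344) (nat_lit 307) (nat_lit 129)) (XT.lf (nat_lit 0) (nat_lit 4749635736) (nat_lit 380) (nat_lit 20959875336) (nat_lit 456) (nat_lit 5835691342) (nat_lit 85) (nat_lit 5) (nat_lit 90) (nat_lit 5) (nat_lit 91) (nat_lit 5) (nat_lit 345) (nat_lit 307) (nat_lit 128)))))) (XT.nd (nat_lit 390) (nat_lit 684) (nat_lit 0) (XT.nd (nat_lit 156) (nat_lit 380) (nat_lit 0) (XT.nd (nat_lit 78) (nat_lit 456) (nat_lit 0) (XT.lf (nat_lit 0) (nat_lit 18701853460) (nat_lit 380) (nat_lit 11059149827) (nat_lit 456) (nat_lit 2394033249) (nat_lit 85) (nat_lit 5) (nat_lit 90) (nat_lit 5) (nat_lit 91) (nat_lit 5) (nat_lit 346) (nat_lit 307) (nat_lit 127)) (XT.lf (nat_lit 0) (nat_lit 280035078) (nat_lit 380) (nat_lit 847856015) (nat_lit 456) (nat_lit 31654964623) (nat_lit 79) (nat_lit 5) (nat_lit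 84) (nat_lit 5) (nat_lit 85) (nat_lit 5) (nat_lit 347) (nat_lit 307) (nat_lit 126))) (XT.nd (nat_lit 78) (nat_lit 380) (nat_lit 0) (XT.lf (nat_lit 0) (nat_lit 4934336479) (nat_lit 456) (nat_lit 18846302800) (nat_lit 76) (nat_lit 9641355630) (nat_lit 79) (nat_lit 5) (nat_lit 85) (nat_lit 5) (nat_lit 80) (nat_lit 5) (nat_lit 348) (nat_lit 307) (nat_lit 125)) (XT.nd (nat_lit 78) (nat_lit 380) (nat_lit 0) (XT.lf (nat_lit 0) (nat_lit 8860295445) (nat_lit 456) (nat_lit 4792266108) (nat_lit 76) (nat_lit 20427592912) (nat_lit 79) (nat_lit 5) (nat_lit 85) (nat_lit 5) (nat_lit 80) (nat_lit 5) (nat_lit 349) (nat_lit 307) (nat_lit 124)) (XT.lf (nat_lit 0) (nat_lit 9872365176) (nat_lit 380) (nat_lit 3123582368) (nat_lit 456) (nat_lit 21759359459) (nat_lit 74) (nat_lit 5) (nat_lit 79) (nat_lit 5) (nat_lit 80) (nat_lit 5) (nat_lit 350) (nat_lit 307) (nat_lit 123))))) (XT.nd (nat_lit 234) (nat_lit 380) (nat_lit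 0) (XT.nd (nat_lit 78) (nat_lit 304) (nat_lit 0) (XT.lf (nat_lit 0) (nat_lit 17375822745) (nat_lit 456) (nat_lit 10452513453) (nat_lit 76) (nat_lit 7618778774) (nat_lit 74) (nat_lit 5) (nat_lit 80) (nat_lit 5) (nat_lit 75) (nat_lit 5) (nat_lit 351) (nat_lit 307) (nat_lit 122)) (XT.nd (nat_lit 78) (nat_lit 0) (nat_lit 0) (XT.lf (nat_lit 0) (nat_lit 4463383731) (nat_lit 304) (nat_lit 17494687801) (nat_lit 380) (nat_lit 14199481629) (nat_lit 70) (nat_lit 5) (nat_lit 74) (nat_lit 5) (nat_lit 75) (nat_lit 5) (nat_lit 352) (nat_lit 307) (nat_lit 121)) (XT.lf (nat_lit 0) (nat_lit 20037445368) (nat_lit 304) (nat_lit 6743087033) (nat_lit 380) (nat_lit 10105694906) (nat_lit 70) (nat_lit 5) (nat_lit 74) (nat_lit 5) (nat_lit 75) (nat_lit 5) (nat_lit 353) (nat_lit 307) (nat_lit 120)))) (XT.nd (nat_lit 78) (nat_lit 380) (nat_lit 0) (XT.lf (nat_lit 0) (nat_lit 31786569123) (nat_lit 380) (nat_lit 1603219632)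 (nat_lit 76) (nat_lit 4245810859) (nat_lit 70) (nat_lit 5) (nat_lit 75) (nat_lit 5) (nat_lit 71) (nat_lit 5) (nat_lit 354) (nat_lit 307) (nat_lit 119)) (XT.nd (nat_lit 78) (nat_lit 76) (nat_lit 0) (XT.lf (nat_lit 0) (nat_lit 14308710302) (nat_lit 304) (nat_lit 22835732709) (nat_lit 380) (nat_lit 1256965249) (nat_lit 66) (nat_lit 5) (nat_lit 70) (nat_lit 5) (nat_lit 71) (nat_lit 5) (nat_lit 355) (nat_lit 307) (nat_lit 118)) (XT.lf (nat_lit 0) (nat_lit 3418806269) (nat_lit 380) (nat_lit 8495860196) (nat_lit 76) (nat_lit 27274116407) (nat_lit 65) (nat_lit 5) (nat_lit 70) (nat_lit 5) (nat_lit 66) (nat_lit 5) (nat_lit 356) (nat_lit 307) (nat_lit 117))))))) (XT.nd (nat_lit 858) (nat_lit 912) (nat_lit 0) (XT.nd (nat_lit 390) (nat_lit 836) (nat_lit 0) (XT.nd (nat_lit 156) (nat_lit 304) (nat_lit 0) (XT.nd (nat_lit 78) (nat_lit 0) (nat_lit 0) (XT.lf (nat_lit 0) (nat_lit 7703385764) (nat_lit 304) (nat_lit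 577690581) (nat_lit 380) (nat_lit 31716188785) (nat_lit 61) (nat_lit 5) (nat_lit 65) (nat_lit 5) (nat_lit 66) (nat_lit 5) (nat_lit 357) (nat_lit 307) (nat_lit 116)) (XT.lf (nat_lit 0) (nat_lit 13480023740) (nat_lit 380) (nat_lit 16375617221) (nat_lit 76) (nat_lit 10968640931) (nat_lit 61) (nat_lit 5) (nat_lit 66) (nat_lit 5) (nat_lit 62) (nat_lit 5) (nat_lit 358) (nat_lit 307) (nat_lit 115))) (XT.nd (nat_lit 78) (nat_lit 0) (nat_lit 0) (XT.lf (nat_lit 0) (nat_lit 11383139) (nat_lit 304) (nat_lit 18826933209) (nat_lit 380) (nat_lit 22837695690) (nat_lit 57) (nat_lit 5) (nat_lit 61) (nat_lit 5) (nat_lit 62) (nat_lit 5) (nat_lit 359) (nat_lit 307) (nat_lit 114)) (XT.nd (nat_lit 78) (nat_lit 0) (nat_lit 0) (XT.lf (nat_lit 0) (nat_lit 17222398016) (nat_lit 304) (nat_lit 7297908910) (nat_lit 380) (nat_lit 18028102751) (nat_lit 57) (nat_lit 5) (nat_lit 61) (nat_lit 5) (nat_lit 62) (nat_lit 5) (nat_lit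 360) (nat_lit 307) (nat_lit 113)) (XT.lf (nat_lit 0) (nat_lit 30414403749) (nat_lit 380) (nat_lit 8544482887) (nat_lit 76) (nat_lit 4486847159) (nat_lit 57) (nat_lit 5) (nat_lit 62) (nat_lit 5) (nat_lit 58) (nat_lit 5) (nat_lit 361) (nat_lit 307) (nat_lit 112))))) (XT.nd (nat_lit 234) (nat_lit 532) (nat_lit 0) (XT.nd (nat_lit 78) (nat_lit 76) (nat_lit 0) (XT.lf (nat_lit 0) (nat_lit 8837531779) (nat_lit 228) (nat_lit 27802718174) (nat_lit 304) (nat_lit 7725083719) (nat_lit 54) (nat_lit 5) (nat_lit 57) (nat_lit 5) (nat_lit 58) (nat_lit 5) (nat_lit 362) (nat_lit 307) (nat_lit 111)) (XT.nd (nat_lit 78) (nat_lit 76) (nat_lit 0) (XT.lf (nat_lit 0) (nat_lit 26913035821) (nat_lit 228) (nat_lit 16223872863) (nat_lit 304) (nat_lit 2173095467) (nat_lit 54) (nat_lit 5) (nat_lit 57) (nat_lit 5) (nat_lit 58) (nat_lit 5) (nat_lit 363) (nat_lit 307) (nat_lit 110)) (XT.lf (nat_lit 0) (nat_lit 3474062777) (nat_lit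 304) (nat_lit 789371789) (nat_lit 76) (nat_lit 42018627404) (nat_lit 53) (nat_lit 5) (nat_lit 57) (nat_lit 5) (nat_lit 54) (nat_lit 5) (nat_lit 364) (nat_lit 307) (nat_lit 109)))) (XT.nd (nat_lit 78) (nat_lit 228) (nat_lit 0) (XT.lf (nat_lit 0) (nat_lit 9493964525) (nat_lit 380) (nat_lit 29690246403) (nat_lit 76) (nat_lit 8091018352) (nat_lit 49) (nat_lit 5) (nat_lit 54) (nat_lit 5) (nat_lit 50) (nat_lit 5) (nat_lit 365) (nat_lit 307) (nat_lit 108)) (XT.nd (nat_lit 78) (nat_lit 228) (nat_lit 0) (XT.lf (nat_lit 0) (nat_lit 15742610363) (nat_lit 380) (nat_lit 11816514293) (nat_lit 76) (nat_lit 20737625845) (nat_lit 49) (nat_lit 5) (nat_lit 54) (nat_lit 5) (nat_lit 50) (nat_lit 5) (nat_lit 366) (nat_lit 307) (nat_lit 107)) (XT.lf (nat_lit 0) (nat_lit 6721661365) (nat_lit 228) (nat_lit 15519613324) (nat_lit 304) (nat_lit 27105769105) (nat_lit 46) (nat_lit 5) (nat_lit 49) (nat_lit 5) (nat_lit 50)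 (nat_lit 5) (nat_lit 367) (nat_lit 307) (nat_lit 106)))))) (XT.nd (nat_lit 468) (nat_lit 380) (nat_lit 0) (XT.nd (nat_lit 234) (nat_lit 304) (nat_lit 0) (XT.nd (nat_lit 78) (nat_lit 228) (nat_lit 0) (XT.lf (nat_lit 0) (nat_lit 26055305761) (nat_lit 228) (nat_lit 2996895105) (nat_lit 304) (nat_lit 21373129077) (nat_lit 46) (nat_lit 5) (nat_lit 49) (nat_lit 5) (nat_lit 50) (nat_lit 5) (nat_lit 368) (nat_lit 307) (nat_lit 105)) (XT.nd (nat_lit 78) (nat_lit 228) (nat_lit 0) (XT.lf (nat_lit 0) (nat_lit 36160663101) (nat_lit 304) (nat_lit 5665057109) (nat_lit 76) (nat_lit 9707451241) (nat_lit 46) (nat_lit 5) (nat_lit 50) (nat_lit 5) (nat_lit 47) (nat_lit 5) (nat_lit 369) (nat_lit 307) (nat_lit 104)) (XT.lf (nat_lit 0) (nat_lit 13838639514) (nat_lit 228) (nat_lit 29804523746) (nat_lit 304) (nat_lit 9026264360) (nat_lit 43) (nat_lit 5) (nat_lit 46) (nat_lit 5) (nat_lit 47) (nat_lit 5) (nat_lit 370)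 (nat_lit 307) (nat_lit 103)))) (XT.nd (nat_lit 78) (nat_lit 304) (nat_lit 0) (XT.lf (nat_lit 0) (nat_lit 34040813563) (nat_lit 228) (nat_lit 17364646382) (nat_lit 304) (nat_lit 2432654732) (nat_lit 43) (nat_lit 5) (nat_lit 46) (nat_lit 5) (nat_lit 47) (nat_lit 5) (nat_lit 371) (nat_lit 307) (nat_lit 102)) (XT.nd (nat_lit 78) (nat_lit 228) (nat_lit 0) (XT.lf (nat_lit 0) (nat_lit 4271857624) (nat_lit 304) (nat_lit 237429283) (nat_lit 76) (nat_lit 50531376667) (nat_lit 42) (nat_lit 5) (nat_lit 46) (nat_lit 5) (nat_lit 43) (nat_lit 5) (nat_lit 372) (nat_lit 307) (nat_lit 101)) (XT.lf (nat_lit 0) (nat_lit 11407836569) (nat_lit 304) (nat_lit 36080657597) (nat_lit 76) (nat_lit 8781698051) (nat_lit 39) (nat_lit 5) (nat_lit 43) (nat_lit 5) (nat_lit 40) (nat_lit 5) (nat_lit 373) (nat_lit 307) (nat_lit 100))))) (XT.nd (nat_lit 234) (nat_lit 152) (nat_lit 0) (XT.nd (nat_lit 78) (nat_lit 228) (nat_lit 0)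 (XT.lf (nat_lit 0) (nat_lit 18803185151) (nat_lit 304) (nat_lit 16349693436) (nat_lit 76) (nat_lit 22382371960) (nat_lit 39) (nat_lit 5) (nat_lit 43) (nat_lit 5) (nat_lit 40) (nat_lit 5) (nat_lit 374) (nat_lit 307) (nat_lit 99)) (XT.nd (nat_lit 78) (nat_lit 0) (nat_lit 0) (XT.lf (nat_lit 0) (nat_lit 4049637213) (nat_lit 228) (nat_lit 22407958891) (nat_lit 304) (nat_lit 32379550922) (nat_lit 36) (nat_lit 5) (nat_lit 39) (nat_lit 5) (nat_lit 40) (nat_lit 5) (nat_lit 375) (nat_lit 307) (nat_lit 98)) (XT.lf (nat_lit 0) (nat_lit 25393540372) (nat_lit 228) (nat_lit 9111498837) (nat_lit 304) (nat_lit 25668161583) (nat_lit 36) (nat_lit 5) (nat_lit 39) (nat_lit 5) (nat_lit 40) (nat_lit 5) (nat_lit 376) (nat_lit 307) (nat_lit 97)))) (XT.nd (nat_lit 78) (nat_lit 152) (nat_lit 0) (XT.lf (nat_lit 0) (nat_lit 42836309893) (nat_lit 304) (nat_lit 14218167703) (nat_lit 76) (nat_lit 4493588765) (nat_lit 36) (nat_lit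 5) (nat_lit 40) (nat_lit 5) (nat_lit 37) (nat_lit 5) (nat_lit 377) (nat_lit 307) (nat_lit 96)) (XT.nd (nat_lit 35178) (nat_lit 0) (nat_lit 8892) (XT.lf (nat_lit 0) (nat_lit 7004178011) (nat_lit 152) (nat_lit 44569271762) (nat_lit 228) (nat_lit 11386052441) (nat_lit 34) (nat_lit 5) (nat_lit 36) (nat_lit 5) (nat_lit 37) (nat_lit 5) (nat_lit 378) (nat_lit 307) (nat_lit 95)) (XT.lf (nat_lit 0) (nat_lit 3180435476) (nat_lit 1140) (nat_lit 2697534648) (nat_lit 1140) (nat_lit 2697534648) (nat_lit 151) (nat_lit 3) (nat_lit 166) (nat_lit 3) (nat_lit 166) (nat_lit 5) (nat_lit 308) (nat_lit 308) (nat_lit 164))))))))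
noncomputable def xc223 : XT := (XT.nd (nat_lit 1794) (nat_lit 4332) (nat_lit 0) (XT.nd (nat_lit 858) (nat_lit 1824) (nat_lit 0) (XT.nd (nat_lit 390) (nat_lit 0) (nat_lit 152) (XT.nd (nat_lit 156) (nat_lit 0) (nat_lit 76) (XT.nd (nat_lit 78) (nat_lit 0) (nat_lit 76) (XT.lf (nat_lit 76) (nat_lit 1768838640) (nat_lit 0) (nat_lit 4908650820) (nat_lit 1140) (nat_lit 10723650249) (nat_lit 152) (nat_lit 5) (nat_lit 151) (nat_lit 3) (nat_lit 166) (nat_lit 5) (nat_lit 309) (nat_lit 308) (nat_lit 163)) (XT.lf (nat_lit 0) (nat_lit 7071262421) (nat_lit 1064) (nat_lit 8424523627) (nat_lit 1140) (nat_lit 2160977517) (nat_lit 152) (nat_lit 5) (nat_lit 166) (nat_lit 5) (nat_lit 167) (nat_lit 5) (nat_lit 310) (nat_lit 308) (nat_lit 162))) (XT.nd (nat_lit 78) (nat_lit 0) (nat_lit 0) (XT.lf (nat_lit 0) (nat_lit 7517708184) (nat_lit 1064) (nat_lit 1053474818) (nat_lit 1140) (nat_lit 9347666247) (nat_lit 152) (nat_lit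 5) (nat_lit 166) (nat_lit 5) (nat_lit 167) (nat_lit 5) (nat_lit 311) (nat_lit 308) (nat_lit 161)) (XT.nd (nat_lit 78) (nat_lit 0) (nat_lit 76) (XT.lf (nat_lit 76) (nat_lit 6664519820) (nat_lit 0) (nat_lit 1369575515) (nat_lit 1140) (nat_lit 10153024079) (nat_lit 153) (nat_lit 5) (nat_lit 152) (nat_lit 5) (nat_lit 167) (nat_lit 5) (nat_lit 312) (nat_lit 308) (nat_lit 160)) (XT.lf (nat_lit 0) (nat_lit 8627548690) (nat_lit 1064) (nat_lit 3890173265) (nat_lit 1140) (nat_lit 5943886304) (nat_lit 153) (nat_lit 5) (nat_lit 167) (nat_lit 5) (nat_lit 168) (nat_lit 5) (nat_lit 313) (nat_lit 308) (nat_lit 159))))) (XT.nd (nat_lit 234) (nat_lit 0) (nat_lit 76) (XT.nd (nat_lit 78) (nat_lit 0) (nat_lit 76) (XT.lf (nat_lit 76) (nat_lit 4032013694) (nat_lit 0) (nat_lit 5252016488) (nat_lit 1140) (nat_lit 9458962151) (nat_lit 154) (nat_lit 5) (nat_lit 153) (nat_lit 5) (nat_lit 168) (nat_lit 5) (nat_lit 314)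 (nat_lit 308) (nat_lit 158)) (XT.nd (nat_lit 78) (nat_lit 0) (nat_lit 0) (XT.lf (nat_lit 0) (nat_lit 10014427231) (nat_lit 1064) (nat_lit 6786408132) (nat_lit 1140) (nat_lit 2230372725) (nat_lit 154) (nat_lit 5) (nat_lit 168) (nat_lit 5) (nat_lit 169) (nat_lit 5) (nat_lit 315) (nat_lit 308) (nat_lit 157)) (XT.lf (nat_lit 76) (nat_lit 1345753343) (nat_lit 0) (nat_lit 9479217240) (nat_lit 1140) (nat_lit 8501369003) (nat_lit 155) (nat_lit 5) (nat_lit 154) (nat_lit 5) (nat_lit 169) (nat_lit 5) (nat_lit 316) (nat_lit 308) (nat_lit 156)))) (XT.nd (nat_lit 78) (nat_lit 0) (nat_lit 76) (XT.lf (nat_lit 76) (nat_lit 9856631099) (nat_lit 0) (nat_lit 1865179838) (nat_lit 1140) (nat_lit 7906670501) (nat_lit 155) (nat_lit 5) (nat_lit 154) (nat_lit 5) (nat_lit 169) (nat_lit 5) (nat_lit 317) (nat_lit 308) (nat_lit 155)) (XT.nd (nat_lit 78) (nat_lit 0) (nat_lit 0) (XT.lf (nat_lit 0) (nat_lit 12696676182) (nat_lit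 1064) (nat_lit 1378772313) (nat_lit 1140) (nat_lit 5862720828) (nat_lit 155) (nat_lit 5) (nat_lit 169) (nat_lit 5) (nat_lit 170) (nat_lit 5) (nat_lit 318) (nat_lit 308) (nat_lit 154)) (XT.lf (nat_lit 76) (nat_lit 7387454049) (nat_lit 0) (nat_lit 6396660199) (nat_lit 1140) (nat_lit 6470548711) (nat_lit 156) (nat_lit 5) (nat_lit 155) (nat_lit 5) (nat_lit 170) (nat_lit 5) (nat_lit 319) (nat_lit 308) (nat_lit 153)))))) (XT.nd (nat_lit 468) (nat_lit 2204) (nat_lit 0) (XT.nd (nat_lit 234) (nat_lit 0) (nat_lit 76) (XT.nd (nat_lit 78) (nat_lit 0) (nat_lit 0) (XT.lf (nat_lit 0) (nat_lit 14926776764) (nat_lit 1064) (nat_lit 4154481632) (nat_lit 1140) (nat_lit 1498729455) (nat_lit 156) (nat_lit 5) (nat_lit 170) (nat_lit 5) (nat_lit 171) (nat_lit 5) (nat_lit 320) (nat_lit 308) (nat_lit 152)) (XT.nd (nat_lit 78) (nat_lit 0) (nat_lit 0) (XT.lf (nat_lit 76) (nat_lit 4846496158) (nat_lit 0) (nat_lit 11361320025)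 (nat_lit 1140) (nat_lit 4704147459) (nat_lit 157) (nat_lit 5) (nat_lit 156) (nat_lit 5) (nat_lit 171) (nat_lit 5) (nat_lit 321) (nat_lit 308) (nat_lit 151)) (XT.lf (nat_lit 76) (nat_lit 14198338300) (nat_lit 0) (nat_lit 3365204900) (nat_lit 1140) (nat_lit 3689281468) (nat_lit 157) (nat_lit 5) (nat_lit 156) (nat_lit 5) (nat_lit 171) (nat_lit 5) (nat_lit 322) (nat_lit 308) (nat_lit 150)))) (XT.nd (nat_lit 78) (nat_lit 0) (nat_lit 0) (XT.lf (nat_lit 76) (nat_lit 2218908377) (nat_lit 0) (nat_lit 16803667162) (nat_lit 1140) (nat_lit 2579470238) (nat_lit 158) (nat_lit 5) (nat_lit 157) (nat_lit 5) (nat_lit 172) (nat_lit 5) (nat_lit 323) (nat_lit 308) (nat_lit 149)) (XT.nd (nat_lit 78) (nat_lit 0) (nat_lit 0) (XT.lf (nat_lit 76) (nat_lit 11876782475) (nat_lit 0) (nat_lit 8747426884) (nat_lit 1140) (nat_lit 1334582114) (nat_lit 158) (nat_lit 5) (nat_lit 157) (nat_lit 5) (nat_lit 172) (nat_lit 5) (nat_lit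 324) (nat_lit 308) (nat_lit 148)) (XT.lf (nat_lit 76) (nat_lit 21820168938) (nat_lit 0) (nat_lit 448482310) (nat_lit 1140) (nat_lit 57758016) (nat_lit 158) (nat_lit 5) (nat_lit 157) (nat_lit 5) (nat_lit 172) (nat_lit 5) (nat_lit 325) (nat_lit 308) (nat_lit 147))))) (XT.nd (nat_lit 234) (nat_lit 532) (nat_lit 0) (XT.nd (nat_lit 78) (nat_lit 684) (nat_lit 0) (XT.lf (nat_lit 0) (nat_lit 1398149940) (nat_lit 1140) (nat_lit 13254610164) (nat_lit 76) (nat_lit 8046985215) (nat_lit 143) (nat_lit 5) (nat_lit 158) (nat_lit 5) (nat_lit 144) (nat_lit 5) (nat_lit 326) (nat_lit 308) (nat_lit 146)) (XT.nd (nat_lit 78) (nat_lit 684) (nat_lit 0) (XT.lf (nat_lit 0) (nat_lit 2901144984) (nat_lit 1140) (nat_lit 3388106438) (nat_lit 76) (nat_lit 16794887192) (nat_lit 143) (nat_lit 5) (nat_lit 158) (nat_lit 5) (nat_lit 144) (nat_lit 5) (nat_lit 327) (nat_lit 308) (nat_lit 145)) (XT.lf (nat_lit 0) (nat_lit 4533732839)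 (nat_lit 760) (nat_lit 16596330723) (nat_lit 76) (nat_lit 2347476159) (nat_lit 134) (nat_lit 5) (nat_lit 144) (nat_lit 5) (nat_lit 135) (nat_lit 5) (nat_lit 328) (nat_lit 308) (nat_lit 144)))) (XT.nd (nat_lit 78) (nat_lit 532) (nat_lit 0) (XT.lf (nat_lit 0) (nat_lit 6307342340) (nat_lit 760) (nat_lit 6420605263) (nat_lit 76) (nat_lit 11152044716) (nat_lit 134) (nat_lit 5) (nat_lit 144) (nat_lit 5) (nat_lit 135) (nat_lit 5) (nat_lit 329) (nat_lit 308) (nat_lit 143)) (XT.nd (nat_lit 78) (nat_lit 0) (nat_lit 0) (XT.lf (nat_lit 0) (nat_lit 4136907242) (nat_lit 532) (nat_lit 4032380744) (nat_lit 608) (nat_lit 16124187139) (nat_lit 127) (nat_lit 5) (nat_lit 134) (nat_lit 5) (nat_lit 135) (nat_lit 5) (nat_lit 330) (nat_lit 308) (nat_lit 142)) (XT.lf (nat_lit 0) (nat_lit 10195362471) (nat_lit 608) (nat_lit 9626950522) (nat_lit 76) (nat_lit 4893811467) (nat_lit 127) (nat_lit 5) (nat_lit 135) (nat_lit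 5) (nat_lit 128) (nat_lit 5) (nat_lit 331) (nat_lit 308) (nat_lit 141))))))) (XT.nd (nat_lit 858) (nat_lit 1900) (nat_lit 0) (XT.nd (nat_lit 390) (nat_lit 1444) (nat_lit 0) (XT.nd (nat_lit 156) (nat_lit 456) (nat_lit 0) (XT.nd (nat_lit 78) (nat_lit 0) (nat_lit 0) (XT.lf (nat_lit 0) (nat_lit 1197810748) (nat_lit 532) (nat_lit 11131439327) (nat_lit 608) (nat_lit 12820802138) (nat_lit 120) (nat_lit 5) (nat_lit 127) (nat_lit 5) (nat_lit 128) (nat_lit 5) (nat_lit 332) (nat_lit 308) (nat_lit 140)) (XT.lf (nat_lit 0) (nat_lit 12540505367) (nat_lit 532) (nat_lit 2079542962) (nat_lit 608) (nat_lit 10974172225) (nat_lit 120) (nat_lit 5) (nat_lit 127) (nat_lit 5) (nat_lit 128) (nat_lit 5) (nat_lit 333) (nat_lit 308) (nat_lit 139))) (XT.nd (nat_lit 78) (nat_lit 456) (nat_lit 0) (XT.lf (nat_lit 0) (nat_lit 17045011487) (nat_lit 608) (nat_lit 1902034269) (nat_lit 76) (nat_lit 7102714258) (nat_lit 120) (nat_lit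 5) (nat_lit 128) (nat_lit 5) (nat_lit 121) (nat_lit 5) (nat_lit 334) (nat_lit 308) (nat_lit 138)) (XT.nd (nat_lit 78) (nat_lit 0) (nat_lit 0) (XT.lf (nat_lit 0) (nat_lit 9749814700) (nat_lit 456) (nat_lit 9903149711) (nat_lit 532) (nat_lit 6862703049) (nat_lit 114) (nat_lit 5) (nat_lit 120) (nat_lit 5) (nat_lit 121) (nat_lit 5) (nat_lit 335) (nat_lit 308) (nat_lit 137)) (XT.lf (nat_lit 0) (nat_lit 21786201808) (nat_lit 456) (nat_lit 568171107) (nat_lit 532) (nat_lit 4640731468) (nat_lit 114) (nat_lit 5) (nat_lit 120) (nat_lit 5) (nat_lit 121) (nat_lit 5) (nat_lit 336) (nat_lit 308) (nat_lit 136))))) (XT.nd (nat_lit 234) (nat_lit 456) (nat_lit 0) (XT.nd (nat_lit 78) (nat_lit 532) (nat_lit 0) (XT.lf (nat_lit 0) (nat_lit 6735205295) (nat_lit 456) (nat_lit 18549451435) (nat_lit 532) (nat_lit 2199841201) (nat_lit 108) (nat_lit 5) (nat_lit 114) (nat_lit 5) (nat_lit 115) (nat_lit 5) (nat_lit 337) (nat_lit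 308) (nat_lit 135)) (XT.nd (nat_lit 78) (nat_lit 456) (nat_lit 0) (XT.lf (nat_lit 0) (nat_lit 363044187) (nat_lit 532) (nat_lit 8855808942) (nat_lit 76) (nat_lit 18767990515) (nat_lit 107) (nat_lit 5) (nat_lit 114) (nat_lit 5) (nat_lit 108) (nat_lit 5) (nat_lit 338) (nat_lit 308) (nat_lit 134)) (XT.lf (nat_lit 0) (nat_lit 2992201186) (nat_lit 532) (nat_lit 25071239228) (nat_lit 76) (nat_lit 439165692) (nat_lit 101) (nat_lit 5) (nat_lit 108) (nat_lit 5) (nat_lit 102) (nat_lit 5) (nat_lit 339) (nat_lit 308) (nat_lit 133)))) (XT.nd (nat_lit 78) (nat_lit 456) (nat_lit 0) (XT.lf (nat_lit 0) (nat_lit 5878156369) (nat_lit 532) (nat_lit 12858644834) (nat_lit 76) (nat_lit 10291710094) (nat_lit 101) (nat_lit 5) (nat_lit 108) (nat_lit 5) (nat_lit 102) (nat_lit 5) (nat_lit 340) (nat_lit 308) (nat_lit 132)) (XT.nd (nat_lit 78) (nat_lit 456) (nat_lit 0) (XT.lf (nat_lit 0) (nat_lit 8847132913) (nat_lit 532)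 (nat_lit 283573941) (nat_lit 76) (nat_lit 20439600849) (nat_lit 101) (nat_lit 5) (nat_lit 108) (nat_lit 5) (nat_lit 102) (nat_lit 5) (nat_lit 341) (nat_lit 308) (nat_lit 131)) (XT.lf (nat_lit 0) (nat_lit 12034457421) (nat_lit 532) (nat_lit 17216290873) (nat_lit 76) (nat_lit 873738473) (nat_lit 95) (nat_lit 5) (nat_lit 102) (nat_lit 5) (nat_lit 96) (nat_lit 5) (nat_lit 342) (nat_lit 308) (nat_lit 130)))))) (XT.nd (nat_lit 468) (nat_lit 684) (nat_lit 0) (XT.nd (nat_lit 234) (nat_lit 836) (nat_lit 0) (XT.nd (nat_lit 78) (nat_lit 380) (nat_lit 0) (XT.lf (nat_lit 0) (nat_lit 15407303977) (nat_lit 532) (nat_lit 4287960560) (nat_lit 76) (nat_lit 10997336516) (nat_lit 95) (nat_lit 5) (nat_lit 102) (nat_lit 5) (nat_lit 96) (nat_lit 5) (nat_lit 343) (nat_lit 308) (nat_lit 129)) (XT.nd (nat_lit 78) (nat_lit 0) (nat_lit 0) (XT.lf (nat_lit 0) (nat_lit 9204081051) (nat_lit 380) (nat_lit 9762436332) (nat_lit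 456) (nat_lit 12308692657) (nat_lit 90) (nat_lit 5) (nat_lit 95) (nat_lit 5) (nat_lit 96) (nat_lit 5) (nat_lit 344) (nat_lit 308) (nat_lit 128)) (XT.lf (nat_lit 0) (nat_lit 22677500174) (nat_lit 456) (nat_lit 8693952097) (nat_lit 76) (nat_lit 502501756) (nat_lit 90) (nat_lit 5) (nat_lit 96) (nat_lit 5) (nat_lit 91) (nat_lit 5) (nat_lit 345) (nat_lit 308) (nat_lit 127)))) (XT.nd (nat_lit 78) (nat_lit 456) (nat_lit 0) (XT.lf (nat_lit 0) (nat_lit 5083382601) (nat_lit 380) (nat_lit 21558808481) (nat_lit 456) (nat_lit 5844204226) (nat_lit 85) (nat_lit 5) (nat_lit 90) (nat_lit 5) (nat_lit 91) (nat_lit 5) (nat_lit 346) (nat_lit 308) (nat_lit 126)) (XT.nd (nat_lit 78) (nat_lit 456) (nat_lit 0) (XT.lf (nat_lit 0) (nat_lit 19448596241) (nat_lit 380) (nat_lit 11361931006) (nat_lit 456) (nat_lit 2304147590) (nat_lit 85) (nat_lit 5) (nat_lit 90) (nat_lit 5) (nat_lit 91) (nat_lit 5) (nat_lit 347) (nat_lit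 308) (nat_lit 125)) (XT.lf (nat_lit 0) (nat_lit 475727311) (nat_lit 380) (nat_lit 841734054) (nat_lit 456) (nat_lit 32443913945) (nat_lit 79) (nat_lit 5) (nat_lit 84) (nat_lit 5) (nat_lit 85) (nat_lit 5) (nat_lit 348) (nat_lit 308) (nat_lit 124))))) (XT.nd (nat_lit 234) (nat_lit 304) (nat_lit 0) (XT.nd (nat_lit 78) (nat_lit 380) (nat_lit 0) (XT.lf (nat_lit 0) (nat_lit 5233858700) (nat_lit 456) (nat_lit 19225328868) (nat_lit 76) (nat_lit 9960636919) (nat_lit 79) (nat_lit 5) (nat_lit 85) (nat_lit 5) (nat_lit 80) (nat_lit 5) (nat_lit 349) (nat_lit 308) (nat_lit 123)) (XT.nd (nat_lit 78) (nat_lit 380) (nat_lit 0) (XT.lf (nat_lit 0) (nat_lit 9273184043) (nat_lit 456) (nat_lit 4755099124) (nat_lit 76) (nat_lit 21069586350) (nat_lit 79) (nat_lit 5) (nat_lit 85) (nat_lit 5) (nat_lit 80) (nat_lit 5) (nat_lit 350) (nat_lit 308) (nat_lit 122)) (XT.lf (nat_lit 0) (nat_lit 10347697226) (nat_lit 380) (nat_lit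 3182646809) (nat_lit 456) (nat_lit 22263017519) (nat_lit 74) (nat_lit 5) (nat_lit 79) (nat_lit 5) (nat_lit 80) (nat_lit 5) (nat_lit 351) (nat_lit 308) (nat_lit 121)))) (XT.nd (nat_lit 78) (nat_lit 304) (nat_lit 0) (XT.lf (nat_lit 0) (nat_lit 18037729539) (nat_lit 456) (nat_lit 10587998814) (nat_lit 76) (nat_lit 7880319826) (nat_lit 74) (nat_lit 5) (nat_lit 80) (nat_lit 5) (nat_lit 75) (nat_lit 5) (nat_lit 352) (nat_lit 308) (nat_lit 120)) (XT.nd (nat_lit 78) (nat_lit 0) (nat_lit 0) (XT.lf (nat_lit 0) (nat_lit 4773629305) (nat_lit 304) (nat_lit 17981415532) (nat_lit 380) (nat_lit 14482834317) (nat_lit 70) (nat_lit 5) (nat_lit 74) (nat_lit 5) (nat_lit 75) (nat_lit 5) (nat_lit 353) (nat_lit 308) (nat_lit 119)) (XT.lf (nat_lit 0) (nat_lit 20809776556) (nat_lit 304) (nat_lit 6908376825) (nat_lit 380) (nat_lit 10270388316) (nat_lit 70) (nat_lit 5) (nat_lit 74) (nat_lit 5) (nat_lit 75) (nat_lit 5)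 (nat_lit 354) (nat_lit 308) (nat_lit 118))))))))
noncomputable def xc224 : XT := (XT.nd (nat_lit 1716) (nat_lit 0) (nat_lit 0) (XT.nd (nat_lit 858) (nat_lit 1292) (nat_lit 0) (XT.nd (nat_lit 390) (nat_lit 608) (nat_lit 0) (XT.nd (nat_lit 156) (nat_lit 380) (nat_lit 0) (XT.nd (nat_lit 78) (nat_lit 304) (nat_lit 0) (XT.lf (nat_lit 0) (nat_lit 32870807655) (nat_lit 380) (nat_lit 1481292374) (nat_lit 76) (nat_lit 4408409224) (nat_lit 70) (nat_lit 5) (nat_lit 75) (nat_lit 5) (nat_lit 71) (nat_lit 5) (nat_lit 355) (nat_lit 308) (nat_lit 117)) (XT.lf (nat_lit 0) (nat_lit 14906328558) (nat_lit 304) (nat_lit 23480902461) (nat_lit 380) (nat_lit 1162133706) (nat_lit 66) (nat_lit 5) (nat_lit 70) (nat_lit 5) (nat_lit 71) (nat_lit 5) (nat_lit 356) (nat_lit 308) (nat_lit 116))) (XT.nd (nat_lit 78) (nat_lit 304) (nat_lit 0) (XT.lf (nat_lit 0) (nat_lit 3647539542) (nat_lit 380) (nat_lit 8584552827) (nat_lit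 76) (nat_lit 28128350100) (nat_lit 65) (nat_lit 5) (nat_lit 70) (nat_lit 5) (nat_lit 66) (nat_lit 5) (nat_lit 357) (nat_lit 308) (nat_lit 115)) (XT.nd (nat_lit 78) (nat_lit 0) (nat_lit 0) (XT.lf (nat_lit 0) (nat_lit 8099041265) (nat_lit 304) (nat_lit 554543421) (nat_lit 380) (nat_lit 32539663674) (nat_lit 61) (nat_lit 5) (nat_lit 65) (nat_lit 5) (nat_lit 66) (nat_lit 5) (nat_lit 358) (nat_lit 308) (nat_lit 114)) (XT.lf (nat_lit 0) (nat_lit 14005264402) (nat_lit 380) (nat_lit 16703682287) (nat_lit 76) (nat_lit 11336232206) (nat_lit 61) (nat_lit 5) (nat_lit 66) (nat_lit 5) (nat_lit 62) (nat_lit 5) (nat_lit 359) (nat_lit 308) (nat_lit 113))))) (XT.nd (nat_lit 234) (nat_lit 304) (nat_lit 0) (XT.nd (nat_lit 78) (nat_lit 0) (nat_lit 0) (XT.lf (nat_lit 0) (nat_lit 173328050) (nat_lit 304) (nat_lit 19349011559) (nat_lit 380) (nat_lit 23400186329) (nat_lit 57) (nat_lit 5) (nat_lit 61) (nat_lit 5) (nat_lit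 62) (nat_lit 5) (nat_lit 360) (nat_lit 308) (nat_lit 112)) (XT.nd (nat_lit 78) (nat_lit 0) (nat_lit 0) (XT.lf (nat_lit 0) (nat_lit 17895966478) (nat_lit 304) (nat_lit 7475361084) (nat_lit 380) (nat_lit 18449877648) (nat_lit 57) (nat_lit 5) (nat_lit 61) (nat_lit 5) (nat_lit 62) (nat_lit 5) (nat_lit 361) (nat_lit 308) (nat_lit 111)) (XT.lf (nat_lit 0) (nat_lit 31439272957) (nat_lit 380) (nat_lit 8645327568) (nat_lit 76) (nat_lit 4660943418) (nat_lit 57) (nat_lit 5) (nat_lit 62) (nat_lit 5) (nat_lit 58) (nat_lit 5) (nat_lit 362) (nat_lit 308) (nat_lit 110)))) (XT.nd (nat_lit 78) (nat_lit 76) (nat_lit 0) (XT.lf (nat_lit 0) (nat_lit 9256623128) (nat_lit 228) (nat_lit 28593476561) (nat_lit 304) (nat_lit 7842691470) (nat_lit 54) (nat_lit 5) (nat_lit 57) (nat_lit 5) (nat_lit 58) (nat_lit 5) (nat_lit 363) (nat_lit 308) (nat_lit 109)) (XT.nd (nat_lit 78) (nat_lit 76) (nat_lit 0) (XT.lf (nat_lit 0) (nat_lit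 27869907862) (nat_lit 228) (nat_lit 16668527731) (nat_lit 304) (nat_lit 2127468175) (nat_lit 54) (nat_lit 5) (nat_lit 57) (nat_lit 5) (nat_lit 58) (nat_lit 5) (nat_lit 364) (nat_lit 308) (nat_lit 108)) (XT.lf (nat_lit 0) (nat_lit 3683777529) (nat_lit 304) (nat_lit 665658572) (nat_lit 76) (nat_lit 43317755238) (nat_lit 53) (nat_lit 5) (nat_lit 57) (nat_lit 5) (nat_lit 54) (nat_lit 5) (nat_lit 365) (nat_lit 308) (nat_lit 107)))))) (XT.nd (nat_lit 390) (nat_lit 760) (nat_lit 0) (XT.nd (nat_lit 156) (nat_lit 228) (nat_lit 0) (XT.nd (nat_lit 78) (nat_lit 0) (nat_lit 0) (XT.lf (nat_lit 0) (nat_lit 9883011618) (nat_lit 380) (nat_lit 30432131892) (nat_lit 76) (nat_lit 8375052983) (nat_lit 49) (nat_lit 5) (nat_lit 54) (nat_lit 5) (nat_lit 50) (nat_lit 5) (nat_lit 366) (nat_lit 308) (nat_lit 106)) (XT.lf (nat_lit 0) (nat_lit 16316081059) (nat_lit 380) (nat_lit 12026522438) (nat_lit 76) (nat_lit 21399855670)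 (nat_lit 49) (nat_lit 5) (nat_lit 54) (nat_lit 5) (nat_lit 50) (nat_lit 5) (nat_lit 367) (nat_lit 308) (nat_lit 105))) (XT.nd (nat_lit 78) (nat_lit 0) (nat_lit 0) (XT.lf (nat_lit 0) (nat_lit 7066381948) (nat_lit 228) (nat_lit 15941751300) (nat_lit 304) (nat_lit 27816179777) (nat_lit 46) (nat_lit 5) (nat_lit 49) (nat_lit 5) (nat_lit 50) (nat_lit 5) (nat_lit 368) (nat_lit 308) (nat_lit 104)) (XT.nd (nat_lit 78) (nat_lit 0) (nat_lit 0) (XT.lf (nat_lit 0) (nat_lit 26975868567) (nat_lit 228) (nat_lit 3044617081) (nat_lit 304) (nat_lit 21914553627) (nat_lit 46) (nat_lit 5) (nat_lit 49) (nat_lit 5) (nat_lit 50) (nat_lit 5) (nat_lit 369) (nat_lit 308) (nat_lit 103)) (XT.lf (nat_lit 0) (nat_lit 37339778395) (nat_lit 304) (nat_lit 5697582907) (nat_lit 76) (nat_lit 10038831768) (nat_lit 46) (nat_lit 5) (nat_lit 50) (nat_lit 5) (nat_lit 47) (nat_lit 5) (nat_lit 370) (nat_lit 308) (nat_lit 102))))) (XT.nd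 (nat_lit 234) (nat_lit 456) (nat_lit 0) (XT.nd (nat_lit 78) (nat_lit 76) (nat_lit 0) (XT.lf (nat_lit 0) (nat_lit 14389877302) (nat_lit 228) (nat_lit 30655437860) (nat_lit 304) (nat_lit 9201269127) (nat_lit 43) (nat_lit 5) (nat_lit 46) (nat_lit 5) (nat_lit 47) (nat_lit 5) (nat_lit 371) (nat_lit 308) (nat_lit 101)) (XT.nd (nat_lit 78) (nat_lit 76) (nat_lit 0) (XT.lf (nat_lit 0) (nat_lit 35194153118) (nat_lit 228) (nat_lit 17843623057) (nat_lit 304) (nat_lit 2412641012) (nat_lit 43) (nat_lit 5) (nat_lit 46) (nat_lit 5) (nat_lit 47) (nat_lit 5) (nat_lit 372) (nat_lit 308) (nat_lit 100)) (XT.lf (nat_lit 0) (nat_lit 4488536388) (nat_lit 304) (nat_lit 114394714) (nat_lit 76) (nat_lit 52086168155) (nat_lit 42) (nat_lit 5) (nat_lit 46) (nat_lit 5) (nat_lit 43) (nat_lit 5) (nat_lit 373) (nat_lit 308) (nat_lit 99)))) (XT.nd (nat_lit 78) (nat_lit 228) (nat_lit 0) (XT.lf (nat_lit 0) (nat_lit 11837656073)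 (nat_lit 304) (nat_lit 37031856461) (nat_lit 76) (nat_lit 9086033130) (nat_lit 39) (nat_lit 5) (nat_lit 43) (nat_lit 5) (nat_lit 40) (nat_lit 5) (nat_lit 374) (nat_lit 308) (nat_lit 98)) (XT.nd (nat_lit 78) (nat_lit 228) (nat_lit 0) (XT.lf (nat_lit 0) (nat_lit 19452314110) (nat_lit 304) (nat_lit 16712785342) (nat_lit 76) (nat_lit 23093536456) (nat_lit 39) (nat_lit 5) (nat_lit 43) (nat_lit 5) (nat_lit 40) (nat_lit 5) (nat_lit 375) (nat_lit 308) (nat_lit 97)) (XT.lf (nat_lit 0) (nat_lit 4297276218) (nat_lit 228) (nat_lit 23037817102) (nat_lit 304) (nat_lit 33264537412) (nat_lit 36) (nat_lit 5) (nat_lit 39) (nat_lit 5) (nat_lit 40) (nat_lit 5) (nat_lit 376) (nat_lit 308) (nat_lit 96))))))) (XT.nd (nat_lit 36114) (nat_lit 0) (nat_lit 7448) (XT.nd (nat_lit 35646) (nat_lit 0) (nat_lit 8816) (XT.nd (nat_lit 35412) (nat_lit 0) (nat_lit 8740) (XT.nd (nat_lit 35334) (nat_lit 0) (nat_lit 8740) (XT.lf (nat_lit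 0) (nat_lit 26277822203) (nat_lit 228) (nat_lit 9343697633) (nat_lit 304) (nat_lit 26354322899) (nat_lit 36) (nat_lit 5) (nat_lit 39) (nat_lit 5) (nat_lit 40) (nat_lit 5) (nat_lit 377) (nat_lit 308) (nat_lit 95)) (XT.lf (nat_lit 0) (nat_lit 3478087907) (nat_lit 1140) (nat_lit 2674060402) (nat_lit 1140) (nat_lit 2674060402) (nat_lit 151) (nat_lit 3) (nat_lit 166) (nat_lit 3) (nat_lit 166) (nat_lit 5) (nat_lit 309) (nat_lit 309) (nat_lit 162))) (XT.nd (nat_lit 78) (nat_lit 0) (nat_lit 76) (XT.lf (nat_lit 76) (nat_lit 2028657306) (nat_lit 0) (nat_lit 5243842077) (nat_lit 1140) (nat_lit 10637874689) (nat_lit 152) (nat_lit 5) (nat_lit 151) (nat_lit 3) (nat_lit 166) (nat_lit 5) (nat_lit 310) (nat_lit 309) (nat_lit 161)) (XT.nd (nat_lit 78) (nat_lit 0) (nat_lit 0) (XT.lf (nat_lit 0) (nat_lit 7664835949) (nat_lit 1064) (nat_lit 8462346861) (nat_lit 1140) (nat_lit 2046909262) (nat_lit 152) (nat_lit 5)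 (nat_lit 166) (nat_lit 5) (nat_lit 167) (nat_lit 5) (nat_lit 311) (nat_lit 309) (nat_lit 160)) (XT.lf (nat_lit 0) (nat_lit 8113565308) (nat_lit 1064) (nat_lit 876426175) (nat_lit 1140) (nat_lit 9454409263) (nat_lit 152) (nat_lit 5) (nat_lit 166) (nat_lit 5) (nat_lit 167) (nat_lit 5) (nat_lit 312) (nat_lit 309) (nat_lit 159))))) (XT.nd (nat_lit 234) (nat_lit 0) (nat_lit 152) (XT.nd (nat_lit 78) (nat_lit 0) (nat_lit 76) (XT.lf (nat_lit 76) (nat_lit 7071062686) (nat_lit 0) (nat_lit 1565581233) (nat_lit 1140) (nat_lit 10084365438) (nat_lit 153) (nat_lit 5) (nat_lit 152) (nat_lit 5) (nat_lit 167) (nat_lit 5) (nat_lit 313) (nat_lit 309) (nat_lit 158)) (XT.nd (nat_lit 78) (nat_lit 0) (nat_lit 0) (XT.lf (nat_lit 0) (nat_lit 9235925202) (nat_lit 1064) (nat_lit 3793460908) (nat_lit 1140) (nat_lit 5974731597) (nat_lit 153) (nat_lit 5) (nat_lit 167) (nat_lit 5) (nat_lit 168) (nat_lit 5) (nat_lit 314) (nat_lit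 309) (nat_lit 157)) (XT.lf (nat_lit 76) (nat_lit 4364299331) (nat_lit 0) (nat_lit 5539652126) (nat_lit 1140) (nat_lit 9390261160) (nat_lit 154) (nat_lit 5) (nat_lit 153) (nat_lit 5) (nat_lit 168) (nat_lit 5) (nat_lit 315) (nat_lit 309) (nat_lit 156)))) (XT.nd (nat_lit 78) (nat_lit 0) (nat_lit 0) (XT.lf (nat_lit 0) (nat_lit 10645102774) (nat_lit 1064) (nat_lit 6772869236) (nat_lit 1140) (nat_lit 2173461665) (nat_lit 154) (nat_lit 5) (nat_lit 168) (nat_lit 5) (nat_lit 169) (nat_lit 5) (nat_lit 316) (nat_lit 309) (nat_lit 155)) (XT.nd (nat_lit 78) (nat_lit 0) (nat_lit 0) (XT.lf (nat_lit 76) (nat_lit 1601128347) (nat_lit 0) (nat_lit 9871282094) (nat_lit 1140) (nat_lit 8423258637) (nat_lit 155) (nat_lit 5) (nat_lit 154) (nat_lit 5) (nat_lit 169) (nat_lit 5) (nat_lit 317) (nat_lit 309) (nat_lit 154)) (XT.lf (nat_lit 76) (nat_lit 10361070230) (nat_lit 0) (nat_lit 2025687017) (nat_lit 1140) (nat_lit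 7820422619) (nat_lit 155) (nat_lit 5) (nat_lit 154) (nat_lit 5) (nat_lit 169) (nat_lit 5) (nat_lit 318) (nat_lit 309) (nat_lit 153)))))) (XT.nd (nat_lit 468) (nat_lit 1596) (nat_lit 0) (XT.nd (nat_lit 234) (nat_lit 0) (nat_lit 76) (XT.nd (nat_lit 78) (nat_lit 0) (nat_lit 0) (XT.lf (nat_lit 0) (nat_lit 13380767696) (nat_lit 1064) (nat_lit 1206639144) (nat_lit 1140) (nat_lit 5939076626) (nat_lit 155) (nat_lit 5) (nat_lit 169) (nat_lit 5) (nat_lit 170) (nat_lit 5) (nat_lit 319) (nat_lit 309) (nat_lit 152)) (XT.nd (nat_lit 78) (nat_lit 0) (nat_lit 76) (XT.lf (nat_lit 76) (nat_lit 7820480908) (nat_lit 0) (nat_lit 6673549321) (nat_lit 1140) (nat_lit 6358667056) (nat_lit 156) (nat_lit 5) (nat_lit 155) (nat_lit 5) (nat_lit 170) (nat_lit 5) (nat_lit 320) (nat_lit 309) (nat_lit 151)) (XT.lf (nat_lit 0) (nat_lit 15661546653) (nat_lit 1064) (nat_lit 4063751255) (nat_lit 1140) (nat_lit 1462787583) (nat_lit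 156) (nat_lit 5) (nat_lit 170) (nat_lit 5) (nat_lit 171) (nat_lit 5) (nat_lit 321) (nat_lit 309) (nat_lit 150)))) (XT.nd (nat_lit 78) (nat_lit 0) (nat_lit 0) (XT.lf (nat_lit 76) (nat_lit 5205144449) (nat_lit 0) (nat_lit 11769564478) (nat_lit 1140) (nat_lit 4555521064) (nat_lit 157) (nat_lit 5) (nat_lit 156) (nat_lit 5) (nat_lit 171) (nat_lit 5) (nat_lit 322) (nat_lit 309) (nat_lit 149)) (XT.nd (nat_lit 78) (nat_lit 0) (nat_lit 76) (XT.lf (nat_lit 76) (nat_lit 14831330591) (nat_lit 0) (nat_lit 3531602652) (nat_lit 1140) (nat_lit 3518648437) (nat_lit 157) (nat_lit 5) (nat_lit 156) (nat_lit 5) (nat_lit 171) (nat_lit 5) (nat_lit 323) (nat_lit 309) (nat_lit 148)) (XT.lf (nat_lit 76) (nat_lit 2499852024) (nat_lit 0) (nat_lit 17359398081) (nat_lit 1140) (nat_lit 2382242935) (nat_lit 158) (nat_lit 5) (nat_lit 157) (nat_lit 5) (nat_lit 172) (nat_lit 5) (nat_lit 324) (nat_lit 309) (nat_lit 147))))) (XT.nd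 (nat_lit 234) (nat_lit 608) (nat_lit 0) (XT.nd (nat_lit 78) (nat_lit 1140) (nat_lit 0) (XT.lf (nat_lit 76) (nat_lit 12441218373) (nat_lit 0) (nat_lit 9059967073) (nat_lit 1140) (nat_lit 1108006558) (nat_lit 158) (nat_lit 5) (nat_lit 157) (nat_lit 5) (nat_lit 172) (nat_lit 5) (nat_lit 325) (nat_lit 309) (nat_lit 146)) (XT.nd (nat_lit 78) (nat_lit 0) (nat_lit 76) (XT.lf (nat_lit 0) (nat_lit 195466665) (nat_lit 1140) (nat_lit 313153938) (nat_lit 1216) (nat_lit 22479403825) (nat_lit 142) (nat_lit 5) (nat_lit 157) (nat_lit 5) (nat_lit 158) (nat_lit 5) (nat_lit 326) (nat_lit 309) (nat_lit 145)) (XT.lf (nat_lit 0) (nat_lit 1688065220) (nat_lit 1140) (nat_lit 13438157500) (nat_lit 76) (nat_lit 8246512366) (nat_lit 143) (nat_lit 5) (nat_lit 158) (nat_lit 5) (nat_lit 144) (nat_lit 5) (nat_lit 327) (nat_lit 309) (nat_lit 144)))) (XT.nd (nat_lit 78) (nat_lit 684) (nat_lit 0) (XT.lf (nat_lit 0) (nat_lit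 3228927664) (nat_lit 1140) (nat_lit 3281894322) (nat_lit 76) (nat_lit 17258071279) (nat_lit 143) (nat_lit 5) (nat_lit 158) (nat_lit 5) (nat_lit 144) (nat_lit 5) (nat_lit 328) (nat_lit 309) (nat_lit 143)) (XT.nd (nat_lit 78) (nat_lit 0) (nat_lit 0) (XT.lf (nat_lit 0) (nat_lit 4905172122) (nat_lit 760) (nat_lit 16880513177) (nat_lit 76) (nat_lit 2388586671) (nat_lit 134) (nat_lit 5) (nat_lit 144) (nat_lit 5) (nat_lit 135) (nat_lit 5) (nat_lit 329) (nat_lit 309) (nat_lit 142)) (XT.lf (nat_lit 0) (nat_lit 6725132802) (nat_lit 760) (nat_lit 6405740443) (nat_lit 76) (nat_lit 11458146083) (nat_lit 134) (nat_lit 5) (nat_lit 144) (nat_lit 5) (nat_lit 135) (nat_lit 5) (nat_lit 330) (nat_lit 309) (nat_lit 141))))))))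
noncomputable def xc225 : XT := (XT.nd (nat_lit 1716) (nat_lit 2660) (nat_lit 0) (XT.nd (nat_lit 858) (nat_lit 2052) (nat_lit 0) (XT.nd (nat_lit 390) (nat_lit 1444) (nat_lit 0) (XT.nd (nat_lit 156) (nat_lit 532) (nat_lit 0) (XT.nd (nat_lit 78) (nat_lit 0) (nat_lit 0) (XT.lf (nat_lit 0) (nat_lit 4466463290) (nat_lit 532) (nat_lit 4171791042) (nat_lit 608) (nat_lit 16376807779) (nat_lit 127) (nat_lit 5) (nat_lit 134) (nat_lit 5) (nat_lit 135) (nat_lit 5) (nat_lit 331) (nat_lit 309) (nat_lit 140)) (XT.lf (nat_lit 0) (nat_lit 10718417968) (nat_lit 608) (nat_lit 9709115014) (nat_lit 76) (nat_lit 5023073319) (nat_lit 127) (nat_lit 5) (nat_lit 135) (nat_lit 5) (nat_lit 128) (nat_lit 5) (nat_lit 332) (nat_lit 309) (nat_lit 139))) (XT.nd (nat_lit 78) (nat_lit 0) (nat_lit 0) (XT.lf (nat_lit 0) (nat_lit 1438363172) (nat_lit 532) (nat_lit 11473599885) (nat_lit 608) (nat_lit 12985733760) (nat_lit 120) (nat_lit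 5) (nat_lit 127) (nat_lit 5) (nat_lit 128) (nat_lit 5) (nat_lit 333) (nat_lit 309) (nat_lit 138)) (XT.nd (nat_lit 78) (nat_lit 0) (nat_lit 0) (XT.lf (nat_lit 0) (nat_lit 13115378879) (nat_lit 532) (nat_lit 2149907289) (nat_lit 608) (nat_lit 11090103759) (nat_lit 120) (nat_lit 5) (nat_lit 127) (nat_lit 5) (nat_lit 128) (nat_lit 5) (nat_lit 334) (nat_lit 309) (nat_lit 137)) (XT.lf (nat_lit 0) (nat_lit 17756905229) (nat_lit 608) (nat_lit 1759685311) (nat_lit 76) (nat_lit 7308201164) (nat_lit 120) (nat_lit 5) (nat_lit 128) (nat_lit 5) (nat_lit 121) (nat_lit 5) (nat_lit 335) (nat_lit 309) (nat_lit 136))))) (XT.nd (nat_lit 234) (nat_lit 532) (nat_lit 0) (XT.nd (nat_lit 78) (nat_lit 456) (nat_lit 0) (XT.lf (nat_lit 0) (nat_lit 10239764127) (nat_lit 456) (nat_lit 10199389602) (nat_lit 532) (nat_lit 6865653890) (nat_lit 114) (nat_lit 5) (nat_lit 120) (nat_lit 5) (nat_lit 121) (nat_lit 5) (nat_lit 336)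 (nat_lit 309) (nat_lit 135)) (XT.nd (nat_lit 78) (nat_lit 456) (nat_lit 0) (XT.lf (nat_lit 0) (nat_lit 22631491732) (nat_lit 456) (nat_lit 584386531) (nat_lit 532) (nat_lit 4582933752) (nat_lit 114) (nat_lit 5) (nat_lit 120) (nat_lit 5) (nat_lit 121) (nat_lit 5) (nat_lit 337) (nat_lit 309) (nat_lit 134)) (XT.lf (nat_lit 0) (nat_lit 7133163226) (nat_lit 456) (nat_lit 19097238797) (nat_lit 532) (nat_lit 2072607616) (nat_lit 108) (nat_lit 5) (nat_lit 114) (nat_lit 5) (nat_lit 115) (nat_lit 5) (nat_lit 338) (nat_lit 309) (nat_lit 133)))) (XT.nd (nat_lit 78) (nat_lit 456) (nat_lit 0) (XT.lf (nat_lit 0) (nat_lit 557875542) (nat_lit 532) (nat_lit 8927242852) (nat_lit 76) (nat_lit 19335428662) (nat_lit 107) (nat_lit 5) (nat_lit 114) (nat_lit 5) (nat_lit 108) (nat_lit 5) (nat_lit 339) (nat_lit 309) (nat_lit 132)) (XT.nd (nat_lit 78) (nat_lit 0) (nat_lit 0) (XT.lf (nat_lit 0) (nat_lit 3262513060) (nat_lit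 532) (nat_lit 25625369337) (nat_lit 76) (nat_lit 464012997) (nat_lit 101) (nat_lit 5) (nat_lit 108) (nat_lit 5) (nat_lit 102) (nat_lit 5) (nat_lit 340) (nat_lit 309) (nat_lit 131)) (XT.lf (nat_lit 0) (nat_lit 6229788282) (nat_lit 532) (nat_lit 13052164307) (nat_lit 76) (nat_lit 10611793760) (nat_lit 101) (nat_lit 5) (nat_lit 108) (nat_lit 5) (nat_lit 102) (nat_lit 5) (nat_lit 341) (nat_lit 309) (nat_lit 130)))))) (XT.nd (nat_lit 390) (nat_lit 1216) (nat_lit 0) (XT.nd (nat_lit 156) (nat_lit 380) (nat_lit 0) (XT.nd (nat_lit 78) (nat_lit 456) (nat_lit 0) (XT.lf (nat_lit 0) (nat_lit 9282728670) (nat_lit 532) (nat_lit 105440507) (nat_lit 76) (nat_lit 21063791168) (nat_lit 101) (nat_lit 5) (nat_lit 108) (nat_lit 5) (nat_lit 102) (nat_lit 5) (nat_lit 342) (nat_lit 309) (nat_lit 129)) (XT.lf (nat_lit 0) (nat_lit 12562663871) (nat_lit 532) (nat_lit 17542788997) (nat_lit 76) (nat_lit 917412412) (nat_lit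 95) (nat_lit 5) (nat_lit 102) (nat_lit 5) (nat_lit 96) (nat_lit 5) (nat_lit 343) (nat_lit 309) (nat_lit 128))) (XT.nd (nat_lit 78) (nat_lit 380) (nat_lit 0) (XT.lf (nat_lit 0) (nat_lit 16031826715) (nat_lit 532) (nat_lit 4232142481) (nat_lit 76) (nat_lit 11344209800) (nat_lit 95) (nat_lit 5) (nat_lit 102) (nat_lit 5) (nat_lit 96) (nat_lit 5) (nat_lit 344) (nat_lit 309) (nat_lit 127)) (XT.nd (nat_lit 78) (nat_lit 0) (nat_lit 0) (XT.lf (nat_lit 0) (nat_lit 9662851977) (nat_lit 380) (nat_lit 10031992985) (nat_lit 456) (nat_lit 12513520077) (nat_lit 90) (nat_lit 5) (nat_lit 95) (nat_lit 5) (nat_lit 96) (nat_lit 5) (nat_lit 345) (nat_lit 309) (nat_lit 126)) (XT.lf (nat_lit 0) (nat_lit 23512734102) (nat_lit 456) (nat_lit 8772706909) (nat_lit 76) (nat_lit 539772391) (nat_lit 90) (nat_lit 5) (nat_lit 96) (nat_lit 5) (nat_lit 91) (nat_lit 5) (nat_lit 346) (nat_lit 309) (nat_lit 125))))) (XT.nd (nat_lit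 234) (nat_lit 380) (nat_lit 0) (XT.nd (nat_lit 78) (nat_lit 456) (nat_lit 0) (XT.lf (nat_lit 0) (nat_lit 5416162892) (nat_lit 380) (nat_lit 22177423885) (nat_lit 456) (nat_lit 5862533599) (nat_lit 85) (nat_lit 5) (nat_lit 90) (nat_lit 5) (nat_lit 91) (nat_lit 5) (nat_lit 347) (nat_lit 309) (nat_lit 124)) (XT.nd (nat_lit 78) (nat_lit 456) (nat_lit 0) (XT.lf (nat_lit 0) (nat_lit 20207082102) (nat_lit 380) (nat_lit 11675459955) (nat_lit 456) (nat_lit 2220847985) (nat_lit 85) (nat_lit 5) (nat_lit 90) (nat_lit 5) (nat_lit 91) (nat_lit 5) (nat_lit 348) (nat_lit 309) (nat_lit 123)) (XT.lf (nat_lit 0) (nat_lit 666539032) (nat_lit 380) (nat_lit 837239971) (nat_lit 456) (nat_lit 33265756563) (nat_lit 79) (nat_lit 5) (nat_lit 84) (nat_lit 5) (nat_lit 85) (nat_lit 5) (nat_lit 349) (nat_lit 309) (nat_lit 122)))) (XT.nd (nat_lit 78) (nat_lit 380) (nat_lit 0) (XT.lf (nat_lit 0) (nat_lit 5533670320) (nat_lit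 456) (nat_lit 19626423717) (nat_lit 76) (nat_lit 10287772192) (nat_lit 79) (nat_lit 5) (nat_lit 85) (nat_lit 5) (nat_lit 80) (nat_lit 5) (nat_lit 350) (nat_lit 309) (nat_lit 121)) (XT.nd (nat_lit 78) (nat_lit 380) (nat_lit 0) (XT.lf (nat_lit 0) (nat_lit 9690016321) (nat_lit 456) (nat_lit 4727203538) (nat_lit 76) (nat_lit 21729165363) (nat_lit 79) (nat_lit 5) (nat_lit 85) (nat_lit 5) (nat_lit 80) (nat_lit 5) (nat_lit 351) (nat_lit 309) (nat_lit 120)) (XT.lf (nat_lit 0) (nat_lit 10827004658) (nat_lit 380) (nat_lit 3245471835) (nat_lit 456) (nat_lit 22790345576) (nat_lit 74) (nat_lit 5) (nat_lit 79) (nat_lit 5) (nat_lit 80) (nat_lit 5) (nat_lit 352) (nat_lit 309) (nat_lit 119))))))) (XT.nd (nat_lit 858) (nat_lit 1368) (nat_lit 0) (XT.nd (nat_lit 390) (nat_lit 684) (nat_lit 0) (XT.nd (nat_lit 156) (nat_lit 304) (nat_lit 0) (XT.nd (nat_lit 78) (nat_lit 304) (nat_lit 0) (XT.lf (nat_lit 0) (nat_lit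 18711420678) (nat_lit 456) (nat_lit 10737771833) (nat_lit 76) (nat_lit 8147814056) (nat_lit 74) (nat_lit 5) (nat_lit 80) (nat_lit 5) (nat_lit 75) (nat_lit 5) (nat_lit 353) (nat_lit 309) (nat_lit 118)) (XT.lf (nat_lit 0) (nat_lit 5083059375) (nat_lit 304) (nat_lit 18484932931) (nat_lit 380) (nat_lit 14782875232) (nat_lit 70) (nat_lit 5) (nat_lit 74) (nat_lit 5) (nat_lit 75) (nat_lit 5) (nat_lit 354) (nat_lit 309) (nat_lit 117))) (XT.nd (nat_lit 78) (nat_lit 304) (nat_lit 0) (XT.lf (nat_lit 0) (nat_lit 21595449649) (nat_lit 304) (nat_lit 7080749423) (nat_lit 380) (nat_lit 10447971700) (nat_lit 70) (nat_lit 5) (nat_lit 74) (nat_lit 5) (nat_lit 75) (nat_lit 5) (nat_lit 355) (nat_lit 309) (nat_lit 116)) (XT.nd (nat_lit 78) (nat_lit 304) (nat_lit 0) (XT.lf (nat_lit 0) (nat_lit 33980073988) (nat_lit 380) (nat_lit 1365467362) (nat_lit 76) (nat_lit 4573863536) (nat_lit 70) (nat_lit 5) (nat_lit 75) (nat_lit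 5) (nat_lit 71) (nat_lit 5) (nat_lit 356) (nat_lit 309) (nat_lit 115)) (XT.lf (nat_lit 0) (nat_lit 15512210984) (nat_lit 304) (nat_lit 24147717855) (nat_lit 380) (nat_lit 1072065584) (nat_lit 66) (nat_lit 5) (nat_lit 70) (nat_lit 5) (nat_lit 71) (nat_lit 5) (nat_lit 357) (nat_lit 309) (nat_lit 114))))) (XT.nd (nat_lit 234) (nat_lit 304) (nat_lit 0) (XT.nd (nat_lit 78) (nat_lit 304) (nat_lit 0) (XT.lf (nat_lit 0) (nat_lit 3875892192) (nat_lit 380) (nat_lit 8685445831) (nat_lit 76) (nat_lit 29006143671) (nat_lit 65) (nat_lit 5) (nat_lit 70) (nat_lit 5) (nat_lit 66) (nat_lit 5) (nat_lit 358) (nat_lit 309) (nat_lit 113)) (XT.nd (nat_lit 78) (nat_lit 0) (nat_lit 0) (XT.lf (nat_lit 0) (nat_lit 8497120363) (nat_lit 304) (nat_lit 533025442) (nat_lit 380) (nat_lit 33395191151) (nat_lit 61) (nat_lit 5) (nat_lit 65) (nat_lit 5) (nat_lit 66) (nat_lit 5) (nat_lit 359) (nat_lit 309) (nat_lit 112)) (XT.lf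 (nat_lit 0) (nat_lit 14539325576) (nat_lit 380) (nat_lit 17050957851) (nat_lit 76) (nat_lit 11712639322) (nat_lit 61) (nat_lit 5) (nat_lit 66) (nat_lit 5) (nat_lit 62) (nat_lit 5) (nat_lit 360) (nat_lit 309) (nat_lit 111)))) (XT.nd (nat_lit 78) (nat_lit 0) (nat_lit 0) (XT.lf (nat_lit 0) (nat_lit 330854612) (nat_lit 304) (nat_lit 19889205116) (nat_lit 380) (nat_lit 23986591738) (nat_lit 57) (nat_lit 5) (nat_lit 61) (nat_lit 5) (nat_lit 62) (nat_lit 5) (nat_lit 361) (nat_lit 309) (nat_lit 110)) (XT.nd (nat_lit 78) (nat_lit 0) (nat_lit 0) (XT.lf (nat_lit 0) (nat_lit 18580735491) (nat_lit 304) (nat_lit 7660518237) (nat_lit 380) (nat_lit 18891140792) (nat_lit 57) (nat_lit 5) (nat_lit 61) (nat_lit 5) (nat_lit 62) (nat_lit 5) (nat_lit 362) (nat_lit 309) (nat_lit 109)) (XT.lf (nat_lit 0) (nat_lit 32488433891) (nat_lit 380) (nat_lit 8758123340) (nat_lit 76) (nat_lit 4837995629) (nat_lit 57) (nat_lit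 5) (nat_lit 62) (nat_lit 5) (nat_lit 58) (nat_lit 5) (nat_lit 363) (nat_lit 309) (nat_lit 108)))))) (XT.nd (nat_lit 468) (nat_lit 532) (nat_lit 0) (XT.nd (nat_lit 234) (nat_lit 532) (nat_lit 0) (XT.nd (nat_lit 78) (nat_lit 76) (nat_lit 0) (XT.lf (nat_lit 0) (nat_lit 9679448974) (nat_lit 228) (nat_lit 29410444627) (nat_lit 304) (nat_lit 7970379830) (nat_lit 54) (nat_lit 5) (nat_lit 57) (nat_lit 5) (nat_lit 58) (nat_lit 5) (nat_lit 364) (nat_lit 309) (nat_lit 107)) (XT.nd (nat_lit 78) (nat_lit 76) (nat_lit 0) (XT.lf (nat_lit 0) (nat_lit 28846905245) (nat_lit 228) (nat_lit 17128936736) (nat_lit 304) (nat_lit 2086833595) (nat_lit 54) (nat_lit 5) (nat_lit 57) (nat_lit 5) (nat_lit 58) (nat_lit 5) (nat_lit 365) (nat_lit 309) (nat_lit 106)) (XT.lf (nat_lit 0) (nat_lit 3893728002) (nat_lit 304) (nat_lit 546694997) (nat_lit 76) (nat_lit 44653642888) (nat_lit 53) (nat_lit 5) (nat_lit 57) (nat_lit 5) (nat_lit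 54) (nat_lit 5) (nat_lit 366) (nat_lit 309) (nat_lit 105)))) (XT.nd (nat_lit 78) (nat_lit 228) (nat_lit 0) (XT.lf (nat_lit 0) (nat_lit 10277747001) (nat_lit 380) (nat_lit 31204816932) (nat_lit 76) (nat_lit 8665237630) (nat_lit 49) (nat_lit 5) (nat_lit 54) (nat_lit 5) (nat_lit 50) (nat_lit 5) (nat_lit 367) (nat_lit 309) (nat_lit 104)) (XT.nd (nat_lit 78) (nat_lit 228) (nat_lit 0) (XT.lf (nat_lit 0) (nat_lit 16900947020) (nat_lit 380) (nat_lit 12251124988) (nat_lit 76) (nat_lit 22079650425) (nat_lit 49) (nat_lit 5) (nat_lit 54) (nat_lit 5) (nat_lit 50) (nat_lit 5) (nat_lit 368) (nat_lit 309) (nat_lit 103)) (XT.lf (nat_lit 0) (nat_lit 7413231303) (nat_lit 228) (nat_lit 16379047647) (nat_lit 304) (nat_lit 28553801752) (nat_lit 46) (nat_lit 5) (nat_lit 49) (nat_lit 5) (nat_lit 50) (nat_lit 5) (nat_lit 369) (nat_lit 309) (nat_lit 102))))) (XT.nd (nat_lit 234) (nat_lit 304) (nat_lit 0) (XT.nd (nat_lit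 78) (nat_lit 228) (nat_lit 0) (XT.lf (nat_lit 0) (nat_lit 27916074621) (nat_lit 228) (nat_lit 3096192300) (nat_lit 304) (nat_lit 22477948082) (nat_lit 46) (nat_lit 5) (nat_lit 49) (nat_lit 5) (nat_lit 50) (nat_lit 5) (nat_lit 370) (nat_lit 309) (nat_lit 101)) (XT.nd (nat_lit 78) (nat_lit 228) (nat_lit 0) (XT.lf (nat_lit 0) (nat_lit 38548854205) (nat_lit 304) (nat_lit 5738973289) (nat_lit 76) (nat_lit 10377848535) (nat_lit 46) (nat_lit 5) (nat_lit 50) (nat_lit 5) (nat_lit 47) (nat_lit 5) (nat_lit 371) (nat_lit 309) (nat_lit 100)) (XT.lf (nat_lit 0) (nat_lit 14949840755) (nat_lit 228) (nat_lit 31534360493) (nat_lit 304) (nat_lit 9387022383) (nat_lit 43) (nat_lit 5) (nat_lit 46) (nat_lit 5) (nat_lit 47) (nat_lit 5) (nat_lit 372) (nat_lit 309) (nat_lit 99)))) (XT.nd (nat_lit 78) (nat_lit 304) (nat_lit 0) (XT.lf (nat_lit 0) (nat_lit 36374508909) (nat_lit 228) (nat_lit 18339377863) (nat_lit 304) (nat_lit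 2397365080) (nat_lit 43) (nat_lit 5) (nat_lit 46) (nat_lit 5) (nat_lit 47) (nat_lit 5) (nat_lit 373) (nat_lit 309) (nat_lit 98)) (XT.nd (nat_lit 78) (nat_lit 0) (nat_lit 0) (XT.lf (nat_lit 0) (nat_lit 4956030) (nat_lit 228) (nat_lit 4701725541) (nat_lit 304) (nat_lit 53680464838) (nat_lit 39) (nat_lit 5) (nat_lit 42) (nat_lit 5) (nat_lit 43) (nat_lit 5) (nat_lit 374) (nat_lit 309) (nat_lit 97)) (XT.lf (nat_lit 0) (nat_lit 12275342458) (nat_lit 304) (nat_lit 38019123905) (nat_lit 76) (nat_lit 9397151345) (nat_lit 39) (nat_lit 5) (nat_lit 43) (nat_lit 5) (nat_lit 40) (nat_lit 5) (nat_lit 375) (nat_lit 309) (nat_lit 96))))))))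
noncomputable def xc226 : XT := (XT.nd (nat_lit 37050) (nat_lit 0) (nat_lit 3268) (XT.nd (nat_lit 36192) (nat_lit 0) (nat_lit 8056) (XT.nd (nat_lit 35724) (nat_lit 0) (nat_lit 8816) (XT.nd (nat_lit 35490) (nat_lit 0) (nat_lit 8740) (XT.nd (nat_lit 78) (nat_lit 228) (nat_lit 0) (XT.lf (nat_lit 0) (nat_lit 20116035672) (nat_lit 304) (nat_lit 17094083223) (nat_lit 76) (nat_lit 23823757327) (nat_lit 39) (nat_lit 5) (nat_lit 43) (nat_lit 5) (nat_lit 40) (nat_lit 5) (nat_lit 376) (nat_lit 309) (nat_lit 95)) (XT.lf (nat_lit 0) (nat_lit 4545102873) (nat_lit 228) (nat_lit 23689003878) (nat_lit 304) (nat_lit 34181033212) (nat_lit 36) (nat_lit 5) (nat_lit 39) (nat_lit 5) (nat_lit 40) (nat_lit 5) (nat_lit 377) (nat_lit 309) (nat_lit 94))) (XT.nd (nat_lit 78) (nat_lit 0) (nat_lit 0) (XT.lf (nat_lit 0) (nat_lit 3773060544) (nat_lit 1140) (nat_lit 2655874932) (nat_lit 1140) (nat_lit 2655874932) (nat_lit 151)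 (nat_lit 3) (nat_lit 166) (nat_lit 3) (nat_lit 166) (nat_lit 5) (nat_lit 310) (nat_lit 310) (nat_lit 160)) (XT.nd (nat_lit 78) (nat_lit 0) (nat_lit 76) (XT.lf (nat_lit 76) (nat_lit 2284402035) (nat_lit 0) (nat_lit 5578301022) (nat_lit 1140) (nat_lit 10572917172) (nat_lit 152) (nat_lit 5) (nat_lit 151) (nat_lit 3) (nat_lit 166) (nat_lit 5) (nat_lit 311) (nat_lit 310) (nat_lit 159)) (XT.lf (nat_lit 0) (nat_lit 8254320716) (nat_lit 1064) (nat_lit 8513641648) (nat_lit 1140) (nat_lit 1939688412) (nat_lit 152) (nat_lit 5) (nat_lit 166) (nat_lit 5) (nat_lit 167) (nat_lit 5) (nat_lit 312) (nat_lit 310) (nat_lit 158))))) (XT.nd (nat_lit 234) (nat_lit 0) (nat_lit 76) (XT.nd (nat_lit 78) (nat_lit 0) (nat_lit 0) (XT.lf (nat_lit 0) (nat_lit 8706039926) (nat_lit 1064) (nat_lit 706043601) (nat_lit 1140) (nat_lit 9574324912) (nat_lit 152) (nat_lit 5) (nat_lit 166) (nat_lit 5) (nat_lit 167) (nat_lit 5) (nat_lit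 313) (nat_lit 310) (nat_lit 157)) (XT.nd (nat_lit 78) (nat_lit 0) (nat_lit 76) (XT.lf (nat_lit 76) (nat_lit 7477941735) (nat_lit 0) (nat_lit 1758574169) (nat_lit 1140) (nat_lit 10035073077) (nat_lit 153) (nat_lit 5) (nat_lit 152) (nat_lit 5) (nat_lit 167) (nat_lit 5) (nat_lit 314) (nat_lit 310) (nat_lit 156)) (XT.lf (nat_lit 0) (nat_lit 9842487407) (nat_lit 1064) (nat_lit 3706098220) (nat_lit 1140) (nat_lit 6014967704) (nat_lit 153) (nat_lit 5) (nat_lit 167) (nat_lit 5) (nat_lit 168) (nat_lit 5) (nat_lit 315) (nat_lit 310) (nat_lit 155)))) (XT.nd (nat_lit 78) (nat_lit 0) (nat_lit 76) (XT.lf (nat_lit 76) (nat_lit 4694422605) (nat_lit 0) (nat_lit 5828449987) (nat_lit 1140) (nat_lit 9339732352) (nat_lit 154) (nat_lit 5) (nat_lit 153) (nat_lit 5) (nat_lit 168) (nat_lit 5) (nat_lit 316) (nat_lit 310) (nat_lit 154)) (XT.nd (nat_lit 78) (nat_lit 0) (nat_lit 0) (XT.lf (nat_lit 0) (nat_lit 11275741300)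 (nat_lit 1064) (nat_lit 6771388389) (nat_lit 1140) (nat_lit 2121951177) (nat_lit 154) (nat_lit 5) (nat_lit 168) (nat_lit 5) (nat_lit 169) (nat_lit 5) (nat_lit 317) (nat_lit 310) (nat_lit 153)) (XT.lf (nat_lit 76) (nat_lit 1851822583) (nat_lit 0) (nat_lit 10268927143) (nat_lit 1140) (nat_lit 8361929214) (nat_lit 155) (nat_lit 5) (nat_lit 154) (nat_lit 5) (nat_lit 169) (nat_lit 5) (nat_lit 318) (nat_lit 310) (nat_lit 152)))))) (XT.nd (nat_lit 390) (nat_lit 912) (nat_lit 0) (XT.nd (nat_lit 156) (nat_lit 0) (nat_lit 76) (XT.nd (nat_lit 78) (nat_lit 0) (nat_lit 76) (XT.lf (nat_lit 76) (nat_lit 10868659993) (nat_lit 0) (nat_lit 2185007711) (nat_lit 1140) (nat_lit 7750154539) (nat_lit 155) (nat_lit 5) (nat_lit 154) (nat_lit 5) (nat_lit 169) (nat_lit 5) (nat_lit 319) (nat_lit 310) (nat_lit 151)) (XT.lf (nat_lit 0) (nat_lit 14067977539) (nat_lit 1064) (nat_lit 1041597543) (nat_lit 1140) (nat_lit 6023436288)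 (nat_lit 155) (nat_lit 5) (nat_lit 169) (nat_lit 5) (nat_lit 170) (nat_lit 5) (nat_lit 320) (nat_lit 310) (nat_lit 150))) (XT.nd (nat_lit 78) (nat_lit 0) (nat_lit 76) (XT.lf (nat_lit 76) (nat_lit 8254363162) (nat_lit 0) (nat_lit 6953866382) (nat_lit 1140) (nat_lit 6260994494) (nat_lit 156) (nat_lit 5) (nat_lit 155) (nat_lit 5) (nat_lit 170) (nat_lit 5) (nat_lit 321) (nat_lit 310) (nat_lit 149)) (XT.nd (nat_lit 78) (nat_lit 0) (nat_lit 0) (XT.lf (nat_lit 0) (nat_lit 16401886583) (nat_lit 1064) (nat_lit 3982661790) (nat_lit 1140) (nat_lit 1430411662) (nat_lit 156) (nat_lit 5) (nat_lit 170) (nat_lit 5) (nat_lit 171) (nat_lit 5) (nat_lit 322) (nat_lit 310) (nat_lit 148)) (XT.lf (nat_lit 76) (nat_lit 5562310570) (nat_lit 0) (nat_lit 12186186951) (nat_lit 1140) (nat_lit 4419068759) (nat_lit 157) (nat_lit 5) (nat_lit 156) (nat_lit 5) (nat_lit 171) (nat_lit 5) (nat_lit 323) (nat_lit 310) (nat_lit 147)))))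 (XT.nd (nat_lit 234) (nat_lit 1064) (nat_lit 0) (XT.nd (nat_lit 78) (nat_lit 0) (nat_lit 76) (XT.lf (nat_lit 76) (nat_lit 15471427584) (nat_lit 0) (nat_lit 3699235720) (nat_lit 1140) (nat_lit 3359044845) (nat_lit 157) (nat_lit 5) (nat_lit 156) (nat_lit 5) (nat_lit 171) (nat_lit 5) (nat_lit 324) (nat_lit 310) (nat_lit 146)) (XT.nd (nat_lit 78) (nat_lit 0) (nat_lit 0) (XT.lf (nat_lit 76) (nat_lit 2776917899) (nat_lit 0) (nat_lit 17928837677) (nat_lit 1140) (nat_lit 2194862631) (nat_lit 158) (nat_lit 5) (nat_lit 157) (nat_lit 5) (nat_lit 172) (nat_lit 5) (nat_lit 325) (nat_lit 310) (nat_lit 145)) (XT.lf (nat_lit 76) (nat_lit 13010639695) (nat_lit 0) (nat_lit 9379006526) (nat_lit 1140) (nat_lit 889938413) (nat_lit 158) (nat_lit 5) (nat_lit 157) (nat_lit 5) (nat_lit 172) (nat_lit 5) (nat_lit 326) (nat_lit 310) (nat_lit 144)))) (XT.nd (nat_lit 78) (nat_lit 0) (nat_lit 76) (XT.lf (nat_lit 0) (nat_lit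 440558248) (nat_lit 1140) (nat_lit 126769748) (nat_lit 1216) (nat_lit 23102613278) (nat_lit 142) (nat_lit 5) (nat_lit 157) (nat_lit 5) (nat_lit 158) (nat_lit 5) (nat_lit 327) (nat_lit 310) (nat_lit 143)) (XT.nd (nat_lit 78) (nat_lit 0) (nat_lit 0) (XT.lf (nat_lit 0) (nat_lit 1972443420) (nat_lit 1140) (nat_lit 13639500954) (nat_lit 76) (nat_lit 8454429553) (nat_lit 143) (nat_lit 5) (nat_lit 158) (nat_lit 5) (nat_lit 144) (nat_lit 5) (nat_lit 328) (nat_lit 310) (nat_lit 142)) (XT.lf (nat_lit 0) (nat_lit 3552723886) (nat_lit 1140) (nat_lit 3184427587) (nat_lit 76) (nat_lit 17737485083) (nat_lit 143) (nat_lit 5) (nat_lit 158) (nat_lit 5) (nat_lit 144) (nat_lit 5) (nat_lit 329) (nat_lit 310) (nat_lit 141))))))) (XT.nd (nat_lit 858) (nat_lit 2128) (nat_lit 0) (XT.nd (nat_lit 390) (nat_lit 988) (nat_lit 0) (XT.nd (nat_lit 156) (nat_lit 1064) (nat_lit 0) (XT.nd (nat_lit 78) (nat_lit 0) (nat_lit 0)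 (XT.lf (nat_lit 0) (nat_lit 5274240093) (nat_lit 760) (nat_lit 17185488788) (nat_lit 76) (nat_lit 2432613228) (nat_lit 134) (nat_lit 5) (nat_lit 144) (nat_lit 5) (nat_lit 135) (nat_lit 5) (nat_lit 330) (nat_lit 310) (nat_lit 140)) (XT.lf (nat_lit 0) (nat_lit 7142336114) (nat_lit 760) (nat_lit 6402340050) (nat_lit 76) (nat_lit 11775064210) (nat_lit 134) (nat_lit 5) (nat_lit 144) (nat_lit 5) (nat_lit 135) (nat_lit 5) (nat_lit 331) (nat_lit 310) (nat_lit 139))) (XT.nd (nat_lit 78) (nat_lit 532) (nat_lit 0) (XT.lf (nat_lit 0) (nat_lit 4794112417) (nat_lit 532) (nat_lit 4314325183) (nat_lit 608) (nat_lit 16650273409) (nat_lit 127) (nat_lit 5) (nat_lit 134) (nat_lit 5) (nat_lit 135) (nat_lit 5) (nat_lit 332) (nat_lit 310) (nat_lit 138)) (XT.nd (nat_lit 78) (nat_lit 532) (nat_lit 0) (XT.lf (nat_lit 0) (nat_lit 11244697270) (nat_lit 608) (nat_lit 9805606653) (nat_lit 76) (nat_lit 5157220611) (nat_lit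 127) (nat_lit 5) (nat_lit 135) (nat_lit 5) (nat_lit 128) (nat_lit 5) (nat_lit 333) (nat_lit 310) (nat_lit 137)) (XT.lf (nat_lit 0) (nat_lit 1674386253) (nat_lit 532) (nat_lit 11825553549) (nat_lit 608) (nat_lit 13168224576) (nat_lit 120) (nat_lit 5) (nat_lit 127) (nat_lit 5) (nat_lit 128) (nat_lit 5) (nat_lit 334) (nat_lit 310) (nat_lit 136))))) (XT.nd (nat_lit 234) (nat_lit 532) (nat_lit 0) (XT.nd (nat_lit 78) (nat_lit 456) (nat_lit 0) (XT.lf (nat_lit 0) (nat_lit 13696094794) (nat_lit 532) (nat_lit 2221924573) (nat_lit 608) (nat_lit 11221757166) (nat_lit 120) (nat_lit 5) (nat_lit 127) (nat_lit 5) (nat_lit 128) (nat_lit 5) (nat_lit 335) (nat_lit 310) (nat_lit 135)) (XT.nd (nat_lit 78) (nat_lit 456) (nat_lit 0) (XT.lf (nat_lit 0) (nat_lit 18478643772) (nat_lit 608) (nat_lit 1624512834) (nat_lit 76) (nat_lit 7520288634) (nat_lit 120) (nat_lit 5) (nat_lit 128) (nat_lit 5) (nat_lit 121) (nat_lit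 5) (nat_lit 336) (nat_lit 310) (nat_lit 134)) (XT.lf (nat_lit 0) (nat_lit 10733077313) (nat_lit 456) (nat_lit 10504565748) (nat_lit 532) (nat_lit 6880342284) (nat_lit 114) (nat_lit 5) (nat_lit 120) (nat_lit 5) (nat_lit 121) (nat_lit 5) (nat_lit 337) (nat_lit 310) (nat_lit 133)))) (XT.nd (nat_lit 78) (nat_lit 532) (nat_lit 0) (XT.lf (nat_lit 0) (nat_lit 23491135768) (nat_lit 456) (nat_lit 601136046) (nat_lit 532) (nat_lit 4534711840) (nat_lit 114) (nat_lit 5) (nat_lit 120) (nat_lit 5) (nat_lit 121) (nat_lit 5) (nat_lit 338) (nat_lit 310) (nat_lit 132)) (XT.nd (nat_lit 78) (nat_lit 76) (nat_lit 0) (XT.lf (nat_lit 0) (nat_lit 7531814332) (nat_lit 456) (nat_lit 19661958975) (nat_lit 532) (nat_lit 1952649149) (nat_lit 108) (nat_lit 5) (nat_lit 114) (nat_lit 5) (nat_lit 115) (nat_lit 5) (nat_lit 339) (nat_lit 310) (nat_lit 131)) (XT.lf (nat_lit 0) (nat_lit 747992928) (nat_lit 532) (nat_lit 9011969971)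 (nat_lit 76) (nat_lit 19919637466) (nat_lit 107) (nat_lit 5) (nat_lit 114) (nat_lit 5) (nat_lit 108) (nat_lit 5) (nat_lit 340) (nat_lit 310) (nat_lit 130)))))) (XT.nd (nat_lit 468) (nat_lit 836) (nat_lit 0) (XT.nd (nat_lit 234) (nat_lit 380) (nat_lit 0) (XT.nd (nat_lit 78) (nat_lit 456) (nat_lit 0) (XT.lf (nat_lit 0) (nat_lit 3530570221) (nat_lit 532) (nat_lit 26207489765) (nat_lit 76) (nat_lit 488935681) (nat_lit 101) (nat_lit 5) (nat_lit 108) (nat_lit 5) (nat_lit 102) (nat_lit 5) (nat_lit 341) (nat_lit 310) (nat_lit 129)) (XT.nd (nat_lit 78) (nat_lit 456) (nat_lit 0) (XT.lf (nat_lit 0) (nat_lit 6581906949) (nat_lit 532) (nat_lit 13262524719) (nat_lit 76) (nat_lit 10940829412) (nat_lit 101) (nat_lit 5) (nat_lit 108) (nat_lit 5) (nat_lit 102) (nat_lit 5) (nat_lit 342) (nat_lit 310) (nat_lit 128)) (XT.lf (nat_lit 0) (nat_lit 68662852) (nat_lit 456) (nat_lit 9653620347) (nat_lit 532) (nat_lit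 21638072798) (nat_lit 95) (nat_lit 5) (nat_lit 101) (nat_lit 5) (nat_lit 102) (nat_lit 5) (nat_lit 343) (nat_lit 310) (nat_lit 127)))) (XT.nd (nat_lit 78) (nat_lit 380) (nat_lit 0) (XT.lf (nat_lit 0) (nat_lit 13097120117) (nat_lit 532) (nat_lit 17889988302) (nat_lit 76) (nat_lit 961394191) (nat_lit 95) (nat_lit 5) (nat_lit 102) (nat_lit 5) (nat_lit 96) (nat_lit 5) (nat_lit 344) (nat_lit 310) (nat_lit 126)) (XT.nd (nat_lit 78) (nat_lit 380) (nat_lit 0) (XT.lf (nat_lit 0) (nat_lit 16665768244) (nat_lit 532) (nat_lit 4185238439) (nat_lit 76) (nat_lit 11700516101) (nat_lit 95) (nat_lit 5) (nat_lit 102) (nat_lit 5) (nat_lit 96) (nat_lit 5) (nat_lit 345) (nat_lit 310) (nat_lit 125)) (XT.lf (nat_lit 0) (nat_lit 10124901261) (nat_lit 380) (nat_lit 10310974797) (nat_lit 456) (nat_lit 12733931468) (nat_lit 90) (nat_lit 5) (nat_lit 95) (nat_lit 5) (nat_lit 96) (nat_lit 5) (nat_lit 346) (nat_lit 310) (nat_lit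 124))))) (XT.nd (nat_lit 234) (nat_lit 456) (nat_lit 0) (XT.nd (nat_lit 78) (nat_lit 380) (nat_lit 0) (XT.lf (nat_lit 0) (nat_lit 24364132641) (nat_lit 456) (nat_lit 8864275569) (nat_lit 76) (nat_lit 576887027) (nat_lit 90) (nat_lit 5) (nat_lit 96) (nat_lit 5) (nat_lit 91) (nat_lit 5) (nat_lit 347) (nat_lit 310) (nat_lit 123)) (XT.nd (nat_lit 78) (nat_lit 0) (nat_lit 0) (XT.lf (nat_lit 0) (nat_lit 5748577850) (nat_lit 380) (nat_lit 22816213610) (nat_lit 456) (nat_lit 5890425109) (nat_lit 85) (nat_lit 5) (nat_lit 90) (nat_lit 5) (nat_lit 91) (nat_lit 5) (nat_lit 348) (nat_lit 310) (nat_lit 122)) (XT.lf (nat_lit 0) (nat_lit 20978275217) (nat_lit 380) (nat_lit 11999963568) (nat_lit 456) (nat_lit 2143799155) (nat_lit 85) (nat_lit 5) (nat_lit 90) (nat_lit 5) (nat_lit 91) (nat_lit 5) (nat_lit 349) (nat_lit 310) (nat_lit 121)))) (XT.nd (nat_lit 78) (nat_lit 0) (nat_lit 0) (XT.lf (nat_lit 0) (nat_lit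 852940992) (nat_lit 380) (nat_lit 834318614) (nat_lit 456) (nat_lit 34120949732) (nat_lit 79) (nat_lit 5) (nat_lit 84) (nat_lit 5) (nat_lit 85) (nat_lit 5) (nat_lit 350) (nat_lit 310) (nat_lit 120)) (XT.nd (nat_lit 78) (nat_lit 0) (nat_lit 0) (XT.lf (nat_lit 0) (nat_lit 5834279222) (nat_lit 456) (nat_lit 20049635303) (nat_lit 76) (nat_lit 10623096060) (nat_lit 79) (nat_lit 5) (nat_lit 85) (nat_lit 5) (nat_lit 80) (nat_lit 5) (nat_lit 351) (nat_lit 310) (nat_lit 119)) (XT.lf (nat_lit 0) (nat_lit 10111395250) (nat_lit 456) (nat_lit 4708261270) (nat_lit 76) (nat_lit 22406953627) (nat_lit 79) (nat_lit 5) (nat_lit 85) (nat_lit 5) (nat_lit 80) (nat_lit 5) (nat_lit 352) (nat_lit 310) (nat_lit 118))))))))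
noncomputable def xc227 : XT := (XT.nd (nat_lit 1716) (nat_lit 304) (nat_lit 0) (XT.nd (nat_lit 858) (nat_lit 1064) (nat_lit 0) (XT.nd (nat_lit 390) (nat_lit 988) (nat_lit 0) (XT.nd (nat_lit 156) (nat_lit 304) (nat_lit 0) (XT.nd (nat_lit 78) (nat_lit 0) (nat_lit 0) (XT.lf (nat_lit 0) (nat_lit 11310997111) (nat_lit 380) (nat_lit 3312056106) (nat_lit 456) (nat_lit 23341562335) (nat_lit 74) (nat_lit 5) (nat_lit 79) (nat_lit 5) (nat_lit 80) (nat_lit 5) (nat_lit 353) (nat_lit 310) (nat_lit 117)) (XT.lf (nat_lit 0) (nat_lit 19397713108) (nat_lit 456) (nat_lit 10901674293) (nat_lit 76) (nat_lit 8421548727) (nat_lit 74) (nat_lit 5) (nat_lit 80) (nat_lit 5) (nat_lit 75) (nat_lit 5) (nat_lit 354) (nat_lit 310) (nat_lit 116))) (XT.nd (nat_lit 78) (nat_lit 0) (nat_lit 0) (XT.lf (nat_lit 0) (nat_lit 5392230570) (nat_lit 304) (nat_lit 19005618098) (nat_lit 380) (nat_lit 15099635018) (nat_lit 70) (nat_lit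 5) (nat_lit 74) (nat_lit 5) (nat_lit 75) (nat_lit 5) (nat_lit 355) (nat_lit 310) (nat_lit 115)) (XT.nd (nat_lit 78) (nat_lit 0) (nat_lit 0) (XT.lf (nat_lit 0) (nat_lit 22395429075) (nat_lit 304) (nat_lit 7260295381) (nat_lit 380) (nat_lit 10638375441) (nat_lit 70) (nat_lit 5) (nat_lit 74) (nat_lit 5) (nat_lit 75) (nat_lit 5) (nat_lit 356) (nat_lit 310) (nat_lit 114)) (XT.lf (nat_lit 0) (nat_lit 35115549450) (nat_lit 380) (nat_lit 1255367397) (nat_lit 76) (nat_lit 4742375545) (nat_lit 70) (nat_lit 5) (nat_lit 75) (nat_lit 5) (nat_lit 71) (nat_lit 5) (nat_lit 357) (nat_lit 310) (nat_lit 113))))) (XT.nd (nat_lit 234) (nat_lit 304) (nat_lit 0) (XT.nd (nat_lit 78) (nat_lit 380) (nat_lit 0) (XT.lf (nat_lit 0) (nat_lit 16127160281) (nat_lit 304) (nat_lit 24836696776) (nat_lit 380) (nat_lit 986467034) (nat_lit 66) (nat_lit 5) (nat_lit 70) (nat_lit 5) (nat_lit 71) (nat_lit 5) (nat_lit 358) (nat_lit 310)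 (nat_lit 112)) (XT.nd (nat_lit 78) (nat_lit 304) (nat_lit 0) (XT.lf (nat_lit 0) (nat_lit 4104268555) (nat_lit 380) (nat_lit 8798357608) (nat_lit 76) (nat_lit 29908322578) (nat_lit 65) (nat_lit 5) (nat_lit 70) (nat_lit 5) (nat_lit 66) (nat_lit 5) (nat_lit 359) (nat_lit 310) (nat_lit 111)) (XT.lf (nat_lit 0) (nat_lit 8898238007) (nat_lit 304) (nat_lit 513052135) (nat_lit 380) (nat_lit 34283310970) (nat_lit 61) (nat_lit 5) (nat_lit 65) (nat_lit 5) (nat_lit 66) (nat_lit 5) (nat_lit 360) (nat_lit 310) (nat_lit 110)))) (XT.nd (nat_lit 78) (nat_lit 304) (nat_lit 0) (XT.lf (nat_lit 0) (nat_lit 15082870074) (nat_lit 380) (nat_lit 17417482434) (nat_lit 76) (nat_lit 12098253726) (nat_lit 61) (nat_lit 5) (nat_lit 66) (nat_lit 5) (nat_lit 62) (nat_lit 5) (nat_lit 361) (nat_lit 310) (nat_lit 109)) (XT.nd (nat_lit 78) (nat_lit 0) (nat_lit 0) (XT.lf (nat_lit 0) (nat_lit 484362793) (nat_lit 304) (nat_lit 20447916532)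 (nat_lit 380) (nat_lit 24597225233) (nat_lit 57) (nat_lit 5) (nat_lit 61) (nat_lit 5) (nat_lit 62) (nat_lit 5) (nat_lit 362) (nat_lit 310) (nat_lit 108)) (XT.lf (nat_lit 0) (nat_lit 19277558083) (nat_lit 304) (nat_lit 7853474816) (nat_lit 380) (nat_lit 19352084474) (nat_lit 57) (nat_lit 5) (nat_lit 61) (nat_lit 5) (nat_lit 62) (nat_lit 5) (nat_lit 363) (nat_lit 310) (nat_lit 107)))))) (XT.nd (nat_lit 390) (nat_lit 456) (nat_lit 0) (XT.nd (nat_lit 156) (nat_lit 380) (nat_lit 0) (XT.nd (nat_lit 78) (nat_lit 228) (nat_lit 0) (XT.lf (nat_lit 0) (nat_lit 33562985811) (nat_lit 380) (nat_lit 8882716362) (nat_lit 76) (nat_lit 5018222602) (nat_lit 57) (nat_lit 5) (nat_lit 62) (nat_lit 5) (nat_lit 58) (nat_lit 5) (nat_lit 364) (nat_lit 310) (nat_lit 106)) (XT.lf (nat_lit 0) (nat_lit 10106628703) (nat_lit 228) (nat_lit 30254265901) (nat_lit 304) (nat_lit 8108075084) (nat_lit 54) (nat_lit 5) (nat_lit 57)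 (nat_lit 5) (nat_lit 58) (nat_lit 5) (nat_lit 365) (nat_lit 310) (nat_lit 105))) (XT.nd (nat_lit 78) (nat_lit 380) (nat_lit 0) (XT.lf (nat_lit 0) (nat_lit 29845124305) (nat_lit 228) (nat_lit 17605433902) (nat_lit 304) (nat_lit 2050976330) (nat_lit 54) (nat_lit 5) (nat_lit 57) (nat_lit 5) (nat_lit 58) (nat_lit 5) (nat_lit 366) (nat_lit 310) (nat_lit 104)) (XT.nd (nat_lit 78) (nat_lit 304) (nat_lit 0) (XT.lf (nat_lit 0) (nat_lit 4104268890) (nat_lit 304) (nat_lit 432137857) (nat_lit 76) (nat_lit 46027520242) (nat_lit 53) (nat_lit 5) (nat_lit 57) (nat_lit 5) (nat_lit 54) (nat_lit 5) (nat_lit 367) (nat_lit 310) (nat_lit 103)) (XT.lf (nat_lit 0) (nat_lit 10678684779) (nat_lit 380) (nat_lit 32008735107) (nat_lit 76) (nat_lit 8961892900) (nat_lit 49) (nat_lit 5) (nat_lit 54) (nat_lit 5) (nat_lit 50) (nat_lit 5) (nat_lit 368) (nat_lit 310) (nat_lit 102))))) (XT.nd (nat_lit 234) (nat_lit 228) (nat_lit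 0) (XT.nd (nat_lit 78) (nat_lit 228) (nat_lit 0) (XT.lf (nat_lit 0) (nat_lit 17497883555) (nat_lit 380) (nat_lit 12490283657) (nat_lit 76) (nat_lit 22777669201) (nat_lit 49) (nat_lit 5) (nat_lit 54) (nat_lit 5) (nat_lit 50) (nat_lit 5) (nat_lit 369) (nat_lit 310) (nat_lit 101)) (XT.nd (nat_lit 78) (nat_lit 0) (nat_lit 0) (XT.lf (nat_lit 0) (nat_lit 7762744743) (nat_lit 228) (nat_lit 16831813937) (nat_lit 304) (nat_lit 29319112742) (nat_lit 46) (nat_lit 5) (nat_lit 49) (nat_lit 5) (nat_lit 50) (nat_lit 5) (nat_lit 370) (nat_lit 310) (nat_lit 100)) (XT.lf (nat_lit 0) (nat_lit 28876970939) (nat_lit 228) (nat_lit 3151597352) (nat_lit 304) (nat_lit 23063642774) (nat_lit 46) (nat_lit 5) (nat_lit 49) (nat_lit 5) (nat_lit 50) (nat_lit 5) (nat_lit 371) (nat_lit 310) (nat_lit 99)))) (XT.nd (nat_lit 78) (nat_lit 228) (nat_lit 0) (XT.lf (nat_lit 0) (nat_lit 39789100074) (nat_lit 304) (nat_lit 5789041343)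 (nat_lit 76) (nat_lit 10724862955) (nat_lit 46) (nat_lit 5) (nat_lit 50) (nat_lit 5) (nat_lit 47) (nat_lit 5) (nat_lit 372) (nat_lit 310) (nat_lit 98)) (XT.nd (nat_lit 78) (nat_lit 0) (nat_lit 0) (XT.lf (nat_lit 0) (nat_lit 15519240053) (nat_lit 228) (nat_lit 32441989478) (nat_lit 304) (nat_lit 9583530955) (nat_lit 43) (nat_lit 5) (nat_lit 46) (nat_lit 5) (nat_lit 47) (nat_lit 5) (nat_lit 373) (nat_lit 310) (nat_lit 97)) (XT.lf (nat_lit 0) (nat_lit 37583126774) (nat_lit 228) (nat_lit 18852275868) (nat_lit 304) (nat_lit 2386662634) (nat_lit 43) (nat_lit 5) (nat_lit 46) (nat_lit 5) (nat_lit 47) (nat_lit 5) (nat_lit 374) (nat_lit 310) (nat_lit 96))))))) (XT.nd (nat_lit 36348) (nat_lit 0) (nat_lit 7220) (XT.nd (nat_lit 35880) (nat_lit 0) (nat_lit 8588) (XT.nd (nat_lit 35646) (nat_lit 0) (nat_lit 8512) (XT.nd (nat_lit 78) (nat_lit 0) (nat_lit 0) (XT.lf (nat_lit 0) (nat_lit 123049444) (nat_lit 228)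 (nat_lit 4804617902) (nat_lit 304) (nat_lit 55208585698) (nat_lit 39) (nat_lit 5) (nat_lit 42) (nat_lit 5) (nat_lit 43) (nat_lit 5) (nat_lit 375) (nat_lit 310) (nat_lit 95)) (XT.lf (nat_lit 0) (nat_lit 12721420343) (nat_lit 304) (nat_lit 39043109584) (nat_lit 76) (nat_lit 9715390912) (nat_lit 39) (nat_lit 5) (nat_lit 43) (nat_lit 5) (nat_lit 40) (nat_lit 5) (nat_lit 376) (nat_lit 310) (nat_lit 94))) (XT.nd (nat_lit 78) (nat_lit 0) (nat_lit 0) (XT.lf (nat_lit 0) (nat_lit 4065939418) (nat_lit 1140) (nat_lit 2642792878) (nat_lit 1140) (nat_lit 2642792878) (nat_lit 151) (nat_lit 3) (nat_lit 166) (nat_lit 3) (nat_lit 166) (nat_lit 5) (nat_lit 311) (nat_lit 311) (nat_lit 158)) (XT.nd (nat_lit 78) (nat_lit 0) (nat_lit 76) (XT.lf (nat_lit 76) (nat_lit 2536631910) (nat_lit 0) (nat_lit 5912624964) (nat_lit 1140) (nat_lit 10528059483) (nat_lit 152) (nat_lit 5) (nat_lit 151) (nat_lit 3) (nat_lit 166) (nat_lit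 5) (nat_lit 312) (nat_lit 311) (nat_lit 157)) (XT.lf (nat_lit 0) (nat_lit 8840850977) (nat_lit 1064) (nat_lit 8578103947) (nat_lit 1140) (nat_lit 1838930881) (nat_lit 152) (nat_lit 5) (nat_lit 166) (nat_lit 5) (nat_lit 167) (nat_lit 5) (nat_lit 313) (nat_lit 311) (nat_lit 156))))) (XT.nd (nat_lit 234) (nat_lit 0) (nat_lit 76) (XT.nd (nat_lit 78) (nat_lit 0) (nat_lit 0) (XT.lf (nat_lit 0) (nat_lit 9296250871) (nat_lit 1064) (nat_lit 541839521) (nat_lit 1140) (nat_lit 9707236035) (nat_lit 152) (nat_lit 5) (nat_lit 166) (nat_lit 5) (nat_lit 167) (nat_lit 5) (nat_lit 314) (nat_lit 311) (nat_lit 155)) (XT.nd (nat_lit 78) (nat_lit 0) (nat_lit 76) (XT.lf (nat_lit 76) (nat_lit 7885847872) (nat_lit 0) (nat_lit 1948974433) (nat_lit 1140) (nat_lit 10004498045) (nat_lit 153) (nat_lit 5) (nat_lit 152) (nat_lit 5) (nat_lit 167) (nat_lit 5) (nat_lit 315) (nat_lit 311) (nat_lit 154)) (XT.lf (nat_lit 0) (nat_lit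 10448332723) (nat_lit 1064) (nat_lit 3627662433) (nat_lit 1140) (nat_lit 6064390398) (nat_lit 153) (nat_lit 5) (nat_lit 167) (nat_lit 5) (nat_lit 168) (nat_lit 5) (nat_lit 316) (nat_lit 311) (nat_lit 153)))) (XT.nd (nat_lit 78) (nat_lit 0) (nat_lit 76) (XT.lf (nat_lit 76) (nat_lit 5023015009) (nat_lit 0) (nat_lit 6118873567) (nat_lit 1140) (nat_lit 9306759421) (nat_lit 154) (nat_lit 5) (nat_lit 153) (nat_lit 5) (nat_lit 168) (nat_lit 5) (nat_lit 317) (nat_lit 311) (nat_lit 152)) (XT.nd (nat_lit 78) (nat_lit 0) (nat_lit 0) (XT.lf (nat_lit 0) (nat_lit 11907429923) (nat_lit 1064) (nat_lit 6781611835) (nat_lit 1140) (nat_lit 2075595255) (nat_lit 154) (nat_lit 5) (nat_lit 168) (nat_lit 5) (nat_lit 169) (nat_lit 5) (nat_lit 318) (nat_lit 311) (nat_lit 151)) (XT.lf (nat_lit 76) (nat_lit 2098404111) (nat_lit 0) (nat_lit 10672674650) (nat_lit 1140) (nat_lit 8316786354) (nat_lit 155) (nat_lit 5) (nat_lit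 154) (nat_lit 5) (nat_lit 169) (nat_lit 5) (nat_lit 319) (nat_lit 311) (nat_lit 150)))))) (XT.nd (nat_lit 468) (nat_lit 1520) (nat_lit 0) (XT.nd (nat_lit 234) (nat_lit 0) (nat_lit 152) (XT.nd (nat_lit 78) (nat_lit 0) (nat_lit 76) (XT.lf (nat_lit 76) (nat_lit 11380182754) (nat_lit 0) (nat_lit 2343450848) (nat_lit 1140) (nat_lit 7695279820) (nat_lit 155) (nat_lit 5) (nat_lit 154) (nat_lit 5) (nat_lit 169) (nat_lit 5) (nat_lit 320) (nat_lit 311) (nat_lit 149)) (XT.nd (nat_lit 78) (nat_lit 0) (nat_lit 0) (XT.lf (nat_lit 0) (nat_lit 14759398344) (nat_lit 1064) (nat_lit 883156737) (nat_lit 1140) (nat_lit 6115711968) (nat_lit 155) (nat_lit 5) (nat_lit 169) (nat_lit 5) (nat_lit 170) (nat_lit 5) (nat_lit 321) (nat_lit 311) (nat_lit 148)) (XT.lf (nat_lit 76) (nat_lit 8689823095) (nat_lit 0) (nat_lit 7237994279) (nat_lit 1140) (nat_lit 6176948966) (nat_lit 156) (nat_lit 5) (nat_lit 155) (nat_lit 5) (nat_lit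 170) (nat_lit 5) (nat_lit 322) (nat_lit 311) (nat_lit 147)))) (XT.nd (nat_lit 78) (nat_lit 0) (nat_lit 0) (XT.lf (nat_lit 0) (nat_lit 17148909275) (nat_lit 1064) (nat_lit 3910792785) (nat_lit 1140) (nat_lit 1401442073) (nat_lit 156) (nat_lit 5) (nat_lit 170) (nat_lit 5) (nat_lit 171) (nat_lit 5) (nat_lit 323) (nat_lit 311) (nat_lit 146)) (XT.nd (nat_lit 78) (nat_lit 0) (nat_lit 0) (XT.lf (nat_lit 76) (nat_lit 5918652776) (nat_lit 0) (nat_lit 12611660898) (nat_lit 1140) (nat_lit 4294200973) (nat_lit 157) (nat_lit 5) (nat_lit 156) (nat_lit 5) (nat_lit 171) (nat_lit 5) (nat_lit 324) (nat_lit 311) (nat_lit 145)) (XT.lf (nat_lit 76) (nat_lit 16119524672) (nat_lit 0) (nat_lit 3868356810) (nat_lit 1140) (nat_lit 3209874589) (nat_lit 157) (nat_lit 5) (nat_lit 156) (nat_lit 5) (nat_lit 171) (nat_lit 5) (nat_lit 325) (nat_lit 311) (nat_lit 144))))) (XT.nd (nat_lit 234) (nat_lit 608) (nat_lit 0) (XT.nd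 (nat_lit 78) (nat_lit 1140) (nat_lit 0) (XT.lf (nat_lit 76) (nat_lit 3050696087) (nat_lit 0) (nat_lit 18512567313) (nat_lit 1140) (nat_lit 2016719829) (nat_lit 158) (nat_lit 5) (nat_lit 157) (nat_lit 5) (nat_lit 172) (nat_lit 5) (nat_lit 326) (nat_lit 311) (nat_lit 143)) (XT.nd (nat_lit 78) (nat_lit 1140) (nat_lit 0) (XT.lf (nat_lit 76) (nat_lit 13585881848) (nat_lit 0) (nat_lit 9704905367) (nat_lit 1140) (nat_lit 679754351) (nat_lit 158) (nat_lit 5) (nat_lit 157) (nat_lit 5) (nat_lit 172) (nat_lit 5) (nat_lit 327) (nat_lit 311) (nat_lit 142)) (XT.lf (nat_lit 76) (nat_lit 55041520) (nat_lit 0) (nat_lit 624757509) (nat_lit 1216) (nat_lit 23692944108) (nat_lit 143) (nat_lit 5) (nat_lit 142) (nat_lit 5) (nat_lit 158) (nat_lit 5) (nat_lit 328) (nat_lit 311) (nat_lit 141)))) (XT.nd (nat_lit 78) (nat_lit 684) (nat_lit 0) (XT.lf (nat_lit 0) (nat_lit 2251935550) (nat_lit 1140) (nat_lit 13858468930)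 (nat_lit 76) (nat_lit 8670850465) (nat_lit 143) (nat_lit 5) (nat_lit 158) (nat_lit 5) (nat_lit 144) (nat_lit 5) (nat_lit 329) (nat_lit 311) (nat_lit 140)) (XT.nd (nat_lit 78) (nat_lit 684) (nat_lit 0) (XT.lf (nat_lit 0) (nat_lit 3873207377) (nat_lit 1140) (nat_lit 3095283664) (nat_lit 76) (nat_lit 18233481505) (nat_lit 143) (nat_lit 5) (nat_lit 158) (nat_lit 5) (nat_lit 144) (nat_lit 5) (nat_lit 330) (nat_lit 311) (nat_lit 139)) (XT.lf (nat_lit 0) (nat_lit 5641641401) (nat_lit 760) (nat_lit 17511177134) (nat_lit 76) (nat_lit 2479546716) (nat_lit 134) (nat_lit 5) (nat_lit 144) (nat_lit 5) (nat_lit 135) (nat_lit 5) (nat_lit 331) (nat_lit 311) (nat_lit 138))))))))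
noncomputable def xc228 : XT := (XT.nd (nat_lit 1716) (nat_lit 3040) (nat_lit 0) (XT.nd (nat_lit 858) (nat_lit 1672) (nat_lit 0) (XT.nd (nat_lit 390) (nat_lit 1444) (nat_lit 0) (XT.nd (nat_lit 156) (nat_lit 532) (nat_lit 0) (XT.nd (nat_lit 78) (nat_lit 532) (nat_lit 0) (XT.lf (nat_lit 0) (nat_lit 7559687853) (nat_lit 760) (nat_lit 6410064313) (nat_lit 76) (nat_lit 12103029818) (nat_lit 134) (nat_lit 5) (nat_lit 144) (nat_lit 5) (nat_lit 135) (nat_lit 5) (nat_lit 332) (nat_lit 311) (nat_lit 137)) (XT.lf (nat_lit 0) (nat_lit 5120474415) (nat_lit 532) (nat_lit 4460137641) (nat_lit 608) (nat_lit 16944447835) (nat_lit 127) (nat_lit 5) (nat_lit 134) (nat_lit 5) (nat_lit 135) (nat_lit 5) (nat_lit 333) (nat_lit 311) (nat_lit 136))) (XT.nd (nat_lit 78) (nat_lit 532) (nat_lit 0) (XT.lf (nat_lit 0) (nat_lit 11775012798) (nat_lit 608) (nat_lit 9916174315) (nat_lit 76) (nat_lit 5296342067) (nat_lit 127)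 (nat_lit 5) (nat_lit 135) (nat_lit 5) (nat_lit 128) (nat_lit 5) (nat_lit 334) (nat_lit 311) (nat_lit 135)) (XT.nd (nat_lit 78) (nat_lit 0) (nat_lit 0) (XT.lf (nat_lit 0) (nat_lit 1906418374) (nat_lit 532) (nat_lit 12187621191) (nat_lit 608) (nat_lit 13368077424) (nat_lit 120) (nat_lit 5) (nat_lit 127) (nat_lit 5) (nat_lit 128) (nat_lit 5) (nat_lit 335) (nat_lit 311) (nat_lit 134)) (XT.lf (nat_lit 0) (nat_lit 14283483010) (nat_lit 532) (nat_lit 2295670693) (nat_lit 608) (nat_lit 11368901250) (nat_lit 120) (nat_lit 5) (nat_lit 127) (nat_lit 5) (nat_lit 128) (nat_lit 5) (nat_lit 336) (nat_lit 311) (nat_lit 133))))) (XT.nd (nat_lit 234) (nat_lit 988) (nat_lit 0) (XT.nd (nat_lit 78) (nat_lit 456) (nat_lit 0) (XT.lf (nat_lit 0) (nat_lit 19211183296) (nat_lit 608) (nat_lit 1496075030) (nat_lit 76) (nat_lit 7739149659) (nat_lit 120) (nat_lit 5) (nat_lit 128) (nat_lit 5) (nat_lit 121) (nat_lit 5) (nat_lit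 337) (nat_lit 311) (nat_lit 132)) (XT.nd (nat_lit 78) (nat_lit 0) (nat_lit 0) (XT.lf (nat_lit 0) (nat_lit 11230505830) (nat_lit 456) (nat_lit 10818943419) (nat_lit 532) (nat_lit 6906451654) (nat_lit 114) (nat_lit 5) (nat_lit 120) (nat_lit 5) (nat_lit 121) (nat_lit 5) (nat_lit 338) (nat_lit 311) (nat_lit 131)) (XT.lf (nat_lit 0) (nat_lit 24366196246) (nat_lit 456) (nat_lit 618432942) (nat_lit 532) (nat_lit 4495703779) (nat_lit 114) (nat_lit 5) (nat_lit 120) (nat_lit 5) (nat_lit 121) (nat_lit 5) (nat_lit 339) (nat_lit 311) (nat_lit 130)))) (XT.nd (nat_lit 78) (nat_lit 532) (nat_lit 0) (XT.lf (nat_lit 0) (nat_lit 7931824949) (nat_lit 456) (nat_lit 20244091299) (nat_lit 532) (nat_lit 1839547320) (nat_lit 108) (nat_lit 5) (nat_lit 114) (nat_lit 5) (nat_lit 115) (nat_lit 5) (nat_lit 340) (nat_lit 311) (nat_lit 129)) (XT.nd (nat_lit 78) (nat_lit 456) (nat_lit 0) (XT.lf (nat_lit 0) (nat_lit 933861049)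 (nat_lit 532) (nat_lit 9109749028) (nat_lit 76) (nat_lit 20521134540) (nat_lit 107) (nat_lit 5) (nat_lit 114) (nat_lit 5) (nat_lit 108) (nat_lit 5) (nat_lit 341) (nat_lit 311) (nat_lit 128)) (XT.lf (nat_lit 0) (nat_lit 3796899967) (nat_lit 532) (nat_lit 26817787742) (nat_lit 76) (nat_lit 513974469) (nat_lit 101) (nat_lit 5) (nat_lit 108) (nat_lit 5) (nat_lit 102) (nat_lit 5) (nat_lit 342) (nat_lit 311) (nat_lit 127)))))) (XT.nd (nat_lit 390) (nat_lit 836) (nat_lit 0) (XT.nd (nat_lit 156) (nat_lit 380) (nat_lit 0) (XT.nd (nat_lit 78) (nat_lit 456) (nat_lit 0) (XT.lf (nat_lit 0) (nat_lit 6935104585) (nat_lit 532) (nat_lit 13489597825) (nat_lit 76) (nat_lit 11279122952) (nat_lit 101) (nat_lit 5) (nat_lit 108) (nat_lit 5) (nat_lit 102) (nat_lit 5) (nat_lit 343) (nat_lit 311) (nat_lit 126)) (XT.lf (nat_lit 0) (nat_lit 239850838) (nat_lit 456) (nat_lit 9926930917) (nat_lit 532) (nat_lit 22129488040)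 (nat_lit 95) (nat_lit 5) (nat_lit 101) (nat_lit 5) (nat_lit 102) (nat_lit 5) (nat_lit 344) (nat_lit 311) (nat_lit 125))) (XT.nd (nat_lit 78) (nat_lit 380) (nat_lit 0) (XT.lf (nat_lit 0) (nat_lit 13638564523) (nat_lit 532) (nat_lit 18257883761) (nat_lit 76) (nat_lit 1005750587) (nat_lit 95) (nat_lit 5) (nat_lit 102) (nat_lit 5) (nat_lit 96) (nat_lit 5) (nat_lit 345) (nat_lit 311) (nat_lit 124)) (XT.nd (nat_lit 78) (nat_lit 380) (nat_lit 0) (XT.lf (nat_lit 0) (nat_lit 17309945955) (nat_lit 532) (nat_lit 4146908030) (nat_lit 76) (nat_lit 12066594273) (nat_lit 95) (nat_lit 5) (nat_lit 102) (nat_lit 5) (nat_lit 96) (nat_lit 5) (nat_lit 346) (nat_lit 311) (nat_lit 123)) (XT.lf (nat_lit 0) (nat_lit 10590929121) (nat_lit 380) (nat_lit 10599587688) (nat_lit 456) (nat_lit 12969852502) (nat_lit 90) (nat_lit 5) (nat_lit 95) (nat_lit 5) (nat_lit 96) (nat_lit 5) (nat_lit 347) (nat_lit 311) (nat_lit 122)))))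 (XT.nd (nat_lit 234) (nat_lit 456) (nat_lit 0) (XT.nd (nat_lit 78) (nat_lit 380) (nat_lit 0) (XT.lf (nat_lit 0) (nat_lit 25232691192) (nat_lit 456) (nat_lit 8968442551) (nat_lit 76) (nat_lit 613914125) (nat_lit 90) (nat_lit 5) (nat_lit 96) (nat_lit 5) (nat_lit 91) (nat_lit 5) (nat_lit 348) (nat_lit 311) (nat_lit 121)) (XT.nd (nat_lit 78) (nat_lit 0) (nat_lit 0) (XT.lf (nat_lit 0) (nat_lit 6081210576) (nat_lit 380) (nat_lit 23475690129) (nat_lit 456) (nat_lit 5927648280) (nat_lit 85) (nat_lit 5) (nat_lit 90) (nat_lit 5) (nat_lit 91) (nat_lit 5) (nat_lit 349) (nat_lit 311) (nat_lit 120)) (XT.lf (nat_lit 0) (nat_lit 21763133561) (nat_lit 380) (nat_lit 12335681029) (nat_lit 456) (nat_lit 2072686350) (nat_lit 85) (nat_lit 5) (nat_lit 90) (nat_lit 5) (nat_lit 91) (nat_lit 5) (nat_lit 350) (nat_lit 311) (nat_lit 119)))) (XT.nd (nat_lit 78) (nat_lit 0) (nat_lit 0) (XT.lf (nat_lit 0) (nat_lit 1035382637)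 (nat_lit 380) (nat_lit 832919144) (nat_lit 456) (nat_lit 35009994826) (nat_lit 79) (nat_lit 5) (nat_lit 84) (nat_lit 5) (nat_lit 85) (nat_lit 5) (nat_lit 351) (nat_lit 311) (nat_lit 118)) (XT.nd (nat_lit 78) (nat_lit 0) (nat_lit 0) (XT.lf (nat_lit 0) (nat_lit 6136179870) (nat_lit 456) (nat_lit 20495048270) (nat_lit 76) (nat_lit 10966947488) (nat_lit 79) (nat_lit 5) (nat_lit 85) (nat_lit 5) (nat_lit 80) (nat_lit 5) (nat_lit 352) (nat_lit 311) (nat_lit 117)) (XT.lf (nat_lit 0) (nat_lit 10537914069) (nat_lit 456) (nat_lit 4697978921) (nat_lit 76) (nat_lit 23103588009) (nat_lit 79) (nat_lit 5) (nat_lit 85) (nat_lit 5) (nat_lit 80) (nat_lit 5) (nat_lit 353) (nat_lit 311) (nat_lit 116))))))) (XT.nd (nat_lit 858) (nat_lit 1368) (nat_lit 0) (XT.nd (nat_lit 390) (nat_lit 988) (nat_lit 0) (XT.nd (nat_lit 156) (nat_lit 304) (nat_lit 0) (XT.nd (nat_lit 78) (nat_lit 0) (nat_lit 0) (XT.lf (nat_lit 0) (nat_lit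 11800371620) (nat_lit 380) (nat_lit 3382404797) (nat_lit 456) (nat_lit 23916921272) (nat_lit 74) (nat_lit 5) (nat_lit 79) (nat_lit 5) (nat_lit 80) (nat_lit 5) (nat_lit 354) (nat_lit 311) (nat_lit 115)) (XT.lf (nat_lit 0) (nat_lit 20097421681) (nat_lit 456) (nat_lit 11079576915) (nat_lit 76) (nat_lit 8701813484) (nat_lit 74) (nat_lit 5) (nat_lit 80) (nat_lit 5) (nat_lit 75) (nat_lit 5) (nat_lit 355) (nat_lit 311) (nat_lit 114))) (XT.nd (nat_lit 78) (nat_lit 0) (nat_lit 0) (XT.lf (nat_lit 0) (nat_lit 5701682863) (nat_lit 304) (nat_lit 19543867684) (nat_lit 380) (nat_lit 15433172214) (nat_lit 70) (nat_lit 5) (nat_lit 74) (nat_lit 5) (nat_lit 75) (nat_lit 5) (nat_lit 356) (nat_lit 311) (nat_lit 113)) (XT.nd (nat_lit 78) (nat_lit 0) (nat_lit 0) (XT.lf (nat_lit 0) (nat_lit 23210675807) (nat_lit 304) (nat_lit 7447114964) (nat_lit 380) (nat_lit 10841554031) (nat_lit 70) (nat_lit 5) (nat_lit 74) (nat_lit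 5) (nat_lit 75) (nat_lit 5) (nat_lit 357) (nat_lit 311) (nat_lit 112)) (XT.lf (nat_lit 0) (nat_lit 36278426098) (nat_lit 380) (nat_lit 1150636123) (nat_lit 76) (nat_lit 4914146390) (nat_lit 70) (nat_lit 5) (nat_lit 75) (nat_lit 5) (nat_lit 71) (nat_lit 5) (nat_lit 358) (nat_lit 311) (nat_lit 111))))) (XT.nd (nat_lit 234) (nat_lit 304) (nat_lit 0) (XT.nd (nat_lit 78) (nat_lit 380) (nat_lit 0) (XT.lf (nat_lit 0) (nat_lit 16751971381) (nat_lit 304) (nat_lit 25548380190) (nat_lit 380) (nat_lit 905060463) (nat_lit 66) (nat_lit 5) (nat_lit 70) (nat_lit 5) (nat_lit 71) (nat_lit 5) (nat_lit 359) (nat_lit 311) (nat_lit 110)) (XT.nd (nat_lit 78) (nat_lit 304) (nat_lit 0) (XT.lf (nat_lit 0) (nat_lit 4333061235) (nat_lit 380) (nat_lit 8923132544) (nat_lit 76) (nat_lit 30835730232) (nat_lit 65) (nat_lit 5) (nat_lit 70) (nat_lit 5) (nat_lit 66) (nat_lit 5) (nat_lit 360) (nat_lit 311) (nat_lit 109)) (XT.lf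 (nat_lit 0) (nat_lit 9302996471) (nat_lit 304) (nat_lit 494544114) (nat_lit 380) (nat_lit 35204603291) (nat_lit 61) (nat_lit 5) (nat_lit 65) (nat_lit 5) (nat_lit 66) (nat_lit 5) (nat_lit 361) (nat_lit 311) (nat_lit 108)))) (XT.nd (nat_lit 78) (nat_lit 304) (nat_lit 0) (XT.lf (nat_lit 0) (nat_lit 15636557732) (nat_lit 380) (nat_lit 17803326586) (nat_lit 76) (nat_lit 12493471321) (nat_lit 61) (nat_lit 5) (nat_lit 66) (nat_lit 5) (nat_lit 62) (nat_lit 5) (nat_lit 362) (nat_lit 311) (nat_lit 107)) (XT.nd (nat_lit 78) (nat_lit 0) (nat_lit 0) (XT.lf (nat_lit 0) (nat_lit 634233994) (nat_lit 304) (nat_lit 21025568622) (nat_lit 380) (nat_lit 25232432726) (nat_lit 57) (nat_lit 5) (nat_lit 61) (nat_lit 5) (nat_lit 62) (nat_lit 5) (nat_lit 363) (nat_lit 311) (nat_lit 106)) (XT.lf (nat_lit 0) (nat_lit 19987283192) (nat_lit 304) (nat_lit 8054335947) (nat_lit 380) (nat_lit 19832929277) (nat_lit 57) (nat_lit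 5) (nat_lit 61) (nat_lit 5) (nat_lit 62) (nat_lit 5) (nat_lit 364) (nat_lit 311) (nat_lit 105)))))) (XT.nd (nat_lit 468) (nat_lit 760) (nat_lit 0) (XT.nd (nat_lit 234) (nat_lit 380) (nat_lit 0) (XT.nd (nat_lit 78) (nat_lit 228) (nat_lit 0) (XT.lf (nat_lit 0) (nat_lit 34664039682) (nat_lit 380) (nat_lit 9018977589) (nat_lit 76) (nat_lit 5201842241) (nat_lit 57) (nat_lit 5) (nat_lit 62) (nat_lit 5) (nat_lit 58) (nat_lit 5) (nat_lit 365) (nat_lit 311) (nat_lit 104)) (XT.nd (nat_lit 78) (nat_lit 0) (nat_lit 0) (XT.lf (nat_lit 0) (nat_lit 10538771159) (nat_lit 228) (nat_lit 31125611416) (nat_lit 304) (nat_lit 8255722897) (nat_lit 54) (nat_lit 5) (nat_lit 57) (nat_lit 5) (nat_lit 58) (nat_lit 5) (nat_lit 366) (nat_lit 311) (nat_lit 103)) (XT.lf (nat_lit 0) (nat_lit 30865665991) (nat_lit 228) (nat_lit 18098371227) (nat_lit 304) (nat_lit 2019695485) (nat_lit 54) (nat_lit 5) (nat_lit 57) (nat_lit 5)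 (nat_lit 58) (nat_lit 5) (nat_lit 367) (nat_lit 311) (nat_lit 102)))) (XT.nd (nat_lit 78) (nat_lit 304) (nat_lit 0) (XT.lf (nat_lit 0) (nat_lit 4315745573) (nat_lit 304) (nat_lit 321661528) (nat_lit 76) (nat_lit 47440646790) (nat_lit 53) (nat_lit 5) (nat_lit 57) (nat_lit 5) (nat_lit 54) (nat_lit 5) (nat_lit 368) (nat_lit 311) (nat_lit 101)) (XT.nd (nat_lit 78) (nat_lit 0) (nat_lit 0) (XT.lf (nat_lit 0) (nat_lit 11086334764) (nat_lit 380) (nat_lit 32844361159) (nat_lit 76) (nat_lit 9265341205) (nat_lit 49) (nat_lit 5) (nat_lit 54) (nat_lit 5) (nat_lit 50) (nat_lit 5) (nat_lit 369) (nat_lit 311) (nat_lit 100)) (XT.lf (nat_lit 0) (nat_lit 18107567092) (nat_lit 380) (nat_lit 12743986340) (nat_lit 76) (nat_lit 23494583275) (nat_lit 49) (nat_lit 5) (nat_lit 54) (nat_lit 5) (nat_lit 50) (nat_lit 5) (nat_lit 370) (nat_lit 311) (nat_lit 99))))) (XT.nd (nat_lit 234) (nat_lit 532) (nat_lit 0) (XT.nd (nat_lit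 78) (nat_lit 0) (nat_lit 0) (XT.lf (nat_lit 0) (nat_lit 8115446580) (nat_lit 228) (nat_lit 17300379309) (nat_lit 304) (nat_lit 30112624231) (nat_lit 46) (nat_lit 5) (nat_lit 49) (nat_lit 5) (nat_lit 50) (nat_lit 5) (nat_lit 371) (nat_lit 311) (nat_lit 98)) (XT.nd (nat_lit 78) (nat_lit 0) (nat_lit 0) (XT.lf (nat_lit 0) (nat_lit 29859609673) (nat_lit 228) (nat_lit 3210816101) (nat_lit 304) (nat_lit 23671996822) (nat_lit 46) (nat_lit 5) (nat_lit 49) (nat_lit 5) (nat_lit 50) (nat_lit 5) (nat_lit 372) (nat_lit 311) (nat_lit 97)) (XT.lf (nat_lit 0) (nat_lit 41061743989) (nat_lit 304) (nat_lit 5847620543) (nat_lit 76) (nat_lit 11080239690) (nat_lit 46) (nat_lit 5) (nat_lit 50) (nat_lit 5) (nat_lit 47) (nat_lit 5) (nat_lit 373) (nat_lit 311) (nat_lit 96)))) (XT.nd (nat_lit 78) (nat_lit 304) (nat_lit 0) (XT.lf (nat_lit 0) (nat_lit 16098780941) (nat_lit 228) (nat_lit 33379051753) (nat_lit 304) (nat_lit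 9790819992) (nat_lit 43) (nat_lit 5) (nat_lit 46) (nat_lit 5) (nat_lit 47) (nat_lit 5) (nat_lit 374) (nat_lit 311) (nat_lit 95)) (XT.nd (nat_lit 78) (nat_lit 304) (nat_lit 0) (XT.lf (nat_lit 0) (nat_lit 38821264933) (nat_lit 228) (nat_lit 19382701029) (nat_lit 304) (nat_lit 2380382036) (nat_lit 43) (nat_lit 5) (nat_lit 46) (nat_lit 5) (nat_lit 47) (nat_lit 5) (nat_lit 375) (nat_lit 311) (nat_lit 94)) (XT.lf (nat_lit 0) (nat_lit 237915150) (nat_lit 228) (nat_lit 4912787541) (nat_lit 304) (nat_lit 56787274142) (nat_lit 39) (nat_lit 5) (nat_lit 42) (nat_lit 5) (nat_lit 43) (nat_lit 5) (nat_lit 376) (nat_lit 311) (nat_lit 93))))))))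
noncomputable def xc229 : XT := (XT.nd (nat_lit 1716) (nat_lit 4560) (nat_lit 0) (XT.nd (nat_lit 858) (nat_lit 1292) (nat_lit 0) (XT.nd (nat_lit 390) (nat_lit 0) (nat_lit 152) (XT.nd (nat_lit 156) (nat_lit 0) (nat_lit 76) (XT.nd (nat_lit 78) (nat_lit 0) (nat_lit 0) (XT.lf (nat_lit 0) (nat_lit 4357289886) (nat_lit 1140) (nat_lit 2634643069) (nat_lit 1140) (nat_lit 2634643069) (nat_lit 151) (nat_lit 3) (nat_lit 166) (nat_lit 3) (nat_lit 166) (nat_lit 5) (nat_lit 312) (nat_lit 312) (nat_lit 156)) (XT.lf (nat_lit 76) (nat_lit 2785883674) (nat_lit 0) (nat_lit 6247393580) (nat_lit 1140) (nat_lit 10502638939) (nat_lit 152) (nat_lit 5) (nat_lit 151) (nat_lit 3) (nat_lit 166) (nat_lit 5) (nat_lit 313) (nat_lit 312) (nat_lit 155))) (XT.nd (nat_lit 78) (nat_lit 0) (nat_lit 0) (XT.lf (nat_lit 0) (nat_lit 9425522863) (nat_lit 1064) (nat_lit 8655461251) (nat_lit 1140) (nat_lit 1744274900) (nat_lit 152) (nat_lit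 5) (nat_lit 166) (nat_lit 5) (nat_lit 167) (nat_lit 5) (nat_lit 314) (nat_lit 312) (nat_lit 154)) (XT.nd (nat_lit 78) (nat_lit 0) (nat_lit 0) (XT.lf (nat_lit 0) (nat_lit 9885280491) (nat_lit 1064) (nat_lit 383351198) (nat_lit 1140) (nat_lit 9852993012) (nat_lit 152) (nat_lit 5) (nat_lit 166) (nat_lit 5) (nat_lit 167) (nat_lit 5) (nat_lit 315) (nat_lit 312) (nat_lit 153)) (XT.lf (nat_lit 76) (nat_lit 8295453645) (nat_lit 0) (nat_lit 2137185431) (nat_lit 1140) (nat_lit 9992042520) (nat_lit 153) (nat_lit 5) (nat_lit 152) (nat_lit 5) (nat_lit 167) (nat_lit 5) (nat_lit 316) (nat_lit 312) (nat_lit 152))))) (XT.nd (nat_lit 234) (nat_lit 0) (nat_lit 76) (XT.nd (nat_lit 78) (nat_lit 0) (nat_lit 0) (XT.lf (nat_lit 0) (nat_lit 11054525370) (nat_lit 1064) (nat_lit 3557758464) (nat_lit 1140) (nat_lit 6122817221) (nat_lit 153) (nat_lit 5) (nat_lit 167) (nat_lit 5) (nat_lit 168) (nat_lit 5) (nat_lit 317) (nat_lit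 312) (nat_lit 151)) (XT.nd (nat_lit 78) (nat_lit 0) (nat_lit 76) (XT.lf (nat_lit 76) (nat_lit 5350687010) (nat_lit 0) (nat_lit 6411375658) (nat_lit 1140) (nat_lit 9290774249) (nat_lit 154) (nat_lit 5) (nat_lit 153) (nat_lit 5) (nat_lit 168) (nat_lit 5) (nat_lit 318) (nat_lit 312) (nat_lit 150)) (XT.lf (nat_lit 0) (nat_lit 12541225905) (nat_lit 1064) (nat_lit 6803216279) (nat_lit 1140) (nat_lit 2034163935) (nat_lit 154) (nat_lit 5) (nat_lit 168) (nat_lit 5) (nat_lit 169) (nat_lit 5) (nat_lit 319) (nat_lit 312) (nat_lit 149)))) (XT.nd (nat_lit 78) (nat_lit 0) (nat_lit 0) (XT.lf (nat_lit 76) (nat_lit 2341417362) (nat_lit 0) (nat_lit 11083042177) (nat_lit 1140) (nat_lit 8287280862) (nat_lit 155) (nat_lit 5) (nat_lit 154) (nat_lit 5) (nat_lit 169) (nat_lit 5) (nat_lit 320) (nat_lit 312) (nat_lit 148)) (XT.nd (nat_lit 78) (nat_lit 0) (nat_lit 76) (XT.lf (nat_lit 76) (nat_lit 11896404865) (nat_lit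 0) (nat_lit 2501314846) (nat_lit 1140) (nat_lit 7655255609) (nat_lit 155) (nat_lit 5) (nat_lit 154) (nat_lit 5) (nat_lit 169) (nat_lit 5) (nat_lit 321) (nat_lit 312) (nat_lit 147)) (XT.lf (nat_lit 0) (nat_lit 15456098175) (nat_lit 1064) (nat_lit 730851617) (nat_lit 1140) (nat_lit 6215832014) (nat_lit 155) (nat_lit 5) (nat_lit 169) (nat_lit 5) (nat_lit 170) (nat_lit 5) (nat_lit 322) (nat_lit 312) (nat_lit 146)))))) (XT.nd (nat_lit 390) (nat_lit 1596) (nat_lit 0) (XT.nd (nat_lit 156) (nat_lit 0) (nat_lit 76) (XT.nd (nat_lit 78) (nat_lit 0) (nat_lit 76) (XT.lf (nat_lit 76) (nat_lit 9127564671) (nat_lit 0) (nat_lit 7526311322) (nat_lit 1140) (nat_lit 6105988830) (nat_lit 156) (nat_lit 5) (nat_lit 155) (nat_lit 5) (nat_lit 170) (nat_lit 5) (nat_lit 323) (nat_lit 312) (nat_lit 145)) (XT.lf (nat_lit 0) (nat_lit 17903706552) (nat_lit 1064) (nat_lit 3847751918) (nat_lit 1140) (nat_lit 1375729714) (nat_lit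 156) (nat_lit 5) (nat_lit 170) (nat_lit 5) (nat_lit 171) (nat_lit 5) (nat_lit 324) (nat_lit 312) (nat_lit 144))) (XT.nd (nat_lit 78) (nat_lit 0) (nat_lit 0) (XT.lf (nat_lit 76) (nat_lit 6274808729) (nat_lit 0) (nat_lit 13046461228) (nat_lit 1140) (nat_lit 4180365253) (nat_lit 157) (nat_lit 5) (nat_lit 156) (nat_lit 5) (nat_lit 171) (nat_lit 5) (nat_lit 325) (nat_lit 312) (nat_lit 143)) (XT.nd (nat_lit 78) (nat_lit 0) (nat_lit 76) (XT.lf (nat_lit 76) (nat_lit 16776504946) (nat_lit 0) (nat_lit 4039213828) (nat_lit 1140) (nat_lit 3070576896) (nat_lit 157) (nat_lit 5) (nat_lit 156) (nat_lit 5) (nat_lit 171) (nat_lit 5) (nat_lit 326) (nat_lit 312) (nat_lit 142)) (XT.lf (nat_lit 76) (nat_lit 3321753826) (nat_lit 0) (nat_lit 19111176027) (nat_lit 1140) (nat_lit 1847238691) (nat_lit 158) (nat_lit 5) (nat_lit 157) (nat_lit 5) (nat_lit 172) (nat_lit 5) (nat_lit 327) (nat_lit 312) (nat_lit 141))))) (XT.nd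 (nat_lit 234) (nat_lit 608) (nat_lit 0) (XT.nd (nat_lit 78) (nat_lit 1140) (nat_lit 0) (XT.lf (nat_lit 76) (nat_lit 14167765931) (nat_lit 0) (nat_lit 10038025048) (nat_lit 1140) (nat_lit 476862775) (nat_lit 158) (nat_lit 5) (nat_lit 157) (nat_lit 5) (nat_lit 172) (nat_lit 5) (nat_lit 328) (nat_lit 312) (nat_lit 140)) (XT.nd (nat_lit 78) (nat_lit 0) (nat_lit 76) (XT.lf (nat_lit 76) (nat_lit 234101585) (nat_lit 0) (nat_lit 680347386) (nat_lit 1216) (nat_lit 24182562727) (nat_lit 143) (nat_lit 5) (nat_lit 142) (nat_lit 5) (nat_lit 158) (nat_lit 5) (nat_lit 329) (nat_lit 312) (nat_lit 139)) (XT.lf (nat_lit 0) (nat_lit 2527165241) (nat_lit 1140) (nat_lit 14094925182) (nat_lit 76) (nat_lit 8895900124) (nat_lit 143) (nat_lit 5) (nat_lit 158) (nat_lit 5) (nat_lit 144) (nat_lit 5) (nat_lit 330) (nat_lit 312) (nat_lit 138)))) (XT.nd (nat_lit 78) (nat_lit 684) (nat_lit 0) (XT.lf (nat_lit 0) (nat_lit 4191026535)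 (nat_lit 1140) (nat_lit 3014066624) (nat_lit 76) (nat_lit 18746431721) (nat_lit 143) (nat_lit 5) (nat_lit 158) (nat_lit 5) (nat_lit 144) (nat_lit 5) (nat_lit 331) (nat_lit 312) (nat_lit 137)) (XT.nd (nat_lit 78) (nat_lit 0) (nat_lit 0) (XT.lf (nat_lit 0) (nat_lit 6008057298) (nat_lit 760) (nat_lit 17857535809) (nat_lit 76) (nat_lit 2529383294) (nat_lit 134) (nat_lit 5) (nat_lit 144) (nat_lit 5) (nat_lit 135) (nat_lit 5) (nat_lit 332) (nat_lit 312) (nat_lit 136)) (XT.lf (nat_lit 0) (nat_lit 7977902426) (nat_lit 760) (nat_lit 6428602514) (nat_lit 76) (nat_lit 12442285932) (nat_lit 134) (nat_lit 5) (nat_lit 144) (nat_lit 5) (nat_lit 135) (nat_lit 5) (nat_lit 333) (nat_lit 312) (nat_lit 135))))))) (XT.nd (nat_lit 858) (nat_lit 2052) (nat_lit 0) (XT.nd (nat_lit 390) (nat_lit 1444) (nat_lit 0) (XT.nd (nat_lit 156) (nat_lit 532) (nat_lit 0) (XT.nd (nat_lit 78) (nat_lit 0) (nat_lit 0) (XT.lf (nat_lit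 0) (nat_lit 5446148809) (nat_lit 532) (nat_lit 4609384038) (nat_lit 608) (nat_lit 17259234492) (nat_lit 127) (nat_lit 5) (nat_lit 134) (nat_lit 5) (nat_lit 135) (nat_lit 5) (nat_lit 334) (nat_lit 312) (nat_lit 134)) (XT.lf (nat_lit 0) (nat_lit 12310160259) (nat_lit 608) (nat_lit 10040598428) (nat_lit 76) (nat_lit 5440532393) (nat_lit 127) (nat_lit 5) (nat_lit 135) (nat_lit 5) (nat_lit 128) (nat_lit 5) (nat_lit 335) (nat_lit 312) (nat_lit 133))) (XT.nd (nat_lit 78) (nat_lit 0) (nat_lit 0) (XT.lf (nat_lit 0) (nat_lit 2134975364) (nat_lit 532) (nat_lit 12560131752) (nat_lit 608) (nat_lit 13585130785) (nat_lit 120) (nat_lit 5) (nat_lit 127) (nat_lit 5) (nat_lit 128) (nat_lit 5) (nat_lit 336) (nat_lit 312) (nat_lit 132)) (XT.nd (nat_lit 78) (nat_lit 0) (nat_lit 0) (XT.lf (nat_lit 0) (nat_lit 14878360742) (nat_lit 532) (nat_lit 2371222295) (nat_lit 608) (nat_lit 11531338228) (nat_lit 120) (nat_lit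 5) (nat_lit 127) (nat_lit 5) (nat_lit 128) (nat_lit 5) (nat_lit 337) (nat_lit 312) (nat_lit 131)) (XT.lf (nat_lit 0) (nat_lit 19955470732) (nat_lit 608) (nat_lit 1373954557) (nat_lit 76) (nat_lit 7964963857) (nat_lit 120) (nat_lit 5) (nat_lit 128) (nat_lit 5) (nat_lit 121) (nat_lit 5) (nat_lit 338) (nat_lit 312) (nat_lit 130))))) (XT.nd (nat_lit 234) (nat_lit 532) (nat_lit 0) (XT.nd (nat_lit 78) (nat_lit 456) (nat_lit 0) (XT.lf (nat_lit 0) (nat_lit 11732786446) (nat_lit 456) (nat_lit 11142796007) (nat_lit 532) (nat_lit 6943694314) (nat_lit 114) (nat_lit 5) (nat_lit 120) (nat_lit 5) (nat_lit 121) (nat_lit 5) (nat_lit 339) (nat_lit 312) (nat_lit 129)) (XT.nd (nat_lit 78) (nat_lit 456) (nat_lit 0) (XT.lf (nat_lit 0) (nat_lit 25257731106) (nat_lit 456) (nat_lit 636291062) (nat_lit 532) (nat_lit 4465574029) (nat_lit 114) (nat_lit 5) (nat_lit 120) (nat_lit 5) (nat_lit 121) (nat_lit 5) (nat_lit 340)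 (nat_lit 312) (nat_lit 128)) (XT.lf (nat_lit 0) (nat_lit 8333844347) (nat_lit 456) (nat_lit 20844131123) (nat_lit 532) (nat_lit 1732907644) (nat_lit 108) (nat_lit 5) (nat_lit 114) (nat_lit 5) (nat_lit 115) (nat_lit 5) (nat_lit 341) (nat_lit 312) (nat_lit 127)))) (XT.nd (nat_lit 78) (nat_lit 456) (nat_lit 0) (XT.lf (nat_lit 0) (nat_lit 1115923759) (nat_lit 532) (nat_lit 9220368257) (nat_lit 76) (nat_lit 21140452194) (nat_lit 107) (nat_lit 5) (nat_lit 114) (nat_lit 5) (nat_lit 108) (nat_lit 5) (nat_lit 342) (nat_lit 312) (nat_lit 126)) (XT.nd (nat_lit 78) (nat_lit 0) (nat_lit 0) (XT.lf (nat_lit 0) (nat_lit 4062011264) (nat_lit 532) (nat_lit 27456493572) (nat_lit 76) (nat_lit 539169099) (nat_lit 101) (nat_lit 5) (nat_lit 108) (nat_lit 5) (nat_lit 102) (nat_lit 5) (nat_lit 343) (nat_lit 312) (nat_lit 125)) (XT.lf (nat_lit 0) (nat_lit 7289958011) (nat_lit 532) (nat_lit 13733287893) (nat_lit 76) (nat_lit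 11626987317) (nat_lit 101) (nat_lit 5) (nat_lit 108) (nat_lit 5) (nat_lit 102) (nat_lit 5) (nat_lit 344) (nat_lit 312) (nat_lit 124)))))) (XT.nd (nat_lit 468) (nat_lit 836) (nat_lit 0) (XT.nd (nat_lit 234) (nat_lit 760) (nat_lit 0) (XT.nd (nat_lit 78) (nat_lit 0) (nat_lit 0) (XT.lf (nat_lit 0) (nat_lit 406465819) (nat_lit 456) (nat_lit 10209376378) (nat_lit 532) (nat_lit 22644699911) (nat_lit 95) (nat_lit 5) (nat_lit 101) (nat_lit 5) (nat_lit 102) (nat_lit 5) (nat_lit 345) (nat_lit 312) (nat_lit 123)) (XT.nd (nat_lit 78) (nat_lit 0) (nat_lit 0) (XT.lf (nat_lit 0) (nat_lit 14187725986) (nat_lit 532) (nat_lit 18646506135) (nat_lit 76) (nat_lit 1050547074) (nat_lit 95) (nat_lit 5) (nat_lit 102) (nat_lit 5) (nat_lit 96) (nat_lit 5) (nat_lit 346) (nat_lit 312) (nat_lit 122)) (XT.lf (nat_lit 0) (nat_lit 17965171059) (nat_lit 532) (nat_lit 4116835524) (nat_lit 76) (nat_lit 12442790130) (nat_lit 95)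 (nat_lit 5) (nat_lit 102) (nat_lit 5) (nat_lit 96) (nat_lit 5) (nat_lit 347) (nat_lit 312) (nat_lit 121)))) (XT.nd (nat_lit 78) (nat_lit 380) (nat_lit 0) (XT.lf (nat_lit 0) (nat_lit 11061622234) (nat_lit 380) (nat_lit 10898048170) (nat_lit 456) (nat_lit 13221237728) (nat_lit 90) (nat_lit 5) (nat_lit 95) (nat_lit 5) (nat_lit 96) (nat_lit 5) (nat_lit 348) (nat_lit 312) (nat_lit 120)) (XT.nd (nat_lit 78) (nat_lit 380) (nat_lit 0) (XT.lf (nat_lit 0) (nat_lit 26119405711) (nat_lit 456) (nat_lit 9085020302) (nat_lit 76) (nat_lit 650919999) (nat_lit 90) (nat_lit 5) (nat_lit 96) (nat_lit 5) (nat_lit 91) (nat_lit 5) (nat_lit 349) (nat_lit 312) (nat_lit 119)) (XT.lf (nat_lit 0) (nat_lit 6414627560) (nat_lit 380) (nat_lit 24156386614) (nat_lit 456) (nat_lit 5973995418) (nat_lit 85) (nat_lit 5) (nat_lit 90) (nat_lit 5) (nat_lit 91) (nat_lit 5) (nat_lit 350) (nat_lit 312) (nat_lit 118))))) (XT.nd (nat_lit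 234) (nat_lit 380) (nat_lit 0) (XT.nd (nat_lit 78) (nat_lit 456) (nat_lit 0) (XT.lf (nat_lit 0) (nat_lit 22562610740) (nat_lit 380) (nat_lit 12682863869) (nat_lit 456) (nat_lit 2007214213) (nat_lit 85) (nat_lit 5) (nat_lit 90) (nat_lit 5) (nat_lit 91) (nat_lit 5) (nat_lit 351) (nat_lit 312) (nat_lit 117)) (XT.nd (nat_lit 78) (nat_lit 0) (nat_lit 0) (XT.lf (nat_lit 0) (nat_lit 1214293504) (nat_lit 380) (nat_lit 832994825) (nat_lit 456) (nat_lit 35933436909) (nat_lit 79) (nat_lit 5) (nat_lit 84) (nat_lit 5) (nat_lit 85) (nat_lit 5) (nat_lit 352) (nat_lit 312) (nat_lit 116)) (XT.lf (nat_lit 0) (nat_lit 6439854550) (nat_lit 456) (nat_lit 20962783032) (nat_lit 76) (nat_lit 11319670255) (nat_lit 79) (nat_lit 5) (nat_lit 85) (nat_lit 5) (nat_lit 80) (nat_lit 5) (nat_lit 353) (nat_lit 312) (nat_lit 115)))) (XT.nd (nat_lit 78) (nat_lit 380) (nat_lit 0) (XT.lf (nat_lit 0) (nat_lit 10970157592) (nat_lit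 456) (nat_lit 4696086555) (nat_lit 76) (nat_lit 23819719283) (nat_lit 79) (nat_lit 5) (nat_lit 85) (nat_lit 5) (nat_lit 80) (nat_lit 5) (nat_lit 354) (nat_lit 312) (nat_lit 114)) (XT.nd (nat_lit 78) (nat_lit 0) (nat_lit 0) (XT.lf (nat_lit 0) (nat_lit 12295814192) (nat_lit 380) (nat_lit 3456529413) (nat_lit 456) (nat_lit 24516710055) (nat_lit 74) (nat_lit 5) (nat_lit 79) (nat_lit 5) (nat_lit 80) (nat_lit 5) (nat_lit 355) (nat_lit 312) (nat_lit 113)) (XT.lf (nat_lit 0) (nat_lit 20811360619) (nat_lit 456) (nat_lit 11271378299) (nat_lit 76) (nat_lit 8988900781) (nat_lit 74) (nat_lit 5) (nat_lit 80) (nat_lit 5) (nat_lit 75) (nat_lit 5) (nat_lit 356) (nat_lit 312) (nat_lit 112))))))))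
noncomputable def xc230 : XT := (XT.nd (nat_lit 37440) (nat_lit 0) (nat_lit 5852) (XT.nd (nat_lit 858) (nat_lit 836) (nat_lit 0) (XT.nd (nat_lit 390) (nat_lit 836) (nat_lit 0) (XT.nd (nat_lit 156) (nat_lit 380) (nat_lit 0) (XT.nd (nat_lit 78) (nat_lit 0) (nat_lit 0) (XT.lf (nat_lit 0) (nat_lit 6011940979) (nat_lit 304) (nat_lit 20100097037) (nat_lit 380) (nat_lit 15783572552) (nat_lit 70) (nat_lit 5) (nat_lit 74) (nat_lit 5) (nat_lit 75) (nat_lit 5) (nat_lit 357) (nat_lit 312) (nat_lit 111)) (XT.lf (nat_lit 0) (nat_lit 24042149120) (nat_lit 304) (nat_lit 7641318046) (nat_lit 380) (nat_lit 11057485284) (nat_lit 70) (nat_lit 5) (nat_lit 74) (nat_lit 5) (nat_lit 75) (nat_lit 5) (nat_lit 358) (nat_lit 312) (nat_lit 110))) (XT.nd (nat_lit 78) (nat_lit 380) (nat_lit 0) (XT.lf (nat_lit 0) (nat_lit 37469908454) (nat_lit 380) (nat_lit 1050936812) (nat_lit 76) (nat_lit 5089376964) (nat_lit 70) (nat_lit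 5) (nat_lit 75) (nat_lit 5) (nat_lit 71) (nat_lit 5) (nat_lit 359) (nat_lit 312) (nat_lit 109)) (XT.nd (nat_lit 78) (nat_lit 76) (nat_lit 0) (XT.lf (nat_lit 0) (nat_lit 17387433051) (nat_lit 304) (nat_lit 26283332407) (nat_lit 380) (nat_lit 827583582) (nat_lit 66) (nat_lit 5) (nat_lit 70) (nat_lit 5) (nat_lit 71) (nat_lit 5) (nat_lit 360) (nat_lit 312) (nat_lit 108)) (XT.lf (nat_lit 0) (nat_lit 4562652112) (nat_lit 380) (nat_lit 9059639987) (nat_lit 76) (nat_lit 31789228924) (nat_lit 65) (nat_lit 5) (nat_lit 70) (nat_lit 5) (nat_lit 66) (nat_lit 5) (nat_lit 361) (nat_lit 312) (nat_lit 107))))) (XT.nd (nat_lit 234) (nat_lit 228) (nat_lit 0) (XT.nd (nat_lit 78) (nat_lit 304) (nat_lit 0) (XT.lf (nat_lit 0) (nat_lit 9711986756) (nat_lit 304) (nat_lit 477426827) (nat_lit 380) (nat_lit 36159688502) (nat_lit 61) (nat_lit 5) (nat_lit 65) (nat_lit 5) (nat_lit 66) (nat_lit 5) (nat_lit 362) (nat_lit 312)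 (nat_lit 106)) (XT.nd (nat_lit 78) (nat_lit 304) (nat_lit 0) (XT.lf (nat_lit 0) (nat_lit 16201046636) (nat_lit 380) (nat_lit 18208592073) (nat_lit 76) (nat_lit 12898693014) (nat_lit 61) (nat_lit 5) (nat_lit 66) (nat_lit 5) (nat_lit 62) (nat_lit 5) (nat_lit 363) (nat_lit 312) (nat_lit 105)) (XT.lf (nat_lit 0) (nat_lit 780832244) (nat_lit 304) (nat_lit 21622604504) (nat_lit 380) (nat_lit 25892592377) (nat_lit 57) (nat_lit 5) (nat_lit 61) (nat_lit 5) (nat_lit 62) (nat_lit 5) (nat_lit 364) (nat_lit 312) (nat_lit 104)))) (XT.nd (nat_lit 78) (nat_lit 228) (nat_lit 0) (XT.lf (nat_lit 0) (nat_lit 20710757251) (nat_lit 304) (nat_lit 8263217310) (nat_lit 380) (nat_lit 20333923630) (nat_lit 57) (nat_lit 5) (nat_lit 61) (nat_lit 5) (nat_lit 62) (nat_lit 5) (nat_lit 365) (nat_lit 312) (nat_lit 103)) (XT.nd (nat_lit 78) (nat_lit 228) (nat_lit 0) (XT.lf (nat_lit 0) (nat_lit 35792719754) (nat_lit 380) (nat_lit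 9166801829) (nat_lit 76) (nat_lit 5389071945) (nat_lit 57) (nat_lit 5) (nat_lit 62) (nat_lit 5) (nat_lit 58) (nat_lit 5) (nat_lit 366) (nat_lit 312) (nat_lit 102)) (XT.lf (nat_lit 0) (nat_lit 10976475999) (nat_lit 228) (nat_lit 32025180058) (nat_lit 304) (nat_lit 8413287656) (nat_lit 54) (nat_lit 5) (nat_lit 57) (nat_lit 5) (nat_lit 58) (nat_lit 5) (nat_lit 367) (nat_lit 312) (nat_lit 101)))))) (XT.nd (nat_lit 390) (nat_lit 228) (nat_lit 0) (XT.nd (nat_lit 156) (nat_lit 532) (nat_lit 0) (XT.nd (nat_lit 78) (nat_lit 76) (nat_lit 0) (XT.lf (nat_lit 0) (nat_lit 31909637626) (nat_lit 228) (nat_lit 18608118771) (nat_lit 304) (nat_lit 1992803895) (nat_lit 54) (nat_lit 5) (nat_lit 57) (nat_lit 5) (nat_lit 58) (nat_lit 5) (nat_lit 368) (nat_lit 312) (nat_lit 100)) (XT.lf (nat_lit 0) (nat_lit 4528494985) (nat_lit 304) (nat_lit 214956896) (nat_lit 76) (nat_lit 48894312927) (nat_lit 53) (nat_lit 5) (nat_lit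 57) (nat_lit 5) (nat_lit 54) (nat_lit 5) (nat_lit 369) (nat_lit 312) (nat_lit 99))) (XT.nd (nat_lit 78) (nat_lit 228) (nat_lit 0) (XT.lf (nat_lit 0) (nat_lit 11501203477) (nat_lit 380) (nat_lit 33712210610) (nat_lit 76) (nat_lit 9575907264) (nat_lit 49) (nat_lit 5) (nat_lit 54) (nat_lit 5) (nat_lit 50) (nat_lit 5) (nat_lit 370) (nat_lit 312) (nat_lit 98)) (XT.nd (nat_lit 78) (nat_lit 228) (nat_lit 0) (XT.lf (nat_lit 0) (nat_lit 18730676308) (nat_lit 380) (nat_lit 13012246334) (nat_lit 76) (nat_lit 24231076912) (nat_lit 49) (nat_lit 5) (nat_lit 54) (nat_lit 5) (nat_lit 50) (nat_lit 5) (nat_lit 371) (nat_lit 312) (nat_lit 97)) (XT.lf (nat_lit 0) (nat_lit 8471851343) (nat_lit 228) (nat_lit 17785090523) (nat_lit 304) (nat_lit 30934881370) (nat_lit 46) (nat_lit 5) (nat_lit 49) (nat_lit 5) (nat_lit 50) (nat_lit 5) (nat_lit 372) (nat_lit 312) (nat_lit 96))))) (XT.nd (nat_lit 35958) (nat_lit 0) (nat_lit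 8208) (XT.nd (nat_lit 78) (nat_lit 228) (nat_lit 0) (XT.lf (nat_lit 0) (nat_lit 30865049774) (nat_lit 228) (nat_lit 3273839452) (nat_lit 304) (nat_lit 24303397903) (nat_lit 46) (nat_lit 5) (nat_lit 49) (nat_lit 5) (nat_lit 50) (nat_lit 5) (nat_lit 373) (nat_lit 312) (nat_lit 95)) (XT.nd (nat_lit 78) (nat_lit 228) (nat_lit 0) (XT.lf (nat_lit 0) (nat_lit 42368033969) (nat_lit 304) (nat_lit 5914563873) (nat_lit 76) (nat_lit 11444347179) (nat_lit 46) (nat_lit 5) (nat_lit 50) (nat_lit 5) (nat_lit 47) (nat_lit 5) (nat_lit 374) (nat_lit 312) (nat_lit 94)) (XT.lf (nat_lit 0) (nat_lit 16689166074) (nat_lit 228) (nat_lit 34346303777) (nat_lit 304) (nat_lit 10008932479) (nat_lit 43) (nat_lit 5) (nat_lit 46) (nat_lit 5) (nat_lit 47) (nat_lit 5) (nat_lit 375) (nat_lit 312) (nat_lit 93)))) (XT.nd (nat_lit 78) (nat_lit 0) (nat_lit 0) (XT.lf (nat_lit 0) (nat_lit 4647658206) (nat_lit 1140) (nat_lit 2631267811)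 (nat_lit 1140) (nat_lit 2631267811) (nat_lit 151) (nat_lit 3) (nat_lit 166) (nat_lit 3) (nat_lit 166) (nat_lit 5) (nat_lit 313) (nat_lit 313) (nat_lit 154)) (XT.nd (nat_lit 78) (nat_lit 0) (nat_lit 76) (XT.lf (nat_lit 76) (nat_lit 3032673312) (nat_lit 0) (nat_lit 6583170433) (nat_lit 1140) (nat_lit 10496045632) (nat_lit 152) (nat_lit 5) (nat_lit 151) (nat_lit 3) (nat_lit 166) (nat_lit 5) (nat_lit 314) (nat_lit 313) (nat_lit 153)) (XT.lf (nat_lit 0) (nat_lit 10009397377) (nat_lit 1064) (nat_lit 8745471197) (nat_lit 1140) (nat_lit 1655379745) (nat_lit 152) (nat_lit 5) (nat_lit 166) (nat_lit 5) (nat_lit 167) (nat_lit 5) (nat_lit 315) (nat_lit 313) (nat_lit 152))))))) (XT.nd (nat_lit 858) (nat_lit 2432) (nat_lit 0) (XT.nd (nat_lit 390) (nat_lit 0) (nat_lit 152) (XT.nd (nat_lit 156) (nat_lit 0) (nat_lit 76) (XT.nd (nat_lit 78) (nat_lit 0) (nat_lit 0) (XT.lf (nat_lit 0) (nat_lit 10474177575) (nat_lit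 1064) (nat_lit 230139217) (nat_lit 1140) (nat_lit 10011472703) (nat_lit 152) (nat_lit 5) (nat_lit 166) (nat_lit 5) (nat_lit 167) (nat_lit 5) (nat_lit 316) (nat_lit 313) (nat_lit 151)) (XT.lf (nat_lit 76) (nat_lit 8707414943) (nat_lit 0) (nat_lit 2323595051) (nat_lit 1140) (nat_lit 9997157301) (nat_lit 153) (nat_lit 5) (nat_lit 152) (nat_lit 5) (nat_lit 167) (nat_lit 5) (nat_lit 317) (nat_lit 313) (nat_lit 150))) (XT.nd (nat_lit 78) (nat_lit 0) (nat_lit 0) (XT.lf (nat_lit 0) (nat_lit 11662099169) (nat_lit 1064) (nat_lit 3496017429) (nat_lit 1140) (nat_lit 6190086534) (nat_lit 153) (nat_lit 5) (nat_lit 167) (nat_lit 5) (nat_lit 168) (nat_lit 5) (nat_lit 318) (nat_lit 313) (nat_lit 149)) (XT.nd (nat_lit 78) (nat_lit 0) (nat_lit 76) (XT.lf (nat_lit 76) (nat_lit 5678029705) (nat_lit 0) (nat_lit 6706399447) (nat_lit 1140) (nat_lit 9291254518) (nat_lit 154) (nat_lit 5) (nat_lit 153) (nat_lit 5) (nat_lit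 168) (nat_lit 5) (nat_lit 319) (nat_lit 313) (nat_lit 148)) (XT.lf (nat_lit 0) (nat_lit 13178159339) (nat_lit 1064) (nat_lit 6835907440) (nat_lit 1140) (nat_lit 1997442432) (nat_lit 154) (nat_lit 5) (nat_lit 168) (nat_lit 5) (nat_lit 169) (nat_lit 5) (nat_lit 320) (nat_lit 313) (nat_lit 147))))) (XT.nd (nat_lit 234) (nat_lit 0) (nat_lit 76) (XT.nd (nat_lit 78) (nat_lit 0) (nat_lit 0) (XT.lf (nat_lit 76) (nat_lit 2581384765) (nat_lit 0) (nat_lit 11500543610) (nat_lit 1140) (nat_lit 8272906467) (nat_lit 155) (nat_lit 5) (nat_lit 154) (nat_lit 5) (nat_lit 169) (nat_lit 5) (nat_lit 321) (nat_lit 313) (nat_lit 146)) (XT.nd (nat_lit 78) (nat_lit 0) (nat_lit 76) (XT.lf (nat_lit 76) (nat_lit 12418078451) (nat_lit 0) (nat_lit 2658888435) (nat_lit 1140) (nat_lit 7629580442) (nat_lit 155) (nat_lit 5) (nat_lit 154) (nat_lit 5) (nat_lit 169) (nat_lit 5) (nat_lit 322) (nat_lit 313) (nat_lit 145)) (XT.lf (nat_lit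 0) (nat_lit 16159123075) (nat_lit 1064) (nat_lit 584241184) (nat_lit 1140) (nat_lit 6323740368) (nat_lit 155) (nat_lit 5) (nat_lit 169) (nat_lit 5) (nat_lit 170) (nat_lit 5) (nat_lit 323) (nat_lit 313) (nat_lit 144)))) (XT.nd (nat_lit 78) (nat_lit 0) (nat_lit 76) (XT.lf (nat_lit 76) (nat_lit 9568275279) (nat_lit 0) (nat_lit 7819192012) (nat_lit 1140) (nat_lit 6047610756) (nat_lit 156) (nat_lit 5) (nat_lit 155) (nat_lit 5) (nat_lit 170) (nat_lit 5) (nat_lit 324) (nat_lit 313) (nat_lit 143)) (XT.nd (nat_lit 78) (nat_lit 0) (nat_lit 0) (XT.lf (nat_lit 0) (nat_lit 18667351821) (nat_lit 1064) (nat_lit 3793173494) (nat_lit 1140) (nat_lit 1353135434) (nat_lit 156) (nat_lit 5) (nat_lit 170) (nat_lit 5) (nat_lit 171) (nat_lit 5) (nat_lit 325) (nat_lit 313) (nat_lit 142)) (XT.lf (nat_lit 76) (nat_lit 6631397198) (nat_lit 0) (nat_lit 13491065078) (nat_lit 1140) (nat_lit 4077044238) (nat_lit 157) (nat_lit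 5) (nat_lit 156) (nat_lit 5) (nat_lit 171) (nat_lit 5) (nat_lit 326) (nat_lit 313) (nat_lit 141)))))) (XT.nd (nat_lit 468) (nat_lit 1672) (nat_lit 0) (XT.nd (nat_lit 234) (nat_lit 1064) (nat_lit 0) (XT.nd (nat_lit 78) (nat_lit 0) (nat_lit 76) (XT.lf (nat_lit 76) (nat_lit 17443241073) (nat_lit 0) (nat_lit 4212050450) (nat_lit 1140) (nat_lit 2940624327) (nat_lit 157) (nat_lit 5) (nat_lit 156) (nat_lit 5) (nat_lit 171) (nat_lit 5) (nat_lit 327) (nat_lit 313) (nat_lit 140)) (XT.nd (nat_lit 78) (nat_lit 0) (nat_lit 0) (XT.lf (nat_lit 76) (nat_lit 3590637148) (nat_lit 0) (nat_lit 19725261327) (nat_lit 1140) (nat_lit 1685875069) (nat_lit 158) (nat_lit 5) (nat_lit 157) (nat_lit 5) (nat_lit 172) (nat_lit 5) (nat_lit 328) (nat_lit 313) (nat_lit 139)) (XT.lf (nat_lit 76) (nat_lit 14757100566) (nat_lit 0) (nat_lit 10378728924) (nat_lit 1140) (nat_lit 280701879) (nat_lit 158) (nat_lit 5) (nat_lit 157) (nat_lit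 5) (nat_lit 172) (nat_lit 5) (nat_lit 329) (nat_lit 313) (nat_lit 138)))) (XT.nd (nat_lit 78) (nat_lit 0) (nat_lit 76) (XT.lf (nat_lit 76) (nat_lit 408349460) (nat_lit 0) (nat_lit 735489782) (nat_lit 1216) (nat_lit 24699565950) (nat_lit 143) (nat_lit 5) (nat_lit 142) (nat_lit 5) (nat_lit 158) (nat_lit 5) (nat_lit 330) (nat_lit 313) (nat_lit 137)) (XT.nd (nat_lit 78) (nat_lit 0) (nat_lit 0) (XT.lf (nat_lit 0) (nat_lit 2798730623) (nat_lit 1140) (nat_lit 14348767549) (nat_lit 76) (nat_lit 9129714770) (nat_lit 143) (nat_lit 5) (nat_lit 158) (nat_lit 5) (nat_lit 144) (nat_lit 5) (nat_lit 331) (nat_lit 313) (nat_lit 136)) (XT.lf (nat_lit 0) (nat_lit 4506806287) (nat_lit 1140) (nat_lit 2940405722) (nat_lit 76) (nat_lit 19276725297) (nat_lit 143) (nat_lit 5) (nat_lit 158) (nat_lit 5) (nat_lit 144) (nat_lit 5) (nat_lit 332) (nat_lit 313) (nat_lit 135))))) (XT.nd (nat_lit 234) (nat_lit 532) (nat_lit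 0) (XT.nd (nat_lit 78) (nat_lit 532) (nat_lit 0) (XT.lf (nat_lit 0) (nat_lit 6374147500) (nat_lit 760) (nat_lit 18224559235) (nat_lit 76) (nat_lit 2582124230) (nat_lit 134) (nat_lit 5) (nat_lit 144) (nat_lit 5) (nat_lit 135) (nat_lit 5) (nat_lit 333) (nat_lit 313) (nat_lit 134)) (XT.nd (nat_lit 78) (nat_lit 532) (nat_lit 0) (XT.lf (nat_lit 0) (nat_lit 8397674918) (nat_lit 760) (nat_lit 6457671611) (nat_lit 76) (nat_lit 12793087944) (nat_lit 134) (nat_lit 5) (nat_lit 144) (nat_lit 5) (nat_lit 135) (nat_lit 5) (nat_lit 334) (nat_lit 313) (nat_lit 133)) (XT.lf (nat_lit 0) (nat_lit 5771716478) (nat_lit 532) (nat_lit 4762221379) (nat_lit 608) (nat_lit 17594575126) (nat_lit 127) (nat_lit 5) (nat_lit 134) (nat_lit 5) (nat_lit 135) (nat_lit 5) (nat_lit 335) (nat_lit 313) (nat_lit 132)))) (XT.nd (nat_lit 78) (nat_lit 532) (nat_lit 0) (XT.lf (nat_lit 0) (nat_lit 12850920508) (nat_lit 608) (nat_lit 10178689680)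 (nat_lit 76) (nat_lit 5589892265) (nat_lit 127) (nat_lit 5) (nat_lit 135) (nat_lit 5) (nat_lit 128) (nat_lit 5) (nat_lit 336) (nat_lit 313) (nat_lit 131)) (XT.nd (nat_lit 78) (nat_lit 0) (nat_lit 0) (XT.lf (nat_lit 0) (nat_lit 2360552043) (nat_lit 532) (nat_lit 12943422579) (nat_lit 608) (nat_lit 13819257466) (nat_lit 120) (nat_lit 5) (nat_lit 127) (nat_lit 5) (nat_lit 128) (nat_lit 5) (nat_lit 337) (nat_lit 313) (nat_lit 130)) (XT.lf (nat_lit 0) (nat_lit 15481534301) (nat_lit 532) (nat_lit 2448656901) (nat_lit 608) (nat_lit 11708902411) (nat_lit 120) (nat_lit 5) (nat_lit 127) (nat_lit 5) (nat_lit 128) (nat_lit 5) (nat_lit 338) (nat_lit 313) (nat_lit 129))))))))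
noncomputable def xc231 : XT := (XT.nd (nat_lit 1716) (nat_lit 1824) (nat_lit 0) (XT.nd (nat_lit 858) (nat_lit 1520) (nat_lit 0) (XT.nd (nat_lit 390) (nat_lit 1292) (nat_lit 0) (XT.nd (nat_lit 156) (nat_lit 532) (nat_lit 0) (XT.nd (nat_lit 78) (nat_lit 456) (nat_lit 0) (XT.lf (nat_lit 0) (nat_lit 20712445664) (nat_lit 608) (nat_lit 1257757110) (nat_lit 76) (nat_lit 8197917587) (nat_lit 120) (nat_lit 5) (nat_lit 128) (nat_lit 5) (nat_lit 121) (nat_lit 5) (nat_lit 339) (nat_lit 313) (nat_lit 128)) (XT.lf (nat_lit 0) (nat_lit 12240642829) (nat_lit 456) (nat_lit 11476405257) (nat_lit 532) (nat_lit 6991810131) (nat_lit 114) (nat_lit 5) (nat_lit 120) (nat_lit 5) (nat_lit 121) (nat_lit 5) (nat_lit 340) (nat_lit 313) (nat_lit 127))) (XT.nd (nat_lit 78) (nat_lit 532) (nat_lit 0) (XT.lf (nat_lit 0) (nat_lit 26166795844) (nat_lit 456) (nat_lit 654724813) (nat_lit 532) (nat_lit 4444012111) (nat_lit 114)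 (nat_lit 5) (nat_lit 120) (nat_lit 5) (nat_lit 121) (nat_lit 5) (nat_lit 341) (nat_lit 313) (nat_lit 126)) (XT.nd (nat_lit 78) (nat_lit 76) (nat_lit 0) (XT.lf (nat_lit 0) (nat_lit 8738506345) (nat_lit 456) (nat_lit 21462590210) (nat_lit 532) (nat_lit 1632358258) (nat_lit 108) (nat_lit 5) (nat_lit 114) (nat_lit 5) (nat_lit 115) (nat_lit 5) (nat_lit 342) (nat_lit 313) (nat_lit 125)) (XT.lf (nat_lit 0) (nat_lit 1294605430) (nat_lit 532) (nat_lit 9343644172) (nat_lit 76) (nat_lit 21778137923) (nat_lit 107) (nat_lit 5) (nat_lit 114) (nat_lit 5) (nat_lit 108) (nat_lit 5) (nat_lit 343) (nat_lit 313) (nat_lit 124))))) (XT.nd (nat_lit 234) (nat_lit 380) (nat_lit 0) (XT.nd (nat_lit 78) (nat_lit 456) (nat_lit 0) (XT.lf (nat_lit 0) (nat_lit 4326396155) (nat_lit 532) (nat_lit 28123879771) (nat_lit 76) (nat_lit 564558420) (nat_lit 101) (nat_lit 5) (nat_lit 108) (nat_lit 5) (nat_lit 102) (nat_lit 5) (nat_lit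 344) (nat_lit 313) (nat_lit 123)) (XT.nd (nat_lit 78) (nat_lit 456) (nat_lit 0) (XT.lf (nat_lit 0) (nat_lit 7647030104) (nat_lit 532) (nat_lit 13993530600) (nat_lit 76) (nat_lit 11984742808) (nat_lit 101) (nat_lit 5) (nat_lit 108) (nat_lit 5) (nat_lit 102) (nat_lit 5) (nat_lit 345) (nat_lit 313) (nat_lit 122)) (XT.lf (nat_lit 0) (nat_lit 568927921) (nat_lit 456) (nat_lit 10501177072) (nat_lit 532) (nat_lit 23183902563) (nat_lit 95) (nat_lit 5) (nat_lit 101) (nat_lit 5) (nat_lit 102) (nat_lit 5) (nat_lit 346) (nat_lit 313) (nat_lit 121)))) (XT.nd (nat_lit 78) (nat_lit 380) (nat_lit 0) (XT.lf (nat_lit 0) (nat_lit 14745325461) (nat_lit 532) (nat_lit 19055920983) (nat_lit 76) (nat_lit 1095847981) (nat_lit 95) (nat_lit 5) (nat_lit 102) (nat_lit 5) (nat_lit 96) (nat_lit 5) (nat_lit 347) (nat_lit 313) (nat_lit 120)) (XT.nd (nat_lit 78) (nat_lit 380) (nat_lit 0) (XT.lf (nat_lit 0) (nat_lit 18632250166)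 (nat_lit 532) (nat_lit 4094728613) (nat_lit 76) (nat_lit 12829456838) (nat_lit 95) (nat_lit 5) (nat_lit 102) (nat_lit 5) (nat_lit 96) (nat_lit 5) (nat_lit 348) (nat_lit 313) (nat_lit 119)) (XT.lf (nat_lit 0) (nat_lit 11537655309) (nat_lit 380) (nat_lit 11206583405) (nat_lit 456) (nat_lit 13488069648) (nat_lit 90) (nat_lit 5) (nat_lit 95) (nat_lit 5) (nat_lit 96) (nat_lit 5) (nat_lit 349) (nat_lit 313) (nat_lit 118)))))) (XT.nd (nat_lit 390) (nat_lit 684) (nat_lit 0) (XT.nd (nat_lit 156) (nat_lit 456) (nat_lit 0) (XT.nd (nat_lit 78) (nat_lit 380) (nat_lit 0) (XT.lf (nat_lit 0) (nat_lit 27025274416) (nat_lit 456) (nat_lit 9213848104) (nat_lit 76) (nat_lit 687968996) (nat_lit 90) (nat_lit 5) (nat_lit 96) (nat_lit 5) (nat_lit 91) (nat_lit 5) (nat_lit 350) (nat_lit 313) (nat_lit 117)) (XT.lf (nat_lit 0) (nat_lit 6749380147) (nat_lit 380) (nat_lit 24858857250) (nat_lit 456) (nat_lit 6029280593) (nat_lit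 85) (nat_lit 5) (nat_lit 90) (nat_lit 5) (nat_lit 91) (nat_lit 5) (nat_lit 351) (nat_lit 313) (nat_lit 116))) (XT.nd (nat_lit 78) (nat_lit 456) (nat_lit 0) (XT.lf (nat_lit 0) (nat_lit 23377657761) (nat_lit 380) (nat_lit 13041776035) (nat_lit 456) (nat_lit 1947105700) (nat_lit 85) (nat_lit 5) (nat_lit 90) (nat_lit 5) (nat_lit 91) (nat_lit 5) (nat_lit 352) (nat_lit 313) (nat_lit 115)) (XT.nd (nat_lit 78) (nat_lit 0) (nat_lit 0) (XT.lf (nat_lit 0) (nat_lit 1390084537) (nat_lit 380) (nat_lit 834502820) (nat_lit 456) (nat_lit 36891864410) (nat_lit 79) (nat_lit 5) (nat_lit 84) (nat_lit 5) (nat_lit 85) (nat_lit 5) (nat_lit 353) (nat_lit 313) (nat_lit 114)) (XT.lf (nat_lit 0) (nat_lit 6745774556) (nat_lit 456) (nat_lit 21452994936) (nat_lit 76) (nat_lit 11681613406) (nat_lit 79) (nat_lit 5) (nat_lit 85) (nat_lit 5) (nat_lit 80) (nat_lit 5) (nat_lit 354) (nat_lit 313) (nat_lit 113))))) (XT.nd (nat_lit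 234) (nat_lit 304) (nat_lit 0) (XT.nd (nat_lit 78) (nat_lit 380) (nat_lit 0) (XT.lf (nat_lit 0) (nat_lit 11408703456) (nat_lit 456) (nat_lit 4702336543) (nat_lit 76) (nat_lit 24556012844) (nat_lit 79) (nat_lit 5) (nat_lit 85) (nat_lit 5) (nat_lit 80) (nat_lit 5) (nat_lit 355) (nat_lit 313) (nat_lit 112)) (XT.nd (nat_lit 78) (nat_lit 0) (nat_lit 0) (XT.lf (nat_lit 0) (nat_lit 12798001298) (nat_lit 380) (nat_lit 3534447628) (nat_lit 456) (nat_lit 25141250045) (nat_lit 74) (nat_lit 5) (nat_lit 79) (nat_lit 5) (nat_lit 80) (nat_lit 5) (nat_lit 356) (nat_lit 313) (nat_lit 111)) (XT.lf (nat_lit 0) (nat_lit 21540344936) (nat_lit 456) (nat_lit 11477003931) (nat_lit 76) (nat_lit 9283106302) (nat_lit 74) (nat_lit 5) (nat_lit 80) (nat_lit 5) (nat_lit 75) (nat_lit 5) (nat_lit 357) (nat_lit 313) (nat_lit 110)))) (XT.nd (nat_lit 78) (nat_lit 0) (nat_lit 0) (XT.lf (nat_lit 0) (nat_lit 6323515751) (nat_lit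 304) (nat_lit 20674740368) (nat_lit 380) (nat_lit 16150948303) (nat_lit 70) (nat_lit 5) (nat_lit 74) (nat_lit 5) (nat_lit 75) (nat_lit 5) (nat_lit 358) (nat_lit 313) (nat_lit 109)) (XT.nd (nat_lit 78) (nat_lit 0) (nat_lit 0) (XT.lf (nat_lit 0) (nat_lit 24890808296) (nat_lit 304) (nat_lit 7843024015) (nat_lit 380) (nat_lit 11286169624) (nat_lit 70) (nat_lit 5) (nat_lit 74) (nat_lit 5) (nat_lit 75) (nat_lit 5) (nat_lit 359) (nat_lit 313) (nat_lit 108)) (XT.lf (nat_lit 0) (nat_lit 38691215221) (nat_lit 380) (nat_lit 955951206) (nat_lit 76) (nat_lit 5268268266) (nat_lit 70) (nat_lit 5) (nat_lit 75) (nat_lit 5) (nat_lit 71) (nat_lit 5) (nat_lit 360) (nat_lit 313) (nat_lit 107))))))) (XT.nd (nat_lit 858) (nat_lit 228) (nat_lit 0) (XT.nd (nat_lit 390) (nat_lit 608) (nat_lit 0) (XT.nd (nat_lit 156) (nat_lit 608) (nat_lit 0) (XT.nd (nat_lit 78) (nat_lit 76) (nat_lit 0) (XT.lf (nat_lit 0) (nat_lit 18034329422)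 (nat_lit 304) (nat_lit 27042141372) (nat_lit 380) (nat_lit 753788510) (nat_lit 66) (nat_lit 5) (nat_lit 70) (nat_lit 5) (nat_lit 71) (nat_lit 5) (nat_lit 361) (nat_lit 313) (nat_lit 106)) (XT.lf (nat_lit 0) (nat_lit 4793413324) (nat_lit 380) (nat_lit 9207773298) (nat_lit 76) (nat_lit 32769700763) (nat_lit 65) (nat_lit 5) (nat_lit 70) (nat_lit 5) (nat_lit 66) (nat_lit 5) (nat_lit 362) (nat_lit 313) (nat_lit 105))) (XT.nd (nat_lit 78) (nat_lit 304) (nat_lit 0) (XT.lf (nat_lit 0) (nat_lit 10125789935) (nat_lit 304) (nat_lit 461630289) (nat_lit 380) (nat_lit 37149227118) (nat_lit 61) (nat_lit 5) (nat_lit 65) (nat_lit 5) (nat_lit 66) (nat_lit 5) (nat_lit 363) (nat_lit 313) (nat_lit 104)) (XT.nd (nat_lit 78) (nat_lit 304) (nat_lit 0) (XT.lf (nat_lit 0) (nat_lit 16776994307) (nat_lit 380) (nat_lit 18633411140) (nat_lit 76) (nat_lit 13314325266) (nat_lit 61) (nat_lit 5) (nat_lit 66) (nat_lit 5) (nat_lit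 62) (nat_lit 5) (nat_lit 364) (nat_lit 313) (nat_lit 103)) (XT.lf (nat_lit 0) (nat_lit 924505330) (nat_lit 304) (nat_lit 22239487769) (nat_lit 380) (nat_lit 26578114298) (nat_lit 57) (nat_lit 5) (nat_lit 61) (nat_lit 5) (nat_lit 62) (nat_lit 5) (nat_lit 365) (nat_lit 313) (nat_lit 102))))) (XT.nd (nat_lit 234) (nat_lit 380) (nat_lit 0) (XT.nd (nat_lit 78) (nat_lit 228) (nat_lit 0) (XT.lf (nat_lit 0) (nat_lit 21448825715) (nat_lit 304) (nat_lit 8480245024) (nat_lit 380) (nat_lit 20855343426) (nat_lit 57) (nat_lit 5) (nat_lit 61) (nat_lit 5) (nat_lit 62) (nat_lit 5) (nat_lit 366) (nat_lit 313) (nat_lit 101)) (XT.nd (nat_lit 78) (nat_lit 228) (nat_lit 0) (XT.lf (nat_lit 0) (nat_lit 36950165105) (nat_lit 380) (nat_lit 9326106866) (nat_lit 76) (nat_lit 5580129001) (nat_lit 57) (nat_lit 5) (nat_lit 62) (nat_lit 5) (nat_lit 58) (nat_lit 5) (nat_lit 367) (nat_lit 313) (nat_lit 100)) (XT.lf (nat_lit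 0) (nat_lit 11420334992) (nat_lit 228) (nat_lit 32953698961) (nat_lit 304) (nat_lit 8580751865) (nat_lit 54) (nat_lit 5) (nat_lit 57) (nat_lit 5) (nat_lit 58) (nat_lit 5) (nat_lit 368) (nat_lit 313) (nat_lit 99)))) (XT.nd (nat_lit 78) (nat_lit 380) (nat_lit 0) (XT.lf (nat_lit 0) (nat_lit 32978154632) (nat_lit 228) (nat_lit 19135064763) (nat_lit 304) (nat_lit 1970127409) (nat_lit 54) (nat_lit 5) (nat_lit 57) (nat_lit 5) (nat_lit 58) (nat_lit 5) (nat_lit 369) (nat_lit 313) (nat_lit 98)) (XT.nd (nat_lit 78) (nat_lit 304) (nat_lit 0) (XT.lf (nat_lit 0) (nat_lit 4742846437) (nat_lit 304) (nat_lit 111730348) (nat_lit 76) (nat_lit 50389841282) (nat_lit 53) (nat_lit 5) (nat_lit 57) (nat_lit 5) (nat_lit 54) (nat_lit 5) (nat_lit 370) (nat_lit 313) (nat_lit 97)) (XT.lf (nat_lit 0) (nat_lit 11923795119) (nat_lit 380) (nat_lit 34612839456) (nat_lit 76) (nat_lit 9893918597) (nat_lit 49) (nat_lit 5) (nat_lit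 54) (nat_lit 5) (nat_lit 50) (nat_lit 5) (nat_lit 371) (nat_lit 313) (nat_lit 96)))))) (XT.nd (nat_lit 36348) (nat_lit 0) (nat_lit 8056) (XT.nd (nat_lit 36114) (nat_lit 0) (nat_lit 7980) (XT.nd (nat_lit 78) (nat_lit 228) (nat_lit 0) (XT.lf (nat_lit 0) (nat_lit 19367893236) (nat_lit 380) (nat_lit 13295101615) (nat_lit 76) (nat_lit 24987848166) (nat_lit 49) (nat_lit 5) (nat_lit 54) (nat_lit 5) (nat_lit 50) (nat_lit 5) (nat_lit 372) (nat_lit 313) (nat_lit 95)) (XT.nd (nat_lit 78) (nat_lit 0) (nat_lit 0) (XT.lf (nat_lit 0) (nat_lit 8832464952) (nat_lit 228) (nat_lit 18286312042) (nat_lit 304) (nat_lit 31786462933) (nat_lit 46) (nat_lit 5) (nat_lit 49) (nat_lit 5) (nat_lit 50) (nat_lit 5) (nat_lit 373) (nat_lit 313) (nat_lit 94)) (XT.lf (nat_lit 0) (nat_lit 31894358615) (nat_lit 228) (nat_lit 3340665125) (nat_lit 304) (nat_lit 24958262095) (nat_lit 46) (nat_lit 5) (nat_lit 49) (nat_lit 5) (nat_lit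 50) (nat_lit 5) (nat_lit 374) (nat_lit 313) (nat_lit 93)))) (XT.nd (nat_lit 78) (nat_lit 0) (nat_lit 0) (XT.lf (nat_lit 0) (nat_lit 4937573034) (nat_lit 1140) (nat_lit 2632522228) (nat_lit 1140) (nat_lit 2632522228) (nat_lit 151) (nat_lit 3) (nat_lit 166) (nat_lit 3) (nat_lit 166) (nat_lit 5) (nat_lit 314) (nat_lit 314) (nat_lit 152)) (XT.nd (nat_lit 78) (nat_lit 0) (nat_lit 76) (XT.lf (nat_lit 76) (nat_lit 3277497538) (nat_lit 0) (nat_lit 6920504405) (nat_lit 1140) (nat_lit 10507719842) (nat_lit 152) (nat_lit 5) (nat_lit 151) (nat_lit 3) (nat_lit 166) (nat_lit 5) (nat_lit 315) (nat_lit 314) (nat_lit 151)) (XT.lf (nat_lit 0) (nat_lit 10593503249) (nat_lit 1064) (nat_lit 8847920268) (nat_lit 1140) (nat_lit 1571924537) (nat_lit 152) (nat_lit 5) (nat_lit 166) (nat_lit 5) (nat_lit 167) (nat_lit 5) (nat_lit 316) (nat_lit 314) (nat_lit 150))))) (XT.nd (nat_lit 234) (nat_lit 0) (nat_lit 76) (XT.nd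 (nat_lit 78) (nat_lit 0) (nat_lit 0) (XT.lf (nat_lit 0) (nat_lit 11063960135) (nat_lit 1064) (nat_lit 81786049) (nat_lit 1140) (nat_lit 10182577465) (nat_lit 152) (nat_lit 5) (nat_lit 166) (nat_lit 5) (nat_lit 167) (nat_lit 5) (nat_lit 317) (nat_lit 314) (nat_lit 149)) (XT.nd (nat_lit 78) (nat_lit 0) (nat_lit 76) (XT.lf (nat_lit 76) (nat_lit 9122372604) (nat_lit 0) (nat_lit 2508576780) (nat_lit 1140) (nat_lit 10019339440) (nat_lit 153) (nat_lit 5) (nat_lit 152) (nat_lit 5) (nat_lit 167) (nat_lit 5) (nat_lit 318) (nat_lit 314) (nat_lit 148)) (XT.lf (nat_lit 0) (nat_lit 12272060211) (nat_lit 1064) (nat_lit 3442095247) (nat_lit 1140) (nat_lit 6266056636) (nat_lit 153) (nat_lit 5) (nat_lit 167) (nat_lit 5) (nat_lit 168) (nat_lit 5) (nat_lit 319) (nat_lit 314) (nat_lit 147)))) (XT.nd (nat_lit 78) (nat_lit 0) (nat_lit 76) (XT.lf (nat_lit 76) (nat_lit 6005616412) (nat_lit 0) (nat_lit 7004379553) (nat_lit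 1140) (nat_lit 9307721479) (nat_lit 154) (nat_lit 5) (nat_lit 153) (nat_lit 5) (nat_lit 168) (nat_lit 5) (nat_lit 320) (nat_lit 314) (nat_lit 146)) (XT.nd (nat_lit 78) (nat_lit 0) (nat_lit 0) (XT.lf (nat_lit 0) (nat_lit 13819235722) (nat_lit 1064) (nat_lit 6879418704) (nat_lit 1140) (nat_lit 1965230329) (nat_lit 154) (nat_lit 5) (nat_lit 168) (nat_lit 5) (nat_lit 169) (nat_lit 5) (nat_lit 321) (nat_lit 314) (nat_lit 145)) (XT.lf (nat_lit 76) (nat_lit 2818808288) (nat_lit 0) (nat_lit 11925690154) (nat_lit 1140) (nat_lit 8273197704) (nat_lit 155) (nat_lit 5) (nat_lit 154) (nat_lit 5) (nat_lit 169) (nat_lit 5) (nat_lit 322) (nat_lit 314) (nat_lit 144))))))))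
noncomputable def xc232 : XT := (XT.nd (nat_lit 1716) (nat_lit 3800) (nat_lit 0) (XT.nd (nat_lit 858) (nat_lit 2660) (nat_lit 0) (XT.nd (nat_lit 390) (nat_lit 912) (nat_lit 0) (XT.nd (nat_lit 156) (nat_lit 0) (nat_lit 76) (XT.nd (nat_lit 78) (nat_lit 0) (nat_lit 76) (XT.lf (nat_lit 76) (nat_lit 12945943115) (nat_lit 0) (nat_lit 2816451434) (nat_lit 1140) (nat_lit 7617792169) (nat_lit 155) (nat_lit 5) (nat_lit 154) (nat_lit 5) (nat_lit 169) (nat_lit 5) (nat_lit 323) (nat_lit 314) (nat_lit 143)) (XT.lf (nat_lit 0) (nat_lit 16869499516) (nat_lit 1064) (nat_lit 442907093) (nat_lit 1140) (nat_lit 6439396016) (nat_lit 155) (nat_lit 5) (nat_lit 169) (nat_lit 5) (nat_lit 170) (nat_lit 5) (nat_lit 324) (nat_lit 314) (nat_lit 142))) (XT.nd (nat_lit 78) (nat_lit 0) (nat_lit 76) (XT.lf (nat_lit 76) (nat_lit 10012627400) (nat_lit 0) (nat_lit 8117007805) (nat_lit 1140) (nat_lit 6001347742) (nat_lit 156) (nat_lit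 5) (nat_lit 155) (nat_lit 5) (nat_lit 170) (nat_lit 5) (nat_lit 325) (nat_lit 314) (nat_lit 141)) (XT.nd (nat_lit 78) (nat_lit 0) (nat_lit 0) (XT.lf (nat_lit 0) (nat_lit 19440902466) (nat_lit 1064) (nat_lit 3746717043) (nat_lit 1140) (nat_lit 1333529505) (nat_lit 156) (nat_lit 5) (nat_lit 170) (nat_lit 5) (nat_lit 171) (nat_lit 5) (nat_lit 326) (nat_lit 314) (nat_lit 140)) (XT.lf (nat_lit 76) (nat_lit 6989019676) (nat_lit 0) (nat_lit 13945952571) (nat_lit 1140) (nat_lit 3983753745) (nat_lit 157) (nat_lit 5) (nat_lit 156) (nat_lit 5) (nat_lit 171) (nat_lit 5) (nat_lit 327) (nat_lit 314) (nat_lit 139))))) (XT.nd (nat_lit 234) (nat_lit 1064) (nat_lit 0) (XT.nd (nat_lit 78) (nat_lit 0) (nat_lit 76) (XT.lf (nat_lit 76) (nat_lit 18120597103) (nat_lit 0) (nat_lit 4387106663) (nat_lit 1140) (nat_lit 2819520901) (nat_lit 157) (nat_lit 5) (nat_lit 156) (nat_lit 5) (nat_lit 171) (nat_lit 5) (nat_lit 328)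 (nat_lit 314) (nat_lit 138)) (XT.nd (nat_lit 78) (nat_lit 0) (nat_lit 0) (XT.lf (nat_lit 76) (nat_lit 3857872434) (nat_lit 0) (nat_lit 20355429968) (nat_lit 1140) (nat_lit 1532114642) (nat_lit 158) (nat_lit 5) (nat_lit 157) (nat_lit 5) (nat_lit 172) (nat_lit 5) (nat_lit 329) (nat_lit 314) (nat_lit 137)) (XT.lf (nat_lit 76) (nat_lit 15354683653) (nat_lit 0) (nat_lit 10727382832) (nat_lit 1140) (nat_lit 90737810) (nat_lit 158) (nat_lit 5) (nat_lit 157) (nat_lit 5) (nat_lit 172) (nat_lit 5) (nat_lit 330) (nat_lit 314) (nat_lit 136)))) (XT.nd (nat_lit 78) (nat_lit 0) (nat_lit 76) (XT.lf (nat_lit 76) (nat_lit 578225383) (nat_lit 0) (nat_lit 790292692) (nat_lit 1216) (nat_lit 25244046511) (nat_lit 143) (nat_lit 5) (nat_lit 142) (nat_lit 5) (nat_lit 158) (nat_lit 5) (nat_lit 331) (nat_lit 314) (nat_lit 135)) (XT.nd (nat_lit 78) (nat_lit 0) (nat_lit 0) (XT.lf (nat_lit 0) (nat_lit 3067206091) (nat_lit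 1140) (nat_lit 14619926788) (nat_lit 76) (nat_lit 9372441770) (nat_lit 143) (nat_lit 5) (nat_lit 158) (nat_lit 5) (nat_lit 144) (nat_lit 5) (nat_lit 332) (nat_lit 314) (nat_lit 134)) (XT.lf (nat_lit 0) (nat_lit 4821149844) (nat_lit 1140) (nat_lit 2873954023) (nat_lit 76) (nat_lit 19824770315) (nat_lit 143) (nat_lit 5) (nat_lit 158) (nat_lit 5) (nat_lit 144) (nat_lit 5) (nat_lit 333) (nat_lit 314) (nat_lit 133)))))) (XT.nd (nat_lit 390) (nat_lit 988) (nat_lit 0) (XT.nd (nat_lit 156) (nat_lit 1064) (nat_lit 0) (XT.nd (nat_lit 78) (nat_lit 0) (nat_lit 0) (XT.lf (nat_lit 0) (nat_lit 6740551944) (nat_lit 760) (nat_lit 18612277585) (nat_lit 76) (nat_lit 2637775756) (nat_lit 134) (nat_lit 5) (nat_lit 144) (nat_lit 5) (nat_lit 135) (nat_lit 5) (nat_lit 334) (nat_lit 314) (nat_lit 132)) (XT.lf (nat_lit 0) (nat_lit 8819682855) (nat_lit 760) (nat_lit 6497014938) (nat_lit 76) (nat_lit 13155703688) (nat_lit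 134) (nat_lit 5) (nat_lit 144) (nat_lit 5) (nat_lit 135) (nat_lit 5) (nat_lit 335) (nat_lit 314) (nat_lit 131))) (XT.nd (nat_lit 78) (nat_lit 532) (nat_lit 0) (XT.lf (nat_lit 0) (nat_lit 6097741198) (nat_lit 532) (nat_lit 4918808276) (nat_lit 608) (nat_lit 17950448575) (nat_lit 127) (nat_lit 5) (nat_lit 134) (nat_lit 5) (nat_lit 135) (nat_lit 5) (nat_lit 336) (nat_lit 314) (nat_lit 130)) (XT.nd (nat_lit 78) (nat_lit 532) (nat_lit 0) (XT.lf (nat_lit 0) (nat_lit 13398061321) (nat_lit 608) (nat_lit 10330287810) (nat_lit 76) (nat_lit 5744528330) (nat_lit 127) (nat_lit 5) (nat_lit 135) (nat_lit 5) (nat_lit 128) (nat_lit 5) (nat_lit 337) (nat_lit 314) (nat_lit 129)) (XT.lf (nat_lit 0) (nat_lit 2583623689) (nat_lit 532) (nat_lit 13337839758) (nat_lit 608) (nat_lit 14070363381) (nat_lit 120) (nat_lit 5) (nat_lit 127) (nat_lit 5) (nat_lit 128) (nat_lit 5) (nat_lit 338) (nat_lit 314) (nat_lit 128)))))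 (XT.nd (nat_lit 234) (nat_lit 532) (nat_lit 0) (XT.nd (nat_lit 78) (nat_lit 456) (nat_lit 0) (XT.lf (nat_lit 0) (nat_lit 16093800800) (nat_lit 532) (nat_lit 2528053017) (nat_lit 608) (nat_lit 11901458989) (nat_lit 120) (nat_lit 5) (nat_lit 127) (nat_lit 5) (nat_lit 128) (nat_lit 5) (nat_lit 339) (nat_lit 314) (nat_lit 127)) (XT.nd (nat_lit 78) (nat_lit 456) (nat_lit 0) (XT.lf (nat_lit 0) (nat_lit 21483042155) (nat_lit 608) (nat_lit 1147110066) (nat_lit 76) (nat_lit 8438204077) (nat_lit 120) (nat_lit 5) (nat_lit 128) (nat_lit 5) (nat_lit 121) (nat_lit 5) (nat_lit 340) (nat_lit 314) (nat_lit 126)) (XT.lf (nat_lit 0) (nat_lit 12754787167) (nat_lit 456) (nat_lit 11820061512) (nat_lit 532) (nat_lit 7050565270) (nat_lit 114) (nat_lit 5) (nat_lit 120) (nat_lit 5) (nat_lit 121) (nat_lit 5) (nat_lit 341) (nat_lit 314) (nat_lit 125)))) (XT.nd (nat_lit 78) (nat_lit 532) (nat_lit 0) (XT.lf (nat_lit 0) (nat_lit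 27094445403) (nat_lit 456) (nat_lit 673749176) (nat_lit 532) (nat_lit 4430731344) (nat_lit 114) (nat_lit 5) (nat_lit 120) (nat_lit 5) (nat_lit 121) (nat_lit 5) (nat_lit 342) (nat_lit 314) (nat_lit 124)) (XT.nd (nat_lit 78) (nat_lit 76) (nat_lit 0) (XT.lf (nat_lit 0) (nat_lit 9146430852) (nat_lit 456) (nat_lit 22099997140) (nat_lit 532) (nat_lit 1537548617) (nat_lit 108) (nat_lit 5) (nat_lit 114) (nat_lit 5) (nat_lit 115) (nat_lit 5) (nat_lit 343) (nat_lit 314) (nat_lit 123)) (XT.lf (nat_lit 0) (nat_lit 1470312249) (nat_lit 532) (nat_lit 9479420429) (nat_lit 76) (nat_lit 22434754907) (nat_lit 107) (nat_lit 5) (nat_lit 114) (nat_lit 5) (nat_lit 108) (nat_lit 5) (nat_lit 344) (nat_lit 314) (nat_lit 122))))))) (XT.nd (nat_lit 858) (nat_lit 1672) (nat_lit 0) (XT.nd (nat_lit 390) (nat_lit 1216) (nat_lit 0) (XT.nd (nat_lit 156) (nat_lit 456) (nat_lit 0) (XT.nd (nat_lit 78) (nat_lit 0) (nat_lit 0) (XT.lf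 (nat_lit 0) (nat_lit 4590531100) (nat_lit 532) (nat_lit 28820260309) (nat_lit 76) (nat_lit 590180486) (nat_lit 101) (nat_lit 5) (nat_lit 108) (nat_lit 5) (nat_lit 102) (nat_lit 5) (nat_lit 345) (nat_lit 314) (nat_lit 121)) (XT.lf (nat_lit 0) (nat_lit 8006871162) (nat_lit 532) (nat_lit 14270291998) (nat_lit 76) (nat_lit 12352717435) (nat_lit 101) (nat_lit 5) (nat_lit 108) (nat_lit 5) (nat_lit 102) (nat_lit 5) (nat_lit 346) (nat_lit 314) (nat_lit 120))) (XT.nd (nat_lit 78) (nat_lit 0) (nat_lit 0) (XT.lf (nat_lit 0) (nat_lit 727637880) (nat_lit 456) (nat_lit 10802563032) (nat_lit 532) (nat_lit 23747325809) (nat_lit 95) (nat_lit 5) (nat_lit 101) (nat_lit 5) (nat_lit 102) (nat_lit 5) (nat_lit 347) (nat_lit 314) (nat_lit 119)) (XT.nd (nat_lit 78) (nat_lit 0) (nat_lit 0) (XT.lf (nat_lit 0) (nat_lit 15312077434) (nat_lit 532) (nat_lit 19486227761) (nat_lit 76) (nat_lit 1141716628) (nat_lit 95) (nat_lit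 5) (nat_lit 102) (nat_lit 5) (nat_lit 96) (nat_lit 5) (nat_lit 348) (nat_lit 314) (nat_lit 118)) (XT.lf (nat_lit 0) (nat_lit 19311986807) (nat_lit 532) (nat_lit 4080317217) (nat_lit 76) (nat_lit 13226955308) (nat_lit 95) (nat_lit 5) (nat_lit 102) (nat_lit 5) (nat_lit 96) (nat_lit 5) (nat_lit 349) (nat_lit 314) (nat_lit 117))))) (XT.nd (nat_lit 234) (nat_lit 456) (nat_lit 0) (XT.nd (nat_lit 78) (nat_lit 380) (nat_lit 0) (XT.lf (nat_lit 0) (nat_lit 12019692602) (nat_lit 380) (nat_lit 11525431288) (nat_lit 456) (nat_lit 13770357876) (nat_lit 90) (nat_lit 5) (nat_lit 95) (nat_lit 5) (nat_lit 96) (nat_lit 5) (nat_lit 350) (nat_lit 314) (nat_lit 116)) (XT.nd (nat_lit 78) (nat_lit 380) (nat_lit 0) (XT.lf (nat_lit 0) (nat_lit 27951299435) (nat_lit 456) (nat_lit 9354791018) (nat_lit 76) (nat_lit 725123663) (nat_lit 90) (nat_lit 5) (nat_lit 96) (nat_lit 5) (nat_lit 91) (nat_lit 5) (nat_lit 351) (nat_lit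 314) (nat_lit 115)) (XT.lf (nat_lit 0) (nat_lit 7086005919) (nat_lit 380) (nat_lit 25583677579) (nat_lit 456) (nat_lit 6093338682) (nat_lit 85) (nat_lit 5) (nat_lit 90) (nat_lit 5) (nat_lit 91) (nat_lit 5) (nat_lit 352) (nat_lit 314) (nat_lit 114)))) (XT.nd (nat_lit 78) (nat_lit 456) (nat_lit 0) (XT.lf (nat_lit 0) (nat_lit 24209224744) (nat_lit 380) (nat_lit 13412693987) (nat_lit 456) (nat_lit 1892101075) (nat_lit 85) (nat_lit 5) (nat_lit 90) (nat_lit 5) (nat_lit 91) (nat_lit 5) (nat_lit 353) (nat_lit 314) (nat_lit 113)) (XT.nd (nat_lit 78) (nat_lit 0) (nat_lit 0) (XT.lf (nat_lit 0) (nat_lit 1563149340) (nat_lit 380) (nat_lit 837404010) (nat_lit 456) (nat_lit 37885908865) (nat_lit 79) (nat_lit 5) (nat_lit 84) (nat_lit 5) (nat_lit 85) (nat_lit 5) (nat_lit 354) (nat_lit 314) (nat_lit 112)) (XT.lf (nat_lit 0) (nat_lit 7054401323) (nat_lit 456) (nat_lit 21965873514) (nat_lit 76) (nat_lit 12053131694)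 (nat_lit 79) (nat_lit 5) (nat_lit 85) (nat_lit 5) (nat_lit 80) (nat_lit 5) (nat_lit 355) (nat_lit 314) (nat_lit 111)))))) (XT.nd (nat_lit 468) (nat_lit 988) (nat_lit 0) (XT.nd (nat_lit 234) (nat_lit 304) (nat_lit 0) (XT.nd (nat_lit 78) (nat_lit 380) (nat_lit 0) (XT.lf (nat_lit 0) (nat_lit 11854123326) (nat_lit 456) (nat_lit 4716502494) (nat_lit 76) (nat_lit 25313149430) (nat_lit 79) (nat_lit 5) (nat_lit 85) (nat_lit 5) (nat_lit 80) (nat_lit 5) (nat_lit 356) (nat_lit 314) (nat_lit 110)) (XT.nd (nat_lit 78) (nat_lit 0) (nat_lit 0) (XT.lf (nat_lit 0) (nat_lit 13307601325) (nat_lit 380) (nat_lit 3616183133) (nat_lit 456) (nat_lit 25790895869) (nat_lit 74) (nat_lit 5) (nat_lit 79) (nat_lit 5) (nat_lit 80) (nat_lit 5) (nat_lit 357) (nat_lit 314) (nat_lit 109)) (XT.lf (nat_lit 0) (nat_lit 22285191818) (nat_lit 456) (nat_lit 11696405277) (nat_lit 76) (nat_lit 9584729379) (nat_lit 74) (nat_lit 5) (nat_lit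 80) (nat_lit 5) (nat_lit 75) (nat_lit 5) (nat_lit 358) (nat_lit 314) (nat_lit 108)))) (XT.nd (nat_lit 78) (nat_lit 0) (nat_lit 0) (XT.lf (nat_lit 0) (nat_lit 6636905400) (nat_lit 304) (nat_lit 21268250955) (nat_lit 380) (nat_lit 16535437705) (nat_lit 70) (nat_lit 5) (nat_lit 74) (nat_lit 5) (nat_lit 75) (nat_lit 5) (nat_lit 359) (nat_lit 314) (nat_lit 107)) (XT.nd (nat_lit 78) (nat_lit 0) (nat_lit 0) (XT.lf (nat_lit 0) (nat_lit 25757614269) (nat_lit 304) (nat_lit 8052361703) (nat_lit 380) (nat_lit 11527629424) (nat_lit 70) (nat_lit 5) (nat_lit 74) (nat_lit 5) (nat_lit 75) (nat_lit 5) (nat_lit 360) (nat_lit 314) (nat_lit 106)) (XT.lf (nat_lit 0) (nat_lit 39943580967) (nat_lit 380) (nat_lit 865378437) (nat_lit 76) (nat_lit 5451021747) (nat_lit 70) (nat_lit 5) (nat_lit 75) (nat_lit 5) (nat_lit 71) (nat_lit 5) (nat_lit 361) (nat_lit 314) (nat_lit 105))))) (XT.nd (nat_lit 234) (nat_lit 304) (nat_lit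 0) (XT.nd (nat_lit 78) (nat_lit 380) (nat_lit 0) (XT.lf (nat_lit 0) (nat_lit 18693441480) (nat_lit 304) (nat_lit 27825418992) (nat_lit 380) (nat_lit 683440925) (nat_lit 66) (nat_lit 5) (nat_lit 70) (nat_lit 5) (nat_lit 71) (nat_lit 5) (nat_lit 362) (nat_lit 314) (nat_lit 104)) (XT.nd (nat_lit 78) (nat_lit 304) (nat_lit 0) (XT.lf (nat_lit 0) (nat_lit 5025708182) (nat_lit 380) (nat_lit 9367448961) (nat_lit 76) (nat_lit 33778048616) (nat_lit 65) (nat_lit 5) (nat_lit 70) (nat_lit 5) (nat_lit 66) (nat_lit 5) (nat_lit 363) (nat_lit 314) (nat_lit 103)) (XT.lf (nat_lit 0) (nat_lit 10544978447) (nat_lit 304) (nat_lit 447088829) (nat_lit 380) (nat_lit 38173919750) (nat_lit 61) (nat_lit 5) (nat_lit 65) (nat_lit 5) (nat_lit 66) (nat_lit 5) (nat_lit 364) (nat_lit 314) (nat_lit 102)))) (XT.nd (nat_lit 78) (nat_lit 304) (nat_lit 0) (XT.lf (nat_lit 0) (nat_lit 17365058846) (nat_lit 380) (nat_lit 19077945858)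 (nat_lit 76) (nat_lit 13740780627) (nat_lit 61) (nat_lit 5) (nat_lit 66) (nat_lit 5) (nat_lit 62) (nat_lit 5) (nat_lit 365) (nat_lit 314) (nat_lit 101)) (XT.nd (nat_lit 78) (nat_lit 0) (nat_lit 0) (XT.lf (nat_lit 0) (nat_lit 1065585876) (nat_lit 304) (nat_lit 22876702688) (nat_lit 380) (nat_lit 27289440336) (nat_lit 57) (nat_lit 5) (nat_lit 61) (nat_lit 5) (nat_lit 62) (nat_lit 5) (nat_lit 366) (nat_lit 314) (nat_lit 100)) (XT.lf (nat_lit 0) (nat_lit 22202334550) (nat_lit 304) (nat_lit 8705555564) (nat_lit 380) (nat_lit 21397491699) (nat_lit 57) (nat_lit 5) (nat_lit 61) (nat_lit 5) (nat_lit 62) (nat_lit 5) (nat_lit 367) (nat_lit 314) (nat_lit 99))))))))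
noncomputable def xc233 : XT := (XT.nd (nat_lit 37674) (nat_lit 0) (nat_lit 3344) (XT.nd (nat_lit 36816) (nat_lit 0) (nat_lit 8056) (XT.nd (nat_lit 390) (nat_lit 228) (nat_lit 0) (XT.nd (nat_lit 156) (nat_lit 380) (nat_lit 0) (XT.nd (nat_lit 78) (nat_lit 228) (nat_lit 0) (XT.lf (nat_lit 0) (nat_lit 38137531174) (nat_lit 380) (nat_lit 9496832651) (nat_lit 76) (nat_lit 5775230955) (nat_lit 57) (nat_lit 5) (nat_lit 62) (nat_lit 5) (nat_lit 58) (nat_lit 5) (nat_lit 368) (nat_lit 314) (nat_lit 98)) (XT.lf (nat_lit 0) (nat_lit 11870933273) (nat_lit 228) (nat_lit 33911923939) (nat_lit 304) (nat_lit 8758115582) (nat_lit 54) (nat_lit 5) (nat_lit 57) (nat_lit 5) (nat_lit 58) (nat_lit 5) (nat_lit 369) (nat_lit 314) (nat_lit 97))) (XT.nd (nat_lit 78) (nat_lit 380) (nat_lit 0) (XT.lf (nat_lit 0) (nat_lit 34072342214) (nat_lit 228) (nat_lit 19679615744) (nat_lit 304) (nat_lit 1951504204) (nat_lit 54) (nat_lit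 5) (nat_lit 57) (nat_lit 5) (nat_lit 58) (nat_lit 5) (nat_lit 370) (nat_lit 314) (nat_lit 96)) (XT.nd (nat_lit 78) (nat_lit 304) (nat_lit 0) (XT.lf (nat_lit 0) (nat_lit 4959122406) (nat_lit 304) (nat_lit 11702812) (nat_lit 76) (nat_lit 51928588050) (nat_lit 53) (nat_lit 5) (nat_lit 57) (nat_lit 5) (nat_lit 54) (nat_lit 5) (nat_lit 371) (nat_lit 314) (nat_lit 95)) (XT.lf (nat_lit 0) (nat_lit 12354612505) (nat_lit 380) (nat_lit 35546843951) (nat_lit 76) (nat_lit 10219706006) (nat_lit 49) (nat_lit 5) (nat_lit 54) (nat_lit 5) (nat_lit 50) (nat_lit 5) (nat_lit 372) (nat_lit 314) (nat_lit 94))))) (XT.nd (nat_lit 36192) (nat_lit 0) (nat_lit 7980) (XT.nd (nat_lit 78) (nat_lit 228) (nat_lit 0) (XT.lf (nat_lit 0) (nat_lit 20019904337) (nat_lit 380) (nat_lit 13592614189) (nat_lit 76) (nat_lit 25765609680) (nat_lit 49) (nat_lit 5) (nat_lit 54) (nat_lit 5) (nat_lit 50) (nat_lit 5) (nat_lit 373) (nat_lit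 314) (nat_lit 93)) (XT.nd (nat_lit 36036) (nat_lit 0) (nat_lit 7980) (XT.lf (nat_lit 0) (nat_lit 9197785840) (nat_lit 228) (nat_lit 18804426150) (nat_lit 304) (nat_lit 32667981341) (nat_lit 46) (nat_lit 5) (nat_lit 49) (nat_lit 5) (nat_lit 50) (nat_lit 5) (nat_lit 374) (nat_lit 314) (nat_lit 92)) (XT.lf (nat_lit 0) (nat_lit 5227546847) (nat_lit 1140) (nat_lit 2638273635) (nat_lit 1140) (nat_lit 2638273635) (nat_lit 151) (nat_lit 3) (nat_lit 166) (nat_lit 3) (nat_lit 166) (nat_lit 5) (nat_lit 315) (nat_lit 315) (nat_lit 150)))) (XT.nd (nat_lit 78) (nat_lit 0) (nat_lit 76) (XT.lf (nat_lit 76) (nat_lit 3520835214) (nat_lit 0) (nat_lit 7259931074) (nat_lit 1140) (nat_lit 10537149610) (nat_lit 152) (nat_lit 5) (nat_lit 151) (nat_lit 3) (nat_lit 166) (nat_lit 5) (nat_lit 316) (nat_lit 315) (nat_lit 149)) (XT.nd (nat_lit 78) (nat_lit 0) (nat_lit 0) (XT.lf (nat_lit 0) (nat_lit 11178839641) (nat_lit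 1064) (nat_lit 8962622590) (nat_lit 1140) (nat_lit 1493607109) (nat_lit 152) (nat_lit 5) (nat_lit 166) (nat_lit 5) (nat_lit 167) (nat_lit 5) (nat_lit 317) (nat_lit 315) (nat_lit 148)) (XT.lf (nat_lit 76) (nat_lit 63341323) (nat_lit 0) (nat_lit 11592885612) (nat_lit 1140) (nat_lit 10303501794) (nat_lit 153) (nat_lit 5) (nat_lit 152) (nat_lit 5) (nat_lit 167) (nat_lit 5) (nat_lit 318) (nat_lit 315) (nat_lit 147)))))) (XT.nd (nat_lit 390) (nat_lit 0) (nat_lit 152) (XT.nd (nat_lit 156) (nat_lit 0) (nat_lit 76) (XT.nd (nat_lit 78) (nat_lit 0) (nat_lit 76) (XT.lf (nat_lit 76) (nat_lit 9540953966) (nat_lit 0) (nat_lit 2692490769) (nat_lit 1140) (nat_lit 10058130029) (nat_lit 153) (nat_lit 5) (nat_lit 152) (nat_lit 5) (nat_lit 167) (nat_lit 5) (nat_lit 319) (nat_lit 315) (nat_lit 146)) (XT.lf (nat_lit 0) (nat_lit 12885389390) (nat_lit 1064) (nat_lit 3395671325) (nat_lit 1140) (nat_lit 6350604934) (nat_lit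 153) (nat_lit 5) (nat_lit 167) (nat_lit 5) (nat_lit 168) (nat_lit 5) (nat_lit 320) (nat_lit 315) (nat_lit 145))) (XT.nd (nat_lit 78) (nat_lit 0) (nat_lit 76) (XT.lf (nat_lit 76) (nat_lit 6334004166) (nat_lit 0) (nat_lit 7305743028) (nat_lit 1140) (nat_lit 9339737859) (nat_lit 154) (nat_lit 5) (nat_lit 153) (nat_lit 5) (nat_lit 168) (nat_lit 5) (nat_lit 321) (nat_lit 315) (nat_lit 144)) (XT.nd (nat_lit 78) (nat_lit 0) (nat_lit 0) (XT.lf (nat_lit 0) (nat_lit 14465438397) (nat_lit 1064) (nat_lit 6933509852) (nat_lit 1140) (nat_lit 1937340810) (nat_lit 154) (nat_lit 5) (nat_lit 168) (nat_lit 5) (nat_lit 169) (nat_lit 5) (nat_lit 322) (nat_lit 315) (nat_lit 143)) (XT.lf (nat_lit 76) (nat_lit 3054170897) (nat_lit 0) (nat_lit 12358991292) (nat_lit 1140) (nat_lit 8287727921) (nat_lit 155) (nat_lit 5) (nat_lit 154) (nat_lit 5) (nat_lit 169) (nat_lit 5) (nat_lit 323) (nat_lit 315) (nat_lit 142))))) (XT.nd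 (nat_lit 234) (nat_lit 0) (nat_lit 152) (XT.nd (nat_lit 78) (nat_lit 0) (nat_lit 76) (XT.lf (nat_lit 76) (nat_lit 13480727583) (nat_lit 0) (nat_lit 2974275494) (nat_lit 1140) (nat_lit 7619466017) (nat_lit 155) (nat_lit 5) (nat_lit 154) (nat_lit 5) (nat_lit 169) (nat_lit 5) (nat_lit 324) (nat_lit 315) (nat_lit 141)) (XT.nd (nat_lit 78) (nat_lit 0) (nat_lit 0) (XT.lf (nat_lit 0) (nat_lit 17588236729) (nat_lit 1064) (nat_lit 306452269) (nat_lit 1140) (nat_lit 6562772484) (nat_lit 155) (nat_lit 5) (nat_lit 169) (nat_lit 5) (nat_lit 170) (nat_lit 5) (nat_lit 325) (nat_lit 315) (nat_lit 140)) (XT.lf (nat_lit 76) (nat_lit 10461280200) (nat_lit 0) (nat_lit 8420127835) (nat_lit 1140) (nat_lit 5966767252) (nat_lit 156) (nat_lit 5) (nat_lit 155) (nat_lit 5) (nat_lit 170) (nat_lit 5) (nat_lit 326) (nat_lit 315) (nat_lit 139)))) (XT.nd (nat_lit 78) (nat_lit 0) (nat_lit 0) (XT.lf (nat_lit 0) (nat_lit 20225402130)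 (nat_lit 1064) (nat_lit 3708065998) (nat_lit 1140) (nat_lit 1316791124) (nat_lit 156) (nat_lit 5) (nat_lit 170) (nat_lit 5) (nat_lit 171) (nat_lit 5) (nat_lit 327) (nat_lit 315) (nat_lit 138)) (XT.nd (nat_lit 78) (nat_lit 0) (nat_lit 0) (XT.lf (nat_lit 76) (nat_lit 7348261914) (nat_lit 0) (nat_lit 14411607556) (nat_lit 1140) (nat_lit 3900040962) (nat_lit 157) (nat_lit 5) (nat_lit 156) (nat_lit 5) (nat_lit 171) (nat_lit 5) (nat_lit 328) (nat_lit 315) (nat_lit 137)) (XT.lf (nat_lit 76) (nat_lit 18809430208) (nat_lit 0) (nat_lit 4564619288) (nat_lit 1140) (nat_lit 2706800320) (nat_lit 157) (nat_lit 5) (nat_lit 156) (nat_lit 5) (nat_lit 171) (nat_lit 5) (nat_lit 329) (nat_lit 315) (nat_lit 136))))))) (XT.nd (nat_lit 858) (nat_lit 2280) (nat_lit 0) (XT.nd (nat_lit 390) (nat_lit 1672) (nat_lit 0) (XT.nd (nat_lit 156) (nat_lit 0) (nat_lit 0) (XT.nd (nat_lit 78) (nat_lit 1140) (nat_lit 0) (XT.lf (nat_lit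 76) (nat_lit 4123967898) (nat_lit 0) (nat_lit 21002298731) (nat_lit 1140) (nat_lit 1385471163) (nat_lit 158) (nat_lit 5) (nat_lit 157) (nat_lit 5) (nat_lit 172) (nat_lit 5) (nat_lit 330) (nat_lit 315) (nat_lit 135)) (XT.lf (nat_lit 0) (nat_lit 91711818) (nat_lit 1140) (nat_lit 10991717713) (nat_lit 1216) (nat_lit 15868666129) (nat_lit 142) (nat_lit 5) (nat_lit 157) (nat_lit 5) (nat_lit 158) (nat_lit 5) (nat_lit 331) (nat_lit 315) (nat_lit 134))) (XT.nd (nat_lit 78) (nat_lit 0) (nat_lit 76) (XT.lf (nat_lit 76) (nat_lit 744149238) (nat_lit 0) (nat_lit 844860382) (nat_lit 1216) (nat_lit 25816141760) (nat_lit 143) (nat_lit 5) (nat_lit 142) (nat_lit 5) (nat_lit 158) (nat_lit 5) (nat_lit 332) (nat_lit 315) (nat_lit 133)) (XT.nd (nat_lit 78) (nat_lit 0) (nat_lit 0) (XT.lf (nat_lit 0) (nat_lit 3333143990) (nat_lit 1140) (nat_lit 14908365494) (nat_lit 76) (nat_lit 9624239546) (nat_lit 143) (nat_lit 5)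 (nat_lit 158) (nat_lit 5) (nat_lit 144) (nat_lit 5) (nat_lit 333) (nat_lit 315) (nat_lit 132)) (XT.lf (nat_lit 0) (nat_lit 5134640375) (nat_lit 1140) (nat_lit 2814387112) (nat_lit 76) (nat_lit 20390993544) (nat_lit 143) (nat_lit 5) (nat_lit 158) (nat_lit 5) (nat_lit 144) (nat_lit 5) (nat_lit 334) (nat_lit 315) (nat_lit 131))))) (XT.nd (nat_lit 234) (nat_lit 532) (nat_lit 0) (XT.nd (nat_lit 78) (nat_lit 532) (nat_lit 0) (XT.lf (nat_lit 0) (nat_lit 7107892473) (nat_lit 760) (nat_lit 19020755795) (nat_lit 76) (nat_lit 2696348938) (nat_lit 134) (nat_lit 5) (nat_lit 144) (nat_lit 5) (nat_lit 135) (nat_lit 5) (nat_lit 335) (nat_lit 315) (nat_lit 130)) (XT.nd (nat_lit 78) (nat_lit 532) (nat_lit 0) (XT.lf (nat_lit 0) (nat_lit 9244587874) (nat_lit 760) (nat_lit 6546400999) (nat_lit 76) (nat_lit 13530413546) (nat_lit 134) (nat_lit 5) (nat_lit 144) (nat_lit 5) (nat_lit 135) (nat_lit 5) (nat_lit 336) (nat_lit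 315) (nat_lit 129)) (XT.lf (nat_lit 0) (nat_lit 6424771111) (nat_lit 532) (nat_lit 5079305181) (nat_lit 608) (nat_lit 18326869652) (nat_lit 127) (nat_lit 5) (nat_lit 134) (nat_lit 5) (nat_lit 135) (nat_lit 5) (nat_lit 337) (nat_lit 315) (nat_lit 128)))) (XT.nd (nat_lit 78) (nat_lit 532) (nat_lit 0) (XT.lf (nat_lit 0) (nat_lit 13952339099) (nat_lit 608) (nat_lit 10495260484) (nat_lit 76) (nat_lit 5904553215) (nat_lit 127) (nat_lit 5) (nat_lit 135) (nat_lit 5) (nat_lit 128) (nat_lit 5) (nat_lit 338) (nat_lit 315) (nat_lit 127)) (XT.nd (nat_lit 78) (nat_lit 0) (nat_lit 0) (XT.lf (nat_lit 0) (nat_lit 2804647419) (nat_lit 532) (nat_lit 13743738455) (nat_lit 608) (nat_lit 14338386423) (nat_lit 120) (nat_lit 5) (nat_lit 127) (nat_lit 5) (nat_lit 128) (nat_lit 5) (nat_lit 339) (nat_lit 315) (nat_lit 126)) (XT.lf (nat_lit 0) (nat_lit 16715949795) (nat_lit 532) (nat_lit 2609490243) (nat_lit 608) (nat_lit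 12108902896) (nat_lit 120) (nat_lit 5) (nat_lit 127) (nat_lit 5) (nat_lit 128) (nat_lit 5) (nat_lit 340) (nat_lit 315) (nat_lit 125)))))) (XT.nd (nat_lit 468) (nat_lit 836) (nat_lit 0) (XT.nd (nat_lit 234) (nat_lit 988) (nat_lit 0) (XT.nd (nat_lit 78) (nat_lit 456) (nat_lit 0) (XT.lf (nat_lit 0) (nat_lit 22268190524) (nat_lit 608) (nat_lit 1041661216) (nat_lit 76) (nat_lit 8686023554) (nat_lit 120) (nat_lit 5) (nat_lit 128) (nat_lit 5) (nat_lit 121) (nat_lit 5) (nat_lit 341) (nat_lit 315) (nat_lit 124)) (XT.nd (nat_lit 78) (nat_lit 0) (nat_lit 0) (XT.lf (nat_lit 0) (nat_lit 13275921737) (nat_lit 456) (nat_lit 12174063958) (nat_lit 532) (nat_lit 7119751034) (nat_lit 114) (nat_lit 5) (nat_lit 120) (nat_lit 5) (nat_lit 121) (nat_lit 5) (nat_lit 342) (nat_lit 315) (nat_lit 123)) (XT.lf (nat_lit 0) (nat_lit 28041736002) (nat_lit 456) (nat_lit 693379710) (nat_lit 532) (nat_lit 4425467659) (nat_lit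 114) (nat_lit 5) (nat_lit 120) (nat_lit 5) (nat_lit 121) (nat_lit 5) (nat_lit 343) (nat_lit 315) (nat_lit 122)))) (XT.nd (nat_lit 78) (nat_lit 532) (nat_lit 0) (XT.lf (nat_lit 0) (nat_lit 9558225339) (nat_lit 456) (nat_lit 22756897728) (nat_lit 532) (nat_lit 1448148268) (nat_lit 108) (nat_lit 5) (nat_lit 114) (nat_lit 5) (nat_lit 115) (nat_lit 5) (nat_lit 344) (nat_lit 315) (nat_lit 121)) (XT.nd (nat_lit 78) (nat_lit 456) (nat_lit 0) (XT.lf (nat_lit 0) (nat_lit 1643433452) (nat_lit 532) (nat_lit 9627566763) (nat_lit 76) (nat_lit 23110882527) (nat_lit 107) (nat_lit 5) (nat_lit 114) (nat_lit 5) (nat_lit 108) (nat_lit 5) (nat_lit 345) (nat_lit 315) (nat_lit 120)) (XT.lf (nat_lit 0) (nat_lit 4854878251) (nat_lit 532) (nat_lit 29545989945) (nat_lit 76) (nat_lit 616072640) (nat_lit 101) (nat_lit 5) (nat_lit 108) (nat_lit 5) (nat_lit 102) (nat_lit 5) (nat_lit 346) (nat_lit 315) (nat_lit 119))))) (XT.nd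 (nat_lit 234) (nat_lit 380) (nat_lit 0) (XT.nd (nat_lit 78) (nat_lit 456) (nat_lit 0) (XT.lf (nat_lit 0) (nat_lit 8370020228) (nat_lit 532) (nat_lit 14563567580) (nat_lit 76) (nat_lit 12731247250) (nat_lit 101) (nat_lit 5) (nat_lit 108) (nat_lit 5) (nat_lit 102) (nat_lit 5) (nat_lit 347) (nat_lit 315) (nat_lit 118)) (XT.nd (nat_lit 78) (nat_lit 0) (nat_lit 0) (XT.lf (nat_lit 0) (nat_lit 882978301) (nat_lit 456) (nat_lit 11113774099) (nat_lit 532) (nat_lit 24335234479) (nat_lit 95) (nat_lit 5) (nat_lit 101) (nat_lit 5) (nat_lit 102) (nat_lit 5) (nat_lit 348) (nat_lit 315) (nat_lit 117)) (XT.lf (nat_lit 0) (nat_lit 15888691345) (nat_lit 532) (nat_lit 19937559007) (nat_lit 76) (nat_lit 1188215471) (nat_lit 95) (nat_lit 5) (nat_lit 102) (nat_lit 5) (nat_lit 96) (nat_lit 5) (nat_lit 349) (nat_lit 315) (nat_lit 116)))) (XT.nd (nat_lit 78) (nat_lit 380) (nat_lit 0) (XT.lf (nat_lit 0) (nat_lit 20005182904)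 (nat_lit 532) (nat_lit 4073352378) (nat_lit 76) (nat_lit 13635654593) (nat_lit 95) (nat_lit 5) (nat_lit 102) (nat_lit 5) (nat_lit 96) (nat_lit 5) (nat_lit 350) (nat_lit 315) (nat_lit 115)) (XT.nd (nat_lit 78) (nat_lit 0) (nat_lit 0) (XT.lf (nat_lit 0) (nat_lit 12508389360) (nat_lit 380) (nat_lit 11854840547) (nat_lit 456) (nat_lit 14068138362) (nat_lit 90) (nat_lit 5) (nat_lit 95) (nat_lit 5) (nat_lit 96) (nat_lit 5) (nat_lit 351) (nat_lit 315) (nat_lit 114)) (XT.lf (nat_lit 0) (nat_lit 28898488420) (nat_lit 456) (nat_lit 9507738896) (nat_lit 76) (nat_lit 762444907) (nat_lit 90) (nat_lit 5) (nat_lit 96) (nat_lit 5) (nat_lit 91) (nat_lit 5) (nat_lit 352) (nat_lit 315) (nat_lit 113))))))))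
noncomputable def xc234 : XT := (XT.nd (nat_lit 37830) (nat_lit 0) (nat_lit 5928) (XT.nd (nat_lit 858) (nat_lit 1292) (nat_lit 0) (XT.nd (nat_lit 390) (nat_lit 988) (nat_lit 0) (XT.nd (nat_lit 156) (nat_lit 456) (nat_lit 0) (XT.nd (nat_lit 78) (nat_lit 0) (nat_lit 0) (XT.lf (nat_lit 0) (nat_lit 7425030028) (nat_lit 380) (nat_lit 26331444869) (nat_lit 456) (nat_lit 6166024478) (nat_lit 85) (nat_lit 5) (nat_lit 90) (nat_lit 5) (nat_lit 91) (nat_lit 5) (nat_lit 353) (nat_lit 315) (nat_lit 112)) (XT.lf (nat_lit 0) (nat_lit 25058262585) (nat_lit 380) (nat_lit 13795906810) (nat_lit 456) (nat_lit 1841956958) (nat_lit 85) (nat_lit 5) (nat_lit 90) (nat_lit 5) (nat_lit 91) (nat_lit 5) (nat_lit 354) (nat_lit 315) (nat_lit 111))) (XT.nd (nat_lit 78) (nat_lit 0) (nat_lit 0) (XT.lf (nat_lit 0) (nat_lit 1733865355) (nat_lit 380) (nat_lit 841662811) (nat_lit 456) (nat_lit 38916244753) (nat_lit 79) (nat_lit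 5) (nat_lit 84) (nat_lit 5) (nat_lit 85) (nat_lit 5) (nat_lit 355) (nat_lit 315) (nat_lit 110)) (XT.nd (nat_lit 78) (nat_lit 0) (nat_lit 0) (XT.lf (nat_lit 0) (nat_lit 7366187505) (nat_lit 456) (nat_lit 22501641811) (nat_lit 76) (nat_lit 12434586034) (nat_lit 79) (nat_lit 5) (nat_lit 85) (nat_lit 5) (nat_lit 80) (nat_lit 5) (nat_lit 356) (nat_lit 315) (nat_lit 109)) (XT.lf (nat_lit 0) (nat_lit 12306984057) (nat_lit 456) (nat_lit 4738378240) (nat_lit 76) (nat_lit 26091825844) (nat_lit 79) (nat_lit 5) (nat_lit 85) (nat_lit 5) (nat_lit 80) (nat_lit 5) (nat_lit 357) (nat_lit 315) (nat_lit 108))))) (XT.nd (nat_lit 234) (nat_lit 304) (nat_lit 0) (XT.nd (nat_lit 78) (nat_lit 304) (nat_lit 0) (XT.lf (nat_lit 0) (nat_lit 13825275954) (nat_lit 380) (nat_lit 3701765503) (nat_lit 456) (nat_lit 26466035057) (nat_lit 74) (nat_lit 5) (nat_lit 79) (nat_lit 5) (nat_lit 80) (nat_lit 5) (nat_lit 358) (nat_lit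 315) (nat_lit 107)) (XT.nd (nat_lit 78) (nat_lit 304) (nat_lit 0) (XT.lf (nat_lit 0) (nat_lit 23046721965) (nat_lit 456) (nat_lit 11929558937) (nat_lit 76) (nat_lit 9894073398) (nat_lit 74) (nat_lit 5) (nat_lit 80) (nat_lit 5) (nat_lit 75) (nat_lit 5) (nat_lit 359) (nat_lit 315) (nat_lit 106)) (XT.lf (nat_lit 0) (nat_lit 6952596761) (nat_lit 304) (nat_lit 21881101365) (nat_lit 380) (nat_lit 16937204440) (nat_lit 70) (nat_lit 5) (nat_lit 74) (nat_lit 5) (nat_lit 75) (nat_lit 5) (nat_lit 360) (nat_lit 315) (nat_lit 105)))) (XT.nd (nat_lit 78) (nat_lit 304) (nat_lit 0) (XT.lf (nat_lit 0) (nat_lit 26643531240) (nat_lit 304) (nat_lit 8269469331) (nat_lit 380) (nat_lit 11781908407) (nat_lit 70) (nat_lit 5) (nat_lit 74) (nat_lit 5) (nat_lit 75) (nat_lit 5) (nat_lit 361) (nat_lit 315) (nat_lit 104)) (XT.nd (nat_lit 78) (nat_lit 304) (nat_lit 0) (XT.lf (nat_lit 0) (nat_lit 41228257790) (nat_lit 380)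 (nat_lit 778933997) (nat_lit 76) (nat_lit 5637839639) (nat_lit 70) (nat_lit 5) (nat_lit 75) (nat_lit 5) (nat_lit 71) (nat_lit 5) (nat_lit 362) (nat_lit 315) (nat_lit 103)) (XT.lf (nat_lit 0) (nat_lit 19365548500) (nat_lit 304) (nat_lit 28633801487) (nat_lit 380) (nat_lit 616319268) (nat_lit 66) (nat_lit 5) (nat_lit 70) (nat_lit 5) (nat_lit 71) (nat_lit 5) (nat_lit 363) (nat_lit 315) (nat_lit 102)))))) (XT.nd (nat_lit 390) (nat_lit 608) (nat_lit 0) (XT.nd (nat_lit 156) (nat_lit 304) (nat_lit 0) (XT.nd (nat_lit 78) (nat_lit 304) (nat_lit 0) (XT.lf (nat_lit 0) (nat_lit 5259892056) (nat_lit 380) (nat_lit 9538605774) (nat_lit 76) (nat_lit 34815197060) (nat_lit 65) (nat_lit 5) (nat_lit 70) (nat_lit 5) (nat_lit 66) (nat_lit 5) (nat_lit 364) (nat_lit 315) (nat_lit 101)) (XT.lf (nat_lit 0) (nat_lit 10970117333) (nat_lit 304) (nat_lit 433740848) (nat_lit 380) (nat_lit 39234507140) (nat_lit 61) (nat_lit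 5) (nat_lit 65) (nat_lit 5) (nat_lit 66) (nat_lit 5) (nat_lit 365) (nat_lit 315) (nat_lit 100))) (XT.nd (nat_lit 78) (nat_lit 304) (nat_lit 0) (XT.lf (nat_lit 0) (nat_lit 17965900054) (nat_lit 380) (nat_lit 19542387526) (nat_lit 76) (nat_lit 14178478268) (nat_lit 61) (nat_lit 5) (nat_lit 66) (nat_lit 5) (nat_lit 62) (nat_lit 5) (nat_lit 366) (nat_lit 315) (nat_lit 99)) (XT.nd (nat_lit 78) (nat_lit 0) (nat_lit 0) (XT.lf (nat_lit 0) (nat_lit 1204392348) (nat_lit 304) (nat_lit 23534754438) (nat_lit 380) (nat_lit 28027043905) (nat_lit 57) (nat_lit 5) (nat_lit 61) (nat_lit 5) (nat_lit 62) (nat_lit 5) (nat_lit 367) (nat_lit 315) (nat_lit 98)) (XT.lf (nat_lit 0) (nat_lit 22972131671) (nat_lit 304) (nat_lit 8939295697) (nat_lit 380) (nat_lit 21960698352) (nat_lit 57) (nat_lit 5) (nat_lit 61) (nat_lit 5) (nat_lit 62) (nat_lit 5) (nat_lit 368) (nat_lit 315) (nat_lit 97))))) (XT.nd (nat_lit 234) (nat_lit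 380) (nat_lit 0) (XT.nd (nat_lit 78) (nat_lit 228) (nat_lit 0) (XT.lf (nat_lit 0) (nat_lit 39355991275) (nat_lit 380) (nat_lit 9678940551) (nat_lit 76) (nat_lit 5974595984) (nat_lit 57) (nat_lit 5) (nat_lit 62) (nat_lit 5) (nat_lit 58) (nat_lit 5) (nat_lit 369) (nat_lit 315) (nat_lit 96)) (XT.nd (nat_lit 78) (nat_lit 0) (nat_lit 0) (XT.lf (nat_lit 0) (nat_lit 12328850536) (nat_lit 228) (nat_lit 34900639946) (nat_lit 304) (nat_lit 8945395917) (nat_lit 54) (nat_lit 5) (nat_lit 57) (nat_lit 5) (nat_lit 58) (nat_lit 5) (nat_lit 370) (nat_lit 315) (nat_lit 95)) (XT.lf (nat_lit 0) (nat_lit 35193337009) (nat_lit 228) (nat_lit 20242196730) (nat_lit 304) (nat_lit 1936784152) (nat_lit 54) (nat_lit 5) (nat_lit 57) (nat_lit 5) (nat_lit 58) (nat_lit 5) (nat_lit 371) (nat_lit 315) (nat_lit 94)))) (XT.nd (nat_lit 78) (nat_lit 0) (nat_lit 0) (XT.lf (nat_lit 0) (nat_lit 87090598) (nat_lit 304) (nat_lit 5091385862)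 (nat_lit 380) (nat_lit 53425690922) (nat_lit 49) (nat_lit 5) (nat_lit 53) (nat_lit 5) (nat_lit 54) (nat_lit 5) (nat_lit 372) (nat_lit 315) (nat_lit 93)) (XT.nd (nat_lit 36192) (nat_lit 0) (nat_lit 7752) (XT.lf (nat_lit 0) (nat_lit 12794157971) (nat_lit 380) (nat_lit 36514860460) (nat_lit 76) (nat_lit 10553604050) (nat_lit 49) (nat_lit 5) (nat_lit 54) (nat_lit 5) (nat_lit 50) (nat_lit 5) (nat_lit 373) (nat_lit 315) (nat_lit 92)) (XT.lf (nat_lit 0) (nat_lit 5518077299) (nat_lit 1140) (nat_lit 2648400957) (nat_lit 1140) (nat_lit 2648400957) (nat_lit 151) (nat_lit 3) (nat_lit 166) (nat_lit 3) (nat_lit 166) (nat_lit 5) (nat_lit 316) (nat_lit 316) (nat_lit 148))))))) (XT.nd (nat_lit 858) (nat_lit 1824) (nat_lit 0) (XT.nd (nat_lit 390) (nat_lit 0) (nat_lit 152) (XT.nd (nat_lit 156) (nat_lit 0) (nat_lit 76) (XT.nd (nat_lit 78) (nat_lit 0) (nat_lit 76) (XT.lf (nat_lit 76) (nat_lit 3763148695) (nat_lit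 0) (nat_lit 7601974021) (nat_lit 1140) (nat_lit 10583868465) (nat_lit 152) (nat_lit 5) (nat_lit 151) (nat_lit 3) (nat_lit 166) (nat_lit 5) (nat_lit 317) (nat_lit 316) (nat_lit 147)) (XT.lf (nat_lit 0) (nat_lit 11766378734) (nat_lit 1064) (nat_lit 9089418804) (nat_lit 1140) (nat_lit 1420142946) (nat_lit 152) (nat_lit 5) (nat_lit 166) (nat_lit 5) (nat_lit 167) (nat_lit 5) (nat_lit 318) (nat_lit 316) (nat_lit 146))) (XT.nd (nat_lit 78) (nat_lit 0) (nat_lit 0) (XT.lf (nat_lit 76) (nat_lit 205931061) (nat_lit 0) (nat_lit 12046164108) (nat_lit 1140) (nat_lit 10358442194) (nat_lit 153) (nat_lit 5) (nat_lit 152) (nat_lit 5) (nat_lit 167) (nat_lit 5) (nat_lit 319) (nat_lit 316) (nat_lit 145)) (XT.nd (nat_lit 78) (nat_lit 0) (nat_lit 76) (XT.lf (nat_lit 76) (nat_lit 9963774331) (nat_lit 0) (nat_lit 2875684840) (nat_lit 1140) (nat_lit 10113112130) (nat_lit 153) (nat_lit 5) (nat_lit 152) (nat_lit 5) (nat_lit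 167) (nat_lit 5) (nat_lit 320) (nat_lit 316) (nat_lit 144)) (XT.lf (nat_lit 0) (nat_lit 13503044835) (nat_lit 1064) (nat_lit 3356447319) (nat_lit 1140) (nat_lit 6443627182) (nat_lit 153) (nat_lit 5) (nat_lit 167) (nat_lit 5) (nat_lit 168) (nat_lit 5) (nat_lit 321) (nat_lit 316) (nat_lit 143))))) (XT.nd (nat_lit 234) (nat_lit 0) (nat_lit 76) (XT.nd (nat_lit 78) (nat_lit 0) (nat_lit 76) (XT.lf (nat_lit 76) (nat_lit 6663735161) (nat_lit 0) (nat_lit 7610910312) (nat_lit 1140) (nat_lit 9386905897) (nat_lit 154) (nat_lit 5) (nat_lit 153) (nat_lit 5) (nat_lit 168) (nat_lit 5) (nat_lit 322) (nat_lit 316) (nat_lit 142)) (XT.nd (nat_lit 78) (nat_lit 0) (nat_lit 0) (XT.lf (nat_lit 0) (nat_lit 15117730895) (nat_lit 1064) (nat_lit 6997965885) (nat_lit 1140) (nat_lit 1913599946) (nat_lit 154) (nat_lit 5) (nat_lit 168) (nat_lit 5) (nat_lit 169) (nat_lit 5) (nat_lit 323) (nat_lit 316) (nat_lit 141)) (XT.lf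 (nat_lit 76) (nat_lit 3287937941) (nat_lit 0) (nat_lit 12800955708) (nat_lit 1140) (nat_lit 8316107411) (nat_lit 155) (nat_lit 5) (nat_lit 154) (nat_lit 5) (nat_lit 169) (nat_lit 5) (nat_lit 324) (nat_lit 316) (nat_lit 140)))) (XT.nd (nat_lit 78) (nat_lit 0) (nat_lit 76) (XT.lf (nat_lit 76) (nat_lit 14023151271) (nat_lit 0) (nat_lit 3132624805) (nat_lit 1140) (nat_lit 7634212768) (nat_lit 155) (nat_lit 5) (nat_lit 154) (nat_lit 5) (nat_lit 169) (nat_lit 5) (nat_lit 325) (nat_lit 316) (nat_lit 139)) (XT.nd (nat_lit 78) (nat_lit 0) (nat_lit 0) (XT.lf (nat_lit 0) (nat_lit 18316328950) (nat_lit 1064) (nat_lit 174499606) (nat_lit 1140) (nat_lit 6693857363) (nat_lit 155) (nat_lit 5) (nat_lit 169) (nat_lit 5) (nat_lit 170) (nat_lit 5) (nat_lit 326) (nat_lit 316) (nat_lit 138)) (XT.lf (nat_lit 76) (nat_lit 10914881050) (nat_lit 0) (nat_lit 8728919620) (nat_lit 1140) (nat_lit 5943469466) (nat_lit 156)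 (nat_lit 5) (nat_lit 155) (nat_lit 5) (nat_lit 170) (nat_lit 5) (nat_lit 327) (nat_lit 316) (nat_lit 137)))))) (XT.nd (nat_lit 468) (nat_lit 1140) (nat_lit 0) (XT.nd (nat_lit 234) (nat_lit 1064) (nat_lit 0) (XT.nd (nat_lit 78) (nat_lit 0) (nat_lit 0) (XT.lf (nat_lit 0) (nat_lit 21021882914) (nat_lit 1064) (nat_lit 3676926458) (nat_lit 1140) (nat_lit 1302807944) (nat_lit 156) (nat_lit 5) (nat_lit 170) (nat_lit 5) (nat_lit 171) (nat_lit 5) (nat_lit 328) (nat_lit 316) (nat_lit 136)) (XT.nd (nat_lit 78) (nat_lit 0) (nat_lit 0) (XT.lf (nat_lit 76) (nat_lit 7709695395) (nat_lit 0) (nat_lit 14888518331) (nat_lit 1140) (nat_lit 3825482766) (nat_lit 157) (nat_lit 5) (nat_lit 156) (nat_lit 5) (nat_lit 171) (nat_lit 5) (nat_lit 329) (nat_lit 316) (nat_lit 135)) (XT.lf (nat_lit 76) (nat_lit 19510592360) (nat_lit 0) (nat_lit 4744822476) (nat_lit 1140) (nat_lit 2602024304) (nat_lit 157) (nat_lit 5) (nat_lit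 156) (nat_lit 5) (nat_lit 171) (nat_lit 5) (nat_lit 330) (nat_lit 316) (nat_lit 134)))) (XT.nd (nat_lit 78) (nat_lit 1140) (nat_lit 0) (XT.lf (nat_lit 76) (nat_lit 4389414988) (nat_lit 0) (nat_lit 21666495192) (nat_lit 1140) (nat_lit 1245484805) (nat_lit 158) (nat_lit 5) (nat_lit 157) (nat_lit 5) (nat_lit 172) (nat_lit 5) (nat_lit 331) (nat_lit 316) (nat_lit 133)) (XT.nd (nat_lit 78) (nat_lit 0) (nat_lit 0) (XT.lf (nat_lit 0) (nat_lit 267286268) (nat_lit 1140) (nat_lit 11180034469) (nat_lit 1216) (nat_lit 16307757893) (nat_lit 142) (nat_lit 5) (nat_lit 157) (nat_lit 5) (nat_lit 158) (nat_lit 5) (nat_lit 332) (nat_lit 316) (nat_lit 132)) (XT.lf (nat_lit 76) (nat_lit 906521875) (nat_lit 0) (nat_lit 899293676) (nat_lit 1216) (nat_lit 26416032606) (nat_lit 143) (nat_lit 5) (nat_lit 142) (nat_lit 5) (nat_lit 158) (nat_lit 5) (nat_lit 333) (nat_lit 316) (nat_lit 131))))) (XT.nd (nat_lit 234) (nat_lit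 532) (nat_lit 0) (XT.nd (nat_lit 78) (nat_lit 684) (nat_lit 0) (XT.lf (nat_lit 0) (nat_lit 3597076208) (nat_lit 1140) (nat_lit 15214077107) (nat_lit 76) (nat_lit 9885277529) (nat_lit 143) (nat_lit 5) (nat_lit 158) (nat_lit 5) (nat_lit 144) (nat_lit 5) (nat_lit 334) (nat_lit 316) (nat_lit 130)) (XT.nd (nat_lit 78) (nat_lit 684) (nat_lit 0) (XT.lf (nat_lit 0) (nat_lit 5447842594) (nat_lit 1140) (nat_lit 2761401879) (nat_lit 76) (nat_lit 20975840628) (nat_lit 143) (nat_lit 5) (nat_lit 158) (nat_lit 5) (nat_lit 144) (nat_lit 5) (nat_lit 335) (nat_lit 316) (nat_lit 129)) (XT.lf (nat_lit 0) (nat_lit 7476774425) (nat_lit 760) (nat_lit 19450092657) (nat_lit 76) (nat_lit 2757859548) (nat_lit 134) (nat_lit 5) (nat_lit 144) (nat_lit 5) (nat_lit 135) (nat_lit 5) (nat_lit 336) (nat_lit 316) (nat_lit 128)))) (XT.nd (nat_lit 78) (nat_lit 532) (nat_lit 0) (XT.lf (nat_lit 0) (nat_lit 9673037334) (nat_lit 760)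 (nat_lit 6605622338) (nat_lit 76) (nat_lit 13917510556) (nat_lit 134) (nat_lit 5) (nat_lit 144) (nat_lit 5) (nat_lit 135) (nat_lit 5) (nat_lit 337) (nat_lit 316) (nat_lit 127)) (XT.nd (nat_lit 78) (nat_lit 0) (nat_lit 0) (XT.lf (nat_lit 0) (nat_lit 6753340124) (nat_lit 532) (nat_lit 5243874605) (nat_lit 608) (nat_lit 18723888128) (nat_lit 127) (nat_lit 5) (nat_lit 134) (nat_lit 5) (nat_lit 135) (nat_lit 5) (nat_lit 338) (nat_lit 316) (nat_lit 126)) (XT.lf (nat_lit 0) (nat_lit 14514500505) (nat_lit 608) (nat_lit 10673502255) (nat_lit 76) (nat_lit 6070085546) (nat_lit 127) (nat_lit 5) (nat_lit 135) (nat_lit 5) (nat_lit 128) (nat_lit 5) (nat_lit 339) (nat_lit 316) (nat_lit 125))))))))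
noncomputable def xc235 : XT := (XT.nd (nat_lit 1716) (nat_lit 1596) (nat_lit 0) (XT.nd (nat_lit 858) (nat_lit 1900) (nat_lit 0) (XT.nd (nat_lit 390) (nat_lit 1444) (nat_lit 0) (XT.nd (nat_lit 156) (nat_lit 456) (nat_lit 0) (XT.nd (nat_lit 78) (nat_lit 0) (nat_lit 0) (XT.lf (nat_lit 0) (nat_lit 3024063512) (nat_lit 532) (nat_lit 14161483264) (nat_lit 608) (nat_lit 14623295431) (nat_lit 120) (nat_lit 5) (nat_lit 127) (nat_lit 5) (nat_lit 128) (nat_lit 5) (nat_lit 340) (nat_lit 316) (nat_lit 124)) (XT.lf (nat_lit 0) (nat_lit 17348764862) (nat_lit 532) (nat_lit 2693049373) (nat_lit 608) (nat_lit 12331157764) (nat_lit 120) (nat_lit 5) (nat_lit 127) (nat_lit 5) (nat_lit 128) (nat_lit 5) (nat_lit 341) (nat_lit 316) (nat_lit 123))) (XT.nd (nat_lit 78) (nat_lit 456) (nat_lit 0) (XT.lf (nat_lit 0) (nat_lit 23068819050) (nat_lit 608) (nat_lit 941077561) (nat_lit 76) (nat_lit 8941583388) (nat_lit 120)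 (nat_lit 5) (nat_lit 128) (nat_lit 5) (nat_lit 121) (nat_lit 5) (nat_lit 342) (nat_lit 316) (nat_lit 122)) (XT.nd (nat_lit 78) (nat_lit 0) (nat_lit 0) (XT.lf (nat_lit 0) (nat_lit 13804740396) (nat_lit 456) (nat_lit 12538720885) (nat_lit 532) (nat_lit 7199182764) (nat_lit 114) (nat_lit 5) (nat_lit 120) (nat_lit 5) (nat_lit 121) (nat_lit 5) (nat_lit 343) (nat_lit 316) (nat_lit 121)) (XT.lf (nat_lit 0) (nat_lit 29009726924) (nat_lit 456) (nat_lit 713632566) (nat_lit 532) (nat_lit 4427978483) (nat_lit 114) (nat_lit 5) (nat_lit 120) (nat_lit 5) (nat_lit 121) (nat_lit 5) (nat_lit 344) (nat_lit 316) (nat_lit 120))))) (XT.nd (nat_lit 234) (nat_lit 456) (nat_lit 0) (XT.nd (nat_lit 78) (nat_lit 532) (nat_lit 0) (XT.lf (nat_lit 0) (nat_lit 9974486249) (nat_lit 456) (nat_lit 23433855459) (nat_lit 532) (nat_lit 1363845702) (nat_lit 108) (nat_lit 5) (nat_lit 114) (nat_lit 5) (nat_lit 115) (nat_lit 5) (nat_lit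 345) (nat_lit 316) (nat_lit 119)) (XT.nd (nat_lit 78) (nat_lit 456) (nat_lit 0) (XT.lf (nat_lit 0) (nat_lit 1814342484) (nat_lit 532) (nat_lit 9787978006) (nat_lit 76) (nat_lit 23807116884) (nat_lit 107) (nat_lit 5) (nat_lit 114) (nat_lit 5) (nat_lit 108) (nat_lit 5) (nat_lit 346) (nat_lit 316) (nat_lit 118)) (XT.lf (nat_lit 0) (nat_lit 5119886668) (nat_lit 532) (nat_lit 30301463645) (nat_lit 76) (nat_lit 642271608) (nat_lit 101) (nat_lit 5) (nat_lit 108) (nat_lit 5) (nat_lit 102) (nat_lit 5) (nat_lit 347) (nat_lit 316) (nat_lit 117)))) (XT.nd (nat_lit 78) (nat_lit 456) (nat_lit 0) (XT.lf (nat_lit 0) (nat_lit 8737006339) (nat_lit 532) (nat_lit 14873381405) (nat_lit 76) (nat_lit 13120676694) (nat_lit 101) (nat_lit 5) (nat_lit 108) (nat_lit 5) (nat_lit 102) (nat_lit 5) (nat_lit 348) (nat_lit 316) (nat_lit 116)) (XT.nd (nat_lit 78) (nat_lit 0) (nat_lit 0) (XT.lf (nat_lit 0) (nat_lit 1035314841)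 (nat_lit 456) (nat_lit 11435060050) (nat_lit 532) (nat_lit 24947927856) (nat_lit 95) (nat_lit 5) (nat_lit 101) (nat_lit 5) (nat_lit 102) (nat_lit 5) (nat_lit 349) (nat_lit 316) (nat_lit 115)) (XT.lf (nat_lit 0) (nat_lit 16475872952) (nat_lit 532) (nat_lit 20410079607) (nat_lit 76) (nat_lit 1235406232) (nat_lit 95) (nat_lit 5) (nat_lit 102) (nat_lit 5) (nat_lit 96) (nat_lit 5) (nat_lit 350) (nat_lit 316) (nat_lit 114)))))) (XT.nd (nat_lit 390) (nat_lit 1140) (nat_lit 0) (XT.nd (nat_lit 156) (nat_lit 380) (nat_lit 0) (XT.nd (nat_lit 78) (nat_lit 380) (nat_lit 0) (XT.lf (nat_lit 0) (nat_lit 20712640203) (nat_lit 532) (nat_lit 4073605211) (nat_lit 76) (nat_lit 14055932287) (nat_lit 95) (nat_lit 5) (nat_lit 102) (nat_lit 5) (nat_lit 96) (nat_lit 5) (nat_lit 351) (nat_lit 316) (nat_lit 113)) (XT.lf (nat_lit 0) (nat_lit 13004393213) (nat_lit 380) (nat_lit 12195070852) (nat_lit 456) (nat_lit 14381472692)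 (nat_lit 90) (nat_lit 5) (nat_lit 95) (nat_lit 5) (nat_lit 96) (nat_lit 5) (nat_lit 352) (nat_lit 316) (nat_lit 112))) (XT.nd (nat_lit 78) (nat_lit 380) (nat_lit 0) (XT.lf (nat_lit 0) (nat_lit 29867856119) (nat_lit 456) (nat_lit 9672605475) (nat_lit 76) (nat_lit 799992149) (nat_lit 90) (nat_lit 5) (nat_lit 96) (nat_lit 5) (nat_lit 91) (nat_lit 5) (nat_lit 353) (nat_lit 316) (nat_lit 111)) (XT.nd (nat_lit 78) (nat_lit 0) (nat_lit 0) (XT.lf (nat_lit 0) (nat_lit 7766966462) (nat_lit 380) (nat_lit 27102778509) (nat_lit 456) (nat_lit 6247211863) (nat_lit 85) (nat_lit 5) (nat_lit 90) (nat_lit 5) (nat_lit 91) (nat_lit 5) (nat_lit 354) (nat_lit 316) (nat_lit 110)) (XT.lf (nat_lit 0) (nat_lit 25925724573) (nat_lit 380) (nat_lit 14191716338) (nat_lit 456) (nat_lit 1796445424) (nat_lit 85) (nat_lit 5) (nat_lit 90) (nat_lit 5) (nat_lit 91) (nat_lit 5) (nat_lit 355) (nat_lit 316) (nat_lit 109))))) (XT.nd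 (nat_lit 234) (nat_lit 684) (nat_lit 0) (XT.nd (nat_lit 78) (nat_lit 0) (nat_lit 0) (XT.lf (nat_lit 0) (nat_lit 1902594987) (nat_lit 380) (nat_lit 847247016) (nat_lit 456) (nat_lit 39983589408) (nat_lit 79) (nat_lit 5) (nat_lit 84) (nat_lit 5) (nat_lit 85) (nat_lit 5) (nat_lit 356) (nat_lit 316) (nat_lit 108)) (XT.nd (nat_lit 78) (nat_lit 0) (nat_lit 0) (XT.lf (nat_lit 0) (nat_lit 7681578015) (nat_lit 456) (nat_lit 23060555795) (nat_lit 76) (nat_lit 12826343936) (nat_lit 79) (nat_lit 5) (nat_lit 85) (nat_lit 5) (nat_lit 80) (nat_lit 5) (nat_lit 357) (nat_lit 316) (nat_lit 107)) (XT.lf (nat_lit 0) (nat_lit 12767848807) (nat_lit 456) (nat_lit 4767776898) (nat_lit 76) (nat_lit 26892755689) (nat_lit 79) (nat_lit 5) (nat_lit 85) (nat_lit 5) (nat_lit 80) (nat_lit 5) (nat_lit 358) (nat_lit 316) (nat_lit 106)))) (XT.nd (nat_lit 78) (nat_lit 304) (nat_lit 0) (XT.lf (nat_lit 0) (nat_lit 14351681504) (nat_lit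 380) (nat_lit 3791230077) (nat_lit 456) (nat_lit 27167087758) (nat_lit 74) (nat_lit 5) (nat_lit 79) (nat_lit 5) (nat_lit 80) (nat_lit 5) (nat_lit 359) (nat_lit 316) (nat_lit 105)) (XT.nd (nat_lit 78) (nat_lit 304) (nat_lit 0) (XT.lf (nat_lit 0) (nat_lit 23825760907) (nat_lit 456) (nat_lit 12176465879) (nat_lit 76) (nat_lit 10211446205) (nat_lit 74) (nat_lit 5) (nat_lit 80) (nat_lit 5) (nat_lit 75) (nat_lit 5) (nat_lit 360) (nat_lit 316) (nat_lit 104)) (XT.lf (nat_lit 0) (nat_lit 7271066453) (nat_lit 304) (nat_lit 22513783704) (nat_lit 380) (nat_lit 17356437176) (nat_lit 70) (nat_lit 5) (nat_lit 74) (nat_lit 5) (nat_lit 75) (nat_lit 5) (nat_lit 361) (nat_lit 316) (nat_lit 103))))))) (XT.nd (nat_lit 858) (nat_lit 380) (nat_lit 0) (XT.nd (nat_lit 390) (nat_lit 532) (nat_lit 0) (XT.nd (nat_lit 156) (nat_lit 684) (nat_lit 0) (XT.nd (nat_lit 78) (nat_lit 0) (nat_lit 0) (XT.lf (nat_lit 0) (nat_lit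 27549528235) (nat_lit 304) (nat_lit 8494494478) (nat_lit 380) (nat_lit 12049071099) (nat_lit 70) (nat_lit 5) (nat_lit 74) (nat_lit 5) (nat_lit 75) (nat_lit 5) (nat_lit 362) (nat_lit 316) (nat_lit 102)) (XT.lf (nat_lit 0) (nat_lit 42546516961) (nat_lit 380) (nat_lit 696348777) (nat_lit 76) (nat_lit 5828925285) (nat_lit 70) (nat_lit 5) (nat_lit 75) (nat_lit 5) (nat_lit 71) (nat_lit 5) (nat_lit 363) (nat_lit 316) (nat_lit 101))) (XT.nd (nat_lit 78) (nat_lit 380) (nat_lit 0) (XT.lf (nat_lit 0) (nat_lit 20051429438) (nat_lit 304) (nat_lit 29467949781) (nat_lit 380) (nat_lit 552213988) (nat_lit 66) (nat_lit 5) (nat_lit 70) (nat_lit 5) (nat_lit 71) (nat_lit 5) (nat_lit 364) (nat_lit 316) (nat_lit 100)) (XT.nd (nat_lit 78) (nat_lit 304) (nat_lit 0) (XT.lf (nat_lit 0) (nat_lit 5496313220) (nat_lit 380) (nat_lit 9721204087) (nat_lit 76) (nat_lit 35882093338) (nat_lit 65) (nat_lit 5) (nat_lit 70) (nat_lit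 5) (nat_lit 66) (nat_lit 5) (nat_lit 365) (nat_lit 316) (nat_lit 99)) (XT.lf (nat_lit 0) (nat_lit 11401765420) (nat_lit 304) (nat_lit 421528598) (nat_lit 380) (nat_lit 40331770271) (nat_lit 61) (nat_lit 5) (nat_lit 65) (nat_lit 5) (nat_lit 66) (nat_lit 5) (nat_lit 366) (nat_lit 316) (nat_lit 98))))) (XT.nd (nat_lit 234) (nat_lit 228) (nat_lit 0) (XT.nd (nat_lit 78) (nat_lit 304) (nat_lit 0) (XT.lf (nat_lit 0) (nat_lit 18580180517) (nat_lit 380) (nat_lit 20026956157) (nat_lit 76) (nat_lit 14627844514) (nat_lit 61) (nat_lit 5) (nat_lit 66) (nat_lit 5) (nat_lit 62) (nat_lit 5) (nat_lit 367) (nat_lit 316) (nat_lit 97)) (XT.nd (nat_lit 78) (nat_lit 0) (nat_lit 0) (XT.lf (nat_lit 0) (nat_lit 1341230026) (nat_lit 304) (nat_lit 24214169369) (nat_lit 380) (nat_lit 28791429884) (nat_lit 57) (nat_lit 5) (nat_lit 61) (nat_lit 5) (nat_lit 62) (nat_lit 5) (nat_lit 368) (nat_lit 316) (nat_lit 96)) (XT.lf (nat_lit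 0) (nat_lit 23759068346) (nat_lit 304) (nat_lit 9181622430) (nat_lit 380) (nat_lit 22545319945) (nat_lit 57) (nat_lit 5) (nat_lit 61) (nat_lit 5) (nat_lit 62) (nat_lit 5) (nat_lit 369) (nat_lit 316) (nat_lit 95)))) (XT.nd (nat_lit 78) (nat_lit 228) (nat_lit 0) (XT.lf (nat_lit 0) (nat_lit 40606738094) (nat_lit 380) (nat_lit 9872412662) (nat_lit 76) (nat_lit 6178443252) (nat_lit 57) (nat_lit 5) (nat_lit 62) (nat_lit 5) (nat_lit 58) (nat_lit 5) (nat_lit 370) (nat_lit 316) (nat_lit 94)) (XT.nd (nat_lit 78) (nat_lit 0) (nat_lit 0) (XT.lf (nat_lit 0) (nat_lit 12794662196) (nat_lit 228) (nat_lit 35920661585) (nat_lit 304) (nat_lit 9142626553) (nat_lit 54) (nat_lit 5) (nat_lit 57) (nat_lit 5) (nat_lit 58) (nat_lit 5) (nat_lit 371) (nat_lit 316) (nat_lit 93)) (XT.lf (nat_lit 0) (nat_lit 36342288715) (nat_lit 228) (nat_lit 20823251409) (nat_lit 304) (nat_lit 1925828219) (nat_lit 54) (nat_lit 5) (nat_lit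 57) (nat_lit 5) (nat_lit 58) (nat_lit 5) (nat_lit 372) (nat_lit 316) (nat_lit 92)))))) (XT.nd (nat_lit 36660) (nat_lit 0) (nat_lit 7904) (XT.nd (nat_lit 36426) (nat_lit 0) (nat_lit 7828) (XT.nd (nat_lit 36270) (nat_lit 0) (nat_lit 7752) (XT.lf (nat_lit 0) (nat_lit 183382636) (nat_lit 304) (nat_lit 5217088289) (nat_lit 380) (nat_lit 54959717765) (nat_lit 49) (nat_lit 5) (nat_lit 53) (nat_lit 5) (nat_lit 54) (nat_lit 5) (nat_lit 373) (nat_lit 316) (nat_lit 91)) (XT.nd (nat_lit 78) (nat_lit 0) (nat_lit 0) (XT.lf (nat_lit 0) (nat_lit 5809648505) (nat_lit 1140) (nat_lit 2662794179) (nat_lit 1140) (nat_lit 2662794179) (nat_lit 151) (nat_lit 3) (nat_lit 166) (nat_lit 3) (nat_lit 166) (nat_lit 5) (nat_lit 317) (nat_lit 317) (nat_lit 146)) (XT.lf (nat_lit 76) (nat_lit 4004885106) (nat_lit 0) (nat_lit 7947146084) (nat_lit 1140) (nat_lit 10647453297) (nat_lit 152) (nat_lit 5) (nat_lit 151) (nat_lit 3)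 (nat_lit 166) (nat_lit 5) (nat_lit 318) (nat_lit 317) (nat_lit 145)))) (XT.nd (nat_lit 78) (nat_lit 0) (nat_lit 0) (XT.lf (nat_lit 0) (nat_lit 12357068186) (nat_lit 1064) (nat_lit 9228175019) (nat_lit 1140) (nat_lit 1351264177) (nat_lit 152) (nat_lit 5) (nat_lit 166) (nat_lit 5) (nat_lit 167) (nat_lit 5) (nat_lit 319) (nat_lit 317) (nat_lit 144)) (XT.nd (nat_lit 78) (nat_lit 0) (nat_lit 0) (XT.lf (nat_lit 76) (nat_lit 344722339) (nat_lit 0) (nat_lit 12506985291) (nat_lit 1140) (nat_lit 10429620896) (nat_lit 153) (nat_lit 5) (nat_lit 152) (nat_lit 5) (nat_lit 167) (nat_lit 5) (nat_lit 320) (nat_lit 317) (nat_lit 143)) (XT.lf (nat_lit 76) (nat_lit 10391438382) (nat_lit 0) (nat_lit 3058495443) (nat_lit 1140) (nat_lit 10183908830) (nat_lit 153) (nat_lit 5) (nat_lit 152) (nat_lit 5) (nat_lit 167) (nat_lit 5) (nat_lit 321) (nat_lit 317) (nat_lit 142))))) (XT.nd (nat_lit 234) (nat_lit 0) (nat_lit 76)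 (XT.nd (nat_lit 78) (nat_lit 0) (nat_lit 0) (XT.lf (nat_lit 0) (nat_lit 14125964216) (nat_lit 1064) (nat_lit 3324145974) (nat_lit 1140) (nat_lit 6545036761) (nat_lit 153) (nat_lit 5) (nat_lit 167) (nat_lit 5) (nat_lit 168) (nat_lit 5) (nat_lit 322) (nat_lit 317) (nat_lit 141)) (XT.nd (nat_lit 78) (nat_lit 0) (nat_lit 76) (XT.lf (nat_lit 76) (nat_lit 6995338110) (nat_lit 0) (nat_lit 7920296150) (nat_lit 1140) (nat_lit 9448865513) (nat_lit 154) (nat_lit 5) (nat_lit 153) (nat_lit 5) (nat_lit 168) (nat_lit 5) (nat_lit 323) (nat_lit 317) (nat_lit 140)) (XT.lf (nat_lit 0) (nat_lit 15777059171) (nat_lit 1064) (nat_lit 7072595914) (nat_lit 1140) (nat_lit 1893846017) (nat_lit 154) (nat_lit 5) (nat_lit 168) (nat_lit 5) (nat_lit 169) (nat_lit 5) (nat_lit 324) (nat_lit 317) (nat_lit 139)))) (XT.nd (nat_lit 78) (nat_lit 0) (nat_lit 0) (XT.lf (nat_lit 76) (nat_lit 3520558468) (nat_lit 0) (nat_lit 13252092190)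 (nat_lit 1140) (nat_lit 8357981673) (nat_lit 155) (nat_lit 5) (nat_lit 154) (nat_lit 5) (nat_lit 169) (nat_lit 5) (nat_lit 325) (nat_lit 317) (nat_lit 138)) (XT.nd (nat_lit 78) (nat_lit 0) (nat_lit 76) (XT.lf (nat_lit 76) (nat_lit 14573925799) (nat_lit 0) (nat_lit 3291756764) (nat_lit 1140) (nat_lit 7661677052) (nat_lit 155) (nat_lit 5) (nat_lit 154) (nat_lit 5) (nat_lit 169) (nat_lit 5) (nat_lit 326) (nat_lit 317) (nat_lit 137)) (XT.lf (nat_lit 0) (nat_lit 19054757568) (nat_lit 1064) (nat_lit 46690735) (nat_lit 1140) (nat_lit 6832651879) (nat_lit 155) (nat_lit 5) (nat_lit 169) (nat_lit 5) (nat_lit 170) (nat_lit 5) (nat_lit 327) (nat_lit 317) (nat_lit 136))))))))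
noncomputable def xc236 : XT := (XT.nd (nat_lit 1716) (nat_lit 3572) (nat_lit 0) (XT.nd (nat_lit 858) (nat_lit 2508) (nat_lit 0) (XT.nd (nat_lit 390) (nat_lit 1596) (nat_lit 0) (XT.nd (nat_lit 156) (nat_lit 0) (nat_lit 76) (XT.nd (nat_lit 78) (nat_lit 0) (nat_lit 76) (XT.lf (nat_lit 76) (nat_lit 11374066990) (nat_lit 0) (nat_lit 9043749740) (nat_lit 1140) (nat_lit 5931085640) (nat_lit 156) (nat_lit 5) (nat_lit 155) (nat_lit 5) (nat_lit 170) (nat_lit 5) (nat_lit 328) (nat_lit 317) (nat_lit 135)) (XT.lf (nat_lit 0) (nat_lit 21831367491) (nat_lit 1064) (nat_lit 3653026012) (nat_lit 1140) (nat_lit 1291475637) (nat_lit 156) (nat_lit 5) (nat_lit 170) (nat_lit 5) (nat_lit 171) (nat_lit 5) (nat_lit 329) (nat_lit 317) (nat_lit 134))) (XT.nd (nat_lit 78) (nat_lit 0) (nat_lit 0) (XT.lf (nat_lit 76) (nat_lit 8073878729) (nat_lit 0) (nat_lit 15377178357) (nat_lit 1140) (nat_lit 3759684118) (nat_lit 157)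 (nat_lit 5) (nat_lit 156) (nat_lit 5) (nat_lit 171) (nat_lit 5) (nat_lit 330) (nat_lit 317) (nat_lit 133)) (XT.nd (nat_lit 78) (nat_lit 0) (nat_lit 76) (XT.lf (nat_lit 76) (nat_lit 20224931949) (nat_lit 0) (nat_lit 4927948195) (nat_lit 1140) (nat_lit 2504781023) (nat_lit 157) (nat_lit 5) (nat_lit 156) (nat_lit 5) (nat_lit 171) (nat_lit 5) (nat_lit 331) (nat_lit 317) (nat_lit 132)) (XT.lf (nat_lit 76) (nat_lit 4654689720) (nat_lit 0) (nat_lit 22348658489) (nat_lit 1140) (nat_lit 1111720597) (nat_lit 158) (nat_lit 5) (nat_lit 157) (nat_lit 5) (nat_lit 172) (nat_lit 5) (nat_lit 332) (nat_lit 317) (nat_lit 131))))) (XT.nd (nat_lit 234) (nat_lit 608) (nat_lit 0) (XT.nd (nat_lit 78) (nat_lit 0) (nat_lit 0) (XT.lf (nat_lit 0) (nat_lit 438207200) (nat_lit 1140) (nat_lit 11382119662) (nat_lit 1216) (nat_lit 16762144538) (nat_lit 142) (nat_lit 5) (nat_lit 157) (nat_lit 5) (nat_lit 158) (nat_lit 5) (nat_lit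 333) (nat_lit 317) (nat_lit 130)) (XT.nd (nat_lit 78) (nat_lit 0) (nat_lit 76) (XT.lf (nat_lit 76) (nat_lit 1065726355) (nat_lit 0) (nat_lit 953690227) (nat_lit 1216) (nat_lit 27043942553) (nat_lit 143) (nat_lit 5) (nat_lit 142) (nat_lit 5) (nat_lit 158) (nat_lit 5) (nat_lit 334) (nat_lit 317) (nat_lit 129)) (XT.lf (nat_lit 0) (nat_lit 3859515687) (nat_lit 1140) (nat_lit 15537085007) (nat_lit 76) (nat_lit 10155736124) (nat_lit 143) (nat_lit 5) (nat_lit 158) (nat_lit 5) (nat_lit 144) (nat_lit 5) (nat_lit 335) (nat_lit 317) (nat_lit 128)))) (XT.nd (nat_lit 78) (nat_lit 684) (nat_lit 0) (XT.lf (nat_lit 0) (nat_lit 5761304272) (nat_lit 1140) (nat_lit 2714715378) (nat_lit 76) (nat_lit 21579776303) (nat_lit 143) (nat_lit 5) (nat_lit 158) (nat_lit 5) (nat_lit 144) (nat_lit 5) (nat_lit 336) (nat_lit 317) (nat_lit 127)) (XT.nd (nat_lit 78) (nat_lit 0) (nat_lit 0) (XT.lf (nat_lit 0) (nat_lit 7847788166)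 (nat_lit 760) (nat_lit 19900420008) (nat_lit 76) (nat_lit 2822327960) (nat_lit 134) (nat_lit 5) (nat_lit 144) (nat_lit 5) (nat_lit 135) (nat_lit 5) (nat_lit 337) (nat_lit 317) (nat_lit 126)) (XT.lf (nat_lit 0) (nat_lit 10105665841) (nat_lit 760) (nat_lit 6674494476) (nat_lit 76) (nat_lit 14317300558) (nat_lit 134) (nat_lit 5) (nat_lit 144) (nat_lit 5) (nat_lit 135) (nat_lit 5) (nat_lit 338) (nat_lit 317) (nat_lit 125)))))) (XT.nd (nat_lit 390) (nat_lit 1444) (nat_lit 0) (XT.nd (nat_lit 156) (nat_lit 532) (nat_lit 0) (XT.nd (nat_lit 78) (nat_lit 0) (nat_lit 0) (XT.lf (nat_lit 0) (nat_lit 7083969248) (nat_lit 532) (nat_lit 5412681341) (nat_lit 608) (nat_lit 19141587793) (nat_lit 127) (nat_lit 5) (nat_lit 134) (nat_lit 5) (nat_lit 135) (nat_lit 5) (nat_lit 339) (nat_lit 317) (nat_lit 124)) (XT.lf (nat_lit 0) (nat_lit 15085284028) (nat_lit 608) (nat_lit 10864933599) (nat_lit 76) (nat_lit 6241249980)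 (nat_lit 127) (nat_lit 5) (nat_lit 135) (nat_lit 5) (nat_lit 128) (nat_lit 5) (nat_lit 340) (nat_lit 317) (nat_lit 123))) (XT.nd (nat_lit 78) (nat_lit 0) (nat_lit 0) (XT.lf (nat_lit 0) (nat_lit 3242296654) (nat_lit 532) (nat_lit 14591448560) (nat_lit 608) (nat_lit 14925089227) (nat_lit 120) (nat_lit 5) (nat_lit 127) (nat_lit 5) (nat_lit 128) (nat_lit 5) (nat_lit 341) (nat_lit 317) (nat_lit 122)) (XT.nd (nat_lit 78) (nat_lit 0) (nat_lit 0) (XT.lf (nat_lit 0) (nat_lit 17993025124) (nat_lit 532) (nat_lit 2778812503) (nat_lit 608) (nat_lit 12568174957) (nat_lit 120) (nat_lit 5) (nat_lit 127) (nat_lit 5) (nat_lit 128) (nat_lit 5) (nat_lit 342) (nat_lit 317) (nat_lit 121)) (XT.lf (nat_lit 0) (nat_lit 23885855636) (nat_lit 608) (nat_lit 845044177) (nat_lit 76) (nat_lit 9205098234) (nat_lit 120) (nat_lit 5) (nat_lit 128) (nat_lit 5) (nat_lit 121) (nat_lit 5) (nat_lit 343) (nat_lit 317) (nat_lit 120)))))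 (XT.nd (nat_lit 234) (nat_lit 532) (nat_lit 0) (XT.nd (nat_lit 78) (nat_lit 456) (nat_lit 0) (XT.lf (nat_lit 0) (nat_lit 14341930027) (nat_lit 456) (nat_lit 12914349953) (nat_lit 532) (nat_lit 7288698824) (nat_lit 114) (nat_lit 5) (nat_lit 120) (nat_lit 5) (nat_lit 121) (nat_lit 5) (nat_lit 344) (nat_lit 317) (nat_lit 119)) (XT.nd (nat_lit 78) (nat_lit 456) (nat_lit 0) (XT.lf (nat_lit 0) (nat_lit 29999482245) (nat_lit 456) (nat_lit 734524496) (nat_lit 532) (nat_lit 4438041699) (nat_lit 114) (nat_lit 5) (nat_lit 120) (nat_lit 5) (nat_lit 121) (nat_lit 5) (nat_lit 345) (nat_lit 317) (nat_lit 118)) (XT.lf (nat_lit 0) (nat_lit 10395800344) (nat_lit 456) (nat_lit 24131451949) (nat_lit 532) (nat_lit 1284347261) (nat_lit 108) (nat_lit 5) (nat_lit 114) (nat_lit 5) (nat_lit 115) (nat_lit 5) (nat_lit 346) (nat_lit 317) (nat_lit 117)))) (XT.nd (nat_lit 78) (nat_lit 456) (nat_lit 0) (XT.lf (nat_lit 0) (nat_lit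 1983398104) (nat_lit 532) (nat_lit 9960573177) (nat_lit 76) (nat_lit 24524071348) (nat_lit 107) (nat_lit 5) (nat_lit 114) (nat_lit 5) (nat_lit 108) (nat_lit 5) (nat_lit 347) (nat_lit 317) (nat_lit 116)) (XT.nd (nat_lit 78) (nat_lit 0) (nat_lit 0) (XT.lf (nat_lit 0) (nat_lit 5385993466) (nat_lit 532) (nat_lit 31087116095) (nat_lit 76) (nat_lit 668813568) (nat_lit 101) (nat_lit 5) (nat_lit 108) (nat_lit 5) (nat_lit 102) (nat_lit 5) (nat_lit 348) (nat_lit 317) (nat_lit 115)) (XT.lf (nat_lit 0) (nat_lit 9108349731) (nat_lit 532) (nat_lit 15199785314) (nat_lit 76) (nat_lit 13521358949) (nat_lit 101) (nat_lit 5) (nat_lit 108) (nat_lit 5) (nat_lit 102) (nat_lit 5) (nat_lit 349) (nat_lit 317) (nat_lit 114))))))) (XT.nd (nat_lit 858) (nat_lit 1520) (nat_lit 0) (XT.nd (nat_lit 390) (nat_lit 1216) (nat_lit 0) (XT.nd (nat_lit 156) (nat_lit 380) (nat_lit 0) (XT.nd (nat_lit 78) (nat_lit 0) (nat_lit 0) (XT.lf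 (nat_lit 0) (nat_lit 1184997333) (nat_lit 456) (nat_lit 11766680734) (nat_lit 532) (nat_lit 25585739188) (nat_lit 95) (nat_lit 5) (nat_lit 101) (nat_lit 5) (nat_lit 102) (nat_lit 5) (nat_lit 350) (nat_lit 317) (nat_lit 113)) (XT.lf (nat_lit 0) (nat_lit 17074325657) (nat_lit 532) (nat_lit 20903986133) (nat_lit 76) (nat_lit 1283350026) (nat_lit 95) (nat_lit 5) (nat_lit 102) (nat_lit 5) (nat_lit 96) (nat_lit 5) (nat_lit 351) (nat_lit 317) (nat_lit 112))) (XT.nd (nat_lit 78) (nat_lit 380) (nat_lit 0) (XT.lf (nat_lit 0) (nat_lit 21435161659) (nat_lit 532) (nat_lit 4080865928) (nat_lit 76) (nat_lit 14488174922) (nat_lit 95) (nat_lit 5) (nat_lit 102) (nat_lit 5) (nat_lit 96) (nat_lit 5) (nat_lit 352) (nat_lit 317) (nat_lit 111)) (XT.nd (nat_lit 78) (nat_lit 0) (nat_lit 0) (XT.lf (nat_lit 0) (nat_lit 13508345513) (nat_lit 380) (nat_lit 12546392945) (nat_lit 456) (nat_lit 14710447439) (nat_lit 90) (nat_lit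 5) (nat_lit 95) (nat_lit 5) (nat_lit 96) (nat_lit 5) (nat_lit 353) (nat_lit 317) (nat_lit 110)) (XT.lf (nat_lit 0) (nat_lit 30860425922) (nat_lit 456) (nat_lit 9849327529) (nat_lit 76) (nat_lit 837823466) (nat_lit 90) (nat_lit 5) (nat_lit 96) (nat_lit 5) (nat_lit 91) (nat_lit 5) (nat_lit 354) (nat_lit 317) (nat_lit 109))))) (XT.nd (nat_lit 234) (nat_lit 380) (nat_lit 0) (XT.nd (nat_lit 78) (nat_lit 456) (nat_lit 0) (XT.lf (nat_lit 0) (nat_lit 8112319252) (nat_lit 380) (nat_lit 27898320431) (nat_lit 456) (nat_lit 6336793032) (nat_lit 85) (nat_lit 5) (nat_lit 90) (nat_lit 5) (nat_lit 91) (nat_lit 5) (nat_lit 355) (nat_lit 317) (nat_lit 108)) (XT.nd (nat_lit 78) (nat_lit 456) (nat_lit 0) (XT.lf (nat_lit 0) (nat_lit 26812567956) (nat_lit 380) (nat_lit 14600437311) (nat_lit 456) (nat_lit 1755353169) (nat_lit 85) (nat_lit 5) (nat_lit 90) (nat_lit 5) (nat_lit 91) (nat_lit 5) (nat_lit 356) (nat_lit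 317) (nat_lit 107)) (XT.lf (nat_lit 0) (nat_lit 2069686667) (nat_lit 380) (nat_lit 854127638) (nat_lit 456) (nat_lit 41088703002) (nat_lit 79) (nat_lit 5) (nat_lit 84) (nat_lit 5) (nat_lit 85) (nat_lit 5) (nat_lit 357) (nat_lit 317) (nat_lit 106)))) (XT.nd (nat_lit 78) (nat_lit 380) (nat_lit 0) (XT.lf (nat_lit 0) (nat_lit 8001011014) (nat_lit 456) (nat_lit 23642903838) (nat_lit 76) (nat_lit 13228779952) (nat_lit 79) (nat_lit 5) (nat_lit 85) (nat_lit 5) (nat_lit 80) (nat_lit 5) (nat_lit 358) (nat_lit 317) (nat_lit 105)) (XT.nd (nat_lit 78) (nat_lit 380) (nat_lit 0) (XT.lf (nat_lit 0) (nat_lit 13237278115) (nat_lit 456) (nat_lit 4804529981) (nat_lit 76) (nat_lit 27716670105) (nat_lit 79) (nat_lit 5) (nat_lit 85) (nat_lit 5) (nat_lit 80) (nat_lit 5) (nat_lit 359) (nat_lit 317) (nat_lit 104)) (XT.lf (nat_lit 0) (nat_lit 14887470210) (nat_lit 380) (nat_lit 3884617850) (nat_lit 456) (nat_lit 27894506507)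 (nat_lit 74) (nat_lit 5) (nat_lit 79) (nat_lit 5) (nat_lit 80) (nat_lit 5) (nat_lit 360) (nat_lit 317) (nat_lit 103)))))) (XT.nd (nat_lit 468) (nat_lit 836) (nat_lit 0) (XT.nd (nat_lit 234) (nat_lit 380) (nat_lit 0) (XT.nd (nat_lit 78) (nat_lit 304) (nat_lit 0) (XT.lf (nat_lit 0) (nat_lit 24623140278) (nat_lit 456) (nat_lit 12437150725) (nat_lit 76) (nat_lit 10537160508) (nat_lit 74) (nat_lit 5) (nat_lit 80) (nat_lit 5) (nat_lit 75) (nat_lit 5) (nat_lit 361) (nat_lit 317) (nat_lit 102)) (XT.nd (nat_lit 78) (nat_lit 0) (nat_lit 0) (XT.lf (nat_lit 0) (nat_lit 7592781997) (nat_lit 304) (nat_lit 23166809902) (nat_lit 380) (nat_lit 17793349164) (nat_lit 70) (nat_lit 5) (nat_lit 74) (nat_lit 5) (nat_lit 75) (nat_lit 5) (nat_lit 362) (nat_lit 317) (nat_lit 101)) (XT.lf (nat_lit 0) (nat_lit 28476580636) (nat_lit 304) (nat_lit 8727594056) (nat_lit 380) (nat_lit 12329202331) (nat_lit 70) (nat_lit 5) (nat_lit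 74) (nat_lit 5) (nat_lit 75) (nat_lit 5) (nat_lit 363) (nat_lit 317) (nat_lit 100)))) (XT.nd (nat_lit 78) (nat_lit 380) (nat_lit 0) (XT.lf (nat_lit 0) (nat_lit 43899650558) (nat_lit 380) (nat_lit 617368149) (nat_lit 76) (nat_lit 6024483455) (nat_lit 70) (nat_lit 5) (nat_lit 75) (nat_lit 5) (nat_lit 71) (nat_lit 5) (nat_lit 364) (nat_lit 317) (nat_lit 99)) (XT.nd (nat_lit 78) (nat_lit 76) (nat_lit 0) (XT.lf (nat_lit 0) (nat_lit 20751864284) (nat_lit 304) (nat_lit 30328549919) (nat_lit 380) (nat_lit 490926833) (nat_lit 66) (nat_lit 5) (nat_lit 70) (nat_lit 5) (nat_lit 71) (nat_lit 5) (nat_lit 365) (nat_lit 317) (nat_lit 98)) (XT.lf (nat_lit 0) (nat_lit 5735313657) (nat_lit 380) (nat_lit 9915225109) (nat_lit 76) (nat_lit 36979708336) (nat_lit 65) (nat_lit 5) (nat_lit 70) (nat_lit 5) (nat_lit 66) (nat_lit 5) (nat_lit 366) (nat_lit 317) (nat_lit 97))))) (XT.nd (nat_lit 234) (nat_lit 228) (nat_lit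 0) (XT.nd (nat_lit 78) (nat_lit 304) (nat_lit 0) (XT.lf (nat_lit 0) (nat_lit 11840476473) (nat_lit 304) (nat_lit 410397969) (nat_lit 380) (nat_lit 41466530541) (nat_lit 61) (nat_lit 5) (nat_lit 65) (nat_lit 5) (nat_lit 66) (nat_lit 5) (nat_lit 367) (nat_lit 317) (nat_lit 96)) (XT.nd (nat_lit 78) (nat_lit 304) (nat_lit 0) (XT.lf (nat_lit 0) (nat_lit 19208566668) (nat_lit 380) (nat_lit 20531900015) (nat_lit 76) (nat_lit 15089313366) (nat_lit 61) (nat_lit 5) (nat_lit 66) (nat_lit 5) (nat_lit 62) (nat_lit 5) (nat_lit 368) (nat_lit 317) (nat_lit 95)) (XT.lf (nat_lit 0) (nat_lit 1476391902) (nat_lit 304) (nat_lit 24915495286) (nat_lit 380) (nat_lit 29583134570) (nat_lit 57) (nat_lit 5) (nat_lit 61) (nat_lit 5) (nat_lit 62) (nat_lit 5) (nat_lit 369) (nat_lit 317) (nat_lit 94)))) (XT.nd (nat_lit 78) (nat_lit 228) (nat_lit 0) (XT.lf (nat_lit 0) (nat_lit 24564000567) (nat_lit 304) (nat_lit 9432702982)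 (nat_lit 380) (nat_lit 23151739533) (nat_lit 57) (nat_lit 5) (nat_lit 61) (nat_lit 5) (nat_lit 62) (nat_lit 5) (nat_lit 370) (nat_lit 317) (nat_lit 93)) (XT.nd (nat_lit 78) (nat_lit 228) (nat_lit 0) (XT.lf (nat_lit 0) (nat_lit 41890985180) (nat_lit 380) (nat_lit 10077251168) (nat_lit 76) (nat_lit 6386993259) (nat_lit 57) (nat_lit 5) (nat_lit 62) (nat_lit 5) (nat_lit 58) (nat_lit 5) (nat_lit 371) (nat_lit 317) (nat_lit 92)) (XT.lf (nat_lit 0) (nat_lit 13268940505) (nat_lit 228) (nat_lit 36972833644) (nat_lit 304) (nat_lit 9349857333) (nat_lit 54) (nat_lit 5) (nat_lit 57) (nat_lit 5) (nat_lit 58) (nat_lit 5) (nat_lit 372) (nat_lit 317) (nat_lit 91))))))))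
noncomputable def xc237 : XT := (XT.nd (nat_lit 1716) (nat_lit 4560) (nat_lit 0) (XT.nd (nat_lit 858) (nat_lit 1292) (nat_lit 0) (XT.nd (nat_lit 390) (nat_lit 0) (nat_lit 152) (XT.nd (nat_lit 156) (nat_lit 0) (nat_lit 76) (XT.nd (nat_lit 78) (nat_lit 0) (nat_lit 0) (XT.lf (nat_lit 0) (nat_lit 6102732273) (nat_lit 1140) (nat_lit 2681353839) (nat_lit 1140) (nat_lit 2681353839) (nat_lit 151) (nat_lit 3) (nat_lit 166) (nat_lit 3) (nat_lit 166) (nat_lit 5) (nat_lit 318) (nat_lit 318) (nat_lit 144)) (XT.lf (nat_lit 76) (nat_lit 4246477554) (nat_lit 0) (nat_lit 8295950554) (nat_lit 1140) (nat_lit 10727522365) (nat_lit 152) (nat_lit 5) (nat_lit 151) (nat_lit 3) (nat_lit 166) (nat_lit 5) (nat_lit 319) (nat_lit 318) (nat_lit 143))) (XT.nd (nat_lit 78) (nat_lit 0) (nat_lit 0) (XT.lf (nat_lit 0) (nat_lit 12951833478) (nat_lit 1064) (nat_lit 9378781841) (nat_lit 1140) (nat_lit 1286718628) (nat_lit 152) (nat_lit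 5) (nat_lit 166) (nat_lit 5) (nat_lit 167) (nat_lit 5) (nat_lit 320) (nat_lit 318) (nat_lit 142)) (XT.nd (nat_lit 78) (nat_lit 0) (nat_lit 0) (XT.lf (nat_lit 76) (nat_lit 480064806) (nat_lit 0) (nat_lit 12975923061) (nat_lit 1140) (nat_lit 10516687520) (nat_lit 153) (nat_lit 5) (nat_lit 152) (nat_lit 5) (nat_lit 167) (nat_lit 5) (nat_lit 321) (nat_lit 318) (nat_lit 141)) (XT.lf (nat_lit 76) (nat_lit 10824541530) (nat_lit 0) (nat_lit 3241248570) (nat_lit 1140) (nat_lit 10270181432) (nat_lit 153) (nat_lit 5) (nat_lit 152) (nat_lit 5) (nat_lit 167) (nat_lit 5) (nat_lit 322) (nat_lit 318) (nat_lit 140))))) (XT.nd (nat_lit 234) (nat_lit 0) (nat_lit 76) (XT.nd (nat_lit 78) (nat_lit 0) (nat_lit 0) (XT.lf (nat_lit 0) (nat_lit 14755066958) (nat_lit 1064) (nat_lit 3298510032) (nat_lit 1140) (nat_lit 6654764020) (nat_lit 153) (nat_lit 5) (nat_lit 167) (nat_lit 5) (nat_lit 168) (nat_lit 5) (nat_lit 323)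 (nat_lit 318) (nat_lit 139)) (XT.nd (nat_lit 78) (nat_lit 0) (nat_lit 76) (XT.lf (nat_lit 76) (nat_lit 7329329552) (nat_lit 0) (nat_lit 8234310472) (nat_lit 1140) (nat_lit 9525292586) (nat_lit 154) (nat_lit 5) (nat_lit 153) (nat_lit 5) (nat_lit 168) (nat_lit 5) (nat_lit 324) (nat_lit 318) (nat_lit 138)) (XT.lf (nat_lit 0) (nat_lit 16444353742) (nat_lit 1064) (nat_lit 7157232130) (nat_lit 1140) (nat_lit 1877928881) (nat_lit 154) (nat_lit 5) (nat_lit 168) (nat_lit 5) (nat_lit 169) (nat_lit 5) (nat_lit 325) (nat_lit 318) (nat_lit 137)))) (XT.nd (nat_lit 78) (nat_lit 0) (nat_lit 0) (XT.lf (nat_lit 76) (nat_lit 3752466475) (nat_lit 0) (nat_lit 13712910505) (nat_lit 1140) (nat_lit 8413029765) (nat_lit 155) (nat_lit 5) (nat_lit 154) (nat_lit 5) (nat_lit 169) (nat_lit 5) (nat_lit 326) (nat_lit 318) (nat_lit 136)) (XT.nd (nat_lit 78) (nat_lit 0) (nat_lit 76) (XT.lf (nat_lit 76) (nat_lit 15133756440)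 (nat_lit 0) (nat_lit 3451922621) (nat_lit 1140) (nat_lit 7701535755) (nat_lit 155) (nat_lit 5) (nat_lit 154) (nat_lit 5) (nat_lit 169) (nat_lit 5) (nat_lit 327) (nat_lit 318) (nat_lit 135)) (XT.lf (nat_lit 76) (nat_lit 78853863) (nat_lit 0) (nat_lit 19726397316) (nat_lit 1140) (nat_lit 6901074629) (nat_lit 156) (nat_lit 5) (nat_lit 155) (nat_lit 5) (nat_lit 170) (nat_lit 5) (nat_lit 328) (nat_lit 318) (nat_lit 134)))))) (XT.nd (nat_lit 390) (nat_lit 1596) (nat_lit 0) (XT.nd (nat_lit 156) (nat_lit 0) (nat_lit 76) (XT.nd (nat_lit 78) (nat_lit 0) (nat_lit 76) (XT.lf (nat_lit 76) (nat_lit 11839466121) (nat_lit 0) (nat_lit 9364984498) (nat_lit 1140) (nat_lit 5929276566) (nat_lit 156) (nat_lit 5) (nat_lit 155) (nat_lit 5) (nat_lit 170) (nat_lit 5) (nat_lit 329) (nat_lit 318) (nat_lit 133)) (XT.lf (nat_lit 0) (nat_lit 22654871141) (nat_lit 1064) (nat_lit 3636112655) (nat_lit 1140) (nat_lit 1282697477)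 (nat_lit 156) (nat_lit 5) (nat_lit 170) (nat_lit 5) (nat_lit 171) (nat_lit 5) (nat_lit 330) (nat_lit 318) (nat_lit 132))) (XT.nd (nat_lit 78) (nat_lit 0) (nat_lit 0) (XT.lf (nat_lit 76) (nat_lit 8441358992) (nat_lit 0) (nat_lit 15878086954) (nat_lit 1140) (nat_lit 3702276573) (nat_lit 157) (nat_lit 5) (nat_lit 156) (nat_lit 5) (nat_lit 171) (nat_lit 5) (nat_lit 331) (nat_lit 318) (nat_lit 131)) (XT.nd (nat_lit 78) (nat_lit 0) (nat_lit 76) (XT.lf (nat_lit 76) (nat_lit 20953295345) (nat_lit 0) (nat_lit 5114226686) (nat_lit 1140) (nat_lit 2414683611) (nat_lit 157) (nat_lit 5) (nat_lit 156) (nat_lit 5) (nat_lit 171) (nat_lit 5) (nat_lit 332) (nat_lit 318) (nat_lit 130)) (XT.lf (nat_lit 76) (nat_lit 4920253950) (nat_lit 0) (nat_lit 23049440085) (nat_lit 1140) (nat_lit 983766954) (nat_lit 158) (nat_lit 5) (nat_lit 157) (nat_lit 5) (nat_lit 172) (nat_lit 5) (nat_lit 333) (nat_lit 318) (nat_lit 129)))))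 (XT.nd (nat_lit 234) (nat_lit 608) (nat_lit 0) (XT.nd (nat_lit 78) (nat_lit 0) (nat_lit 0) (XT.lf (nat_lit 0) (nat_lit 604904498) (nat_lit 1140) (nat_lit 11597920285) (nat_lit 1216) (nat_lit 17232163090) (nat_lit 142) (nat_lit 5) (nat_lit 157) (nat_lit 5) (nat_lit 158) (nat_lit 5) (nat_lit 334) (nat_lit 318) (nat_lit 128)) (XT.nd (nat_lit 78) (nat_lit 0) (nat_lit 76) (XT.lf (nat_lit 76) (nat_lit 1222129122) (nat_lit 0) (nat_lit 1008144785) (nat_lit 1216) (nat_lit 27700136849) (nat_lit 143) (nat_lit 5) (nat_lit 142) (nat_lit 5) (nat_lit 158) (nat_lit 5) (nat_lit 335) (nat_lit 318) (nat_lit 127)) (XT.lf (nat_lit 0) (nat_lit 4120957857) (nat_lit 1140) (nat_lit 15877441676) (nat_lit 76) (nat_lit 10435806709) (nat_lit 143) (nat_lit 5) (nat_lit 158) (nat_lit 5) (nat_lit 144) (nat_lit 5) (nat_lit 336) (nat_lit 318) (nat_lit 126)))) (XT.nd (nat_lit 78) (nat_lit 684) (nat_lit 0) (XT.lf (nat_lit 0) (nat_lit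 6075557672) (nat_lit 1140) (nat_lit 2674063751) (nat_lit 76) (nat_lit 22203284642) (nat_lit 143) (nat_lit 5) (nat_lit 158) (nat_lit 5) (nat_lit 144) (nat_lit 5) (nat_lit 337) (nat_lit 318) (nat_lit 125)) (XT.nd (nat_lit 78) (nat_lit 0) (nat_lit 0) (XT.lf (nat_lit 0) (nat_lit 8221510536) (nat_lit 760) (nat_lit 20371901994) (nat_lit 76) (nat_lit 2889779047) (nat_lit 134) (nat_lit 5) (nat_lit 144) (nat_lit 5) (nat_lit 135) (nat_lit 5) (nat_lit 338) (nat_lit 318) (nat_lit 124)) (XT.lf (nat_lit 0) (nat_lit 10543096715) (nat_lit 760) (nat_lit 6752854927) (nat_lit 76) (nat_lit 14730102339) (nat_lit 134) (nat_lit 5) (nat_lit 144) (nat_lit 5) (nat_lit 135) (nat_lit 5) (nat_lit 339) (nat_lit 318) (nat_lit 123))))))) (XT.nd (nat_lit 858) (nat_lit 2052) (nat_lit 0) (XT.nd (nat_lit 390) (nat_lit 1444) (nat_lit 0) (XT.nd (nat_lit 156) (nat_lit 532) (nat_lit 0) (XT.nd (nat_lit 78) (nat_lit 0) (nat_lit 0) (XT.lf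 (nat_lit 0) (nat_lit 7417167861) (nat_lit 532) (nat_lit 5585892678) (nat_lit 608) (nat_lit 19580085611) (nat_lit 127) (nat_lit 5) (nat_lit 134) (nat_lit 5) (nat_lit 135) (nat_lit 5) (nat_lit 340) (nat_lit 318) (nat_lit 122)) (XT.lf (nat_lit 0) (nat_lit 15665421499) (nat_lit 608) (nat_lit 11069500022) (nat_lit 76) (nat_lit 6418177240) (nat_lit 127) (nat_lit 5) (nat_lit 135) (nat_lit 5) (nat_lit 128) (nat_lit 5) (nat_lit 341) (nat_lit 318) (nat_lit 121))) (XT.nd (nat_lit 78) (nat_lit 0) (nat_lit 0) (XT.lf (nat_lit 0) (nat_lit 3459757123) (nat_lit 532) (nat_lit 15034018861) (nat_lit 608) (nat_lit 15243795748) (nat_lit 120) (nat_lit 5) (nat_lit 127) (nat_lit 5) (nat_lit 128) (nat_lit 5) (nat_lit 342) (nat_lit 318) (nat_lit 120)) (XT.nd (nat_lit 78) (nat_lit 0) (nat_lit 0) (XT.lf (nat_lit 0) (nat_lit 18649506722) (nat_lit 532) (nat_lit 2866863134) (nat_lit 608) (nat_lit 12819932676) (nat_lit 120)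 (nat_lit 5) (nat_lit 127) (nat_lit 5) (nat_lit 128) (nat_lit 5) (nat_lit 343) (nat_lit 318) (nat_lit 119)) (XT.lf (nat_lit 0) (nat_lit 24720229416) (nat_lit 608) (nat_lit 753263152) (nat_lit 76) (nat_lit 9476790200) (nat_lit 120) (nat_lit 5) (nat_lit 128) (nat_lit 5) (nat_lit 121) (nat_lit 5) (nat_lit 344) (nat_lit 318) (nat_lit 118))))) (XT.nd (nat_lit 234) (nat_lit 532) (nat_lit 0) (XT.nd (nat_lit 78) (nat_lit 456) (nat_lit 0) (XT.lf (nat_lit 0) (nat_lit 14888171921) (nat_lit 456) (nat_lit 13301278464) (nat_lit 532) (nat_lit 7388159655) (nat_lit 114) (nat_lit 5) (nat_lit 120) (nat_lit 5) (nat_lit 121) (nat_lit 5) (nat_lit 345) (nat_lit 318) (nat_lit 117)) (XT.nd (nat_lit 78) (nat_lit 456) (nat_lit 0) (XT.lf (nat_lit 0) (nat_lit 31012072532) (nat_lit 456) (nat_lit 756072864) (nat_lit 532) (nat_lit 4455454664) (nat_lit 114) (nat_lit 5) (nat_lit 120) (nat_lit 5) (nat_lit 121) (nat_lit 5) (nat_lit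 346) (nat_lit 318) (nat_lit 116)) (XT.lf (nat_lit 0) (nat_lit 10822745998) (nat_lit 456) (nat_lit 24850287418) (nat_lit 532) (nat_lit 1209376112) (nat_lit 108) (nat_lit 5) (nat_lit 114) (nat_lit 5) (nat_lit 115) (nat_lit 5) (nat_lit 347) (nat_lit 318) (nat_lit 115)))) (XT.nd (nat_lit 78) (nat_lit 456) (nat_lit 0) (XT.lf (nat_lit 0) (nat_lit 2150945429) (nat_lit 532) (nat_lit 10145294634) (nat_lit 76) (nat_lit 25262377104) (nat_lit 107) (nat_lit 5) (nat_lit 114) (nat_lit 5) (nat_lit 108) (nat_lit 5) (nat_lit 348) (nat_lit 318) (nat_lit 114)) (XT.nd (nat_lit 78) (nat_lit 0) (nat_lit 0) (XT.lf (nat_lit 0) (nat_lit 5653624922) (nat_lit 532) (nat_lit 31903421294) (nat_lit 76) (nat_lit 695734242) (nat_lit 101) (nat_lit 5) (nat_lit 108) (nat_lit 5) (nat_lit 102) (nat_lit 5) (nat_lit 349) (nat_lit 318) (nat_lit 113)) (XT.lf (nat_lit 0) (nat_lit 9484562992) (nat_lit 532) (nat_lit 15542858210) (nat_lit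 76) (nat_lit 13933656287) (nat_lit 101) (nat_lit 5) (nat_lit 108) (nat_lit 5) (nat_lit 102) (nat_lit 5) (nat_lit 350) (nat_lit 318) (nat_lit 112)))))) (XT.nd (nat_lit 468) (nat_lit 836) (nat_lit 0) (XT.nd (nat_lit 234) (nat_lit 760) (nat_lit 0) (XT.nd (nat_lit 78) (nat_lit 0) (nat_lit 0) (XT.lf (nat_lit 0) (nat_lit 1332360852) (nat_lit 456) (nat_lit 12108906231) (nat_lit 532) (nat_lit 26249035274) (nat_lit 95) (nat_lit 5) (nat_lit 101) (nat_lit 5) (nat_lit 102) (nat_lit 5) (nat_lit 351) (nat_lit 318) (nat_lit 111)) (XT.nd (nat_lit 78) (nat_lit 0) (nat_lit 0) (XT.lf (nat_lit 0) (nat_lit 17684751786) (nat_lit 532) (nat_lit 21419506261) (nat_lit 76) (nat_lit 1332107485) (nat_lit 95) (nat_lit 5) (nat_lit 102) (nat_lit 5) (nat_lit 96) (nat_lit 5) (nat_lit 352) (nat_lit 318) (nat_lit 110)) (XT.lf (nat_lit 0) (nat_lit 22173552779) (nat_lit 532) (nat_lit 4094942920) (nat_lit 76) (nat_lit 14932778382)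 (nat_lit 95) (nat_lit 5) (nat_lit 102) (nat_lit 5) (nat_lit 96) (nat_lit 5) (nat_lit 353) (nat_lit 318) (nat_lit 109)))) (XT.nd (nat_lit 78) (nat_lit 380) (nat_lit 0) (XT.lf (nat_lit 0) (nat_lit 14020882619) (nat_lit 380) (nat_lit 12909088784) (nat_lit 456) (nat_lit 15055173594) (nat_lit 90) (nat_lit 5) (nat_lit 95) (nat_lit 5) (nat_lit 96) (nat_lit 5) (nat_lit 354) (nat_lit 318) (nat_lit 108)) (XT.nd (nat_lit 78) (nat_lit 380) (nat_lit 0) (XT.lf (nat_lit 0) (nat_lit 31877231365) (nat_lit 456) (nat_lit 10037864089) (nat_lit 76) (nat_lit 875995735) (nat_lit 90) (nat_lit 5) (nat_lit 96) (nat_lit 5) (nat_lit 91) (nat_lit 5) (nat_lit 355) (nat_lit 318) (nat_lit 107)) (XT.lf (nat_lit 0) (nat_lit 8461583632) (nat_lit 380) (nat_lit 28718735561) (nat_lit 456) (nat_lit 6434677776) (nat_lit 85) (nat_lit 5) (nat_lit 90) (nat_lit 5) (nat_lit 91) (nat_lit 5) (nat_lit 356) (nat_lit 318) (nat_lit 106)))))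 (XT.nd (nat_lit 234) (nat_lit 380) (nat_lit 0) (XT.nd (nat_lit 78) (nat_lit 456) (nat_lit 0) (XT.lf (nat_lit 0) (nat_lit 27719755483) (nat_lit 380) (nat_lit 15022397534) (nat_lit 456) (nat_lit 1718480709) (nat_lit 85) (nat_lit 5) (nat_lit 90) (nat_lit 5) (nat_lit 91) (nat_lit 5) (nat_lit 357) (nat_lit 318) (nat_lit 105)) (XT.nd (nat_lit 78) (nat_lit 0) (nat_lit 0) (XT.lf (nat_lit 0) (nat_lit 2235475853) (nat_lit 380) (nat_lit 862278766) (nat_lit 456) (nat_lit 42232388611) (nat_lit 79) (nat_lit 5) (nat_lit 84) (nat_lit 5) (nat_lit 85) (nat_lit 5) (nat_lit 358) (nat_lit 318) (nat_lit 104)) (XT.lf (nat_lit 0) (nat_lit 8324918862) (nat_lit 456) (nat_lit 24249006270) (nat_lit 76) (nat_lit 13642276114) (nat_lit 79) (nat_lit 5) (nat_lit 85) (nat_lit 5) (nat_lit 80) (nat_lit 5) (nat_lit 359) (nat_lit 318) (nat_lit 103)))) (XT.nd (nat_lit 78) (nat_lit 380) (nat_lit 0) (XT.lf (nat_lit 0) (nat_lit 13715830941)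 (nat_lit 456) (nat_lit 4848486576) (nat_lit 76) (nat_lit 28564318522) (nat_lit 79) (nat_lit 5) (nat_lit 85) (nat_lit 5) (nat_lit 80) (nat_lit 5) (nat_lit 360) (nat_lit 318) (nat_lit 102)) (XT.nd (nat_lit 78) (nat_lit 0) (nat_lit 0) (XT.lf (nat_lit 0) (nat_lit 15433291471) (nat_lit 380) (nat_lit 3981975380) (nat_lit 456) (nat_lit 28648776066) (nat_lit 74) (nat_lit 5) (nat_lit 79) (nat_lit 5) (nat_lit 80) (nat_lit 5) (nat_lit 361) (nat_lit 318) (nat_lit 101)) (XT.lf (nat_lit 0) (nat_lit 25439699077) (nat_lit 456) (nat_lit 12711661108) (nat_lit 76) (nat_lit 10871534270) (nat_lit 74) (nat_lit 5) (nat_lit 80) (nat_lit 5) (nat_lit 75) (nat_lit 5) (nat_lit 362) (nat_lit 318) (nat_lit 100))))))))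
noncomputable def xc238 : XT := (XT.nd (nat_lit 38298) (nat_lit 0) (nat_lit 2508) (XT.nd (nat_lit 37440) (nat_lit 0) (nat_lit 7220) (XT.nd (nat_lit 390) (nat_lit 608) (nat_lit 0) (XT.nd (nat_lit 156) (nat_lit 380) (nat_lit 0) (XT.nd (nat_lit 78) (nat_lit 0) (nat_lit 0) (XT.lf (nat_lit 0) (nat_lit 7918202888) (nat_lit 304) (nat_lit 23840712008) (nat_lit 380) (nat_lit 18248177891) (nat_lit 70) (nat_lit 5) (nat_lit 74) (nat_lit 5) (nat_lit 75) (nat_lit 5) (nat_lit 363) (nat_lit 318) (nat_lit 99)) (XT.lf (nat_lit 0) (nat_lit 29425671677) (nat_lit 304) (nat_lit 8968934314) (nat_lit 380) (nat_lit 12622406802) (nat_lit 70) (nat_lit 5) (nat_lit 74) (nat_lit 5) (nat_lit 75) (nat_lit 5) (nat_lit 364) (nat_lit 318) (nat_lit 98))) (XT.nd (nat_lit 78) (nat_lit 380) (nat_lit 0) (XT.lf (nat_lit 0) (nat_lit 45288973082) (nat_lit 380) (nat_lit 541751112) (nat_lit 76) (nat_lit 6224720655) (nat_lit 70) (nat_lit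 5) (nat_lit 75) (nat_lit 5) (nat_lit 71) (nat_lit 5) (nat_lit 365) (nat_lit 318) (nat_lit 97)) (XT.nd (nat_lit 78) (nat_lit 76) (nat_lit 0) (XT.lf (nat_lit 0) (nat_lit 21467635372) (nat_lit 304) (nat_lit 31216313519) (nat_lit 380) (nat_lit 432270176) (nat_lit 66) (nat_lit 5) (nat_lit 70) (nat_lit 5) (nat_lit 71) (nat_lit 5) (nat_lit 366) (nat_lit 318) (nat_lit 96)) (XT.lf (nat_lit 0) (nat_lit 5977229830) (nat_lit 380) (nat_lit 10120670268) (nat_lit 76) (nat_lit 38109037562) (nat_lit 65) (nat_lit 5) (nat_lit 70) (nat_lit 5) (nat_lit 66) (nat_lit 5) (nat_lit 367) (nat_lit 318) (nat_lit 95))))) (XT.nd (nat_lit 36816) (nat_lit 0) (nat_lit 7144) (XT.nd (nat_lit 78) (nat_lit 304) (nat_lit 0) (XT.lf (nat_lit 0) (nat_lit 12286800287) (nat_lit 304) (nat_lit 400298289) (nat_lit 380) (nat_lit 42639649994) (nat_lit 61) (nat_lit 5) (nat_lit 65) (nat_lit 5) (nat_lit 66) (nat_lit 5) (nat_lit 368) (nat_lit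 318) (nat_lit 94)) (XT.nd (nat_lit 78) (nat_lit 304) (nat_lit 0) (XT.lf (nat_lit 0) (nat_lit 19851729818) (nat_lit 380) (nat_lit 21057495221) (nat_lit 76) (nat_lit 15563327027) (nat_lit 61) (nat_lit 5) (nat_lit 66) (nat_lit 5) (nat_lit 62) (nat_lit 5) (nat_lit 369) (nat_lit 318) (nat_lit 93)) (XT.lf (nat_lit 0) (nat_lit 1610159553) (nat_lit 304) (nat_lit 25639301775) (nat_lit 380) (nat_lit 30402725685) (nat_lit 57) (nat_lit 5) (nat_lit 61) (nat_lit 5) (nat_lit 62) (nat_lit 5) (nat_lit 370) (nat_lit 318) (nat_lit 92)))) (XT.nd (nat_lit 78) (nat_lit 0) (nat_lit 0) (XT.lf (nat_lit 0) (nat_lit 6397789275) (nat_lit 1140) (nat_lit 2703990548) (nat_lit 1140) (nat_lit 2703990548) (nat_lit 151) (nat_lit 3) (nat_lit 166) (nat_lit 3) (nat_lit 166) (nat_lit 5) (nat_lit 319) (nat_lit 319) (nat_lit 142)) (XT.nd (nat_lit 78) (nat_lit 0) (nat_lit 76) (XT.lf (nat_lit 76) (nat_lit 4488346285) (nat_lit 0) (nat_lit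 8648882314) (nat_lit 1140) (nat_lit 10823733434) (nat_lit 152) (nat_lit 5) (nat_lit 151) (nat_lit 3) (nat_lit 166) (nat_lit 5) (nat_lit 320) (nat_lit 319) (nat_lit 141)) (XT.lf (nat_lit 0) (nat_lit 13551580157) (nat_lit 1064) (nat_lit 9541153470) (nat_lit 1140) (nat_lit 1226268934) (nat_lit 152) (nat_lit 5) (nat_lit 166) (nat_lit 5) (nat_lit 167) (nat_lit 5) (nat_lit 321) (nat_lit 319) (nat_lit 140)))))) (XT.nd (nat_lit 390) (nat_lit 0) (nat_lit 152) (XT.nd (nat_lit 156) (nat_lit 0) (nat_lit 76) (XT.nd (nat_lit 78) (nat_lit 0) (nat_lit 0) (XT.lf (nat_lit 76) (nat_lit 612291990) (nat_lit 0) (nat_lit 13453548582) (nat_lit 1140) (nat_lit 10619329249) (nat_lit 153) (nat_lit 5) (nat_lit 152) (nat_lit 5) (nat_lit 167) (nat_lit 5) (nat_lit 322) (nat_lit 319) (nat_lit 139)) (XT.lf (nat_lit 76) (nat_lit 11263671213) (nat_lit 0) (nat_lit 3424260618) (nat_lit 1140) (nat_lit 10371627752) (nat_lit 153) (nat_lit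 5) (nat_lit 152) (nat_lit 5) (nat_lit 167) (nat_lit 5) (nat_lit 323) (nat_lit 319) (nat_lit 138))) (XT.nd (nat_lit 78) (nat_lit 0) (nat_lit 0) (XT.lf (nat_lit 0) (nat_lit 15391256355) (nat_lit 1064) (nat_lit 3279301207) (nat_lit 1140) (nat_lit 6772755659) (nat_lit 153) (nat_lit 5) (nat_lit 167) (nat_lit 5) (nat_lit 168) (nat_lit 5) (nat_lit 324) (nat_lit 319) (nat_lit 137)) (XT.nd (nat_lit 78) (nat_lit 0) (nat_lit 76) (XT.lf (nat_lit 76) (nat_lit 7666215093) (nat_lit 0) (nat_lit 8553359239) (nat_lit 1140) (nat_lit 9615897351) (nat_lit 154) (nat_lit 5) (nat_lit 153) (nat_lit 5) (nat_lit 168) (nat_lit 5) (nat_lit 325) (nat_lit 319) (nat_lit 136)) (XT.lf (nat_lit 0) (nat_lit 17120531745) (nat_lit 1064) (nat_lit 7251728847) (nat_lit 1140) (nat_lit 1865709375) (nat_lit 154) (nat_lit 5) (nat_lit 168) (nat_lit 5) (nat_lit 169) (nat_lit 5) (nat_lit 326) (nat_lit 319) (nat_lit 135))))) (XT.nd (nat_lit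 234) (nat_lit 0) (nat_lit 76) (XT.nd (nat_lit 78) (nat_lit 0) (nat_lit 0) (XT.lf (nat_lit 76) (nat_lit 3984082087) (nat_lit 0) (nat_lit 14183922241) (nat_lit 1140) (nat_lit 8480962785) (nat_lit 155) (nat_lit 5) (nat_lit 154) (nat_lit 5) (nat_lit 169) (nat_lit 5) (nat_lit 327) (nat_lit 319) (nat_lit 134)) (XT.nd (nat_lit 78) (nat_lit 0) (nat_lit 76) (XT.lf (nat_lit 76) (nat_lit 15703343519) (nat_lit 0) (nat_lit 3613368087) (nat_lit 1140) (nat_lit 7753496514) (nat_lit 155) (nat_lit 5) (nat_lit 154) (nat_lit 5) (nat_lit 169) (nat_lit 5) (nat_lit 328) (nat_lit 319) (nat_lit 133)) (XT.lf (nat_lit 76) (nat_lit 201779792) (nat_lit 0) (nat_lit 20366657454) (nat_lit 1140) (nat_lit 6933600417) (nat_lit 156) (nat_lit 5) (nat_lit 155) (nat_lit 5) (nat_lit 170) (nat_lit 5) (nat_lit 329) (nat_lit 319) (nat_lit 132)))) (XT.nd (nat_lit 78) (nat_lit 0) (nat_lit 76) (XT.lf (nat_lit 76) (nat_lit 12311698952) (nat_lit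 0) (nat_lit 9692990557) (nat_lit 1140) (nat_lit 5937731125) (nat_lit 156) (nat_lit 5) (nat_lit 155) (nat_lit 5) (nat_lit 170) (nat_lit 5) (nat_lit 330) (nat_lit 319) (nat_lit 131)) (XT.nd (nat_lit 78) (nat_lit 0) (nat_lit 0) (XT.lf (nat_lit 0) (nat_lit 23493403716) (nat_lit 1064) (nat_lit 3625953753) (nat_lit 1140) (nat_lit 1276383953) (nat_lit 156) (nat_lit 5) (nat_lit 170) (nat_lit 5) (nat_lit 171) (nat_lit 5) (nat_lit 331) (nat_lit 319) (nat_lit 130)) (XT.lf (nat_lit 76) (nat_lit 8812673001) (nat_lit 0) (nat_lit 16391749996) (nat_lit 1140) (nat_lit 3652916867) (nat_lit 157) (nat_lit 5) (nat_lit 156) (nat_lit 5) (nat_lit 171) (nat_lit 5) (nat_lit 332) (nat_lit 319) (nat_lit 129))))))) (XT.nd (nat_lit 858) (nat_lit 2280) (nat_lit 0) (XT.nd (nat_lit 390) (nat_lit 1672) (nat_lit 0) (XT.nd (nat_lit 156) (nat_lit 1064) (nat_lit 0) (XT.nd (nat_lit 78) (nat_lit 0) (nat_lit 76) (XT.lf (nat_lit 76)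 (nat_lit 21696528419) (nat_lit 0) (nat_lit 5303886917) (nat_lit 1140) (nat_lit 2331368776) (nat_lit 157) (nat_lit 5) (nat_lit 156) (nat_lit 5) (nat_lit 171) (nat_lit 5) (nat_lit 333) (nat_lit 319) (nat_lit 128)) (XT.lf (nat_lit 76) (nat_lit 5186556582) (nat_lit 0) (nat_lit 23769504531) (nat_lit 1140) (nat_lit 861234283) (nat_lit 158) (nat_lit 5) (nat_lit 157) (nat_lit 5) (nat_lit 172) (nat_lit 5) (nat_lit 334) (nat_lit 319) (nat_lit 127))) (XT.nd (nat_lit 78) (nat_lit 0) (nat_lit 0) (XT.lf (nat_lit 0) (nat_lit 767788255) (nat_lit 1140) (nat_lit 11827408495) (nat_lit 1216) (nat_lit 17718167681) (nat_lit 142) (nat_lit 5) (nat_lit 157) (nat_lit 5) (nat_lit 158) (nat_lit 5) (nat_lit 335) (nat_lit 319) (nat_lit 126)) (XT.nd (nat_lit 78) (nat_lit 0) (nat_lit 76) (XT.lf (nat_lit 76) (nat_lit 1376081126) (nat_lit 0) (nat_lit 1062749436) (nat_lit 1216) (nat_lit 28384921724) (nat_lit 143) (nat_lit 5)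 (nat_lit 142) (nat_lit 5) (nat_lit 158) (nat_lit 5) (nat_lit 336) (nat_lit 319) (nat_lit 125)) (XT.lf (nat_lit 0) (nat_lit 4381882002) (nat_lit 1140) (nat_lit 16235227948) (nat_lit 76) (nat_lit 10725691638) (nat_lit 143) (nat_lit 5) (nat_lit 158) (nat_lit 5) (nat_lit 144) (nat_lit 5) (nat_lit 337) (nat_lit 319) (nat_lit 124))))) (XT.nd (nat_lit 234) (nat_lit 1064) (nat_lit 0) (XT.nd (nat_lit 78) (nat_lit 684) (nat_lit 0) (XT.lf (nat_lit 0) (nat_lit 6391120916) (nat_lit 1140) (nat_lit 2639201218) (nat_lit 76) (nat_lit 22846869324) (nat_lit 143) (nat_lit 5) (nat_lit 158) (nat_lit 5) (nat_lit 144) (nat_lit 5) (nat_lit 338) (nat_lit 319) (nat_lit 123)) (XT.nd (nat_lit 78) (nat_lit 0) (nat_lit 0) (XT.lf (nat_lit 0) (nat_lit 8598506239) (nat_lit 760) (nat_lit 20864734411) (nat_lit 76) (nat_lit 2960242092) (nat_lit 134) (nat_lit 5) (nat_lit 144) (nat_lit 5) (nat_lit 135) (nat_lit 5) (nat_lit 339) (nat_lit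 319) (nat_lit 122)) (XT.lf (nat_lit 0) (nat_lit 10985943389) (nat_lit 760) (nat_lit 6840562281) (nat_lit 76) (nat_lit 15156247812) (nat_lit 134) (nat_lit 5) (nat_lit 144) (nat_lit 5) (nat_lit 135) (nat_lit 5) (nat_lit 340) (nat_lit 319) (nat_lit 121)))) (XT.nd (nat_lit 78) (nat_lit 532) (nat_lit 0) (XT.lf (nat_lit 0) (nat_lit 7753434933) (nat_lit 532) (nat_lit 5763678617) (nat_lit 608) (nat_lit 20039530958) (nat_lit 127) (nat_lit 5) (nat_lit 134) (nat_lit 5) (nat_lit 135) (nat_lit 5) (nat_lit 341) (nat_lit 319) (nat_lit 120)) (XT.nd (nat_lit 78) (nat_lit 532) (nat_lit 0) (XT.lf (nat_lit 0) (nat_lit 16255639541) (nat_lit 608) (nat_lit 11287171237) (nat_lit 76) (nat_lit 6601004167) (nat_lit 127) (nat_lit 5) (nat_lit 135) (nat_lit 5) (nat_lit 128) (nat_lit 5) (nat_lit 342) (nat_lit 319) (nat_lit 119)) (XT.lf (nat_lit 0) (nat_lit 3676841918) (nat_lit 532) (nat_lit 15489589190) (nat_lit 608) (nat_lit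 15579471242) (nat_lit 120) (nat_lit 5) (nat_lit 127) (nat_lit 5) (nat_lit 128) (nat_lit 5) (nat_lit 343) (nat_lit 319) (nat_lit 118)))))) (XT.nd (nat_lit 468) (nat_lit 1292) (nat_lit 0) (XT.nd (nat_lit 234) (nat_lit 532) (nat_lit 0) (XT.nd (nat_lit 78) (nat_lit 456) (nat_lit 0) (XT.lf (nat_lit 0) (nat_lit 19318984236) (nat_lit 532) (nat_lit 2957286274) (nat_lit 608) (nat_lit 13086435143) (nat_lit 120) (nat_lit 5) (nat_lit 127) (nat_lit 5) (nat_lit 128) (nat_lit 5) (nat_lit 344) (nat_lit 319) (nat_lit 117)) (XT.nd (nat_lit 78) (nat_lit 456) (nat_lit 0) (XT.lf (nat_lit 0) (nat_lit 25572872315) (nat_lit 608) (nat_lit 665452572) (nat_lit 76) (nat_lit 9756889004) (nat_lit 120) (nat_lit 5) (nat_lit 128) (nat_lit 5) (nat_lit 121) (nat_lit 5) (nat_lit 345) (nat_lit 319) (nat_lit 116)) (XT.lf (nat_lit 0) (nat_lit 15444143117) (nat_lit 456) (nat_lit 13699843646) (nat_lit 532) (nat_lit 7497446885) (nat_lit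 114) (nat_lit 5) (nat_lit 120) (nat_lit 5) (nat_lit 121) (nat_lit 5) (nat_lit 346) (nat_lit 319) (nat_lit 115)))) (XT.nd (nat_lit 78) (nat_lit 532) (nat_lit 0) (XT.lf (nat_lit 0) (nat_lit 32048576492) (nat_lit 456) (nat_lit 778295660) (nat_lit 532) (nat_lit 4480033296) (nat_lit 114) (nat_lit 5) (nat_lit 120) (nat_lit 5) (nat_lit 121) (nat_lit 5) (nat_lit 347) (nat_lit 319) (nat_lit 114)) (XT.nd (nat_lit 78) (nat_lit 76) (nat_lit 0) (XT.lf (nat_lit 0) (nat_lit 11255894440) (nat_lit 456) (nat_lit 25590981175) (nat_lit 532) (nat_lit 1138671282) (nat_lit 108) (nat_lit 5) (nat_lit 114) (nat_lit 5) (nat_lit 115) (nat_lit 5) (nat_lit 348) (nat_lit 319) (nat_lit 113)) (XT.lf (nat_lit 0) (nat_lit 2317316926) (nat_lit 532) (nat_lit 10342107296) (nat_lit 76) (nat_lit 26022683722) (nat_lit 107) (nat_lit 5) (nat_lit 114) (nat_lit 5) (nat_lit 108) (nat_lit 5) (nat_lit 349) (nat_lit 319) (nat_lit 112)))))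 (XT.nd (nat_lit 234) (nat_lit 380) (nat_lit 0) (XT.nd (nat_lit 78) (nat_lit 456) (nat_lit 0) (XT.lf (nat_lit 0) (nat_lit 5923197523) (nat_lit 532) (nat_lit 32750892220) (nat_lit 76) (nat_lit 723068957) (nat_lit 101) (nat_lit 5) (nat_lit 108) (nat_lit 5) (nat_lit 102) (nat_lit 5) (nat_lit 350) (nat_lit 319) (nat_lit 111)) (XT.nd (nat_lit 78) (nat_lit 456) (nat_lit 0) (XT.lf (nat_lit 0) (nat_lit 9866152167) (nat_lit 532) (nat_lit 15902705400) (nat_lit 76) (nat_lit 14357940430) (nat_lit 101) (nat_lit 5) (nat_lit 108) (nat_lit 5) (nat_lit 102) (nat_lit 5) (nat_lit 351) (nat_lit 319) (nat_lit 110)) (XT.lf (nat_lit 0) (nat_lit 1477726719) (nat_lit 456) (nat_lit 12462017018) (nat_lit 532) (nat_lit 26938216116) (nat_lit 95) (nat_lit 5) (nat_lit 101) (nat_lit 5) (nat_lit 102) (nat_lit 5) (nat_lit 352) (nat_lit 319) (nat_lit 109)))) (XT.nd (nat_lit 78) (nat_lit 380) (nat_lit 0) (XT.lf (nat_lit 0) (nat_lit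 18307853825) (nat_lit 532) (nat_lit 21956898259) (nat_lit 76) (nat_lit 1381738877) (nat_lit 95) (nat_lit 5) (nat_lit 102) (nat_lit 5) (nat_lit 96) (nat_lit 5) (nat_lit 353) (nat_lit 319) (nat_lit 108)) (XT.nd (nat_lit 78) (nat_lit 380) (nat_lit 0) (XT.lf (nat_lit 0) (nat_lit 22928622941) (nat_lit 532) (nat_lit 4115661897) (nat_lit 76) (nat_lit 15390148303) (nat_lit 95) (nat_lit 5) (nat_lit 102) (nat_lit 5) (nat_lit 96) (nat_lit 5) (nat_lit 354) (nat_lit 319) (nat_lit 107)) (XT.lf (nat_lit 0) (nat_lit 14542637141) (nat_lit 380) (nat_lit 13283451702) (nat_lit 456) (nat_lit 15415786038) (nat_lit 90) (nat_lit 5) (nat_lit 95) (nat_lit 5) (nat_lit 96) (nat_lit 5) (nat_lit 355) (nat_lit 319) (nat_lit 106))))))))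
noncomputable def xc239 : XT := (XT.nd (nat_lit 38454) (nat_lit 0) (nat_lit 3496) (XT.nd (nat_lit 858) (nat_lit 684) (nat_lit 0) (XT.nd (nat_lit 390) (nat_lit 684) (nat_lit 0) (XT.nd (nat_lit 156) (nat_lit 456) (nat_lit 0) (XT.nd (nat_lit 78) (nat_lit 380) (nat_lit 0) (XT.lf (nat_lit 0) (nat_lit 32919317621) (nat_lit 456) (nat_lit 10238195726) (nat_lit 76) (nat_lit 914564763) (nat_lit 90) (nat_lit 5) (nat_lit 96) (nat_lit 5) (nat_lit 91) (nat_lit 5) (nat_lit 356) (nat_lit 319) (nat_lit 105)) (XT.lf (nat_lit 0) (nat_lit 8815247148) (nat_lit 380) (nat_lit 29564712292) (nat_lit 456) (nat_lit 6540792813) (nat_lit 85) (nat_lit 5) (nat_lit 90) (nat_lit 5) (nat_lit 91) (nat_lit 5) (nat_lit 357) (nat_lit 319) (nat_lit 104))) (XT.nd (nat_lit 78) (nat_lit 456) (nat_lit 0) (XT.lf (nat_lit 0) (nat_lit 28648256893) (nat_lit 380) (nat_lit 15457938066) (nat_lit 456) (nat_lit 1685641639) (nat_lit 85) (nat_lit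 5) (nat_lit 90) (nat_lit 5) (nat_lit 91) (nat_lit 5) (nat_lit 358) (nat_lit 319) (nat_lit 103)) (XT.nd (nat_lit 78) (nat_lit 0) (nat_lit 0) (XT.lf (nat_lit 0) (nat_lit 2400285991) (nat_lit 380) (nat_lit 871677432) (nat_lit 456) (nat_lit 43415492345) (nat_lit 79) (nat_lit 5) (nat_lit 84) (nat_lit 5) (nat_lit 85) (nat_lit 5) (nat_lit 359) (nat_lit 319) (nat_lit 102)) (XT.lf (nat_lit 0) (nat_lit 8653729032) (nat_lit 456) (nat_lit 24879214998) (nat_lit 76) (nat_lit 14067222372) (nat_lit 79) (nat_lit 5) (nat_lit 85) (nat_lit 5) (nat_lit 80) (nat_lit 5) (nat_lit 360) (nat_lit 319) (nat_lit 101))))) (XT.nd (nat_lit 234) (nat_lit 304) (nat_lit 0) (XT.nd (nat_lit 78) (nat_lit 380) (nat_lit 0) (XT.lf (nat_lit 0) (nat_lit 14204065680) (nat_lit 456) (nat_lit 4899512570) (nat_lit 76) (nat_lit 29436469412) (nat_lit 79) (nat_lit 5) (nat_lit 85) (nat_lit 5) (nat_lit 80) (nat_lit 5) (nat_lit 361) (nat_lit 319)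 (nat_lit 100)) (XT.nd (nat_lit 78) (nat_lit 0) (nat_lit 0) (XT.lf (nat_lit 0) (nat_lit 15989793047) (nat_lit 380) (nat_lit 4083354704) (nat_lit 456) (nat_lit 29430413317) (nat_lit 74) (nat_lit 5) (nat_lit 79) (nat_lit 5) (nat_lit 80) (nat_lit 5) (nat_lit 362) (nat_lit 319) (nat_lit 99)) (XT.lf (nat_lit 0) (nat_lit 26276284894) (nat_lit 456) (nat_lit 13000067084) (nat_lit 76) (nat_lit 11214891107) (nat_lit 74) (nat_lit 5) (nat_lit 80) (nat_lit 5) (nat_lit 75) (nat_lit 5) (nat_lit 363) (nat_lit 319) (nat_lit 98)))) (XT.nd (nat_lit 78) (nat_lit 0) (nat_lit 0) (XT.lf (nat_lit 0) (nat_lit 8247781618) (nat_lit 304) (nat_lit 24536042530) (nat_lit 380) (nat_lit 18721184782) (nat_lit 70) (nat_lit 5) (nat_lit 74) (nat_lit 5) (nat_lit 75) (nat_lit 5) (nat_lit 364) (nat_lit 319) (nat_lit 97)) (XT.nd (nat_lit 78) (nat_lit 0) (nat_lit 0) (XT.lf (nat_lit 0) (nat_lit 30397793908) (nat_lit 304) (nat_lit 9218690849)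 (nat_lit 380) (nat_lit 12928808670) (nat_lit 70) (nat_lit 5) (nat_lit 74) (nat_lit 5) (nat_lit 75) (nat_lit 5) (nat_lit 365) (nat_lit 319) (nat_lit 96)) (XT.lf (nat_lit 0) (nat_lit 46715823071) (nat_lit 380) (nat_lit 469269474) (nat_lit 76) (nat_lit 6429845437) (nat_lit 70) (nat_lit 5) (nat_lit 75) (nat_lit 5) (nat_lit 71) (nat_lit 5) (nat_lit 366) (nat_lit 319) (nat_lit 95)))))) (XT.nd (nat_lit 37128) (nat_lit 0) (nat_lit 6916) (XT.nd (nat_lit 234) (nat_lit 0) (nat_lit 0) (XT.nd (nat_lit 78) (nat_lit 380) (nat_lit 0) (XT.lf (nat_lit 0) (nat_lit 22199528661) (nat_lit 304) (nat_lit 32131978250) (nat_lit 380) (nat_lit 376066388) (nat_lit 66) (nat_lit 5) (nat_lit 70) (nat_lit 5) (nat_lit 71) (nat_lit 5) (nat_lit 367) (nat_lit 319) (nat_lit 94)) (XT.nd (nat_lit 78) (nat_lit 304) (nat_lit 0) (XT.lf (nat_lit 0) (nat_lit 6222393424) (nat_lit 380) (nat_lit 10337560623) (nat_lit 76) (nat_lit 39271102142)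 (nat_lit 65) (nat_lit 5) (nat_lit 70) (nat_lit 5) (nat_lit 66) (nat_lit 5) (nat_lit 368) (nat_lit 319) (nat_lit 93)) (XT.lf (nat_lit 0) (nat_lit 12741283757) (nat_lit 304) (nat_lit 391182137) (nat_lit 380) (nat_lit 43852031631) (nat_lit 61) (nat_lit 5) (nat_lit 65) (nat_lit 5) (nat_lit 66) (nat_lit 5) (nat_lit 369) (nat_lit 319) (nat_lit 92)))) (XT.nd (nat_lit 36738) (nat_lit 0) (nat_lit 6840) (XT.lf (nat_lit 0) (nat_lit 20510347177) (nat_lit 380) (nat_lit 21604045421) (nat_lit 76) (nat_lit 16050336425) (nat_lit 61) (nat_lit 5) (nat_lit 66) (nat_lit 5) (nat_lit 62) (nat_lit 5) (nat_lit 370) (nat_lit 319) (nat_lit 91)) (XT.nd (nat_lit 78) (nat_lit 0) (nat_lit 0) (XT.lf (nat_lit 0) (nat_lit 6695270162) (nat_lit 1140) (nat_lit 2730624538) (nat_lit 1140) (nat_lit 2730624538) (nat_lit 151) (nat_lit 3) (nat_lit 166) (nat_lit 3) (nat_lit 166) (nat_lit 5) (nat_lit 320) (nat_lit 320) (nat_lit 140)) (XT.lf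 (nat_lit 76) (nat_lit 4730899778) (nat_lit 0) (nat_lit 9006428946) (nat_lit 1140) (nat_lit 10935782036) (nat_lit 152) (nat_lit 5) (nat_lit 151) (nat_lit 3) (nat_lit 166) (nat_lit 5) (nat_lit 321) (nat_lit 320) (nat_lit 139))))) (XT.nd (nat_lit 234) (nat_lit 0) (nat_lit 76) (XT.nd (nat_lit 78) (nat_lit 0) (nat_lit 0) (XT.lf (nat_lit 0) (nat_lit 14157195970) (nat_lit 1064) (nat_lit 9715226865) (nat_lit 1140) (nat_lit 1169691697) (nat_lit 152) (nat_lit 5) (nat_lit 166) (nat_lit 5) (nat_lit 167) (nat_lit 5) (nat_lit 322) (nat_lit 320) (nat_lit 138)) (XT.nd (nat_lit 78) (nat_lit 0) (nat_lit 0) (XT.lf (nat_lit 76) (nat_lit 741722339) (nat_lit 0) (nat_lit 13940431341) (nat_lit 1140) (nat_lit 10737269201) (nat_lit 153) (nat_lit 5) (nat_lit 152) (nat_lit 5) (nat_lit 167) (nat_lit 5) (nat_lit 323) (nat_lit 320) (nat_lit 137)) (XT.lf (nat_lit 76) (nat_lit 11709408135) (nat_lit 0) (nat_lit 3607839215) (nat_lit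 1140) (nat_lit 10487980541) (nat_lit 153) (nat_lit 5) (nat_lit 152) (nat_lit 5) (nat_lit 167) (nat_lit 5) (nat_lit 324) (nat_lit 320) (nat_lit 136)))) (XT.nd (nat_lit 78) (nat_lit 0) (nat_lit 0) (XT.lf (nat_lit 0) (nat_lit 16035421596) (nat_lit 1064) (nat_lit 3266299221) (nat_lit 1140) (nat_lit 6898974165) (nat_lit 153) (nat_lit 5) (nat_lit 167) (nat_lit 5) (nat_lit 168) (nat_lit 5) (nat_lit 325) (nat_lit 320) (nat_lit 135)) (XT.nd (nat_lit 78) (nat_lit 0) (nat_lit 76) (XT.lf (nat_lit 76) (nat_lit 8006490596) (nat_lit 0) (nat_lit 8877845258) (nat_lit 1140) (nat_lit 9720422898) (nat_lit 154) (nat_lit 5) (nat_lit 153) (nat_lit 5) (nat_lit 168) (nat_lit 5) (nat_lit 326) (nat_lit 320) (nat_lit 134)) (XT.lf (nat_lit 0) (nat_lit 17806498899) (nat_lit 1064) (nat_lit 7355961599) (nat_lit 1140) (nat_lit 1857058757) (nat_lit 154) (nat_lit 5) (nat_lit 168) (nat_lit 5) (nat_lit 169) (nat_lit 5) (nat_lit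 327) (nat_lit 320) (nat_lit 133))))))) (XT.nd (nat_lit 858) (nat_lit 2660) (nat_lit 0) (XT.nd (nat_lit 390) (nat_lit 912) (nat_lit 0) (XT.nd (nat_lit 156) (nat_lit 0) (nat_lit 76) (XT.nd (nat_lit 78) (nat_lit 0) (nat_lit 0) (XT.lf (nat_lit 76) (nat_lit 4215812691) (nat_lit 0) (nat_lit 14665641644) (nat_lit 1140) (nat_lit 8561522432) (nat_lit 155) (nat_lit 5) (nat_lit 154) (nat_lit 5) (nat_lit 169) (nat_lit 5) (nat_lit 328) (nat_lit 320) (nat_lit 132)) (XT.lf (nat_lit 76) (nat_lit 16283383768) (nat_lit 0) (nat_lit 3776333922) (nat_lit 1140) (nat_lit 7817296325) (nat_lit 155) (nat_lit 5) (nat_lit 154) (nat_lit 5) (nat_lit 169) (nat_lit 5) (nat_lit 329) (nat_lit 320) (nat_lit 131))) (XT.nd (nat_lit 78) (nat_lit 0) (nat_lit 0) (XT.lf (nat_lit 76) (nat_lit 321472843) (nat_lit 0) (nat_lit 21023343123) (nat_lit 1140) (nat_lit 6977119364) (nat_lit 156) (nat_lit 5) (nat_lit 155) (nat_lit 5) (nat_lit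 170) (nat_lit 5) (nat_lit 330) (nat_lit 320) (nat_lit 130)) (XT.nd (nat_lit 78) (nat_lit 0) (nat_lit 76) (XT.lf (nat_lit 76) (nat_lit 12791379685) (nat_lit 0) (nat_lit 10028135560) (nat_lit 1140) (nat_lit 5956164937) (nat_lit 156) (nat_lit 5) (nat_lit 155) (nat_lit 5) (nat_lit 170) (nat_lit 5) (nat_lit 331) (nat_lit 320) (nat_lit 129)) (XT.lf (nat_lit 0) (nat_lit 24347971537) (nat_lit 1064) (nat_lit 3622335078) (nat_lit 1140) (nat_lit 1272452409) (nat_lit 156) (nat_lit 5) (nat_lit 170) (nat_lit 5) (nat_lit 171) (nat_lit 5) (nat_lit 332) (nat_lit 320) (nat_lit 128))))) (XT.nd (nat_lit 234) (nat_lit 1064) (nat_lit 0) (XT.nd (nat_lit 78) (nat_lit 0) (nat_lit 0) (XT.lf (nat_lit 76) (nat_lit 9188348545) (nat_lit 0) (nat_lit 16918680583) (nat_lit 1140) (nat_lit 3611285594) (nat_lit 157) (nat_lit 5) (nat_lit 156) (nat_lit 5) (nat_lit 171) (nat_lit 5) (nat_lit 333) (nat_lit 320) (nat_lit 127)) (XT.nd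 (nat_lit 78) (nat_lit 0) (nat_lit 76) (XT.lf (nat_lit 76) (nat_lit 22455478012) (nat_lit 0) (nat_lit 5497157007) (nat_lit 1140) (nat_lit 2254495491) (nat_lit 157) (nat_lit 5) (nat_lit 156) (nat_lit 5) (nat_lit 171) (nat_lit 5) (nat_lit 334) (nat_lit 320) (nat_lit 126)) (XT.lf (nat_lit 76) (nat_lit 5454034713) (nat_lit 0) (nat_lit 24509530230) (nat_lit 1140) (nat_lit 743753675) (nat_lit 158) (nat_lit 5) (nat_lit 157) (nat_lit 5) (nat_lit 172) (nat_lit 5) (nat_lit 335) (nat_lit 320) (nat_lit 125)))) (XT.nd (nat_lit 78) (nat_lit 0) (nat_lit 0) (XT.lf (nat_lit 0) (nat_lit 927250051) (nat_lit 1140) (nat_lit 12070580832) (nat_lit 1216) (nat_lit 18220529657) (nat_lit 142) (nat_lit 5) (nat_lit 157) (nat_lit 5) (nat_lit 158) (nat_lit 5) (nat_lit 336) (nat_lit 320) (nat_lit 124)) (XT.nd (nat_lit 78) (nat_lit 0) (nat_lit 76) (XT.lf (nat_lit 76) (nat_lit 1527918871) (nat_lit 0) (nat_lit 1117593846) (nat_lit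 1216) (nat_lit 29098643728) (nat_lit 143) (nat_lit 5) (nat_lit 142) (nat_lit 5) (nat_lit 158) (nat_lit 5) (nat_lit 337) (nat_lit 320) (nat_lit 123)) (XT.lf (nat_lit 0) (nat_lit 4642752553) (nat_lit 1140) (nat_lit 16610552315) (nat_lit 76) (nat_lit 11025604274) (nat_lit 143) (nat_lit 5) (nat_lit 158) (nat_lit 5) (nat_lit 144) (nat_lit 5) (nat_lit 338) (nat_lit 320) (nat_lit 122)))))) (XT.nd (nat_lit 468) (nat_lit 988) (nat_lit 0) (XT.nd (nat_lit 234) (nat_lit 1064) (nat_lit 0) (XT.nd (nat_lit 78) (nat_lit 684) (nat_lit 0) (XT.lf (nat_lit 0) (nat_lit 6708499292) (nat_lit 1140) (nat_lit 2609899128) (nat_lit 76) (nat_lit 23511053935) (nat_lit 143) (nat_lit 5) (nat_lit 158) (nat_lit 5) (nat_lit 144) (nat_lit 5) (nat_lit 339) (nat_lit 320) (nat_lit 121)) (XT.nd (nat_lit 78) (nat_lit 0) (nat_lit 0) (XT.lf (nat_lit 0) (nat_lit 8979329167) (nat_lit 760) (nat_lit 21379144119) (nat_lit 76) (nat_lit 3033750717)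 (nat_lit 134) (nat_lit 5) (nat_lit 144) (nat_lit 5) (nat_lit 135) (nat_lit 5) (nat_lit 340) (nat_lit 320) (nat_lit 120)) (XT.lf (nat_lit 0) (nat_lit 11434810760) (nat_lit 760) (nat_lit 6937495339) (nat_lit 76) (nat_lit 15596082199) (nat_lit 134) (nat_lit 5) (nat_lit 144) (nat_lit 5) (nat_lit 135) (nat_lit 5) (nat_lit 341) (nat_lit 320) (nat_lit 119)))) (XT.nd (nat_lit 78) (nat_lit 532) (nat_lit 0) (XT.lf (nat_lit 0) (nat_lit 8093260186) (nat_lit 532) (nat_lit 5946212087) (nat_lit 608) (nat_lit 20520104934) (nat_lit 127) (nat_lit 5) (nat_lit 134) (nat_lit 5) (nat_lit 135) (nat_lit 5) (nat_lit 342) (nat_lit 320) (nat_lit 118)) (XT.nd (nat_lit 78) (nat_lit 532) (nat_lit 0) (XT.lf (nat_lit 0) (nat_lit 16856660972) (nat_lit 608) (nat_lit 11517940408) (nat_lit 76) (nat_lit 6789873778) (nat_lit 127) (nat_lit 5) (nat_lit 135) (nat_lit 5) (nat_lit 128) (nat_lit 5) (nat_lit 343) (nat_lit 320) (nat_lit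 117)) (XT.lf (nat_lit 0) (nat_lit 3893935829) (nat_lit 532) (nat_lit 15958565455) (nat_lit 608) (nat_lit 15932199541) (nat_lit 120) (nat_lit 5) (nat_lit 127) (nat_lit 5) (nat_lit 128) (nat_lit 5) (nat_lit 344) (nat_lit 320) (nat_lit 116))))) (XT.nd (nat_lit 234) (nat_lit 532) (nat_lit 0) (XT.nd (nat_lit 78) (nat_lit 456) (nat_lit 0) (XT.lf (nat_lit 0) (nat_lit 20002232067) (nat_lit 532) (nat_lit 3050168541) (nat_lit 608) (nat_lit 13367711850) (nat_lit 120) (nat_lit 5) (nat_lit 127) (nat_lit 5) (nat_lit 128) (nat_lit 5) (nat_lit 345) (nat_lit 320) (nat_lit 115)) (XT.nd (nat_lit 78) (nat_lit 456) (nat_lit 0) (XT.lf (nat_lit 0) (nat_lit 26444720579) (nat_lit 608) (nat_lit 581345574) (nat_lit 76) (nat_lit 10045632150) (nat_lit 120) (nat_lit 5) (nat_lit 128) (nat_lit 5) (nat_lit 121) (nat_lit 5) (nat_lit 346) (nat_lit 320) (nat_lit 114)) (XT.lf (nat_lit 0) (nat_lit 16010517687) (nat_lit 456) (nat_lit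 14110392946) (nat_lit 532) (nat_lit 7616462516) (nat_lit 114) (nat_lit 5) (nat_lit 120) (nat_lit 5) (nat_lit 121) (nat_lit 5) (nat_lit 347) (nat_lit 320) (nat_lit 113)))) (XT.nd (nat_lit 78) (nat_lit 532) (nat_lit 0) (XT.lf (nat_lit 0) (nat_lit 33110082599) (nat_lit 456) (nat_lit 801211511) (nat_lit 532) (nat_lit 4511611211) (nat_lit 114) (nat_lit 5) (nat_lit 120) (nat_lit 5) (nat_lit 121) (nat_lit 5) (nat_lit 348) (nat_lit 320) (nat_lit 112)) (XT.nd (nat_lit 78) (nat_lit 76) (nat_lit 0) (XT.lf (nat_lit 0) (nat_lit 11695810939) (nat_lit 456) (nat_lit 26354172138) (nat_lit 532) (nat_lit 1071986748) (nat_lit 108) (nat_lit 5) (nat_lit 114) (nat_lit 5) (nat_lit 115) (nat_lit 5) (nat_lit 349) (nat_lit 320) (nat_lit 111)) (XT.lf (nat_lit 0) (nat_lit 2482833355) (nat_lit 532) (nat_lit 10550997929) (nat_lit 76) (nat_lit 26805659743) (nat_lit 107) (nat_lit 5) (nat_lit 114) (nat_lit 5) (nat_lit 108) (nat_lit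 5) (nat_lit 350) (nat_lit 320) (nat_lit 110))))))))
noncomputable def xc240 : XT := (XT.nd (nat_lit 38532) (nat_lit 0) (nat_lit 4180) (XT.nd (nat_lit 858) (nat_lit 1064) (nat_lit 0) (XT.nd (nat_lit 390) (nat_lit 1216) (nat_lit 0) (XT.nd (nat_lit 156) (nat_lit 456) (nat_lit 0) (XT.nd (nat_lit 78) (nat_lit 0) (nat_lit 0) (XT.lf (nat_lit 0) (nat_lit 6195118969) (nat_lit 532) (nat_lit 33630080583) (nat_lit 76) (nat_lit 750852729) (nat_lit 101) (nat_lit 5) (nat_lit 108) (nat_lit 5) (nat_lit 102) (nat_lit 5) (nat_lit 351) (nat_lit 320) (nat_lit 109)) (XT.lf (nat_lit 0) (nat_lit 10253617819) (nat_lit 532) (nat_lit 16279458014) (nat_lit 76) (nat_lit 14794592918) (nat_lit 101) (nat_lit 5) (nat_lit 108) (nat_lit 5) (nat_lit 102) (nat_lit 5) (nat_lit 352) (nat_lit 320) (nat_lit 108))) (XT.nd (nat_lit 78) (nat_lit 0) (nat_lit 0) (XT.lf (nat_lit 0) (nat_lit 1621403455) (nat_lit 456) (nat_lit 12826304148)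 (nat_lit 532) (nat_lit 27653714644) (nat_lit 95) (nat_lit 5) (nat_lit 101) (nat_lit 5) (nat_lit 102) (nat_lit 5) (nat_lit 353) (nat_lit 320) (nat_lit 107)) (XT.nd (nat_lit 78) (nat_lit 0) (nat_lit 0) (XT.lf (nat_lit 0) (nat_lit 18944335633) (nat_lit 532) (nat_lit 22516450536) (nat_lit 76) (nat_lit 1432304218) (nat_lit 95) (nat_lit 5) (nat_lit 102) (nat_lit 5) (nat_lit 96) (nat_lit 5) (nat_lit 354) (nat_lit 320) (nat_lit 106)) (XT.lf (nat_lit 0) (nat_lit 23701186671) (nat_lit 532) (nat_lit 4142865083) (nat_lit 76) (nat_lit 15860700494) (nat_lit 95) (nat_lit 5) (nat_lit 102) (nat_lit 5) (nat_lit 96) (nat_lit 5) (nat_lit 355) (nat_lit 320) (nat_lit 105))))) (XT.nd (nat_lit 234) (nat_lit 456) (nat_lit 0) (XT.nd (nat_lit 78) (nat_lit 380) (nat_lit 0) (XT.lf (nat_lit 0) (nat_lit 15074239135) (nat_lit 380) (nat_lit 13669786579) (nat_lit 456) (nat_lit 15792443082) (nat_lit 90) (nat_lit 5) (nat_lit 95)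 (nat_lit 5) (nat_lit 96) (nat_lit 5) (nat_lit 356) (nat_lit 320) (nat_lit 104)) (XT.nd (nat_lit 78) (nat_lit 380) (nat_lit 0) (XT.lf (nat_lit 0) (nat_lit 33987742954) (nat_lit 456) (nat_lit 10450323892) (nat_lit 76) (nat_lit 953585413) (nat_lit 90) (nat_lit 5) (nat_lit 96) (nat_lit 5) (nat_lit 91) (nat_lit 5) (nat_lit 357) (nat_lit 320) (nat_lit 103)) (XT.lf (nat_lit 0) (nat_lit 9173790723) (nat_lit 380) (nat_lit 30436962987) (nat_lit 456) (nat_lit 6655081169) (nat_lit 85) (nat_lit 5) (nat_lit 90) (nat_lit 5) (nat_lit 91) (nat_lit 5) (nat_lit 358) (nat_lit 320) (nat_lit 102)))) (XT.nd (nat_lit 78) (nat_lit 456) (nat_lit 0) (XT.lf (nat_lit 0) (nat_lit 29599050386) (nat_lit 380) (nat_lit 15907413417) (nat_lit 456) (nat_lit 1656661928) (nat_lit 85) (nat_lit 5) (nat_lit 90) (nat_lit 5) (nat_lit 91) (nat_lit 5) (nat_lit 359) (nat_lit 320) (nat_lit 101)) (XT.nd (nat_lit 78) (nat_lit 0) (nat_lit 0)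 (XT.lf (nat_lit 0) (nat_lit 2564429422) (nat_lit 380) (nat_lit 882303487) (nat_lit 456) (nat_lit 44638903552) (nat_lit 79) (nat_lit 5) (nat_lit 84) (nat_lit 5) (nat_lit 85) (nat_lit 5) (nat_lit 360) (nat_lit 320) (nat_lit 100)) (XT.lf (nat_lit 0) (nat_lit 8987864991) (nat_lit 456) (nat_lit 25533913193) (nat_lit 76) (nat_lit 14504017037) (nat_lit 79) (nat_lit 5) (nat_lit 85) (nat_lit 5) (nat_lit 80) (nat_lit 5) (nat_lit 361) (nat_lit 320) (nat_lit 99)))))) (XT.nd (nat_lit 390) (nat_lit 380) (nat_lit 0) (XT.nd (nat_lit 156) (nat_lit 304) (nat_lit 0) (XT.nd (nat_lit 78) (nat_lit 380) (nat_lit 0) (XT.lf (nat_lit 0) (nat_lit 14702541134) (nat_lit 456) (nat_lit 4957489933) (nat_lit 76) (nat_lit 30333911062) (nat_lit 79) (nat_lit 5) (nat_lit 85) (nat_lit 5) (nat_lit 80) (nat_lit 5) (nat_lit 362) (nat_lit 320) (nat_lit 98)) (XT.lf (nat_lit 0) (nat_lit 16557622226) (nat_lit 380) (nat_lit 4188813270)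 (nat_lit 456) (nat_lit 30239967218) (nat_lit 74) (nat_lit 5) (nat_lit 79) (nat_lit 5) (nat_lit 80) (nat_lit 5) (nat_lit 363) (nat_lit 320) (nat_lit 97))) (XT.nd (nat_lit 78) (nat_lit 304) (nat_lit 0) (XT.lf (nat_lit 0) (nat_lit 27133755121) (nat_lit 456) (nat_lit 13302460596) (nat_lit 76) (nat_lit 11567560678) (nat_lit 74) (nat_lit 5) (nat_lit 80) (nat_lit 5) (nat_lit 75) (nat_lit 5) (nat_lit 364) (nat_lit 320) (nat_lit 96)) (XT.nd (nat_lit 78) (nat_lit 0) (nat_lit 0) (XT.lf (nat_lit 0) (nat_lit 8581964660) (nat_lit 304) (nat_lit 25253374783) (nat_lit 380) (nat_lit 19212654950) (nat_lit 70) (nat_lit 5) (nat_lit 74) (nat_lit 5) (nat_lit 75) (nat_lit 5) (nat_lit 365) (nat_lit 320) (nat_lit 95)) (XT.lf (nat_lit 0) (nat_lit 31393950631) (nat_lit 304) (nat_lit 9477048640) (nat_lit 380) (nat_lit 13248551207) (nat_lit 70) (nat_lit 5) (nat_lit 74) (nat_lit 5) (nat_lit 75) (nat_lit 5) (nat_lit 366) (nat_lit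 320) (nat_lit 94))))) (XT.nd (nat_lit 37050) (nat_lit 0) (nat_lit 6536) (XT.nd (nat_lit 78) (nat_lit 380) (nat_lit 0) (XT.lf (nat_lit 0) (nat_lit 48181564704) (nat_lit 380) (nat_lit 399707092) (nat_lit 76) (nat_lit 6640068693) (nat_lit 70) (nat_lit 5) (nat_lit 75) (nat_lit 5) (nat_lit 71) (nat_lit 5) (nat_lit 367) (nat_lit 320) (nat_lit 93)) (XT.nd (nat_lit 78) (nat_lit 76) (nat_lit 0) (XT.lf (nat_lit 0) (nat_lit 22948334983) (nat_lit 304) (nat_lit 33076308344) (nat_lit 380) (nat_lit 322147237) (nat_lit 66) (nat_lit 5) (nat_lit 70) (nat_lit 5) (nat_lit 71) (nat_lit 5) (nat_lit 368) (nat_lit 320) (nat_lit 92)) (XT.lf (nat_lit 0) (nat_lit 6471132057) (nat_lit 380) (nat_lit 10565936331) (nat_lit 76) (nat_lit 40466949839) (nat_lit 65) (nat_lit 5) (nat_lit 70) (nat_lit 5) (nat_lit 66) (nat_lit 5) (nat_lit 369) (nat_lit 320) (nat_lit 91)))) (XT.nd (nat_lit 78) (nat_lit 0) (nat_lit 0) (XT.lf (nat_lit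 0) (nat_lit 6995616634) (nat_lit 1140) (nat_lit 2761185252) (nat_lit 1140) (nat_lit 2761185252) (nat_lit 151) (nat_lit 3) (nat_lit 166) (nat_lit 3) (nat_lit 166) (nat_lit 5) (nat_lit 321) (nat_lit 321) (nat_lit 138)) (XT.nd (nat_lit 78) (nat_lit 0) (nat_lit 76) (XT.lf (nat_lit 76) (nat_lit 4974535797) (nat_lit 0) (nat_lit 9369071774) (nat_lit 1140) (nat_lit 11063399845) (nat_lit 152) (nat_lit 5) (nat_lit 151) (nat_lit 3) (nat_lit 166) (nat_lit 5) (nat_lit 322) (nat_lit 321) (nat_lit 137)) (XT.lf (nat_lit 0) (nat_lit 14769552916) (nat_lit 1064) (nat_lit 9900960975) (nat_lit 1140) (nat_lit 1116776692) (nat_lit 152) (nat_lit 5) (nat_lit 166) (nat_lit 5) (nat_lit 167) (nat_lit 5) (nat_lit 323) (nat_lit 321) (nat_lit 136))))))) (XT.nd (nat_lit 858) (nat_lit 2432) (nat_lit 0) (XT.nd (nat_lit 390) (nat_lit 0) (nat_lit 152) (XT.nd (nat_lit 156) (nat_lit 0) (nat_lit 76) (XT.nd (nat_lit 78) (nat_lit 0)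 (nat_lit 0) (XT.lf (nat_lit 76) (nat_lit 868660209) (nat_lit 0) (nat_lit 14437140183) (nat_lit 1140) (nat_lit 10870264904) (nat_lit 153) (nat_lit 5) (nat_lit 152) (nat_lit 5) (nat_lit 167) (nat_lit 5) (nat_lit 324) (nat_lit 321) (nat_lit 135)) (XT.lf (nat_lit 76) (nat_lit 12162327466) (nat_lit 0) (nat_lit 3792284005) (nat_lit 1140) (nat_lit 10619006003) (nat_lit 153) (nat_lit 5) (nat_lit 152) (nat_lit 5) (nat_lit 167) (nat_lit 5) (nat_lit 325) (nat_lit 321) (nat_lit 134))) (XT.nd (nat_lit 78) (nat_lit 0) (nat_lit 0) (XT.lf (nat_lit 0) (nat_lit 16688439707) (nat_lit 1064) (nat_lit 3259300903) (nat_lit 1140) (nat_lit 7033397284) (nat_lit 153) (nat_lit 5) (nat_lit 167) (nat_lit 5) (nat_lit 168) (nat_lit 5) (nat_lit 326) (nat_lit 321) (nat_lit 133)) (XT.nd (nat_lit 78) (nat_lit 0) (nat_lit 76) (XT.lf (nat_lit 76) (nat_lit 8350643322) (nat_lit 0) (nat_lit 9208168967) (nat_lit 1140) (nat_lit 9838643772)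 (nat_lit 154) (nat_lit 5) (nat_lit 153) (nat_lit 5) (nat_lit 168) (nat_lit 5) (nat_lit 327) (nat_lit 321) (nat_lit 132)) (XT.lf (nat_lit 0) (nat_lit 18503151404) (nat_lit 1064) (nat_lit 7469826314) (nat_lit 1140) (nat_lit 1851858182) (nat_lit 154) (nat_lit 5) (nat_lit 168) (nat_lit 5) (nat_lit 169) (nat_lit 5) (nat_lit 328) (nat_lit 321) (nat_lit 131))))) (XT.nd (nat_lit 234) (nat_lit 0) (nat_lit 76) (XT.nd (nat_lit 78) (nat_lit 0) (nat_lit 0) (XT.lf (nat_lit 76) (nat_lit 4448054007) (nat_lit 0) (nat_lit 15158586419) (nat_lit 1140) (nat_lit 8654479674) (nat_lit 155) (nat_lit 5) (nat_lit 154) (nat_lit 5) (nat_lit 169) (nat_lit 5) (nat_lit 329) (nat_lit 321) (nat_lit 130)) (XT.nd (nat_lit 78) (nat_lit 0) (nat_lit 76) (XT.lf (nat_lit 76) (nat_lit 16874571626) (nat_lit 0) (nat_lit 3941056489) (nat_lit 1140) (nat_lit 7892700234) (nat_lit 155) (nat_lit 5) (nat_lit 154) (nat_lit 5) (nat_lit 169) (nat_lit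 5) (nat_lit 330) (nat_lit 321) (nat_lit 129)) (XT.lf (nat_lit 76) (nat_lit 438233304) (nat_lit 0) (nat_lit 21697106802) (nat_lit 1140) (nat_lit 7031386224) (nat_lit 156) (nat_lit 5) (nat_lit 155) (nat_lit 5) (nat_lit 170) (nat_lit 5) (nat_lit 331) (nat_lit 321) (nat_lit 128)))) (XT.nd (nat_lit 78) (nat_lit 0) (nat_lit 76) (XT.lf (nat_lit 76) (nat_lit 13279117460) (nat_lit 0) (nat_lit 10370788738) (nat_lit 1140) (nat_lit 5984319088) (nat_lit 156) (nat_lit 5) (nat_lit 155) (nat_lit 5) (nat_lit 170) (nat_lit 5) (nat_lit 332) (nat_lit 321) (nat_lit 127)) (XT.nd (nat_lit 78) (nat_lit 0) (nat_lit 0) (XT.lf (nat_lit 0) (nat_lit 25219579228) (nat_lit 1064) (nat_lit 3625059907) (nat_lit 1140) (nat_lit 1270826694) (nat_lit 156) (nat_lit 5) (nat_lit 170) (nat_lit 5) (nat_lit 171) (nat_lit 5) (nat_lit 333) (nat_lit 321) (nat_lit 126)) (XT.lf (nat_lit 76) (nat_lit 9568905546) (nat_lit 0) (nat_lit 17459399721)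 (nat_lit 1140) (nat_lit 3577085959) (nat_lit 157) (nat_lit 5) (nat_lit 156) (nat_lit 5) (nat_lit 171) (nat_lit 5) (nat_lit 334) (nat_lit 321) (nat_lit 125)))))) (XT.nd (nat_lit 468) (nat_lit 1672) (nat_lit 0) (XT.nd (nat_lit 234) (nat_lit 0) (nat_lit 0) (XT.nd (nat_lit 78) (nat_lit 1064) (nat_lit 0) (XT.lf (nat_lit 76) (nat_lit 23230993367) (nat_lit 0) (nat_lit 5694264650) (nat_lit 1140) (nat_lit 2183743751) (nat_lit 157) (nat_lit 5) (nat_lit 156) (nat_lit 5) (nat_lit 171) (nat_lit 5) (nat_lit 335) (nat_lit 321) (nat_lit 124)) (XT.nd (nat_lit 78) (nat_lit 1140) (nat_lit 0) (XT.lf (nat_lit 76) (nat_lit 5723114735) (nat_lit 0) (nat_lit 25270210201) (nat_lit 1140) (nat_lit 630975669) (nat_lit 158) (nat_lit 5) (nat_lit 157) (nat_lit 5) (nat_lit 172) (nat_lit 5) (nat_lit 336) (nat_lit 321) (nat_lit 123)) (XT.lf (nat_lit 0) (nat_lit 1083664166) (nat_lit 1140) (nat_lit 12327457500) (nat_lit 1216) (nat_lit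 18739637720) (nat_lit 142) (nat_lit 5) (nat_lit 157) (nat_lit 5) (nat_lit 158) (nat_lit 5) (nat_lit 337) (nat_lit 321) (nat_lit 122)))) (XT.nd (nat_lit 78) (nat_lit 0) (nat_lit 76) (XT.lf (nat_lit 76) (nat_lit 1677965421) (nat_lit 0) (nat_lit 1172765479) (nat_lit 1216) (nat_lit 29841689148) (nat_lit 143) (nat_lit 5) (nat_lit 142) (nat_lit 5) (nat_lit 158) (nat_lit 5) (nat_lit 338) (nat_lit 321) (nat_lit 121)) (XT.nd (nat_lit 78) (nat_lit 0) (nat_lit 0) (XT.lf (nat_lit 0) (nat_lit 4904020323) (nat_lit 1140) (nat_lit 17003550314) (nat_lit 76) (nat_lit 11335769034) (nat_lit 143) (nat_lit 5) (nat_lit 158) (nat_lit 5) (nat_lit 144) (nat_lit 5) (nat_lit 339) (nat_lit 321) (nat_lit 120)) (XT.lf (nat_lit 0) (nat_lit 7028186497) (nat_lit 1140) (nat_lit 2585945062) (nat_lit 76) (nat_lit 24196382283) (nat_lit 143) (nat_lit 5) (nat_lit 158) (nat_lit 5) (nat_lit 144) (nat_lit 5) (nat_lit 340) (nat_lit 321)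 (nat_lit 119))))) (XT.nd (nat_lit 234) (nat_lit 532) (nat_lit 0) (XT.nd (nat_lit 78) (nat_lit 532) (nat_lit 0) (XT.lf (nat_lit 0) (nat_lit 9364523673) (nat_lit 760) (nat_lit 21915388529) (nat_lit 76) (nat_lit 3110342804) (nat_lit 134) (nat_lit 5) (nat_lit 144) (nat_lit 5) (nat_lit 135) (nat_lit 5) (nat_lit 341) (nat_lit 321) (nat_lit 118)) (XT.nd (nat_lit 78) (nat_lit 532) (nat_lit 0) (XT.lf (nat_lit 0) (nat_lit 11890296471) (nat_lit 760) (nat_lit 7043552322) (nat_lit 76) (nat_lit 16049964244) (nat_lit 134) (nat_lit 5) (nat_lit 144) (nat_lit 5) (nat_lit 135) (nat_lit 5) (nat_lit 342) (nat_lit 321) (nat_lit 117)) (XT.lf (nat_lit 0) (nat_lit 8437125202) (nat_lit 532) (nat_lit 6133669155) (nat_lit 608) (nat_lit 21022019748) (nat_lit 127) (nat_lit 5) (nat_lit 134) (nat_lit 5) (nat_lit 135) (nat_lit 5) (nat_lit 343) (nat_lit 321) (nat_lit 116)))) (XT.nd (nat_lit 78) (nat_lit 532) (nat_lit 0) (XT.lf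 (nat_lit 0) (nat_lit 17469206164) (nat_lit 608) (nat_lit 11761823454) (nat_lit 76) (nat_lit 6984935328) (nat_lit 127) (nat_lit 5) (nat_lit 135) (nat_lit 5) (nat_lit 128) (nat_lit 5) (nat_lit 344) (nat_lit 321) (nat_lit 115)) (XT.nd (nat_lit 78) (nat_lit 0) (nat_lit 0) (XT.lf (nat_lit 0) (nat_lit 4111412451) (nat_lit 532) (nat_lit 16441364824) (nat_lit 608) (nat_lit 16302091404) (nat_lit 120) (nat_lit 5) (nat_lit 127) (nat_lit 5) (nat_lit 128) (nat_lit 5) (nat_lit 345) (nat_lit 321) (nat_lit 114)) (XT.lf (nat_lit 0) (nat_lit 20700025774) (nat_lit 532) (nat_lit 3145598263) (nat_lit 608) (nat_lit 13663816871) (nat_lit 120) (nat_lit 5) (nat_lit 127) (nat_lit 5) (nat_lit 128) (nat_lit 5) (nat_lit 346) (nat_lit 321) (nat_lit 113))))))))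
noncomputable def xc241 : XT := (XT.nd (nat_lit 38688) (nat_lit 0) (nat_lit 4332) (XT.nd (nat_lit 858) (nat_lit 1520) (nat_lit 0) (XT.nd (nat_lit 390) (nat_lit 1292) (nat_lit 0) (XT.nd (nat_lit 156) (nat_lit 532) (nat_lit 0) (XT.nd (nat_lit 78) (nat_lit 456) (nat_lit 0) (XT.lf (nat_lit 0) (nat_lit 27336716259) (nat_lit 608) (nat_lit 500689441) (nat_lit 76) (nat_lit 10343265113) (nat_lit 120) (nat_lit 5) (nat_lit 128) (nat_lit 5) (nat_lit 121) (nat_lit 5) (nat_lit 347) (nat_lit 321) (nat_lit 112)) (XT.lf (nat_lit 0) (nat_lit 16587967987) (nat_lit 456) (nat_lit 14533284328) (nat_lit 532) (nat_lit 7745128156) (nat_lit 114) (nat_lit 5) (nat_lit 120) (nat_lit 5) (nat_lit 121) (nat_lit 5) (nat_lit 348) (nat_lit 321) (nat_lit 111))) (XT.nd (nat_lit 78) (nat_lit 532) (nat_lit 0) (XT.lf (nat_lit 0) (nat_lit 34197690678) (nat_lit 456) (nat_lit 824839694) (nat_lit 532) (nat_lit 4550038930) (nat_lit 114)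 (nat_lit 5) (nat_lit 120) (nat_lit 5) (nat_lit 121) (nat_lit 5) (nat_lit 349) (nat_lit 321) (nat_lit 110)) (XT.nd (nat_lit 78) (nat_lit 76) (nat_lit 0) (XT.lf (nat_lit 0) (nat_lit 12143055957) (nat_lit 456) (nat_lit 27140519357) (nat_lit 532) (nat_lit 1009090575) (nat_lit 108) (nat_lit 5) (nat_lit 114) (nat_lit 5) (nat_lit 115) (nat_lit 5) (nat_lit 350) (nat_lit 321) (nat_lit 109)) (XT.lf (nat_lit 0) (nat_lit 2647804662) (nat_lit 532) (nat_lit 10771974482) (nat_lit 76) (nat_lit 27611993272) (nat_lit 107) (nat_lit 5) (nat_lit 114) (nat_lit 5) (nat_lit 108) (nat_lit 5) (nat_lit 351) (nat_lit 321) (nat_lit 108))))) (XT.nd (nat_lit 234) (nat_lit 380) (nat_lit 0) (XT.nd (nat_lit 78) (nat_lit 456) (nat_lit 0) (XT.lf (nat_lit 0) (nat_lit 6469789127) (nat_lit 532) (nat_lit 34541576643) (nat_lit 76) (nat_lit 779120326) (nat_lit 101) (nat_lit 5) (nat_lit 108) (nat_lit 5) (nat_lit 102) (nat_lit 5) (nat_lit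 352) (nat_lit 321) (nat_lit 107)) (XT.nd (nat_lit 78) (nat_lit 456) (nat_lit 0) (XT.lf (nat_lit 0) (nat_lit 10647456051) (nat_lit 532) (nat_lit 16673272476) (nat_lit 76) (nat_lit 15244005477) (nat_lit 101) (nat_lit 5) (nat_lit 108) (nat_lit 5) (nat_lit 102) (nat_lit 5) (nat_lit 353) (nat_lit 321) (nat_lit 106)) (XT.lf (nat_lit 0) (nat_lit 1763687687) (nat_lit 456) (nat_lit 13202069443) (nat_lit 532) (nat_lit 28395996500) (nat_lit 95) (nat_lit 5) (nat_lit 101) (nat_lit 5) (nat_lit 102) (nat_lit 5) (nat_lit 354) (nat_lit 321) (nat_lit 105)))) (XT.nd (nat_lit 78) (nat_lit 380) (nat_lit 0) (XT.lf (nat_lit 0) (nat_lit 19594903607) (nat_lit 532) (nat_lit 23098481264) (nat_lit 76) (nat_lit 1483863385) (nat_lit 95) (nat_lit 5) (nat_lit 102) (nat_lit 5) (nat_lit 96) (nat_lit 5) (nat_lit 355) (nat_lit 321) (nat_lit 104)) (XT.nd (nat_lit 78) (nat_lit 380) (nat_lit 0) (XT.lf (nat_lit 0) (nat_lit 24492064897)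 (nat_lit 532) (nat_lit 4176410466) (nat_lit 76) (nat_lit 16344861355) (nat_lit 95) (nat_lit 5) (nat_lit 102) (nat_lit 5) (nat_lit 96) (nat_lit 5) (nat_lit 356) (nat_lit 321) (nat_lit 103)) (XT.lf (nat_lit 0) (nat_lit 15616317266) (nat_lit 380) (nat_lit 14068410035) (nat_lit 456) (nat_lit 16185326058) (nat_lit 90) (nat_lit 5) (nat_lit 95) (nat_lit 5) (nat_lit 96) (nat_lit 5) (nat_lit 357) (nat_lit 321) (nat_lit 102)))))) (XT.nd (nat_lit 390) (nat_lit 684) (nat_lit 0) (XT.nd (nat_lit 156) (nat_lit 456) (nat_lit 0) (XT.nd (nat_lit 78) (nat_lit 380) (nat_lit 0) (XT.lf (nat_lit 0) (nat_lit 35083580168) (nat_lit 456) (nat_lit 10674270307) (nat_lit 76) (nat_lit 993111731) (nat_lit 90) (nat_lit 5) (nat_lit 96) (nat_lit 5) (nat_lit 91) (nat_lit 5) (nat_lit 358) (nat_lit 321) (nat_lit 101)) (XT.lf (nat_lit 0) (nat_lit 9537689675) (nat_lit 380) (nat_lit 31336224507) (nat_lit 456) (nat_lit 6777501604) (nat_lit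 85) (nat_lit 5) (nat_lit 90) (nat_lit 5) (nat_lit 91) (nat_lit 5) (nat_lit 359) (nat_lit 321) (nat_lit 100))) (XT.nd (nat_lit 78) (nat_lit 456) (nat_lit 0) (XT.lf (nat_lit 0) (nat_lit 30573124063) (nat_lit 380) (nat_lit 16371191772) (nat_lit 456) (nat_lit 1631379262) (nat_lit 85) (nat_lit 5) (nat_lit 90) (nat_lit 5) (nat_lit 91) (nat_lit 5) (nat_lit 360) (nat_lit 321) (nat_lit 99)) (XT.nd (nat_lit 78) (nat_lit 0) (nat_lit 0) (XT.lf (nat_lit 0) (nat_lit 2728208238) (nat_lit 380) (nat_lit 894139479) (nat_lit 456) (nat_lit 45903555094) (nat_lit 79) (nat_lit 5) (nat_lit 84) (nat_lit 5) (nat_lit 85) (nat_lit 5) (nat_lit 361) (nat_lit 321) (nat_lit 98)) (XT.lf (nat_lit 0) (nat_lit 9327747042) (nat_lit 456) (nat_lit 26213515040) (nat_lit 76) (nat_lit 14953067226) (nat_lit 79) (nat_lit 5) (nat_lit 85) (nat_lit 5) (nat_lit 80) (nat_lit 5) (nat_lit 362) (nat_lit 321) (nat_lit 97))))) (XT.nd (nat_lit 234)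 (nat_lit 304) (nat_lit 0) (XT.nd (nat_lit 78) (nat_lit 380) (nat_lit 0) (XT.lf (nat_lit 0) (nat_lit 15211817465) (nat_lit 456) (nat_lit 5022316041) (nat_lit 76) (nat_lit 31257452352) (nat_lit 79) (nat_lit 5) (nat_lit 85) (nat_lit 5) (nat_lit 80) (nat_lit 5) (nat_lit 363) (nat_lit 321) (nat_lit 96)) (XT.nd (nat_lit 78) (nat_lit 0) (nat_lit 0) (XT.lf (nat_lit 0) (nat_lit 17137426947) (nat_lit 380) (nat_lit 4298413877) (nat_lit 456) (nat_lit 31078018814) (nat_lit 74) (nat_lit 5) (nat_lit 79) (nat_lit 5) (nat_lit 80) (nat_lit 5) (nat_lit 364) (nat_lit 321) (nat_lit 95)) (XT.lf (nat_lit 0) (nat_lit 28012978143) (nat_lit 456) (nat_lit 13618955001) (nat_lit 76) (nat_lit 11929879078) (nat_lit 74) (nat_lit 5) (nat_lit 80) (nat_lit 5) (nat_lit 75) (nat_lit 5) (nat_lit 365) (nat_lit 321) (nat_lit 94)))) (XT.nd (nat_lit 78) (nat_lit 0) (nat_lit 0) (XT.lf (nat_lit 0) (nat_lit 8921193411) (nat_lit 304) (nat_lit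 25993303274) (nat_lit 380) (nat_lit 19722897004) (nat_lit 70) (nat_lit 5) (nat_lit 74) (nat_lit 5) (nat_lit 75) (nat_lit 5) (nat_lit 366) (nat_lit 321) (nat_lit 93)) (XT.nd (nat_lit 78) (nat_lit 0) (nat_lit 0) (XT.lf (nat_lit 0) (nat_lit 32415157317) (nat_lit 304) (nat_lit 9744202087) (nat_lit 380) (nat_lit 13581796485) (nat_lit 70) (nat_lit 5) (nat_lit 74) (nat_lit 5) (nat_lit 75) (nat_lit 5) (nat_lit 367) (nat_lit 321) (nat_lit 92)) (XT.lf (nat_lit 0) (nat_lit 49687589400) (nat_lit 380) (nat_lit 332859143) (nat_lit 76) (nat_lit 6855603956) (nat_lit 70) (nat_lit 5) (nat_lit 75) (nat_lit 5) (nat_lit 71) (nat_lit 5) (nat_lit 368) (nat_lit 321) (nat_lit 91))))))) (XT.nd (nat_lit 858) (nat_lit 1824) (nat_lit 0) (XT.nd (nat_lit 390) (nat_lit 0) (nat_lit 152) (XT.nd (nat_lit 156) (nat_lit 0) (nat_lit 76) (XT.nd (nat_lit 78) (nat_lit 0) (nat_lit 0) (XT.lf (nat_lit 0) (nat_lit 7299262461) (nat_lit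 1140) (nat_lit 2795610947) (nat_lit 1140) (nat_lit 2795610947) (nat_lit 151) (nat_lit 3) (nat_lit 166) (nat_lit 3) (nat_lit 166) (nat_lit 5) (nat_lit 322) (nat_lit 322) (nat_lit 136)) (XT.lf (nat_lit 76) (nat_lit 5219642382) (nat_lit 0) (nat_lit 9737286881) (nat_lit 1140) (nat_lit 11206353164) (nat_lit 152) (nat_lit 5) (nat_lit 151) (nat_lit 3) (nat_lit 166) (nat_lit 5) (nat_lit 323) (nat_lit 322) (nat_lit 135))) (XT.nd (nat_lit 78) (nat_lit 0) (nat_lit 0) (XT.lf (nat_lit 0) (nat_lit 15389509206) (nat_lit 1064) (nat_lit 10098336022) (nat_lit 1140) (nat_lit 1067326128) (nat_lit 152) (nat_lit 5) (nat_lit 166) (nat_lit 5) (nat_lit 167) (nat_lit 5) (nat_lit 324) (nat_lit 322) (nat_lit 134)) (XT.nd (nat_lit 78) (nat_lit 0) (nat_lit 0) (XT.lf (nat_lit 76) (nat_lit 993396799) (nat_lit 0) (nat_lit 14944244304) (nat_lit 1140) (nat_lit 11018106877) (nat_lit 153) (nat_lit 5) (nat_lit 152) (nat_lit 5) (nat_lit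 167) (nat_lit 5) (nat_lit 325) (nat_lit 322) (nat_lit 133)) (XT.lf (nat_lit 76) (nat_lit 12622999993) (nat_lit 0) (nat_lit 3977887395) (nat_lit 1140) (nat_lit 10764502421) (nat_lit 153) (nat_lit 5) (nat_lit 152) (nat_lit 5) (nat_lit 167) (nat_lit 5) (nat_lit 326) (nat_lit 322) (nat_lit 132))))) (XT.nd (nat_lit 234) (nat_lit 0) (nat_lit 76) (XT.nd (nat_lit 78) (nat_lit 0) (nat_lit 0) (XT.lf (nat_lit 0) (nat_lit 17351177414) (nat_lit 1064) (nat_lit 3258119335) (nat_lit 1140) (nat_lit 7176017540) (nat_lit 153) (nat_lit 5) (nat_lit 167) (nat_lit 5) (nat_lit 168) (nat_lit 5) (nat_lit 327) (nat_lit 322) (nat_lit 131)) (XT.nd (nat_lit 78) (nat_lit 0) (nat_lit 76) (XT.lf (nat_lit 76) (nat_lit 8699153015) (nat_lit 0) (nat_lit 9544729194) (nat_lit 1140) (nat_lit 9970364671) (nat_lit 154) (nat_lit 5) (nat_lit 153) (nat_lit 5) (nat_lit 168) (nat_lit 5) (nat_lit 328) (nat_lit 322) (nat_lit 130)) (XT.lf (nat_lit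 0) (nat_lit 19211377757) (nat_lit 1064) (nat_lit 7593238538) (nat_lit 1140) (nat_lit 1849998207) (nat_lit 154) (nat_lit 5) (nat_lit 168) (nat_lit 5) (nat_lit 169) (nat_lit 5) (nat_lit 329) (nat_lit 322) (nat_lit 129)))) (XT.nd (nat_lit 78) (nat_lit 0) (nat_lit 0) (XT.lf (nat_lit 76) (nat_lit 4681191108) (nat_lit 0) (nat_lit 15663278526) (nat_lit 1140) (nat_lit 8759633500) (nat_lit 155) (nat_lit 5) (nat_lit 154) (nat_lit 5) (nat_lit 169) (nat_lit 5) (nat_lit 330) (nat_lit 322) (nat_lit 128)) (XT.nd (nat_lit 78) (nat_lit 0) (nat_lit 76) (XT.lf (nat_lit 76) (nat_lit 17477600504) (nat_lit 0) (nat_lit 4107768294) (nat_lit 1140) (nat_lit 7979500110) (nat_lit 155) (nat_lit 5) (nat_lit 154) (nat_lit 5) (nat_lit 169) (nat_lit 5) (nat_lit 331) (nat_lit 322) (nat_lit 127)) (XT.lf (nat_lit 76) (nat_lit 552347666) (nat_lit 0) (nat_lit 22388611376) (nat_lit 1140) (nat_lit 7096181406) (nat_lit 156) (nat_lit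 5) (nat_lit 155) (nat_lit 5) (nat_lit 170) (nat_lit 5) (nat_lit 332) (nat_lit 322) (nat_lit 126)))))) (XT.nd (nat_lit 468) (nat_lit 1140) (nat_lit 0) (XT.nd (nat_lit 234) (nat_lit 988) (nat_lit 0) (XT.nd (nat_lit 78) (nat_lit 0) (nat_lit 76) (XT.lf (nat_lit 76) (nat_lit 13775517550) (nat_lit 0) (nat_lit 10721321498) (nat_lit 1140) (nat_lit 6021958947) (nat_lit 156) (nat_lit 5) (nat_lit 155) (nat_lit 5) (nat_lit 170) (nat_lit 5) (nat_lit 333) (nat_lit 322) (nat_lit 125)) (XT.nd (nat_lit 78) (nat_lit 0) (nat_lit 0) (XT.lf (nat_lit 0) (nat_lit 26109231498) (nat_lit 1064) (nat_lit 3633948170) (nat_lit 1140) (nat_lit 1271436850) (nat_lit 156) (nat_lit 5) (nat_lit 170) (nat_lit 5) (nat_lit 171) (nat_lit 5) (nat_lit 334) (nat_lit 322) (nat_lit 124)) (XT.lf (nat_lit 76) (nat_lit 9954857192) (nat_lit 0) (nat_lit 18014436988) (nat_lit 1140) (nat_lit 3550042611) (nat_lit 157) (nat_lit 5) (nat_lit 156)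 (nat_lit 5) (nat_lit 171) (nat_lit 5) (nat_lit 335) (nat_lit 322) (nat_lit 123)))) (XT.nd (nat_lit 78) (nat_lit 1064) (nat_lit 0) (XT.lf (nat_lit 76) (nat_lit 24023927517) (nat_lit 0) (nat_lit 5895437517) (nat_lit 1140) (nat_lit 2118813416) (nat_lit 157) (nat_lit 5) (nat_lit 156) (nat_lit 5) (nat_lit 171) (nat_lit 5) (nat_lit 336) (nat_lit 322) (nat_lit 122)) (XT.nd (nat_lit 78) (nat_lit 1140) (nat_lit 0) (XT.lf (nat_lit 76) (nat_lit 5994213382) (nat_lit 0) (nat_lit 26052252848) (nat_lit 1140) (nat_lit 522569076) (nat_lit 158) (nat_lit 5) (nat_lit 157) (nat_lit 5) (nat_lit 172) (nat_lit 5) (nat_lit 337) (nat_lit 322) (nat_lit 121)) (XT.lf (nat_lit 0) (nat_lit 1237388734) (nat_lit 1140) (nat_lit 12598081719) (nat_lit 1216) (nat_lit 19275898086) (nat_lit 142) (nat_lit 5) (nat_lit 157) (nat_lit 5) (nat_lit 158) (nat_lit 5) (nat_lit 338) (nat_lit 322) (nat_lit 120))))) (XT.nd (nat_lit 234) (nat_lit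 1140) (nat_lit 0) (XT.nd (nat_lit 78) (nat_lit 0) (nat_lit 76) (XT.lf (nat_lit 76) (nat_lit 1826531346) (nat_lit 0) (nat_lit 1228349818) (nat_lit 1216) (nat_lit 30614483520) (nat_lit 143) (nat_lit 5) (nat_lit 142) (nat_lit 5) (nat_lit 158) (nat_lit 5) (nat_lit 339) (nat_lit 322) (nat_lit 119)) (XT.nd (nat_lit 78) (nat_lit 0) (nat_lit 0) (XT.lf (nat_lit 0) (nat_lit 5166123676) (nat_lit 1140) (nat_lit 17414383970) (nat_lit 76) (nat_lit 11656421454) (nat_lit 143) (nat_lit 5) (nat_lit 158) (nat_lit 5) (nat_lit 144) (nat_lit 5) (nat_lit 340) (nat_lit 322) (nat_lit 118)) (XT.lf (nat_lit 0) (nat_lit 7350665823) (nat_lit 1140) (nat_lit 2567142003) (nat_lit 76) (nat_lit 24903418751) (nat_lit 143) (nat_lit 5) (nat_lit 158) (nat_lit 5) (nat_lit 144) (nat_lit 5) (nat_lit 341) (nat_lit 322) (nat_lit 117)))) (XT.nd (nat_lit 78) (nat_lit 532) (nat_lit 0) (XT.lf (nat_lit 0) (nat_lit 9754625779) (nat_lit 760)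 (nat_lit 22473755159) (nat_lit 76) (nat_lit 3190060446) (nat_lit 134) (nat_lit 5) (nat_lit 144) (nat_lit 5) (nat_lit 135) (nat_lit 5) (nat_lit 342) (nat_lit 322) (nat_lit 116)) (XT.nd (nat_lit 78) (nat_lit 532) (nat_lit 0) (XT.lf (nat_lit 0) (nat_lit 12352992158) (nat_lit 760) (nat_lit 7158650129) (nat_lit 76) (nat_lit 16518266431) (nat_lit 134) (nat_lit 5) (nat_lit 144) (nat_lit 5) (nat_lit 135) (nat_lit 5) (nat_lit 343) (nat_lit 322) (nat_lit 115)) (XT.lf (nat_lit 0) (nat_lit 8785504498) (nat_lit 532) (nat_lit 6326229239) (nat_lit 608) (nat_lit 21545518182) (nat_lit 127) (nat_lit 5) (nat_lit 134) (nat_lit 5) (nat_lit 135) (nat_lit 5) (nat_lit 344) (nat_lit 322) (nat_lit 114))))))))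
noncomputable def xc242 : XT := (XT.nd (nat_lit 1716) (nat_lit 304) (nat_lit 0) (XT.nd (nat_lit 858) (nat_lit 1596) (nat_lit 0) (XT.nd (nat_lit 390) (nat_lit 1444) (nat_lit 0) (XT.nd (nat_lit 156) (nat_lit 456) (nat_lit 0) (XT.nd (nat_lit 78) (nat_lit 532) (nat_lit 0) (XT.lf (nat_lit 0) (nat_lit 18093994350) (nat_lit 608) (nat_lit 12018858414) (nat_lit 76) (nat_lit 7186344390) (nat_lit 127) (nat_lit 5) (nat_lit 135) (nat_lit 5) (nat_lit 128) (nat_lit 5) (nat_lit 345) (nat_lit 322) (nat_lit 113)) (XT.lf (nat_lit 0) (nat_lit 4329635159) (nat_lit 532) (nat_lit 16938416124) (nat_lit 608) (nat_lit 16689283919) (nat_lit 120) (nat_lit 5) (nat_lit 127) (nat_lit 5) (nat_lit 128) (nat_lit 5) (nat_lit 346) (nat_lit 322) (nat_lit 112))) (XT.nd (nat_lit 78) (nat_lit 456) (nat_lit 0) (XT.lf (nat_lit 0) (nat_lit 21413143377) (nat_lit 532) (nat_lit 3243665585) (nat_lit 608) (nat_lit 13974828244) (nat_lit 120)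 (nat_lit 5) (nat_lit 127) (nat_lit 5) (nat_lit 128) (nat_lit 5) (nat_lit 347) (nat_lit 322) (nat_lit 111)) (XT.nd (nat_lit 78) (nat_lit 456) (nat_lit 0) (XT.lf (nat_lit 0) (nat_lit 28249808663) (nat_lit 608) (nat_lit 423244766) (nat_lit 76) (nat_lit 10650041527) (nat_lit 120) (nat_lit 5) (nat_lit 128) (nat_lit 5) (nat_lit 121) (nat_lit 5) (nat_lit 348) (nat_lit 322) (nat_lit 110)) (XT.lf (nat_lit 0) (nat_lit 17177165862) (nat_lit 456) (nat_lit 14968886584) (nat_lit 532) (nat_lit 7883384314) (nat_lit 114) (nat_lit 5) (nat_lit 120) (nat_lit 5) (nat_lit 121) (nat_lit 5) (nat_lit 349) (nat_lit 322) (nat_lit 109))))) (XT.nd (nat_lit 234) (nat_lit 912) (nat_lit 0) (XT.nd (nat_lit 78) (nat_lit 532) (nat_lit 0) (XT.lf (nat_lit 0) (nat_lit 35312513472) (nat_lit 456) (nat_lit 849200153) (nat_lit 532) (nat_lit 4595183121) (nat_lit 114) (nat_lit 5) (nat_lit 120) (nat_lit 5) (nat_lit 121) (nat_lit 5) (nat_lit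 350) (nat_lit 322) (nat_lit 108)) (XT.nd (nat_lit 78) (nat_lit 76) (nat_lit 0) (XT.lf (nat_lit 0) (nat_lit 12598186255) (nat_lit 456) (nat_lit 27950702564) (nat_lit 532) (nat_lit 949764107) (nat_lit 108) (nat_lit 5) (nat_lit 114) (nat_lit 5) (nat_lit 115) (nat_lit 5) (nat_lit 351) (nat_lit 322) (nat_lit 107)) (XT.lf (nat_lit 0) (nat_lit 2812530824) (nat_lit 532) (nat_lit 11005065486) (nat_lit 76) (nat_lit 28442392600) (nat_lit 107) (nat_lit 5) (nat_lit 114) (nat_lit 5) (nat_lit 108) (nat_lit 5) (nat_lit 352) (nat_lit 322) (nat_lit 106)))) (XT.nd (nat_lit 78) (nat_lit 456) (nat_lit 0) (XT.lf (nat_lit 0) (nat_lit 6747600954) (nat_lit 532) (nat_lit 35486009109) (nat_lit 76) (nat_lit 807906336) (nat_lit 101) (nat_lit 5) (nat_lit 108) (nat_lit 5) (nat_lit 102) (nat_lit 5) (nat_lit 353) (nat_lit 322) (nat_lit 105)) (XT.nd (nat_lit 78) (nat_lit 456) (nat_lit 0) (XT.lf (nat_lit 0) (nat_lit 11048159494)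 (nat_lit 532) (nat_lit 17084330035) (nat_lit 76) (nat_lit 15706580399) (nat_lit 101) (nat_lit 5) (nat_lit 108) (nat_lit 5) (nat_lit 102) (nat_lit 5) (nat_lit 354) (nat_lit 322) (nat_lit 104)) (XT.lf (nat_lit 0) (nat_lit 1904865005) (nat_lit 456) (nat_lit 13589625701) (nat_lit 532) (nat_lit 29165559887) (nat_lit 95) (nat_lit 5) (nat_lit 101) (nat_lit 5) (nat_lit 102) (nat_lit 5) (nat_lit 355) (nat_lit 322) (nat_lit 103)))))) (XT.nd (nat_lit 390) (nat_lit 836) (nat_lit 0) (XT.nd (nat_lit 156) (nat_lit 760) (nat_lit 0) (XT.nd (nat_lit 78) (nat_lit 0) (nat_lit 0) (XT.lf (nat_lit 0) (nat_lit 20260267827) (nat_lit 532) (nat_lit 23703338062) (nat_lit 76) (nat_lit 1536476225) (nat_lit 95) (nat_lit 5) (nat_lit 102) (nat_lit 5) (nat_lit 96) (nat_lit 5) (nat_lit 356) (nat_lit 322) (nat_lit 102)) (XT.lf (nat_lit 0) (nat_lit 25302086176) (nat_lit 532) (nat_lit 4216171089) (nat_lit 76) (nat_lit 16843068300)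 (nat_lit 95) (nat_lit 5) (nat_lit 102) (nat_lit 5) (nat_lit 96) (nat_lit 5) (nat_lit 357) (nat_lit 322) (nat_lit 101))) (XT.nd (nat_lit 78) (nat_lit 380) (nat_lit 0) (XT.lf (nat_lit 0) (nat_lit 16169499928) (nat_lit 380) (nat_lit 14479650627) (nat_lit 456) (nat_lit 16594638958) (nat_lit 90) (nat_lit 5) (nat_lit 95) (nat_lit 5) (nat_lit 96) (nat_lit 5) (nat_lit 358) (nat_lit 322) (nat_lit 100)) (XT.nd (nat_lit 78) (nat_lit 380) (nat_lit 0) (XT.lf (nat_lit 0) (nat_lit 36207918023) (nat_lit 456) (nat_lit 10910076414) (nat_lit 76) (nat_lit 1033197057) (nat_lit 90) (nat_lit 5) (nat_lit 96) (nat_lit 5) (nat_lit 91) (nat_lit 5) (nat_lit 359) (nat_lit 322) (nat_lit 99)) (XT.lf (nat_lit 0) (nat_lit 9907414700) (nat_lit 380) (nat_lit 32263258769) (nat_lit 456) (nat_lit 6908028085) (nat_lit 85) (nat_lit 5) (nat_lit 90) (nat_lit 5) (nat_lit 91) (nat_lit 5) (nat_lit 360) (nat_lit 322) (nat_lit 98))))) (XT.nd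 (nat_lit 234) (nat_lit 380) (nat_lit 0) (XT.nd (nat_lit 78) (nat_lit 456) (nat_lit 0) (XT.lf (nat_lit 0) (nat_lit 31571477333) (nat_lit 380) (nat_lit 16849655221) (nat_lit 456) (nat_lit 1609642419) (nat_lit 85) (nat_lit 5) (nat_lit 90) (nat_lit 5) (nat_lit 91) (nat_lit 5) (nat_lit 361) (nat_lit 322) (nat_lit 97)) (XT.nd (nat_lit 78) (nat_lit 0) (nat_lit 0) (XT.lf (nat_lit 0) (nat_lit 2891915106) (nat_lit 380) (nat_lit 907170552) (nat_lit 456) (nat_lit 47210423681) (nat_lit 79) (nat_lit 5) (nat_lit 84) (nat_lit 5) (nat_lit 85) (nat_lit 5) (nat_lit 362) (nat_lit 322) (nat_lit 96)) (XT.lf (nat_lit 0) (nat_lit 9673793140) (nat_lit 456) (nat_lit 26918465549) (nat_lit 76) (nat_lit 15414789299) (nat_lit 79) (nat_lit 5) (nat_lit 85) (nat_lit 5) (nat_lit 80) (nat_lit 5) (nat_lit 363) (nat_lit 322) (nat_lit 95)))) (XT.nd (nat_lit 78) (nat_lit 380) (nat_lit 0) (XT.lf (nat_lit 0) (nat_lit 15732457122) (nat_lit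 456) (nat_lit 5093903054) (nat_lit 76) (nat_lit 32207923550) (nat_lit 79) (nat_lit 5) (nat_lit 85) (nat_lit 5) (nat_lit 80) (nat_lit 5) (nat_lit 364) (nat_lit 322) (nat_lit 94)) (XT.nd (nat_lit 78) (nat_lit 0) (nat_lit 0) (XT.lf (nat_lit 0) (nat_lit 17729856906) (nat_lit 380) (nat_lit 4412224631) (nat_lit 456) (nat_lit 31945181303) (nat_lit 74) (nat_lit 5) (nat_lit 79) (nat_lit 5) (nat_lit 80) (nat_lit 5) (nat_lit 365) (nat_lit 322) (nat_lit 93)) (XT.lf (nat_lit 0) (nat_lit 28914834514) (nat_lit 456) (nat_lit 13949684634) (nat_lit 76) (nat_lit 12302189232) (nat_lit 74) (nat_lit 5) (nat_lit 80) (nat_lit 5) (nat_lit 75) (nat_lit 5) (nat_lit 366) (nat_lit 322) (nat_lit 92))))))) (XT.nd (nat_lit 37908) (nat_lit 0) (nat_lit 4864) (XT.nd (nat_lit 37440) (nat_lit 0) (nat_lit 6232) (XT.nd (nat_lit 37206) (nat_lit 0) (nat_lit 6156) (XT.nd (nat_lit 78) (nat_lit 0) (nat_lit 0) (XT.lf (nat_lit 0) (nat_lit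 9265905103) (nat_lit 304) (nat_lit 26756444108) (nat_lit 380) (nat_lit 20252242887) (nat_lit 70) (nat_lit 5) (nat_lit 74) (nat_lit 5) (nat_lit 75) (nat_lit 5) (nat_lit 367) (nat_lit 322) (nat_lit 91)) (XT.lf (nat_lit 0) (nat_lit 33462442997) (nat_lit 304) (nat_lit 10020355078) (nat_lit 380) (nat_lit 13928725111) (nat_lit 70) (nat_lit 5) (nat_lit 74) (nat_lit 5) (nat_lit 75) (nat_lit 5) (nat_lit 368) (nat_lit 322) (nat_lit 90))) (XT.nd (nat_lit 78) (nat_lit 0) (nat_lit 0) (XT.lf (nat_lit 0) (nat_lit 7606634460) (nat_lit 1140) (nat_lit 2833848338) (nat_lit 1140) (nat_lit 2833848338) (nat_lit 151) (nat_lit 3) (nat_lit 166) (nat_lit 3) (nat_lit 166) (nat_lit 5) (nat_lit 323) (nat_lit 323) (nat_lit 134)) (XT.nd (nat_lit 78) (nat_lit 0) (nat_lit 76) (XT.lf (nat_lit 76) (nat_lit 5466598805) (nat_lit 0) (nat_lit 10111546079) (nat_lit 1140) (nat_lit 11364441508) (nat_lit 152) (nat_lit 5) (nat_lit 151)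 (nat_lit 3) (nat_lit 166) (nat_lit 5) (nat_lit 324) (nat_lit 323) (nat_lit 133)) (XT.lf (nat_lit 0) (nat_lit 16017911140) (nat_lit 1064) (nat_lit 10307352857) (nat_lit 1140) (nat_lit 1021153938) (nat_lit 152) (nat_lit 5) (nat_lit 166) (nat_lit 5) (nat_lit 167) (nat_lit 5) (nat_lit 325) (nat_lit 323) (nat_lit 132))))) (XT.nd (nat_lit 234) (nat_lit 0) (nat_lit 76) (XT.nd (nat_lit 78) (nat_lit 0) (nat_lit 0) (XT.lf (nat_lit 76) (nat_lit 1116211035) (nat_lit 0) (nat_lit 15462314225) (nat_lit 1140) (nat_lit 11180617304) (nat_lit 153) (nat_lit 5) (nat_lit 152) (nat_lit 5) (nat_lit 167) (nat_lit 5) (nat_lit 326) (nat_lit 323) (nat_lit 131)) (XT.nd (nat_lit 78) (nat_lit 0) (nat_lit 76) (XT.lf (nat_lit 76) (nat_lit 13091993228) (nat_lit 0) (nat_lit 4164935271) (nat_lit 1140) (nat_lit 10924298874) (nat_lit 153) (nat_lit 5) (nat_lit 152) (nat_lit 5) (nat_lit 167) (nat_lit 5) (nat_lit 327) (nat_lit 323)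 (nat_lit 130)) (XT.lf (nat_lit 0) (nat_lit 18024492938) (nat_lit 1064) (nat_lit 3262583063) (nat_lit 1140) (nat_lit 7326841791) (nat_lit 153) (nat_lit 5) (nat_lit 167) (nat_lit 5) (nat_lit 168) (nat_lit 5) (nat_lit 328) (nat_lit 323) (nat_lit 129)))) (XT.nd (nat_lit 78) (nat_lit 0) (nat_lit 76) (XT.lf (nat_lit 76) (nat_lit 9052492950) (nat_lit 0) (nat_lit 9887923891) (nat_lit 1140) (nat_lit 10115419232) (nat_lit 154) (nat_lit 5) (nat_lit 153) (nat_lit 5) (nat_lit 168) (nat_lit 5) (nat_lit 329) (nat_lit 323) (nat_lit 128)) (XT.nd (nat_lit 78) (nat_lit 0) (nat_lit 0) (XT.lf (nat_lit 0) (nat_lit 19932060508) (nat_lit 1064) (nat_lit 7726132721) (nat_lit 1140) (nat_lit 1851378330) (nat_lit 154) (nat_lit 5) (nat_lit 168) (nat_lit 5) (nat_lit 169) (nat_lit 5) (nat_lit 330) (nat_lit 323) (nat_lit 127)) (XT.lf (nat_lit 76) (nat_lit 4915599394) (nat_lit 0) (nat_lit 16180244951) (nat_lit 1140) (nat_lit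 8876809757) (nat_lit 155) (nat_lit 5) (nat_lit 154) (nat_lit 5) (nat_lit 169) (nat_lit 5) (nat_lit 331) (nat_lit 323) (nat_lit 126)))))) (XT.nd (nat_lit 468) (nat_lit 1520) (nat_lit 0) (XT.nd (nat_lit 234) (nat_lit 0) (nat_lit 152) (XT.nd (nat_lit 78) (nat_lit 0) (nat_lit 76) (XT.lf (nat_lit 76) (nat_lit 18093164007) (nat_lit 0) (nat_lit 4276698497) (nat_lit 1140) (nat_lit 8077513513) (nat_lit 155) (nat_lit 5) (nat_lit 154) (nat_lit 5) (nat_lit 169) (nat_lit 5) (nat_lit 332) (nat_lit 323) (nat_lit 125)) (XT.nd (nat_lit 78) (nat_lit 0) (nat_lit 0) (XT.lf (nat_lit 76) (nat_lit 664089520) (nat_lit 0) (nat_lit 23098530977) (nat_lit 1140) (nat_lit 7171309845) (nat_lit 156) (nat_lit 5) (nat_lit 155) (nat_lit 5) (nat_lit 170) (nat_lit 5) (nat_lit 333) (nat_lit 323) (nat_lit 124)) (XT.lf (nat_lit 76) (nat_lit 14281182517) (nat_lit 0) (nat_lit 11080107997) (nat_lit 1140) (nat_lit 6068873052) (nat_lit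 156) (nat_lit 5) (nat_lit 155) (nat_lit 5) (nat_lit 170) (nat_lit 5) (nat_lit 334) (nat_lit 323) (nat_lit 123)))) (XT.nd (nat_lit 78) (nat_lit 0) (nat_lit 0) (XT.lf (nat_lit 0) (nat_lit 27017934866) (nat_lit 1064) (nat_lit 3648835657) (nat_lit 1140) (nat_lit 1274218805) (nat_lit 156) (nat_lit 5) (nat_lit 170) (nat_lit 5) (nat_lit 171) (nat_lit 5) (nat_lit 335) (nat_lit 323) (nat_lit 122)) (XT.nd (nat_lit 78) (nat_lit 0) (nat_lit 0) (XT.lf (nat_lit 76) (nat_lit 10346711014) (nat_lit 0) (nat_lit 18584331192) (nat_lit 1140) (nat_lit 3529900542) (nat_lit 157) (nat_lit 5) (nat_lit 156) (nat_lit 5) (nat_lit 171) (nat_lit 5) (nat_lit 336) (nat_lit 323) (nat_lit 121)) (XT.lf (nat_lit 76) (nat_lit 24835138650) (nat_lit 0) (nat_lit 6100903646) (nat_lit 1140) (nat_lit 2059423112) (nat_lit 157) (nat_lit 5) (nat_lit 156) (nat_lit 5) (nat_lit 171) (nat_lit 5) (nat_lit 337) (nat_lit 323) (nat_lit 120)))))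 (XT.nd (nat_lit 234) (nat_lit 608) (nat_lit 0) (XT.nd (nat_lit 78) (nat_lit 1140) (nat_lit 0) (XT.lf (nat_lit 76) (nat_lit 6267738723) (nat_lit 0) (nat_lit 26856382731) (nat_lit 1140) (nat_lit 418219884) (nat_lit 158) (nat_lit 5) (nat_lit 157) (nat_lit 5) (nat_lit 172) (nat_lit 5) (nat_lit 338) (nat_lit 323) (nat_lit 119)) (XT.nd (nat_lit 78) (nat_lit 0) (nat_lit 0) (XT.lf (nat_lit 0) (nat_lit 1388766822) (nat_lit 1140) (nat_lit 12882519122) (nat_lit 1216) (nat_lit 19829734681) (nat_lit 142) (nat_lit 5) (nat_lit 157) (nat_lit 5) (nat_lit 158) (nat_lit 5) (nat_lit 339) (nat_lit 323) (nat_lit 118)) (XT.lf (nat_lit 76) (nat_lit 1973915619) (nat_lit 0) (nat_lit 1284430565) (nat_lit 1216) (nat_lit 31417491215) (nat_lit 143) (nat_lit 5) (nat_lit 142) (nat_lit 5) (nat_lit 158) (nat_lit 5) (nat_lit 340) (nat_lit 323) (nat_lit 117)))) (XT.nd (nat_lit 78) (nat_lit 684) (nat_lit 0) (XT.lf (nat_lit 0) (nat_lit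 5429489650) (nat_lit 1140) (nat_lit 17843241304) (nat_lit 76) (nat_lit 11987808272) (nat_lit 143) (nat_lit 5) (nat_lit 158) (nat_lit 5) (nat_lit 144) (nat_lit 5) (nat_lit 341) (nat_lit 323) (nat_lit 116)) (XT.nd (nat_lit 78) (nat_lit 684) (nat_lit 0) (XT.lf (nat_lit 0) (nat_lit 7676411297) (nat_lit 1140) (nat_lit 2553307539) (nat_lit 76) (nat_lit 25632748667) (nat_lit 143) (nat_lit 5) (nat_lit 158) (nat_lit 5) (nat_lit 144) (nat_lit 5) (nat_lit 342) (nat_lit 323) (nat_lit 115)) (XT.lf (nat_lit 0) (nat_lit 10150164352) (nat_lit 760) (nat_lit 23054561248) (nat_lit 76) (nat_lit 3272949890) (nat_lit 134) (nat_lit 5) (nat_lit 144) (nat_lit 5) (nat_lit 135) (nat_lit 5) (nat_lit 343) (nat_lit 323) (nat_lit 114))))))))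
noncomputable def xc243 : XT := (XT.nd (nat_lit 1716) (nat_lit 380) (nat_lit 0) (XT.nd (nat_lit 858) (nat_lit 1672) (nat_lit 0) (XT.nd (nat_lit 390) (nat_lit 1444) (nat_lit 0) (XT.nd (nat_lit 156) (nat_lit 532) (nat_lit 0) (XT.nd (nat_lit 78) (nat_lit 532) (nat_lit 0) (XT.lf (nat_lit 0) (nat_lit 12823484640) (nat_lit 760) (nat_lit 7282723646) (nat_lit 76) (nat_lit 17001375231) (nat_lit 134) (nat_lit 5) (nat_lit 144) (nat_lit 5) (nat_lit 135) (nat_lit 5) (nat_lit 344) (nat_lit 323) (nat_lit 113)) (XT.lf (nat_lit 0) (nat_lit 9138866542) (nat_lit 532) (nat_lit 6524075320) (nat_lit 608) (nat_lit 22090873116) (nat_lit 127) (nat_lit 5) (nat_lit 134) (nat_lit 5) (nat_lit 135) (nat_lit 5) (nat_lit 345) (nat_lit 323) (nat_lit 112))) (XT.nd (nat_lit 78) (nat_lit 532) (nat_lit 0) (XT.lf (nat_lit 0) (nat_lit 18731744902) (nat_lit 608) (nat_lit 12289104867) (nat_lit 76) (nat_lit 7394262935) (nat_lit 127)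 (nat_lit 5) (nat_lit 135) (nat_lit 5) (nat_lit 128) (nat_lit 5) (nat_lit 346) (nat_lit 323) (nat_lit 111)) (XT.nd (nat_lit 78) (nat_lit 0) (nat_lit 0) (XT.lf (nat_lit 0) (nat_lit 4548958030) (nat_lit 532) (nat_lit 17450160233) (nat_lit 608) (nat_lit 17093939977) (nat_lit 120) (nat_lit 5) (nat_lit 127) (nat_lit 5) (nat_lit 128) (nat_lit 5) (nat_lit 347) (nat_lit 323) (nat_lit 110)) (XT.lf (nat_lit 0) (nat_lit 22142366626) (nat_lit 532) (nat_lit 3344462567) (nat_lit 608) (nat_lit 14300847403) (nat_lit 120) (nat_lit 5) (nat_lit 127) (nat_lit 5) (nat_lit 128) (nat_lit 5) (nat_lit 348) (nat_lit 323) (nat_lit 109))))) (XT.nd (nat_lit 234) (nat_lit 988) (nat_lit 0) (XT.nd (nat_lit 78) (nat_lit 456) (nat_lit 0) (XT.lf (nat_lit 0) (nat_lit 29184955780) (nat_lit 608) (nat_lit 348784640) (nat_lit 76) (nat_lit 10966223384) (nat_lit 120) (nat_lit 5) (nat_lit 128) (nat_lit 5) (nat_lit 121) (nat_lit 5) (nat_lit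 349) (nat_lit 323) (nat_lit 108)) (XT.nd (nat_lit 78) (nat_lit 0) (nat_lit 0) (XT.lf (nat_lit 0) (nat_lit 17778783822) (nat_lit 456) (nat_lit 15417579656) (nat_lit 532) (nat_lit 8031189748) (nat_lit 114) (nat_lit 5) (nat_lit 120) (nat_lit 5) (nat_lit 121) (nat_lit 5) (nat_lit 350) (nat_lit 323) (nat_lit 107)) (XT.lf (nat_lit 0) (nat_lit 36455678181) (nat_lit 456) (nat_lit 874313511) (nat_lit 532) (nat_lit 4646925901) (nat_lit 114) (nat_lit 5) (nat_lit 120) (nat_lit 5) (nat_lit 121) (nat_lit 5) (nat_lit 351) (nat_lit 323) (nat_lit 106)))) (XT.nd (nat_lit 78) (nat_lit 532) (nat_lit 0) (XT.lf (nat_lit 0) (nat_lit 13061755953) (nat_lit 456) (nat_lit 28785422742) (nat_lit 532) (nat_lit 893801205) (nat_lit 108) (nat_lit 5) (nat_lit 114) (nat_lit 5) (nat_lit 115) (nat_lit 5) (nat_lit 352) (nat_lit 323) (nat_lit 105)) (XT.nd (nat_lit 78) (nat_lit 456) (nat_lit 0) (XT.lf (nat_lit 0) (nat_lit 2977302659)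 (nat_lit 532) (nat_lit 11250319506) (nat_lit 76) (nat_lit 29297586831) (nat_lit 107) (nat_lit 5) (nat_lit 114) (nat_lit 5) (nat_lit 108) (nat_lit 5) (nat_lit 353) (nat_lit 323) (nat_lit 104)) (XT.lf (nat_lit 0) (nat_lit 7028941372) (nat_lit 532) (nat_lit 36464045096) (nat_lit 76) (nat_lit 837245232) (nat_lit 101) (nat_lit 5) (nat_lit 108) (nat_lit 5) (nat_lit 102) (nat_lit 5) (nat_lit 354) (nat_lit 323) (nat_lit 103)))))) (XT.nd (nat_lit 390) (nat_lit 836) (nat_lit 0) (XT.nd (nat_lit 156) (nat_lit 380) (nat_lit 0) (XT.nd (nat_lit 78) (nat_lit 456) (nat_lit 0) (XT.lf (nat_lit 0) (nat_lit 11456218249) (nat_lit 532) (nat_lit 17512836357) (nat_lit 76) (nat_lit 16182730923) (nat_lit 101) (nat_lit 5) (nat_lit 108) (nat_lit 5) (nat_lit 102) (nat_lit 5) (nat_lit 355) (nat_lit 323) (nat_lit 102)) (XT.lf (nat_lit 0) (nat_lit 2045210774) (nat_lit 456) (nat_lit 13989296916) (nat_lit 532) (nat_lit 29962935480)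 (nat_lit 95) (nat_lit 5) (nat_lit 101) (nat_lit 5) (nat_lit 102) (nat_lit 5) (nat_lit 356) (nat_lit 323) (nat_lit 101))) (XT.nd (nat_lit 78) (nat_lit 380) (nat_lit 0) (XT.lf (nat_lit 0) (nat_lit 20941143175) (nat_lit 532) (nat_lit 24331397728) (nat_lit 76) (nat_lit 1590202652) (nat_lit 95) (nat_lit 5) (nat_lit 102) (nat_lit 5) (nat_lit 96) (nat_lit 5) (nat_lit 357) (nat_lit 323) (nat_lit 100)) (XT.nd (nat_lit 78) (nat_lit 380) (nat_lit 0) (XT.lf (nat_lit 0) (nat_lit 26132087901) (nat_lit 532) (nat_lit 4262034401) (nat_lit 76) (nat_lit 17355770194) (nat_lit 95) (nat_lit 5) (nat_lit 102) (nat_lit 5) (nat_lit 96) (nat_lit 5) (nat_lit 358) (nat_lit 323) (nat_lit 99)) (XT.lf (nat_lit 0) (nat_lit 16734416337) (nat_lit 380) (nat_lit 14903849073) (nat_lit 456) (nat_lit 17020608128) (nat_lit 90) (nat_lit 5) (nat_lit 95) (nat_lit 5) (nat_lit 96) (nat_lit 5) (nat_lit 359) (nat_lit 323) (nat_lit 98)))))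 (XT.nd (nat_lit 234) (nat_lit 456) (nat_lit 0) (XT.nd (nat_lit 78) (nat_lit 380) (nat_lit 0) (XT.lf (nat_lit 0) (nat_lit 37361862653) (nat_lit 456) (nat_lit 11157802874) (nat_lit 76) (nat_lit 1073894142) (nat_lit 90) (nat_lit 5) (nat_lit 96) (nat_lit 5) (nat_lit 91) (nat_lit 5) (nat_lit 360) (nat_lit 323) (nat_lit 97)) (XT.nd (nat_lit 78) (nat_lit 0) (nat_lit 0) (XT.lf (nat_lit 0) (nat_lit 10283432819) (nat_lit 380) (nat_lit 33218853324) (nat_lit 456) (nat_lit 7046649297) (nat_lit 85) (nat_lit 5) (nat_lit 90) (nat_lit 5) (nat_lit 91) (nat_lit 5) (nat_lit 361) (nat_lit 323) (nat_lit 96)) (XT.lf (nat_lit 0) (nat_lit 32595122312) (nat_lit 380) (nat_lit 17343200015) (nat_lit 456) (nat_lit 1591310690) (nat_lit 85) (nat_lit 5) (nat_lit 90) (nat_lit 5) (nat_lit 91) (nat_lit 5) (nat_lit 362) (nat_lit 323) (nat_lit 95)))) (XT.nd (nat_lit 78) (nat_lit 0) (nat_lit 0) (XT.lf (nat_lit 0) (nat_lit 3055834046)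 (nat_lit 380) (nat_lit 921384338) (nat_lit 456) (nat_lit 48560530277) (nat_lit 79) (nat_lit 5) (nat_lit 84) (nat_lit 5) (nat_lit 85) (nat_lit 5) (nat_lit 363) (nat_lit 323) (nat_lit 94)) (XT.nd (nat_lit 78) (nat_lit 0) (nat_lit 0) (XT.lf (nat_lit 0) (nat_lit 10026419684) (nat_lit 456) (nat_lit 27649240421) (nat_lit 76) (nat_lit 15889609316) (nat_lit 79) (nat_lit 5) (nat_lit 85) (nat_lit 5) (nat_lit 80) (nat_lit 5) (nat_lit 364) (nat_lit 323) (nat_lit 93)) (XT.lf (nat_lit 0) (nat_lit 16265025739) (nat_lit 456) (nat_lit 5172177335) (nat_lit 76) (nat_lit 33186177119) (nat_lit 79) (nat_lit 5) (nat_lit 85) (nat_lit 5) (nat_lit 80) (nat_lit 5) (nat_lit 365) (nat_lit 323) (nat_lit 92))))))) (XT.nd (nat_lit 38064) (nat_lit 0) (nat_lit 4560) (XT.nd (nat_lit 37596) (nat_lit 0) (nat_lit 5928) (XT.nd (nat_lit 37362) (nat_lit 0) (nat_lit 5852) (XT.nd (nat_lit 78) (nat_lit 0) (nat_lit 0) (XT.lf (nat_lit 0)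 (nat_lit 18335564612) (nat_lit 380) (nat_lit 4530318900) (nat_lit 456) (nat_lit 32842100154) (nat_lit 74) (nat_lit 5) (nat_lit 79) (nat_lit 5) (nat_lit 80) (nat_lit 5) (nat_lit 366) (nat_lit 323) (nat_lit 91)) (XT.lf (nat_lit 0) (nat_lit 29840218118) (nat_lit 456) (nat_lit 14294804433) (nat_lit 76) (nat_lit 12684841280) (nat_lit 74) (nat_lit 5) (nat_lit 80) (nat_lit 5) (nat_lit 75) (nat_lit 5) (nat_lit 367) (nat_lit 323) (nat_lit 90))) (XT.nd (nat_lit 78) (nat_lit 0) (nat_lit 0) (XT.lf (nat_lit 0) (nat_lit 7918153435) (nat_lit 1140) (nat_lit 2875852252) (nat_lit 1140) (nat_lit 2875852252) (nat_lit 151) (nat_lit 3) (nat_lit 166) (nat_lit 3) (nat_lit 166) (nat_lit 5) (nat_lit 324) (nat_lit 324) (nat_lit 132)) (XT.nd (nat_lit 78) (nat_lit 0) (nat_lit 76) (XT.lf (nat_lit 76) (nat_lit 5715776476) (nat_lit 0) (nat_lit 10492317847) (nat_lit 1140) (nat_lit 11537496301) (nat_lit 152) (nat_lit 5) (nat_lit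 151) (nat_lit 3) (nat_lit 166) (nat_lit 5) (nat_lit 325) (nat_lit 324) (nat_lit 131)) (XT.lf (nat_lit 0) (nat_lit 16655594914) (nat_lit 1064) (nat_lit 10528032348) (nat_lit 1140) (nat_lit 978085122) (nat_lit 152) (nat_lit 5) (nat_lit 166) (nat_lit 5) (nat_lit 167) (nat_lit 5) (nat_lit 326) (nat_lit 324) (nat_lit 130))))) (XT.nd (nat_lit 234) (nat_lit 0) (nat_lit 76) (XT.nd (nat_lit 78) (nat_lit 0) (nat_lit 0) (XT.lf (nat_lit 76) (nat_lit 1237370410) (nat_lit 0) (nat_lit 15991922734) (nat_lit 1140) (nat_lit 11357648814) (nat_lit 153) (nat_lit 5) (nat_lit 152) (nat_lit 5) (nat_lit 167) (nat_lit 5) (nat_lit 327) (nat_lit 324) (nat_lit 129)) (XT.nd (nat_lit 78) (nat_lit 0) (nat_lit 76) (XT.lf (nat_lit 76) (nat_lit 13569872485) (nat_lit 0) (nat_lit 4353707680) (nat_lit 1140) (nat_lit 11098254044) (nat_lit 153) (nat_lit 5) (nat_lit 152) (nat_lit 5) (nat_lit 167) (nat_lit 5) (nat_lit 328) (nat_lit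 324) (nat_lit 128)) (XT.lf (nat_lit 0) (nat_lit 18709237719) (nat_lit 1064) (nat_lit 3272535347) (nat_lit 1140) (nat_lit 7485890823) (nat_lit 153) (nat_lit 5) (nat_lit 167) (nat_lit 5) (nat_lit 168) (nat_lit 5) (nat_lit 329) (nat_lit 324) (nat_lit 127)))) (XT.nd (nat_lit 78) (nat_lit 0) (nat_lit 76) (XT.lf (nat_lit 76) (nat_lit 9411130933) (nat_lit 0) (nat_lit 10238150844) (nat_lit 1140) (nat_lit 10273668895) (nat_lit 154) (nat_lit 5) (nat_lit 153) (nat_lit 5) (nat_lit 168) (nat_lit 5) (nat_lit 330) (nat_lit 324) (nat_lit 126)) (XT.nd (nat_lit 78) (nat_lit 0) (nat_lit 0) (XT.lf (nat_lit 0) (nat_lit 20666077954) (nat_lit 1064) (nat_lit 7868461548) (nat_lit 1140) (nat_lit 1855906556) (nat_lit 154) (nat_lit 5) (nat_lit 168) (nat_lit 5) (nat_lit 169) (nat_lit 5) (nat_lit 331) (nat_lit 324) (nat_lit 125)) (XT.lf (nat_lit 76) (nat_lit 5151645519) (nat_lit 0) (nat_lit 16710018468) (nat_lit 1140) (nat_lit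 9005860069) (nat_lit 155) (nat_lit 5) (nat_lit 154) (nat_lit 5) (nat_lit 169) (nat_lit 5) (nat_lit 332) (nat_lit 324) (nat_lit 124)))))) (XT.nd (nat_lit 468) (nat_lit 1520) (nat_lit 0) (XT.nd (nat_lit 234) (nat_lit 0) (nat_lit 152) (XT.nd (nat_lit 78) (nat_lit 0) (nat_lit 76) (XT.lf (nat_lit 76) (nat_lit 18721957125) (nat_lit 0) (nat_lit 4448073403) (nat_lit 1140) (nat_lit 8186582626) (nat_lit 155) (nat_lit 5) (nat_lit 154) (nat_lit 5) (nat_lit 169) (nat_lit 5) (nat_lit 333) (nat_lit 324) (nat_lit 123)) (XT.nd (nat_lit 78) (nat_lit 0) (nat_lit 0) (XT.lf (nat_lit 76) (nat_lit 773720401) (nat_lit 0) (nat_lit 23827551814) (nat_lit 1140) (nat_lit 7256599953) (nat_lit 156) (nat_lit 5) (nat_lit 155) (nat_lit 5) (nat_lit 170) (nat_lit 5) (nat_lit 334) (nat_lit 324) (nat_lit 122)) (XT.lf (nat_lit 76) (nat_lit 14796713327) (nat_lit 0) (nat_lit 11447525710) (nat_lit 1140) (nat_lit 6124872072) (nat_lit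 156) (nat_lit 5) (nat_lit 155) (nat_lit 5) (nat_lit 170) (nat_lit 5) (nat_lit 335) (nat_lit 324) (nat_lit 121)))) (XT.nd (nat_lit 78) (nat_lit 0) (nat_lit 0) (XT.lf (nat_lit 0) (nat_lit 27946699346) (nat_lit 1064) (nat_lit 3669573270) (nat_lit 1140) (nat_lit 1279114094) (nat_lit 156) (nat_lit 5) (nat_lit 170) (nat_lit 5) (nat_lit 171) (nat_lit 5) (nat_lit 336) (nat_lit 324) (nat_lit 120)) (XT.nd (nat_lit 78) (nat_lit 0) (nat_lit 0) (XT.lf (nat_lit 76) (nat_lit 10744969924) (nat_lit 0) (nat_lit 19169631034) (nat_lit 1140) (nat_lit 3516424058) (nat_lit 157) (nat_lit 5) (nat_lit 156) (nat_lit 5) (nat_lit 171) (nat_lit 5) (nat_lit 337) (nat_lit 324) (nat_lit 119)) (XT.lf (nat_lit 76) (nat_lit 25665491430) (nat_lit 0) (nat_lit 6310891830) (nat_lit 1140) (nat_lit 2005309203) (nat_lit 157) (nat_lit 5) (nat_lit 156) (nat_lit 5) (nat_lit 171) (nat_lit 5) (nat_lit 338) (nat_lit 324) (nat_lit 118)))))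 (XT.nd (nat_lit 234) (nat_lit 608) (nat_lit 0) (XT.nd (nat_lit 78) (nat_lit 1140) (nat_lit 0) (XT.lf (nat_lit 76) (nat_lit 6544091121) (nat_lit 0) (nat_lit 27683341342) (nat_lit 1140) (nat_lit 317630216) (nat_lit 158) (nat_lit 5) (nat_lit 157) (nat_lit 5) (nat_lit 172) (nat_lit 5) (nat_lit 339) (nat_lit 324) (nat_lit 117)) (XT.nd (nat_lit 78) (nat_lit 0) (nat_lit 0) (XT.lf (nat_lit 0) (nat_lit 1538127466) (nat_lit 1140) (nat_lit 13180857219) (nat_lit 1216) (nat_lit 20401589349) (nat_lit 142) (nat_lit 5) (nat_lit 157) (nat_lit 5) (nat_lit 158) (nat_lit 5) (nat_lit 340) (nat_lit 324) (nat_lit 116)) (XT.lf (nat_lit 76) (nat_lit 2120406471) (nat_lit 0) (nat_lit 1341089838) (nat_lit 1216) (nat_lit 32251215112) (nat_lit 143) (nat_lit 5) (nat_lit 142) (nat_lit 5) (nat_lit 158) (nat_lit 5) (nat_lit 341) (nat_lit 324) (nat_lit 115)))) (XT.nd (nat_lit 78) (nat_lit 684) (nat_lit 0) (XT.lf (nat_lit 0) (nat_lit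 5694535018) (nat_lit 1140) (nat_lit 18290335898) (nat_lit 76) (nat_lit 12330187524) (nat_lit 143) (nat_lit 5) (nat_lit 158) (nat_lit 5) (nat_lit 144) (nat_lit 5) (nat_lit 342) (nat_lit 324) (nat_lit 114)) (XT.nd (nat_lit 78) (nat_lit 684) (nat_lit 0) (XT.lf (nat_lit 0) (nat_lit 8005888761) (nat_lit 1140) (nat_lit 2544273130) (nat_lit 76) (nat_lit 26384978703) (nat_lit 143) (nat_lit 5) (nat_lit 158) (nat_lit 5) (nat_lit 144) (nat_lit 5) (nat_lit 343) (nat_lit 324) (nat_lit 113)) (XT.lf (nat_lit 0) (nat_lit 10551662212) (nat_lit 760) (nat_lit 23658153438) (nat_lit 76) (nat_lit 3359061501) (nat_lit 134) (nat_lit 5) (nat_lit 144) (nat_lit 5) (nat_lit 135) (nat_lit 5) (nat_lit 344) (nat_lit 324) (nat_lit 112))))))))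
noncomputable def xc244 : XT := (XT.nd (nat_lit 1716) (nat_lit 380) (nat_lit 0) (XT.nd (nat_lit 858) (nat_lit 1672) (nat_lit 0) (XT.nd (nat_lit 390) (nat_lit 1444) (nat_lit 0) (XT.nd (nat_lit 156) (nat_lit 532) (nat_lit 0) (XT.nd (nat_lit 78) (nat_lit 532) (nat_lit 0) (XT.lf (nat_lit 0) (nat_lit 13302357072) (nat_lit 760) (nat_lit 7415725116) (nat_lit 76) (nat_lit 17499691355) (nat_lit 134) (nat_lit 5) (nat_lit 144) (nat_lit 5) (nat_lit 135) (nat_lit 5) (nat_lit 345) (nat_lit 324) (nat_lit 111)) (XT.lf (nat_lit 0) (nat_lit 9497674736) (nat_lit 532) (nat_lit 6727394153) (nat_lit 608) (nat_lit 22658387120) (nat_lit 127) (nat_lit 5) (nat_lit 134) (nat_lit 5) (nat_lit 135) (nat_lit 5) (nat_lit 346) (nat_lit 324) (nat_lit 110))) (XT.nd (nat_lit 78) (nat_lit 532) (nat_lit 0) (XT.lf (nat_lit 0) (nat_lit 19383178558) (nat_lit 608) (nat_lit 12572643412) (nat_lit 76) (nat_lit 7608859429) (nat_lit 127)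 (nat_lit 5) (nat_lit 135) (nat_lit 5) (nat_lit 128) (nat_lit 5) (nat_lit 347) (nat_lit 324) (nat_lit 109)) (XT.nd (nat_lit 78) (nat_lit 0) (nat_lit 0) (XT.lf (nat_lit 0) (nat_lit 4769726719) (nat_lit 532) (nat_lit 17977050491) (nat_lit 608) (nat_lit 17516247799) (nat_lit 120) (nat_lit 5) (nat_lit 127) (nat_lit 5) (nat_lit 128) (nat_lit 5) (nat_lit 348) (nat_lit 324) (nat_lit 108)) (XT.lf (nat_lit 0) (nat_lit 22888482235) (nat_lit 532) (nat_lit 3448083290) (nat_lit 608) (nat_lit 14641998672) (nat_lit 120) (nat_lit 5) (nat_lit 127) (nat_lit 5) (nat_lit 128) (nat_lit 5) (nat_lit 349) (nat_lit 324) (nat_lit 107))))) (XT.nd (nat_lit 234) (nat_lit 988) (nat_lit 0) (XT.nd (nat_lit 78) (nat_lit 456) (nat_lit 0) (XT.lf (nat_lit 0) (nat_lit 30143125677) (nat_lit 608) (nat_lit 277093905) (nat_lit 76) (nat_lit 11292081243) (nat_lit 120) (nat_lit 5) (nat_lit 128) (nat_lit 5) (nat_lit 121) (nat_lit 5) (nat_lit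 350) (nat_lit 324) (nat_lit 106)) (XT.nd (nat_lit 78) (nat_lit 0) (nat_lit 0) (XT.lf (nat_lit 0) (nat_lit 18393496176) (nat_lit 456) (nat_lit 15879754961) (nat_lit 532) (nat_lit 8188520865) (nat_lit 114) (nat_lit 5) (nat_lit 120) (nat_lit 5) (nat_lit 121) (nat_lit 5) (nat_lit 351) (nat_lit 324) (nat_lit 105)) (XT.lf (nat_lit 0) (nat_lit 37628327983) (nat_lit 456) (nat_lit 900201088) (nat_lit 532) (nat_lit 4705164187) (nat_lit 114) (nat_lit 5) (nat_lit 120) (nat_lit 5) (nat_lit 121) (nat_lit 5) (nat_lit 352) (nat_lit 324) (nat_lit 104)))) (XT.nd (nat_lit 78) (nat_lit 532) (nat_lit 0) (XT.lf (nat_lit 0) (nat_lit 13534317568) (nat_lit 456) (nat_lit 29645402712) (nat_lit 532) (nat_lit 841007526) (nat_lit 108) (nat_lit 5) (nat_lit 114) (nat_lit 5) (nat_lit 115) (nat_lit 5) (nat_lit 353) (nat_lit 324) (nat_lit 103)) (XT.nd (nat_lit 78) (nat_lit 456) (nat_lit 0) (XT.lf (nat_lit 0) (nat_lit 3142402596)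 (nat_lit 532) (nat_lit 11507804635) (nat_lit 76) (nat_lit 30178326532) (nat_lit 107) (nat_lit 5) (nat_lit 114) (nat_lit 5) (nat_lit 108) (nat_lit 5) (nat_lit 354) (nat_lit 324) (nat_lit 102)) (XT.lf (nat_lit 0) (nat_lit 7314192108) (nat_lit 532) (nat_lit 37476390158) (nat_lit 76) (nat_lit 867171436) (nat_lit 101) (nat_lit 5) (nat_lit 108) (nat_lit 5) (nat_lit 102) (nat_lit 5) (nat_lit 355) (nat_lit 324) (nat_lit 101)))))) (XT.nd (nat_lit 390) (nat_lit 836) (nat_lit 0) (XT.nd (nat_lit 156) (nat_lit 380) (nat_lit 0) (XT.nd (nat_lit 78) (nat_lit 456) (nat_lit 0) (XT.lf (nat_lit 0) (nat_lit 11872120811) (nat_lit 532) (nat_lit 17959021166) (nat_lit 76) (nat_lit 16672881634) (nat_lit 101) (nat_lit 5) (nat_lit 108) (nat_lit 5) (nat_lit 102) (nat_lit 5) (nat_lit 356) (nat_lit 324) (nat_lit 100)) (XT.lf (nat_lit 0) (nat_lit 2184990906) (nat_lit 456) (nat_lit 14401418508) (nat_lit 532) (nat_lit 30788686393)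 (nat_lit 95) (nat_lit 5) (nat_lit 101) (nat_lit 5) (nat_lit 102) (nat_lit 5) (nat_lit 357) (nat_lit 324) (nat_lit 99))) (XT.nd (nat_lit 78) (nat_lit 380) (nat_lit 0) (XT.lf (nat_lit 0) (nat_lit 21638250421) (nat_lit 532) (nat_lit 24983066047) (nat_lit 76) (nat_lit 1645102755) (nat_lit 95) (nat_lit 5) (nat_lit 102) (nat_lit 5) (nat_lit 96) (nat_lit 5) (nat_lit 358) (nat_lit 324) (nat_lit 98)) (XT.nd (nat_lit 78) (nat_lit 380) (nat_lit 0) (XT.lf (nat_lit 0) (nat_lit 26982917480) (nat_lit 532) (nat_lit 4313901634) (nat_lit 76) (nat_lit 17883427789) (nat_lit 95) (nat_lit 5) (nat_lit 102) (nat_lit 5) (nat_lit 96) (nat_lit 5) (nat_lit 359) (nat_lit 324) (nat_lit 97)) (XT.lf (nat_lit 0) (nat_lit 17311697589) (nat_lit 380) (nat_lit 15341358482) (nat_lit 456) (nat_lit 17463482005) (nat_lit 90) (nat_lit 5) (nat_lit 95) (nat_lit 5) (nat_lit 96) (nat_lit 5) (nat_lit 360) (nat_lit 324) (nat_lit 96))))) (XT.nd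 (nat_lit 234) (nat_lit 456) (nat_lit 0) (XT.nd (nat_lit 78) (nat_lit 380) (nat_lit 0) (XT.lf (nat_lit 0) (nat_lit 38546538957) (nat_lit 456) (nat_lit 11417529105) (nat_lit 76) (nat_lit 1115255252) (nat_lit 90) (nat_lit 5) (nat_lit 96) (nat_lit 5) (nat_lit 91) (nat_lit 5) (nat_lit 361) (nat_lit 324) (nat_lit 95)) (XT.nd (nat_lit 78) (nat_lit 0) (nat_lit 0) (XT.lf (nat_lit 0) (nat_lit 10666208288) (nat_lit 380) (nat_lit 34203821970) (nat_lit 456) (nat_lit 7193368192) (nat_lit 85) (nat_lit 5) (nat_lit 90) (nat_lit 5) (nat_lit 91) (nat_lit 5) (nat_lit 362) (nat_lit 324) (nat_lit 94)) (XT.lf (nat_lit 0) (nat_lit 33645085189) (nat_lit 380) (nat_lit 17852236837) (nat_lit 456) (nat_lit 1576253328) (nat_lit 85) (nat_lit 5) (nat_lit 90) (nat_lit 5) (nat_lit 91) (nat_lit 5) (nat_lit 363) (nat_lit 324) (nat_lit 93)))) (XT.nd (nat_lit 78) (nat_lit 0) (nat_lit 0) (XT.lf (nat_lit 0) (nat_lit 3220241169) (nat_lit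 380) (nat_lit 936770867) (nat_lit 456) (nat_lit 49954940573) (nat_lit 79) (nat_lit 5) (nat_lit 84) (nat_lit 5) (nat_lit 85) (nat_lit 5) (nat_lit 364) (nat_lit 324) (nat_lit 92)) (XT.nd (nat_lit 78) (nat_lit 0) (nat_lit 0) (XT.lf (nat_lit 0) (nat_lit 10386042278) (nat_lit 456) (nat_lit 28406345972) (nat_lit 76) (nat_lit 16377963481) (nat_lit 79) (nat_lit 5) (nat_lit 85) (nat_lit 5) (nat_lit 80) (nat_lit 5) (nat_lit 365) (nat_lit 324) (nat_lit 91)) (XT.lf (nat_lit 0) (nat_lit 16810093020) (nat_lit 456) (nat_lit 5257078906) (nat_lit 76) (nat_lit 34193088534) (nat_lit 79) (nat_lit 5) (nat_lit 85) (nat_lit 5) (nat_lit 80) (nat_lit 5) (nat_lit 366) (nat_lit 324) (nat_lit 90))))))) (XT.nd (nat_lit 38142) (nat_lit 0) (nat_lit 4560) (XT.nd (nat_lit 37674) (nat_lit 0) (nat_lit 5928) (XT.nd (nat_lit 37440) (nat_lit 0) (nat_lit 5852) (XT.nd (nat_lit 37362) (nat_lit 0) (nat_lit 5852) (XT.lf (nat_lit 0) (nat_lit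 18955206438) (nat_lit 380) (nat_lit 4652775295) (nat_lit 456) (nat_lit 33769453283) (nat_lit 74) (nat_lit 5) (nat_lit 79) (nat_lit 5) (nat_lit 80) (nat_lit 5) (nat_lit 367) (nat_lit 324) (nat_lit 89)) (XT.lf (nat_lit 0) (nat_lit 8234235074) (nat_lit 1140) (nat_lit 2921585323) (nat_lit 1140) (nat_lit 2921585323) (nat_lit 151) (nat_lit 3) (nat_lit 166) (nat_lit 3) (nat_lit 166) (nat_lit 5) (nat_lit 325) (nat_lit 325) (nat_lit 130))) (XT.nd (nat_lit 78) (nat_lit 0) (nat_lit 76) (XT.lf (nat_lit 76) (nat_lit 5967539814) (nat_lit 0) (nat_lit 10880068234) (nat_lit 1140) (nat_lit 11725379648) (nat_lit 152) (nat_lit 5) (nat_lit 151) (nat_lit 3) (nat_lit 166) (nat_lit 5) (nat_lit 326) (nat_lit 325) (nat_lit 129)) (XT.nd (nat_lit 78) (nat_lit 0) (nat_lit 0) (XT.lf (nat_lit 0) (nat_lit 17303388353) (nat_lit 1064) (nat_lit 10760414846) (nat_lit 1140) (nat_lit 937955120) (nat_lit 152) (nat_lit 5) (nat_lit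 166) (nat_lit 5) (nat_lit 167) (nat_lit 5) (nat_lit 327) (nat_lit 325) (nat_lit 128)) (XT.lf (nat_lit 76) (nat_lit 1357131775) (nat_lit 0) (nat_lit 16533645806) (nat_lit 1140) (nat_lit 11549083331) (nat_lit 153) (nat_lit 5) (nat_lit 152) (nat_lit 5) (nat_lit 167) (nat_lit 5) (nat_lit 328) (nat_lit 325) (nat_lit 127))))) (XT.nd (nat_lit 234) (nat_lit 0) (nat_lit 152) (XT.nd (nat_lit 78) (nat_lit 0) (nat_lit 76) (XT.lf (nat_lit 76) (nat_lit 14057201915) (nat_lit 0) (nat_lit 4544479483) (nat_lit 1140) (nat_lit 11286255115) (nat_lit 153) (nat_lit 5) (nat_lit 152) (nat_lit 5) (nat_lit 167) (nat_lit 5) (nat_lit 329) (nat_lit 325) (nat_lit 126)) (XT.nd (nat_lit 78) (nat_lit 0) (nat_lit 0) (XT.lf (nat_lit 0) (nat_lit 19406258081) (nat_lit 1064) (nat_lit 3287833467) (nat_lit 1140) (nat_lit 7653198981) (nat_lit 153) (nat_lit 5) (nat_lit 167) (nat_lit 5) (nat_lit 168) (nat_lit 5) (nat_lit 330) (nat_lit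 325) (nat_lit 125)) (XT.lf (nat_lit 76) (nat_lit 9775530273) (nat_lit 0) (nat_lit 10595808365) (nat_lit 1140) (nat_lit 10445001864) (nat_lit 154) (nat_lit 5) (nat_lit 153) (nat_lit 5) (nat_lit 168) (nat_lit 5) (nat_lit 331) (nat_lit 325) (nat_lit 124)))) (XT.nd (nat_lit 78) (nat_lit 0) (nat_lit 0) (XT.lf (nat_lit 0) (nat_lit 21414305773) (nat_lit 1064) (nat_lit 8020195332) (nat_lit 1140) (nat_lit 1863498991) (nat_lit 154) (nat_lit 5) (nat_lit 168) (nat_lit 5) (nat_lit 169) (nat_lit 5) (nat_lit 332) (nat_lit 325) (nat_lit 123)) (XT.nd (nat_lit 78) (nat_lit 0) (nat_lit 0) (XT.lf (nat_lit 76) (nat_lit 5389688280) (nat_lit 0) (nat_lit 17253138392) (nat_lit 1140) (nat_lit 9146660830) (nat_lit 155) (nat_lit 5) (nat_lit 154) (nat_lit 5) (nat_lit 169) (nat_lit 5) (nat_lit 333) (nat_lit 325) (nat_lit 122)) (XT.lf (nat_lit 76) (nat_lit 19364677387) (nat_lit 0) (nat_lit 4622116934) (nat_lit 1140) (nat_lit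 8306573269) (nat_lit 155) (nat_lit 5) (nat_lit 154) (nat_lit 5) (nat_lit 169) (nat_lit 5) (nat_lit 334) (nat_lit 325) (nat_lit 121)))))) (XT.nd (nat_lit 468) (nat_lit 1596) (nat_lit 0) (XT.nd (nat_lit 234) (nat_lit 0) (nat_lit 76) (XT.nd (nat_lit 78) (nat_lit 0) (nat_lit 0) (XT.lf (nat_lit 76) (nat_lit 881490590) (nat_lit 0) (nat_lit 24576373002) (nat_lit 1140) (nat_lit 7351902638) (nat_lit 156) (nat_lit 5) (nat_lit 155) (nat_lit 5) (nat_lit 170) (nat_lit 5) (nat_lit 335) (nat_lit 325) (nat_lit 120)) (XT.nd (nat_lit 78) (nat_lit 0) (nat_lit 76) (XT.lf (nat_lit 76) (nat_lit 15322710434) (nat_lit 0) (nat_lit 11823955980) (nat_lit 1140) (nat_lit 6189787833) (nat_lit 156) (nat_lit 5) (nat_lit 155) (nat_lit 5) (nat_lit 170) (nat_lit 5) (nat_lit 336) (nat_lit 325) (nat_lit 119)) (XT.lf (nat_lit 0) (nat_lit 28896540080) (nat_lit 1064) (nat_lit 3696026331) (nat_lit 1140) (nat_lit 1286069592) (nat_lit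 156) (nat_lit 5) (nat_lit 170) (nat_lit 5) (nat_lit 171) (nat_lit 5) (nat_lit 337) (nat_lit 325) (nat_lit 118)))) (XT.nd (nat_lit 78) (nat_lit 0) (nat_lit 0) (XT.lf (nat_lit 76) (nat_lit 11150133216) (nat_lit 0) (nat_lit 19770895766) (nat_lit 1140) (nat_lit 3509395806) (nat_lit 157) (nat_lit 5) (nat_lit 156) (nat_lit 5) (nat_lit 171) (nat_lit 5) (nat_lit 338) (nat_lit 325) (nat_lit 117)) (XT.nd (nat_lit 78) (nat_lit 0) (nat_lit 76) (XT.lf (nat_lit 76) (nat_lit 26515858304) (nat_lit 0) (nat_lit 6525631984) (nat_lit 1140) (nat_lit 1956224815) (nat_lit 157) (nat_lit 5) (nat_lit 156) (nat_lit 5) (nat_lit 171) (nat_lit 5) (nat_lit 339) (nat_lit 325) (nat_lit 116)) (XT.lf (nat_lit 76) (nat_lit 6823664149) (nat_lit 0) (nat_lit 28533887892) (nat_lit 1140) (nat_lit 220517342) (nat_lit 158) (nat_lit 5) (nat_lit 157) (nat_lit 5) (nat_lit 172) (nat_lit 5) (nat_lit 340) (nat_lit 325) (nat_lit 115))))) (XT.nd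 (nat_lit 234) (nat_lit 608) (nat_lit 0) (XT.nd (nat_lit 78) (nat_lit 0) (nat_lit 0) (XT.lf (nat_lit 0) (nat_lit 1685786645) (nat_lit 1140) (nat_lit 13493204911) (nat_lit 1216) (nat_lit 20991922097) (nat_lit 142) (nat_lit 5) (nat_lit 157) (nat_lit 5) (nat_lit 158) (nat_lit 5) (nat_lit 341) (nat_lit 325) (nat_lit 114)) (XT.nd (nat_lit 78) (nat_lit 0) (nat_lit 76) (XT.lf (nat_lit 76) (nat_lit 2266282199) (nat_lit 0) (nat_lit 1398408364) (nat_lit 1216) (nat_lit 33116196340) (nat_lit 143) (nat_lit 5) (nat_lit 142) (nat_lit 5) (nat_lit 158) (nat_lit 5) (nat_lit 342) (nat_lit 325) (nat_lit 113)) (XT.lf (nat_lit 0) (nat_lit 5961667306) (nat_lit 1140) (nat_lit 18755906523) (nat_lit 76) (nat_lit 12683828660) (nat_lit 143) (nat_lit 5) (nat_lit 158) (nat_lit 5) (nat_lit 144) (nat_lit 5) (nat_lit 343) (nat_lit 325) (nat_lit 112)))) (XT.nd (nat_lit 78) (nat_lit 684) (nat_lit 0) (XT.lf (nat_lit 0) (nat_lit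 8339556916) (nat_lit 1140) (nat_lit 2539883410) (nat_lit 76) (nat_lit 27160737298) (nat_lit 143) (nat_lit 5) (nat_lit 158) (nat_lit 5) (nat_lit 144) (nat_lit 5) (nat_lit 344) (nat_lit 325) (nat_lit 111)) (XT.nd (nat_lit 78) (nat_lit 0) (nat_lit 0) (XT.lf (nat_lit 0) (nat_lit 10959637216) (nat_lit 760) (nat_lit 24284907517) (nat_lit 76) (nat_lit 3448449722) (nat_lit 134) (nat_lit 5) (nat_lit 144) (nat_lit 5) (nat_lit 135) (nat_lit 5) (nat_lit 345) (nat_lit 325) (nat_lit 110)) (XT.lf (nat_lit 0) (nat_lit 13790190055) (nat_lit 760) (nat_lit 7557623545) (nat_lit 76) (nat_lit 18013630034) (nat_lit 134) (nat_lit 5) (nat_lit 144) (nat_lit 5) (nat_lit 135) (nat_lit 5) (nat_lit 346) (nat_lit 325) (nat_lit 109))))))))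
noncomputable def xc245 : XT := (XT.nd (nat_lit 39156) (nat_lit 0) (nat_lit 3116) (XT.nd (nat_lit 858) (nat_lit 1672) (nat_lit 0) (XT.nd (nat_lit 390) (nat_lit 1444) (nat_lit 0) (XT.nd (nat_lit 156) (nat_lit 532) (nat_lit 0) (XT.nd (nat_lit 78) (nat_lit 0) (nat_lit 0) (XT.lf (nat_lit 0) (nat_lit 9862388368) (nat_lit 532) (nat_lit 6936376476) (nat_lit 608) (nat_lit 23248392113) (nat_lit 127) (nat_lit 5) (nat_lit 134) (nat_lit 5) (nat_lit 135) (nat_lit 5) (nat_lit 347) (nat_lit 325) (nat_lit 108)) (XT.lf (nat_lit 0) (nat_lit 20049018630) (nat_lit 608) (nat_lit 12869575187) (nat_lit 76) (nat_lit 7830308929) (nat_lit 127) (nat_lit 5) (nat_lit 135) (nat_lit 5) (nat_lit 128) (nat_lit 5) (nat_lit 348) (nat_lit 325) (nat_lit 107))) (XT.nd (nat_lit 78) (nat_lit 0) (nat_lit 0) (XT.lf (nat_lit 0) (nat_lit 4992279308) (nat_lit 532) (nat_lit 18519553118) (nat_lit 608) (nat_lit 17956420522) (nat_lit 120)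 (nat_lit 5) (nat_lit 127) (nat_lit 5) (nat_lit 128) (nat_lit 5) (nat_lit 349) (nat_lit 325) (nat_lit 106)) (XT.nd (nat_lit 78) (nat_lit 0) (nat_lit 0) (XT.lf (nat_lit 0) (nat_lit 23652283097) (nat_lit 532) (nat_lit 3554623956) (nat_lit 608) (nat_lit 14998428816) (nat_lit 120) (nat_lit 5) (nat_lit 127) (nat_lit 5) (nat_lit 128) (nat_lit 5) (nat_lit 350) (nat_lit 325) (nat_lit 105)) (XT.lf (nat_lit 0) (nat_lit 31125297876) (nat_lit 608) (nat_lit 207968440) (nat_lit 76) (nat_lit 11627894446) (nat_lit 120) (nat_lit 5) (nat_lit 128) (nat_lit 5) (nat_lit 121) (nat_lit 5) (nat_lit 351) (nat_lit 325) (nat_lit 104))))) (XT.nd (nat_lit 234) (nat_lit 532) (nat_lit 0) (XT.nd (nat_lit 78) (nat_lit 456) (nat_lit 0) (XT.lf (nat_lit 0) (nat_lit 19021980145) (nat_lit 456) (nat_lit 16355815737) (nat_lit 532) (nat_lit 8355371159) (nat_lit 114) (nat_lit 5) (nat_lit 120) (nat_lit 5) (nat_lit 121) (nat_lit 5) (nat_lit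 352) (nat_lit 325) (nat_lit 103)) (XT.nd (nat_lit 78) (nat_lit 456) (nat_lit 0) (XT.lf (nat_lit 0) (nat_lit 38831623534) (nat_lit 456) (nat_lit 926884914) (nat_lit 532) (nat_lit 4769809082) (nat_lit 114) (nat_lit 5) (nat_lit 120) (nat_lit 5) (nat_lit 121) (nat_lit 5) (nat_lit 353) (nat_lit 325) (nat_lit 102)) (XT.lf (nat_lit 0) (nat_lit 14016423008) (nat_lit 456) (nat_lit 30531387744) (nat_lit 532) (nat_lit 791199844) (nat_lit 108) (nat_lit 5) (nat_lit 114) (nat_lit 5) (nat_lit 115) (nat_lit 5) (nat_lit 354) (nat_lit 325) (nat_lit 101)))) (XT.nd (nat_lit 78) (nat_lit 456) (nat_lit 0) (XT.lf (nat_lit 0) (nat_lit 3308105399) (nat_lit 532) (nat_lit 11777608050) (nat_lit 76) (nat_lit 31085384402) (nat_lit 107) (nat_lit 5) (nat_lit 114) (nat_lit 5) (nat_lit 108) (nat_lit 5) (nat_lit 355) (nat_lit 325) (nat_lit 100)) (XT.nd (nat_lit 78) (nat_lit 0) (nat_lit 0) (XT.lf (nat_lit 0) (nat_lit 7603730507)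 (nat_lit 532) (nat_lit 38523788385) (nat_lit 76) (nat_lit 897719378) (nat_lit 101) (nat_lit 5) (nat_lit 108) (nat_lit 5) (nat_lit 102) (nat_lit 5) (nat_lit 356) (nat_lit 325) (nat_lit 99)) (XT.lf (nat_lit 0) (nat_lit 12296354955) (nat_lit 532) (nat_lit 18423137939) (nat_lit 76) (nat_lit 17177468860) (nat_lit 101) (nat_lit 5) (nat_lit 108) (nat_lit 5) (nat_lit 102) (nat_lit 5) (nat_lit 357) (nat_lit 325) (nat_lit 98)))))) (XT.nd (nat_lit 390) (nat_lit 836) (nat_lit 0) (XT.nd (nat_lit 156) (nat_lit 380) (nat_lit 0) (XT.nd (nat_lit 78) (nat_lit 0) (nat_lit 0) (XT.lf (nat_lit 0) (nat_lit 2324462594) (nat_lit 456) (nat_lit 14826337569) (nat_lit 532) (nat_lit 31643408205) (nat_lit 95) (nat_lit 5) (nat_lit 101) (nat_lit 5) (nat_lit 102) (nat_lit 5) (nat_lit 358) (nat_lit 325) (nat_lit 97)) (XT.lf (nat_lit 0) (nat_lit 22352317294) (nat_lit 532) (nat_lit 25658777641) (nat_lit 76) (nat_lit 1701236896)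 (nat_lit 95) (nat_lit 5) (nat_lit 102) (nat_lit 5) (nat_lit 96) (nat_lit 5) (nat_lit 359) (nat_lit 325) (nat_lit 96))) (XT.nd (nat_lit 78) (nat_lit 380) (nat_lit 0) (XT.lf (nat_lit 0) (nat_lit 27855433510) (nat_lit 532) (nat_lit 4371687239) (nat_lit 76) (nat_lit 18426514174) (nat_lit 95) (nat_lit 5) (nat_lit 102) (nat_lit 5) (nat_lit 96) (nat_lit 5) (nat_lit 360) (nat_lit 325) (nat_lit 95)) (XT.nd (nat_lit 78) (nat_lit 0) (nat_lit 0) (XT.lf (nat_lit 0) (nat_lit 17901977692) (nat_lit 380) (nat_lit 15792544601) (nat_lit 456) (nat_lit 17923530903) (nat_lit 90) (nat_lit 5) (nat_lit 95) (nat_lit 5) (nat_lit 96) (nat_lit 5) (nat_lit 361) (nat_lit 325) (nat_lit 94)) (XT.lf (nat_lit 0) (nat_lit 39763091998) (nat_lit 456) (nat_lit 11689352881) (nat_lit 76) (nat_lit 1157332276) (nat_lit 90) (nat_lit 5) (nat_lit 96) (nat_lit 5) (nat_lit 91) (nat_lit 5) (nat_lit 362) (nat_lit 325) (nat_lit 93))))) (XT.nd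 (nat_lit 234) (nat_lit 0) (nat_lit 0) (XT.nd (nat_lit 78) (nat_lit 456) (nat_lit 0) (XT.lf (nat_lit 0) (nat_lit 11056203476) (nat_lit 380) (nat_lit 35219005388) (nat_lit 456) (nat_lit 7348201584) (nat_lit 85) (nat_lit 5) (nat_lit 90) (nat_lit 5) (nat_lit 91) (nat_lit 5) (nat_lit 363) (nat_lit 325) (nat_lit 92)) (XT.nd (nat_lit 78) (nat_lit 456) (nat_lit 0) (XT.lf (nat_lit 0) (nat_lit 34722407588) (nat_lit 380) (nat_lit 18377191087) (nat_lit 456) (nat_lit 1564349031) (nat_lit 85) (nat_lit 5) (nat_lit 90) (nat_lit 5) (nat_lit 91) (nat_lit 5) (nat_lit 364) (nat_lit 325) (nat_lit 91)) (XT.lf (nat_lit 0) (nat_lit 3385405386) (nat_lit 380) (nat_lit 953322479) (nat_lit 456) (nat_lit 51394765515) (nat_lit 79) (nat_lit 5) (nat_lit 84) (nat_lit 5) (nat_lit 85) (nat_lit 5) (nat_lit 365) (nat_lit 325) (nat_lit 90)))) (XT.nd (nat_lit 37518) (nat_lit 0) (nat_lit 5472) (XT.lf (nat_lit 0) (nat_lit 10753076467)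 (nat_lit 456) (nat_lit 29190319120) (nat_lit 76) (nat_lit 16880298601) (nat_lit 79) (nat_lit 5) (nat_lit 85) (nat_lit 5) (nat_lit 80) (nat_lit 5) (nat_lit 366) (nat_lit 325) (nat_lit 89)) (XT.nd (nat_lit 78) (nat_lit 0) (nat_lit 0) (XT.lf (nat_lit 0) (nat_lit 8555290815) (nat_lit 1140) (nat_lit 2971017690) (nat_lit 1140) (nat_lit 2971017690) (nat_lit 151) (nat_lit 3) (nat_lit 166) (nat_lit 3) (nat_lit 166) (nat_lit 5) (nat_lit 326) (nat_lit 326) (nat_lit 128)) (XT.lf (nat_lit 76) (nat_lit 6222247076) (nat_lit 0) (nat_lit 11275261734) (nat_lit 1140) (nat_lit 11927983207) (nat_lit 152) (nat_lit 5) (nat_lit 151) (nat_lit 3) (nat_lit 166) (nat_lit 5) (nat_lit 327) (nat_lit 326) (nat_lit 127))))))) (XT.nd (nat_lit 858) (nat_lit 2432) (nat_lit 0) (XT.nd (nat_lit 390) (nat_lit 0) (nat_lit 152) (XT.nd (nat_lit 156) (nat_lit 0) (nat_lit 0) (XT.nd (nat_lit 78) (nat_lit 0) (nat_lit 0) (XT.lf (nat_lit 0)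 (nat_lit 17962112580) (nat_lit 1064) (nat_lit 11004559676) (nat_lit 1140) (nat_lit 900609227) (nat_lit 152) (nat_lit 5) (nat_lit 166) (nat_lit 5) (nat_lit 167) (nat_lit 5) (nat_lit 328) (nat_lit 326) (nat_lit 126)) (XT.lf (nat_lit 76) (nat_lit 1475742092) (nat_lit 0) (nat_lit 17088063502) (nat_lit 1140) (nat_lit 11754831024) (nat_lit 153) (nat_lit 5) (nat_lit 152) (nat_lit 5) (nat_lit 167) (nat_lit 5) (nat_lit 329) (nat_lit 326) (nat_lit 125))) (XT.nd (nat_lit 78) (nat_lit 0) (nat_lit 76) (XT.lf (nat_lit 76) (nat_lit 14554545510) (nat_lit 0) (nat_lit 4737520977) (nat_lit 1140) (nat_lit 11488216742) (nat_lit 153) (nat_lit 5) (nat_lit 152) (nat_lit 5) (nat_lit 167) (nat_lit 5) (nat_lit 330) (nat_lit 326) (nat_lit 124)) (XT.nd (nat_lit 78) (nat_lit 0) (nat_lit 0) (XT.lf (nat_lit 0) (nat_lit 20116396837) (nat_lit 1064) (nat_lit 3308348064) (nat_lit 1140) (nat_lit 7828813835) (nat_lit 153) (nat_lit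 5) (nat_lit 167) (nat_lit 5) (nat_lit 168) (nat_lit 5) (nat_lit 331) (nat_lit 326) (nat_lit 123)) (XT.lf (nat_lit 76) (nat_lit 10146150703) (nat_lit 0) (nat_lit 10961295959) (nat_lit 1140) (nat_lit 10629332127) (nat_lit 154) (nat_lit 5) (nat_lit 153) (nat_lit 5) (nat_lit 168) (nat_lit 5) (nat_lit 332) (nat_lit 326) (nat_lit 122))))) (XT.nd (nat_lit 234) (nat_lit 0) (nat_lit 76) (XT.nd (nat_lit 78) (nat_lit 0) (nat_lit 0) (XT.lf (nat_lit 0) (nat_lit 22177618612) (nat_lit 1064) (nat_lit 8181321445) (nat_lit 1140) (nat_lit 1874079460) (nat_lit 154) (nat_lit 5) (nat_lit 168) (nat_lit 5) (nat_lit 169) (nat_lit 5) (nat_lit 333) (nat_lit 326) (nat_lit 121)) (XT.nd (nat_lit 78) (nat_lit 0) (nat_lit 0) (XT.lf (nat_lit 76) (nat_lit 5630079462) (nat_lit 0) (nat_lit 17810151310) (nat_lit 1140) (nat_lit 9299112271) (nat_lit 155) (nat_lit 5) (nat_lit 154) (nat_lit 5) (nat_lit 169) (nat_lit 5) (nat_lit 334)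 (nat_lit 326) (nat_lit 120)) (XT.lf (nat_lit 76) (nat_lit 20022025994) (nat_lit 0) (nat_lit 4799051089) (nat_lit 1140) (nat_lit 8437373978) (nat_lit 155) (nat_lit 5) (nat_lit 154) (nat_lit 5) (nat_lit 169) (nat_lit 5) (nat_lit 335) (nat_lit 326) (nat_lit 119)))) (XT.nd (nat_lit 78) (nat_lit 0) (nat_lit 0) (XT.lf (nat_lit 76) (nat_lit 987639877) (nat_lit 0) (nat_lit 25345707394) (nat_lit 1140) (nat_lit 7457090396) (nat_lit 156) (nat_lit 5) (nat_lit 155) (nat_lit 5) (nat_lit 170) (nat_lit 5) (nat_lit 336) (nat_lit 326) (nat_lit 118)) (XT.nd (nat_lit 78) (nat_lit 0) (nat_lit 76) (XT.lf (nat_lit 76) (nat_lit 15859774823) (nat_lit 0) (nat_lit 12209784565) (nat_lit 1140) (nat_lit 6263472418) (nat_lit 156) (nat_lit 5) (nat_lit 155) (nat_lit 5) (nat_lit 170) (nat_lit 5) (nat_lit 337) (nat_lit 326) (nat_lit 117)) (XT.lf (nat_lit 0) (nat_lit 29868478937) (nat_lit 1064) (nat_lit 3728073925) (nat_lit 1140)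 (nat_lit 1295037273) (nat_lit 156) (nat_lit 5) (nat_lit 170) (nat_lit 5) (nat_lit 171) (nat_lit 5) (nat_lit 338) (nat_lit 326) (nat_lit 116)))))) (XT.nd (nat_lit 468) (nat_lit 1672) (nat_lit 0) (XT.nd (nat_lit 234) (nat_lit 1064) (nat_lit 0) (XT.nd (nat_lit 78) (nat_lit 0) (nat_lit 0) (XT.lf (nat_lit 76) (nat_lit 11562697534) (nat_lit 0) (nat_lit 20388695841) (nat_lit 1140) (nat_lit 3508615871) (nat_lit 157) (nat_lit 5) (nat_lit 156) (nat_lit 5) (nat_lit 171) (nat_lit 5) (nat_lit 339) (nat_lit 326) (nat_lit 115)) (XT.nd (nat_lit 78) (nat_lit 0) (nat_lit 76) (XT.lf (nat_lit 76) (nat_lit 27387120773) (nat_lit 0) (nat_lit 6745355509) (nat_lit 1140) (nat_lit 1911938929) (nat_lit 157) (nat_lit 5) (nat_lit 156) (nat_lit 5) (nat_lit 171) (nat_lit 5) (nat_lit 340) (nat_lit 326) (nat_lit 114)) (XT.lf (nat_lit 76) (nat_lit 7106845459) (nat_lit 0) (nat_lit 29408800097) (nat_lit 1140) (nat_lit 126612756)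 (nat_lit 158) (nat_lit 5) (nat_lit 157) (nat_lit 5) (nat_lit 172) (nat_lit 5) (nat_lit 341) (nat_lit 326) (nat_lit 113)))) (XT.nd (nat_lit 78) (nat_lit 0) (nat_lit 0) (XT.lf (nat_lit 0) (nat_lit 1832048202) (nat_lit 1140) (nat_lit 13819692052) (nat_lit 1216) (nat_lit 21601211353) (nat_lit 142) (nat_lit 5) (nat_lit 157) (nat_lit 5) (nat_lit 158) (nat_lit 5) (nat_lit 342) (nat_lit 326) (nat_lit 112)) (XT.nd (nat_lit 78) (nat_lit 0) (nat_lit 76) (XT.lf (nat_lit 76) (nat_lit 2411811936) (nat_lit 0) (nat_lit 1456465648) (nat_lit 1216) (nat_lit 34013014094) (nat_lit 143) (nat_lit 5) (nat_lit 142) (nat_lit 5) (nat_lit 158) (nat_lit 5) (nat_lit 343) (nat_lit 326) (nat_lit 111)) (XT.lf (nat_lit 0) (nat_lit 6231285765) (nat_lit 1140) (nat_lit 19240216812) (nat_lit 76) (nat_lit 13049012679) (nat_lit 143) (nat_lit 5) (nat_lit 158) (nat_lit 5) (nat_lit 144) (nat_lit 5) (nat_lit 344) (nat_lit 326) (nat_lit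 110))))) (XT.nd (nat_lit 234) (nat_lit 1064) (nat_lit 0) (XT.nd (nat_lit 78) (nat_lit 684) (nat_lit 0) (XT.lf (nat_lit 0) (nat_lit 8677868323) (nat_lit 1140) (nat_lit 2539995536) (nat_lit 76) (nat_lit 27960675105) (nat_lit 143) (nat_lit 5) (nat_lit 158) (nat_lit 5) (nat_lit 144) (nat_lit 5) (nat_lit 345) (nat_lit 326) (nat_lit 109)) (XT.nd (nat_lit 78) (nat_lit 0) (nat_lit 0) (XT.lf (nat_lit 0) (nat_lit 11374603295) (nat_lit 760) (nat_lit 24935228214) (nat_lit 76) (nat_lit 3541173056) (nat_lit 134) (nat_lit 5) (nat_lit 144) (nat_lit 5) (nat_lit 135) (nat_lit 5) (nat_lit 346) (nat_lit 326) (nat_lit 108)) (XT.lf (nat_lit 0) (nat_lit 14287562710) (nat_lit 760) (nat_lit 7708404165) (nat_lit 76) (nat_lit 18543621306) (nat_lit 134) (nat_lit 5) (nat_lit 144) (nat_lit 5) (nat_lit 135) (nat_lit 5) (nat_lit 347) (nat_lit 326) (nat_lit 107)))) (XT.nd (nat_lit 78) (nat_lit 532) (nat_lit 0) (XT.lf (nat_lit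 0) (nat_lit 10233463516) (nat_lit 532) (nat_lit 7151217226) (nat_lit 608) (nat_lit 23861249079) (nat_lit 127) (nat_lit 5) (nat_lit 134) (nat_lit 5) (nat_lit 135) (nat_lit 5) (nat_lit 348) (nat_lit 326) (nat_lit 106)) (XT.nd (nat_lit 78) (nat_lit 532) (nat_lit 0) (XT.lf (nat_lit 0) (nat_lit 20729992173) (nat_lit 608) (nat_lit 13180021452) (nat_lit 76) (nat_lit 8058793197) (nat_lit 127) (nat_lit 5) (nat_lit 135) (nat_lit 5) (nat_lit 128) (nat_lit 5) (nat_lit 349) (nat_lit 326) (nat_lit 105)) (XT.lf (nat_lit 0) (nat_lit 5216947099) (nat_lit 532) (nat_lit 19078147642) (nat_lit 608) (nat_lit 18414695839) (nat_lit 120) (nat_lit 5) (nat_lit 127) (nat_lit 5) (nat_lit 128) (nat_lit 5) (nat_lit 350) (nat_lit 326) (nat_lit 104))))))))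
noncomputable def xc246 : XT := (XT.nd (nat_lit 39312) (nat_lit 0) (nat_lit 1748) (XT.nd (nat_lit 858) (nat_lit 760) (nat_lit 0) (XT.nd (nat_lit 390) (nat_lit 988) (nat_lit 0) (XT.nd (nat_lit 156) (nat_lit 912) (nat_lit 0) (XT.nd (nat_lit 78) (nat_lit 0) (nat_lit 0) (XT.lf (nat_lit 0) (nat_lit 24434569466) (nat_lit 532) (nat_lit 3664182995) (nat_lit 608) (nat_lit 15370306634) (nat_lit 120) (nat_lit 5) (nat_lit 127) (nat_lit 5) (nat_lit 128) (nat_lit 5) (nat_lit 351) (nat_lit 326) (nat_lit 103)) (XT.lf (nat_lit 0) (nat_lit 32132464700) (nat_lit 608) (nat_lit 141214485) (nat_lit 76) (nat_lit 11973951343) (nat_lit 120) (nat_lit 5) (nat_lit 128) (nat_lit 5) (nat_lit 121) (nat_lit 5) (nat_lit 352) (nat_lit 326) (nat_lit 102))) (XT.nd (nat_lit 78) (nat_lit 456) (nat_lit 0) (XT.lf (nat_lit 0) (nat_lit 19664916940) (nat_lit 456) (nat_lit 16846177387) (nat_lit 532) (nat_lit 8531750711) (nat_lit 114)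 (nat_lit 5) (nat_lit 120) (nat_lit 5) (nat_lit 121) (nat_lit 5) (nat_lit 353) (nat_lit 326) (nat_lit 101)) (XT.nd (nat_lit 78) (nat_lit 456) (nat_lit 0) (XT.lf (nat_lit 0) (nat_lit 40066744464) (nat_lit 456) (nat_lit 954387750) (nat_lit 532) (nat_lit 4840785313) (nat_lit 114) (nat_lit 5) (nat_lit 120) (nat_lit 5) (nat_lit 121) (nat_lit 5) (nat_lit 354) (nat_lit 326) (nat_lit 100)) (XT.lf (nat_lit 0) (nat_lit 14508624543) (nat_lit 456) (nat_lit 31444146184) (nat_lit 532) (nat_lit 744205416) (nat_lit 108) (nat_lit 5) (nat_lit 114) (nat_lit 5) (nat_lit 115) (nat_lit 5) (nat_lit 355) (nat_lit 326) (nat_lit 99))))) (XT.nd (nat_lit 234) (nat_lit 456) (nat_lit 0) (XT.nd (nat_lit 78) (nat_lit 456) (nat_lit 0) (XT.lf (nat_lit 0) (nat_lit 3474678870) (nat_lit 532) (nat_lit 12059835599) (nat_lit 76) (nat_lit 32019555957) (nat_lit 107) (nat_lit 5) (nat_lit 114) (nat_lit 5) (nat_lit 108) (nat_lit 5) (nat_lit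 356) (nat_lit 326) (nat_lit 98)) (XT.nd (nat_lit 78) (nat_lit 0) (nat_lit 0) (XT.lf (nat_lit 0) (nat_lit 7897930306) (nat_lit 532) (nat_lit 39607022560) (nat_lit 76) (nat_lit 928923558) (nat_lit 101) (nat_lit 5) (nat_lit 108) (nat_lit 5) (nat_lit 102) (nat_lit 5) (nat_lit 357) (nat_lit 326) (nat_lit 97)) (XT.lf (nat_lit 0) (nat_lit 12729408598) (nat_lit 532) (nat_lit 18905463653) (nat_lit 76) (nat_lit 17696941079) (nat_lit 101) (nat_lit 5) (nat_lit 108) (nat_lit 5) (nat_lit 102) (nat_lit 5) (nat_lit 358) (nat_lit 326) (nat_lit 96)))) (XT.nd (nat_lit 78) (nat_lit 0) (nat_lit 0) (XT.lf (nat_lit 0) (nat_lit 2463875010) (nat_lit 456) (nat_lit 15264413119) (nat_lit 532) (nat_lit 32527729039) (nat_lit 95) (nat_lit 5) (nat_lit 101) (nat_lit 5) (nat_lit 102) (nat_lit 5) (nat_lit 359) (nat_lit 326) (nat_lit 95)) (XT.nd (nat_lit 78) (nat_lit 0) (nat_lit 0) (XT.lf (nat_lit 0) (nat_lit 23084079538) (nat_lit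 532) (nat_lit 26358995879) (nat_lit 76) (nat_lit 1758665800) (nat_lit 95) (nat_lit 5) (nat_lit 102) (nat_lit 5) (nat_lit 96) (nat_lit 5) (nat_lit 360) (nat_lit 326) (nat_lit 94)) (XT.lf (nat_lit 0) (nat_lit 28750506927) (nat_lit 532) (nat_lit 4435318350) (nat_lit 76) (nat_lit 18985515228) (nat_lit 95) (nat_lit 5) (nat_lit 102) (nat_lit 5) (nat_lit 96) (nat_lit 5) (nat_lit 361) (nat_lit 326) (nat_lit 93)))))) (XT.nd (nat_lit 37986) (nat_lit 0) (nat_lit 5016) (XT.nd (nat_lit 156) (nat_lit 380) (nat_lit 0) (XT.nd (nat_lit 78) (nat_lit 0) (nat_lit 0) (XT.lf (nat_lit 0) (nat_lit 18505894572) (nat_lit 380) (nat_lit 16257786076) (nat_lit 456) (nat_lit 18401046837) (nat_lit 90) (nat_lit 5) (nat_lit 95) (nat_lit 5) (nat_lit 96) (nat_lit 5) (nat_lit 362) (nat_lit 326) (nat_lit 92)) (XT.lf (nat_lit 0) (nat_lit 41012688379) (nat_lit 456) (nat_lit 11973389959) (nat_lit 76) (nat_lit 1200176824) (nat_lit 90)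 (nat_lit 5) (nat_lit 96) (nat_lit 5) (nat_lit 91) (nat_lit 5) (nat_lit 363) (nat_lit 326) (nat_lit 91))) (XT.nd (nat_lit 78) (nat_lit 0) (nat_lit 0) (XT.lf (nat_lit 0) (nat_lit 11453879720) (nat_lit 380) (nat_lit 36265271806) (nat_lit 456) (nat_lit 7511179770) (nat_lit 85) (nat_lit 5) (nat_lit 90) (nat_lit 5) (nat_lit 91) (nat_lit 5) (nat_lit 364) (nat_lit 326) (nat_lit 90)) (XT.nd (nat_lit 37674) (nat_lit 0) (nat_lit 5016) (XT.lf (nat_lit 0) (nat_lit 35828147913) (nat_lit 380) (nat_lit 18918503186) (nat_lit 456) (nat_lit 1555485462) (nat_lit 85) (nat_lit 5) (nat_lit 90) (nat_lit 5) (nat_lit 91) (nat_lit 5) (nat_lit 365) (nat_lit 326) (nat_lit 89)) (XT.lf (nat_lit 0) (nat_lit 8881728679) (nat_lit 1140) (nat_lit 3024126737) (nat_lit 1140) (nat_lit 3024126737) (nat_lit 151) (nat_lit 3) (nat_lit 166) (nat_lit 3) (nat_lit 166) (nat_lit 5) (nat_lit 327) (nat_lit 327) (nat_lit 126))))) (XT.nd (nat_lit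 234) (nat_lit 0) (nat_lit 76) (XT.nd (nat_lit 78) (nat_lit 0) (nat_lit 76) (XT.lf (nat_lit 76) (nat_lit 6480251152) (nat_lit 0) (nat_lit 11678362127) (nat_lit 1140) (nat_lit 12145227142) (nat_lit 152) (nat_lit 5) (nat_lit 151) (nat_lit 3) (nat_lit 166) (nat_lit 5) (nat_lit 328) (nat_lit 327) (nat_lit 125)) (XT.nd (nat_lit 78) (nat_lit 0) (nat_lit 0) (XT.lf (nat_lit 0) (nat_lit 18632583626) (nat_lit 1064) (nat_lit 11260544694) (nat_lit 1140) (nat_lit 865902037) (nat_lit 152) (nat_lit 5) (nat_lit 166) (nat_lit 5) (nat_lit 167) (nat_lit 5) (nat_lit 329) (nat_lit 327) (nat_lit 124)) (XT.lf (nat_lit 76) (nat_lit 1593439149) (nat_lit 0) (nat_lit 17655760854) (nat_lit 1140) (nat_lit 11974829328) (nat_lit 153) (nat_lit 5) (nat_lit 152) (nat_lit 5) (nat_lit 167) (nat_lit 5) (nat_lit 330) (nat_lit 327) (nat_lit 123)))) (XT.nd (nat_lit 78) (nat_lit 0) (nat_lit 76) (XT.lf (nat_lit 76) (nat_lit 15062468083)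 (nat_lit 0) (nat_lit 4933098496) (nat_lit 1140) (nat_lit 11704080111) (nat_lit 153) (nat_lit 5) (nat_lit 152) (nat_lit 5) (nat_lit 167) (nat_lit 5) (nat_lit 331) (nat_lit 327) (nat_lit 122)) (XT.nd (nat_lit 78) (nat_lit 0) (nat_lit 0) (XT.lf (nat_lit 0) (nat_lit 20840494844) (nat_lit 1064) (nat_lit 3333962529) (nat_lit 1140) (nat_lit 8012795871) (nat_lit 153) (nat_lit 5) (nat_lit 167) (nat_lit 5) (nat_lit 168) (nat_lit 5) (nat_lit 332) (nat_lit 327) (nat_lit 121)) (XT.lf (nat_lit 76) (nat_lit 10523449279) (nat_lit 0) (nat_lit 11335014979) (nat_lit 1140) (nat_lit 10826598562) (nat_lit 154) (nat_lit 5) (nat_lit 153) (nat_lit 5) (nat_lit 168) (nat_lit 5) (nat_lit 333) (nat_lit 327) (nat_lit 120))))))) (XT.nd (nat_lit 858) (nat_lit 2584) (nat_lit 0) (XT.nd (nat_lit 390) (nat_lit 912) (nat_lit 0) (XT.nd (nat_lit 156) (nat_lit 0) (nat_lit 0) (XT.nd (nat_lit 78) (nat_lit 0) (nat_lit 0) (XT.lf (nat_lit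 0) (nat_lit 22956891619) (nat_lit 1064) (nat_lit 8351843805) (nat_lit 1140) (nat_lit 1887579156) (nat_lit 154) (nat_lit 5) (nat_lit 168) (nat_lit 5) (nat_lit 169) (nat_lit 5) (nat_lit 334) (nat_lit 327) (nat_lit 119)) (XT.lf (nat_lit 76) (nat_lit 5873164646) (nat_lit 0) (nat_lit 18381611817) (nat_lit 1140) (nat_lit 9463137591) (nat_lit 155) (nat_lit 5) (nat_lit 154) (nat_lit 5) (nat_lit 169) (nat_lit 5) (nat_lit 335) (nat_lit 327) (nat_lit 118))) (XT.nd (nat_lit 78) (nat_lit 0) (nat_lit 76) (XT.lf (nat_lit 76) (nat_lit 20694708910) (nat_lit 0) (nat_lit 4979096378) (nat_lit 1140) (nat_lit 8578895150) (nat_lit 155) (nat_lit 5) (nat_lit 154) (nat_lit 5) (nat_lit 169) (nat_lit 5) (nat_lit 336) (nat_lit 327) (nat_lit 117)) (XT.nd (nat_lit 78) (nat_lit 0) (nat_lit 0) (XT.lf (nat_lit 76) (nat_lit 1092398274) (nat_lit 0) (nat_lit 26136282408) (nat_lit 1140) (nat_lit 7572056458) (nat_lit 156) (nat_lit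 5) (nat_lit 155) (nat_lit 5) (nat_lit 170) (nat_lit 5) (nat_lit 337) (nat_lit 327) (nat_lit 116)) (XT.lf (nat_lit 76) (nat_lit 16408509040) (nat_lit 0) (nat_lit 12605402172) (nat_lit 1140) (nat_lit 6345797318) (nat_lit 156) (nat_lit 5) (nat_lit 155) (nat_lit 5) (nat_lit 170) (nat_lit 5) (nat_lit 338) (nat_lit 327) (nat_lit 115))))) (XT.nd (nat_lit 234) (nat_lit 1064) (nat_lit 0) (XT.nd (nat_lit 78) (nat_lit 0) (nat_lit 0) (XT.lf (nat_lit 0) (nat_lit 30863546082) (nat_lit 1064) (nat_lit 3765608294) (nat_lit 1140) (nat_lit 1305973972) (nat_lit 156) (nat_lit 5) (nat_lit 170) (nat_lit 5) (nat_lit 171) (nat_lit 5) (nat_lit 339) (nat_lit 327) (nat_lit 114)) (XT.nd (nat_lit 78) (nat_lit 0) (nat_lit 0) (XT.lf (nat_lit 76) (nat_lit 11983157800) (nat_lit 0) (nat_lit 21023613576) (nat_lit 1140) (nat_lit 3513900919) (nat_lit 157) (nat_lit 5) (nat_lit 156) (nat_lit 5) (nat_lit 171) (nat_lit 5) (nat_lit 340)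 (nat_lit 327) (nat_lit 113)) (XT.lf (nat_lit 76) (nat_lit 28280170648) (nat_lit 0) (nat_lit 6970295650) (nat_lit 1140) (nat_lit 1872235517) (nat_lit 157) (nat_lit 5) (nat_lit 156) (nat_lit 5) (nat_lit 171) (nat_lit 5) (nat_lit 341) (nat_lit 327) (nat_lit 112)))) (XT.nd (nat_lit 78) (nat_lit 1140) (nat_lit 0) (XT.lf (nat_lit 76) (nat_lit 7394017631) (nat_lit 0) (nat_lit 30308874986) (nat_lit 1140) (nat_lit 35661298) (nat_lit 158) (nat_lit 5) (nat_lit 157) (nat_lit 5) (nat_lit 172) (nat_lit 5) (nat_lit 342) (nat_lit 327) (nat_lit 111)) (XT.nd (nat_lit 78) (nat_lit 0) (nat_lit 0) (XT.lf (nat_lit 0) (nat_lit 1977204726) (nat_lit 1140) (nat_lit 14160469065) (nat_lit 1216) (nat_lit 22229954257) (nat_lit 142) (nat_lit 5) (nat_lit 157) (nat_lit 5) (nat_lit 158) (nat_lit 5) (nat_lit 343) (nat_lit 327) (nat_lit 110)) (XT.lf (nat_lit 76) (nat_lit 2557256379) (nat_lit 0) (nat_lit 1515340156) (nat_lit 1216)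 (nat_lit 34942285527) (nat_lit 143) (nat_lit 5) (nat_lit 142) (nat_lit 5) (nat_lit 158) (nat_lit 5) (nat_lit 344) (nat_lit 327) (nat_lit 109)))))) (XT.nd (nat_lit 468) (nat_lit 1444) (nat_lit 0) (XT.nd (nat_lit 234) (nat_lit 532) (nat_lit 0) (XT.nd (nat_lit 78) (nat_lit 684) (nat_lit 0) (XT.lf (nat_lit 0) (nat_lit 6503782298) (nat_lit 1140) (nat_lit 19743554990) (nat_lit 76) (nat_lit 13426032272) (nat_lit 143) (nat_lit 5) (nat_lit 158) (nat_lit 5) (nat_lit 144) (nat_lit 5) (nat_lit 345) (nat_lit 327) (nat_lit 108)) (XT.nd (nat_lit 78) (nat_lit 684) (nat_lit 0) (XT.lf (nat_lit 0) (nat_lit 9021270353) (nat_lit 1140) (nat_lit 2544478580) (nat_lit 76) (nat_lit 28785465467) (nat_lit 143) (nat_lit 5) (nat_lit 158) (nat_lit 5) (nat_lit 144) (nat_lit 5) (nat_lit 346) (nat_lit 327) (nat_lit 107)) (XT.lf (nat_lit 0) (nat_lit 11797071445) (nat_lit 760) (nat_lit 25609549055) (nat_lit 76) (nat_lit 3637294046)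 (nat_lit 134) (nat_lit 5) (nat_lit 144) (nat_lit 5) (nat_lit 135) (nat_lit 5) (nat_lit 347) (nat_lit 327) (nat_lit 106)))) (XT.nd (nat_lit 78) (nat_lit 532) (nat_lit 0) (XT.lf (nat_lit 0) (nat_lit 14795053718) (nat_lit 760) (nat_lit 7868067935) (nat_lit 76) (nat_lit 19090110332) (nat_lit 134) (nat_lit 5) (nat_lit 144) (nat_lit 5) (nat_lit 135) (nat_lit 5) (nat_lit 348) (nat_lit 327) (nat_lit 105)) (XT.nd (nat_lit 78) (nat_lit 0) (nat_lit 0) (XT.lf (nat_lit 0) (nat_lit 10611353930) (nat_lit 532) (nat_lit 7372115753) (nat_lit 608) (nat_lit 24497347842) (nat_lit 127) (nat_lit 5) (nat_lit 134) (nat_lit 5) (nat_lit 135) (nat_lit 5) (nat_lit 349) (nat_lit 327) (nat_lit 104)) (XT.lf (nat_lit 0) (nat_lit 21426831126) (nat_lit 608) (nat_lit 13504123207) (nat_lit 76) (nat_lit 8294500814) (nat_lit 127) (nat_lit 5) (nat_lit 135) (nat_lit 5) (nat_lit 128) (nat_lit 5) (nat_lit 350) (nat_lit 327) (nat_lit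 103))))) (XT.nd (nat_lit 234) (nat_lit 912) (nat_lit 0) (XT.nd (nat_lit 78) (nat_lit 0) (nat_lit 0) (XT.lf (nat_lit 0) (nat_lit 5444055392) (nat_lit 532) (nat_lit 19653327333) (nat_lit 608) (nat_lit 18891335699) (nat_lit 120) (nat_lit 5) (nat_lit 127) (nat_lit 5) (nat_lit 128) (nat_lit 5) (nat_lit 351) (nat_lit 327) (nat_lit 102)) (XT.nd (nat_lit 78) (nat_lit 0) (nat_lit 0) (XT.lf (nat_lit 0) (nat_lit 25236150122) (nat_lit 532) (nat_lit 3776861166) (nat_lit 608) (nat_lit 15757822613) (nat_lit 120) (nat_lit 5) (nat_lit 127) (nat_lit 5) (nat_lit 128) (nat_lit 5) (nat_lit 352) (nat_lit 327) (nat_lit 101)) (XT.lf (nat_lit 0) (nat_lit 33165632615) (nat_lit 608) (nat_lit 76648009) (nat_lit 76) (nat_lit 12330549528) (nat_lit 120) (nat_lit 5) (nat_lit 128) (nat_lit 5) (nat_lit 121) (nat_lit 5) (nat_lit 353) (nat_lit 327) (nat_lit 100)))) (XT.nd (nat_lit 78) (nat_lit 456) (nat_lit 0) (XT.lf (nat_lit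 0) (nat_lit 20322992821) (nat_lit 456) (nat_lit 17351267844) (nat_lit 532) (nat_lit 8717685717) (nat_lit 114) (nat_lit 5) (nat_lit 120) (nat_lit 5) (nat_lit 121) (nat_lit 5) (nat_lit 354) (nat_lit 327) (nat_lit 99)) (XT.nd (nat_lit 78) (nat_lit 456) (nat_lit 0) (XT.lf (nat_lit 0) (nat_lit 41334890849) (nat_lit 456) (nat_lit 982733106) (nat_lit 532) (nat_lit 4918030701) (nat_lit 114) (nat_lit 5) (nat_lit 120) (nat_lit 5) (nat_lit 121) (nat_lit 5) (nat_lit 355) (nat_lit 327) (nat_lit 98)) (XT.lf (nat_lit 0) (nat_lit 15011475742) (nat_lit 456) (nat_lit 32384470104) (nat_lit 532) (nat_lit 699861370) (nat_lit 108) (nat_lit 5) (nat_lit 114) (nat_lit 5) (nat_lit 115) (nat_lit 5) (nat_lit 356) (nat_lit 327) (nat_lit 97))))))))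
noncomputable def xc247 : XT := (XT.nd (nat_lit 39468) (nat_lit 0) (nat_lit 380) (XT.nd (nat_lit 38532) (nat_lit 0) (nat_lit 5092) (XT.nd (nat_lit 390) (nat_lit 760) (nat_lit 0) (XT.nd (nat_lit 156) (nat_lit 456) (nat_lit 0) (XT.nd (nat_lit 78) (nat_lit 456) (nat_lit 0) (XT.lf (nat_lit 0) (nat_lit 3642384511) (nat_lit 532) (nat_lit 12354611445) (nat_lit 76) (nat_lit 32981660238) (nat_lit 107) (nat_lit 5) (nat_lit 114) (nat_lit 5) (nat_lit 108) (nat_lit 5) (nat_lit 357) (nat_lit 327) (nat_lit 96)) (XT.lf (nat_lit 0) (nat_lit 8197162384) (nat_lit 532) (nat_lit 40726914377) (nat_lit 76) (nat_lit 960818599) (nat_lit 101) (nat_lit 5) (nat_lit 108) (nat_lit 5) (nat_lit 102) (nat_lit 5) (nat_lit 358) (nat_lit 327) (nat_lit 95))) (XT.nd (nat_lit 78) (nat_lit 456) (nat_lit 0) (XT.lf (nat_lit 0) (nat_lit 13171770631) (nat_lit 532) (nat_lit 19406298573) (nat_lit 76) (nat_lit 18231759344) (nat_lit 101)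 (nat_lit 5) (nat_lit 108) (nat_lit 5) (nat_lit 102) (nat_lit 5) (nat_lit 359) (nat_lit 327) (nat_lit 94)) (XT.nd (nat_lit 78) (nat_lit 0) (nat_lit 0) (XT.lf (nat_lit 0) (nat_lit 2603469965) (nat_lit 456) (nat_lit 15716016380) (nat_lit 532) (nat_lit 33442309697) (nat_lit 95) (nat_lit 5) (nat_lit 101) (nat_lit 5) (nat_lit 102) (nat_lit 5) (nat_lit 360) (nat_lit 327) (nat_lit 93)) (XT.lf (nat_lit 0) (nat_lit 23834281935) (nat_lit 532) (nat_lit 27084212837) (nat_lit 76) (nat_lit 1817450656) (nat_lit 95) (nat_lit 5) (nat_lit 102) (nat_lit 5) (nat_lit 96) (nat_lit 5) (nat_lit 361) (nat_lit 327) (nat_lit 92))))) (XT.nd (nat_lit 234) (nat_lit 380) (nat_lit 0) (XT.nd (nat_lit 78) (nat_lit 380) (nat_lit 0) (XT.lf (nat_lit 0) (nat_lit 29669022146) (nat_lit 532) (nat_lit 4504734291) (nat_lit 76) (nat_lit 19560930085) (nat_lit 95) (nat_lit 5) (nat_lit 102) (nat_lit 5) (nat_lit 96) (nat_lit 5) (nat_lit 362)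 (nat_lit 327) (nat_lit 91)) (XT.nd (nat_lit 78) (nat_lit 0) (nat_lit 0) (XT.lf (nat_lit 0) (nat_lit 19124091063) (nat_lit 380) (nat_lit 16737474732) (nat_lit 456) (nat_lit 18896343402) (nat_lit 90) (nat_lit 5) (nat_lit 95) (nat_lit 5) (nat_lit 96) (nat_lit 5) (nat_lit 363) (nat_lit 327) (nat_lit 90)) (XT.lf (nat_lit 0) (nat_lit 42296517631) (nat_lit 456) (nat_lit 12269773761) (nat_lit 76) (nat_lit 1243840324) (nat_lit 90) (nat_lit 5) (nat_lit 96) (nat_lit 5) (nat_lit 91) (nat_lit 5) (nat_lit 364) (nat_lit 327) (nat_lit 89)))) (XT.nd (nat_lit 37752) (nat_lit 0) (nat_lit 5016) (XT.lf (nat_lit 0) (nat_lit 11859698148) (nat_lit 380) (nat_lit 37343517694) (nat_lit 456) (nat_lit 7682346192) (nat_lit 85) (nat_lit 5) (nat_lit 90) (nat_lit 5) (nat_lit 91) (nat_lit 5) (nat_lit 365) (nat_lit 327) (nat_lit 88)) (XT.nd (nat_lit 78) (nat_lit 0) (nat_lit 0) (XT.lf (nat_lit 0) (nat_lit 9213954070) (nat_lit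 1140) (nat_lit 3080896836) (nat_lit 1140) (nat_lit 3080896836) (nat_lit 151) (nat_lit 3) (nat_lit 166) (nat_lit 3) (nat_lit 166) (nat_lit 5) (nat_lit 328) (nat_lit 328) (nat_lit 124)) (XT.lf (nat_lit 76) (nat_lit 6741900334) (nat_lit 0) (nat_lit 12089833305) (nat_lit 1140) (nat_lit 12377059156) (nat_lit 152) (nat_lit 5) (nat_lit 151) (nat_lit 3) (nat_lit 166) (nat_lit 5) (nat_lit 329) (nat_lit 328) (nat_lit 123)))))) (XT.nd (nat_lit 468) (nat_lit 0) (nat_lit 152) (XT.nd (nat_lit 234) (nat_lit 0) (nat_lit 76) (XT.nd (nat_lit 78) (nat_lit 0) (nat_lit 0) (XT.lf (nat_lit 0) (nat_lit 19315613986) (nat_lit 1064) (nat_lit 11528465877) (nat_lit 1140) (nat_lit 833696927) (nat_lit 152) (nat_lit 5) (nat_lit 166) (nat_lit 5) (nat_lit 167) (nat_lit 5) (nat_lit 330) (nat_lit 328) (nat_lit 122)) (XT.nd (nat_lit 78) (nat_lit 0) (nat_lit 0) (XT.lf (nat_lit 76) (nat_lit 1710452234) (nat_lit 0) (nat_lit 18237328717)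 (nat_lit 1140) (nat_lit 12209042040) (nat_lit 153) (nat_lit 5) (nat_lit 152) (nat_lit 5) (nat_lit 167) (nat_lit 5) (nat_lit 331) (nat_lit 328) (nat_lit 121)) (XT.lf (nat_lit 76) (nat_lit 15581536214) (nat_lit 0) (nat_lit 5131474983) (nat_lit 1140) (nat_lit 11933812060) (nat_lit 153) (nat_lit 5) (nat_lit 152) (nat_lit 5) (nat_lit 167) (nat_lit 5) (nat_lit 332) (nat_lit 328) (nat_lit 120)))) (XT.nd (nat_lit 78) (nat_lit 0) (nat_lit 0) (XT.lf (nat_lit 0) (nat_lit 21579392508) (nat_lit 1064) (nat_lit 3364572434) (nat_lit 1140) (nat_lit 8205218225) (nat_lit 153) (nat_lit 5) (nat_lit 167) (nat_lit 5) (nat_lit 168) (nat_lit 5) (nat_lit 333) (nat_lit 328) (nat_lit 119)) (XT.nd (nat_lit 78) (nat_lit 0) (nat_lit 76) (XT.lf (nat_lit 76) (nat_lit 10907881248) (nat_lit 0) (nat_lit 11717369267) (nat_lit 1140) (nat_lit 11036764104) (nat_lit 154) (nat_lit 5) (nat_lit 153) (nat_lit 5) (nat_lit 168) (nat_lit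 5) (nat_lit 334) (nat_lit 328) (nat_lit 118)) (XT.lf (nat_lit 0) (nat_lit 23753001938) (nat_lit 1064) (nat_lit 8531782394) (nat_lit 1140) (nat_lit 1903936300) (nat_lit 154) (nat_lit 5) (nat_lit 168) (nat_lit 5) (nat_lit 169) (nat_lit 5) (nat_lit 335) (nat_lit 328) (nat_lit 117))))) (XT.nd (nat_lit 234) (nat_lit 0) (nat_lit 76) (XT.nd (nat_lit 78) (nat_lit 0) (nat_lit 0) (XT.lf (nat_lit 76) (nat_lit 6119283990) (nat_lit 0) (nat_lit 18968083235) (nat_lit 1140) (nat_lit 9638682158) (nat_lit 155) (nat_lit 5) (nat_lit 154) (nat_lit 5) (nat_lit 169) (nat_lit 5) (nat_lit 336) (nat_lit 328) (nat_lit 116)) (XT.nd (nat_lit 78) (nat_lit 0) (nat_lit 76) (XT.lf (nat_lit 76) (nat_lit 21383437948) (nat_lit 0) (nat_lit 5162472243) (nat_lit 1140) (nat_lit 8731068257) (nat_lit 155) (nat_lit 5) (nat_lit 154) (nat_lit 5) (nat_lit 169) (nat_lit 5) (nat_lit 337) (nat_lit 328) (nat_lit 115)) (XT.lf (nat_lit 76) (nat_lit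 1195986700) (nat_lit 0) (nat_lit 26948840851) (nat_lit 1140) (nat_lit 7696714004) (nat_lit 156) (nat_lit 5) (nat_lit 155) (nat_lit 5) (nat_lit 170) (nat_lit 5) (nat_lit 338) (nat_lit 328) (nat_lit 114)))) (XT.nd (nat_lit 78) (nat_lit 0) (nat_lit 76) (XT.lf (nat_lit 76) (nat_lit 16969518172) (nat_lit 0) (nat_lit 13011204985) (nat_lit 1140) (nat_lit 6436652648) (nat_lit 156) (nat_lit 5) (nat_lit 155) (nat_lit 5) (nat_lit 170) (nat_lit 5) (nat_lit 339) (nat_lit 328) (nat_lit 113)) (XT.nd (nat_lit 78) (nat_lit 0) (nat_lit 0) (XT.lf (nat_lit 0) (nat_lit 31882781504) (nat_lit 1064) (nat_lit 3808534270) (nat_lit 1140) (nat_lit 1318841174) (nat_lit 156) (nat_lit 5) (nat_lit 170) (nat_lit 5) (nat_lit 171) (nat_lit 5) (nat_lit 340) (nat_lit 328) (nat_lit 112)) (XT.lf (nat_lit 76) (nat_lit 12412008119) (nat_lit 0) (nat_lit 21676243804) (nat_lit 1140) (nat_lit 3525083403) (nat_lit 157) (nat_lit 5) (nat_lit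 156) (nat_lit 5) (nat_lit 171) (nat_lit 5) (nat_lit 341) (nat_lit 328) (nat_lit 111))))))) (XT.nd (nat_lit 858) (nat_lit 2280) (nat_lit 0) (XT.nd (nat_lit 390) (nat_lit 1672) (nat_lit 0) (XT.nd (nat_lit 156) (nat_lit 0) (nat_lit 0) (XT.nd (nat_lit 78) (nat_lit 1064) (nat_lit 0) (XT.lf (nat_lit 76) (nat_lit 29195911287) (nat_lit 0) (nat_lit 7200687840) (nat_lit 1140) (nat_lit 1836912734) (nat_lit 157) (nat_lit 5) (nat_lit 156) (nat_lit 5) (nat_lit 171) (nat_lit 5) (nat_lit 342) (nat_lit 328) (nat_lit 110)) (XT.lf (nat_lit 0) (nat_lit 51553656) (nat_lit 1140) (nat_lit 31182855457) (nat_lit 1216) (nat_lit 7633484724) (nat_lit 142) (nat_lit 5) (nat_lit 157) (nat_lit 5) (nat_lit 158) (nat_lit 5) (nat_lit 343) (nat_lit 328) (nat_lit 109))) (XT.nd (nat_lit 78) (nat_lit 0) (nat_lit 0) (XT.lf (nat_lit 0) (nat_lit 2121538380) (nat_lit 1140) (nat_lit 14515706599) (nat_lit 1216) (nat_lit 22878666971) (nat_lit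 142) (nat_lit 5) (nat_lit 157) (nat_lit 5) (nat_lit 158) (nat_lit 5) (nat_lit 344) (nat_lit 328) (nat_lit 108)) (XT.nd (nat_lit 78) (nat_lit 0) (nat_lit 76) (XT.lf (nat_lit 76) (nat_lit 2702868485) (nat_lit 0) (nat_lit 1575109474) (nat_lit 1216) (nat_lit 35904665706) (nat_lit 143) (nat_lit 5) (nat_lit 142) (nat_lit 5) (nat_lit 158) (nat_lit 5) (nat_lit 345) (nat_lit 328) (nat_lit 107)) (XT.lf (nat_lit 0) (nat_lit 6779542350) (nat_lit 1140) (nat_lit 20266233658) (nat_lit 76) (nat_lit 13815191986) (nat_lit 143) (nat_lit 5) (nat_lit 158) (nat_lit 5) (nat_lit 144) (nat_lit 5) (nat_lit 346) (nat_lit 328) (nat_lit 106))))) (XT.nd (nat_lit 234) (nat_lit 1064) (nat_lit 0) (XT.nd (nat_lit 78) (nat_lit 684) (nat_lit 0) (XT.lf (nat_lit 0) (nat_lit 9370206117) (nat_lit 1140) (nat_lit 2553212955) (nat_lit 76) (nat_lit 29635804913) (nat_lit 143) (nat_lit 5) (nat_lit 158) (nat_lit 5) (nat_lit 144) (nat_lit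 5) (nat_lit 347) (nat_lit 328) (nat_lit 105)) (XT.nd (nat_lit 78) (nat_lit 0) (nat_lit 0) (XT.lf (nat_lit 0) (nat_lit 12227550702) (nat_lit 760) (nat_lit 26308332269) (nat_lit 76) (nat_lit 3736879261) (nat_lit 134) (nat_lit 5) (nat_lit 144) (nat_lit 5) (nat_lit 135) (nat_lit 5) (nat_lit 348) (nat_lit 328) (nat_lit 104)) (XT.lf (nat_lit 0) (nat_lit 15313242334) (nat_lit 760) (nat_lit 8036631083) (nat_lit 76) (nat_lit 19653557714) (nat_lit 134) (nat_lit 5) (nat_lit 144) (nat_lit 5) (nat_lit 135) (nat_lit 5) (nat_lit 349) (nat_lit 328) (nat_lit 103)))) (XT.nd (nat_lit 78) (nat_lit 532) (nat_lit 0) (XT.lf (nat_lit 0) (nat_lit 10996511881) (nat_lit 532) (nat_lit 7599276031) (nat_lit 608) (nat_lit 25157106896) (nat_lit 127) (nat_lit 5) (nat_lit 134) (nat_lit 5) (nat_lit 135) (nat_lit 5) (nat_lit 350) (nat_lit 328) (nat_lit 102)) (XT.nd (nat_lit 78) (nat_lit 532) (nat_lit 0) (XT.lf (nat_lit 0) (nat_lit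 22140273431) (nat_lit 608) (nat_lit 13842040862) (nat_lit 76) (nat_lit 8537627308) (nat_lit 127) (nat_lit 5) (nat_lit 135) (nat_lit 5) (nat_lit 128) (nat_lit 5) (nat_lit 351) (nat_lit 328) (nat_lit 101)) (XT.lf (nat_lit 0) (nat_lit 5673924212) (nat_lit 532) (nat_lit 20245599660) (nat_lit 608) (nat_lit 19386626042) (nat_lit 120) (nat_lit 5) (nat_lit 127) (nat_lit 5) (nat_lit 128) (nat_lit 5) (nat_lit 352) (nat_lit 328) (nat_lit 100)))))) (XT.nd (nat_lit 468) (nat_lit 1292) (nat_lit 0) (XT.nd (nat_lit 234) (nat_lit 532) (nat_lit 0) (XT.nd (nat_lit 78) (nat_lit 456) (nat_lit 0) (XT.lf (nat_lit 0) (nat_lit 26057843517) (nat_lit 532) (nat_lit 3892761668) (nat_lit 608) (nat_lit 16161188624) (nat_lit 120) (nat_lit 5) (nat_lit 127) (nat_lit 5) (nat_lit 128) (nat_lit 5) (nat_lit 353) (nat_lit 328) (nat_lit 99)) (XT.nd (nat_lit 78) (nat_lit 456) (nat_lit 0) (XT.lf (nat_lit 0) (nat_lit 34225823551) (nat_lit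 608) (nat_lit 14094106) (nat_lit 76) (nat_lit 12697996076) (nat_lit 120) (nat_lit 5) (nat_lit 128) (nat_lit 5) (nat_lit 121) (nat_lit 5) (nat_lit 354) (nat_lit 328) (nat_lit 98)) (XT.lf (nat_lit 0) (nat_lit 20996900131) (nat_lit 456) (nat_lit 17871527941) (nat_lit 532) (nat_lit 8913218064) (nat_lit 114) (nat_lit 5) (nat_lit 120) (nat_lit 5) (nat_lit 121) (nat_lit 5) (nat_lit 355) (nat_lit 328) (nat_lit 97)))) (XT.nd (nat_lit 78) (nat_lit 532) (nat_lit 0) (XT.lf (nat_lit 0) (nat_lit 42637284687) (nat_lit 456) (nat_lit 1011945256) (nat_lit 532) (nat_lit 5001495676) (nat_lit 114) (nat_lit 5) (nat_lit 120) (nat_lit 5) (nat_lit 121) (nat_lit 5) (nat_lit 356) (nat_lit 328) (nat_lit 96)) (XT.nd (nat_lit 78) (nat_lit 76) (nat_lit 0) (XT.lf (nat_lit 0) (nat_lit 15525532394) (nat_lit 456) (nat_lit 33353175982) (nat_lit 532) (nat_lit 658014145) (nat_lit 108) (nat_lit 5) (nat_lit 114) (nat_lit 5) (nat_lit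 115) (nat_lit 5) (nat_lit 357) (nat_lit 328) (nat_lit 95)) (XT.lf (nat_lit 0) (nat_lit 3811478154) (nat_lit 532) (nat_lit 12662077745) (nat_lit 76) (nat_lit 33972540530) (nat_lit 107) (nat_lit 5) (nat_lit 114) (nat_lit 5) (nat_lit 108) (nat_lit 5) (nat_lit 358) (nat_lit 328) (nat_lit 94))))) (XT.nd (nat_lit 234) (nat_lit 380) (nat_lit 0) (XT.nd (nat_lit 78) (nat_lit 456) (nat_lit 0) (XT.lf (nat_lit 0) (nat_lit 8501795484) (nat_lit 532) (nat_lit 41884324732) (nat_lit 76) (nat_lit 993439305) (nat_lit 101) (nat_lit 5) (nat_lit 108) (nat_lit 5) (nat_lit 102) (nat_lit 5) (nat_lit 359) (nat_lit 328) (nat_lit 93)) (XT.nd (nat_lit 78) (nat_lit 456) (nat_lit 0) (XT.lf (nat_lit 0) (nat_lit 13623931739) (nat_lit 532) (nat_lit 19925966096) (nat_lit 76) (nat_lit 18782397706) (nat_lit 101) (nat_lit 5) (nat_lit 108) (nat_lit 5) (nat_lit 102) (nat_lit 5) (nat_lit 360) (nat_lit 328) (nat_lit 92)) (XT.lf (nat_lit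 0) (nat_lit 2743482543) (nat_lit 456) (nat_lit 16181531057) (nat_lit 532) (nat_lit 34387843846) (nat_lit 95) (nat_lit 5) (nat_lit 101) (nat_lit 5) (nat_lit 102) (nat_lit 5) (nat_lit 361) (nat_lit 328) (nat_lit 91)))) (XT.nd (nat_lit 78) (nat_lit 380) (nat_lit 0) (XT.lf (nat_lit 0) (nat_lit 24603679336) (nat_lit 532) (nat_lit 27834949309) (nat_lit 76) (nat_lit 1877653205) (nat_lit 95) (nat_lit 5) (nat_lit 102) (nat_lit 5) (nat_lit 96) (nat_lit 5) (nat_lit 362) (nat_lit 328) (nat_lit 90)) (XT.nd (nat_lit 78) (nat_lit 380) (nat_lit 0) (XT.lf (nat_lit 0) (nat_lit 30611878192) (nat_lit 532) (nat_lit 4579886113) (nat_lit 76) (nat_lit 20153271608) (nat_lit 95) (nat_lit 5) (nat_lit 102) (nat_lit 5) (nat_lit 96) (nat_lit 5) (nat_lit 363) (nat_lit 328) (nat_lit 89)) (XT.lf (nat_lit 0) (nat_lit 19757215862) (nat_lit 380) (nat_lit 17232015859) (nat_lit 456) (nat_lit 19409755675) (nat_lit 90) (nat_lit 5)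 (nat_lit 95) (nat_lit 5) (nat_lit 96) (nat_lit 5) (nat_lit 364) (nat_lit 328) (nat_lit 88))))))))
noncomputable def xc248 : XT := (XT.nd (nat_lit 1716) (nat_lit 2964) (nat_lit 0) (XT.nd (nat_lit 858) (nat_lit 1292) (nat_lit 0) (XT.nd (nat_lit 390) (nat_lit 0) (nat_lit 152) (XT.nd (nat_lit 156) (nat_lit 0) (nat_lit 76) (XT.nd (nat_lit 78) (nat_lit 0) (nat_lit 0) (XT.lf (nat_lit 0) (nat_lit 9552370553) (nat_lit 1140) (nat_lit 3141319119) (nat_lit 1140) (nat_lit 3141319119) (nat_lit 151) (nat_lit 3) (nat_lit 166) (nat_lit 3) (nat_lit 166) (nat_lit 5) (nat_lit 329) (nat_lit 329) (nat_lit 122)) (XT.lf (nat_lit 76) (nat_lit 7007539046) (nat_lit 0) (nat_lit 12510140063) (nat_lit 1140) (nat_lit 12623453596) (nat_lit 152) (nat_lit 5) (nat_lit 151) (nat_lit 3) (nat_lit 166) (nat_lit 5) (nat_lit 330) (nat_lit 329) (nat_lit 121))) (XT.nd (nat_lit 78) (nat_lit 0) (nat_lit 0) (XT.lf (nat_lit 0) (nat_lit 20012014115)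 (nat_lit 1064) (nat_lit 11808436964) (nat_lit 1140) (nat_lit 803865557) (nat_lit 152) (nat_lit 5) (nat_lit 166) (nat_lit 5) (nat_lit 167) (nat_lit 5) (nat_lit 331) (nat_lit 329) (nat_lit 120)) (XT.nd (nat_lit 78) (nat_lit 0) (nat_lit 0) (XT.lf (nat_lit 76) (nat_lit 1827002780) (nat_lit 0) (nat_lit 18833364630) (nat_lit 1140) (nat_lit 12457458491) (nat_lit 153) (nat_lit 5) (nat_lit 152) (nat_lit 5) (nat_lit 167) (nat_lit 5) (nat_lit 332) (nat_lit 329) (nat_lit 119)) (XT.lf (nat_lit 76) (nat_lit 16112319173) (nat_lit 0) (nat_lit 5332910544) (nat_lit 1140) (nat_lit 12177404277) (nat_lit 153) (nat_lit 5) (nat_lit 152) (nat_lit 5) (nat_lit 167) (nat_lit 5) (nat_lit 333) (nat_lit 329) (nat_lit 118))))) (XT.nd (nat_lit 234) (nat_lit 0) (nat_lit 76) (XT.nd (nat_lit 78) (nat_lit 0) (nat_lit 0) (XT.lf (nat_lit 0) (nat_lit 22333931242) (nat_lit 1064) (nat_lit 3400084996) (nat_lit 1140) (nat_lit 8406166437)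 (nat_lit 153) (nat_lit 5) (nat_lit 167) (nat_lit 5) (nat_lit 168) (nat_lit 5) (nat_lit 334) (nat_lit 329) (nat_lit 117)) (XT.nd (nat_lit 78) (nat_lit 0) (nat_lit 76) (XT.lf (nat_lit 76) (nat_lit 11299900879) (nat_lit 0) (nat_lit 12108765770) (nat_lit 1140) (nat_lit 11259814982) (nat_lit 154) (nat_lit 5) (nat_lit 153) (nat_lit 5) (nat_lit 168) (nat_lit 5) (nat_lit 335) (nat_lit 329) (nat_lit 116)) (XT.lf (nat_lit 0) (nat_lit 24566830163) (nat_lit 1064) (nat_lit 8721172829) (nat_lit 1140) (nat_lit 1923095834) (nat_lit 154) (nat_lit 5) (nat_lit 168) (nat_lit 5) (nat_lit 169) (nat_lit 5) (nat_lit 336) (nat_lit 329) (nat_lit 115)))) (XT.nd (nat_lit 78) (nat_lit 0) (nat_lit 0) (XT.lf (nat_lit 76) (nat_lit 6368772967) (nat_lit 0) (nat_lit 19570138329) (nat_lit 1140) (nat_lit 9825712771) (nat_lit 155) (nat_lit 5) (nat_lit 154) (nat_lit 5) (nat_lit 169) (nat_lit 5) (nat_lit 337) (nat_lit 329) (nat_lit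 114)) (XT.nd (nat_lit 78) (nat_lit 0) (nat_lit 76) (XT.lf (nat_lit 76) (nat_lit 22088931822) (nat_lit 0) (nat_lit 5349397475) (nat_lit 1140) (nat_lit 8893845109) (nat_lit 155) (nat_lit 5) (nat_lit 154) (nat_lit 5) (nat_lit 169) (nat_lit 5) (nat_lit 338) (nat_lit 329) (nat_lit 113)) (XT.lf (nat_lit 76) (nat_lit 1298617623) (nat_lit 0) (nat_lit 27784141754) (nat_lit 1140) (nat_lit 7830995433) (nat_lit 156) (nat_lit 5) (nat_lit 155) (nat_lit 5) (nat_lit 170) (nat_lit 5) (nat_lit 339) (nat_lit 329) (nat_lit 112)))))) (XT.nd (nat_lit 390) (nat_lit 608) (nat_lit 0) (XT.nd (nat_lit 156) (nat_lit 988) (nat_lit 0) (XT.nd (nat_lit 78) (nat_lit 0) (nat_lit 76) (XT.lf (nat_lit 76) (nat_lit 17543410826) (nat_lit 0) (nat_lit 13427595191) (nat_lit 1140) (nat_lit 6535946411) (nat_lit 156) (nat_lit 5) (nat_lit 155) (nat_lit 5) (nat_lit 170) (nat_lit 5) (nat_lit 340) (nat_lit 329) (nat_lit 111)) (XT.lf (nat_lit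 0) (nat_lit 32927236519) (nat_lit 1064) (nat_lit 3856768737) (nat_lit 1140) (nat_lit 1333604810) (nat_lit 156) (nat_lit 5) (nat_lit 170) (nat_lit 5) (nat_lit 171) (nat_lit 5) (nat_lit 341) (nat_lit 329) (nat_lit 110))) (XT.nd (nat_lit 78) (nat_lit 1064) (nat_lit 0) (XT.lf (nat_lit 76) (nat_lit 12849742653) (nat_lit 0) (nat_lit 22347194537) (nat_lit 1140) (nat_lit 3542010809) (nat_lit 157) (nat_lit 5) (nat_lit 156) (nat_lit 5) (nat_lit 171) (nat_lit 5) (nat_lit 342) (nat_lit 329) (nat_lit 109)) (XT.nd (nat_lit 78) (nat_lit 1064) (nat_lit 0) (XT.lf (nat_lit 76) (nat_lit 30135258810) (nat_lit 0) (nat_lit 7436770047) (nat_lit 1140) (nat_lit 1805782159) (nat_lit 157) (nat_lit 5) (nat_lit 156) (nat_lit 5) (nat_lit 171) (nat_lit 5) (nat_lit 343) (nat_lit 329) (nat_lit 108)) (XT.lf (nat_lit 0) (nat_lit 135641538) (nat_lit 1140) (nat_lit 32050791084) (nat_lit 1216) (nat_lit 7844833038) (nat_lit 142)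 (nat_lit 5) (nat_lit 157) (nat_lit 5) (nat_lit 158) (nat_lit 5) (nat_lit 344) (nat_lit 329) (nat_lit 107))))) (XT.nd (nat_lit 234) (nat_lit 608) (nat_lit 0) (XT.nd (nat_lit 78) (nat_lit 0) (nat_lit 0) (XT.lf (nat_lit 0) (nat_lit 2265321689) (nat_lit 1140) (nat_lit 14885595237) (nat_lit 1216) (nat_lit 23547885011) (nat_lit 142) (nat_lit 5) (nat_lit 157) (nat_lit 5) (nat_lit 158) (nat_lit 5) (nat_lit 345) (nat_lit 329) (nat_lit 106)) (XT.nd (nat_lit 78) (nat_lit 0) (nat_lit 76) (XT.lf (nat_lit 76) (nat_lit 2848894134) (nat_lit 0) (nat_lit 1635850470) (nat_lit 1216) (nat_lit 36900847634) (nat_lit 143) (nat_lit 5) (nat_lit 142) (nat_lit 5) (nat_lit 158) (nat_lit 5) (nat_lit 346) (nat_lit 329) (nat_lit 105)) (XT.lf (nat_lit 0) (nat_lit 7058945760) (nat_lit 1140) (nat_lit 20808589616) (nat_lit 76) (nat_lit 14216808408) (nat_lit 143) (nat_lit 5) (nat_lit 158) (nat_lit 5) (nat_lit 144) (nat_lit 5) (nat_lit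 347) (nat_lit 329) (nat_lit 104)))) (XT.nd (nat_lit 78) (nat_lit 684) (nat_lit 0) (XT.lf (nat_lit 0) (nat_lit 9725115348) (nat_lit 1140) (nat_lit 2566089877) (nat_lit 76) (nat_lit 30512413684) (nat_lit 143) (nat_lit 5) (nat_lit 158) (nat_lit 5) (nat_lit 144) (nat_lit 5) (nat_lit 348) (nat_lit 329) (nat_lit 103)) (XT.nd (nat_lit 78) (nat_lit 0) (nat_lit 0) (XT.lf (nat_lit 0) (nat_lit 12666549072) (nat_lit 760) (nat_lit 27032068751) (nat_lit 76) (nat_lit 3839999301) (nat_lit 134) (nat_lit 5) (nat_lit 144) (nat_lit 5) (nat_lit 135) (nat_lit 5) (nat_lit 349) (nat_lit 329) (nat_lit 102)) (XT.lf (nat_lit 0) (nat_lit 15842709360) (nat_lit 760) (nat_lit 8214124689) (nat_lit 76) (nat_lit 20234439845) (nat_lit 134) (nat_lit 5) (nat_lit 144) (nat_lit 5) (nat_lit 135) (nat_lit 5) (nat_lit 350) (nat_lit 329) (nat_lit 101))))))) (XT.nd (nat_lit 858) (nat_lit 456) (nat_lit 0) (XT.nd (nat_lit 390) (nat_lit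 988) (nat_lit 0) (XT.nd (nat_lit 156) (nat_lit 988) (nat_lit 0) (XT.nd (nat_lit 78) (nat_lit 0) (nat_lit 0) (XT.lf (nat_lit 0) (nat_lit 11389388982) (nat_lit 532) (nat_lit 7832906875) (nat_lit 608) (nat_lit 25840973292) (nat_lit 127) (nat_lit 5) (nat_lit 134) (nat_lit 5) (nat_lit 135) (nat_lit 5) (nat_lit 351) (nat_lit 329) (nat_lit 100)) (XT.lf (nat_lit 0) (nat_lit 22871064131) (nat_lit 608) (nat_lit 14193953949) (nat_lit 76) (nat_lit 8788375291) (nat_lit 127) (nat_lit 5) (nat_lit 135) (nat_lit 5) (nat_lit 128) (nat_lit 5) (nat_lit 352) (nat_lit 329) (nat_lit 99))) (XT.nd (nat_lit 78) (nat_lit 456) (nat_lit 0) (XT.lf (nat_lit 0) (nat_lit 5906869017) (nat_lit 532) (nat_lit 20855486743) (nat_lit 608) (nat_lit 19900876602) (nat_lit 120) (nat_lit 5) (nat_lit 127) (nat_lit 5) (nat_lit 128) (nat_lit 5) (nat_lit 353) (nat_lit 329) (nat_lit 98)) (XT.nd (nat_lit 78) (nat_lit 456) (nat_lit 0) (XT.lf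 (nat_lit 0) (nat_lit 26900478899) (nat_lit 532) (nat_lit 4011990240) (nat_lit 608) (nat_lit 16580637660) (nat_lit 120) (nat_lit 5) (nat_lit 127) (nat_lit 5) (nat_lit 128) (nat_lit 5) (nat_lit 354) (nat_lit 329) (nat_lit 97)) (XT.lf (nat_lit 0) (nat_lit 47541266) (nat_lit 456) (nat_lit 35266991937) (nat_lit 532) (nat_lit 13029523535) (nat_lit 114) (nat_lit 5) (nat_lit 120) (nat_lit 5) (nat_lit 121) (nat_lit 5) (nat_lit 355) (nat_lit 329) (nat_lit 96))))) (XT.nd (nat_lit 234) (nat_lit 532) (nat_lit 0) (XT.nd (nat_lit 78) (nat_lit 456) (nat_lit 0) (XT.lf (nat_lit 0) (nat_lit 21687338311) (nat_lit 456) (nat_lit 18407411795) (nat_lit 532) (nat_lit 9118404949) (nat_lit 114) (nat_lit 5) (nat_lit 120) (nat_lit 5) (nat_lit 121) (nat_lit 5) (nat_lit 356) (nat_lit 329) (nat_lit 95)) (XT.nd (nat_lit 78) (nat_lit 456) (nat_lit 0) (XT.lf (nat_lit 0) (nat_lit 43975171360) (nat_lit 456) (nat_lit 1042049261)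 (nat_lit 532) (nat_lit 5091142822) (nat_lit 114) (nat_lit 5) (nat_lit 120) (nat_lit 5) (nat_lit 121) (nat_lit 5) (nat_lit 357) (nat_lit 329) (nat_lit 94)) (XT.lf (nat_lit 0) (nat_lit 16051353394) (nat_lit 456) (nat_lit 34351105387) (nat_lit 532) (nat_lit 618518952) (nat_lit 108) (nat_lit 5) (nat_lit 114) (nat_lit 5) (nat_lit 115) (nat_lit 5) (nat_lit 358) (nat_lit 329) (nat_lit 93)))) (XT.nd (nat_lit 78) (nat_lit 456) (nat_lit 0) (XT.lf (nat_lit 0) (nat_lit 3982210573) (nat_lit 532) (nat_lit 12982394366) (nat_lit 76) (nat_lit 34993065115) (nat_lit 107) (nat_lit 5) (nat_lit 114) (nat_lit 5) (nat_lit 108) (nat_lit 5) (nat_lit 359) (nat_lit 329) (nat_lit 92)) (XT.nd (nat_lit 78) (nat_lit 0) (nat_lit 0) (XT.lf (nat_lit 0) (nat_lit 8812196911) (nat_lit 532) (nat_lit 43080154052) (nat_lit 76) (nat_lit 1026820718) (nat_lit 101) (nat_lit 5) (nat_lit 108) (nat_lit 5) (nat_lit 102) (nat_lit 5) (nat_lit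 360) (nat_lit 329) (nat_lit 91)) (XT.lf (nat_lit 0) (nat_lit 14086385188) (nat_lit 532) (nat_lit 20464812631) (nat_lit 76) (nat_lit 19349343650) (nat_lit 101) (nat_lit 5) (nat_lit 108) (nat_lit 5) (nat_lit 102) (nat_lit 5) (nat_lit 361) (nat_lit 329) (nat_lit 90)))))) (XT.nd (nat_lit 38376) (nat_lit 0) (nat_lit 4332) (XT.nd (nat_lit 38142) (nat_lit 0) (nat_lit 4256) (XT.nd (nat_lit 78) (nat_lit 0) (nat_lit 0) (XT.lf (nat_lit 0) (nat_lit 2884141698) (nat_lit 456) (nat_lit 16661353637) (nat_lit 532) (nat_lit 35365058252) (nat_lit 95) (nat_lit 5) (nat_lit 101) (nat_lit 5) (nat_lit 102) (nat_lit 5) (nat_lit 362) (nat_lit 329) (nat_lit 89)) (XT.nd (nat_lit 78) (nat_lit 0) (nat_lit 0) (XT.lf (nat_lit 0) (nat_lit 25393037660) (nat_lit 532) (nat_lit 28611754870) (nat_lit 76) (nat_lit 1939335830) (nat_lit 95) (nat_lit 5) (nat_lit 102) (nat_lit 5) (nat_lit 96) (nat_lit 5) (nat_lit 363) (nat_lit 329) (nat_lit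 88)) (XT.lf (nat_lit 0) (nat_lit 31579989823) (nat_lit 532) (nat_lit 4660736173) (nat_lit 76) (nat_lit 20763066872) (nat_lit 95) (nat_lit 5) (nat_lit 102) (nat_lit 5) (nat_lit 96) (nat_lit 5) (nat_lit 364) (nat_lit 329) (nat_lit 87)))) (XT.nd (nat_lit 78) (nat_lit 0) (nat_lit 0) (XT.lf (nat_lit 0) (nat_lit 9897380600) (nat_lit 1140) (nat_lit 3205391267) (nat_lit 1140) (nat_lit 3205391267) (nat_lit 151) (nat_lit 3) (nat_lit 166) (nat_lit 3) (nat_lit 166) (nat_lit 5) (nat_lit 330) (nat_lit 330) (nat_lit 120)) (XT.nd (nat_lit 78) (nat_lit 0) (nat_lit 76) (XT.lf (nat_lit 76) (nat_lit 7277508550) (nat_lit 0) (nat_lit 12939748873) (nat_lit 1140) (nat_lit 12884410635) (nat_lit 152) (nat_lit 5) (nat_lit 151) (nat_lit 3) (nat_lit 166) (nat_lit 5) (nat_lit 331) (nat_lit 330) (nat_lit 119)) (XT.lf (nat_lit 0) (nat_lit 20722593889) (nat_lit 1064) (nat_lit 12100589131) (nat_lit 1140) (nat_lit 776287418)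 (nat_lit 152) (nat_lit 5) (nat_lit 166) (nat_lit 5) (nat_lit 167) (nat_lit 5) (nat_lit 332) (nat_lit 330) (nat_lit 118))))) (XT.nd (nat_lit 234) (nat_lit 0) (nat_lit 76) (XT.nd (nat_lit 78) (nat_lit 0) (nat_lit 0) (XT.lf (nat_lit 76) (nat_lit 1943304973) (nat_lit 0) (nat_lit 19444473638) (nat_lit 1140) (nat_lit 12720092784) (nat_lit 153) (nat_lit 5) (nat_lit 152) (nat_lit 5) (nat_lit 167) (nat_lit 5) (nat_lit 333) (nat_lit 330) (nat_lit 117)) (XT.nd (nat_lit 78) (nat_lit 0) (nat_lit 76) (XT.lf (nat_lit 76) (nat_lit 16655389825) (nat_lit 0) (nat_lit 5537662976) (nat_lit 1140) (nat_lit 12434872558) (nat_lit 153) (nat_lit 5) (nat_lit 152) (nat_lit 5) (nat_lit 167) (nat_lit 5) (nat_lit 334) (nat_lit 330) (nat_lit 116)) (XT.lf (nat_lit 0) (nat_lit 23104954891) (nat_lit 1064) (nat_lit 3440418575) (nat_lit 1140) (nat_lit 8615738238) (nat_lit 153) (nat_lit 5) (nat_lit 167) (nat_lit 5) (nat_lit 168)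 (nat_lit 5) (nat_lit 335) (nat_lit 330) (nat_lit 115)))) (XT.nd (nat_lit 78) (nat_lit 0) (nat_lit 76) (XT.lf (nat_lit 76) (nat_lit 11699962279) (nat_lit 0) (nat_lit 12509615155) (nat_lit 1140) (nat_lit 11495760015) (nat_lit 154) (nat_lit 5) (nat_lit 153) (nat_lit 5) (nat_lit 168) (nat_lit 5) (nat_lit 336) (nat_lit 330) (nat_lit 114)) (XT.nd (nat_lit 78) (nat_lit 0) (nat_lit 0) (XT.lf (nat_lit 0) (nat_lit 25399261750) (nat_lit 1064) (nat_lit 8920065969) (nat_lit 1140) (nat_lit 1945009130) (nat_lit 154) (nat_lit 5) (nat_lit 168) (nat_lit 5) (nat_lit 169) (nat_lit 5) (nat_lit 337) (nat_lit 330) (nat_lit 113)) (XT.lf (nat_lit 76) (nat_lit 6621963084) (nat_lit 0) (nat_lit 20188360017) (nat_lit 1140) (nat_lit 10024216974) (nat_lit 155) (nat_lit 5) (nat_lit 154) (nat_lit 5) (nat_lit 169) (nat_lit 5) (nat_lit 338) (nat_lit 330) (nat_lit 112))))))))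
noncomputable def xc249 : XT := (XT.nd (nat_lit 1716) (nat_lit 912) (nat_lit 0) (XT.nd (nat_lit 858) (nat_lit 2660) (nat_lit 0) (XT.nd (nat_lit 390) (nat_lit 912) (nat_lit 0) (XT.nd (nat_lit 156) (nat_lit 0) (nat_lit 76) (XT.nd (nat_lit 78) (nat_lit 0) (nat_lit 76) (XT.lf (nat_lit 76) (nat_lit 22811917182) (nat_lit 0) (nat_lit 5540090602) (nat_lit 1140) (nat_lit 9067197180) (nat_lit 155) (nat_lit 5) (nat_lit 154) (nat_lit 5) (nat_lit 169) (nat_lit 5) (nat_lit 339) (nat_lit 330) (nat_lit 111)) (XT.lf (nat_lit 76) (nat_lit 1400495674) (nat_lit 0) (nat_lit 28642961207) (nat_lit 1140) (nat_lit 7974851689) (nat_lit 156) (nat_lit 5) (nat_lit 155) (nat_lit 5) (nat_lit 170) (nat_lit 5) (nat_lit 340) (nat_lit 330) (nat_lit 110))) (XT.nd (nat_lit 78) (nat_lit 0) (nat_lit 76) (XT.lf (nat_lit 76) (nat_lit 18130800066) (nat_lit 0) (nat_lit 13854981493) (nat_lit 1140) (nat_lit 6643603825) (nat_lit 156) (nat_lit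 5) (nat_lit 155) (nat_lit 5) (nat_lit 170) (nat_lit 5) (nat_lit 341) (nat_lit 330) (nat_lit 109)) (XT.nd (nat_lit 78) (nat_lit 0) (nat_lit 0) (XT.lf (nat_lit 0) (nat_lit 33997975256) (nat_lit 1064) (nat_lit 3910240147) (nat_lit 1140) (nat_lit 1350235068) (nat_lit 156) (nat_lit 5) (nat_lit 170) (nat_lit 5) (nat_lit 171) (nat_lit 5) (nat_lit 342) (nat_lit 330) (nat_lit 108)) (XT.lf (nat_lit 76) (nat_lit 13296856471) (nat_lit 0) (nat_lit 23037087627) (nat_lit 1140) (nat_lit 3564544962) (nat_lit 157) (nat_lit 5) (nat_lit 156) (nat_lit 5) (nat_lit 171) (nat_lit 5) (nat_lit 343) (nat_lit 330) (nat_lit 107))))) (XT.nd (nat_lit 234) (nat_lit 0) (nat_lit 0) (XT.nd (nat_lit 78) (nat_lit 1064) (nat_lit 0) (XT.lf (nat_lit 76) (nat_lit 31099143311) (nat_lit 0) (nat_lit 7678783104) (nat_lit 1140) (nat_lit 1778668079) (nat_lit 157) (nat_lit 5) (nat_lit 156) (nat_lit 5) (nat_lit 171) (nat_lit 5) (nat_lit 344)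 (nat_lit 330) (nat_lit 106)) (XT.nd (nat_lit 78) (nat_lit 0) (nat_lit 0) (XT.lf (nat_lit 0) (nat_lit 217513851) (nat_lit 1140) (nat_lit 32948642428) (nat_lit 1216) (nat_lit 8063535341) (nat_lit 142) (nat_lit 5) (nat_lit 157) (nat_lit 5) (nat_lit 158) (nat_lit 5) (nat_lit 345) (nat_lit 330) (nat_lit 105)) (XT.lf (nat_lit 0) (nat_lit 2408818298) (nat_lit 1140) (nat_lit 15270345241) (nat_lit 1216) (nat_lit 24238163613) (nat_lit 142) (nat_lit 5) (nat_lit 157) (nat_lit 5) (nat_lit 158) (nat_lit 5) (nat_lit 346) (nat_lit 330) (nat_lit 104)))) (XT.nd (nat_lit 78) (nat_lit 0) (nat_lit 76) (XT.lf (nat_lit 76) (nat_lit 2995572753) (nat_lit 0) (nat_lit 1697639446) (nat_lit 1216) (nat_lit 37931562344) (nat_lit 143) (nat_lit 5) (nat_lit 142) (nat_lit 5) (nat_lit 158) (nat_lit 5) (nat_lit 347) (nat_lit 330) (nat_lit 103)) (XT.nd (nat_lit 78) (nat_lit 0) (nat_lit 0) (XT.lf (nat_lit 0) (nat_lit 7342367577)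 (nat_lit 1140) (nat_lit 21370983745) (nat_lit 76) (nat_lit 14631210353) (nat_lit 143) (nat_lit 5) (nat_lit 158) (nat_lit 5) (nat_lit 144) (nat_lit 5) (nat_lit 348) (nat_lit 330) (nat_lit 102)) (XT.lf (nat_lit 0) (nat_lit 10086435259) (nat_lit 1140) (nat_lit 2583010864) (nat_lit 76) (nat_lit 31416036282) (nat_lit 143) (nat_lit 5) (nat_lit 158) (nat_lit 5) (nat_lit 144) (nat_lit 5) (nat_lit 349) (nat_lit 330) (nat_lit 101)))))) (XT.nd (nat_lit 390) (nat_lit 988) (nat_lit 0) (XT.nd (nat_lit 156) (nat_lit 1064) (nat_lit 0) (XT.nd (nat_lit 78) (nat_lit 0) (nat_lit 0) (XT.lf (nat_lit 0) (nat_lit 13114574433) (nat_lit 760) (nat_lit 27781278070) (nat_lit 76) (nat_lit 3946728795) (nat_lit 134) (nat_lit 5) (nat_lit 144) (nat_lit 5) (nat_lit 135) (nat_lit 5) (nat_lit 350) (nat_lit 330) (nat_lit 100)) (XT.lf (nat_lit 0) (nat_lit 16384038106) (nat_lit 760) (nat_lit 8400594309) (nat_lit 76) (nat_lit 20833249269)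 (nat_lit 134) (nat_lit 5) (nat_lit 144) (nat_lit 5) (nat_lit 135) (nat_lit 5) (nat_lit 351) (nat_lit 330) (nat_lit 99))) (XT.nd (nat_lit 78) (nat_lit 532) (nat_lit 0) (XT.lf (nat_lit 0) (nat_lit 11790436986) (nat_lit 532) (nat_lit 8073222165) (nat_lit 608) (nat_lit 26549422576) (nat_lit 127) (nat_lit 5) (nat_lit 134) (nat_lit 5) (nat_lit 135) (nat_lit 5) (nat_lit 352) (nat_lit 330) (nat_lit 98)) (XT.nd (nat_lit 78) (nat_lit 532) (nat_lit 0) (XT.lf (nat_lit 0) (nat_lit 23619956445) (nat_lit 608) (nat_lit 14560060871) (nat_lit 76) (nat_lit 9046954595) (nat_lit 127) (nat_lit 5) (nat_lit 135) (nat_lit 5) (nat_lit 128) (nat_lit 5) (nat_lit 353) (nat_lit 330) (nat_lit 97)) (XT.lf (nat_lit 0) (nat_lit 6143201375) (nat_lit 532) (nat_lit 21483525833) (nat_lit 608) (nat_lit 20434420743) (nat_lit 120) (nat_lit 5) (nat_lit 127) (nat_lit 5) (nat_lit 128) (nat_lit 5) (nat_lit 354) (nat_lit 330) (nat_lit 96)))))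 (XT.nd (nat_lit 234) (nat_lit 532) (nat_lit 0) (XT.nd (nat_lit 78) (nat_lit 456) (nat_lit 0) (XT.lf (nat_lit 0) (nat_lit 27764897429) (nat_lit 532) (nat_lit 4134655275) (nat_lit 608) (nat_lit 17016423628) (nat_lit 120) (nat_lit 5) (nat_lit 127) (nat_lit 5) (nat_lit 128) (nat_lit 5) (nat_lit 355) (nat_lit 330) (nat_lit 95)) (XT.nd (nat_lit 78) (nat_lit 0) (nat_lit 0) (XT.lf (nat_lit 0) (nat_lit 107735637) (nat_lit 456) (nat_lit 36324747342) (nat_lit 532) (nat_lit 13360011517) (nat_lit 114) (nat_lit 5) (nat_lit 120) (nat_lit 5) (nat_lit 121) (nat_lit 5) (nat_lit 356) (nat_lit 330) (nat_lit 94)) (XT.lf (nat_lit 0) (nat_lit 22395014900) (nat_lit 456) (nat_lit 18959387205) (nat_lit 532) (nat_lit 9333318530) (nat_lit 114) (nat_lit 5) (nat_lit 120) (nat_lit 5) (nat_lit 121) (nat_lit 5) (nat_lit 357) (nat_lit 330) (nat_lit 93)))) (XT.nd (nat_lit 78) (nat_lit 532) (nat_lit 0) (XT.lf (nat_lit 0) (nat_lit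 45349821102) (nat_lit 456) (nat_lit 1073070987) (nat_lit 532) (nat_lit 5186946459) (nat_lit 114) (nat_lit 5) (nat_lit 120) (nat_lit 5) (nat_lit 121) (nat_lit 5) (nat_lit 358) (nat_lit 330) (nat_lit 92)) (XT.nd (nat_lit 78) (nat_lit 76) (nat_lit 0) (XT.lf (nat_lit 0) (nat_lit 16589501620) (nat_lit 456) (nat_lit 35379125707) (nat_lit 532) (nat_lit 581239271) (nat_lit 108) (nat_lit 5) (nat_lit 114) (nat_lit 5) (nat_lit 115) (nat_lit 5) (nat_lit 359) (nat_lit 330) (nat_lit 91)) (XT.lf (nat_lit 0) (nat_lit 4154828058) (nat_lit 532) (nat_lit 13315738654) (nat_lit 76) (nat_lit 36044128037) (nat_lit 107) (nat_lit 5) (nat_lit 114) (nat_lit 5) (nat_lit 108) (nat_lit 5) (nat_lit 360) (nat_lit 330) (nat_lit 90))))))) (XT.nd (nat_lit 38922) (nat_lit 0) (nat_lit 3572) (XT.nd (nat_lit 38454) (nat_lit 0) (nat_lit 4332) (XT.nd (nat_lit 156) (nat_lit 456) (nat_lit 0) (XT.nd (nat_lit 78) (nat_lit 0) (nat_lit 0)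 (XT.lf (nat_lit 0) (nat_lit 9128733203) (nat_lit 532) (nat_lit 44315342705) (nat_lit 76) (nat_lit 1060998168) (nat_lit 101) (nat_lit 5) (nat_lit 108) (nat_lit 5) (nat_lit 102) (nat_lit 5) (nat_lit 361) (nat_lit 330) (nat_lit 89)) (XT.lf (nat_lit 0) (nat_lit 14559627604) (nat_lit 532) (nat_lit 21023207526) (nat_lit 76) (nat_lit 19933098551) (nat_lit 101) (nat_lit 5) (nat_lit 108) (nat_lit 5) (nat_lit 102) (nat_lit 5) (nat_lit 362) (nat_lit 330) (nat_lit 88))) (XT.nd (nat_lit 38142) (nat_lit 0) (nat_lit 4256) (XT.lf (nat_lit 0) (nat_lit 3025670831) (nat_lit 456) (nat_lit 17155893697) (nat_lit 532) (nat_lit 36374713073) (nat_lit 95) (nat_lit 5) (nat_lit 101) (nat_lit 5) (nat_lit 102) (nat_lit 5) (nat_lit 363) (nat_lit 330) (nat_lit 87)) (XT.nd (nat_lit 78) (nat_lit 0) (nat_lit 0) (XT.lf (nat_lit 0) (nat_lit 10249386315) (nat_lit 1140) (nat_lit 3273117314) (nat_lit 1140) (nat_lit 3273117314) (nat_lit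 151) (nat_lit 3) (nat_lit 166) (nat_lit 3) (nat_lit 166) (nat_lit 5) (nat_lit 331) (nat_lit 331) (nat_lit 118)) (XT.lf (nat_lit 76) (nat_lit 7552147628) (nat_lit 0) (nat_lit 13379128640) (nat_lit 1140) (nat_lit 13159955520) (nat_lit 152) (nat_lit 5) (nat_lit 151) (nat_lit 3) (nat_lit 166) (nat_lit 5) (nat_lit 332) (nat_lit 331) (nat_lit 117))))) (XT.nd (nat_lit 234) (nat_lit 0) (nat_lit 76) (XT.nd (nat_lit 78) (nat_lit 0) (nat_lit 0) (XT.lf (nat_lit 0) (nat_lit 21448164015) (nat_lit 1064) (nat_lit 12405070712) (nat_lit 1140) (nat_lit 750849388) (nat_lit 152) (nat_lit 5) (nat_lit 166) (nat_lit 5) (nat_lit 167) (nat_lit 5) (nat_lit 333) (nat_lit 331) (nat_lit 116)) (XT.nd (nat_lit 78) (nat_lit 0) (nat_lit 0) (XT.lf (nat_lit 76) (nat_lit 2059566332) (nat_lit 0) (nat_lit 20071269125) (nat_lit 1140) (nat_lit 12996983095) (nat_lit 153) (nat_lit 5) (nat_lit 152) (nat_lit 5) (nat_lit 167) (nat_lit 5)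 (nat_lit 334) (nat_lit 331) (nat_lit 115)) (XT.lf (nat_lit 76) (nat_lit 17211325510) (nat_lit 0) (nat_lit 5745988280) (nat_lit 1140) (nat_lit 12706256141) (nat_lit 153) (nat_lit 5) (nat_lit 152) (nat_lit 5) (nat_lit 167) (nat_lit 5) (nat_lit 335) (nat_lit 331) (nat_lit 114)))) (XT.nd (nat_lit 78) (nat_lit 0) (nat_lit 0) (XT.lf (nat_lit 0) (nat_lit 23893311109) (nat_lit 1064) (nat_lit 3485502212) (nat_lit 1140) (nat_lit 8834043366) (nat_lit 153) (nat_lit 5) (nat_lit 167) (nat_lit 5) (nat_lit 168) (nat_lit 5) (nat_lit 336) (nat_lit 331) (nat_lit 113)) (XT.nd (nat_lit 78) (nat_lit 0) (nat_lit 76) (XT.lf (nat_lit 76) (nat_lit 12108520176) (nat_lit 0) (nat_lit 12920332409) (nat_lit 1140) (nat_lit 11744629973) (nat_lit 154) (nat_lit 5) (nat_lit 153) (nat_lit 5) (nat_lit 168) (nat_lit 5) (nat_lit 337) (nat_lit 331) (nat_lit 112)) (XT.lf (nat_lit 0) (nat_lit 26251188402) (nat_lit 1064) (nat_lit 9128527552)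 (nat_lit 1140) (nat_lit 1969633719) (nat_lit 154) (nat_lit 5) (nat_lit 168) (nat_lit 5) (nat_lit 169) (nat_lit 5) (nat_lit 338) (nat_lit 331) (nat_lit 111)))))) (XT.nd (nat_lit 468) (nat_lit 912) (nat_lit 0) (XT.nd (nat_lit 234) (nat_lit 0) (nat_lit 76) (XT.nd (nat_lit 78) (nat_lit 0) (nat_lit 0) (XT.lf (nat_lit 76) (nat_lit 6879182564) (nat_lit 0) (nat_lit 20823342082) (nat_lit 1140) (nat_lit 10234202432) (nat_lit 155) (nat_lit 5) (nat_lit 154) (nat_lit 5) (nat_lit 169) (nat_lit 5) (nat_lit 339) (nat_lit 331) (nat_lit 110)) (XT.nd (nat_lit 78) (nat_lit 0) (nat_lit 76) (XT.lf (nat_lit 76) (nat_lit 23553129637) (nat_lit 0) (nat_lit 5734770275) (nat_lit 1140) (nat_lit 9251114988) (nat_lit 155) (nat_lit 5) (nat_lit 154) (nat_lit 5) (nat_lit 169) (nat_lit 5) (nat_lit 340) (nat_lit 331) (nat_lit 109)) (XT.lf (nat_lit 76) (nat_lit 1501818229) (nat_lit 0) (nat_lit 29526093195) (nat_lit 1140) (nat_lit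 8128251629) (nat_lit 156) (nat_lit 5) (nat_lit 155) (nat_lit 5) (nat_lit 170) (nat_lit 5) (nat_lit 341) (nat_lit 331) (nat_lit 108)))) (XT.nd (nat_lit 78) (nat_lit 0) (nat_lit 76) (XT.lf (nat_lit 76) (nat_lit 18732304345) (nat_lit 0) (nat_lit 14293779629) (nat_lit 1140) (nat_lit 6759566687) (nat_lit 156) (nat_lit 5) (nat_lit 155) (nat_lit 5) (nat_lit 170) (nat_lit 5) (nat_lit 342) (nat_lit 331) (nat_lit 107)) (XT.nd (nat_lit 78) (nat_lit 0) (nat_lit 0) (XT.lf (nat_lit 0) (nat_lit 35096076115) (nat_lit 1064) (nat_lit 3968888050) (nat_lit 1140) (nat_lit 1368706220) (nat_lit 156) (nat_lit 5) (nat_lit 170) (nat_lit 5) (nat_lit 171) (nat_lit 5) (nat_lit 343) (nat_lit 331) (nat_lit 106)) (XT.lf (nat_lit 76) (nat_lit 13753846375) (nat_lit 0) (nat_lit 23746559436) (nat_lit 1140) (nat_lit 3592561364) (nat_lit 157) (nat_lit 5) (nat_lit 156) (nat_lit 5) (nat_lit 171) (nat_lit 5) (nat_lit 344) (nat_lit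 331) (nat_lit 105))))) (XT.nd (nat_lit 234) (nat_lit 0) (nat_lit 0) (XT.nd (nat_lit 78) (nat_lit 1064) (nat_lit 0) (XT.lf (nat_lit 76) (nat_lit 32088510048) (nat_lit 0) (nat_lit 7926971044) (nat_lit 1140) (nat_lit 1755406813) (nat_lit 157) (nat_lit 5) (nat_lit 156) (nat_lit 5) (nat_lit 171) (nat_lit 5) (nat_lit 345) (nat_lit 331) (nat_lit 104)) (XT.nd (nat_lit 78) (nat_lit 0) (nat_lit 0) (XT.lf (nat_lit 0) (nat_lit 297376119) (nat_lit 1140) (nat_lit 33877084369) (nat_lit 1216) (nat_lit 8289754072) (nat_lit 142) (nat_lit 5) (nat_lit 157) (nat_lit 5) (nat_lit 158) (nat_lit 5) (nat_lit 346) (nat_lit 331) (nat_lit 103)) (XT.lf (nat_lit 0) (nat_lit 2552283674) (nat_lit 1140) (nat_lit 15670186343) (nat_lit 1216) (nat_lit 24950078104) (nat_lit 142) (nat_lit 5) (nat_lit 157) (nat_lit 5) (nat_lit 158) (nat_lit 5) (nat_lit 347) (nat_lit 331) (nat_lit 102)))) (XT.nd (nat_lit 78) (nat_lit 0) (nat_lit 76)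 (XT.lf (nat_lit 76) (nat_lit 3143137923) (nat_lit 0) (nat_lit 1760552287) (nat_lit 1216) (nat_lit 38997579042) (nat_lit 143) (nat_lit 5) (nat_lit 142) (nat_lit 5) (nat_lit 158) (nat_lit 5) (nat_lit 348) (nat_lit 331) (nat_lit 101)) (XT.nd (nat_lit 78) (nat_lit 0) (nat_lit 0) (XT.lf (nat_lit 0) (nat_lit 7630178848) (nat_lit 1140) (nat_lit 21953800918) (nat_lit 76) (nat_lit 15058739078) (nat_lit 143) (nat_lit 5) (nat_lit 158) (nat_lit 5) (nat_lit 144) (nat_lit 5) (nat_lit 349) (nat_lit 331) (nat_lit 100)) (XT.lf (nat_lit 0) (nat_lit 10454601369) (nat_lit 1140) (nat_lit 2603887269) (nat_lit 76) (nat_lit 32347442045) (nat_lit 143) (nat_lit 5) (nat_lit 158) (nat_lit 5) (nat_lit 144) (nat_lit 5) (nat_lit 350) (nat_lit 331) (nat_lit 99))))))))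
noncomputable def xc250 : XT := (XT.nd (nat_lit 39936) (nat_lit 0) (nat_lit 456) (XT.nd (nat_lit 858) (nat_lit 456) (nat_lit 0) (XT.nd (nat_lit 390) (nat_lit 988) (nat_lit 0) (XT.nd (nat_lit 156) (nat_lit 1064) (nat_lit 0) (XT.nd (nat_lit 78) (nat_lit 0) (nat_lit 0) (XT.lf (nat_lit 0) (nat_lit 13572135419) (nat_lit 760) (nat_lit 28556508528) (nat_lit 76) (nat_lit 4057146414) (nat_lit 134) (nat_lit 5) (nat_lit 144) (nat_lit 5) (nat_lit 135) (nat_lit 5) (nat_lit 351) (nat_lit 331) (nat_lit 98)) (XT.lf (nat_lit 0) (nat_lit 16937815320) (nat_lit 760) (nat_lit 8596099630) (nat_lit 76) (nat_lit 21450495053) (nat_lit 134) (nat_lit 5) (nat_lit 144) (nat_lit 5) (nat_lit 135) (nat_lit 5) (nat_lit 352) (nat_lit 331) (nat_lit 97))) (XT.nd (nat_lit 78) (nat_lit 532) (nat_lit 0) (XT.lf (nat_lit 0) (nat_lit 12200108560) (nat_lit 532) (nat_lit 8320441059) (nat_lit 608) (nat_lit 27282958780) (nat_lit 127) (nat_lit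 5) (nat_lit 134) (nat_lit 5) (nat_lit 135) (nat_lit 5) (nat_lit 353) (nat_lit 331) (nat_lit 96)) (XT.nd (nat_lit 78) (nat_lit 532) (nat_lit 0) (XT.lf (nat_lit 0) (nat_lit 24387712825) (nat_lit 608) (nat_lit 14940578696) (nat_lit 76) (nat_lit 9313582429) (nat_lit 127) (nat_lit 5) (nat_lit 135) (nat_lit 5) (nat_lit 128) (nat_lit 5) (nat_lit 354) (nat_lit 331) (nat_lit 95)) (XT.lf (nat_lit 0) (nat_lit 6383229614) (nat_lit 532) (nat_lit 22130269790) (nat_lit 608) (nat_lit 20987615343) (nat_lit 120) (nat_lit 5) (nat_lit 127) (nat_lit 5) (nat_lit 128) (nat_lit 5) (nat_lit 355) (nat_lit 331) (nat_lit 94))))) (XT.nd (nat_lit 234) (nat_lit 532) (nat_lit 0) (XT.nd (nat_lit 78) (nat_lit 456) (nat_lit 0) (XT.lf (nat_lit 0) (nat_lit 28651953281) (nat_lit 532) (nat_lit 4260867925) (nat_lit 608) (nat_lit 17468821169) (nat_lit 120) (nat_lit 5) (nat_lit 127) (nat_lit 5) (nat_lit 128) (nat_lit 5) (nat_lit 356)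 (nat_lit 331) (nat_lit 93)) (XT.nd (nat_lit 78) (nat_lit 0) (nat_lit 0) (XT.lf (nat_lit 0) (nat_lit 166362307) (nat_lit 456) (nat_lit 37414250010) (nat_lit 532) (nat_lit 13703881214) (nat_lit 114) (nat_lit 5) (nat_lit 120) (nat_lit 5) (nat_lit 121) (nat_lit 5) (nat_lit 357) (nat_lit 331) (nat_lit 92)) (XT.lf (nat_lit 0) (nat_lit 23120646514) (nat_lit 456) (nat_lit 19527936052) (nat_lit 532) (nat_lit 9558045613) (nat_lit 114) (nat_lit 5) (nat_lit 120) (nat_lit 5) (nat_lit 121) (nat_lit 5) (nat_lit 358) (nat_lit 331) (nat_lit 91)))) (XT.nd (nat_lit 78) (nat_lit 532) (nat_lit 0) (XT.lf (nat_lit 0) (nat_lit 46762530460) (nat_lit 456) (nat_lit 1105037127) (nat_lit 532) (nat_lit 5288892257) (nat_lit 114) (nat_lit 5) (nat_lit 120) (nat_lit 5) (nat_lit 121) (nat_lit 5) (nat_lit 359) (nat_lit 331) (nat_lit 90)) (XT.nd (nat_lit 78) (nat_lit 76) (nat_lit 0) (XT.lf (nat_lit 0) (nat_lit 17140544783) (nat_lit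 456) (nat_lit 36438130884) (nat_lit 532) (nat_lit 546046371) (nat_lit 108) (nat_lit 5) (nat_lit 114) (nat_lit 5) (nat_lit 115) (nat_lit 5) (nat_lit 360) (nat_lit 331) (nat_lit 89)) (XT.lf (nat_lit 0) (nat_lit 4329572974) (nat_lit 532) (nat_lit 13662305221) (nat_lit 76) (nat_lit 37126649886) (nat_lit 107) (nat_lit 5) (nat_lit 114) (nat_lit 5) (nat_lit 108) (nat_lit 5) (nat_lit 361) (nat_lit 331) (nat_lit 88)))))) (XT.nd (nat_lit 38610) (nat_lit 0) (nat_lit 3876) (XT.nd (nat_lit 38376) (nat_lit 0) (nat_lit 3800) (XT.nd (nat_lit 38298) (nat_lit 0) (nat_lit 3800) (XT.lf (nat_lit 0) (nat_lit 9451770792) (nat_lit 532) (nat_lit 45590871448) (nat_lit 76) (nat_lit 1096007328) (nat_lit 101) (nat_lit 5) (nat_lit 108) (nat_lit 5) (nat_lit 102) (nat_lit 5) (nat_lit 362) (nat_lit 331) (nat_lit 87)) (XT.lf (nat_lit 0) (nat_lit 10608790137) (nat_lit 1140) (nat_lit 3344507466) (nat_lit 1140) (nat_lit 3344507466)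 (nat_lit 151) (nat_lit 3) (nat_lit 166) (nat_lit 3) (nat_lit 166) (nat_lit 5) (nat_lit 332) (nat_lit 332) (nat_lit 116))) (XT.nd (nat_lit 78) (nat_lit 0) (nat_lit 76) (XT.lf (nat_lit 76) (nat_lit 7831793234) (nat_lit 0) (nat_lit 13828751440) (nat_lit 1140) (nat_lit 13450137884) (nat_lit 152) (nat_lit 5) (nat_lit 151) (nat_lit 3) (nat_lit 166) (nat_lit 5) (nat_lit 333) (nat_lit 332) (nat_lit 115)) (XT.nd (nat_lit 78) (nat_lit 0) (nat_lit 0) (XT.lf (nat_lit 0) (nat_lit 22189537402) (nat_lit 1064) (nat_lit 12722046950) (nat_lit 1140) (nat_lit 727445326) (nat_lit 152) (nat_lit 5) (nat_lit 166) (nat_lit 5) (nat_lit 167) (nat_lit 5) (nat_lit 334) (nat_lit 332) (nat_lit 114)) (XT.lf (nat_lit 76) (nat_lit 2175988265) (nat_lit 0) (nat_lit 20714373621) (nat_lit 1140) (nat_lit 13288191040) (nat_lit 153) (nat_lit 5) (nat_lit 152) (nat_lit 5) (nat_lit 167) (nat_lit 5) (nat_lit 335) (nat_lit 332) (nat_lit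 113))))) (XT.nd (nat_lit 234) (nat_lit 0) (nat_lit 152) (XT.nd (nat_lit 78) (nat_lit 0) (nat_lit 76) (XT.lf (nat_lit 76) (nat_lit 17780708909) (nat_lit 0) (nat_lit 5958141154) (nat_lit 1140) (nat_lit 12991617079) (nat_lit 153) (nat_lit 5) (nat_lit 152) (nat_lit 5) (nat_lit 167) (nat_lit 5) (nat_lit 336) (nat_lit 332) (nat_lit 112)) (XT.nd (nat_lit 78) (nat_lit 0) (nat_lit 0) (XT.lf (nat_lit 0) (nat_lit 24699852709) (nat_lit 1064) (nat_lit 3535275196) (nat_lit 1140) (nat_lit 9061203398) (nat_lit 153) (nat_lit 5) (nat_lit 167) (nat_lit 5) (nat_lit 168) (nat_lit 5) (nat_lit 337) (nat_lit 332) (nat_lit 111)) (XT.lf (nat_lit 76) (nat_lit 12526030686) (nat_lit 0) (nat_lit 13341337422) (nat_lit 1140) (nat_lit 12006476986) (nat_lit 154) (nat_lit 5) (nat_lit 153) (nat_lit 5) (nat_lit 168) (nat_lit 5) (nat_lit 338) (nat_lit 332) (nat_lit 110)))) (XT.nd (nat_lit 78) (nat_lit 0) (nat_lit 0) (XT.lf (nat_lit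 0) (nat_lit 27123509425) (nat_lit 1064) (nat_lit 9346637884) (nat_lit 1140) (nat_lit 1996933038) (nat_lit 154) (nat_lit 5) (nat_lit 168) (nat_lit 5) (nat_lit 169) (nat_lit 5) (nat_lit 339) (nat_lit 332) (nat_lit 109)) (XT.nd (nat_lit 78) (nat_lit 0) (nat_lit 0) (XT.lf (nat_lit 76) (nat_lit 7140757012) (nat_lit 0) (nat_lit 21475689874) (nat_lit 1140) (nat_lit 10455696362) (nat_lit 155) (nat_lit 5) (nat_lit 154) (nat_lit 5) (nat_lit 169) (nat_lit 5) (nat_lit 340) (nat_lit 332) (nat_lit 108)) (XT.lf (nat_lit 76) (nat_lit 24313314760) (nat_lit 0) (nat_lit 5933655645) (nat_lit 1140) (nat_lit 9445607522) (nat_lit 155) (nat_lit 5) (nat_lit 154) (nat_lit 5) (nat_lit 169) (nat_lit 5) (nat_lit 341) (nat_lit 332) (nat_lit 107))))))) (XT.nd (nat_lit 858) (nat_lit 2052) (nat_lit 0) (XT.nd (nat_lit 390) (nat_lit 1596) (nat_lit 0) (XT.nd (nat_lit 156) (nat_lit 0) (nat_lit 76) (XT.nd (nat_lit 78) (nat_lit 0)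 (nat_lit 0) (XT.lf (nat_lit 76) (nat_lit 1602775957) (nat_lit 0) (nat_lit 30434350449) (nat_lit 1140) (nat_lit 8291181458) (nat_lit 156) (nat_lit 5) (nat_lit 155) (nat_lit 5) (nat_lit 170) (nat_lit 5) (nat_lit 342) (nat_lit 332) (nat_lit 106)) (XT.lf (nat_lit 76) (nat_lit 19348548409) (nat_lit 0) (nat_lit 14744412880) (nat_lit 1140) (nat_lit 6883792794) (nat_lit 156) (nat_lit 5) (nat_lit 155) (nat_lit 5) (nat_lit 170) (nat_lit 5) (nat_lit 343) (nat_lit 332) (nat_lit 105))) (XT.nd (nat_lit 78) (nat_lit 0) (nat_lit 0) (XT.lf (nat_lit 0) (nat_lit 36222633203) (nat_lit 1064) (nat_lit 4032662674) (nat_lit 1140) (nat_lit 1388996457) (nat_lit 156) (nat_lit 5) (nat_lit 170) (nat_lit 5) (nat_lit 171) (nat_lit 5) (nat_lit 344) (nat_lit 332) (nat_lit 104)) (XT.nd (nat_lit 78) (nat_lit 0) (nat_lit 0) (XT.lf (nat_lit 76) (nat_lit 14221211705) (nat_lit 0) (nat_lit 24476261507) (nat_lit 1140) (nat_lit 3625948586)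 (nat_lit 157) (nat_lit 5) (nat_lit 156) (nat_lit 5) (nat_lit 171) (nat_lit 5) (nat_lit 345) (nat_lit 332) (nat_lit 103)) (XT.lf (nat_lit 76) (nat_lit 33104320629) (nat_lit 0) (nat_lit 8181581425) (nat_lit 1140) (nat_lit 1735846087) (nat_lit 157) (nat_lit 5) (nat_lit 156) (nat_lit 5) (nat_lit 171) (nat_lit 5) (nat_lit 346) (nat_lit 332) (nat_lit 102))))) (XT.nd (nat_lit 234) (nat_lit 608) (nat_lit 0) (XT.nd (nat_lit 78) (nat_lit 0) (nat_lit 0) (XT.lf (nat_lit 0) (nat_lit 375424419) (nat_lit 1140) (nat_lit 34836824807) (nat_lit 1216) (nat_lit 8523659882) (nat_lit 142) (nat_lit 5) (nat_lit 157) (nat_lit 5) (nat_lit 158) (nat_lit 5) (nat_lit 347) (nat_lit 332) (nat_lit 101)) (XT.nd (nat_lit 78) (nat_lit 0) (nat_lit 0) (XT.lf (nat_lit 0) (nat_lit 2695965793) (nat_lit 1140) (nat_lit 16085367572) (nat_lit 1216) (nat_lit 25684224318) (nat_lit 142) (nat_lit 5) (nat_lit 157) (nat_lit 5) (nat_lit 158)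 (nat_lit 5) (nat_lit 348) (nat_lit 332) (nat_lit 100)) (XT.lf (nat_lit 76) (nat_lit 3291817948) (nat_lit 0) (nat_lit 1824664602) (nat_lit 1216) (nat_lit 40099705328) (nat_lit 143) (nat_lit 5) (nat_lit 142) (nat_lit 5) (nat_lit 158) (nat_lit 5) (nat_lit 349) (nat_lit 332) (nat_lit 99)))) (XT.nd (nat_lit 78) (nat_lit 684) (nat_lit 0) (XT.lf (nat_lit 0) (nat_lit 7922747371) (nat_lit 1140) (nat_lit 22557449974) (nat_lit 76) (nat_lit 15499748507) (nat_lit 143) (nat_lit 5) (nat_lit 158) (nat_lit 5) (nat_lit 144) (nat_lit 5) (nat_lit 350) (nat_lit 332) (nat_lit 98)) (XT.nd (nat_lit 78) (nat_lit 684) (nat_lit 0) (XT.lf (nat_lit 0) (nat_lit 10830048301) (nat_lit 1140) (nat_lit 2628639837) (nat_lit 76) (nat_lit 33307425749) (nat_lit 143) (nat_lit 5) (nat_lit 158) (nat_lit 5) (nat_lit 144) (nat_lit 5) (nat_lit 351) (nat_lit 332) (nat_lit 97)) (XT.lf (nat_lit 0) (nat_lit 14039742269) (nat_lit 760) (nat_lit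 29358337271) (nat_lit 76) (nat_lit 4171334890) (nat_lit 134) (nat_lit 5) (nat_lit 144) (nat_lit 5) (nat_lit 135) (nat_lit 5) (nat_lit 352) (nat_lit 332) (nat_lit 96)))))) (XT.nd (nat_lit 468) (nat_lit 532) (nat_lit 0) (XT.nd (nat_lit 234) (nat_lit 988) (nat_lit 0) (XT.nd (nat_lit 78) (nat_lit 532) (nat_lit 0) (XT.lf (nat_lit 0) (nat_lit 17504632097) (nat_lit 760) (nat_lit 8800714159) (nat_lit 76) (nat_lit 22086703189) (nat_lit 134) (nat_lit 5) (nat_lit 144) (nat_lit 5) (nat_lit 135) (nat_lit 5) (nat_lit 353) (nat_lit 332) (nat_lit 95)) (XT.nd (nat_lit 78) (nat_lit 0) (nat_lit 0) (XT.lf (nat_lit 0) (nat_lit 12618858037) (nat_lit 532) (nat_lit 8574788224) (nat_lit 608) (nat_lit 28042114454) (nat_lit 127) (nat_lit 5) (nat_lit 134) (nat_lit 5) (nat_lit 135) (nat_lit 5) (nat_lit 354) (nat_lit 332) (nat_lit 94)) (XT.lf (nat_lit 0) (nat_lit 25175106003) (nat_lit 608) (nat_lit 15335742988) (nat_lit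 76) (nat_lit 9588483536) (nat_lit 127) (nat_lit 5) (nat_lit 135) (nat_lit 5) (nat_lit 128) (nat_lit 5) (nat_lit 355) (nat_lit 332) (nat_lit 93)))) (XT.nd (nat_lit 78) (nat_lit 456) (nat_lit 0) (XT.lf (nat_lit 0) (nat_lit 6627259443) (nat_lit 532) (nat_lit 22796287585) (nat_lit 608) (nat_lit 21560840728) (nat_lit 120) (nat_lit 5) (nat_lit 127) (nat_lit 5) (nat_lit 128) (nat_lit 5) (nat_lit 356) (nat_lit 332) (nat_lit 92)) (XT.nd (nat_lit 78) (nat_lit 456) (nat_lit 0) (XT.lf (nat_lit 0) (nat_lit 29562514735) (nat_lit 532) (nat_lit 4390742217) (nat_lit 608) (nat_lit 17938125538) (nat_lit 120) (nat_lit 5) (nat_lit 127) (nat_lit 5) (nat_lit 128) (nat_lit 5) (nat_lit 357) (nat_lit 332) (nat_lit 91)) (XT.lf (nat_lit 0) (nat_lit 223567901) (nat_lit 456) (nat_lit 38536451521) (nat_lit 532) (nat_lit 14061335055) (nat_lit 114) (nat_lit 5) (nat_lit 120) (nat_lit 5) (nat_lit 121) (nat_lit 5) (nat_lit 358)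 (nat_lit 332) (nat_lit 90))))) (XT.nd (nat_lit 38610) (nat_lit 0) (nat_lit 3344) (XT.nd (nat_lit 78) (nat_lit 532) (nat_lit 0) (XT.lf (nat_lit 0) (nat_lit 23864959817) (nat_lit 456) (nat_lit 20113554726) (nat_lit 532) (nat_lit 9792687373) (nat_lit 114) (nat_lit 5) (nat_lit 120) (nat_lit 5) (nat_lit 121) (nat_lit 5) (nat_lit 359) (nat_lit 332) (nat_lit 89)) (XT.nd (nat_lit 156) (nat_lit 532) (nat_lit 0) (XT.lf (nat_lit 0) (nat_lit 48214623760) (nat_lit 456) (nat_lit 1137975224) (nat_lit 532) (nat_lit 5396976881) (nat_lit 114) (nat_lit 5) (nat_lit 120) (nat_lit 5) (nat_lit 121) (nat_lit 5) (nat_lit 360) (nat_lit 332) (nat_lit 88)) (XT.lf (nat_lit 0) (nat_lit 4506684288) (nat_lit 532) (nat_lit 14022305783) (nat_lit 76) (nat_lit 38241578621) (nat_lit 107) (nat_lit 5) (nat_lit 114) (nat_lit 5) (nat_lit 108) (nat_lit 5) (nat_lit 362) (nat_lit 332) (nat_lit 86)))) (XT.nd (nat_lit 78) (nat_lit 0) (nat_lit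 0) (XT.lf (nat_lit 0) (nat_lit 10975995526) (nat_lit 1140) (nat_lit 3419577946) (nat_lit 1140) (nat_lit 3419577946) (nat_lit 151) (nat_lit 3) (nat_lit 166) (nat_lit 3) (nat_lit 166) (nat_lit 5) (nat_lit 333) (nat_lit 333) (nat_lit 114)) (XT.nd (nat_lit 78) (nat_lit 0) (nat_lit 76) (XT.lf (nat_lit 76) (nat_lit 8116781132) (nat_lit 0) (nat_lit 14289093237) (nat_lit 1140) (nat_lit 13755031123) (nat_lit 152) (nat_lit 5) (nat_lit 151) (nat_lit 3) (nat_lit 166) (nat_lit 5) (nat_lit 334) (nat_lit 333) (nat_lit 113)) (XT.lf (nat_lit 0) (nat_lit 22947530495) (nat_lit 1064) (nat_lit 13051699798) (nat_lit 1140) (nat_lit 705975685) (nat_lit 152) (nat_lit 5) (nat_lit 166) (nat_lit 5) (nat_lit 167) (nat_lit 5) (nat_lit 335) (nat_lit 333) (nat_lit 112))))))))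
noncomputable def xc251 : XT := (XT.nd (nat_lit 1716) (nat_lit 456) (nat_lit 0) (XT.nd (nat_lit 858) (nat_lit 2432) (nat_lit 0) (XT.nd (nat_lit 390) (nat_lit 0) (nat_lit 152) (XT.nd (nat_lit 156) (nat_lit 0) (nat_lit 76) (XT.nd (nat_lit 78) (nat_lit 0) (nat_lit 0) (XT.lf (nat_lit 76) (nat_lit 2292766586) (nat_lit 0) (nat_lit 21374419611) (nat_lit 1140) (nat_lit 13593801095) (nat_lit 153) (nat_lit 5) (nat_lit 152) (nat_lit 5) (nat_lit 167) (nat_lit 5) (nat_lit 336) (nat_lit 333) (nat_lit 111)) (XT.lf (nat_lit 76) (nat_lit 18364128888) (nat_lit 0) (nat_lit 6174375468) (nat_lit 1140) (nat_lit 13291039693) (nat_lit 153) (nat_lit 5) (nat_lit 152) (nat_lit 5) (nat_lit 167) (nat_lit 5) (nat_lit 337) (nat_lit 333) (nat_lit 110))) (XT.nd (nat_lit 78) (nat_lit 0) (nat_lit 0) (XT.lf (nat_lit 0) (nat_lit 25525438983) (nat_lit 1064) (nat_lit 3589686660) (nat_lit 1140) (nat_lit 9297351623) (nat_lit 153) (nat_lit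 5) (nat_lit 167) (nat_lit 5) (nat_lit 168) (nat_lit 5) (nat_lit 338) (nat_lit 333) (nat_lit 109)) (XT.nd (nat_lit 78) (nat_lit 0) (nat_lit 76) (XT.lf (nat_lit 76) (nat_lit 12952952058) (nat_lit 0) (nat_lit 13773055573) (nat_lit 1140) (nat_lit 12281374013) (nat_lit 154) (nat_lit 5) (nat_lit 153) (nat_lit 5) (nat_lit 168) (nat_lit 5) (nat_lit 339) (nat_lit 333) (nat_lit 108)) (XT.lf (nat_lit 0) (nat_lit 28017133052) (nat_lit 1064) (nat_lit 9574491545) (nat_lit 1140) (nat_lit 2026876196) (nat_lit 154) (nat_lit 5) (nat_lit 168) (nat_lit 5) (nat_lit 169) (nat_lit 5) (nat_lit 340) (nat_lit 333) (nat_lit 107))))) (XT.nd (nat_lit 234) (nat_lit 0) (nat_lit 76) (XT.nd (nat_lit 78) (nat_lit 0) (nat_lit 0) (XT.lf (nat_lit 76) (nat_lit 7407010046) (nat_lit 0) (nat_lit 22146021019) (nat_lit 1140) (nat_lit 10688745005) (nat_lit 155) (nat_lit 5) (nat_lit 154) (nat_lit 5) (nat_lit 169) (nat_lit 5) (nat_lit 341)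 (nat_lit 333) (nat_lit 106)) (XT.nd (nat_lit 78) (nat_lit 0) (nat_lit 76) (XT.lf (nat_lit 76) (nat_lit 25093229080) (nat_lit 0) (nat_lit 6136966721) (nat_lit 1140) (nat_lit 9650701721) (nat_lit 155) (nat_lit 5) (nat_lit 154) (nat_lit 5) (nat_lit 169) (nat_lit 5) (nat_lit 342) (nat_lit 333) (nat_lit 105)) (XT.lf (nat_lit 76) (nat_lit 1703553346) (nat_lit 0) (nat_lit 31368565294) (nat_lit 1140) (nat_lit 8463644189) (nat_lit 156) (nat_lit 5) (nat_lit 155) (nat_lit 5) (nat_lit 170) (nat_lit 5) (nat_lit 343) (nat_lit 333) (nat_lit 104)))) (XT.nd (nat_lit 78) (nat_lit 0) (nat_lit 76) (XT.lf (nat_lit 76) (nat_lit 19980164191) (nat_lit 0) (nat_lit 15207312579) (nat_lit 1140) (nat_lit 7016255401) (nat_lit 156) (nat_lit 5) (nat_lit 155) (nat_lit 5) (nat_lit 170) (nat_lit 5) (nat_lit 344) (nat_lit 333) (nat_lit 103)) (XT.nd (nat_lit 78) (nat_lit 0) (nat_lit 0) (XT.lf (nat_lit 0) (nat_lit 37378757769) (nat_lit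 1064) (nat_lit 4101524524) (nat_lit 1140) (nat_lit 1411087739) (nat_lit 156) (nat_lit 5) (nat_lit 170) (nat_lit 5) (nat_lit 171) (nat_lit 5) (nat_lit 345) (nat_lit 333) (nat_lit 102)) (XT.lf (nat_lit 76) (nat_lit 14699455125) (nat_lit 0) (nat_lit 25226861246) (nat_lit 1140) (nat_lit 3664607692) (nat_lit 157) (nat_lit 5) (nat_lit 156) (nat_lit 5) (nat_lit 171) (nat_lit 5) (nat_lit 346) (nat_lit 333) (nat_lit 101)))))) (XT.nd (nat_lit 390) (nat_lit 1672) (nat_lit 0) (XT.nd (nat_lit 156) (nat_lit 0) (nat_lit 0) (XT.nd (nat_lit 78) (nat_lit 1064) (nat_lit 0) (XT.lf (nat_lit 76) (nat_lit 34147554198) (nat_lit 0) (nat_lit 8442865658) (nat_lit 1140) (nat_lit 1719844430) (nat_lit 157) (nat_lit 5) (nat_lit 156) (nat_lit 5) (nat_lit 171) (nat_lit 5) (nat_lit 347) (nat_lit 333) (nat_lit 100)) (XT.lf (nat_lit 0) (nat_lit 451845995) (nat_lit 1140) (nat_lit 35828604929) (nat_lit 1216) (nat_lit 8765431689)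 (nat_lit 142) (nat_lit 5) (nat_lit 157) (nat_lit 5) (nat_lit 158) (nat_lit 5) (nat_lit 348) (nat_lit 333) (nat_lit 99))) (XT.nd (nat_lit 78) (nat_lit 0) (nat_lit 0) (XT.lf (nat_lit 0) (nat_lit 2840105779) (nat_lit 1140) (nat_lit 16516157121) (nat_lit 1216) (nat_lit 26441219020) (nat_lit 142) (nat_lit 5) (nat_lit 157) (nat_lit 5) (nat_lit 158) (nat_lit 5) (nat_lit 349) (nat_lit 333) (nat_lit 98)) (XT.nd (nat_lit 78) (nat_lit 0) (nat_lit 76) (XT.lf (nat_lit 76) (nat_lit 3441836402) (nat_lit 0) (nat_lit 1890051864) (nat_lit 1216) (nat_lit 41238787461) (nat_lit 143) (nat_lit 5) (nat_lit 142) (nat_lit 5) (nat_lit 158) (nat_lit 5) (nat_lit 350) (nat_lit 333) (nat_lit 97)) (XT.lf (nat_lit 0) (nat_lit 8220438424) (nat_lit 1140) (nat_lit 23182363715) (nat_lit 76) (nat_lit 15954605471) (nat_lit 143) (nat_lit 5) (nat_lit 158) (nat_lit 5) (nat_lit 144) (nat_lit 5) (nat_lit 351) (nat_lit 333) (nat_lit 96)))))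 (XT.nd (nat_lit 234) (nat_lit 1064) (nat_lit 0) (XT.nd (nat_lit 78) (nat_lit 684) (nat_lit 0) (XT.lf (nat_lit 0) (nat_lit 11213210557) (nat_lit 1140) (nat_lit 2657198296) (nat_lit 76) (nat_lit 34296808238) (nat_lit 143) (nat_lit 5) (nat_lit 158) (nat_lit 5) (nat_lit 144) (nat_lit 5) (nat_lit 352) (nat_lit 333) (nat_lit 95)) (XT.nd (nat_lit 78) (nat_lit 0) (nat_lit 0) (XT.lf (nat_lit 0) (nat_lit 14517907660) (nat_lit 760) (nat_lit 30187370438) (nat_lit 76) (nat_lit 4289381039) (nat_lit 134) (nat_lit 5) (nat_lit 144) (nat_lit 5) (nat_lit 135) (nat_lit 5) (nat_lit 353) (nat_lit 333) (nat_lit 94)) (XT.lf (nat_lit 0) (nat_lit 18085084772) (nat_lit 760) (nat_lit 9014524952) (nat_lit 76) (nat_lit 22742417006) (nat_lit 134) (nat_lit 5) (nat_lit 144) (nat_lit 5) (nat_lit 135) (nat_lit 5) (nat_lit 354) (nat_lit 333) (nat_lit 93)))) (XT.nd (nat_lit 78) (nat_lit 532) (nat_lit 0) (XT.lf (nat_lit 0) (nat_lit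 13047142149) (nat_lit 532) (nat_lit 8836494057) (nat_lit 608) (nat_lit 28827450761) (nat_lit 127) (nat_lit 5) (nat_lit 134) (nat_lit 5) (nat_lit 135) (nat_lit 5) (nat_lit 355) (nat_lit 333) (nat_lit 92)) (XT.nd (nat_lit 78) (nat_lit 532) (nat_lit 0) (XT.lf (nat_lit 0) (nat_lit 25982920022) (nat_lit 608) (nat_lit 15745807672) (nat_lit 76) (nat_lit 9871890360) (nat_lit 127) (nat_lit 5) (nat_lit 135) (nat_lit 5) (nat_lit 128) (nat_lit 5) (nat_lit 356) (nat_lit 333) (nat_lit 91)) (XT.lf (nat_lit 0) (nat_lit 6875594562) (nat_lit 532) (nat_lit 23482164808) (nat_lit 608) (nat_lit 22154500643) (nat_lit 120) (nat_lit 5) (nat_lit 127) (nat_lit 5) (nat_lit 128) (nat_lit 5) (nat_lit 357) (nat_lit 333) (nat_lit 90))))))) (XT.nd (nat_lit 39390) (nat_lit 0) (nat_lit 2128) (XT.nd (nat_lit 38922) (nat_lit 0) (nat_lit 2888) (XT.nd (nat_lit 234) (nat_lit 0) (nat_lit 0) (XT.nd (nat_lit 78) (nat_lit 456) (nat_lit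 0) (XT.lf (nat_lit 0) (nat_lit 30497465260) (nat_lit 532) (nat_lit 4524395159) (nat_lit 608) (nat_lit 18424652500) (nat_lit 120) (nat_lit 5) (nat_lit 127) (nat_lit 5) (nat_lit 128) (nat_lit 5) (nat_lit 358) (nat_lit 333) (nat_lit 89)) (XT.lf (nat_lit 0) (nat_lit 279492324) (nat_lit 456) (nat_lit 39692332050) (nat_lit 532) (nat_lit 14432592963) (nat_lit 114) (nat_lit 5) (nat_lit 120) (nat_lit 5) (nat_lit 121) (nat_lit 5) (nat_lit 359) (nat_lit 333) (nat_lit 88))) (XT.nd (nat_lit 38532) (nat_lit 0) (nat_lit 2812) (XT.lf (nat_lit 0) (nat_lit 49707454579) (nat_lit 456) (nat_lit 1171913692) (nat_lit 532) (nat_lit 5511207666) (nat_lit 114) (nat_lit 5) (nat_lit 120) (nat_lit 5) (nat_lit 121) (nat_lit 5) (nat_lit 361) (nat_lit 333) (nat_lit 86)) (XT.nd (nat_lit 78) (nat_lit 0) (nat_lit 0) (XT.lf (nat_lit 0) (nat_lit 11351407623) (nat_lit 1140) (nat_lit 3498350840) (nat_lit 1140) (nat_lit 3498350840)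 (nat_lit 151) (nat_lit 3) (nat_lit 166) (nat_lit 3) (nat_lit 166) (nat_lit 5) (nat_lit 334) (nat_lit 334) (nat_lit 112)) (XT.lf (nat_lit 76) (nat_lit 8407446505) (nat_lit 0) (nat_lit 14760634593) (nat_lit 1140) (nat_lit 14074731828) (nat_lit 152) (nat_lit 5) (nat_lit 151) (nat_lit 3) (nat_lit 166) (nat_lit 5) (nat_lit 335) (nat_lit 334) (nat_lit 111))))) (XT.nd (nat_lit 234) (nat_lit 0) (nat_lit 76) (XT.nd (nat_lit 78) (nat_lit 0) (nat_lit 0) (XT.lf (nat_lit 0) (nat_lit 23722964583) (nat_lit 1064) (nat_lit 13394227735) (nat_lit 1140) (nat_lit 686347151) (nat_lit 152) (nat_lit 5) (nat_lit 166) (nat_lit 5) (nat_lit 167) (nat_lit 5) (nat_lit 336) (nat_lit 334) (nat_lit 110)) (XT.nd (nat_lit 78) (nat_lit 0) (nat_lit 0) (XT.lf (nat_lit 76) (nat_lit 2410092023) (nat_lit 0) (nat_lit 22052050336) (nat_lit 1140) (nat_lit 13913920081) (nat_lit 153) (nat_lit 5) (nat_lit 152) (nat_lit 5) (nat_lit 167) (nat_lit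 5) (nat_lit 337) (nat_lit 334) (nat_lit 109)) (XT.lf (nat_lit 76) (nat_lit 18962181336) (nat_lit 0) (nat_lit 6394944728) (nat_lit 1140) (nat_lit 13604630062) (nat_lit 153) (nat_lit 5) (nat_lit 152) (nat_lit 5) (nat_lit 167) (nat_lit 5) (nat_lit 338) (nat_lit 334) (nat_lit 108)))) (XT.nd (nat_lit 78) (nat_lit 0) (nat_lit 0) (XT.lf (nat_lit 0) (nat_lit 26370936994) (nat_lit 1064) (nat_lit 3648695204) (nat_lit 1140) (nat_lit 9542632925) (nat_lit 153) (nat_lit 5) (nat_lit 167) (nat_lit 5) (nat_lit 168) (nat_lit 5) (nat_lit 339) (nat_lit 334) (nat_lit 107)) (XT.nd (nat_lit 78) (nat_lit 0) (nat_lit 76) (XT.lf (nat_lit 76) (nat_lit 13389745400) (nat_lit 0) (nat_lit 14215918301) (nat_lit 1140) (nat_lit 12569414364) (nat_lit 154) (nat_lit 5) (nat_lit 153) (nat_lit 5) (nat_lit 168) (nat_lit 5) (nat_lit 340) (nat_lit 334) (nat_lit 106)) (XT.lf (nat_lit 0) (nat_lit 28932977747) (nat_lit 1064) (nat_lit 9812197141)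 (nat_lit 1140) (nat_lit 2059437752) (nat_lit 154) (nat_lit 5) (nat_lit 168) (nat_lit 5) (nat_lit 169) (nat_lit 5) (nat_lit 341) (nat_lit 334) (nat_lit 105)))))) (XT.nd (nat_lit 468) (nat_lit 912) (nat_lit 0) (XT.nd (nat_lit 234) (nat_lit 0) (nat_lit 76) (XT.nd (nat_lit 78) (nat_lit 0) (nat_lit 0) (XT.lf (nat_lit 76) (nat_lit 7678263917) (nat_lit 0) (nat_lit 22834966122) (nat_lit 1140) (nat_lit 10933413154) (nat_lit 155) (nat_lit 5) (nat_lit 154) (nat_lit 5) (nat_lit 169) (nat_lit 5) (nat_lit 342) (nat_lit 334) (nat_lit 104)) (XT.nd (nat_lit 78) (nat_lit 0) (nat_lit 76) (XT.lf (nat_lit 76) (nat_lit 25893641070) (nat_lit 0) (nat_lit 6344924725) (nat_lit 1140) (nat_lit 9866441994) (nat_lit 155) (nat_lit 5) (nat_lit 154) (nat_lit 5) (nat_lit 169) (nat_lit 5) (nat_lit 343) (nat_lit 334) (nat_lit 103)) (XT.lf (nat_lit 76) (nat_lit 1804329199) (nat_lit 0) (nat_lit 32329590518) (nat_lit 1140) (nat_lit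 8645659167) (nat_lit 156) (nat_lit 5) (nat_lit 155) (nat_lit 5) (nat_lit 170) (nat_lit 5) (nat_lit 344) (nat_lit 334) (nat_lit 102)))) (XT.nd (nat_lit 78) (nat_lit 0) (nat_lit 76) (XT.lf (nat_lit 76) (nat_lit 20627791692) (nat_lit 0) (nat_lit 15682918621) (nat_lit 1140) (nat_lit 7156942726) (nat_lit 156) (nat_lit 5) (nat_lit 155) (nat_lit 5) (nat_lit 170) (nat_lit 5) (nat_lit 345) (nat_lit 334) (nat_lit 101)) (XT.nd (nat_lit 78) (nat_lit 0) (nat_lit 0) (XT.lf (nat_lit 0) (nat_lit 38565579612) (nat_lit 1064) (nat_lit 4175444019) (nat_lit 1140) (nat_lit 1434965652) (nat_lit 156) (nat_lit 5) (nat_lit 170) (nat_lit 5) (nat_lit 171) (nat_lit 5) (nat_lit 346) (nat_lit 334) (nat_lit 100)) (XT.lf (nat_lit 76) (nat_lit 15189083390) (nat_lit 0) (nat_lit 25999042607) (nat_lit 1140) (nat_lit 3708451710) (nat_lit 157) (nat_lit 5) (nat_lit 156) (nat_lit 5) (nat_lit 171) (nat_lit 5) (nat_lit 347) (nat_lit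 334) (nat_lit 99))))) (XT.nd (nat_lit 234) (nat_lit 0) (nat_lit 0) (XT.nd (nat_lit 78) (nat_lit 1064) (nat_lit 0) (XT.lf (nat_lit 76) (nat_lit 35219208603) (nat_lit 0) (nat_lit 8711079321) (nat_lit 1140) (nat_lit 1707270624) (nat_lit 157) (nat_lit 5) (nat_lit 156) (nat_lit 5) (nat_lit 171) (nat_lit 5) (nat_lit 348) (nat_lit 334) (nat_lit 98)) (XT.nd (nat_lit 78) (nat_lit 0) (nat_lit 0) (XT.lf (nat_lit 0) (nat_lit 526819834) (nat_lit 1140) (nat_lit 36853199505) (nat_lit 1216) (nat_lit 9015256748) (nat_lit 142) (nat_lit 5) (nat_lit 157) (nat_lit 5) (nat_lit 158) (nat_lit 5) (nat_lit 349) (nat_lit 334) (nat_lit 97)) (XT.lf (nat_lit 0) (nat_lit 2984938525) (nat_lit 1140) (nat_lit 16962842251) (nat_lit 1216) (nat_lit 27221700356) (nat_lit 142) (nat_lit 5) (nat_lit 157) (nat_lit 5) (nat_lit 158) (nat_lit 5) (nat_lit 350) (nat_lit 334) (nat_lit 96)))) (XT.nd (nat_lit 78) (nat_lit 0) (nat_lit 76) (XT.lf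 (nat_lit 76) (nat_lit 3593412650) (nat_lit 0) (nat_lit 1956789545) (nat_lit 1216) (nat_lit 42415710698) (nat_lit 143) (nat_lit 5) (nat_lit 142) (nat_lit 5) (nat_lit 158) (nat_lit 5) (nat_lit 351) (nat_lit 334) (nat_lit 95)) (XT.nd (nat_lit 78) (nat_lit 0) (nat_lit 0) (XT.lf (nat_lit 0) (nat_lit 8523615467) (nat_lit 1140) (nat_lit 23828998961) (nat_lit 76) (nat_lit 16423689962) (nat_lit 143) (nat_lit 5) (nat_lit 158) (nat_lit 5) (nat_lit 144) (nat_lit 5) (nat_lit 352) (nat_lit 334) (nat_lit 94)) (XT.lf (nat_lit 0) (nat_lit 11604523273) (nat_lit 1140) (nat_lit 2689500977) (nat_lit 76) (nat_lit 35316437075) (nat_lit 143) (nat_lit 5) (nat_lit 158) (nat_lit 5) (nat_lit 144) (nat_lit 5) (nat_lit 353) (nat_lit 334) (nat_lit 93))))))))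
noncomputable def xc252 : XT := (XT.nd (nat_lit 40404) (nat_lit 0) (nat_lit 0) (XT.nd (nat_lit 39546) (nat_lit 0) (nat_lit 1672) (XT.nd (nat_lit 390) (nat_lit 0) (nat_lit 0) (XT.nd (nat_lit 156) (nat_lit 1064) (nat_lit 0) (XT.nd (nat_lit 78) (nat_lit 0) (nat_lit 0) (XT.lf (nat_lit 0) (nat_lit 15007147524) (nat_lit 760) (nat_lit 31044243365) (nat_lit 76) (nat_lit 4411375791) (nat_lit 134) (nat_lit 5) (nat_lit 144) (nat_lit 5) (nat_lit 135) (nat_lit 5) (nat_lit 354) (nat_lit 334) (nat_lit 92)) (XT.lf (nat_lit 0) (nat_lit 18679775794) (nat_lit 760) (nat_lit 9237632365) (nat_lit 76) (nat_lit 23418197594) (nat_lit 134) (nat_lit 5) (nat_lit 144) (nat_lit 5) (nat_lit 135) (nat_lit 5) (nat_lit 355) (nat_lit 334) (nat_lit 91))) (XT.nd (nat_lit 78) (nat_lit 532) (nat_lit 0) (XT.lf (nat_lit 0) (nat_lit 13485420746) (nat_lit 532) (nat_lit 9105794917) (nat_lit 608) (nat_lit 29639557603) (nat_lit 127) (nat_lit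 5) (nat_lit 134) (nat_lit 5) (nat_lit 135) (nat_lit 5) (nat_lit 356) (nat_lit 334) (nat_lit 90)) (XT.nd (nat_lit 78) (nat_lit 532) (nat_lit 0) (XT.lf (nat_lit 0) (nat_lit 26811951254) (nat_lit 608) (nat_lit 16171044937) (nat_lit 76) (nat_lit 10164043223) (nat_lit 127) (nat_lit 5) (nat_lit 135) (nat_lit 5) (nat_lit 128) (nat_lit 5) (nat_lit 357) (nat_lit 334) (nat_lit 89)) (XT.lf (nat_lit 0) (nat_lit 7128537236) (nat_lit 532) (nat_lit 24188504195) (nat_lit 608) (nat_lit 22769022261) (nat_lit 120) (nat_lit 5) (nat_lit 127) (nat_lit 5) (nat_lit 128) (nat_lit 5) (nat_lit 358) (nat_lit 334) (nat_lit 88))))) (XT.nd (nat_lit 38922) (nat_lit 0) (nat_lit 2432) (XT.nd (nat_lit 38766) (nat_lit 0) (nat_lit 2356) (XT.lf (nat_lit 0) (nat_lit 31457704594) (nat_lit 532) (nat_lit 4661946860) (nat_lit 608) (nat_lit 18928738288) (nat_lit 120) (nat_lit 5) (nat_lit 127) (nat_lit 5) (nat_lit 128) (nat_lit 5) (nat_lit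 359) (nat_lit 334) (nat_lit 87)) (XT.nd (nat_lit 78) (nat_lit 0) (nat_lit 0) (XT.lf (nat_lit 0) (nat_lit 11735433904) (nat_lit 1140) (nat_lit 3580853968) (nat_lit 1140) (nat_lit 3580853968) (nat_lit 151) (nat_lit 3) (nat_lit 166) (nat_lit 3) (nat_lit 166) (nat_lit 5) (nat_lit 335) (nat_lit 335) (nat_lit 110)) (XT.lf (nat_lit 76) (nat_lit 8704124550) (nat_lit 0) (nat_lit 15243861359) (nat_lit 1140) (nat_lit 14409359277) (nat_lit 152) (nat_lit 5) (nat_lit 151) (nat_lit 3) (nat_lit 166) (nat_lit 5) (nat_lit 336) (nat_lit 335) (nat_lit 109)))) (XT.nd (nat_lit 78) (nat_lit 0) (nat_lit 0) (XT.lf (nat_lit 0) (nat_lit 24516667069) (nat_lit 1064) (nat_lit 13749845634) (nat_lit 1140) (nat_lit 668472296) (nat_lit 152) (nat_lit 5) (nat_lit 166) (nat_lit 5) (nat_lit 167) (nat_lit 5) (nat_lit 337) (nat_lit 335) (nat_lit 108)) (XT.nd (nat_lit 78) (nat_lit 0) (nat_lit 0) (XT.lf (nat_lit 76) (nat_lit 2528150688)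 (nat_lit 0) (nat_lit 22747920579) (nat_lit 1140) (nat_lit 14248676691) (nat_lit 153) (nat_lit 5) (nat_lit 152) (nat_lit 5) (nat_lit 167) (nat_lit 5) (nat_lit 338) (nat_lit 335) (nat_lit 107)) (XT.lf (nat_lit 76) (nat_lit 19575469984) (nat_lit 0) (nat_lit 6620102520) (nat_lit 1140) (nat_lit 13932515573) (nat_lit 153) (nat_lit 5) (nat_lit 152) (nat_lit 5) (nat_lit 167) (nat_lit 5) (nat_lit 339) (nat_lit 335) (nat_lit 106)))))) (XT.nd (nat_lit 390) (nat_lit 836) (nat_lit 0) (XT.nd (nat_lit 156) (nat_lit 0) (nat_lit 76) (XT.nd (nat_lit 78) (nat_lit 0) (nat_lit 0) (XT.lf (nat_lit 0) (nat_lit 27237222839) (nat_lit 1064) (nat_lit 3712268554) (nat_lit 1140) (nat_lit 9797203696) (nat_lit 153) (nat_lit 5) (nat_lit 167) (nat_lit 5) (nat_lit 168) (nat_lit 5) (nat_lit 340) (nat_lit 335) (nat_lit 105)) (XT.lf (nat_lit 76) (nat_lit 13836875391) (nat_lit 0) (nat_lit 14670363671) (nat_lit 1140) (nat_lit 12870711264)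 (nat_lit 154) (nat_lit 5) (nat_lit 153) (nat_lit 5) (nat_lit 168) (nat_lit 5) (nat_lit 341) (nat_lit 335) (nat_lit 104))) (XT.nd (nat_lit 78) (nat_lit 0) (nat_lit 0) (XT.lf (nat_lit 0) (nat_lit 29871973493) (nat_lit 1064) (nat_lit 10059877081) (nat_lit 1140) (nat_lit 2094597517) (nat_lit 154) (nat_lit 5) (nat_lit 168) (nat_lit 5) (nat_lit 169) (nat_lit 5) (nat_lit 342) (nat_lit 335) (nat_lit 103)) (XT.nd (nat_lit 78) (nat_lit 0) (nat_lit 0) (XT.lf (nat_lit 76) (nat_lit 7954840104) (nat_lit 0) (nat_lit 23543169476) (nat_lit 1140) (nat_lit 11189783725) (nat_lit 155) (nat_lit 5) (nat_lit 154) (nat_lit 5) (nat_lit 169) (nat_lit 5) (nat_lit 343) (nat_lit 335) (nat_lit 102)) (XT.lf (nat_lit 76) (nat_lit 26715332116) (nat_lit 0) (nat_lit 6557752438) (nat_lit 1140) (nat_lit 10092889794) (nat_lit 155) (nat_lit 5) (nat_lit 154) (nat_lit 5) (nat_lit 169) (nat_lit 5) (nat_lit 344) (nat_lit 335) (nat_lit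 101))))) (XT.nd (nat_lit 234) (nat_lit 988) (nat_lit 0) (XT.nd (nat_lit 78) (nat_lit 0) (nat_lit 0) (XT.lf (nat_lit 76) (nat_lit 1905277109) (nat_lit 0) (nat_lit 33318300238) (nat_lit 1140) (nat_lit 8837261625) (nat_lit 156) (nat_lit 5) (nat_lit 155) (nat_lit 5) (nat_lit 170) (nat_lit 5) (nat_lit 345) (nat_lit 335) (nat_lit 100)) (XT.nd (nat_lit 78) (nat_lit 0) (nat_lit 76) (XT.lf (nat_lit 76) (nat_lit 21292079845) (nat_lit 0) (nat_lit 16171679970) (nat_lit 1140) (nat_lit 7305857496) (nat_lit 156) (nat_lit 5) (nat_lit 155) (nat_lit 5) (nat_lit 170) (nat_lit 5) (nat_lit 346) (nat_lit 335) (nat_lit 99)) (XT.lf (nat_lit 0) (nat_lit 39784248490) (nat_lit 1064) (nat_lit 4254401145) (nat_lit 1140) (nat_lit 1460619278) (nat_lit 156) (nat_lit 5) (nat_lit 170) (nat_lit 5) (nat_lit 171) (nat_lit 5) (nat_lit 347) (nat_lit 335) (nat_lit 98)))) (XT.nd (nat_lit 78) (nat_lit 1064) (nat_lit 0) (XT.lf (nat_lit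 76) (nat_lit 15690608104) (nat_lit 0) (nat_lit 26793506792) (nat_lit 1140) (nat_lit 3757405127) (nat_lit 157) (nat_lit 5) (nat_lit 156) (nat_lit 5) (nat_lit 171) (nat_lit 5) (nat_lit 348) (nat_lit 335) (nat_lit 97)) (XT.nd (nat_lit 78) (nat_lit 1064) (nat_lit 0) (XT.lf (nat_lit 76) (nat_lit 36320301571) (nat_lit 0) (nat_lit 8986482483) (nat_lit 1140) (nat_lit 1698003175) (nat_lit 157) (nat_lit 5) (nat_lit 156) (nat_lit 5) (nat_lit 171) (nat_lit 5) (nat_lit 349) (nat_lit 335) (nat_lit 96)) (XT.lf (nat_lit 0) (nat_lit 600517217) (nat_lit 1140) (nat_lit 37911417254) (nat_lit 1216) (nat_lit 9273330728) (nat_lit 142) (nat_lit 5) (nat_lit 157) (nat_lit 5) (nat_lit 158) (nat_lit 5) (nat_lit 350) (nat_lit 335) (nat_lit 95))))))) (XT.nd (nat_lit 39624) (nat_lit 0) (nat_lit 2432) (XT.nd (nat_lit 390) (nat_lit 1064) (nat_lit 0) (XT.nd (nat_lit 156) (nat_lit 608) (nat_lit 0) (XT.nd (nat_lit 78) (nat_lit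 0) (nat_lit 0) (XT.lf (nat_lit 0) (nat_lit 3130693271) (nat_lit 1140) (nat_lit 17425729231) (nat_lit 1216) (nat_lit 28026328335) (nat_lit 142) (nat_lit 5) (nat_lit 157) (nat_lit 5) (nat_lit 158) (nat_lit 5) (nat_lit 351) (nat_lit 335) (nat_lit 94)) (XT.lf (nat_lit 76) (nat_lit 3746762354) (nat_lit 0) (nat_lit 2024953241) (nat_lit 1216) (nat_lit 43631399677) (nat_lit 143) (nat_lit 5) (nat_lit 142) (nat_lit 5) (nat_lit 158) (nat_lit 5) (nat_lit 352) (nat_lit 335) (nat_lit 93))) (XT.nd (nat_lit 78) (nat_lit 684) (nat_lit 0) (XT.lf (nat_lit 0) (nat_lit 8832640823) (nat_lit 1140) (nat_lit 24497836631) (nat_lit 76) (nat_lit 16907395407) (nat_lit 143) (nat_lit 5) (nat_lit 158) (nat_lit 5) (nat_lit 144) (nat_lit 5) (nat_lit 353) (nat_lit 335) (nat_lit 92)) (XT.nd (nat_lit 78) (nat_lit 684) (nat_lit 0) (XT.lf (nat_lit 0) (nat_lit 12004422944) (nat_lit 1140) (nat_lit 2725494454) (nat_lit 76) (nat_lit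 36367187223) (nat_lit 143) (nat_lit 5) (nat_lit 158) (nat_lit 5) (nat_lit 144) (nat_lit 5) (nat_lit 354) (nat_lit 335) (nat_lit 91)) (XT.lf (nat_lit 0) (nat_lit 15507981832) (nat_lit 760) (nat_lit 31929620825) (nat_lit 76) (nat_lit 4537414228) (nat_lit 134) (nat_lit 5) (nat_lit 144) (nat_lit 5) (nat_lit 135) (nat_lit 5) (nat_lit 355) (nat_lit 335) (nat_lit 90))))) (XT.nd (nat_lit 312) (nat_lit 532) (nat_lit 0) (XT.nd (nat_lit 78) (nat_lit 532) (nat_lit 0) (XT.lf (nat_lit 0) (nat_lit 19289314585) (nat_lit 760) (nat_lit 9470149839) (nat_lit 76) (nat_lit 24114624263) (nat_lit 134) (nat_lit 5) (nat_lit 144) (nat_lit 5) (nat_lit 135) (nat_lit 5) (nat_lit 356) (nat_lit 335) (nat_lit 89)) (XT.nd (nat_lit 78) (nat_lit 0) (nat_lit 0) (XT.lf (nat_lit 0) (nat_lit 13934157497) (nat_lit 532) (nat_lit 9382933359) (nat_lit 608) (nat_lit 30479053804) (nat_lit 127) (nat_lit 5) (nat_lit 134) (nat_lit 5) (nat_lit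 135) (nat_lit 5) (nat_lit 357) (nat_lit 335) (nat_lit 88)) (XT.lf (nat_lit 0) (nat_lit 27663009415) (nat_lit 608) (nat_lit 16611745175) (nat_lit 76) (nat_lit 10465190509) (nat_lit 127) (nat_lit 5) (nat_lit 135) (nat_lit 5) (nat_lit 128) (nat_lit 5) (nat_lit 358) (nat_lit 335) (nat_lit 87)))) (XT.nd (nat_lit 38766) (nat_lit 0) (nat_lit 2356) (XT.lf (nat_lit 0) (nat_lit 32444149820) (nat_lit 532) (nat_lit 4803520646) (nat_lit 608) (nat_lit 19450739575) (nat_lit 120) (nat_lit 5) (nat_lit 127) (nat_lit 5) (nat_lit 128) (nat_lit 5) (nat_lit 360) (nat_lit 335) (nat_lit 85)) (XT.nd (nat_lit 78) (nat_lit 0) (nat_lit 0) (XT.lf (nat_lit 0) (nat_lit 12128484811) (nat_lit 1140) (nat_lit 3667120761) (nat_lit 1140) (nat_lit 3667120761) (nat_lit 151) (nat_lit 3) (nat_lit 166) (nat_lit 3) (nat_lit 166) (nat_lit 5) (nat_lit 336) (nat_lit 336) (nat_lit 108)) (XT.lf (nat_lit 76) (nat_lit 9007151059) (nat_lit 0)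 (nat_lit 15739265359) (nat_lit 1140) (nat_lit 14759054981) (nat_lit 152) (nat_lit 5) (nat_lit 151) (nat_lit 3) (nat_lit 166) (nat_lit 5) (nat_lit 337) (nat_lit 336) (nat_lit 107)))))) (XT.nd (nat_lit 468) (nat_lit 0) (nat_lit 152) (XT.nd (nat_lit 234) (nat_lit 0) (nat_lit 76) (XT.nd (nat_lit 78) (nat_lit 0) (nat_lit 0) (XT.lf (nat_lit 0) (nat_lit 25329472717) (nat_lit 1064) (nat_lit 14118784652) (nat_lit 1140) (nat_lit 652269259) (nat_lit 152) (nat_lit 5) (nat_lit 166) (nat_lit 5) (nat_lit 167) (nat_lit 5) (nat_lit 338) (nat_lit 336) (nat_lit 106)) (XT.nd (nat_lit 78) (nat_lit 0) (nat_lit 0) (XT.lf (nat_lit 76) (nat_lit 2647124536) (nat_lit 0) (nat_lit 23462697469) (nat_lit 1140) (nat_lit 14598221078) (nat_lit 153) (nat_lit 5) (nat_lit 152) (nat_lit 5) (nat_lit 167) (nat_lit 5) (nat_lit 339) (nat_lit 336) (nat_lit 105)) (XT.lf (nat_lit 76) (nat_lit 20204607218) (nat_lit 0) (nat_lit 6850102948)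 (nat_lit 1140) (nat_lit 14274844522) (nat_lit 153) (nat_lit 5) (nat_lit 152) (nat_lit 5) (nat_lit 167) (nat_lit 5) (nat_lit 340) (nat_lit 336) (nat_lit 104)))) (XT.nd (nat_lit 78) (nat_lit 0) (nat_lit 0) (XT.lf (nat_lit 0) (nat_lit 28125182899) (nat_lit 1064) (nat_lit 3780383235) (nat_lit 1140) (nat_lit 10061231772) (nat_lit 153) (nat_lit 5) (nat_lit 167) (nat_lit 5) (nat_lit 168) (nat_lit 5) (nat_lit 341) (nat_lit 336) (nat_lit 103)) (XT.nd (nat_lit 78) (nat_lit 0) (nat_lit 76) (XT.lf (nat_lit 76) (nat_lit 14294810975) (nat_lit 0) (nat_lit 15136836934) (nat_lit 1140) (nat_lit 13185397471) (nat_lit 154) (nat_lit 5) (nat_lit 153) (nat_lit 5) (nat_lit 168) (nat_lit 5) (nat_lit 342) (nat_lit 336) (nat_lit 102)) (XT.lf (nat_lit 0) (nat_lit 30835063052) (nat_lit 1064) (nat_lit 10317667385) (nat_lit 1140) (nat_lit 2132340366) (nat_lit 154) (nat_lit 5) (nat_lit 168) (nat_lit 5) (nat_lit 169) (nat_lit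 5) (nat_lit 343) (nat_lit 336) (nat_lit 101))))) (XT.nd (nat_lit 234) (nat_lit 0) (nat_lit 76) (XT.nd (nat_lit 78) (nat_lit 0) (nat_lit 0) (XT.lf (nat_lit 76) (nat_lit 8237059884) (nat_lit 0) (nat_lit 24271289776) (nat_lit 1140) (nat_lit 11457957373) (nat_lit 155) (nat_lit 5) (nat_lit 154) (nat_lit 5) (nat_lit 169) (nat_lit 5) (nat_lit 344) (nat_lit 336) (nat_lit 100)) (XT.nd (nat_lit 78) (nat_lit 0) (nat_lit 76) (XT.lf (nat_lit 76) (nat_lit 27559097494) (nat_lit 0) (nat_lit 6775674541) (nat_lit 1140) (nat_lit 10330123223) (nat_lit 155) (nat_lit 5) (nat_lit 154) (nat_lit 5) (nat_lit 169) (nat_lit 5) (nat_lit 345) (nat_lit 336) (nat_lit 99)) (XT.lf (nat_lit 76) (nat_lit 2006565910) (nat_lit 0) (nat_lit 34335590789) (nat_lit 1140) (nat_lit 9038502278) (nat_lit 156) (nat_lit 5) (nat_lit 155) (nat_lit 5) (nat_lit 170) (nat_lit 5) (nat_lit 346) (nat_lit 336) (nat_lit 98)))) (XT.nd (nat_lit 78) (nat_lit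 0) (nat_lit 76) (XT.lf (nat_lit 76) (nat_lit 21973687373) (nat_lit 0) (nat_lit 16674055170) (nat_lit 1140) (nat_lit 7463016525) (nat_lit 156) (nat_lit 5) (nat_lit 155) (nat_lit 5) (nat_lit 170) (nat_lit 5) (nat_lit 347) (nat_lit 336) (nat_lit 97)) (XT.nd (nat_lit 78) (nat_lit 0) (nat_lit 0) (XT.lf (nat_lit 0) (nat_lit 41035935516) (nat_lit 1064) (nat_lit 4338385150) (nat_lit 1140) (nat_lit 1488041078) (nat_lit 156) (nat_lit 5) (nat_lit 170) (nat_lit 5) (nat_lit 171) (nat_lit 5) (nat_lit 348) (nat_lit 336) (nat_lit 96)) (XT.lf (nat_lit 76) (nat_lit 16204546454) (nat_lit 0) (nat_lit 27610972949) (nat_lit 1140) (nat_lit 3811403428) (nat_lit 157) (nat_lit 5) (nat_lit 156) (nat_lit 5) (nat_lit 171) (nat_lit 5) (nat_lit 349) (nat_lit 336) (nat_lit 95))))))))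
noncomputable def xc253 : XT := (XT.nd (nat_lit 40716) (nat_lit 0) (nat_lit 0) (XT.nd (nat_lit 39858) (nat_lit 0) (nat_lit 1368) (XT.nd (nat_lit 390) (nat_lit 608) (nat_lit 0) (XT.nd (nat_lit 156) (nat_lit 0) (nat_lit 0) (XT.nd (nat_lit 78) (nat_lit 1064) (nat_lit 0) (XT.lf (nat_lit 76) (nat_lit 37451871888) (nat_lit 0) (nat_lit 9269340020) (nat_lit 1140) (nat_lit 1691929821) (nat_lit 157) (nat_lit 5) (nat_lit 156) (nat_lit 5) (nat_lit 171) (nat_lit 5) (nat_lit 350) (nat_lit 336) (nat_lit 94)) (XT.lf (nat_lit 0) (nat_lit 673102239) (nat_lit 1140) (nat_lit 39004101239) (nat_lit 1216) (nat_lit 9539857804) (nat_lit 142) (nat_lit 5) (nat_lit 157) (nat_lit 5) (nat_lit 158) (nat_lit 5) (nat_lit 351) (nat_lit 336) (nat_lit 93))) (XT.nd (nat_lit 78) (nat_lit 0) (nat_lit 0) (XT.lf (nat_lit 0) (nat_lit 3277594172) (nat_lit 1140) (nat_lit 17905143309) (nat_lit 1216) (nat_lit 28855785325) (nat_lit 142)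 (nat_lit 5) (nat_lit 157) (nat_lit 5) (nat_lit 158) (nat_lit 5) (nat_lit 352) (nat_lit 336) (nat_lit 92)) (XT.nd (nat_lit 78) (nat_lit 0) (nat_lit 76) (XT.lf (nat_lit 76) (nat_lit 3902097947) (nat_lit 0) (nat_lit 2094618804) (nat_lit 1216) (nat_lit 44886818864) (nat_lit 143) (nat_lit 5) (nat_lit 142) (nat_lit 5) (nat_lit 158) (nat_lit 5) (nat_lit 353) (nat_lit 336) (nat_lit 91)) (XT.lf (nat_lit 0) (nat_lit 9147876332) (nat_lit 1140) (nat_lit 25189381873) (nat_lit 76) (nat_lit 17406128954) (nat_lit 143) (nat_lit 5) (nat_lit 158) (nat_lit 5) (nat_lit 144) (nat_lit 5) (nat_lit 354) (nat_lit 336) (nat_lit 90))))) (XT.nd (nat_lit 39234) (nat_lit 0) (nat_lit 1292) (XT.nd (nat_lit 78) (nat_lit 684) (nat_lit 0) (XT.lf (nat_lit 0) (nat_lit 12413348141) (nat_lit 1140) (nat_lit 2765133214) (nat_lit 76) (nat_lit 37449961757) (nat_lit 143) (nat_lit 5) (nat_lit 158) (nat_lit 5) (nat_lit 144) (nat_lit 5) (nat_lit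 355) (nat_lit 336) (nat_lit 89)) (XT.nd (nat_lit 78) (nat_lit 0) (nat_lit 0) (XT.lf (nat_lit 0) (nat_lit 16020935381) (nat_lit 760) (nat_lit 32844197317) (nat_lit 76) (nat_lit 4667595627) (nat_lit 134) (nat_lit 5) (nat_lit 144) (nat_lit 5) (nat_lit 135) (nat_lit 5) (nat_lit 356) (nat_lit 336) (nat_lit 88)) (XT.lf (nat_lit 0) (nat_lit 19914318386) (nat_lit 760) (nat_lit 9712203721) (nat_lit 76) (nat_lit 24832295003) (nat_lit 134) (nat_lit 5) (nat_lit 144) (nat_lit 5) (nat_lit 135) (nat_lit 5) (nat_lit 357) (nat_lit 336) (nat_lit 87)))) (XT.nd (nat_lit 78) (nat_lit 0) (nat_lit 0) (XT.lf (nat_lit 0) (nat_lit 12530974373) (nat_lit 1140) (nat_lit 3757190162) (nat_lit 1140) (nat_lit 3757190162) (nat_lit 151) (nat_lit 3) (nat_lit 166) (nat_lit 3) (nat_lit 166) (nat_lit 5) (nat_lit 337) (nat_lit 337) (nat_lit 106)) (XT.nd (nat_lit 78) (nat_lit 0) (nat_lit 76) (XT.lf (nat_lit 76) (nat_lit 9316862972)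 (nat_lit 0) (nat_lit 16247345063) (nat_lit 1140) (nat_lit 15123982278) (nat_lit 152) (nat_lit 5) (nat_lit 151) (nat_lit 3) (nat_lit 166) (nat_lit 5) (nat_lit 338) (nat_lit 337) (nat_lit 105)) (XT.lf (nat_lit 0) (nat_lit 26162224874) (nat_lit 1064) (nat_lit 14501292153) (nat_lit 1140) (nat_lit 637661443) (nat_lit 152) (nat_lit 5) (nat_lit 166) (nat_lit 5) (nat_lit 167) (nat_lit 5) (nat_lit 339) (nat_lit 337) (nat_lit 104)))))) (XT.nd (nat_lit 390) (nat_lit 0) (nat_lit 152) (XT.nd (nat_lit 156) (nat_lit 0) (nat_lit 76) (XT.nd (nat_lit 78) (nat_lit 0) (nat_lit 0) (XT.lf (nat_lit 76) (nat_lit 2767191801) (nat_lit 0) (nat_lit 24197061259) (nat_lit 1140) (nat_lit 14962724490) (nat_lit 153) (nat_lit 5) (nat_lit 152) (nat_lit 5) (nat_lit 167) (nat_lit 5) (nat_lit 340) (nat_lit 337) (nat_lit 103)) (XT.lf (nat_lit 76) (nat_lit 20850214880) (nat_lit 0) (nat_lit 7085201051) (nat_lit 1140) (nat_lit 14631785759)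 (nat_lit 153) (nat_lit 5) (nat_lit 152) (nat_lit 5) (nat_lit 167) (nat_lit 5) (nat_lit 341) (nat_lit 337) (nat_lit 102))) (XT.nd (nat_lit 78) (nat_lit 0) (nat_lit 0) (XT.lf (nat_lit 0) (nat_lit 29035715060) (nat_lit 1064) (nat_lit 3853024277) (nat_lit 1140) (nat_lit 10334896385) (nat_lit 153) (nat_lit 5) (nat_lit 167) (nat_lit 5) (nat_lit 168) (nat_lit 5) (nat_lit 342) (nat_lit 337) (nat_lit 101)) (XT.nd (nat_lit 78) (nat_lit 0) (nat_lit 76) (XT.lf (nat_lit 76) (nat_lit 14764026049) (nat_lit 0) (nat_lit 15615791089) (nat_lit 1140) (nat_lit 13513624933) (nat_lit 154) (nat_lit 5) (nat_lit 153) (nat_lit 5) (nat_lit 168) (nat_lit 5) (nat_lit 343) (nat_lit 337) (nat_lit 100)) (XT.lf (nat_lit 0) (nat_lit 31823203222) (nat_lit 1064) (nat_lit 10585717523) (nat_lit 1140) (nat_lit 2172656061) (nat_lit 154) (nat_lit 5) (nat_lit 168) (nat_lit 5) (nat_lit 169) (nat_lit 5) (nat_lit 344) (nat_lit 337) (nat_lit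 99))))) (XT.nd (nat_lit 234) (nat_lit 0) (nat_lit 76) (XT.nd (nat_lit 78) (nat_lit 0) (nat_lit 0) (XT.lf (nat_lit 76) (nat_lit 8525244898) (nat_lit 0) (nat_lit 25020000828) (nat_lit 1140) (nat_lit 11738052147) (nat_lit 155) (nat_lit 5) (nat_lit 154) (nat_lit 5) (nat_lit 169) (nat_lit 5) (nat_lit 345) (nat_lit 337) (nat_lit 98)) (XT.nd (nat_lit 78) (nat_lit 0) (nat_lit 76) (XT.lf (nat_lit 76) (nat_lit 28425747330) (nat_lit 0) (nat_lit 6998917941) (nat_lit 1140) (nat_lit 10578236679) (nat_lit 155) (nat_lit 5) (nat_lit 154) (nat_lit 5) (nat_lit 169) (nat_lit 5) (nat_lit 346) (nat_lit 337) (nat_lit 97)) (XT.lf (nat_lit 76) (nat_lit 2108360104) (nat_lit 0) (nat_lit 35382381620) (nat_lit 1140) (nat_lit 9249446963) (nat_lit 156) (nat_lit 5) (nat_lit 155) (nat_lit 5) (nat_lit 170) (nat_lit 5) (nat_lit 347) (nat_lit 337) (nat_lit 96)))) (XT.nd (nat_lit 78) (nat_lit 0) (nat_lit 76) (XT.lf (nat_lit 76)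 (nat_lit 22673283642) (nat_lit 0) (nat_lit 17190512851) (nat_lit 1140) (nat_lit 7628450338) (nat_lit 156) (nat_lit 5) (nat_lit 155) (nat_lit 5) (nat_lit 170) (nat_lit 5) (nat_lit 348) (nat_lit 337) (nat_lit 95)) (XT.nd (nat_lit 78) (nat_lit 0) (nat_lit 0) (XT.lf (nat_lit 0) (nat_lit 42321834555) (nat_lit 1064) (nat_lit 4427394251) (nat_lit 1140) (nat_lit 1517226773) (nat_lit 156) (nat_lit 5) (nat_lit 170) (nat_lit 5) (nat_lit 171) (nat_lit 5) (nat_lit 349) (nat_lit 337) (nat_lit 94)) (XT.lf (nat_lit 76) (nat_lit 16731421944) (nat_lit 0) (nat_lit 28452178897) (nat_lit 1140) (nat_lit 3870392668) (nat_lit 157) (nat_lit 5) (nat_lit 156) (nat_lit 5) (nat_lit 171) (nat_lit 5) (nat_lit 350) (nat_lit 337) (nat_lit 93))))))) (XT.nd (nat_lit 39936) (nat_lit 0) (nat_lit 608) (XT.nd (nat_lit 390) (nat_lit 608) (nat_lit 0) (XT.nd (nat_lit 156) (nat_lit 0) (nat_lit 0) (XT.nd (nat_lit 78) (nat_lit 1064) (nat_lit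 0) (XT.lf (nat_lit 76) (nat_lit 38614980565) (nat_lit 0) (nat_lit 9559921929) (nat_lit 1140) (nat_lit 1688947072) (nat_lit 157) (nat_lit 5) (nat_lit 156) (nat_lit 5) (nat_lit 171) (nat_lit 5) (nat_lit 351) (nat_lit 337) (nat_lit 92)) (XT.lf (nat_lit 0) (nat_lit 744732299) (nat_lit 1140) (nat_lit 40132129327) (nat_lit 1216) (nat_lit 9815050760) (nat_lit 142) (nat_lit 5) (nat_lit 157) (nat_lit 5) (nat_lit 158) (nat_lit 5) (nat_lit 352) (nat_lit 337) (nat_lit 91))) (XT.nd (nat_lit 78) (nat_lit 0) (nat_lit 0) (XT.lf (nat_lit 0) (nat_lit 3425860824) (nat_lit 1140) (nat_lit 18401428725) (nat_lit 1216) (nat_lit 29710776576) (nat_lit 142) (nat_lit 5) (nat_lit 157) (nat_lit 5) (nat_lit 158) (nat_lit 5) (nat_lit 353) (nat_lit 337) (nat_lit 90)) (XT.nd (nat_lit 78) (nat_lit 0) (nat_lit 76) (XT.lf (nat_lit 76) (nat_lit 4059629093) (nat_lit 0) (nat_lit 2165862465) (nat_lit 1216) (nat_lit 46182973055) (nat_lit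 143) (nat_lit 5) (nat_lit 142) (nat_lit 5) (nat_lit 158) (nat_lit 5) (nat_lit 354) (nat_lit 337) (nat_lit 89)) (XT.lf (nat_lit 0) (nat_lit 9469683990) (nat_lit 1140) (nat_lit 25904164228) (nat_lit 76) (nat_lit 17920311772) (nat_lit 143) (nat_lit 5) (nat_lit 158) (nat_lit 5) (nat_lit 144) (nat_lit 5) (nat_lit 355) (nat_lit 337) (nat_lit 88))))) (XT.nd (nat_lit 39312) (nat_lit 0) (nat_lit 1292) (XT.nd (nat_lit 78) (nat_lit 684) (nat_lit 0) (XT.lf (nat_lit 0) (nat_lit 12831740205) (nat_lit 1140) (nat_lit 2808379345) (nat_lit 76) (nat_lit 38565692599) (nat_lit 143) (nat_lit 5) (nat_lit 158) (nat_lit 5) (nat_lit 144) (nat_lit 5) (nat_lit 356) (nat_lit 337) (nat_lit 87)) (XT.nd (nat_lit 39156) (nat_lit 0) (nat_lit 1292) (XT.lf (nat_lit 0) (nat_lit 16546538552) (nat_lit 760) (nat_lit 33788697398) (nat_lit 76) (nat_lit 4802023507) (nat_lit 134) (nat_lit 5) (nat_lit 144) (nat_lit 5) (nat_lit 135) (nat_lit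 5) (nat_lit 357) (nat_lit 337) (nat_lit 86)) (XT.lf (nat_lit 0) (nat_lit 12943320813) (nat_lit 1140) (nat_lit 3851106525) (nat_lit 1140) (nat_lit 3851106525) (nat_lit 151) (nat_lit 3) (nat_lit 166) (nat_lit 3) (nat_lit 166) (nat_lit 5) (nat_lit 338) (nat_lit 338) (nat_lit 104)))) (XT.nd (nat_lit 78) (nat_lit 0) (nat_lit 76) (XT.lf (nat_lit 76) (nat_lit 9633598931) (nat_lit 0) (nat_lit 16768606251) (nat_lit 1140) (nat_lit 15504325977) (nat_lit 152) (nat_lit 5) (nat_lit 151) (nat_lit 3) (nat_lit 166) (nat_lit 5) (nat_lit 339) (nat_lit 338) (nat_lit 103)) (XT.nd (nat_lit 78) (nat_lit 0) (nat_lit 0) (XT.lf (nat_lit 0) (nat_lit 27015776676) (nat_lit 1064) (nat_lit 14897631663) (nat_lit 1140) (nat_lit 624577228) (nat_lit 152) (nat_lit 5) (nat_lit 166) (nat_lit 5) (nat_lit 167) (nat_lit 5) (nat_lit 340) (nat_lit 338) (nat_lit 102)) (XT.lf (nat_lit 76) (nat_lit 2888527404) (nat_lit 0) (nat_lit 24951706121)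 (nat_lit 1140) (nat_lit 15342378944) (nat_lit 153) (nat_lit 5) (nat_lit 152) (nat_lit 5) (nat_lit 167) (nat_lit 5) (nat_lit 341) (nat_lit 338) (nat_lit 101)))))) (XT.nd (nat_lit 468) (nat_lit 760) (nat_lit 0) (XT.nd (nat_lit 234) (nat_lit 0) (nat_lit 152) (XT.nd (nat_lit 78) (nat_lit 0) (nat_lit 76) (XT.lf (nat_lit 76) (nat_lit 21512925063) (nat_lit 0) (nat_lit 7325653223) (nat_lit 1140) (nat_lit 15003528381) (nat_lit 153) (nat_lit 5) (nat_lit 152) (nat_lit 5) (nat_lit 167) (nat_lit 5) (nat_lit 342) (nat_lit 338) (nat_lit 100)) (XT.nd (nat_lit 78) (nat_lit 0) (nat_lit 0) (XT.lf (nat_lit 0) (nat_lit 29969729932) (nat_lit 1064) (nat_lit 3930184941) (nat_lit 1140) (nat_lit 10618388145) (nat_lit 153) (nat_lit 5) (nat_lit 167) (nat_lit 5) (nat_lit 168) (nat_lit 5) (nat_lit 343) (nat_lit 338) (nat_lit 99)) (XT.lf (nat_lit 76) (nat_lit 15245000129) (nat_lit 0) (nat_lit 16107687431) (nat_lit 1140) (nat_lit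 13855564492) (nat_lit 154) (nat_lit 5) (nat_lit 153) (nat_lit 5) (nat_lit 168) (nat_lit 5) (nat_lit 344) (nat_lit 338) (nat_lit 98)))) (XT.nd (nat_lit 78) (nat_lit 0) (nat_lit 0) (XT.lf (nat_lit 0) (nat_lit 32837366072) (nat_lit 1064) (nat_lit 10864190280) (nat_lit 1140) (nat_lit 2215539092) (nat_lit 154) (nat_lit 5) (nat_lit 168) (nat_lit 5) (nat_lit 169) (nat_lit 5) (nat_lit 345) (nat_lit 338) (nat_lit 97)) (XT.nd (nat_lit 78) (nat_lit 0) (nat_lit 0) (XT.lf (nat_lit 76) (nat_lit 8819717693) (nat_lit 0) (nat_lit 25789992274) (nat_lit 1140) (nat_lit 12030203187) (nat_lit 155) (nat_lit 5) (nat_lit 154) (nat_lit 5) (nat_lit 169) (nat_lit 5) (nat_lit 346) (nat_lit 338) (nat_lit 96)) (XT.lf (nat_lit 76) (nat_lit 29316107562) (nat_lit 0) (nat_lit 7227712102) (nat_lit 1140) (nat_lit 10837340552) (nat_lit 155) (nat_lit 5) (nat_lit 154) (nat_lit 5) (nat_lit 169) (nat_lit 5) (nat_lit 347) (nat_lit 338)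 (nat_lit 95))))) (XT.nd (nat_lit 234) (nat_lit 988) (nat_lit 0) (XT.nd (nat_lit 78) (nat_lit 0) (nat_lit 0) (XT.lf (nat_lit 76) (nat_lit 2210820273) (nat_lit 0) (nat_lit 36459616201) (nat_lit 1140) (nat_lit 9470176310) (nat_lit 156) (nat_lit 5) (nat_lit 155) (nat_lit 5) (nat_lit 170) (nat_lit 5) (nat_lit 348) (nat_lit 338) (nat_lit 94)) (XT.nd (nat_lit 78) (nat_lit 0) (nat_lit 76) (XT.lf (nat_lit 76) (nat_lit 23391549497) (nat_lit 0) (nat_lit 17721532249) (nat_lit 1140) (nat_lit 7802202818) (nat_lit 156) (nat_lit 5) (nat_lit 155) (nat_lit 5) (nat_lit 170) (nat_lit 5) (nat_lit 349) (nat_lit 338) (nat_lit 93)) (XT.lf (nat_lit 0) (nat_lit 43643163618) (nat_lit 1064) (nat_lit 4521435370) (nat_lit 1140) (nat_lit 1548175250) (nat_lit 156) (nat_lit 5) (nat_lit 170) (nat_lit 5) (nat_lit 171) (nat_lit 5) (nat_lit 350) (nat_lit 338) (nat_lit 92)))) (XT.nd (nat_lit 78) (nat_lit 1064) (nat_lit 0) (XT.lf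 (nat_lit 76) (nat_lit 17271765108) (nat_lit 0) (nat_lit 29317881845) (nat_lit 1140) (nat_lit 3934329066) (nat_lit 157) (nat_lit 5) (nat_lit 156) (nat_lit 5) (nat_lit 171) (nat_lit 5) (nat_lit 351) (nat_lit 338) (nat_lit 91)) (XT.nd (nat_lit 78) (nat_lit 1064) (nat_lit 0) (XT.lf (nat_lit 76) (nat_lit 39810712026) (nat_lit 0) (nat_lit 9858503645) (nat_lit 1140) (nat_lit 1688959773) (nat_lit 157) (nat_lit 5) (nat_lit 156) (nat_lit 5) (nat_lit 171) (nat_lit 5) (nat_lit 352) (nat_lit 338) (nat_lit 90)) (XT.lf (nat_lit 0) (nat_lit 815558567) (nat_lit 1140) (nat_lit 41296414680) (nat_lit 1216) (nat_lit 10099131111) (nat_lit 142) (nat_lit 5) (nat_lit 157) (nat_lit 5) (nat_lit 158) (nat_lit 5) (nat_lit 353) (nat_lit 338) (nat_lit 89))))))))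
noncomputable def xc254 : XT := (XT.nd (nat_lit 80340) (nat_lit 0) (nat_lit 684) (XT.nd (nat_lit 40092) (nat_lit 0) (nat_lit 0) (XT.nd (nat_lit 39624) (nat_lit 0) (nat_lit 760) (XT.nd (nat_lit 156) (nat_lit 0) (nat_lit 76) (XT.nd (nat_lit 78) (nat_lit 0) (nat_lit 0) (XT.lf (nat_lit 0) (nat_lit 3575708784) (nat_lit 1140) (nat_lit 18914948745) (nat_lit 1216) (nat_lit 30592030774) (nat_lit 142) (nat_lit 5) (nat_lit 157) (nat_lit 5) (nat_lit 158) (nat_lit 5) (nat_lit 354) (nat_lit 338) (nat_lit 88)) (XT.lf (nat_lit 76) (nat_lit 4219563133) (nat_lit 0) (nat_lit 2238760948) (nat_lit 1216) (nat_lit 47520907929) (nat_lit 143) (nat_lit 5) (nat_lit 142) (nat_lit 5) (nat_lit 158) (nat_lit 5) (nat_lit 355) (nat_lit 338) (nat_lit 87))) (XT.nd (nat_lit 39312) (nat_lit 0) (nat_lit 608) (XT.lf (nat_lit 0) (nat_lit 9798426567) (nat_lit 1140) (nat_lit 26642737830) (nat_lit 76) (nat_lit 18450379368) (nat_lit 143)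 (nat_lit 5) (nat_lit 158) (nat_lit 5) (nat_lit 144) (nat_lit 5) (nat_lit 356) (nat_lit 338) (nat_lit 86)) (XT.nd (nat_lit 78) (nat_lit 0) (nat_lit 0) (XT.lf (nat_lit 0) (nat_lit 13365947150) (nat_lit 1140) (nat_lit 3948919537) (nat_lit 1140) (nat_lit 3948919537) (nat_lit 151) (nat_lit 3) (nat_lit 166) (nat_lit 3) (nat_lit 166) (nat_lit 5) (nat_lit 339) (nat_lit 339) (nat_lit 102)) (XT.lf (nat_lit 76) (nat_lit 9957699810) (nat_lit 0) (nat_lit 17303562672) (nat_lit 1140) (nat_lit 15900292057) (nat_lit 152) (nat_lit 5) (nat_lit 151) (nat_lit 3) (nat_lit 166) (nat_lit 5) (nat_lit 340) (nat_lit 339) (nat_lit 101))))) (XT.nd (nat_lit 234) (nat_lit 0) (nat_lit 76) (XT.nd (nat_lit 78) (nat_lit 0) (nat_lit 0) (XT.lf (nat_lit 0) (nat_lit 27890992228) (nat_lit 1064) (nat_lit 15308082855) (nat_lit 1140) (nat_lit 612949706) (nat_lit 152) (nat_lit 5) (nat_lit 166) (nat_lit 5) (nat_lit 167) (nat_lit 5) (nat_lit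 341) (nat_lit 339) (nat_lit 100)) (XT.nd (nat_lit 78) (nat_lit 0) (nat_lit 0) (XT.lf (nat_lit 76) (nat_lit 3011303360) (nat_lit 0) (nat_lit 25727340936) (nat_lit 1140) (nat_lit 15737396962) (nat_lit 153) (nat_lit 5) (nat_lit 152) (nat_lit 5) (nat_lit 167) (nat_lit 5) (nat_lit 342) (nat_lit 339) (nat_lit 99)) (XT.lf (nat_lit 76) (nat_lit 22193380906) (nat_lit 0) (nat_lit 7571717607) (nat_lit 1140) (nat_lit 15390281464) (nat_lit 153) (nat_lit 5) (nat_lit 152) (nat_lit 5) (nat_lit 167) (nat_lit 5) (nat_lit 343) (nat_lit 339) (nat_lit 98)))) (XT.nd (nat_lit 78) (nat_lit 0) (nat_lit 0) (XT.lf (nat_lit 0) (nat_lit 30928152040) (nat_lit 1064) (nat_lit 4011866469) (nat_lit 1140) (nat_lit 10911909030) (nat_lit 153) (nat_lit 5) (nat_lit 167) (nat_lit 5) (nat_lit 168) (nat_lit 5) (nat_lit 344) (nat_lit 339) (nat_lit 97)) (XT.nd (nat_lit 78) (nat_lit 0) (nat_lit 76) (XT.lf (nat_lit 76) (nat_lit 15738219017)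 (nat_lit 0) (nat_lit 16612996110) (nat_lit 1140) (nat_lit 14211405629) (nat_lit 154) (nat_lit 5) (nat_lit 153) (nat_lit 5) (nat_lit 168) (nat_lit 5) (nat_lit 345) (nat_lit 339) (nat_lit 96)) (XT.lf (nat_lit 0) (nat_lit 33878540172) (nat_lit 1064) (nat_lit 11153261649) (nat_lit 1140) (nat_lit 2260988533) (nat_lit 154) (nat_lit 5) (nat_lit 168) (nat_lit 5) (nat_lit 169) (nat_lit 5) (nat_lit 346) (nat_lit 339) (nat_lit 95)))))) (XT.nd (nat_lit 390) (nat_lit 912) (nat_lit 0) (XT.nd (nat_lit 156) (nat_lit 0) (nat_lit 76) (XT.nd (nat_lit 78) (nat_lit 0) (nat_lit 0) (XT.lf (nat_lit 76) (nat_lit 9120802246) (nat_lit 0) (nat_lit 26581970316) (nat_lit 1140) (nat_lit 12334562460) (nat_lit 155) (nat_lit 5) (nat_lit 154) (nat_lit 5) (nat_lit 169) (nat_lit 5) (nat_lit 347) (nat_lit 339) (nat_lit 94)) (XT.lf (nat_lit 76) (nat_lit 30231020908) (nat_lit 0) (nat_lit 7462289362) (nat_lit 1140) (nat_lit 11107560941)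 (nat_lit 155) (nat_lit 5) (nat_lit 154) (nat_lit 5) (nat_lit 169) (nat_lit 5) (nat_lit 348) (nat_lit 339) (nat_lit 93))) (XT.nd (nat_lit 78) (nat_lit 0) (nat_lit 0) (XT.lf (nat_lit 76) (nat_lit 2314103470) (nat_lit 0) (nat_lit 37568262951) (nat_lit 1140) (nat_lit 9700785453) (nat_lit 156) (nat_lit 5) (nat_lit 155) (nat_lit 5) (nat_lit 170) (nat_lit 5) (nat_lit 349) (nat_lit 339) (nat_lit 92)) (XT.nd (nat_lit 78) (nat_lit 0) (nat_lit 76) (XT.lf (nat_lit 76) (nat_lit 24129178107) (nat_lit 0) (nat_lit 18267603715) (nat_lit 1140) (nat_lit 7984330896) (nat_lit 156) (nat_lit 5) (nat_lit 155) (nat_lit 5) (nat_lit 170) (nat_lit 5) (nat_lit 350) (nat_lit 339) (nat_lit 91)) (XT.lf (nat_lit 0) (nat_lit 45001166252) (nat_lit 1064) (nat_lit 4620523894) (nat_lit 1140) (nat_lit 1580888463) (nat_lit 156) (nat_lit 5) (nat_lit 170) (nat_lit 5) (nat_lit 171) (nat_lit 5) (nat_lit 351) (nat_lit 339) (nat_lit 90)))))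 (XT.nd (nat_lit 234) (nat_lit 0) (nat_lit 0) (XT.nd (nat_lit 78) (nat_lit 1064) (nat_lit 0) (XT.lf (nat_lit 76) (nat_lit 17826114221) (nat_lit 0) (nat_lit 30208859134) (nat_lit 1140) (nat_lit 4003178636) (nat_lit 157) (nat_lit 5) (nat_lit 156) (nat_lit 5) (nat_lit 171) (nat_lit 5) (nat_lit 352) (nat_lit 339) (nat_lit 89)) (XT.nd (nat_lit 78) (nat_lit 1064) (nat_lit 0) (XT.lf (nat_lit 76) (nat_lit 41040175290) (nat_lit 0) (nat_lit 10165366361) (nat_lit 1140) (nat_lit 1691880701) (nat_lit 157) (nat_lit 5) (nat_lit 156) (nat_lit 5) (nat_lit 171) (nat_lit 5) (nat_lit 353) (nat_lit 339) (nat_lit 88)) (XT.lf (nat_lit 0) (nat_lit 885726425) (nat_lit 1140) (nat_lit 42497906302) (nat_lit 1216) (nat_lit 10392329219) (nat_lit 142) (nat_lit 5) (nat_lit 157) (nat_lit 5) (nat_lit 158) (nat_lit 5) (nat_lit 354) (nat_lit 339) (nat_lit 87)))) (XT.nd (nat_lit 39468) (nat_lit 0) (nat_lit 684) (XT.lf (nat_lit 0)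 (nat_lit 3727350049) (nat_lit 1140) (nat_lit 19446085734) (nat_lit 1216) (nat_lit 31500300605) (nat_lit 142) (nat_lit 5) (nat_lit 157) (nat_lit 5) (nat_lit 158) (nat_lit 5) (nat_lit 355) (nat_lit 339) (nat_lit 86)) (XT.nd (nat_lit 78) (nat_lit 0) (nat_lit 0) (XT.lf (nat_lit 0) (nat_lit 13799281784) (nat_lit 1140) (nat_lit 4050684151) (nat_lit 1140) (nat_lit 4050684151) (nat_lit 151) (nat_lit 3) (nat_lit 166) (nat_lit 3) (nat_lit 166) (nat_lit 5) (nat_lit 340) (nat_lit 340) (nat_lit 100)) (XT.lf (nat_lit 76) (nat_lit 10289509240) (nat_lit 0) (nat_lit 17852736697) (nat_lit 1140) (nat_lit 16312107398) (nat_lit 152) (nat_lit 5) (nat_lit 151) (nat_lit 3) (nat_lit 166) (nat_lit 5) (nat_lit 341) (nat_lit 340) (nat_lit 99))))))) (XT.nd (nat_lit 858) (nat_lit 76) (nat_lit 0) (XT.nd (nat_lit 390) (nat_lit 0) (nat_lit 152) (XT.nd (nat_lit 156) (nat_lit 0) (nat_lit 0) (XT.nd (nat_lit 78) (nat_lit 0) (nat_lit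 0) (XT.lf (nat_lit 0) (nat_lit 28788747778) (nat_lit 1064) (nat_lit 15732941555) (nat_lit 1140) (nat_lit 602716424) (nat_lit 152) (nat_lit 5) (nat_lit 166) (nat_lit 5) (nat_lit 167) (nat_lit 5) (nat_lit 342) (nat_lit 340) (nat_lit 98)) (XT.lf (nat_lit 76) (nat_lit 3135689150) (nat_lit 0) (nat_lit 26524690084) (nat_lit 1140) (nat_lit 16148011329) (nat_lit 153) (nat_lit 5) (nat_lit 152) (nat_lit 5) (nat_lit 167) (nat_lit 5) (nat_lit 343) (nat_lit 340) (nat_lit 97))) (XT.nd (nat_lit 78) (nat_lit 0) (nat_lit 76) (XT.lf (nat_lit 76) (nat_lit 22892237372) (nat_lit 0) (nat_lit 7823654495) (nat_lit 1140) (nat_lit 15792273848) (nat_lit 153) (nat_lit 5) (nat_lit 152) (nat_lit 5) (nat_lit 167) (nat_lit 5) (nat_lit 344) (nat_lit 340) (nat_lit 96)) (XT.nd (nat_lit 78) (nat_lit 0) (nat_lit 0) (XT.lf (nat_lit 0) (nat_lit 31911921015) (nat_lit 1064) (nat_lit 4098077848) (nat_lit 1140) (nat_lit 11215672410)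 (nat_lit 153) (nat_lit 5) (nat_lit 167) (nat_lit 5) (nat_lit 168) (nat_lit 5) (nat_lit 345) (nat_lit 340) (nat_lit 95)) (XT.lf (nat_lit 76) (nat_lit 16244175450) (nat_lit 0) (nat_lit 17132196679) (nat_lit 1140) (nat_lit 14581356246) (nat_lit 154) (nat_lit 5) (nat_lit 153) (nat_lit 5) (nat_lit 168) (nat_lit 5) (nat_lit 346) (nat_lit 340) (nat_lit 94))))) (XT.nd (nat_lit 234) (nat_lit 0) (nat_lit 76) (XT.nd (nat_lit 78) (nat_lit 0) (nat_lit 0) (XT.lf (nat_lit 0) (nat_lit 34947731818) (nat_lit 1064) (nat_lit 11453120749) (nat_lit 1140) (nat_lit 2309007904) (nat_lit 154) (nat_lit 5) (nat_lit 168) (nat_lit 5) (nat_lit 169) (nat_lit 5) (nat_lit 347) (nat_lit 340) (nat_lit 93)) (XT.nd (nat_lit 78) (nat_lit 0) (nat_lit 0) (XT.lf (nat_lit 76) (nat_lit 9428824487) (nat_lit 0) (nat_lit 27396658452) (nat_lit 1140) (nat_lit 12651298530) (nat_lit 155) (nat_lit 5) (nat_lit 154) (nat_lit 5) (nat_lit 169) (nat_lit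 5) (nat_lit 348) (nat_lit 340) (nat_lit 92)) (XT.lf (nat_lit 76) (nat_lit 31171347820) (nat_lit 0) (nat_lit 7702885253) (nat_lit 1140) (nat_lit 11389039416) (nat_lit 155) (nat_lit 5) (nat_lit 154) (nat_lit 5) (nat_lit 169) (nat_lit 5) (nat_lit 349) (nat_lit 340) (nat_lit 91)))) (XT.nd (nat_lit 78) (nat_lit 0) (nat_lit 0) (XT.lf (nat_lit 76) (nat_lit 2418363588) (nat_lit 0) (nat_lit 38709316179) (nat_lit 1140) (nat_lit 9941383769) (nat_lit 156) (nat_lit 5) (nat_lit 155) (nat_lit 5) (nat_lit 170) (nat_lit 5) (nat_lit 350) (nat_lit 340) (nat_lit 90)) (XT.nd (nat_lit 78) (nat_lit 0) (nat_lit 76) (XT.lf (nat_lit 76) (nat_lit 24886875794) (nat_lit 0) (nat_lit 18829229243) (nat_lit 1140) (nat_lit 8174904272) (nat_lit 156) (nat_lit 5) (nat_lit 155) (nat_lit 5) (nat_lit 170) (nat_lit 5) (nat_lit 351) (nat_lit 340) (nat_lit 89)) (XT.lf (nat_lit 0) (nat_lit 46397112942) (nat_lit 1064) (nat_lit 4724683453)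 (nat_lit 1140) (nat_lit 1615371349) (nat_lit 156) (nat_lit 5) (nat_lit 170) (nat_lit 5) (nat_lit 171) (nat_lit 5) (nat_lit 352) (nat_lit 340) (nat_lit 88)))))) (XT.nd (nat_lit 40014) (nat_lit 0) (nat_lit 76) (XT.nd (nat_lit 39780) (nat_lit 0) (nat_lit 0) (XT.nd (nat_lit 78) (nat_lit 380) (nat_lit 0) (XT.lf (nat_lit 76) (nat_lit 18395016000) (nat_lit 0) (nat_lit 31125908992) (nat_lit 1140) (nat_lit 4076916844) (nat_lit 157) (nat_lit 5) (nat_lit 156) (nat_lit 5) (nat_lit 171) (nat_lit 5) (nat_lit 353) (nat_lit 340) (nat_lit 87)) (XT.nd (nat_lit 39624) (nat_lit 380) (nat_lit 0) (XT.lf (nat_lit 76) (nat_lit 42304505162) (nat_lit 0) (nat_lit 10480797335) (nat_lit 1140) (nat_lit 1697630179) (nat_lit 157) (nat_lit 5) (nat_lit 156) (nat_lit 5) (nat_lit 171) (nat_lit 5) (nat_lit 354) (nat_lit 340) (nat_lit 86)) (XT.lf (nat_lit 0) (nat_lit 14243759077) (nat_lit 1140) (nat_lit 4156460523) (nat_lit 1140)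 (nat_lit 4156460523) (nat_lit 151) (nat_lit 3) (nat_lit 166) (nat_lit 3) (nat_lit 166) (nat_lit 5) (nat_lit 341) (nat_lit 341) (nat_lit 98)))) (XT.nd (nat_lit 78) (nat_lit 0) (nat_lit 76) (XT.lf (nat_lit 76) (nat_lit 10629374114) (nat_lit 0) (nat_lit 18416659966) (nat_lit 1140) (nat_lit 16740019569) (nat_lit 152) (nat_lit 5) (nat_lit 151) (nat_lit 3) (nat_lit 166) (nat_lit 5) (nat_lit 342) (nat_lit 341) (nat_lit 97)) (XT.nd (nat_lit 78) (nat_lit 0) (nat_lit 0) (XT.lf (nat_lit 0) (nat_lit 29709932864) (nat_lit 1064) (nat_lit 16172519785) (nat_lit 1140) (nat_lit 593819150) (nat_lit 152) (nat_lit 5) (nat_lit 166) (nat_lit 5) (nat_lit 167) (nat_lit 5) (nat_lit 343) (nat_lit 341) (nat_lit 96)) (XT.lf (nat_lit 76) (nat_lit 3261852096) (nat_lit 0) (nat_lit 27344494242) (nat_lit 1140) (nat_lit 16574474912) (nat_lit 153) (nat_lit 5) (nat_lit 152) (nat_lit 5) (nat_lit 167) (nat_lit 5) (nat_lit 344) (nat_lit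 341) (nat_lit 95))))) (XT.nd (nat_lit 234) (nat_lit 0) (nat_lit 152) (XT.nd (nat_lit 78) (nat_lit 0) (nat_lit 76) (XT.lf (nat_lit 76) (nat_lit 23610162037) (nat_lit 0) (nat_lit 8081726708) (nat_lit 1140) (nat_lit 16209753950) (nat_lit 153) (nat_lit 5) (nat_lit 152) (nat_lit 5) (nat_lit 167) (nat_lit 5) (nat_lit 345) (nat_lit 341) (nat_lit 94)) (XT.nd (nat_lit 78) (nat_lit 0) (nat_lit 0) (XT.lf (nat_lit 0) (nat_lit 32921992769) (nat_lit 1064) (nat_lit 4188835610) (nat_lit 1140) (nat_lit 11529903078) (nat_lit 153) (nat_lit 5) (nat_lit 167) (nat_lit 5) (nat_lit 168) (nat_lit 5) (nat_lit 346) (nat_lit 341) (nat_lit 93)) (XT.lf (nat_lit 76) (nat_lit 16763369753) (nat_lit 0) (nat_lit 17665778646) (nat_lit 1140) (nat_lit 14965642487) (nat_lit 154) (nat_lit 5) (nat_lit 153) (nat_lit 5) (nat_lit 168) (nat_lit 5) (nat_lit 347) (nat_lit 341) (nat_lit 92)))) (XT.nd (nat_lit 78) (nat_lit 0) (nat_lit 0) (XT.lf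 (nat_lit 0) (nat_lit 36045966242) (nat_lit 1064) (nat_lit 11763969768) (nat_lit 1140) (nat_lit 2359605047) (nat_lit 154) (nat_lit 5) (nat_lit 168) (nat_lit 5) (nat_lit 169) (nat_lit 5) (nat_lit 348) (nat_lit 341) (nat_lit 91)) (XT.nd (nat_lit 78) (nat_lit 0) (nat_lit 0) (XT.lf (nat_lit 76) (nat_lit 9744112799) (nat_lit 0) (nat_lit 28234798216) (nat_lit 1140) (nat_lit 12980596366) (nat_lit 155) (nat_lit 5) (nat_lit 154) (nat_lit 5) (nat_lit 169) (nat_lit 5) (nat_lit 349) (nat_lit 341) (nat_lit 90)) (XT.lf (nat_lit 76) (nat_lit 32137967456) (nat_lit 0) (nat_lit 7949738811) (nat_lit 1140) (nat_lit 11681932812) (nat_lit 155) (nat_lit 5) (nat_lit 154) (nat_lit 5) (nat_lit 169) (nat_lit 5) (nat_lit 350) (nat_lit 341) (nat_lit 89))))))))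
noncomputable def xc255 : XT := (XT.nd (nat_lit 81198) (nat_lit 0) (nat_lit 0) (XT.nd (nat_lit 40482) (nat_lit 0) (nat_lit 0) (XT.nd (nat_lit 40014) (nat_lit 0) (nat_lit 0) (XT.nd (nat_lit 156) (nat_lit 304) (nat_lit 0) (XT.nd (nat_lit 78) (nat_lit 0) (nat_lit 0) (XT.lf (nat_lit 76) (nat_lit 2523751723) (nat_lit 0) (nat_lit 39883797040) (nat_lit 1140) (nat_lit 10192094649) (nat_lit 156) (nat_lit 5) (nat_lit 155) (nat_lit 5) (nat_lit 170) (nat_lit 5) (nat_lit 351) (nat_lit 341) (nat_lit 88)) (XT.lf (nat_lit 76) (nat_lit 25665362871) (nat_lit 0) (nat_lit 19406922990) (nat_lit 1140) (nat_lit 8374005154) (nat_lit 156) (nat_lit 5) (nat_lit 155) (nat_lit 5) (nat_lit 170) (nat_lit 5) (nat_lit 352) (nat_lit 341) (nat_lit 87))) (XT.nd (nat_lit 78) (nat_lit 380) (nat_lit 0) (XT.lf (nat_lit 0) (nat_lit 47832302514) (nat_lit 1064) (nat_lit 4833945724) (nat_lit 1140) (nat_lit 1651631745) (nat_lit 156) (nat_lit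 5) (nat_lit 170) (nat_lit 5) (nat_lit 171) (nat_lit 5) (nat_lit 353) (nat_lit 341) (nat_lit 86)) (XT.nd (nat_lit 39702) (nat_lit 380) (nat_lit 0) (XT.lf (nat_lit 76) (nat_lit 18979026299) (nat_lit 0) (nat_lit 32069851294) (nat_lit 1140) (nat_lit 4155528288) (nat_lit 157) (nat_lit 5) (nat_lit 156) (nat_lit 5) (nat_lit 171) (nat_lit 5) (nat_lit 354) (nat_lit 341) (nat_lit 85)) (XT.lf (nat_lit 0) (nat_lit 14699819930) (nat_lit 1140) (nat_lit 4266313964) (nat_lit 1140) (nat_lit 4266313964) (nat_lit 151) (nat_lit 3) (nat_lit 166) (nat_lit 3) (nat_lit 166) (nat_lit 5) (nat_lit 342) (nat_lit 342) (nat_lit 96))))) (XT.nd (nat_lit 234) (nat_lit 0) (nat_lit 76) (XT.nd (nat_lit 78) (nat_lit 0) (nat_lit 76) (XT.lf (nat_lit 76) (nat_lit 10977645099) (nat_lit 0) (nat_lit 18995874033) (nat_lit 1140) (nat_lit 17184296647) (nat_lit 152) (nat_lit 5) (nat_lit 151) (nat_lit 3) (nat_lit 166) (nat_lit 5) (nat_lit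 343) (nat_lit 342) (nat_lit 95)) (XT.nd (nat_lit 78) (nat_lit 0) (nat_lit 0) (XT.lf (nat_lit 0) (nat_lit 30655451467) (nat_lit 1064) (nat_lit 16627145831) (nat_lit 1140) (nat_lit 586203650) (nat_lit 152) (nat_lit 5) (nat_lit 166) (nat_lit 5) (nat_lit 167) (nat_lit 5) (nat_lit 344) (nat_lit 342) (nat_lit 94)) (XT.lf (nat_lit 76) (nat_lit 3389957701) (nat_lit 0) (nat_lit 28187511184) (nat_lit 1140) (nat_lit 17017060505) (nat_lit 153) (nat_lit 5) (nat_lit 152) (nat_lit 5) (nat_lit 167) (nat_lit 5) (nat_lit 345) (nat_lit 342) (nat_lit 93)))) (XT.nd (nat_lit 78) (nat_lit 0) (nat_lit 76) (XT.lf (nat_lit 76) (nat_lit 24347835872) (nat_lit 0) (nat_lit 8346199980) (nat_lit 1140) (nat_lit 16642989623) (nat_lit 153) (nat_lit 5) (nat_lit 152) (nat_lit 5) (nat_lit 167) (nat_lit 5) (nat_lit 346) (nat_lit 342) (nat_lit 92)) (XT.nd (nat_lit 78) (nat_lit 0) (nat_lit 0) (XT.lf (nat_lit 0) (nat_lit 33959340669)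 (nat_lit 1064) (nat_lit 4284163631) (nat_lit 1140) (nat_lit 11854837304) (nat_lit 153) (nat_lit 5) (nat_lit 167) (nat_lit 5) (nat_lit 168) (nat_lit 5) (nat_lit 347) (nat_lit 342) (nat_lit 91)) (XT.lf (nat_lit 76) (nat_lit 17296310471) (nat_lit 0) (nat_lit 18214242030) (nat_lit 1140) (nat_lit 15364508598) (nat_lit 154) (nat_lit 5) (nat_lit 153) (nat_lit 5) (nat_lit 168) (nat_lit 5) (nat_lit 348) (nat_lit 342) (nat_lit 90)))))) (XT.nd (nat_lit 40248) (nat_lit 0) (nat_lit 0) (XT.nd (nat_lit 234) (nat_lit 228) (nat_lit 0) (XT.nd (nat_lit 78) (nat_lit 0) (nat_lit 0) (XT.lf (nat_lit 0) (nat_lit 37174288833) (nat_lit 1064) (nat_lit 12086023933) (nat_lit 1140) (nat_lit 2412792017) (nat_lit 154) (nat_lit 5) (nat_lit 168) (nat_lit 5) (nat_lit 169) (nat_lit 5) (nat_lit 349) (nat_lit 342) (nat_lit 89)) (XT.nd (nat_lit 78) (nat_lit 0) (nat_lit 0) (XT.lf (nat_lit 76) (nat_lit 10066998514) (nat_lit 0) (nat_lit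 29097149929) (nat_lit 1140) (nat_lit 13322657183) (nat_lit 155) (nat_lit 5) (nat_lit 154) (nat_lit 5) (nat_lit 169) (nat_lit 5) (nat_lit 350) (nat_lit 342) (nat_lit 88)) (XT.lf (nat_lit 76) (nat_lit 33131778647) (nat_lit 0) (nat_lit 8203092884) (nat_lit 1140) (nat_lit 11986413055) (nat_lit 155) (nat_lit 5) (nat_lit 154) (nat_lit 5) (nat_lit 169) (nat_lit 5) (nat_lit 351) (nat_lit 342) (nat_lit 87)))) (XT.nd (nat_lit 78) (nat_lit 304) (nat_lit 0) (XT.lf (nat_lit 76) (nat_lit 2630416511) (nat_lit 0) (nat_lit 41092754513) (nat_lit 1140) (nat_lit 10453055308) (nat_lit 156) (nat_lit 5) (nat_lit 155) (nat_lit 5) (nat_lit 170) (nat_lit 5) (nat_lit 352) (nat_lit 342) (nat_lit 86)) (XT.nd (nat_lit 39858) (nat_lit 304) (nat_lit 0) (XT.lf (nat_lit 76) (nat_lit 26465374472) (nat_lit 0) (nat_lit 20001211808) (nat_lit 1140) (nat_lit 8581728047) (nat_lit 156) (nat_lit 5) (nat_lit 155) (nat_lit 5) (nat_lit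 170) (nat_lit 5) (nat_lit 353) (nat_lit 342) (nat_lit 85)) (XT.lf (nat_lit 0) (nat_lit 15167912352) (nat_lit 1140) (nat_lit 4380314907) (nat_lit 1140) (nat_lit 4380314907) (nat_lit 151) (nat_lit 3) (nat_lit 166) (nat_lit 3) (nat_lit 166) (nat_lit 5) (nat_lit 343) (nat_lit 343) (nat_lit 94))))) (XT.nd (nat_lit 234) (nat_lit 0) (nat_lit 76) (XT.nd (nat_lit 78) (nat_lit 0) (nat_lit 76) (XT.lf (nat_lit 76) (nat_lit 11334677120) (nat_lit 0) (nat_lit 19590931015) (nat_lit 1140) (nat_lit 17645227083) (nat_lit 152) (nat_lit 5) (nat_lit 151) (nat_lit 3) (nat_lit 166) (nat_lit 5) (nat_lit 344) (nat_lit 343) (nat_lit 93)) (XT.nd (nat_lit 78) (nat_lit 0) (nat_lit 0) (XT.lf (nat_lit 0) (nat_lit 31626223143) (nat_lit 1064) (nat_lit 17097164326) (nat_lit 1140) (nat_lit 579819475) (nat_lit 152) (nat_lit 5) (nat_lit 166) (nat_lit 5) (nat_lit 167) (nat_lit 5) (nat_lit 345) (nat_lit 343) (nat_lit 92)) (XT.lf (nat_lit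 76) (nat_lit 3520169999) (nat_lit 0) (nat_lit 29054516588) (nat_lit 1140) (nat_lit 17476060723) (nat_lit 153) (nat_lit 5) (nat_lit 152) (nat_lit 5) (nat_lit 167) (nat_lit 5) (nat_lit 346) (nat_lit 343) (nat_lit 91)))) (XT.nd (nat_lit 78) (nat_lit 0) (nat_lit 76) (XT.lf (nat_lit 76) (nat_lit 25105954023) (nat_lit 0) (nat_lit 8617343328) (nat_lit 1140) (nat_lit 17092268052) (nat_lit 153) (nat_lit 5) (nat_lit 152) (nat_lit 5) (nat_lit 167) (nat_lit 5) (nat_lit 347) (nat_lit 343) (nat_lit 90)) (XT.nd (nat_lit 78) (nat_lit 0) (nat_lit 0) (XT.lf (nat_lit 0) (nat_lit 35024956705) (nat_lit 1064) (nat_lit 4384092963) (nat_lit 1140) (nat_lit 12190722910) (nat_lit 153) (nat_lit 5) (nat_lit 167) (nat_lit 5) (nat_lit 168) (nat_lit 5) (nat_lit 348) (nat_lit 343) (nat_lit 89)) (XT.lf (nat_lit 76) (nat_lit 17843515013) (nat_lit 0) (nat_lit 18778097912) (nat_lit 1140) (nat_lit 15778216819) (nat_lit 154) (nat_lit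 5) (nat_lit 153) (nat_lit 5) (nat_lit 168) (nat_lit 5) (nat_lit 349) (nat_lit 343) (nat_lit 88))))))) (XT.nd (nat_lit 80886) (nat_lit 0) (nat_lit 0) (XT.nd (nat_lit 40326) (nat_lit 0) (nat_lit 76) (XT.nd (nat_lit 156) (nat_lit 228) (nat_lit 0) (XT.nd (nat_lit 78) (nat_lit 0) (nat_lit 0) (XT.lf (nat_lit 0) (nat_lit 38333766347) (nat_lit 1064) (nat_lit 12419511495) (nat_lit 1140) (nat_lit 2468584975) (nat_lit 154) (nat_lit 5) (nat_lit 168) (nat_lit 5) (nat_lit 169) (nat_lit 5) (nat_lit 350) (nat_lit 343) (nat_lit 87)) (XT.lf (nat_lit 76) (nat_lit 10397816399) (nat_lit 0) (nat_lit 29984493465) (nat_lit 1140) (nat_lit 13677698315) (nat_lit 155) (nat_lit 5) (nat_lit 154) (nat_lit 5) (nat_lit 169) (nat_lit 5) (nat_lit 351) (nat_lit 343) (nat_lit 86))) (XT.nd (nat_lit 40014) (nat_lit 228) (nat_lit 0) (XT.lf (nat_lit 76) (nat_lit 34153700869) (nat_lit 0) (nat_lit 8463194446) (nat_lit 1140) (nat_lit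 12302667016) (nat_lit 155) (nat_lit 5) (nat_lit 154) (nat_lit 5) (nat_lit 169) (nat_lit 5) (nat_lit 352) (nat_lit 343) (nat_lit 85)) (XT.nd (nat_lit 78) (nat_lit 0) (nat_lit 0) (XT.lf (nat_lit 0) (nat_lit 15648492021) (nat_lit 1140) (nat_lit 4498538874) (nat_lit 1140) (nat_lit 4498538874) (nat_lit 151) (nat_lit 3) (nat_lit 166) (nat_lit 3) (nat_lit 166) (nat_lit 5) (nat_lit 344) (nat_lit 344) (nat_lit 92)) (XT.lf (nat_lit 76) (nat_lit 11700829856) (nat_lit 0) (nat_lit 20202394227) (nat_lit 1140) (nat_lit 18123119607) (nat_lit 152) (nat_lit 5) (nat_lit 151) (nat_lit 3) (nat_lit 166) (nat_lit 5) (nat_lit 345) (nat_lit 344) (nat_lit 91))))) (XT.nd (nat_lit 234) (nat_lit 0) (nat_lit 76) (XT.nd (nat_lit 78) (nat_lit 0) (nat_lit 0) (XT.lf (nat_lit 0) (nat_lit 32623184153) (nat_lit 1064) (nat_lit 17582936378) (nat_lit 1140) (nat_lit 574619767) (nat_lit 152) (nat_lit 5) (nat_lit 166) (nat_lit 5) (nat_lit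 167) (nat_lit 5) (nat_lit 346) (nat_lit 344) (nat_lit 90)) (XT.nd (nat_lit 78) (nat_lit 0) (nat_lit 0) (XT.lf (nat_lit 76) (nat_lit 3652651871) (nat_lit 0) (nat_lit 29946304851) (nat_lit 1140) (nat_lit 17951787923) (nat_lit 153) (nat_lit 5) (nat_lit 152) (nat_lit 5) (nat_lit 167) (nat_lit 5) (nat_lit 347) (nat_lit 344) (nat_lit 89)) (XT.lf (nat_lit 76) (nat_lit 25885226596) (nat_lit 0) (nat_lit 8895429419) (nat_lit 1140) (nat_lit 17557895684) (nat_lit 153) (nat_lit 5) (nat_lit 152) (nat_lit 5) (nat_lit 167) (nat_lit 5) (nat_lit 348) (nat_lit 344) (nat_lit 88)))) (XT.nd (nat_lit 78) (nat_lit 0) (nat_lit 0) (XT.lf (nat_lit 0) (nat_lit 36119852655) (nat_lit 1064) (nat_lit 4488661679) (nat_lit 1140) (nat_lit 12537819362) (nat_lit 153) (nat_lit 5) (nat_lit 167) (nat_lit 5) (nat_lit 168) (nat_lit 5) (nat_lit 349) (nat_lit 344) (nat_lit 87)) (XT.nd (nat_lit 78) (nat_lit 0) (nat_lit 76) (XT.lf (nat_lit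 76) (nat_lit 18405510281) (nat_lit 0) (nat_lit 19357868996) (nat_lit 1140) (nat_lit 16207047311) (nat_lit 154) (nat_lit 5) (nat_lit 153) (nat_lit 5) (nat_lit 168) (nat_lit 5) (nat_lit 350) (nat_lit 344) (nat_lit 86)) (XT.lf (nat_lit 0) (nat_lit 39525488122) (nat_lit 1064) (nat_lit 12764673750) (nat_lit 1140) (nat_lit 2527004103) (nat_lit 154) (nat_lit 5) (nat_lit 168) (nat_lit 5) (nat_lit 169) (nat_lit 5) (nat_lit 351) (nat_lit 344) (nat_lit 85)))))) (XT.nd (nat_lit 40716) (nat_lit 0) (nat_lit 0) (XT.nd (nat_lit 234) (nat_lit 0) (nat_lit 76) (XT.nd (nat_lit 78) (nat_lit 0) (nat_lit 0) (XT.lf (nat_lit 0) (nat_lit 16142022847) (nat_lit 1140) (nat_lit 4621066460) (nat_lit 1140) (nat_lit 4621066460) (nat_lit 151) (nat_lit 3) (nat_lit 166) (nat_lit 3) (nat_lit 166) (nat_lit 5) (nat_lit 345) (nat_lit 345) (nat_lit 90)) (XT.nd (nat_lit 78) (nat_lit 0) (nat_lit 76) (XT.lf (nat_lit 76) (nat_lit 12076468214)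 (nat_lit 0) (nat_lit 20830838833) (nat_lit 1140) (nat_lit 18618303168) (nat_lit 152) (nat_lit 5) (nat_lit 151) (nat_lit 3) (nat_lit 166) (nat_lit 5) (nat_lit 346) (nat_lit 345) (nat_lit 89)) (XT.lf (nat_lit 0) (nat_lit 33647288591) (nat_lit 1064) (nat_lit 18084839704) (nat_lit 1140) (nat_lit 570561073) (nat_lit 152) (nat_lit 5) (nat_lit 166) (nat_lit 5) (nat_lit 167) (nat_lit 5) (nat_lit 347) (nat_lit 345) (nat_lit 88)))) (XT.nd (nat_lit 78) (nat_lit 0) (nat_lit 0) (XT.lf (nat_lit 76) (nat_lit 3787565362) (nat_lit 0) (nat_lit 30863689911) (nat_lit 1140) (nat_lit 18444574173) (nat_lit 153) (nat_lit 5) (nat_lit 152) (nat_lit 5) (nat_lit 167) (nat_lit 5) (nat_lit 348) (nat_lit 345) (nat_lit 87)) (XT.nd (nat_lit 78) (nat_lit 0) (nat_lit 76) (XT.lf (nat_lit 76) (nat_lit 26686379448) (nat_lit 0) (nat_lit 9180734937) (nat_lit 1140) (nat_lit 18040198198) (nat_lit 153) (nat_lit 5) (nat_lit 152) (nat_lit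 5) (nat_lit 167) (nat_lit 5) (nat_lit 349) (nat_lit 345) (nat_lit 86)) (XT.lf (nat_lit 0) (nat_lit 37245061250) (nat_lit 1064) (nat_lit 4597914729) (nat_lit 1140) (nat_lit 12896397873) (nat_lit 153) (nat_lit 5) (nat_lit 167) (nat_lit 5) (nat_lit 168) (nat_lit 5) (nat_lit 350) (nat_lit 345) (nat_lit 85))))) (XT.nd (nat_lit 234) (nat_lit 0) (nat_lit 0) (XT.nd (nat_lit 78) (nat_lit 0) (nat_lit 0) (XT.lf (nat_lit 0) (nat_lit 16648977533) (nat_lit 1140) (nat_lit 4747983325) (nat_lit 1140) (nat_lit 4747983325) (nat_lit 151) (nat_lit 3) (nat_lit 166) (nat_lit 3) (nat_lit 166) (nat_lit 5) (nat_lit 346) (nat_lit 346) (nat_lit 88)) (XT.nd (nat_lit 78) (nat_lit 0) (nat_lit 76) (XT.lf (nat_lit 76) (nat_lit 12461962809) (nat_lit 0) (nat_lit 21476852488) (nat_lit 1140) (nat_lit 19131126910) (nat_lit 152) (nat_lit 5) (nat_lit 151) (nat_lit 3) (nat_lit 166) (nat_lit 5) (nat_lit 347) (nat_lit 346) (nat_lit 87))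 (XT.lf (nat_lit 0) (nat_lit 34699509505) (nat_lit 1064) (nat_lit 18603268799) (nat_lit 1140) (nat_lit 567603170) (nat_lit 152) (nat_lit 5) (nat_lit 166) (nat_lit 5) (nat_lit 167) (nat_lit 5) (nat_lit 348) (nat_lit 346) (nat_lit 86)))) (XT.nd (nat_lit 40560) (nat_lit 76) (nat_lit 0) (XT.lf (nat_lit 76) (nat_lit 3925071986) (nat_lit 0) (nat_lit 31807506079) (nat_lit 1140) (nat_lit 18954771246) (nat_lit 153) (nat_lit 5) (nat_lit 152) (nat_lit 5) (nat_lit 167) (nat_lit 5) (nat_lit 349) (nat_lit 346) (nat_lit 85)) (XT.nd (nat_lit 78) (nat_lit 0) (nat_lit 76) (XT.lf (nat_lit 76) (nat_lit 12857690435) (nat_lit 0) (nat_lit 22141035988) (nat_lit 1140) (nat_lit 19661960186) (nat_lit 152) (nat_lit 5) (nat_lit 151) (nat_lit 3) (nat_lit 166) (nat_lit 5) (nat_lit 348) (nat_lit 347) (nat_lit 85)) (XT.lf (nat_lit 0) (nat_lit 35780840021) (nat_lit 1064) (nat_lit 19138635130) (nat_lit 1140) (nat_lit 565708901)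 (nat_lit 152) (nat_lit 5) (nat_lit 166) (nat_lit 5) (nat_lit 167) (nat_lit 5) (nat_lit 349) (nat_lit 347) (nat_lit 84))))))))

set_option maxRecDepth 10000000 in
noncomputable def Tp : PT := (PT.nd (nat_lit 5455788) (PT.nd (nat_lit 4927104) (PT.nd (nat_lit 4440072) (PT.nd (nat_lit 3994146) (PT.nd (nat_lit 3669276) pc0 pc1) (PT.nd (nat_lit 243438) pc2 pc3)) (PT.nd (nat_lit 244452) (PT.nd (nat_lit 122460) pc4 pc5) (PT.nd (nat_lit 121524) pc6 pc7))) (PT.nd (nat_lit 285714) (PT.nd (nat_lit 162708) (PT.nd (nat_lit 81510) pc8 pc9) (PT.nd (nat_lit 80886) pc10 pc11)) (PT.nd (nat_lit 121914) (PT.nd (nat_lit 80184) pc12 pc13) (PT.nd (nat_lit 79638) pc14 pc15)))) (PT.nd (nat_lit 363168) (PT.nd (nat_lit 201552) (PT.nd (nat_lit 119886) (PT.nd (nat_lit 41262) pc16 pc17) (PT.nd (nat_lit 40872) pc18 pc19)) (PT.nd (nat_lit 81120) (PT.nd (nat_lit 40638) pc20 pc21) (PT.nd (nat_lit 40326) pc22 pc23))) (PT.nd (nat_lit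 125892) (PT.nd (nat_lit 43602) (PT.nd (nat_lit 3588) pc24 pc25) (PT.nd (nat_lit 40794) pc26 pc27)) (PT.nd (nat_lit 162240) (PT.nd (nat_lit 80574) pc28 pc29) (PT.nd (nat_lit 117234) pc30 pc31)))))

set_option maxRecDepth 10000000 in
noncomputable def Tx : XT := (XT.nd (nat_lit 7712016) (nat_lit 0) (nat_lit 152) XT.nil (XT.nd (nat_lit 6416670) (nat_lit 0) (nat_lit 0) (XT.nd (nat_lit 3087708) (nat_lit 0) (nat_lit 380) (XT.nd (nat_lit 2151240) (nat_lit 0) (nat_lit 152) (XT.nd (nat_lit 1502358) (nat_lit 0) (nat_lit 0) (XT.nd (nat_lit 1054872) (nat_lit 0) (nat_lit 0) (XT.nd (nat_lit 730314) (nat_lit 0) (nat_lit 0) (XT.nd (nat_lit 487656) (nat_lit 0) (nat_lit 0) (XT.nd (nat_lit 364338) (nat_lit 0) (nat_lit 0) (XT.nd (nat_lit 243126) (nat_lit 0) (nat_lit 0) xc0 xc1) (XT.nd (nat_lit 81198) (nat_lit 0) (nat_lit 0) xc2 xc3)) (XT.nd (nat_lit 159978) (nat_lit 0) (nat_lit 0) (XT.nd (nat_lit 80262) (nat_lit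 0) (nat_lit 0) xc4 xc5) (XT.nd (nat_lit 41418) (nat_lit 0) (nat_lit 0) xc6 xc7))) (XT.nd (nat_lit 163488) (nat_lit 0) (nat_lit 0) (XT.nd (nat_lit 82056) (nat_lit 0) (nat_lit 0) (XT.nd (nat_lit 41106) (nat_lit 0) (nat_lit 0) xc8 xc9) (XT.nd (nat_lit 40794) (nat_lit 0) (nat_lit 0) xc10 xc11)) (XT.nd (nat_lit 80808) (nat_lit 0) (nat_lit 0) (XT.nd (nat_lit 40482) (nat_lit 0) (nat_lit 0) xc12 xc13) (XT.nd (nat_lit 40170) (nat_lit 0) (nat_lit 0) xc14 xc15)))) (XT.nd (nat_lit 243828) (nat_lit 0) (nat_lit 0) (XT.nd (nat_lit 122616) (nat_lit 0) (nat_lit 0) (XT.nd (nat_lit 79560) (nat_lit 0) (nat_lit 0) (XT.nd (nat_lit 39858) (nat_lit 0) (nat_lit 0) xc16 xc17) (XT.nd (nat_lit 39546) (nat_lit 0) (nat_lit 0) xc18 xc19)) (XT.nd (nat_lit 78624) (nat_lit 0) (nat_lit 0) (XT.nd (nat_lit 39390) (nat_lit 0) (nat_lit 0) xc20 xc21) (XT.nd (nat_lit 3510) (nat_lit 0) (nat_lit 0) xc22 xc23))) (XT.nd (nat_lit 119808)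 (nat_lit 0) (nat_lit 0) (XT.nd (nat_lit 77688) (nat_lit 0) (nat_lit 0) (XT.nd (nat_lit 38922) (nat_lit 0) (nat_lit 0) xc24 xc25) (XT.nd (nat_lit 3510) (nat_lit 152) (nat_lit 0) xc26 xc27)) (XT.nd (nat_lit 41964) (nat_lit 0) (nat_lit 0) (XT.nd (nat_lit 3510) (nat_lit 0) (nat_lit 0) xc28 xc29) (XT.nd (nat_lit 38298) (nat_lit 0) (nat_lit 152) xc30 xc31))))) (XT.nd (nat_lit 362466) (nat_lit 0) (nat_lit 0) (XT.nd (nat_lit 199680) (nat_lit 0) (nat_lit 0) (XT.nd (nat_lit 117468) (nat_lit 0) (nat_lit 0) (XT.nd (nat_lit 41652) (nat_lit 0) (nat_lit 0) (XT.nd (nat_lit 38142) (nat_lit 0) (nat_lit 0) xc32 xc33) (XT.nd (nat_lit 37986) (nat_lit 0) (nat_lit 0) xc34 xc35)) (XT.nd (nat_lit 41184) (nat_lit 0) (nat_lit 0) (XT.nd (nat_lit 3510) (nat_lit 228) (nat_lit 0) xc36 xc37) (XT.nd (nat_lit 3510) (nat_lit 228) (nat_lit 0) xc38 xc39))) (XT.nd (nat_lit 81588) (nat_lit 0) (nat_lit 0) (XT.nd (nat_lit 40872) (nat_lit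 0) (nat_lit 0) (XT.nd (nat_lit 3510) (nat_lit 152) (nat_lit 0) xc40 xc41) (XT.nd (nat_lit 3510) (nat_lit 152) (nat_lit 0) xc42 xc43)) (XT.nd (nat_lit 40638) (nat_lit 0) (nat_lit 0) (XT.nd (nat_lit 3510) (nat_lit 152) (nat_lit 0) xc44 xc45) (XT.nd (nat_lit 3510) (nat_lit 152) (nat_lit 0) xc46 xc47)))) (XT.nd (nat_lit 160446) (nat_lit 0) (nat_lit 76) (XT.nd (nat_lit 80496) (nat_lit 0) (nat_lit 76) (XT.nd (nat_lit 40326) (nat_lit 0) (nat_lit 76) (XT.nd (nat_lit 3510) (nat_lit 152) (nat_lit 0) xc48 xc49) (XT.nd (nat_lit 3510) (nat_lit 152) (nat_lit 0) xc50 xc51)) (XT.nd (nat_lit 40014) (nat_lit 0) (nat_lit 0) (XT.nd (nat_lit 3510) (nat_lit 152) (nat_lit 0) xc52 xc53) (XT.nd (nat_lit 3510) (nat_lit 304) (nat_lit 0) xc54 xc55))) (XT.nd (nat_lit 46800) (nat_lit 0) (nat_lit 0) (XT.nd (nat_lit 39780) (nat_lit 0) (nat_lit 76) (XT.nd (nat_lit 3510) (nat_lit 456) (nat_lit 0) xc56 xc57) (XT.nd (nat_lit 3510)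 (nat_lit 684) (nat_lit 0) xc58 xc59)) (XT.nd (nat_lit 39624) (nat_lit 0) (nat_lit 0) (XT.nd (nat_lit 36114) (nat_lit 0) (nat_lit 152) xc60 xc61) (XT.nd (nat_lit 35958) (nat_lit 0) (nat_lit 380) xc62 xc63)))))) (XT.nd (nat_lit 521742) (nat_lit 0) (nat_lit 76) (XT.nd (nat_lit 279474) (nat_lit 0) (nat_lit 0) (XT.nd (nat_lit 156390) (nat_lit 0) (nat_lit 0) (XT.nd (nat_lit 78468) (nat_lit 0) (nat_lit 0) (XT.nd (nat_lit 39312) (nat_lit 0) (nat_lit 0) (XT.nd (nat_lit 35802) (nat_lit 0) (nat_lit 684) xc64 xc65) (XT.nd (nat_lit 3510) (nat_lit 0) (nat_lit 0) xc66 xc67)) (XT.nd (nat_lit 39000) (nat_lit 0) (nat_lit 0) (XT.nd (nat_lit 3510) (nat_lit 152) (nat_lit 0) xc68 xc69) (XT.nd (nat_lit 3510) (nat_lit 684) (nat_lit 0) xc70 xc71))) (XT.nd (nat_lit 45786) (nat_lit 0) (nat_lit 0) (XT.nd (nat_lit 7020) (nat_lit 152) (nat_lit 0) (XT.nd (nat_lit 3510) (nat_lit 1520) (nat_lit 0) xc72 xc73) (XT.nd (nat_lit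 35256) (nat_lit 0) (nat_lit 684) xc74 xc75)) (XT.nd (nat_lit 38688) (nat_lit 0) (nat_lit 0) (XT.nd (nat_lit 35178) (nat_lit 0) (nat_lit 2052) xc76 xc77) (XT.nd (nat_lit 3510) (nat_lit 304) (nat_lit 0) xc78 xc79)))) (XT.nd (nat_lit 121680) (nat_lit 0) (nat_lit 76) (XT.nd (nat_lit 45396) (nat_lit 0) (nat_lit 76) (XT.nd (nat_lit 7020) (nat_lit 76) (nat_lit 0) (XT.nd (nat_lit 3510) (nat_lit 912) (nat_lit 0) xc80 xc81) (XT.nd (nat_lit 34866) (nat_lit 0) (nat_lit 608) xc82 xc83)) (XT.nd (nat_lit 38220) (nat_lit 0) (nat_lit 0) (XT.nd (nat_lit 34710) (nat_lit 0) (nat_lit 1748) xc84 xc85) (XT.nd (nat_lit 3510) (nat_lit 152) (nat_lit 0) xc86 xc87))) (XT.nd (nat_lit 45006) (nat_lit 0) (nat_lit 0) (XT.nd (nat_lit 7020) (nat_lit 0) (nat_lit 0) (XT.nd (nat_lit 3510) (nat_lit 1140) (nat_lit 0) xc88 xc89) (XT.nd (nat_lit 34476) (nat_lit 0) (nat_lit 760) xc90 xc91)) (XT.nd (nat_lit 37830) (nat_lit 0) (nat_lit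 0) (XT.nd (nat_lit 34320) (nat_lit 0) (nat_lit 3192) xc92 xc93) (XT.nd (nat_lit 3510) (nat_lit 532) (nat_lit 0) xc94 xc95))))) (XT.nd (nat_lit 207324) (nat_lit 0) (nat_lit 76) (XT.nd (nat_lit 88920) (nat_lit 0) (nat_lit 0) (XT.nd (nat_lit 44538) (nat_lit 0) (nat_lit 0) (XT.nd (nat_lit 7020) (nat_lit 304) (nat_lit 0) (XT.nd (nat_lit 3510) (nat_lit 2052) (nat_lit 0) xc96 xc97) (XT.nd (nat_lit 34008) (nat_lit 0) (nat_lit 1976) xc98 xc99)) (XT.nd (nat_lit 37362) (nat_lit 0) (nat_lit 228) (XT.nd (nat_lit 3510) (nat_lit 228) (nat_lit 0) xc100 xc101) (XT.nd (nat_lit 3510) (nat_lit 1520) (nat_lit 0) xc102 xc103))) (XT.nd (nat_lit 74334) (nat_lit 0) (nat_lit 0) (XT.nd (nat_lit 37206) (nat_lit 0) (nat_lit 0) (XT.nd (nat_lit 33696) (nat_lit 0) (nat_lit 1748) xc104 xc105) (XT.nd (nat_lit 3510) (nat_lit 228) (nat_lit 0) xc106 xc107)) (XT.nd (nat_lit 7020) (nat_lit 228) (nat_lit 0) (XT.nd (nat_lit 3510) (nat_lit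 1520) (nat_lit 0) xc108 xc109) (XT.nd (nat_lit 33462) (nat_lit 0) (nat_lit 1900) xc110 xc111)))) (XT.nd (nat_lit 118482) (nat_lit 0) (nat_lit 0) (XT.nd (nat_lit 44070) (nat_lit 0) (nat_lit 0) (XT.nd (nat_lit 37050) (nat_lit 0) (nat_lit 152) (XT.nd (nat_lit 3510) (nat_lit 152) (nat_lit 0) xc112 xc113) (XT.nd (nat_lit 3510) (nat_lit 1976) (nat_lit 0) xc114 xc115)) (XT.nd (nat_lit 37128) (nat_lit 0) (nat_lit 0) (XT.nd (nat_lit 33618) (nat_lit 0) (nat_lit 2128) xc116 xc117) (XT.nd (nat_lit 3510) (nat_lit 228) (nat_lit 0) xc118 xc119))) (XT.nd (nat_lit 44382) (nat_lit 0) (nat_lit 0) (XT.nd (nat_lit 7020) (nat_lit 152) (nat_lit 0) (XT.nd (nat_lit 3510) (nat_lit 1976) (nat_lit 0) xc120 xc121) (XT.nd (nat_lit 33852) (nat_lit 0) (nat_lit 1824) xc122 xc123)) (XT.nd (nat_lit 37440) (nat_lit 0) (nat_lit 152) (XT.nd (nat_lit 3510) (nat_lit 152) (nat_lit 0) xc124 xc125) (XT.nd (nat_lit 3510) (nat_lit 1520)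 (nat_lit 0) xc126 xc127))))))) (XT.nd (nat_lit 1051440) (nat_lit 0) (nat_lit 760) (XT.nd (nat_lit 485082) (nat_lit 0) (nat_lit 152) (XT.nd (nat_lit 240708) (nat_lit 0) (nat_lit 76) (XT.nd (nat_lit 119886) (nat_lit 0) (nat_lit 76) (XT.nd (nat_lit 75114) (nat_lit 0) (nat_lit 76) (XT.nd (nat_lit 37518) (nat_lit 0) (nat_lit 0) (XT.nd (nat_lit 34008) (nat_lit 0) (nat_lit 1216) xc128 xc129) (XT.nd (nat_lit 34086) (nat_lit 0) (nat_lit 5548) xc130 xc131)) (XT.nd (nat_lit 37752) (nat_lit 0) (nat_lit 684) (XT.nd (nat_lit 3510) (nat_lit 988) (nat_lit 0) xc132 xc133) (XT.nd (nat_lit 3510) (nat_lit 3420) (nat_lit 0) xc134 xc135))) (XT.nd (nat_lit 75738) (nat_lit 0) (nat_lit 0) (XT.nd (nat_lit 37830) (nat_lit 0) (nat_lit 0) (XT.nd (nat_lit 34320) (nat_lit 0) (nat_lit 3192) xc136 xc137) (XT.nd (nat_lit 3510) (nat_lit 380) (nat_lit 0) xc138 xc139)) (XT.nd (nat_lit 7020) (nat_lit 76) (nat_lit 0) (XT.nd (nat_lit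 3510) (nat_lit 2052) (nat_lit 0) xc140 xc141) (XT.nd (nat_lit 34476) (nat_lit 0) (nat_lit 1520) xc142 xc143)))) (XT.nd (nat_lit 121680) (nat_lit 0) (nat_lit 76) (XT.nd (nat_lit 76362) (nat_lit 0) (nat_lit 76) (XT.nd (nat_lit 38142) (nat_lit 0) (nat_lit 0) (XT.nd (nat_lit 34632) (nat_lit 0) (nat_lit 4712) xc144 xc145) (XT.nd (nat_lit 3510) (nat_lit 836) (nat_lit 0) xc146 xc147)) (XT.nd (nat_lit 7020) (nat_lit 304) (nat_lit 0) (XT.nd (nat_lit 3510) (nat_lit 2736) (nat_lit 0) xc148 xc149) (XT.nd (nat_lit 34788) (nat_lit 0) (nat_lit 1596) xc150 xc151))) (XT.nd (nat_lit 76986) (nat_lit 0) (nat_lit 0) (XT.nd (nat_lit 38454) (nat_lit 0) (nat_lit 0) (XT.nd (nat_lit 34944) (nat_lit 0) (nat_lit 4940) xc152 xc153) (XT.nd (nat_lit 3510) (nat_lit 912) (nat_lit 0) xc154 xc155)) (XT.nd (nat_lit 7020) (nat_lit 304) (nat_lit 0) (XT.nd (nat_lit 3510) (nat_lit 2508) (nat_lit 0) xc156 xc157) (XT.nd (nat_lit 35100)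 (nat_lit 0) (nat_lit 1292) xc158 xc159))))) (XT.nd (nat_lit 280488) (nat_lit 0) (nat_lit 304) (XT.nd (nat_lit 123552) (nat_lit 0) (nat_lit 228) (XT.nd (nat_lit 77610) (nat_lit 0) (nat_lit 228) (XT.nd (nat_lit 38766) (nat_lit 0) (nat_lit 228) (XT.nd (nat_lit 35256) (nat_lit 0) (nat_lit 3420) xc160 xc161) (XT.nd (nat_lit 3510) (nat_lit 228) (nat_lit 0) xc162 xc163)) (XT.nd (nat_lit 38922) (nat_lit 0) (nat_lit 304) (XT.nd (nat_lit 3510) (nat_lit 1216) (nat_lit 0) xc164 xc165) (XT.nd (nat_lit 3510) (nat_lit 3116) (nat_lit 0) xc166 xc167))) (XT.nd (nat_lit 78234) (nat_lit 0) (nat_lit 76) (XT.nd (nat_lit 39078) (nat_lit 0) (nat_lit 0) (XT.nd (nat_lit 35568) (nat_lit 0) (nat_lit 1216) xc168 xc169) (XT.nd (nat_lit 35646) (nat_lit 0) (nat_lit 2812) xc170 xc171)) (XT.nd (nat_lit 39234) (nat_lit 0) (nat_lit 0) (XT.nd (nat_lit 3510) (nat_lit 0) (nat_lit 0) xc172 xc173) (XT.nd (nat_lit 3510) (nat_lit 760)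 (nat_lit 0) xc174 xc175)))) (XT.nd (nat_lit 125892) (nat_lit 0) (nat_lit 152) (XT.nd (nat_lit 46488) (nat_lit 0) (nat_lit 152) (XT.nd (nat_lit 39468) (nat_lit 0) (nat_lit 304) (XT.nd (nat_lit 3510) (nat_lit 1748) (nat_lit 0) xc176 xc177) (XT.nd (nat_lit 3510) (nat_lit 3040) (nat_lit 0) xc178 xc179)) (XT.nd (nat_lit 39624) (nat_lit 0) (nat_lit 0) (XT.nd (nat_lit 36114) (nat_lit 0) (nat_lit 608) xc180 xc181) (XT.nd (nat_lit 36192) (nat_lit 0) (nat_lit 1444) xc182 xc183))) (XT.nd (nat_lit 79716) (nat_lit 0) (nat_lit 152) (XT.nd (nat_lit 39780) (nat_lit 0) (nat_lit 76) (XT.nd (nat_lit 36270) (nat_lit 0) (nat_lit 2584) xc184 xc185) (XT.nd (nat_lit 36426) (nat_lit 0) (nat_lit 3420) xc186 xc187)) (XT.nd (nat_lit 40014) (nat_lit 0) (nat_lit 0) (XT.nd (nat_lit 3510) (nat_lit 0) (nat_lit 0) xc188 xc189) (XT.nd (nat_lit 3510) (nat_lit 456) (nat_lit 0) xc190 xc191)))))) (XT.nd (nat_lit 693030) (nat_lit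 0) (nat_lit 1444) (XT.nd (nat_lit 325260) (nat_lit 0) (nat_lit 608) (XT.nd (nat_lit 161694) (nat_lit 0) (nat_lit 304) (XT.nd (nat_lit 80652) (nat_lit 0) (nat_lit 152) (XT.nd (nat_lit 40248) (nat_lit 0) (nat_lit 152) (XT.nd (nat_lit 3510) (nat_lit 836) (nat_lit 0) xc192 xc193) (XT.nd (nat_lit 3510) (nat_lit 836) (nat_lit 0) xc194 xc195)) (XT.nd (nat_lit 40482) (nat_lit 0) (nat_lit 0) (XT.nd (nat_lit 3510) (nat_lit 1292) (nat_lit 0) xc196 xc197) (XT.nd (nat_lit 3510) (nat_lit 1520) (nat_lit 0) xc198 xc199))) (XT.nd (nat_lit 81510) (nat_lit 0) (nat_lit 152) (XT.nd (nat_lit 40716) (nat_lit 0) (nat_lit 0) (XT.nd (nat_lit 3510) (nat_lit 1596) (nat_lit 0) xc200 xc201) (XT.nd (nat_lit 3510) (nat_lit 1596) (nat_lit 0) xc202 xc203)) (XT.nd (nat_lit 40950) (nat_lit 0) (nat_lit 0) (XT.nd (nat_lit 3510) (nat_lit 1216) (nat_lit 0) xc204 xc205) (XT.nd (nat_lit 3510) (nat_lit 988) (nat_lit 0) xc206 xc207))))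 (XT.nd (nat_lit 165360) (nat_lit 0) (nat_lit 228) (XT.nd (nat_lit 82446) (nat_lit 0) (nat_lit 76) (XT.nd (nat_lit 41184) (nat_lit 0) (nat_lit 0) (XT.nd (nat_lit 3510) (nat_lit 380) (nat_lit 0) xc208 xc209) (XT.nd (nat_lit 3510) (nat_lit 76) (nat_lit 0) xc210 xc211)) (XT.nd (nat_lit 41418) (nat_lit 0) (nat_lit 152) (XT.nd (nat_lit 37908) (nat_lit 0) (nat_lit 2660) xc212 xc213) (XT.nd (nat_lit 37986) (nat_lit 0) (nat_lit 1368) xc214 xc215))) (XT.nd (nat_lit 118248) (nat_lit 0) (nat_lit 380) (XT.nd (nat_lit 41652) (nat_lit 0) (nat_lit 152) (XT.nd (nat_lit 38142) (nat_lit 0) (nat_lit 380) xc216 xc217) (XT.nd (nat_lit 38220) (nat_lit 0) (nat_lit 0) xc218 xc219)) (XT.nd (nat_lit 41964) (nat_lit 0) (nat_lit 76) (XT.nd (nat_lit 3510) (nat_lit 1596) (nat_lit 0) xc220 xc221) (XT.nd (nat_lit 38610) (nat_lit 0) (nat_lit 2736) xc222 xc223))))) (XT.nd (nat_lit 487344) (nat_lit 0) (nat_lit 2204) (XT.nd (nat_lit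 241332) (nat_lit 0) (nat_lit 760) (XT.nd (nat_lit 120120) (nat_lit 0) (nat_lit 228) (XT.nd (nat_lit 42276) (nat_lit 0) (nat_lit 0) (XT.nd (nat_lit 38766) (nat_lit 0) (nat_lit 228) xc224 xc225) (XT.nd (nat_lit 38844) (nat_lit 0) (nat_lit 228) xc226 xc227)) (XT.nd (nat_lit 42588) (nat_lit 0) (nat_lit 304) (XT.nd (nat_lit 39078) (nat_lit 0) (nat_lit 2660) xc228 xc229) (XT.nd (nat_lit 39234) (nat_lit 0) (nat_lit 228) xc230 xc231))) (XT.nd (nat_lit 122304) (nat_lit 0) (nat_lit 608) (XT.nd (nat_lit 42978) (nat_lit 0) (nat_lit 228) (XT.nd (nat_lit 3510) (nat_lit 836) (nat_lit 0) xc232 xc233) (XT.nd (nat_lit 39624) (nat_lit 0) (nat_lit 0) xc234 xc235)) (XT.nd (nat_lit 43368) (nat_lit 0) (nat_lit 228) (XT.nd (nat_lit 39858) (nat_lit 0) (nat_lit 1520) xc236 xc237) (XT.nd (nat_lit 40092) (nat_lit 0) (nat_lit 304) xc238 xc239)))) (XT.nd (nat_lit 364026) (nat_lit 0) (nat_lit 2280) (XT.nd (nat_lit 162084)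 (nat_lit 0) (nat_lit 684) (XT.nd (nat_lit 80808) (nat_lit 0) (nat_lit 380) (XT.nd (nat_lit 40326) (nat_lit 0) (nat_lit 380) xc240 xc241) (XT.nd (nat_lit 40560) (nat_lit 0) (nat_lit 304) xc242 xc243)) (XT.nd (nat_lit 81744) (nat_lit 0) (nat_lit 836) (XT.nd (nat_lit 40794) (nat_lit 0) (nat_lit 380) xc244 xc245) (XT.nd (nat_lit 41106) (nat_lit 0) (nat_lit 0) xc246 xc247))) (XT.nd (nat_lit 205140) (nat_lit 0) (nat_lit 1900) (XT.nd (nat_lit 82992) (nat_lit 0) (nat_lit 456) (XT.nd (nat_lit 41418) (nat_lit 0) (nat_lit 0) xc248 xc249) (XT.nd (nat_lit 80106) (nat_lit 0) (nat_lit 988) xc250 xc251)) (XT.nd (nat_lit 162552) (nat_lit 0) (nat_lit 1672) (XT.nd (nat_lit 80964) (nat_lit 0) (nat_lit 1064) xc252 xc253) (XT.nd (nat_lit 121680) (nat_lit 0) (nat_lit 684) xc254 xc255)))))))) XT.nil))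

set_option maxRecDepth 10000000 in
noncomputable def Te : XT := XT.nil

set_option maxRecDepth 10000000 in
noncomputable def Tz : ZL := (ZL.cons (nat_lit 76) (nat_lit 3) (nat_lit 85689704650236453296) (ZL.cons (nat_lit 152) (nat_lit 6) (nat_lit 169216800372508710436) (ZL.cons (nat_lit 228) (nat_lit 6) (nat_lit 167130443027744671946) (ZL.cons (nat_lit 304) (nat_lit 3) (nat_lit 83530460466818374507) (ZL.cons (nat_lit 380) (nat_lit 6) (nat_lit 164981494962637712304) (ZL.cons (nat_lit 456) (nat_lit 6) (nat_lit 162976705485362183670) (ZL.cons (nat_lit 532) (nat_lit 3) (nat_lit 81454604153308313713) (ZL.cons (nat_lit 608) (nat_lit 6) (nat_lit 160911772323768389178) (ZL.cons (nat_lit 684) (nat_lit 6) (nat_lit 158987441681680800076) (ZL.cons (nat_lit 760) (nat_lit 3) (nat_lit 79460955220090130015) (ZL.cons (nat_lit 836) (nat_lit 6) (nat_lit 157134534926394754456) (ZL.cons (nat_lit 912) (nat_lit 6)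 (nat_lit 157005381120330583298) (ZL.cons (nat_lit 988) (nat_lit 6) (nat_lit 155160509726949587420) (ZL.cons (nat_lit 1064) (nat_lit 3) (nat_lit 77548443581192978154) (ZL.cons (nat_lit 1140) (nat_lit 6) (nat_lit 153385684236489657934) (ZL.cons (nat_lit 1216) (nat_lit 6) (nat_lit 153260292191767161666) (ZL.cons (nat_lit 1292) (nat_lit 6) (nat_lit 151493991416752299450) (ZL.cons (nat_lit 1368) (nat_lit 3) (nat_lit 75716110968296717147) (ZL.cons (nat_lit 1444) (nat_lit 6) (nat_lit 149796441467732133376) (ZL.cons (nat_lit 1520) (nat_lit 6) (nat_lit 149674701618486991370) (ZL.cons (nat_lit 1596) (nat_lit 6) (nat_lit 147986195540082497164) (ZL.cons (nat_lit 1672) (nat_lit 3) (nat_lit 73963112585498110157) (ZL.cons (nat_lit 1748) (nat_lit 6) (nat_lit 146365228307719209886) (ZL.cons (nat_lit 1824) (nat_lit 6) (nat_lit 146247034279325868132) (ZL.cons (nat_lit 1900) (nat_lit 6) (nat_lit 144810383542262054820)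 (ZL.cons (nat_lit 1976) (nat_lit 6) (nat_lit 144635661689298747140) (ZL.cons (nat_lit 2052) (nat_lit 3) (nat_lit 72288719014995841118) (ZL.cons (nat_lit 2128) (nat_lit 6) (nat_lit 143090699405447843348) (ZL.cons (nat_lit 2204) (nat_lit 6) (nat_lit 142975947921570812518) (ZL.cons (nat_lit 2280) (nat_lit 6) (nat_lit 141610797460729015190) (ZL.cons (nat_lit 2356) (nat_lit 6) (nat_lit 141441164593774347538) (ZL.cons (nat_lit 2432) (nat_lit 3) (nat_lit 70692318384602190806) (ZL.cons (nat_lit 2508) (nat_lit 6) (nat_lit 140194662736938139420) (ZL.cons (nat_lit 2584) (nat_lit 6) (nat_lit 139971746973791591358) (ZL.cons (nat_lit 2660) (nat_lit 6) (nat_lit 139860337766143988610) (ZL.cons (nat_lit 2736) (nat_lit 6) (nat_lit 138566411104478869722) (ZL.cons (nat_lit 2812) (nat_lit 6) (nat_lit 138401719000639386564) (ZL.cons (nat_lit 2888) (nat_lit 3) (nat_lit 69173418808780874871) (ZL.cons (nat_lit 2964)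 (nat_lit 6) (nat_lit 137223929022455229766) (ZL.cons (nat_lit 3040) (nat_lit 6) (nat_lit 137007505951439163688) (ZL.cons (nat_lit 3116) (nat_lit 6) (nat_lit 136899341672169646456) (ZL.cons (nat_lit 3192) (nat_lit 6) (nat_lit 135943127685124728506) (ZL.cons (nat_lit 3268) (nat_lit 6) (nat_lit 135676480374131397456) (ZL.cons (nat_lit 3344) (nat_lit 6) (nat_lit 135516585127685297304) (ZL.cons (nat_lit 3420) (nat_lit 3) (nat_lit 67731651115746708447) (ZL.cons (nat_lit 3496) (nat_lit 6) (nat_lit 134407479236658246130) (ZL.cons (nat_lit 3572) (nat_lit 6) (nat_lit 134197359750234881006) (ZL.cons (nat_lit 3648) (nat_lit 6) (nat_lit 134092345886866417676) (ZL.cons (nat_lit 3724) (nat_lit 6) (nat_lit 133199393703074344820) (ZL.cons (nat_lit 3800) (nat_lit 6) (nat_lit 132940512818614800112) (ZL.cons (nat_lit 3876) (nat_lit 6) (nat_lit 132785274715269071810) (ZL.cons (nat_lit 3952) (nat_lit 3) (nat_lit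 66366771874046244445) (ZL.cons (nat_lit 4028) (nat_lit 6) (nat_lit 132051168164661027984) (ZL.cons (nat_lit 4104) (nat_lit 6) (nat_lit 131744946117059561348) (ZL.cons (nat_lit 4180) (nat_lit 6) (nat_lit 131540946615677653462) (ZL.cons (nat_lit 4256) (nat_lit 6) (nat_lit 131438991408523805570) (ZL.cons (nat_lit 4332) (nat_lit 6) (nat_lit 130609614975635766934) (ZL.cons (nat_lit 4408) (nat_lit 6) (nat_lit 130358274311111937120) (ZL.cons (nat_lit 4484) (nat_lit 6) (nat_lit 130207557705921909644) (ZL.cons (nat_lit 4560) (nat_lit 3) (nat_lit 65078666732972322336) (ZL.cons (nat_lit 4636) (nat_lit 6) (nat_lit 129533527357423726176) (ZL.cons (nat_lit 4712) (nat_lit 6) (nat_lit 129236224398587350800) (ZL.cons (nat_lit 4788) (nat_lit 6) (nat_lit 129038166630255401396) (ZL.cons (nat_lit 4864) (nat_lit 6) (nat_lit 128939180992241956840) (ZL.cons (nat_lit 4940) (nat_lit 6) (nat_lit 128515742991689079034)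 (ZL.cons (nat_lit 5016) (nat_lit 6) (nat_lit 128173816446141494380) (ZL.cons (nat_lit 5092) (nat_lit 6) (nat_lit 127929796383496999414) (ZL.cons (nat_lit 5168) (nat_lit 6) (nat_lit 127783469582341632930) (ZL.cons (nat_lit 5244) (nat_lit 3) (nat_lit 63867354092152726673) (ZL.cons (nat_lit 5320) (nat_lit 6) (nat_lit 127170122136146017106) (ZL.cons (nat_lit 5396) (nat_lit 6) (nat_lit 126881478486790312862) (ZL.cons (nat_lit 5472) (nat_lit 6) (nat_lit 126689189391322400816) (ZL.cons (nat_lit 5548) (nat_lit 6) (nat_lit 126593086830144299304) (ZL.cons (nat_lit 5624) (nat_lit 6) (nat_lit 126224264454155291866) (ZL.cons (nat_lit 5700) (nat_lit 6) (nat_lit 125892296934206180550) (ZL.cons (nat_lit 5776) (nat_lit 6) (nat_lit 125655384252027059226) (ZL.cons (nat_lit 5852) (nat_lit 6) (nat_lit 125513319396536412152) (ZL.cons (nat_lit 5928) (nat_lit 3) (nat_lit 62732989116697245112) (ZL.cons (nat_lit 6004)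 (nat_lit 6) (nat_lit 125335416922583113172) (ZL.cons (nat_lit 6080) (nat_lit 6) (nat_lit 124961387392349140624) (ZL.cons (nat_lit 6156) (nat_lit 6) (nat_lit 124681150839576612228) (ZL.cons (nat_lit 6232) (nat_lit 6) (nat_lit 124494462397374755876) (ZL.cons (nat_lit 6308) (nat_lit 6) (nat_lit 124401158939920288386) (ZL.cons (nat_lit 6384) (nat_lit 6) (nat_lit 124502802878537816010) (ZL.cons (nat_lit 6460) (nat_lit 6) (nat_lit 124087936445114657800) (ZL.cons (nat_lit 6536) (nat_lit 6) (nat_lit 123765637882057268172) (ZL.cons (nat_lit 6612) (nat_lit 6) (nat_lit 123535625569262004748) (ZL.cons (nat_lit 6688) (nat_lit 6) (nat_lit 123397698525096327980) (ZL.cons (nat_lit 6764) (nat_lit 3) (nat_lit 61675868115391891209) (ZL.cons (nat_lit 6840) (nat_lit 6) (nat_lit 123271180882937187386) (ZL.cons (nat_lit 6916) (nat_lit 6) (nat_lit 122908045416690612096) (ZL.cons (nat_lit 6992) (nat_lit 6) (nat_lit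 122635971093610487440) (ZL.cons (nat_lit 7068) (nat_lit 6) (nat_lit 122454720178851403600) (ZL.cons (nat_lit 7144) (nat_lit 6) (nat_lit 122364134297827648760) (ZL.cons (nat_lit 7220) (nat_lit 6) (nat_lit 122510407035908030626) (ZL.cons (nat_lit 7296) (nat_lit 6) (nat_lit 122107624090837003234) (ZL.cons (nat_lit 7372) (nat_lit 6) (nat_lit 121794712864567692916) (ZL.cons (nat_lit 7448) (nat_lit 6) (nat_lit 121571399939523747844) (ZL.cons (nat_lit 7524) (nat_lit 6) (nat_lit 121437490187906585932) (ZL.cons (nat_lit 7600) (nat_lit 3) (nat_lit 60696433300597688327) (ZL.cons (nat_lit 7676) (nat_lit 6) (nat_lit 121804950150180268830) (ZL.cons (nat_lit 7752) (nat_lit 6) (nat_lit 121363674507221423868) (ZL.cons (nat_lit 7828) (nat_lit 6) (nat_lit 121011115802127661448) (ZL.cons (nat_lit 7904) (nat_lit 6) (nat_lit 120746965973894530714) (ZL.cons (nat_lit 7980) (nat_lit 6) (nat_lit 120570994211992507570)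 (ZL.cons (nat_lit 8056) (nat_lit 6) (nat_lit 120483046754687891220) (ZL.cons (nat_lit 8132) (nat_lit 6) (nat_lit 121154193807115887458) (ZL.cons (nat_lit 8208) (nat_lit 6) (nat_lit 120675546612809646794) (ZL.cons (nat_lit 8284) (nat_lit 6) (nat_lit 120284495209828066804) (ZL.cons (nat_lit 8360) (nat_lit 6) (nat_lit 119980697902770483968) (ZL.cons (nat_lit 8436) (nat_lit 6) (nat_lit 119763889237679275162) (ZL.cons (nat_lit 8512) (nat_lit 6) (nat_lit 119633879770089797580) (ZL.cons (nat_lit 8588) (nat_lit 3) (nat_lit 59795277949748195254) (ZL.cons (nat_lit 8664) (nat_lit 6) (nat_lit 120042639130800729680) (ZL.cons (nat_lit 8740) (nat_lit 6) (nat_lit 119614216176471753988) (ZL.cons (nat_lit 8816) (nat_lit 6) (nat_lit 119271926171526353582) (ZL.cons (nat_lit 8892) (nat_lit 6) (nat_lit 119015470027610692674) (ZL.cons (nat_lit 8968) (nat_lit 6) (nat_lit 118844623656832029430) (ZL.cons (nat_lit 9044)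 (nat_lit 6) (nat_lit 118759237775953761126) (ZL.cons (nat_lit 9120) (nat_lit 6) (nat_lit 119464399035239519108) (ZL.cons (nat_lit 9196) (nat_lit 6) (nat_lit 118999693021349965064) (ZL.cons (nat_lit 9272) (nat_lit 6) (nat_lit 118620031465057168956) (ZL.cons (nat_lit 9348) (nat_lit 6) (nat_lit 118325082623253690478) (ZL.cons (nat_lit 9424) (nat_lit 6) (nat_lit 118114588773650575132) (ZL.cons (nat_lit 9500) (nat_lit 6) (nat_lit 117988365989583121166) (ZL.cons (nat_lit 9576) (nat_lit 3) (nat_lit 58973151989649129967) (ZL.cons (nat_lit 9652) (nat_lit 6) (nat_lit 118940321067790087802) (ZL.cons (nat_lit 9728) (nat_lit 6) (nat_lit 118440388782482496524) (ZL.cons (nat_lit 9804) (nat_lit 6) (nat_lit 118024444166629122064) (ZL.cons (nat_lit 9880) (nat_lit 6) (nat_lit 117692123773478247884) (ZL.cons (nat_lit 9956) (nat_lit 6) (nat_lit 117443137225987314968) (ZL.cons (nat_lit 10032) (nat_lit 6) (nat_lit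 117277266963095408900) (ZL.cons (nat_lit 10108) (nat_lit 6) (nat_lit 117194368049621362006) (ZL.cons (nat_lit 10184) (nat_lit 6) (nat_lit 118469947296247868300) (ZL.cons (nat_lit 10260) (nat_lit 6) (nat_lit 117935814747427619514) (ZL.cons (nat_lit 10336) (nat_lit 6) (nat_lit 117484643860156207820) (ZL.cons (nat_lit 10412) (nat_lit 6) (nat_lit 117116040407444755288) (ZL.cons (nat_lit 10488) (nat_lit 6) (nat_lit 116829682308606426670) (ZL.cons (nat_lit 10564) (nat_lit 6) (nat_lit 116625319347826703032) (ZL.cons (nat_lit 10640) (nat_lit 6) (nat_lit 116502772955528204036) (ZL.cons (nat_lit 10716) (nat_lit 3) (nat_lit 58230968026169509187) (ZL.cons (nat_lit 10792) (nat_lit 6) (nat_lit 117688714882917275552) (ZL.cons (nat_lit 10868) (nat_lit 6) (nat_lit 118052866714404716914) (ZL.cons (nat_lit 10944) (nat_lit 6) (nat_lit 117485530026251790934) (ZL.cons (nat_lit 11020) (nat_lit 6) (nat_lit 117000158875467721732)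 (ZL.cons (nat_lit 11096) (nat_lit 6) (nat_lit 116596329151338231966) (ZL.cons (nat_lit 11172) (nat_lit 6) (nat_lit 116273687992939324996) (ZL.cons (nat_lit 11248) (nat_lit 6) (nat_lit 116031953480812205656) (ZL.cons (nat_lit 11324) (nat_lit 6) (nat_lit 115870914390625889090) (ZL.cons (nat_lit 11400) (nat_lit 6) (nat_lit 115790430008612251326) (ZL.cons (nat_lit 11476) (nat_lit 3) (nat_lit 57900137579438091228) (ZL.cons (nat_lit 11552) (nat_lit 6) (nat_lit 115826486813082844396) (ZL.cons (nat_lit 11628) (nat_lit 6) (nat_lit 115905144679090001078) (ZL.cons (nat_lit 11704) (nat_lit 6) (nat_lit 116036317487071833516) (ZL.cons (nat_lit 11780) (nat_lit 6) (nat_lit 116220119854045024868) (ZL.cons (nat_lit 11856) (nat_lit 6) (nat_lit 116456712384019551702) (ZL.cons (nat_lit 11932) (nat_lit 6) (nat_lit 116746301808332284968) (ZL.cons (nat_lit 12008) (nat_lit 6) (nat_lit 117089141166286022202) (ZL.cons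 (nat_lit 12084) (nat_lit 6) (nat_lit 116570565876169275806) (ZL.cons (nat_lit 12160) (nat_lit 6) (nat_lit 116132535888527128532) (ZL.cons (nat_lit 12236) (nat_lit 6) (nat_lit 115774668458710184328) (ZL.cons (nat_lit 12312) (nat_lit 6) (nat_lit 115496650887022486636) (ZL.cons (nat_lit 12388) (nat_lit 6) (nat_lit 115298240245488774368) (ZL.cons (nat_lit 12464) (nat_lit 6) (nat_lit 115179263165587319034) (ZL.cons (nat_lit 12540) (nat_lit 3) (nat_lit 57569807843381433466) (ZL.cons (nat_lit 12616) (nat_lit 6) (nat_lit 115074828685432256164) (ZL.cons (nat_lit 12692) (nat_lit 6) (nat_lit 115128038343471779898) (ZL.cons (nat_lit 12768) (nat_lit 6) (nat_lit 115234504153426784230) (ZL.cons (nat_lit 12844) (nat_lit 6) (nat_lit 115394319143674899750) (ZL.cons (nat_lit 12920) (nat_lit 6) (nat_lit 115607622958382362672) (ZL.cons (nat_lit 12996) (nat_lit 6) (nat_lit 115874601979523189224) (ZL.cons (nat_lit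 13072) (nat_lit 6) (nat_lit 116195489489737211202) (ZL.cons (nat_lit 13148) (nat_lit 6) (nat_lit 115724255362762386734) (ZL.cons (nat_lit 13224) (nat_lit 6) (nat_lit 115332187669432785022) (ZL.cons (nat_lit 13300) (nat_lit 6) (nat_lit 115018943826327050096) (ZL.cons (nat_lit 13376) (nat_lit 6) (nat_lit 114784250125232759476) (ZL.cons (nat_lit 13452) (nat_lit 6) (nat_lit 114627901493983908440) (ZL.cons (nat_lit 13528) (nat_lit 6) (nat_lit 114549761317271638768) (ZL.cons (nat_lit 13604) (nat_lit 3) (nat_lit 57198361687565125900) (ZL.cons (nat_lit 13680) (nat_lit 6) (nat_lit 114423721378963113594) (ZL.cons (nat_lit 13756) (nat_lit 6) (nat_lit 114504738980950484978) (ZL.cons (nat_lit 13832) (nat_lit 6) (nat_lit 114639846973171772392) (ZL.cons (nat_lit 13908) (nat_lit 6) (nat_lit 114829163411154159482) (ZL.cons (nat_lit 13984) (nat_lit 6) (nat_lit 115072853717027922122) (ZL.cons (nat_lit 14060) (nat_lit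 6) (nat_lit 115371130824070037386) (ZL.cons (nat_lit 14136) (nat_lit 6) (nat_lit 114945858991407758480) (ZL.cons (nat_lit 14212) (nat_lit 6) (nat_lit 114598414884789366046) (ZL.cons (nat_lit 14288) (nat_lit 6) (nat_lit 114328494912277038192) (ZL.cons (nat_lit 14364) (nat_lit 6) (nat_lit 114135863221467608804) (ZL.cons (nat_lit 14440) (nat_lit 6) (nat_lit 114020351493407943430) (ZL.cons (nat_lit 14516) (nat_lit 3) (nat_lit 56990929397760062930) (ZL.cons (nat_lit 14592) (nat_lit 6) (nat_lit 113791578362973654792) (ZL.cons (nat_lit 14668) (nat_lit 6) (nat_lit 113846384310754364236) (ZL.cons (nat_lit 14744) (nat_lit 6) (nat_lit 113956044095008018702) (ZL.cons (nat_lit 14820) (nat_lit 6) (nat_lit 114120653534963577686) (ZL.cons (nat_lit 14896) (nat_lit 6) (nat_lit 114340356464112264494) (ZL.cons (nat_lit 14972) (nat_lit 6) (nat_lit 114615344855887315846) (ZL.cons (nat_lit 15048) (nat_lit 6) (nat_lit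 114234696609936246218) (ZL.cons (nat_lit 15124) (nat_lit 6) (nat_lit 113930576373911260856) (ZL.cons (nat_lit 15200) (nat_lit 6) (nat_lit 113702718411683794234) (ZL.cons (nat_lit 15276) (nat_lit 6) (nat_lit 113550923624063550508) (ZL.cons (nat_lit 15352) (nat_lit 6) (nat_lit 113475059374828337236) (ZL.cons (nat_lit 15428) (nat_lit 3) (nat_lit 56615528468764133531) (ZL.cons (nat_lit 15504) (nat_lit 6) (nat_lit 113258864881476114712) (ZL.cons (nat_lit 15580) (nat_lit 6) (nat_lit 113342313011523107238) (ZL.cons (nat_lit 15656) (nat_lit 6) (nat_lit 113481474243511033274) (ZL.cons (nat_lit 15732) (nat_lit 6) (nat_lit 113676470174632891976) (ZL.cons (nat_lit 15808) (nat_lit 6) (nat_lit 113927471189682867496) (ZL.cons (nat_lit 15884) (nat_lit 6) (nat_lit 113590146814325204940) (ZL.cons (nat_lit 15960) (nat_lit 6) (nat_lit 113328088588585080810) (ZL.cons (nat_lit 16036) (nat_lit 6) (nat_lit 113141067529546799850)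 (ZL.cons (nat_lit 16112) (nat_lit 6) (nat_lit 113028920220751008226) (ZL.cons (nat_lit 16188) (nat_lit 3) (nat_lit 56495774334701806262) (ZL.cons (nat_lit 16264) (nat_lit 6) (nat_lit 112741667326624134054) (ZL.cons (nat_lit 16340) (nat_lit 6) (nat_lit 112798117452838264786) (ZL.cons (nat_lit 16416) (nat_lit 6) (nat_lit 112911067030619528882) (ZL.cons (nat_lit 16492) (nat_lit 6) (nat_lit 113080614753773754636) (ZL.cons (nat_lit 16568) (nat_lit 6) (nat_lit 113306908770796902050) (ZL.cons (nat_lit 16644) (nat_lit 6) (nat_lit 113011646405724100726) (ZL.cons (nat_lit 16720) (nat_lit 6) (nat_lit 112790425083173162258) (ZL.cons (nat_lit 16796) (nat_lit 6) (nat_lit 112643051502959333400) (ZL.cons (nat_lit 16872) (nat_lit 6) (nat_lit 112569396892051359346) (ZL.cons (nat_lit 16948) (nat_lit 3) (nat_lit 56147169863002431139) (ZL.cons (nat_lit 17024) (nat_lit 6) (nat_lit 112322981908271145360) (ZL.cons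 (nat_lit 17100) (nat_lit 6) (nat_lit 112408933482219547662) (ZL.cons (nat_lit 17176) (nat_lit 6) (nat_lit 112552269551167111476) (ZL.cons (nat_lit 17252) (nat_lit 6) (nat_lit 112753115360222625942) (ZL.cons (nat_lit 17328) (nat_lit 6) (nat_lit 112498689898339010280) (ZL.cons (nat_lit 17404) (nat_lit 6) (nat_lit 112317116054612523914) (ZL.cons (nat_lit 17480) (nat_lit 6) (nat_lit 112208235172286512626) (ZL.cons (nat_lit 17556) (nat_lit 3) (nat_lit 56085976056362967137) (ZL.cons (nat_lit 17632) (nat_lit 6) (nat_lit 111916491210841059246) (ZL.cons (nat_lit 17708) (nat_lit 6) (nat_lit 111974634840841613898) (ZL.cons (nat_lit 17784) (nat_lit 6) (nat_lit 112090972905956315918) (ZL.cons (nat_lit 17860) (nat_lit 6) (nat_lit 112265607060805168444) (ZL.cons (nat_lit 17936) (nat_lit 6) (nat_lit 112050829077746004884) (ZL.cons (nat_lit 18012) (nat_lit 6) (nat_lit 111907747931907336088) (ZL.cons (nat_lit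 18088) (nat_lit 6) (nat_lit 111836238600928720502) (ZL.cons (nat_lit 18164) (nat_lit 3) (nat_lit 55789145087250854158) (ZL.cons (nat_lit 18240) (nat_lit 6) (nat_lit 111607791622235979886) (ZL.cons (nat_lit 18316) (nat_lit 6) (nat_lit 111696321743402834256) (ZL.cons (nat_lit 18392) (nat_lit 6) (nat_lit 111843957894418824988) (ZL.cons (nat_lit 18468) (nat_lit 6) (nat_lit 111667672609247478998) (ZL.cons (nat_lit 18544) (nat_lit 6) (nat_lit 111561963014756205904) (ZL.cons (nat_lit 18620) (nat_lit 3) (nat_lit 55763368371669084335) (ZL.cons (nat_lit 18696) (nat_lit 6) (nat_lit 111308083283784446526) (ZL.cons (nat_lit 18772) (nat_lit 6) (nat_lit 111367971222685017814) (ZL.cons (nat_lit 18848) (nat_lit 6) (nat_lit 111487799429753160896) (ZL.cons (nat_lit 18924) (nat_lit 6) (nat_lit 111348885695929210608) (ZL.cons (nat_lit 19000) (nat_lit 6) (nat_lit 111279459160998515866) (ZL.cons (nat_lit 19076) (nat_lit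 3) (nat_lit 55537623972207290219) (ZL.cons (nat_lit 19152) (nat_lit 6) (nat_lit 111105634435580880156) (ZL.cons (nat_lit 19228) (nat_lit 6) (nat_lit 111196820460382740156) (ZL.cons (nat_lit 19304) (nat_lit 6) (nat_lit 111094189786119368220) (ZL.cons (nat_lit 19380) (nat_lit 3) (nat_lit 55529994761303355356) (ZL.cons (nat_lit 19456) (nat_lit 6) (nat_lit 110909082155771592420) (ZL.cons (nat_lit 19532) (nat_lit 6) (nat_lit 110970766732839180850) (ZL.cons (nat_lit 19608) (nat_lit 6) (nat_lit 110903362329993846148) (ZL.cons (nat_lit 19684) (nat_lit 3) (nat_lit 55389071319273320818) (ZL.cons (nat_lit 19760) (nat_lit 6) (nat_lit 110809440724447930348) (ZL.cons (nat_lit 19836) (nat_lit 3) (nat_lit 55388118292557626577) (ZL.cons (nat_lit 19912) (nat_lit 6) (nat_lit 110712701470735637072) (ZL.cons (nat_lit 19988) (nat_lit 1) (nat_lit 18446744073709551617) ZL.nil)))))))))))))))))))))))))))))))))))))))))))))))))))))))))))))))))))))))))))))))))))))))))))))))))))))))))))))))))))))))))))))))))))))))))))))))))))))))))))))))))))))))))))))))))))))))))))))))))))))))))))))))))))))))))))))))))))))))))))))))))))))))))))))))))))))))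

noncomputable def vl : XL := ⟨(nat_lit 0), (nat_lit 76), (nat_lit 557043676), (nat_lit 152), (nat_lit 69072419), (nat_lit 152), (nat_lit 69072419), (nat_lit 1), (nat_lit 4), (nat_lit 2), (nat_lit 5), (nat_lit 2), (nat_lit 4), (nat_lit 0), (nat_lit 0), (nat_lit 0)⟩

noncomputable def cp0 : Nat := (nat_lit 20565953093114644286309719313652448901054901129145706290445799029302002515258701341504801182167149461629040020608042452585466684790218212845927703623595980288799644029520337383122467655196605127678967227591198260392396657260461939945156406348248292439107124256419817525005322507806123962242673811997517799034769973740288824733740002059881162891603083670666757624220405631274832763099504000461039347406604179208868152425699635712058497890318998457362592695175535468607720164097380094222504878751902647848687277018086036582858226367220789165881252051039408087310953221847813116040218377439160176184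9590806982448382588619463952212354321098229674099201612262406948190787841374202924207880253542640315240326800914546860154435463506905117968432744631993558119480283376317301275983495591713849356556133047384887630270547948103712001298270969190271369586529148475906315146564916274395123910032698202678510849974096286516900166518828935144695498366076237492311350904896840147711568733481142144731332128890406458966864453239691687377659669796599811941574805326321127061720052089649846679465537943735241278399976885216997602282113749468211427525398349762830817656541244568507902659170043341480982570271593014573021105356113847606906695539007576258833518521877038295740750030734433883026957058069094066687121562927408943032486722965659592215125086835516351217929932626454664933915755730550140086365504473821885036913820990047475851504289600783656021056143618688867992463128223883263636905850448603106365923673485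2361594835109235608293439912604836521851018902047729088071919877202665053449022877360522313377924990934893187283684126067987722196989299784108781727398949969069463467849175784031074721244540222893211766974642724556997559882803041165241142672006152386684892576763828409735518245784062461847601376578243056933898986980186049496796161975658844799000045291309089084229578094051611641636794384975458848715696154312879195871198737236959633731856686337134668726986724296628963895181012428336524799336380466308712351175991189559182663974563052591457880884874045772494800538468735694616891094454523520744755711326295120908194630933901656025380239762690270008744629777124718234985768071225699504696288475033800256396683164318640616571104493893097438246622919515103546642898737974888929499403122144247757443628513946692577227508081695835806041373946541031951094797520306401317812427529389900734074656003739335000514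6970232791207742374485748033185315175177154146467306810112461079834586854786365731058684723899472018400189235732252820659594958863661532548240265842631378527092043592894894800319857555913946079745041889241797319364732961611675772060938754764203687566945453179094394931257089979071350955395579969850721780923770916107702159785493381949946258991829197832856638362945678556991751359031200091855303696982661925084575116056657215509013550191867932137081435575789207869908551442973350221827378137782171845620470063762416439433351668743676237622699535326005911371837493745750542782503645533495558669456584366247617193264516339092780198172672316155420425802290907013103458680871925770902939483359690701456016993996498812173126604222002020928239721142721520799752281815354971488911794830432191043508241977832099722639545788210711843491891545512546482386042714703703335546116921145253216424588562237733756252796142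2072274854706460156469624578022452201017286237208996863539321718586238017546425554426036110391291956285001871035324903046025667112901253287719342113613906566725528243888596071514417015308771521053704863294609191208179000966011188075571289198328870429278582536418054776815477674801167243086024915116214790401935845280841780264147234952692242154993018560413136444091364780750652203803540355247490543770697810938053783582996098413253440653604993385376447837575908410445503327043591647348935441453163989569309121403003312598654822686453547106443404639320915464635073388576299449529267238631668960330154126506189116252643176047339697877161449053798128807010927231541226782553261635410426507742840342288274883911098710619161005202976713126461980321271343469045741272949422949707512151788059364615788994541246934576796927427625527635719283265379086649697891402772129884568661272755375637275037436322673385327077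7235361031994484797079580395982582109944259710626071204934710767492170664673358864083601489385115045378638626740178935450204553292748185806395847420966048201049546724054219544994761171092939770125008363420885458925781370791962573387014430515005534669492736317519775690183172222923924824035088464436776228011278649113453877098571462581590004957422970561374334892565156770527631284335568745986354865243970670708310486819776733081446900186283868186404125362340618069891687196202276901871129342368580251191688593977256309060984107936485778084966675674604812435218582860513827326833618752702147833776123328243121921702832477314715146353863574877085939787433219351325579826878268796456093635258709034887974183894410521012810142612345205852276782209632263295362936628573654654916417611600565698276553470971676425372132544196088791693958390595522569636625010562874663840686667501564406257312708045640366679679721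31538193623888782681583036253150185763489164904792388097632648370488314061290455228674470117687528682254729841179226691855592204795526412561806914469815181533230362281627048365706734352261168034549714312251317705605643216839783484388470197099852009823530638467847456663876522783612316159537170580109250439560515784913172226125530469720488453787307749213259768096684131005048030941358237018081533603228336391661275203027881375882395446737499503612672089262275060253502783435808641534942863748582554243862542442308436901034409382607998498089355802418752574961598250394357957242483244052814370789685991206755930566545119225544599633898287967628705909881408385567033364710826516463055830553251236636257621567708807865022713588409187703825135813814196518357054860276508970691416440035826941823092370869571744083465182756961353565968959638733998294240360542578686120993233015374636109702654123758996074371063406932661538652160)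

noncomputable def cp1 : Nat := (nat_lit 2992905641502900212515713354589505755769422973193474619812309034744909557398567541454209967275599845121974655884134174725779692956310998699023368666852891165585553562376918715723981305389502974004379592041930890551590006019973847621898114928373113484286535667378139955408508959096694365535416157313690293635925678570943255827351420290030038194049303535332640083877155197138645177655287773065636503831237294306218320598304001924428935827487775329910431579489646273281606344539392752964707147950239777078207327771354183511273173812484323390916462288657080241719881243362413539552425313448076172334274839849478706358302586539199290677995406639574913129372108293564440031055604576565572879857994062735183824166050971224554219636624474190911036971189171843760834651620385998792210656145288388011752375323891230000247014037127806724284087439306260182350157318988684949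7780297626907606780253519190521490904452197298913170103960143287738991081053908570504316589819986028564151220366704377353100257560410124671149210578610688750932574928740239472094342401077343196923331447317257125504699656766563632849839608190198018127180368941826669989652943626066849986750622852853341437118203347070705303488635935147578653922554358878708163573216943814943564917216007394415840273009866081881160982417212456737699074930320708734006717516212833723870559443654553875492712097312276951311747544371741571123208764294363404040321425067586298455493457301043717551153475230478912815764435598564389723710508419036172292710077256256567764924415863333520224213293164084151899075636643581058736153769065868635722553059771869976331220266518623600501581857023337959143530960912331408643565516680726068814444213868164852208468277694487671863297284624233681067196217739111084064200146315050149498261380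9907402757222635121150085992973260010038568711267437369199487658936401664420980843165585658015088847420972887281357249818205907956224674630657580982082283133071836555763449220110577908803142336573907360822228626606934970016196527246138650132553173104274842436906449431532197810779414850770043670375529445737781247009819842629990373797503328650979592751250963920800752290275021474469696693450587946687778571586850585766473697330238465775583622068030774612425099223769639847378331182531352968270017771244418101591308750067721499308589746017188706555474872596143073112608979492675718449464254153205584456743414418376490004194826452888743074596700140172732199894426807094703294798426851560109260902725460739977453994984615401034756252515616642767052486289963031509372963220504514284068651373719441693819158815132465554285737087106205381508295725350424364442470108536567479096280305744801829765334914741362142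1949186684220657624003742421614890504600765987416558326511694413231525428160019984113826042918332435129268782132442784570342193311750213046990496300336858187371459546124903193860073367130148321986383857012768861263604872978064442839072449039356615446318984946760332660578175200745333199113169607752509146118488500374943098485770889277176786729814925225893548864672047041040024044768930639228668188495212374589098209316377419917197444460584755344548742285337476175751764609901206059408227438624582135808191310280642856303742860791347466707189358373441368552988720089433059623577968593301384356857506066751202649983367572351095918219292843403968322653581652114107079631550381575503421803181355922102019952602017032087675058259873371742524671317982140512613156939903081786959226395637462643932177259599715745089232225199029638697956695376557333296771837137191911291840648562220128164189531238434164518060490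3384909348447407443807526946426150793864485250834060642359079375467574619068631300360942680092056022773144371795320016259459096169950698560025552855183681644404273565580737996380977095943416287683938979411119955666996518931517921219280440987059221255203747402020203278760606240146995642036417422837671088731863421901566004623899374246734954553445717410184155007924680537800844956355429788862484264431922810507266927370472245492966996932650596464001645894279106504224264407938568918615753897456304540722709669016485105875468684386812176554501081892292749925539955552950950749807217035224491484559678442282272106656644631760908949329700634479261952439264795309516381216526512757018180243649631293198890171958080186546005947100190176751637551820511047846725072936270434474744830592305022213412888185675887190376549559135687266437290771900020207977342847298394981230798270627596099140441357564880010892013660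7026149571461922010222585221639455040942742409829076159856061695109455886097545106327057625134640687278961753026749990897759320738268107065883806319801378163031901296408951743183074939380014037893871250395955585937813389910668709154009831246122439812769954873872596675299046953929729019883392231997227968761247037244915519801733368705949376220761243874355063647558411474750614066208481035876092850191554254216927971060263677712880571077191083035777786680096477154385584248954181364674647974309328354693538376426287137147459370846754983753977716515717032292997828200109153689190310816294267822416082112819993697614354330026755437214553487415062073301684650615897239985711576435181698696521826310156169582468604907655601381280122954070492864926651338004926575454656745165277567442034488798924766680020460496639944161030361015766572428250243219476980342426561626089814932635222934411698980217032968783150778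354194376958306842589446698686150915813974913050230031900977475275172982794918544967603351729537010143961092928570896077950005122786053213478351592526694399959697902902504260552204928624607886138319093126674329040181186749554206011574495166588649604141357687185633232580395972698917113330774775097930706651594726866534048727711113392945806418976213898708050409841058511592594048437219060246570987545914507226819508275280807491523835859160250859858896821349388439085782707540911889796427116957657736201678685269061692350103076739202861597437647014767180550526174910324961881596869663774464470017632354820279057240497885966949152898674749695601390016004096)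

noncomputable def rc0 : Nat := (nat_lit 2038942504354489237702812052266177908801773900982281409554065193238870635448251715264135013322483424387839623737640068139392587249649537919124918311320657886680187584130861742912928190443647712606780012785338590924362736112387434072079369931328824674534819564469244650463561703303934137490787979262237776915274945403204113854986802255265080837943056956956358547553298974148165957187059758776254136889109067165564277848800823182229786780149368428940815006424375140101866438329989162812427840469808952368708601091118403433876439779006714795149970387272261958741041282417579945261666466053392959023549207291424837445667697675160368220347561914154968919762533171216908513881956110844865703232279411881664289697592216959365268140591952131350181877623423113745867127694385302586444366529359334333973394495526307813813606273098498561057181618780577012770982128011698118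1446699570395965338575505255783314463858472842494262008504056379027829856145581535029568387852603438303145969966380014279911781173099205590591220872342693003190328171152817696741814773380290386999688534837815362790576477817532488174564848124950626186315776169396959690834555254329818430280759395056864241141565668250641572016525459202700763206674359522305171448818251001206562584719686848771672091894744577209251509788626797482887443597231333047395384671622645375143687766486699075359918684736297551537381112566628296761719652530089692149272515072300104791570119055069016105865670352380045021019661512736959013468332453276339908671210836552186487790644752042813984440623858941525333122307432565953090916602131820164083218367062327241670412980373324356836771341211911796233744016427427689619710444072746836446012198022428438160039165632422748036767024182214382339024922054194817357431076019177550199793042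5314833379644009979245488748867150547349649817363740484550715314707290014048659537364747063515055902730769136927288884538598990090486905128489664755927765651409342582400895281917857483286744213638237787880708692106003205063777779593459906820601534022065609115615708477845817241610934568357174365495953124215595588572538346828789828557904783801689395533587021548584664521310421203512772859338097269664448773769355783667373135298678475930785609414847041617612432944993143320178442055302805201768250107240055638887059006217008178826584314268843482567989881737356333954085956278089768143363158826121743172224187931978001296848098874080651714449770311851961820743938124658322085579025510495439567778114493881517152570266229056928481771597314972716026044596840697071331992378291759101986544810783482942472767840360555217568350983563775860258361524911411909429991827543116456074267412732157642049856549558838666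0057815075061426024003292130937252912874067082100322429527378664315740140980658878087945221465356667371043518089183957139052487076169984294106241516198212538620661588168770611371326345224155256461151546461571610587491521243132708306500994850876627006072933810027491857301338046394763948158505765040750253364760578894933220303463660100859810048914902995692153252533912718505505042436331299529963974160070171965460345826433633766996247494673610544482797300920252790771791922545254805062238990028053971160382985175556549382979370027790656207961593239590601811947426495555915769918150037398463762746908330274063165163619181717670587737632303312605043253244145223096396854034371988191648895934131599330943511952728185369419337853855168685320173811679758412904489383416981111290244337690579944170586700504557362907266982113657463326776366901325090016415053060582919188098644063031951730495149876443639902858441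1107810551597037946662929630790181749883623886744433358516591821777017876951489310199019325377939537284119801461529034408317695944857703538581772020485120894362601040672480465396107998195563900390315360379518134458606706899050654070999824116923069494844808439190553119453229211763917122046499839960822057144183494810547364349766982670888879430409679753210945398722601840502578509650579362150070276948832126764021773540271041832708228484341213220259379449615060729560964005382006394989152997661615363822883269508925424997001116236446733507648182828932825848415336247991156000925647643890227155857193785667664869037491960796368745611163814887820333147894528148579758124455798760088945696403727234322279191923592626150477851835681195467130595282278346096418286467335922428091764005428523135130678341279266445418634321419568569472742388360902731917364478460600540751713058704148291506547274834759330332084685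0612125666028683778377052160274287311489955196208778250752423943314840565924122722853796499055331086809944314593264692406669058012176524318135452802487213969621974281827080147645645526370867848074445244052729710266318632937985257338666175507533968131153377117373836712828674895989959757991636517606152293329876852293555289951909871833605138484597978069938481826290096078505893228923152816757114564553011093489742085523999138931212256759623527697423167881474709046258209306881975242493949052407777980597648962468200381585464799530851213055771388323544360732377147165518587374649173277414430238950260845746424210273315413477013342319639541266428752514348462674787795223779772484905733830481882561537842518244365227933605024307890285285111774383977258662007637278912231692031764513344623857413274706572511415454350991301676929010376462733738546331354359119069210572587582819379145166361186909868375694136217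589931784245965230520785927747319466296558922959312256786733916446644397501003290055755996081701283074879695359308652460834888517311916499724657424796625888048211373650147646331951802186360851373656606742937119041044921824336458744482537720721801406307125289458613946388577096327003701401878480216607723606701136980531614038865176427029472135094757233909314412039924794707172558476988003136545408248101148550990774972649332180661364274852534869491645149634666907611963573658176725261579900594186535070362927819322236817502270128621369073425217302638941565926269814540414438008865908946008558278664453845741434116469242581944527264672578936662316545998848)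

noncomputable def rc1 : Nat := (nat_lit 2145897295776331555692491384353066996124367356211355453169581553524796538926501347330618120545781189541173439543538099126057506590448901083752064090858900392887613222015927125176414736074008209389592874335795871514482613244774064848042194715410351149772264514647845367435966460594807693148731070373121729749927577855079627643306597100694165257653201936894910218473136759464966423258658889140291695188877228541368455093880913034891397662290287920542585523986174847646111876799034188314835026218117005608505890714550872306469413090587972960185502657344033766830300177747695773127466855276936157470523567807089227468898059181833293561532369500729425153661362784517572130939145291965563044708590927011011072415449954300537724972220068448029884098892912710570876683789999760691663951155302022738907932923612477007893472284176512332847376224073982533793660927257043384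2023055214715228821061628945645750470463483628681852336166043623481575048442273728485696318950534430190666522110981356133777403379584237655871319448518388049968366484376383609810225317122133108195606974905379824291060976202919930629189118765086434317763439985847525925413751633391395750171078165563644348079597443255198111119756855945568134815573954273423173667544016126126692405675440936137755453804189544528071525566056287967229782023554114519472527247441253244891470178286122378371561912596289509605851930993859234955765225131099970943950091108218948402810828691193556073967533231161601494630957385521226175673048872794769662791730537535747577954793879944279233179926910788738292326954105492022665086940876172993620113990355158997473077896370727345867736944316646637249606797995542297221613226326380849571027409333288676071544541708114612376538764796043925783275555613390147890133491648516417732492243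9156495405010149104422445263136936076563263482793715980500610108240301622054259167281823196331743382258129105316072907080586233358210413620490358351188194394940360936278379299188700043525891948632904682010172448037286081488585297822770651794197270948335548697443747726791038519218096284221148148007064138938028106632606606535585441266354139831202254471914472036732153269516785085490595653411540947119647941708907497413061672826656980645352062813141337212681012805519108766461163387444199887755000710759748015806936423480592353032861676880088386344711619546272737240331763454654019425883320705053522784383806547086563768117464284939004877947359908966887839210108479454165607158635451142985205501622454320582753922484096039962080059709008769169020152472449886835567652236359267351980419456509491514899139106485967036796048823004532021279246129571709701011420444075879452246229474221064313546155057467465161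6069167518016907487696882124155912712219419578653348100747389608514856245693265194759193704643078899918999060926509531514620654038810708075043081412395685827266320325742616607347873982824855439228759384546880160320662386227918682997244628410247187769638170600121175915234733385148381946529509769403405396055575979703723828985521847156702397071260653155808347255178059481401018853433483745631684210334522019973503801191467957404251611036672666638986742841949382560704200291960901660956376184190042778403357307381831500216261818684789883675790568216829353712526027554187764195814309883801937442219336115936135231774416719896482768115890855294612886113893972172603828908919894016721440681644978253004347474122558679607257554087113015795649637720237867940010717207112519634049308896614625885888953439680729403039129317128235944702613946016645892507372530085766900666452905040261954001344747989006459564787661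2593003922984537567056061286365251016249538009025044514910944402570068408634451761009551973369612041903167113052794404830173864006503088978207532238452780106221136728887685810371523168899107556046996967520216401756266831409406396658659672853274453382291088562145866311567139824396250226424951259910013131680741029273379994746758061532327275223074230854531314797749473537967545006225687806910148529629298554288893646272805140040361641280411285385817612722848247984055552585624998170966701937306136616333272218517690758275716204928534961113907351832096403964145665474516790067059913711055475004160456496118036059848459191924151677024994268896604277046948695158473685906255451648471846209815470165855492134719000932548025065624021325687020186347990246167667538014078642844853011713559632040183625303967144231390732250626036083289610737648400235693461461180713527112963386198926536189598326626315930251198394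6989736466713198156413238692369957138131533078663115964084484875082568435389573229846743849872975903034620067394111139893918701274072605767465492732418351976655199374225893860780076351455581262491473641460765642312787494169898129712319046993587923803852740761041255929993339372807359863505068677458134349455100862203702185406800754043286817094143500552287926605176133509516562368965817680203169341717974175549618081335138899282999483867983204780533658876726155504528553617488791618445457110234391169069231740650867683036331115736870950677758000358405628784178436145247806742048086176715796768479069782581917758420746792303935778269544865507155558041171802321757595592127112250573342964349784031230739468963705745089327624640676313968335942799059829873850636582711244603473246240732277450383815748116844751682530700856276962588830673067186067663775388715714746674738038049189616764240784588389420506554584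401237064756295973394100886024708184816174924409031797195037505965093474466732324393039910808371435540650626055836541753840309470789035784986063019990909590663189131482980690739031764360243829451590700700704270127960126136572732077783795639684574378365050903377310407296929194432898710368309715802718506046994745659488480981497861734729642315518039448759469744464130471307886769408570931939152633866254573591280807095234560110034353547123171928266354440837846731338431748441913737615136607416791530894498351129833492475294752002351902333796480219047222361762541155663233464868991974432450365273488696576706507241946503294397341635429958937805752107008000)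

noncomputable def rc2 : Nat := (nat_lit 2255957689205472256551630802344178625560205559261768435048860260529122283288168589307055582214839804738370898651993941427391665501848130743710919029244971605631857322215084572197337060363290095218474387448628853488855508602470530341744213564353825980181541626160079340777245828393042023738937459575737154379656548026916715786197526817615192499831237881971048056007270133070696362000204877306437948857225626610467431907205429063276524312854301073816410101843073602595458678385552797422763554312931109567673284593071141310840238820464202087501729571581115230453034327670264616528524387107045239875129808283129545271626534738905853234803603668850798075448747884172361915202618176504443745558849001877531275909085027803883745969834678748748467372053559022817505473144857515322069955826098300192164783183565095427218011448977839486092456383999784399661695368889344604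3150173759554349957960964698931761696543046182420464438998255223855855911469409435683981536167257049072070822789348764987542243018498991645976116030862886026574939888590039244994972252517267946701991017969657888144277940064737313178934640584566386025968411065565579905130200831341876773863659593799729233731673322888730313375964593350363436730926064118656831726533990795991128254083046628569051815023582038452708517337524883613338838599704795016861372587195792767106040903228356805113352042195668359425911707896864951982014952113023312090072731530064587651714165093982187176849819322309199648098895730957946900029374638110366526283987957249241326778079166661317838766663256199766679672563530806718611111282716152448008365497032838858392627926895615905632647989473023405834834784435189566146274969379708429278270915541795567281325157891288335233147375482103220070102552360039101982364612378965883121743900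9669405860227964746731936940753393494893528195508285964398433151265970287391307942404272911746614916199390699391964756182548679563920731591544324443825668393095358397098360925268547720526026472271538544159328212071499871751924939191388866922690197469762592260957086865069858559697776562817337427034015675136841502836916588072122203166819238650570106174611433884151592776870282238254471129095143240930955298515141668582177656734767894195012932085690342555449788740904708169247207599594640722378742377656173621268741925316909635323031197674154769736462352612282890125125954761412048500111601405681054938592414253764293214633801418127037103388421391819558685288307122983601446458663130656116286082279132341605198957468520369798152094183616321249278832556342895135114904887974783294409609735465958749140708289544408569913042105348187173239896869367858354786974914705577056040756336675689456822213878153806523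8725989446901267595480067256814625748367418887886180708935305013045577324113556170345494570260988042088894520493998733406419341879120117731932440414299441664399389642358907988625453449046020097337180895350379045217784915079952214312725012471675329865263393301294022397652773457719888621610760496149907811414232423488717735167957957054835432467339074212447115059995103480767112497343695153648719237109566777618680788034211437671949948440353932134865482817881848478691458164489758974015641065253404947877845311210539312356487173229976396817923680594096461148183138639116677522508700404445513169493414318411637747693570924280563671539747895413695687112384226348324184526913640498024009528319973949619316573146353699289238029606927263005617400658879158406259546591062556046428697982894751161591054164597689677506206851360830991750532721022866336942985723777011653327618998378722570546587758600110117470932921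1710077186825332645892614812732219999444697272099633386581144085097529345225723140279752215920135547635878483731349158948439830013044518035947893581520696444247605626076777705182916323570840120398488737777373159612763199241423423152327869988273333866737067942092959297424042970131626887146049640145582951916027581795522041375379676936377481814550710416038986447003391937099779507956407949460336983041029716148348989466602750879864928149286949889448912723303827815905919955630542527804945219218795707658491978505830012226731514240522734880526045292316204190585858147773360182708369118118930940145234366841229774656712621295708517304089484844106208386557868430283236483508165232831395898498478744529930306338035663086868484959575255494271392386434201330044798181438440151145934756166958341415488199853451161584292977041040427755722216480179797359518270384423598556122865992574297793112465384923750641687255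7376151107188360348573831386761385501160120774953314880448069264444829899371755321472955528392869404088936045990589088626522222310912968067607652098997508498329470418732266993034578429556124594874095998892160020163131614305660292315587132861595511084458706189508038127979406643853716599963470876399038313081676531789363217628213446043100228861688362052025314414552995791363036507234167373300905480392008908164742137442197323048824764598364138652564139406096588533706983810517225660893176082815395642834614140130933278368318126188179480180977364256152149677884505752624313316256590417883853970252816606383780542745274171090922524975927661372973338835479317023415733232041534282385574649530116534243125418861750939266154026980555080217480797668223771780625333505542471821125621043726746668935646046809197400343024587527296976022898868039354921436999958838517993621313136709944379824066861958317201195496641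466518013221483822730510644157879795056525611051230337461257025701096524179063462917992322283111136589092828193605284882553968966048366297816942380673296622167253507176847749560312284403508964860902811234316712958603710446249129152407216117309043257076099596460721410507868526330715968464902170895840885947012083550841233525406130903246118577885338129115413517970250528544298094534898861669448014182317167582391026259250572369070990340211429329650061082207149319903418218821960493583027184690527023245172420589815864344786928699932019910972633390994126943856430567061617900649738495877042953971759911109690732713916247495716673429472026258553083403436032)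

noncomputable def rc3 : Nat := (nat_lit 2367933533065912862835824534374028764686731062257327170880749279864996675282001949065858454722134490398835709069633171192539435953394472648425236595449365933383269732824959127702142865914368460918959208269101528806604532455424031332422081466788019907560087954928089059510372171151849973186562208751991985746866987893313813138306532072079439838170646408862077929330832756211463689384603408827099006613358217465051389016875347787727351646938818758773200817517102953345470138897856617504594117304232261256674937047773480523529216930570305506601272273802961048224770896786299873223233439787623734270457106753383514788735390482353806184508148125464774903114414420294850654782587790352564834089488308640995263078145251887704285613838287937259174786016957020799331641279737899536154885875073120071582697980435390581528071097750743695957546891488498835533199118600682245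6144910700868619957260694754459531722940747842573178391762314420741591599768181280921502999261318894684072981776433801936440594811184020441496425124838184619104230744830369205301786412436178836910407638771139348008033070748037038850645578557413397464707052661844462624462367297656622904597758057996020012576109674985489997164126543219946590163239634852233934377923631049002646705912511245823082807038219833361321468125512326149713297806446563982944015021877944622510142021091176146788279887233773183265046792994498849064556655952161961056083726780322790925161435808470487939596341071203451960767915803375750910854682959730446431011460626651120834091598347755587015287544776529328702078921897269050730241146713602143639875720885635357602228656561013063095134648443585511364330277531619666302761152199000259698087403052305634552907547855626817031573559746989782098570242014947523125121616070473776776748517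4998080086294517483902403244048625057360936016620043304200857871246441812556740235858043125175969146019675681217537092490279968875695243116378363260521189735139281514288260789908892730376568774487539163803268567543370830608454453718270248897306929399594581471523661856565259554841857653302326334952831182685662771277118456256328135283845488509203580393123165612018143839892240669260838390677010430218784675897478633406100750687018457287225645776320342421063344342692137296571860085562735054210280260193687687302425759693309236824290206346478000507977912131309283505159786828321693880838084771182973450539950857264598780902393207706808120347729449542271040303696633796173783390230469706167746784029125150401578883605211371674429741775122430021826140228910915944339503233809174295999908083728257715869306484875502560638479936919078877355450663439365798093435741170851936984212747522911928831364329183409859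5202692485095498606501050055115744343608867551179119869613873930952895554820615794165651909485830327449043806734740678588372091119759619390405892983309063693301357147948439278912580514478676053362092911513546547475144044822888928921720184442254075802157710515947626759601005469602970452918227840436843000176460573414071120627333546120116287271268787667839498909142457711284704959487947348272413504917696374348541145988032373093763520898730960189766246125969057716577220457845393611897449594845656867528466597728275774527095362245290445177620170951995552119890316787021956419394178069483112123441889894008775554043631857924259887301147521770597833268721714673724142176642819915084133132078014892405773630360685219522107509168115846975032762307452436781513602520515572446505393096738076539539247651380329295041708268637866735313082908728525759401992760255788983360924303668072865301362437451344531327568863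5954987978925199775700350334891996213088925084856838617161298975025936300976612400220919716557737120834169690136059230686190760654628459211872885493464510467327310092726510930614296468056937606903060795749714471626480297952405455291746475104242762414660547113487602884427334807794529215149207077930150016096176242425601833687988301268592298999405779166944827175488442874657295626051871286474913750200658788858115588805398167021056682447067411899672276851635468684959049110398616304081348933687463484775574968752122880509914200018676698115594297567025459684679497173402806784087143919264090795877139627600130847894737517821284183823813428339913931567043418721368307302664214479095212792131595383341474213303403786823215578646694031480778248148155236617270198478579189752253975814325736496078009601248010203851969819131021392123858994096551355084658064270965253831903244399501938205447903947216303328072449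2603334040002933112652410852100768649672892040569502394497402362459548963464856495294677784186528504035644469390440098837903922620720893529777380893512922491222987707190934868939748129880570252377789685864431069664303287324628236766083483071223645848206234939279682297640844626667293974167798057002374609357850994295337101672025153964493759328472746582051918488218178131202970986914972723629904414257569557077284662673215221338538714413311948515265441653069701833357453729766396937453476105849841202932138308381190470555089144705717428020158819737700227945953270627017752105629879458644382027884673490587627911246197058635102530456041072625123537965617483425185274212785145853021963841263165054675326020286640652548361283053218366117991757534688266611493340763430390436049632376401436542060980375241049519611227788193306365265951768667771835532798457927612241896811781266349687989664588753152514659874035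419305505122009168052558810442148442797209590015257257519247133927515844710280563960318031110099085877727636108090423173384542995656291115244346174597628106659315547965178161013932526388440973226415747411545628533228304332911640376507224303555283258320857114956259148328636738689930398811260917571313898452357780675959757427250715680114800975400778863577137933843516942832716191642738834413982920643809297790606885630929633015044841744428348189710895728064414047105735318347127469672083218995617578457500977463645734038327660961876507043831307804346583107847284303267208330859282298857226861561845510029337466683507737152797986290632819499589714028003328)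

noncomputable def rc4 : Nat := (nat_lit 2516174552602913317141076189804391837727799908238786066650881851387254343513742787550534292876932220876774955344131933033219016010755287614767967008402042409371238063428127597391635814002000129887639548235667234877080672364851220267962110044893984705495402132074213673675725406966217226270511831717327627063623098840574122801234776840783101828906726366371623167782553434818538703597136552863918733021210355768114767099321171223093171053497562896175197420385221828800797363240686889614173366448639077767897409700978693142353169101498898296402957265834848688303564196511864479976053215470401812968758085595559033972409745493788533971678153068985649968995829324222195521173967938480927669166895199128827118505913698623386734938468566257526463552954670663212406337084959030936886575978513502775598632506100972573600637251824513333445158388818473065525631404546045614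0581497005790742809186049087023068484490361214328934444614018250715264251663440359718611283681440465345279187969769681358283226108730834205106310260994509956923740352792390760402604199037808594206516627665729105946479333342847066588660625868623551310440005872278946217510061099495566957897914136501551750667222097397371507206630587894064855144789032133554737248584535089207441826484228469139061664889996337106588845252315055785134258836034616179009421853973060607398747591607924301344866653174539700369326434182331354542205226243701108053807419877072394140001047139244770501213863344801307066499591541438493527481537843981845729435201782197037058789896813717737663670057470499917950292500272164568684325717777568744632004335783345214675315540406875114421948513295314124701471706196843054685480892101799936365791321636150552287931668185584399772897700824653713360344413007097311440872109760325316257989212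7245603543885416452037222392755311639752072362061106331416683143186933300019580704088851258435494668084820085008654839665035838627932775446249673742489798850071674880668355653567944080521089511695526626244515164592109111885234203140745356673711986836877437805348528366838497802936691804720030679002870996284191786161508636249759933130816741519276051460551257418101802832708621211899502559938088462480245230767569683169142619126745111181519912926826855738787047469060786591415708405451899235583538854348934377067578843933721733704627980119364217608616672218560404461742017083262807159414333881790078250501293893606420985851194154510837185284402855120085879770229920774519516847889522365022154703993138780917265282008706300054621154842261205471796053384484423319030204486361203433193759617165428350179670942734080500946947290390184564914925254131057243771394674494658391972331100553886256102190728733568233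6414466841422084725382241992006841781592972729152049744573925142195465973216691043619225614004234646581976969068226145247085178079451273787409196207630080210196565160332222058538116525603918619426618922867826593355417477265743967323917998355940583506105259641114144888300005445495369877710157173612139094458799885871957939855673845629011120590433487467755348150305418911082246694816784055408251411489076111657543927845410450475351673086012522871412594515205883814063120994418009254258008179583150002391877393916963606712666507484937745240327014000537275868905796482650705570054634246677404671379352383405446281277439642850728545671105302079082966688354183808371872230694732735709573211405711659558948629299480023530513934446452529993138739745225548551141301837056002818978497154172471729211844000626310320986647688586470877262127875934812743344438585249249737099959932297995866856179962701343512541325149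6130728774619110242901752862326653831259582317194018496364290183904986932885163910648952537346255035743826046305493063892779458101092754694981833502915765264179545273079608267640975568675013640967703709401196168023114126524954258245509302758285592919526616817206164365648398700641461156876100486536013013489972411712955723124987099993411918992561735019608992854735542523047347951901444034346237593857738695490426059948141340208260042839079704991820809975060288733865872208167096750954424602680726102706476469716217974539719269427521689729228623637079478058133466932797199233239160139296275097166189631461761185231808936937265417127386809925916236065400645589538980482344124504767341009554132753182698621044069702789994697236670173426905552504917534899393340559460266929384180237608853030323885115391582671069188163997592285133550447250009734620291808939859217775775537621555682812747399039070959987165014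8616750353577382349247343664047504266818815201372146185564846326360149863143340799709742934016582780086662588320595609986371115368987088514576093304001193341650562832744696419316088718349467349892348394626880227283556363774666375148876435972008685373435305760237828498143886268174459055839236357049862568006760348922807038652846407952557815207375674055696644796902999792496046590315231785060317873824316042778013091925602390226717201298763669809164232550687960367274421083783553951567106363372736580016020475826753349444094046856041471721446378590571072609260302784414145000372620979794970545702398041525770524971038399193103786683575126619226258291915655647157129064643520054174950865510576530450310664465527050610449307475068591132282708120020848183073222328490532527893303363120185701473486988051069967754663717104944288141142639043235700158930558743107919525187546383759013851301817375219504712199947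701762835264937314647258918948953608939460687729962278976610623212191592930257254853233580255311813409435312258398182172717007517033060026565330556852603766725013530349876109357378883987135593227933346850709209701337304839778673446784260784059125558999184945658250529781464931618918391513377280672266233028505052236459824365445786485150306164580617041575787260318804076552855370602943624522234912865797560867531171587036895104898947086837470536114947932271859529213766964306338806364891577266834069409153611083195564487849734595561542891412525118186310015639200528520478892565637118471938432528937928416034512161566412506152788190641266502260691231047680)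

noncomputable def rc5 : Nat := (nat_lit 2660288781292627292935635344199028466796208199046509830071969422690031696993012167908070380956707948024533099003390428667799373969790823259785816975271330961161612870573596432315480883986023874569592657900081481298239846789748719630196986850131766847382767623024796334136918096641714789598289513758355615173726756271935371202983673087154291324841401135450059630476995515926794383613540655470876327622233898860074062861634454001935184697891181747598820295609968025646896199116754105784290534222241891799882283759319628114591311138681485688419120724550656581896245584728591575464262230669311734528899450250270073633140608111416752986065143245666185594805887648524249878787959709248128245583638288457949987210879758242282217868022251342484646228334767173633975592188355440891136302860226203089932056959856744498980916396454534480791000382037287733569932792160898117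0683838223449614130836867934489996325084812149533906728784311485399772487897023235454953726982513332671819793620880984552692364436098823147229219184713066214777378317264768118548655295392684878933508028232679819407294724462225432786103853852167672295753842142775500610330019361757705390975749500153310533601627647220969412992683893848249825346152656597485340319324280019669821864940987211834259519951149295724962365604110851447479014903378792636206045813787923606542064218151063123534954850365858168869667219157777956188976544823292982945264129047401934546503704060762642717662598347541288926577338194679189722652525226324104374429337897828277824173309602664373726663001576126692492255534070888661708262297945726762013330037150866892987154770491088841840288584468436233737577665562926233888510996365328259317842559849984158231751312135991894002946320459314934382285375708729082764380409929820893768197384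7173499932143564680615020093341870870415440263847181212730866108053042692103391013781708168128775023461199142405411997742814170807879186364377623006145639065280662955655121112152149519044668141212652291873378285428477092786534461994354894267696994411121685862676554946279721572202883142162182393393805758941672609759307755192533286682126804586475149357458351307523405838097899072579645612506868711093755154804213211144379245703916524297460569922317655708425935191854730616451251514935803326611166896941808641034883990409592704205755199954185222812462452439464216685794359727801706069773199388724099197850258055931138368880840610744579691448567291095704651747188330663831978419627453724628454430981091232756730882070684584790890680843172563363941848033677444528180868982665835789387503020675548981544663867607148121280604609070278964077618373321742418382703211472556969036725278588203660640798794948502205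0009803892997380078584029705089998351358982113048213682533838390273494748122350401295892401099087153632892908727782388659852460102848143466093897585575639759829671819830780758251533404322608976224608137429487729773269504827736688046356121629618919422647641422396340045408616441252458959406273158884075203010529388780914819882694140914032577181122857055057370478165185675030261425312308147821345776619787837916479633926275517942610028368974799305355267845700346429624031249764192885500881216272297821932302044191817361389462414977053590574738544629236310603790260624380577916012109603691439503662252382630169131846803374661686525061927881281525339820071634141200516749290156902778478488199021875664731825036653096547434067263103886846326050762106349802059698431672411487891124269918257108208503959494779204823841791366051148876469172465764725845985357800631903742442292950889924444903762766979004371968409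0452759450154228754624165176545515359611591066357137834161117274524082066201953543902634602115600042852095802744415668534232504754738338118969751410170004216949354412424808231513236225944822992672910523496223373819176727309101023683636945588493388868022669102840608267596850122251012400507940393393751459373302240657774724527610740424781054486115506495271356445541438837297360952071695041333535558116398946216779277579834187119650637229195872467256719024838147630388781027525041266980301035852741042409219411923965555394686422780644915521754692403253230437279390004550881603825513498215786949026778727245063988850400162718236047354753786600363368914397752989476126092849375988918311811691962887218077673830622786358939395113780434655151366692974674280472486920205770735603169480052758533275757622145845514819848017470322825343629518040778199421920567195973130184024875546275891148906192341105906067237594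6298425239967921262931461988374852101906442003586814402301724883590335414786500806593372801550911643178835668036097052353034037708332141442694041194757181531026062695802633887565746635199605121757712209840028967898463743918010417805714975404165351078346350294254305071520203053150141720791306561309294127325724805748492355988937281855414171718572547291946985861965030583517310955288923154642540962444572635666215806592797821557823317295482517923338487495744037849772207702413659986011555947743543645920163451426863906622279406831287343105139230827917020852484446357075749144244722040241558502052638388251232609964291824720034084371967107762106587562670543032065889150061426996809858596486811614690467760748918153824731340888555869105688975386000870946119233201805858716368073149640343080901167399872820847901931484066528820282690789817428442671287069266276539371173119364148651538392506353706630344259452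071812553982321670853842089532753878375733956470983589287841040721512312115765128956654522468908265872950767321946091429995025016263132108560865023308283407412357812908305455498100597773591437679748455968477533731733097504503972738413189705460889469941745338992959482522290331786406280999265155496080287541704166749249990572874996083246910524375698061616637191890664046247046679064196511440884295071842401722994005059371047312039132269286479399789419813561303068276029880070197588504865986978415903315959004752931865846591638838170218559373852631774216051878050103726567225177866209420696330159102539021544329335826287251544848439765917487466734466105344)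

noncomputable def rc6 : Nat := (nat_lit 2798530449337494275391041187368429297557201802520525612862997328409229200037593590894676468588644178222080613925585799287242919746134459431073027403795984626763857158603911167588827557848824087118021029791921142196586362609897052166667246149380937659606145943092128149627843123093216749656244933667401888671728601198416280235153286268068814637049359685332994398820490633499194085283108502172232574088343303811860308453122445268384189858110133663942307402069256930225435021281442143045134959854368900457828791923326232955104284303704279953996742680615046737819281810474147814544391460896230454948157392211553233835200947333186806159957958040770733833928958969234696957225414679638096735098682615804836277599213516055054322918254715265510451011785045384704995917084875884001217100885295143100354526904495898543631488369386369493535600375477000535732820009584246421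8245032313388379306877627029513071762890029642881433054332120829903956117905814175979701831390216676264410050362847812061381495183836724013898931838334595551589956697598447011926957103890443090136676700709900423139009312976116883148488801658845572183868174288844780675429166967473110421604357494920676335144238004346892601205786085462342137200754138834911528014074226255190984779426353271213562530758348708455697993120789673885197247232908329320207680902021911594965605223852759280633759653882656274465465766885852111408386744412080743025752524341394922191817436996354966678177745962482130799924459778479725088238905151357100450549105545458834721113060404573199258542729896163283806906395142414418854548762907165305837470706858552523216084004138564965255538092777927321523821843199613245440905783463729981341941805046509612073277850555802031296644958972788215734313871020647628910878623305162824915328594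2521278182275906731907292498441932092315916199576553927653549751546434911699589448468354282340357255012584747731742835726310844414549357403558057403475576343505046556789840876992711782214613240305968748903751602330560666156538608880293246162965457967172586399781667923847613319560932300340513990187187689596903815165270953682012002588481474875596688660663222713949570656645185141634026211335709005382467452987548061448437450133853555819965058687533702950310439543788587569897962009533193895851000444279084288549121052874932998569028254961002204872716882213289511696128339294532766225903338799151155505918852551021030776737806315455869942780306982021809305292015930130360470311854762673329354698069528833454426058305470732346871772032046283466604146687461659181769014722359860578544551991715727563513625381414015716739151125615275357160367405772499899508305373459842128226313788954967789998582505098617930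1157105609479026858035307182295245027655847083958155753257409123414660628872520571747195370543715026776833081015672857915134152900239370427046577512009021918206383047065056464654641615088319391800880006781214131767024725189740089484108161589604671188656272322010391138099110013205586794004693783712640554002190509899204864473697449701292858247486489734891594763644881914419737369455457704833437418044701153604684184364154410139665831687835676454135663583948428873321031744135736373303495223180327657132385121604219287118795809892422352715599170531894994415009690441085319495508670257257445998154534872766535084080856180597979318069806687362276421781570326749513712539296525328586903656328163737061851224284616069666450837213381912269756044850493557051315147344701053230694944888257471812262334148821164047149913479526068014684704066328795546880093327571070290968494257404714726101264349260693901448912868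1330906829449952226836208569056579110631663127773339945028846642974350182018156293162896496161779325827949149221690777868530776465003520647137304830437274219782609094847083798688568794577108705556881811532925775934043444726548067961694965469324933313327274078619335121393206143366398613229272739218315597297527683510273270005198396113244339460190538081920830950556643982253586721415674216311936499806501908529179816152845151066915474145931276740756195481751583862918703263412409331572767883985273444414237110185367131324169792198718415245932323097026977159163315416413218276482466966742862673483021261814260675406726551573105271590958721569785113823013476725883524911705781790289830485236286946737289910608021778975869465946975851878810873865291056139567673622236376114076924251242743871847410410860113276661396637789556536295899030489197414698700594947885318034160435272620492980131976709003806706452123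6147709330988576953849731337955903758132405962625712671951869990725019322609055194213457236542523085454199821409050658953941183948256614626029681956881277422148616070474987349776598968612830255647956440871869081661043906681621422213087977877671089328846896089064264199676420185157439480036095976144565242080025179189232108687993571123139121244950845400542861829387251751152813827738162456612658767476225143901492585901631834894903466390633428128712443198678145692520786688254479164821698611280709680104506829728976223534079330365592376538248834831914302670581713131423004382516124067593325936130969413640972639515781261710023654591677585066277878351017807093685260261719251308577296687742174710107403470956459324915314244577692739116981181460485389973851047934318680953127822991665073300129611174053785784803139873445022817517106109157775206074110547523474143652881531815536583217973938692653535573728113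507506152980378213078320611188977117454507075209163846035387504726635106064501903906616550090804734490411125546603181555350646585251660868995391001232749148192597545925293366009083146142606624125749237029902744764569773266682055350688481735335372983690681358615519689891949401988122473452647615513805359119241053978023552386863373853385419735215757687992321886257840036111763146008288462095141624695345408265352597501163108433950189524968865950145054789443093189502037081839154639430552698911268351838380397136820711650246228517717241637531895687783861557620342076445104126429877266138177509986121157605710321796963228629896115183529694789683179098734592)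

noncomputable def rc7 : Nat := (nat_lit 2929938015755006774115585794056994961138426367922767279544227742887408621535991586321119736094233913261450166343232110402934765991607116743411601257277465101349244273156102931771739999549995161827092712409294588318192830922819803870416236591139698520509747087939740717298869997992293017023047060209710551030624525926817033472934519434408181180776237241550395272609296128755049429326111880248319986010484015139320508913605698249455799782262465381328791180679835011618912667673911001976824651445616004935383218993672280152104733162368037351753225330028103001445200976732143517627129967628242461466279680186686606990168367228184167924631442092993010290227705383415529271987362869119067871682884377163200032688794483481881268680217873290181734128525222683770462866636324330977477536717164920251254816756154326889560771351566665411793897791783074471625605880468269897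9325009781901444179629755812534092828196600719138924137525520012023136747337611680611044504637553928808510649057589232209927500707033536755869845690961035729898621104347408385524108816351211417769758377440235552989446372769847672220384954919119829139960312374062113555128938139301826396698669016143978727730868681013191723341004019757882481894112738468632162170706134450655999449253553304414540584540126993534822773507482544632864910673242976523756889363983897506538050959089322927438161907687675263925607958144841796853185630203816905780801027623885479478347997856441004427817764231366764787459626382960276132782244305773622550354636124267696501972984680520551811676096159664018282952999784508864738036461882123486305372721076603652993649319156828988342673379503803710573497100366350096822609251821542187365922719764015317999081145957356679273323479603766841186444229574456698986558093560581272558715827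2528816044582199773430170909262364890163420395945428448806414656680984839427993574528160273054112949697522237277157998653104426429087170965877429485639815949831537321248901483690441929812764156097628617820758249133096149075619881899922872569859901508971363353202235329671330651557110618173130777511412380272940887049807104705616390288353702607839387390106815720155078669104416400456871555871013882217861222128177288975350259462041551791168711766939910768826052838022136679699657185703243424044983444738034727156250150920242890797107813310815813082181075476030134885682465232632045175268282231422559282037040869302420868594258250051961870707696162458772514712714284522861626702697611456251902056733935913074052089216398134613185017098645138161229698006941278676663225149365906793868828935244514270401185455455874372708328708439651852296711298165743155197385191381823979993718909061115671529184699251334255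4598986625020852295598128253965024506346366484374368834156572435134522770264025584655017998378297122128357791608595877164415416583347481386229391299302705517153781742388228416813944131126725721800628742993796148889137505060528273976286815687900055507955762236473541406439088175009423127130869161690370235250041834005846125738408909432199496918335207418067194357607732649830187543579822341805109120290523841160749898110454327618645745152671287413437826616239577769499729906713713983180277668347512880401100118949117505464996793248848432548207962786335358784132096397306537037854961325323595790264128399844551092807274753848939601258119446837469555620658807775613025252658539064544690897009454138823440296965016714954171501978862577128335684825426237145724990727536715608738124064420966175401428799117145017693790653694870409297157410948319469846275899657146816895358817729812331066485542269889795821632354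1904218692280640916659479021961118601414523117455322462904597057166826429384218457015586957007723461456100999403678158463728317991075349204035459272247333793220190932352282397966276647738731290893835371784772779391676316189878581020114489459479294495903703425752617439759166095524256437649140537400139014982166810678335977052129124970984890394868902472736997639035085290405101197047185293362688770543114642346932405392059165034457954875326528386837718628352685875802575815177023325322072531727254346111178820303930134297166535440262803874164410932274810721516327225846118436798734296840678731034266965602104563658996819736859527172006548620676896183472017722842253086973046700530046456409229881068356099546613982971415602688218119582307524848106369877204343784864502013512692589034738454261381861659610849438355472096092891044642483992052645805170553700727873124017630313140931523191743570877204685159625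5164240039118780365542198130836732066240363669975553457889210058936509727916486615220605493965574823709265340471614088970945549201049586545991830660056987654612359022005236835296443097838043345852784674554455402856625250002511683447682749104033846297103705333064799270388842817056895722741675779083773112953009303898017916127810025015116624411113351784257541130848403998833636708126435602249641143261533148436432200777867192911385591589665542553248395124602119178017512884603765596825093715244027673593630016193025886726013028409903774754977323700282197824711750649004694919462095530828113557946795788614745662003767054020312484221558294944677472888446706868028221719806615105153382882776278566863230292722018145383686128303871457258934509532226103592992028840115947292199248227931908156160644165384075765817038507288612618404828370916315640915492747649002622477017064594350137368413137602736647700801214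651817165026534991252958177496928915438183184425522340134818644695184852965639900304028417463343420313924235852978959623983821998641568074662987980435007687638176315856287099224340894266915980573844448554807774082436445367520800439289866529912782447427722755486385694544721552538052259503079239312672301758425757363162555017334230851124035533088876814754477761154342541528455577419215527309817236167345291320859922483669789017814578230259641362289710897870679213603051652745972872039018011022650276727358540703056345681770288487387400798804941725686628678047851408969713537364948729435755170106153775561917208656035115012508971379514816389570443587092480)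

noncomputable def rc8 : Nat := (nat_lit 2992905641502900212515713354589505755769422973193474619812309034744909557398567541454209967275599845121974655884134174725779692956310998699023368666852891165585553562376918715723981305389502974004379592041930890551590006019973847621898114928373113484286535667378139955408508959096694365535416157313690293635925678570943255827351420290030038194049303535332640083877155197138645177655287773065636503831237294306218320598304001924428935827487775329910431579489646273281606344539392752964707147950239777078207327771354183511273173812484323390916462288657080241719881243362413539552425313448076172334274839849478706358302586539199290677995406639574913129372108293564440031055604576565572879857994062735183824166050971224554219636624474190911036971189171843760834651620385998792210656145288388011752375323891230000247014037127806724284087439306260182350157318988684949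7780297626907606780253519190521490904452197298913170103960143287738991081053908570504316589819986028564151220366704377353100257560410124671149210578610688750932574928740239472094342401077343196923331447317257125504699656766563632849839608190198018127180368941826669989652943626066849986750622852853341437118203347070705303488635935147578653922554358878708163573216943814943564917216007394415840273009866081881160982417212456737699074930320708734006717516212833723870559443654553875492712097312276951311747544371741571123208764294363404040321425067586298455493457301043717551153475230478912815764435598564389723710508419036172292710077256256567764924415863333520224213293164084151899075636643581058736153769065868635722553059771869976331220266518623600501581857023337959143530960912331408643565516680726068814444213868164852208468277694487671863297284624233681067196217739111084064200146315050149498261380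9907402757222635121150085992973260010038568711267437369199487658936401664420980843165585658015088847420972887281357249818205907956224674630657580982082283133071836555763449220110577908803142336573907360822228626606934970016196527246138650132553173104274842436906449431532197810779414850770043670375529445737781247009819842629990373797503328650979592751250963920800752290275021474469696693450587946687778571586850585766473697330238465775583622068030774612425099223769639847378331182531352968270017771244418101591308750067721499308589746017188706555474872596143073112608979492675718449464254153205584456743414418376490004194826452888743074596700140172732199894426807094703294798426851560109260902725460739977453994984615401034756252515616642767052486289963031509372963220504514284068651373719441693819158815132465554285737087106205381508295725350424364442470108536567479096280305744801829765334914741362142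1949186684220657624003742421614890504600765987416558326511694413231525428160019984113826042918332435129268782132442784570342193311750213046990496300336858187371459546124903193860073367130148321986383857012768861263604872978064442839072449039356615446318984946760332660578175200745333199113169607752509146118488500374943098485770889277176786729814925225893548864672047041040024044768930639228668188495212374589098209316377419917197444460584755344548742285337476175751764609901206059408227438624582135808191310280642856303742860791347466707189358373441368552988720089433059623577968593301384356857506066751202649983367572351095918219292843403968322653581652114107079631550381575503421803181355922102019952602017032087675058259873371742524671317982140512613156939903081786959226395637462643932177259599715745089232225199029638697956695376557333296771837137191911291840648562220128164189531238434164518060490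3384909348447407443807526946426150793864485250834060642359079375467574619068631300360942680092056022773144371795320016259459096169950698560025552855183681644404273565580737996380977095943416287683938979411119955666996518931517921219280440987059221255203747402020203278760606240146995642036417422837671088731863421901566004623899374246734954553445717410184155007924680537800844956355429788862484264431922810507266927370472245492966996932650596464001645894279106504224264407938568918615753897456304540722709669016485105875468684386812176554501081892292749925539955552950950749807217035224491484559678442282272106656644631760908949329700634479261952439264795309516381216526512757018180243649631293198890171958080186546005947100190176751637551820511047846725072936270434474744830592305022213412888185675887190376549559135687266437290771900020207977342847298394981230798270627596099140441357564880010892013660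7026149571461922010222585221639455040942742409829076159856061695109455886097545106327057625134640687278961753026749990897759320738268107065883806319801378163031901296408951743183074939380014037893871250395955585937813389910668709154009831246122439812769954873872596675299046953929729019883392231997227968761247037244915519801733368705949376220761243874355063647558411474750614066208481035876092850191554254216927971060263677712880571077191083035777786680096477154385584248954181364674647974309328354693538376426287137147459370846754983753977716515717032292997828200109153689190310816294267822416082112819993697614354330026755437214553487415062073301684650615897239985711576435181698696521826310156169582468604907655601381280122954070492864926651338004926575454656745165277567442034488798924766680020460496639944161030361015766572428250243219476980342426561626089814932635222934411698980217032968783150778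354194376958306842589446698686150915813974913050230031900977475275172982794918544967603351729537010143961092928570896077950005122786053213478351592526694399959697902902504260552204928624607886138319093126674329040181186749554206011574495166588649604141357687185633232580395972698917113330774775097930706651594726866534048727711113392945806418976213898708050409841058511592594048437219060246570987545914507226819508275280807491523835859160250859858896821349388439085782707540911889796427116957657736201678685269061692350103076739202861597437647014767180550526174910324961881596869663774464470017632354820279057240497885966949152898674749695601390016004096)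

end Vale.Agent.Lib.P154.PChain.BU.S6
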